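import Mathlib
import Vale.Agent.P150.Bdl.B38

/-! P150, block A1 (base): polynomial one-step entropy loss, Pinsker inequality, iterates of the
one-step average of an adaptive channel process. -/

open MeasureTheory ProbabilityTheory Filter Topology Real
open scoped Matrix

namespace Vale.Agent.N150.A1

open Vale.Agent.P150 Vale.Agent.P150.F Vale.Agent.P150.F.CH4pp
open Vale.Agent.P245 (gsn EG1)

/-! ### polynomial one-step loss -/

/-- a Gaussian exponential moment -/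
noncomputable def Iz : ℝ := ∫ t, Real.exp (8 * |t|) ∂(gaussianReal 0 1)

theorem Iz_nonneg : 0 ≤ Iz := integral_nonneg fun _ => (Real.exp_pos _).le

/-- the absolute constant of the one-step loss -/
noncomputable def K0 : ℝ := 2 * Real.exp 1 + 6 * (Real.exp 8 * (Iz + 1))

theorem K0_nonneg : 0 ≤ K0 := by
  have := Iz_nonneg
  unfold K0; positivity

theorem exp_S1_le {m : ℕ} {w : ℝ} (hw : 0 ≤ w) (hm : m * w ≤ 1) (g : Fin m → ℝ) :
    Real.exp (8 * (w * S1 g)) ≤ ∑ k, w * Real.exp (8 * |g k|) + 1 := by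
  set t := 8 * (w * S1 g) with ht
  have tang : ∀ a : ℝ, Real.exp t * (1 + a - t) ≤ Real.exp a := by
    intro a
    have h1 := Real.add_one_le_exp (a - t)
    have h2 : Real.exp a = Real.exp t * Real.exp (a - t) := by rw [← Real.exp_add]; ring_nf
    rw [h2]
    exact mul_le_mul_of_nonneg_left (by linarith) (Real.exp_pos _).le
  have h1 : ∑ k, w * (Real.exp t * (1 + 8 * |g k| - t)) ≤ ∑ k, w * Real.exp (8 * |g k|) :=
    Finset.sum_le_sum fun k _ => mul_le_mul_of_nonneg_left (tang _) hw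
  have h2 : ∑ k : Fin m, w * (Real.exp t * (1 + 8 * |g k| - t))
      = Real.exp t * (m * w * (1 - t) + t) := by
    have e : ∀ k : Fin m, w * (Real.exp t * (1 + 8 * |g k| - t))
        = Real.exp t * w * (1 - t) + Real.exp t * (8 * w) * |g k| := fun k => by ring
    simp only [e, Finset.sum_add_distrib, ← Finset.mul_sum, Finset.sum_const, Finset.card_univ,
      Fintype.card_fin, nsmul_eq_mul]
    have e2 : ∑ k, |g k| = S1 g := rfl
    rw [e2]
    have e3 : Real.exp t * (8 * w) * S1 g = Real.exp t * t := by rw [ht]; ring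
    rw [e3]; ring
  have h3 := tang 0
  rw [Real.exp_zero] at h3
  have h4 : (1 - m * w) * (Real.exp t * (1 + 0 - t)) ≤ (1 - m * w) * 1 :=
    mul_le_mul_of_nonneg_left h3 (by linarith)
  have h5 : 0 ≤ (m : ℝ) * w := by positivity
  nlinarith

theorem KB1_le {m : ℕ} {w : ℝ} (hw : 0 ≤ w) (hm : m * w ≤ 1) (hm2 : m * w ^ 2 ≤ 1) :
    KB1 m 8 w ≤ Real.exp 8 * (Iz + 1) := by
  unfold KB1
  have hI : ∀ k : Fin m, Integrable (fun g : Fin m → ℝ => Real.exp (8 * |g k|)) (gsn m) := by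
    intro k
    refine EG1.integrable (eg1_of_le (C := 1) (c := 8) fun z => ?_)
      (Continuous.aestronglyMeasurable (by fun_prop))
    rw [abs_of_pos (Real.exp_pos _), one_mul]
    refine Real.exp_le_exp.2 (mul_le_mul_of_nonneg_left ?_ (by norm_num))
    exact Finset.single_le_sum (f := fun j => |z j|) (fun j _ => abs_nonneg _) (Finset.mem_univ k)
  have hv : ∀ k : Fin m, ∫ g : Fin m → ℝ, Real.exp (8 * |g k|) ∂(gsn m) = Iz := by
    intro k
    rw [← gpi_eq_gsn]
    have hp : MeasurePreserving (Function.eval k) (gpi (Fin m)) (gaussianReal 0 1) :=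
      measurePreserving_eval _ k
    unfold Iz
    rw [← hp.map_eq, integral_map hp.measurable.aemeasurable (by fun_prop)]
  have : IsProbabilityMeasure (gsn m) := by rw [← gpi_eq_gsn]; infer_instance
  have hI2 : Integrable (fun g : Fin m → ℝ => ∑ k, w * Real.exp (8 * |g k|)) (gsn m) :=
    integrable_finsetSum _ fun k _ => (hI k).const_mul w
  have h1 : ∫ g, Real.exp (8 * Bd1 m w g) ∂(gsn m)
      ≤ ∫ g, Real.exp 8 * (∑ k, w * Real.exp (8 * |g k|) + 1) ∂(gsn m) := by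
    refine integral_mono (integrable_exp_Bd1 8 w) ((hI2.add (integrable_const 1)).const_mul _)
      fun g => ?_
    have h2 := exp_S1_le hw hm g
    have h3 : Real.exp (8 * Bd1 m w g) = Real.exp (8 * (m * w ^ 2)) * Real.exp (8 * (w * S1 g)) := by
      rw [← Real.exp_add]; unfold Bd1; ring_nf
    beta_reduce
    rw [h3]
    exact mul_le_mul (Real.exp_le_exp.2 (by linarith)) h2 (Real.exp_pos _).le (Real.exp_pos _).le
  refine h1.trans ?_
  rw [integral_const_mul, integral_add hI2 (integrable_const 1),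
    integral_finsetSum _ fun k _ => (hI k).const_mul w]
  simp only [integral_const_mul, hv, Finset.sum_const, Finset.card_univ, Fintype.card_fin,
    nsmul_eq_mul, integral_const, probReal_univ, smul_eq_mul, mul_one]
  refine mul_le_mul_of_nonneg_left ?_ (Real.exp_pos _).le
  have := mul_le_mul_of_nonneg_right hm Iz_nonneg
  nlinarith

theorem obs_scale {n m : ℕ} (R : Matrix (Fin n) (Fin m) ℝ) {δ lam : ℝ} (hl : 0 < lam)
    (x : Cfg n) (ξ : Fin m → ℝ) :
    obs (lam⁻¹ • R) (lam ^ 2 * δ) x ξ = obs R δ x ξ := by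
  funext i
  unfold obs
  rw [Matrix.transpose_smul, Matrix.smul_mul, Matrix.mul_smul, Matrix.smul_mulVec,
    Matrix.smul_mulVec, Matrix.smul_mulVec, Real.sqrt_mul (sq_nonneg _), Real.sqrt_sq hl.le]
  simp only [Pi.smul_apply, smul_eq_mul]
  field_simp

theorem qf_smul {n : ℕ} (c : ℝ) (A : Mat n) (v : Vec n) : qf (c • A) v = c * qf A v := by
  unfold qf
  rw [Matrix.smul_mulVec, ip_smul_right]

theorem evd_scale {n m : ℕ} (R : Matrix (Fin n) (Fin m) ℝ) {δ lam : ℝ} (hl : 0 < lam)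
    (ν : Cfg n → ℝ) (z : Vec n) :
    evd ν ((lam⁻¹ • R) * (lam⁻¹ • R)ᵀ) (lam ^ 2 * δ) z = evd ν (R * Rᵀ) δ z := by
  unfold evd
  refine Finset.sum_congr rfl fun x _ => ?_
  rw [Matrix.transpose_smul, Matrix.smul_mul, Matrix.mul_smul, qf_smul, qf_smul]
  congr 2
  field_simp

/-- one-step loss of relative entropy with a polynomial error -/
theorem ch4poly {n m : ℕ} {R : Matrix (Fin n) (Fin m) ℝ} {C lam δ : ℝ} (hl : 0 < lam)
    (hC : 0 ≤ C) (hR : ∀ i j, |R i j| ≤ C) (hlam : m * (n * C) ≤ lam) (hδ : 0 ≤ δ)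
    (hδ1 : lam ^ 2 * δ ≤ 1) {ν μ : Cfg n → ℝ} (hν : IsProb ν) (hμ : IsProb μ) :
    EC ν R δ (fun _ z => Real.log (evd ν (R * Rᵀ) δ z) - Real.log (evd μ (R * Rᵀ) δ z))
      ≤ δ / 2 * qf (R * Rᵀ) (fun i => mean ν i - mean μ i) + K0 * lam ^ 3 * (δ * √δ) := by
  set R' := lam⁻¹ • R with hR'
  set δ' := lam ^ 2 * δ with hδ'
  have hδ'0 : 0 ≤ δ' := by positivity
  set w : ℝ := n * (lam⁻¹ * C) with hw
  have hw0 : 0 ≤ w := by positivity
  have hmw : m * w ≤ 1 := by
    have : m * w = (m * (n * C)) / lam := by rw [hw]; field_simp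
    rw [this, div_le_one hl]; exact hlam
  have hmw2 : m * w ^ 2 ≤ 1 := by
    rcases Nat.eq_zero_or_pos m with h0 | h0
    · simp [h0]
    · have h1 : (1 : ℝ) ≤ m := by exact_mod_cast h0
      have h2 : w ≤ 1 := by nlinarith
      nlinarith
  have hV : ∀ x k, |chv R' x k| ≤ w := fun x k =>
    abs_sg (fun i j => by
      rw [hR', Matrix.smul_apply, smul_eq_mul, abs_mul, abs_of_pos (inv_pos.2 hl)]
      exact mul_le_mul_of_nonneg_left (hR i j) (inv_pos.2 hl).le) x k
  have e0 : EC ν R δ (fun _ z => Real.log (evd ν (R * Rᵀ) δ z) - Real.log (evd μ (R * Rᵀ) δ z))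
      = EC ν R' δ' (fun _ z => Real.log (evd ν (R' * R'ᵀ) δ' z)
        - Real.log (evd μ (R' * R'ᵀ) δ' z)) := by
    unfold EC
    simp only [hR', hδ', obs_scale R hl, evd_scale R hl]
  have h0 := EC_label ν R' hδ'0
    (fun z => Real.log (evd ν (R' * R'ᵀ) δ' z) - Real.log (evd μ (R' * R'ᵀ) δ' z)) (fun x => by
      simp only [evd_lb]
      exact integrable_lk_log hδ'0 hδ1 hw0 hV hν hμ x)
  simp only [evd_lb] at h0
  have h1 := kl_two hδ'0 hδ1 hw0 hV hν.1 hν.2 hμ.1 hμ.2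
  have h2 : ∑ k, (∑ x, (ν x - μ x) * chv R' x k) ^ 2
      = qf (R' * R'ᵀ) (fun i => mean ν i - mean μ i) := by
    rw [qf_RRt]
    simp only [mulVec_mean]
  rw [h2] at h1
  rw [e0]
  refine (h0.trans_le h1).trans ?_
  have e1 : δ' / 2 * qf (R' * R'ᵀ) (fun i => mean ν i - mean μ i)
      = δ / 2 * qf (R * Rᵀ) (fun i => mean ν i - mean μ i) := by
    rw [hR', Matrix.transpose_smul, Matrix.smul_mul, Matrix.mul_smul, qf_smul, qf_smul, hδ']
    field_simp
  have e2 : δ' * √δ' = lam ^ 3 * (δ * √δ) := by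
    rw [hδ', Real.sqrt_mul (sq_nonneg _), Real.sqrt_sq hl.le]; ring
  rw [e1, e2, ← mul_assoc]
  refine add_le_add le_rfl (mul_le_mul_of_nonneg_right (mul_le_mul_of_nonneg_right ?_
    (by positivity)) (by positivity))
  have h3 := KB1_le hw0 hmw hmw2
  have h4 : (m * w ^ 2) ^ 2 * Real.exp (m * w ^ 2) ≤ Real.exp 1 := by
    have h5 : (m * w ^ 2) ^ 2 ≤ (1 : ℝ) := pow_le_one₀ (by positivity) hmw2
    have h6 := Real.exp_le_exp.2 hmw2
    calc (m * w ^ 2) ^ 2 * Real.exp (m * w ^ 2) ≤ 1 * Real.exp 1 :=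
          mul_le_mul h5 h6 (Real.exp_pos _).le zero_le_one
      _ = _ := one_mul _
  unfold K0
  linarith

/-! ### Pinsker -/

theorem pinsker {n : ℕ} {ν μ : Cfg n → ℝ} (hν : IsProb ν) (hμ : IsProb μ) (hμ0 : ∀ x, 0 < μ x) :
    (∑ x, |ν x - μ x|) ^ 2 ≤ 2 * KL ν μ := by
  set h : Cfg n → ℝ := fun x => ν x / μ x with hh
  have h0 : ∀ x, 0 ≤ h x := fun x => div_nonneg (hν.1 x) (hμ0 x).le
  have hm : ∀ x, μ x * h x = ν x := fun x => by
    have := hμ0 x
    simp only [hh]; field_simp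
  have e1 : ∑ y, μ y * ((2 * h y + 4) / 3) = 2 := by
    have : ∀ y, μ y * ((2 * h y + 4) / 3) = (2 / 3) * ν y + (4 / 3) * μ y := by
      intro y; rw [← hm y]; ring
    simp only [this, Finset.sum_add_distrib, ← Finset.mul_sum]
    rw [hν.2, hμ.2]; norm_num
  have e2 : ∑ y, μ y * (h y * Real.log (h y) - h y + 1) = KL ν μ := by
    have : ∀ y, μ y * (h y * Real.log (h y) - h y + 1)
        = ν y * Real.log (ν y / μ y) - ν y + μ y := by
      intro y
      have e : ν y / μ y = h y := rfl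
      rw [e, ← hm y]; ring
    simp only [this, Finset.sum_add_distrib, Finset.sum_sub_distrib]
    unfold KL
    rw [hν.2, hμ.2]; ring
  rw [← e2]
  conv_rhs => rw [← e1]
  apply Finset.sum_sq_le_sum_mul_sum_of_sq_le_mul
  · intro y _
    have := hμ0 y
    have := h0 y
    positivity
  · intro y _
    exact mul_nonneg (hμ0 y).le (Semi.pinsker_pt_nonneg _ (h0 y))
  · intro y _
    have hp := Semi.pinsker_pt (h y) (h0 y)
    have hg := hμ0 y
    have e3 : |ν y - μ y| ^ 2 = μ y ^ 2 * (h y - 1) ^ 2 := by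
      rw [sq_abs, ← hm y]; ring
    have : μ y * ((2 * h y + 4) / 3) * (μ y * (h y * Real.log (h y) - h y + 1))
      = μ y ^ 2 * (((2 * h y + 4) * (h y * Real.log (h y) - h y + 1)) / 3) := by ring
    rw [this, e3]
    apply mul_le_mul_of_nonneg_left _ (by positivity)
    linarith only [hp]

theorem KL_nonneg {n : ℕ} {ν μ : Cfg n → ℝ} (hν : IsProb ν) (hμ : IsProb μ) (hμ0 : ∀ x, 0 < μ x) :
    0 ≤ KL ν μ := by
  have := pinsker hν hμ hμ0
  nlinarith [sq_nonneg (∑ x, |ν x - μ x|)]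

/-- Pinsker for a bounded test function, in square-root free form -/
theorem pinsker_test {n : ℕ} {ν μ : Cfg n → ℝ} (hν : IsProb ν) (hμ : IsProb μ)
    (hμ0 : ∀ x, 0 < μ x) {g : Cfg n → ℝ} {D M t : ℝ} (ht : 0 < t) (hD : 0 ≤ D) (hM : 0 ≤ M)
    (hg : ∀ x, g x ^ 2 ≤ D * M) :
    ∑ x, (ν x - μ x) * g x ≤ t * D + M / (2 * t) * KL ν μ := by
  set a := ∑ x, |ν x - μ x| with ha
  have ha0 : 0 ≤ a := Finset.sum_nonneg fun _ _ => abs_nonneg _
  have h1 : ∑ x, (ν x - μ x) * g x ≤ a * √(D * M) := by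
    rw [ha, Finset.sum_mul]
    refine Finset.sum_le_sum fun x _ => (le_abs_self _).trans ?_
    rw [abs_mul]
    exact mul_le_mul_of_nonneg_left (Real.abs_le_sqrt (hg x)) (abs_nonneg _)
  have h2 := pinsker hν hμ hμ0
  rw [← ha] at h2
  have h3 : √(D * M) = √D * √M := Real.sqrt_mul hD M
  have hD2 := Real.sq_sqrt hD
  have hM2 := Real.sq_sqrt hM
  have h4 : a * (√D * √M) ≤ t * D + M / (4 * t) * a ^ 2 := by
    have h5 : 0 ≤ (2 * t * √D - a * √M) ^ 2 / (4 * t) := by positivity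
    have h6 : (2 * t * √D - a * √M) ^ 2 / (4 * t)
        = t * √D ^ 2 - a * (√D * √M) + √M ^ 2 / (4 * t) * a ^ 2 := by
      field_simp; ring
    rw [h6, hD2, hM2] at h5
    linarith
  have h7 : M / (4 * t) * a ^ 2 ≤ M / (4 * t) * (2 * KL ν μ) :=
    mul_le_mul_of_nonneg_left h2 (by positivity)
  have h8 : M / (4 * t) * (2 * KL ν μ) = M / (2 * t) * KL ν μ := by field_simp; ring
  rw [h3] at h1
  linarith

/-! ### iterates of the one-step average -/

section iter

variable {n m : ℕ} {S : Type} [MeasurableSpace S] (P : Proc n m S)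

theorem bm_T {Φ : S → Cfg n → ℝ} (h : ∀ x, BM fun s => Φ s x) (x : Cfg n) :
    BM fun s => P.T Φ s x := by
  refine ⟨P.meas_T (fun x => (h x).1) x, ?_⟩
  obtain ⟨C, hC⟩ := (h x).2
  refine ⟨C, fun s => ?_⟩
  unfold Proc.T
  rw [← Real.norm_eq_abs]
  refine (norm_integral_le_of_norm_le_const (C := C)
    (Eventually.of_forall fun ω => by rw [Real.norm_eq_abs]; exact hC _)).trans ?_
  simp

theorem bm_U {Φ : S → ℝ} (h : BM Φ) : BM (P.U Φ) :=
  P.bm_avg fun x => bm_T P (Φ := fun s' _ => Φ s') (fun _ => h) x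

theorem bm_it {Φ : S → ℝ} (h : BM Φ) (k : ℕ) : BM (P.U^[k] Φ) := by
  induction k with
  | zero => exact h
  | succ k ih => rw [Function.iterate_succ_apply']; exact bm_U P ih

theorem it_add {Φ Ψ : S → ℝ} (hΦ : BM Φ) (hΨ : BM Ψ) (k : ℕ) :
    P.U^[k] (fun s => Φ s + Ψ s) = fun s => P.U^[k] Φ s + P.U^[k] Ψ s := by
  induction k with
  | zero => rfl
  | succ k ih =>
    simp only [Function.iterate_succ_apply', ih]
    funext s
    exact P.U_add (bm_it P hΦ k) (bm_it P hΨ k) s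

theorem it_const_mul (c : ℝ) (Φ : S → ℝ) (k : ℕ) :
    P.U^[k] (fun s => c * Φ s) = fun s => c * P.U^[k] Φ s := by
  induction k with
  | zero => rfl
  | succ k ih =>
    simp only [Function.iterate_succ_apply', ih]
    funext s
    exact P.U_const_mul c _ s

theorem it_const (c : ℝ) (k : ℕ) : P.U^[k] (fun _ => c) = fun _ => c := by
  induction k with
  | zero => rfl
  | succ k ih =>
    simp only [Function.iterate_succ_apply', ih]
    funext s
    exact P.U_const c s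

theorem it_wt (f : Cfg n → ℝ) (k : ℕ) : P.U^[k] (P.wt f) = P.wt f := by
  induction k with
  | zero => rfl
  | succ k ih =>
    simp only [Function.iterate_succ_apply', ih]
    funext s
    exact P.U_wt thCH1 thCHG f s

/-- monotonicity along invariant layers -/
theorem it_mono {Lay : ℕ → Set S} (hLay : ∀ k s z, s ∈ Lay k → P.nxt s z ∈ Lay (k + 1))
    {Φ Ψ : S → ℝ} (hΦ : BM Φ) (hΨ : BM Ψ) (k : ℕ) :
    ∀ j, (∀ s ∈ Lay (j + k), Φ s ≤ Ψ s) → ∀ s ∈ Lay j, P.U^[k] Φ s ≤ P.U^[k] Ψ s := by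
  induction k with
  | zero => intro j h s hs; exact h s hs
  | succ k ih =>
    intro j h s hs
    simp only [Function.iterate_succ_apply']
    refine P.U_mono (bm_it P hΦ k) (bm_it P hΨ k) fun z => ?_
    exact ih (j + 1) (fun s hs => h s (by rwa [show j + (k + 1) = j + 1 + k by ring])) _
      (hLay j s z hs)

theorem it_mono' {Φ Ψ : S → ℝ} (hΦ : BM Φ) (hΨ : BM Ψ) (h : ∀ s, Φ s ≤ Ψ s) (k : ℕ) (s : S) :
    P.U^[k] Φ s ≤ P.U^[k] Ψ s :=
  it_mono P (Lay := fun _ => Set.univ) (fun _ _ _ _ => trivial) hΦ hΨ k 0 (fun s _ => h s) s trivial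

theorem it_nonneg {Φ : S → ℝ} (hΦ : BM Φ) (h : ∀ s, 0 ≤ Φ s) (k : ℕ) (s : S) :
    0 ≤ P.U^[k] Φ s := by
  have := it_mono' P (BM.const 0) hΦ h k s
  rwa [it_const] at this

theorem exists_bound {Φ : S → Cfg n → ℝ} (h : ∀ x, BM fun s => Φ s x) :
    ∃ C, ∀ s x, |Φ s x| ≤ C := by
  choose C hC using fun x => (h x).2
  refine ⟨∑ x, |C x|, fun s x => (hC x s).trans ((le_abs_self _).trans ?_)⟩
  exact Finset.single_le_sum (f := fun x => |C x|) (fun _ _ => abs_nonneg _) (Finset.mem_univ x)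

theorem bm_ET {Φ : S → Cfg n → ℝ} (h : ∀ x, BM fun s => Φ s x) (k : ℕ) (x : Cfg n) :
    BM fun s => P.ET k Φ s x := by
  obtain ⟨C, hC⟩ := exists_bound h
  exact ⟨P.meas_ET (fun x => (h x).1) k x, C, fun s => P.abs_ET_le hC k s x⟩

/-- the iterate as an expectation on the path space -/
theorem it_avg {Φ : S → Cfg n → ℝ} (h : ∀ x, BM fun s => Φ s x) (k : ℕ) :
    P.U^[k] (P.avg Φ) = P.avg (P.ET k Φ) := by
  obtain ⟨C, hC⟩ := exists_bound h
  induction k with
  | zero =>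
    funext s
    show P.avg Φ s = _
    unfold Proc.avg
    simp only [Proc.ET_zero]
  | succ k ih =>
    funext s
    rw [Function.iterate_succ_apply', ih, P.U_avg thCH1 thCHG (bm_ET P h k)]
    unfold Proc.avg
    simp only [P.ET_succ (fun x => (h x).1) hC]

theorem it_eq_ET {Φ : S → ℝ} (h : BM Φ) (k : ℕ) (s : S) :
    P.U^[k] Φ s = ∑ x, P.law s x * ∫ ω, Φ (P.traj s x ω k) ∂PN m := by
  have e : Φ = P.avg fun s _ => Φ s := by
    funext s; exact (P.avg_of_const Φ s).symm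
  conv_lhs => rw [e, it_avg P (fun _ => h)]
  rfl

theorem it_ep_le {f : Cfg n → ℝ} (hf : ∀ x, 0 < f x) (k : ℕ) (s : S) :
    P.U^[k] (P.ep f) s ≤ P.ep f s := by
  induction k generalizing s with
  | zero => exact le_rfl
  | succ k ih =>
    rw [Function.iterate_succ_apply']
    exact (P.U_mono (bm_it P (P.bm_ep f) k) (P.bm_ep f) fun z => ih _).trans
      (P.U_ep_le thCH5 thCHG hf s)

theorem ent_nonneg {f : Cfg n → ℝ} (hf : ∀ x, 0 < f x) (s : S) : 0 ≤ P.ent f s := by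
  rw [P.ent_eq hf]
  exact mul_nonneg (P.wt_pos hf s).le (KL_nonneg (P.nuf_isProb hf s) (P.law_isProb s) (P.law_pos s))

/-- one step of the entropy with the polynomial error -/
theorem ent_step_poly {f : Cfg n → ℝ} (hf : ∀ x, 0 < f x) {s : S} {C lam : ℝ} (hl : 0 < lam)
    (hC : 0 ≤ C) (hR : ∀ i j, |P.R s i j| ≤ C) (hlam : m * (n * C) ≤ lam)
    (hδ1 : lam ^ 2 * P.δ s ≤ 1) :
    P.ent f s ≤ P.U (P.ent f) s + P.wt f s * (P.δ s / 2 *
      qf (P.Q s) (fun i => mean (P.nuf f s) i - mean (P.law s) i)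
        + K0 * lam ^ 3 * (P.δ s * √(P.δ s))) :=
  P.ent_step thCH1 thCHG thCH4' hf
    (ch4poly hl hC hR hlam (P.hδ s).le hδ1 (P.nuf_isProb hf s) (P.law_isProb s))

end iter

end Vale.Agent.N150.A1
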