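import Mathlib
import Vale.Agent.N150.A1Base

/-! P150, block A1': propagator and anticipating remainder of a tracked mean, the Bayes identity and
the one-time bound for the difference of two posterior means. -/

open MeasureTheory ProbabilityTheory Filter Topology Real
open scoped Matrix

namespace Vale.Agent.N150.A1

open Vale.Agent.P150 Vale.Agent.P150.F

/-! ### bounded measurable functions -/

section bm

variable {S S' : Type} [MeasurableSpace S] [MeasurableSpace S']

theorem bm_comp {Φ : S → ℝ} (h : BM Φ) {g : S' → S} (hg : Measurable g) : BM fun s => Φ (g s) := by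
  obtain ⟨h1, C, hC⟩ := h
  exact ⟨h1.comp hg, C, fun s => hC _⟩

theorem bm_integrable {Φ : S → ℝ} (h : BM Φ) (μ : Measure S) [IsFiniteMeasure μ] :
    Integrable Φ μ := by
  obtain ⟨h1, C, hC⟩ := h
  exact Integrable.of_bound h1.aestronglyMeasurable C
    (Eventually.of_forall fun ω => by rw [Real.norm_eq_abs]; exact hC _)

theorem bm_right {F : S → S' → ℝ} (h : BM fun p : S × S' => F p.1 p.2) (s : S) : BM (F s) :=
  bm_comp h (g := fun ω => (s, ω)) (measurable_const.prodMk measurable_id)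

theorem bm_int {F : S → S' → ℝ} (h : BM fun p : S × S' => F p.1 p.2) (μ : Measure S')
    [IsProbabilityMeasure μ] : BM fun s => ∫ ω, F s ω ∂μ := by
  obtain ⟨h1, C, hC⟩ := h
  refine ⟨(h1.stronglyMeasurable.integral_prod_right').measurable, C, fun s => ?_⟩
  rw [← Real.norm_eq_abs]
  refine (norm_integral_le_of_norm_le_const (C := C)
    (Eventually.of_forall fun ω => by rw [Real.norm_eq_abs]; exact hC (s, ω))).trans ?_
  simp

theorem bm_mulVec {a b : ℕ} {A : S → Matrix (Fin a) (Fin b) ℝ} {v : S → Fin b → ℝ}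
    (hA : ∀ i j, BM fun s => A s i j) (hv : ∀ j, BM fun s => v s j) (i : Fin a) :
    BM fun s => (A s *ᵥ v s) i :=
  BM.sum Finset.univ fun j _ => (hA i j).mul (hv j)

theorem bm_sq {a : ℕ} {v : S → Vec a} (hv : ∀ j, BM fun s => v s j) : BM fun s => F.sq (v s) :=
  BM.sum Finset.univ fun j _ => (hv j).pow_two

theorem bm_ip {a : ℕ} {u v : S → Vec a} (hu : ∀ j, BM fun s => u s j)
    (hv : ∀ j, BM fun s => v s j) : BM fun s => ip (u s) (v s) :=
  BM.sum Finset.univ fun j _ => (hu j).mul (hv j)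

theorem bm_ind {B : Set S} (hB : MeasurableSet B) : BM (B.indicator fun _ => (1 : ℝ)) := by
  refine ⟨measurable_const.indicator hB, 1, fun s => ?_⟩
  by_cases h : s ∈ B <;> simp [h]

end bm

/-! ### the scalar inequality -/

theorem l1_test {X : Type} [Fintype X] {ν μ g : X → ℝ} {D M t : ℝ} (ht : 0 < t) (hD : 0 ≤ D)
    (hM : 0 ≤ M) (hg : ∀ x, g x ^ 2 ≤ D * M) :
    ∑ x, (ν x - μ x) * g x ≤ t * D + M / (4 * t) * (∑ x, |ν x - μ x|) ^ 2 := by
  set a := ∑ x, |ν x - μ x| with ha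
  have h1 : ∑ x, (ν x - μ x) * g x ≤ a * √(D * M) := by
    rw [ha, Finset.sum_mul]
    refine Finset.sum_le_sum fun x _ => (le_abs_self _).trans ?_
    rw [abs_mul]
    exact mul_le_mul_of_nonneg_left (Real.abs_le_sqrt (hg x)) (abs_nonneg _)
  have h3 : √(D * M) = √D * √M := Real.sqrt_mul hD M
  have hD2 := Real.sq_sqrt hD
  have hM2 := Real.sq_sqrt hM
  have h5 : 0 ≤ (2 * t * √D - a * √M) ^ 2 / (4 * t) := by positivity
  have h6 : (2 * t * √D - a * √M) ^ 2 / (4 * t)
      = t * √D ^ 2 - a * (√D * √M) + √M ^ 2 / (4 * t) * a ^ 2 := by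
    field_simp; ring
  rw [h6, hD2, hM2] at h5
  rw [h3] at h1
  linarith

theorem le_of_sq_le {a D M t : ℝ} (ht : 0 < t) (hD : 0 ≤ D) (hM : 0 ≤ M) (h : a ^ 2 ≤ D * M) :
    |a| ≤ t * D + M / (4 * t) := by
  have h1 := l1_test (X := Unit) (ν := fun _ => 1) (μ := fun _ => 0) (g := fun _ => |a|) ht hD hM
    (fun _ => by rwa [sq_abs])
  simpa using h1

theorem scalar_one {X Ω : Type} [Fintype X] [MeasurableSpace Ω] (pr : Measure Ω)
    [IsProbabilityMeasure pr] {ν μ : X → ℝ} (hν0 : ∀ x, 0 ≤ ν x) (hν1 : ∑ x, ν x = 1)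
    (hμ0 : ∀ x, 0 ≤ μ x) (hμ1 : ∑ x, μ x = 1) {α β y : X → Ω → ℝ} (hα : ∀ x, BM (α x))
    (hβ : ∀ x, BM (β x)) (hy : ∀ x, BM (y x)) (hy0 : ∀ x ω, 0 ≤ y x ω) {Bd : X → Set Ω}
    (hBd : ∀ x, MeasurableSet (Bd x)) {D M B1 B2 : ℝ} (hD : 0 ≤ D) (hM : 0 ≤ M) (hB1 : 0 ≤ B1)
    (hB2 : 0 ≤ B2)
    (hid : D = ∑ x, ν x * ∫ ω, α x ω ∂pr + ∑ x, (ν x - μ x) * ∫ ω, β x ω ∂pr)
    (hg : ∀ x ω, ω ∉ Bd x → α x ω ^ 2 ≤ D * y x ω ∧ β x ω ^ 2 ≤ D * M)
    (hc : ∀ x ω, α x ω ^ 2 ≤ D * B1 ∧ β x ω ^ 2 ≤ D * B2) :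
    D ≤ 3 * ∑ x, ν x * ∫ ω, y x ω ∂pr + 3 * M * (∑ x, |ν x - μ x|) ^ 2
      + (3 * B1 + 6 * B2) * ∑ x, ν x * pr.real (Bd x) + 6 * B2 * ∑ x, μ x * pr.real (Bd x) := by
  have hind : ∀ x, ∫ ω, (Bd x).indicator (fun _ => (1 : ℝ)) ω ∂pr = pr.real (Bd x) := by
    intro x; rw [integral_indicator (hBd x)]; simp
  have hp1 : ∀ x, pr.real (Bd x) ≤ 1 := fun x => measureReal_le_one
  have hp0 : ∀ x, 0 ≤ pr.real (Bd x) := fun x => measureReal_nonneg
  -- first term
  have h1 : ∀ x, ∫ ω, α x ω ∂pr ≤ D / 6 + 3 / 2 * ∫ ω, y x ω ∂pr + 3 / 2 * B1 * pr.real (Bd x) := by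
    intro x
    have i1 := bm_integrable (hy x) pr
    have i2 := bm_integrable (bm_ind (hBd x)) pr
    have h2 : ∫ ω, α x ω ∂pr ≤ ∫ ω, (D / 6 + 3 / 2 * y x ω
        + 3 / 2 * B1 * (Bd x).indicator (fun _ => (1 : ℝ)) ω) ∂pr := by
      refine integral_mono (bm_integrable (hα x) pr)
        (((integrable_const _).add (i1.const_mul _)).add (i2.const_mul _)) fun ω => ?_
      beta_reduce
      by_cases hω : ω ∈ Bd x
      · have := le_of_sq_le (t := 1 / 6) (by norm_num) hD hB1 (hc x ω).1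
        have h3 := le_abs_self (α x ω)
        have h4 := hy0 x ω
        rw [show B1 / (4 * (1 / 6)) = 3 / 2 * B1 by ring] at this
        rw [Set.indicator_of_mem hω]
        linarith
      · have := le_of_sq_le (t := 1 / 6) (by norm_num) hD (hy0 x ω) (hg x ω hω).1
        have h3 := le_abs_self (α x ω)
        rw [show y x ω / (4 * (1 / 6)) = 3 / 2 * y x ω by ring] at this
        rw [Set.indicator_of_notMem hω]
        linarith
    have i3 : Integrable (fun ω => D / 6 + 3 / 2 * y x ω) pr :=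
      (integrable_const _).add (i1.const_mul _)
    rw [integral_add i3 (i2.const_mul _),
      integral_add (integrable_const _) (i1.const_mul _), integral_const_mul, integral_const_mul,
      hind] at h2
    simpa using h2
  -- second term
  set g : X → ℝ := fun x => ∫ ω, (Bd x)ᶜ.indicator (β x) ω ∂pr with hgd
  set b : X → ℝ := fun x => ∫ ω, (Bd x).indicator (β x) ω ∂pr with hbd
  have hsplit : ∀ x, ∫ ω, β x ω ∂pr = g x + b x := by
    intro x
    have i1 := bm_integrable (hβ x) pr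
    rw [hgd, hbd]
    simp only
    rw [← integral_add (i1.indicator (hBd x).compl) (i1.indicator (hBd x))]
    refine integral_congr_ae (Eventually.of_forall fun ω => ?_)
    by_cases hω : ω ∈ Bd x <;> simp [hω]
  have hg2 : ∀ x, g x ^ 2 ≤ D * M := by
    intro x
    have h2 : |g x| ≤ √(D * M) := by
      rw [← Real.norm_eq_abs]
      refine (norm_integral_le_of_norm_le_const (C := √(D * M))
        (Eventually.of_forall fun ω => ?_)).trans (by simp)
      rw [Real.norm_eq_abs]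
      by_cases hω : ω ∈ Bd x
      · simp [hω]
      · rw [Set.indicator_of_mem (by simpa using hω)]
        exact Real.abs_le_sqrt (hg x ω hω).2
    have h3 := pow_le_pow_left₀ (abs_nonneg _) h2 2
    rwa [sq_abs, Real.sq_sqrt (mul_nonneg hD hM)] at h3
  have hb2 : ∀ x, |b x| ≤ D / 12 + 3 * B2 * pr.real (Bd x) := by
    intro x
    have i2 := bm_integrable (bm_ind (hBd x)) pr
    have h2 : |b x| ≤ ∫ ω, (D / 12 + 3 * B2) * (Bd x).indicator (fun _ => (1 : ℝ)) ω ∂pr := by
      rw [← Real.norm_eq_abs]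
      refine norm_integral_le_of_norm_le (i2.const_mul _) (Eventually.of_forall fun ω => ?_)
      rw [Real.norm_eq_abs]
      by_cases hω : ω ∈ Bd x
      · have := le_of_sq_le (t := 1 / 12) (by norm_num) hD hB2 (hc x ω).2
        rw [show B2 / (4 * (1 / 12)) = 3 * B2 by ring] at this
        rw [Set.indicator_of_mem hω, Set.indicator_of_mem hω]
        linarith
      · simp [hω]
    rw [integral_const_mul, hind] at h2
    have h3 := mul_le_mul_of_nonneg_left (hp1 x) (show 0 ≤ D / 12 by positivity)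
    linarith
  have h3 := l1_test (ν := ν) (μ := μ) (t := 1 / 6) (by norm_num) hD hM hg2
  have h4 : ∑ x, ν x * ∫ ω, α x ω ∂pr ≤ D / 6 + 3 / 2 * ∑ x, ν x * ∫ ω, y x ω ∂pr
      + 3 / 2 * B1 * ∑ x, ν x * pr.real (Bd x) := by
    calc _ ≤ ∑ x, ν x * (D / 6 + 3 / 2 * ∫ ω, y x ω ∂pr + 3 / 2 * B1 * pr.real (Bd x)) :=
          Finset.sum_le_sum fun x _ => mul_le_mul_of_nonneg_left (h1 x) (hν0 x)
      _ = (∑ x, ν x) * (D / 6) + 3 / 2 * ∑ x, ν x * ∫ ω, y x ω ∂pr
          + 3 / 2 * B1 * ∑ x, ν x * pr.real (Bd x) := by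
          rw [Finset.sum_mul, Finset.mul_sum, Finset.mul_sum, ← Finset.sum_add_distrib,
            ← Finset.sum_add_distrib]
          exact Finset.sum_congr rfl fun x _ => by ring
      _ = _ := by rw [hν1, one_mul]
  have h5 : ∑ x, (ν x - μ x) * b x ≤ D / 6 + 3 * B2 * ∑ x, ν x * pr.real (Bd x)
      + 3 * B2 * ∑ x, μ x * pr.real (Bd x) := by
    calc _ ≤ ∑ x, (ν x + μ x) * (D / 12 + 3 * B2 * pr.real (Bd x)) := by
          refine Finset.sum_le_sum fun x _ => (le_abs_self _).trans ?_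
          rw [abs_mul]
          refine mul_le_mul ?_ (hb2 x) (abs_nonneg _) (add_nonneg (hν0 x) (hμ0 x))
          rw [abs_le]; constructor <;> linarith [hν0 x, hμ0 x]
      _ = (∑ x, ν x) * (D / 12) + (∑ x, μ x) * (D / 12) + 3 * B2 * ∑ x, ν x * pr.real (Bd x)
          + 3 * B2 * ∑ x, μ x * pr.real (Bd x) := by
          rw [Finset.sum_mul, Finset.sum_mul, Finset.mul_sum, Finset.mul_sum,
            ← Finset.sum_add_distrib, ← Finset.sum_add_distrib, ← Finset.sum_add_distrib]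
          exact Finset.sum_congr rfl fun x _ => by ring
      _ = _ := by rw [hν1, hμ1]; ring
  have h6 : ∑ x, (ν x - μ x) * ∫ ω, β x ω ∂pr
      = ∑ x, (ν x - μ x) * g x + ∑ x, (ν x - μ x) * b x := by
    rw [← Finset.sum_add_distrib]
    exact Finset.sum_congr rfl fun x _ => by rw [hsplit]; ring
  rw [h6] at hid
  have h7 : M / (4 * (1 / 6)) = 3 / 2 * M := by ring
  rw [h7] at h3
  linarith

/-! ### propagator and remainder -/

variable {n m : ℕ} {S : Type} [MeasurableSpace S] (P : Proc n m S)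

/-- ordered product of the matrices `A` along the next `r` states -/
noncomputable def Phi (A : S → Mat n) : ℕ → S → Cfg n → (ℕ → Vec m) → Mat n
  | 0, _, _, _ => 1
  | r + 1, s, x, ω => A s * Phi A r (P.nx s x (ω 0)) x (shS 1 ω)

/-- backward recursion `W = A (W' + rem)` with terminal value `e` after `r` steps -/
noncomputable def Wf (A : S → Mat n) (e : S → Cfg n → Vec n)
    (rem : S → Cfg n → Vec m → Vec n) : ℕ → S → Cfg n → (ℕ → Vec m) → Vec n
  | 0, s, x, _ => e s x
  | r + 1, s, x, ω => A s *ᵥ (Wf A e rem r (P.nx s x (ω 0)) x (shS 1 ω) + rem s x (ω 0))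

theorem consS_eta (ω : ℕ → Vec m) : consS (ω 0) (shS 1 ω) = ω := by
  funext j
  cases j with
  | zero => rfl
  | succ j => show ω (1 + j) = ω (j + 1); rw [Nat.add_comm]

theorem shS_one_consS (ξ : Vec m) (ω : ℕ → Vec m) : shS 1 (consS ξ ω) = ω := by
  have := shS_succ_consS 0 ξ ω
  rwa [shS_zero] at this

theorem shS_one_shS (k : ℕ) (ω : ℕ → Vec m) : shS 1 (shS k ω) = shS (k + 1) ω := by
  funext j
  show ω (k + (1 + j)) = ω (k + 1 + j)
  rw [Nat.add_assoc]

theorem traj_shift (s : S) (x : Cfg n) (ω : ℕ → Vec m) (r : ℕ) :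
    P.traj s x ω (r + 1) = P.traj (P.nx s x (ω 0)) x (shS 1 ω) r := by
  conv_lhs => rw [← consS_eta ω]
  rw [P.traj_consS]

theorem traj_add (s : S) (x : Cfg n) (ω : ℕ → Vec m) (k r : ℕ) :
    P.traj (P.traj s x ω k) x (shS k ω) r = P.traj s x ω (k + r) := by
  induction r with
  | zero => rfl
  | succ r ih => rw [P.traj_succ, ih]; rfl

/-- the recursion along a path, in forward time -/
theorem Wf_path (A : S → Mat n) (e : S → Cfg n → Vec n) (rem : S → Cfg n → Vec m → Vec n)
    (s : S) (x : Cfg n) (ω : ℕ → Vec m) (k r : ℕ) :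
    Wf P A e rem (r + 1) (P.traj s x ω k) x (shS k ω) = A (P.traj s x ω k) *ᵥ
      (Wf P A e rem r (P.traj s x ω (k + 1)) x (shS (k + 1) ω)
        + rem (P.traj s x ω k) x (ω k)) := by
  rw [Wf, shS_one_shS]; rfl

theorem Phi_path (A : S → Mat n) (s : S) (x : Cfg n) (ω : ℕ → Vec m) (k r : ℕ) :
    Phi P A (r + 1) (P.traj s x ω k) x (shS k ω) = A (P.traj s x ω k) *
      Phi P A r (P.traj s x ω (k + 1)) x (shS (k + 1) ω) := by
  rw [Phi, shS_one_shS]; rfl

theorem Wf_split (A : S → Mat n) (e e' : S → Cfg n → Vec n) (rem : S → Cfg n → Vec m → Vec n)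
    (r : ℕ) (s : S) (x : Cfg n) (ω : ℕ → Vec m) :
    Wf P A e rem r s x ω = Phi P A r s x ω *ᵥ (e (P.traj s x ω r) x - e' (P.traj s x ω r) x)
      + Wf P A e' rem r s x ω := by
  induction r generalizing s ω with
  | zero => simp [Wf, Phi]
  | succ r ih =>
    rw [Wf, Wf, Phi, ih, traj_shift, ← Matrix.mulVec_mulVec, ← Matrix.mulVec_add, add_assoc]

theorem Wf_zero (A : S → Mat n) (e : S → Cfg n → Vec n) (r : ℕ) (s : S) (x : Cfg n)
    (ω : ℕ → Vec m) :
    Wf P A e (fun _ _ _ => 0) r s x ω = Phi P A r s x ω *ᵥ e (P.traj s x ω r) x := by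
  induction r generalizing s ω with
  | zero => simp [Wf, Phi]
  | succ r ih => rw [Wf, Phi, ih, traj_shift, ← Matrix.mulVec_mulVec, add_zero]

theorem meas_step (x : Cfg n) : Measurable fun p : S × (ℕ → Vec m) =>
    ((P.nx p.1 x (p.2 0), shS 1 p.2) : S × (ℕ → Vec m)) :=
  ((P.meas_nx x).comp (measurable_fst.prodMk ((measurable_pi_apply 0).comp measurable_snd))).prodMk
    ((measurable_shS 1).comp measurable_snd)

variable {A : S → Mat n} {e : S → Cfg n → Vec n} {rem : S → Cfg n → Vec m → Vec n}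

theorem bm_Phi (hA : ∀ i j, BM fun s => A s i j) (r : ℕ) (x : Cfg n) (i j : Fin n) :
    BM fun p : S × (ℕ → Vec m) => Phi P A r p.1 x p.2 i j := by
  induction r generalizing i j with
  | zero => exact BM.const _
  | succ r ih =>
    simp only [Phi, Matrix.mul_apply]
    exact BM.sum _ fun l _ => (bm_comp (hA i l) measurable_fst).mul
      (bm_comp (ih l j) (meas_step P x))

theorem bm_Wf (hA : ∀ i j, BM fun s => A s i j) (he : ∀ x i, BM fun s => e s x i)
    (hr : ∀ x i, BM fun p : S × Vec m => rem p.1 x p.2 i) (r : ℕ) (x : Cfg n) (i : Fin n) :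
    BM fun p : S × (ℕ → Vec m) => Wf P A e rem r p.1 x p.2 i := by
  induction r generalizing i with
  | zero => exact bm_comp (he x i) measurable_fst
  | succ r ih =>
    simp only [Wf]
    refine bm_mulVec (fun i j => bm_comp (hA i j) measurable_fst) (fun j => ?_) i
    exact (bm_comp (ih j) (meas_step P x)).add (bm_comp (hr x j)
      (measurable_fst.prodMk ((measurable_pi_apply 0).comp measurable_snd)))

/-- the mean of the remainder over the future noise -/
noncomputable def wb (A : S → Mat n) (e : S → Cfg n → Vec n)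
    (rem : S → Cfg n → Vec m → Vec n) (r : ℕ) (s : S) (x : Cfg n) : Vec n :=
  fun i => ∫ ω, Wf P A e rem r s x ω i ∂PN m

theorem bm_wb (hA : ∀ i j, BM fun s => A s i j) (he : ∀ x i, BM fun s => e s x i)
    (hr : ∀ x i, BM fun p : S × Vec m => rem p.1 x p.2 i) (r : ℕ) (x : Cfg n) (i : Fin n) :
    BM fun s => wb P A e rem r s x i :=
  bm_int (F := fun s ω => Wf P A e rem r s x ω i) (bm_Wf P hA he hr r x i) _

theorem wb_zero (s : S) (x : Cfg n) : wb P A e rem 0 s x = e s x := by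
  funext i; simp [wb, Wf]

theorem wb_succ (hA : ∀ i j, BM fun s => A s i j) (he : ∀ x i, BM fun s => e s x i)
    (hr : ∀ x i, BM fun p : S × Vec m => rem p.1 x p.2 i) (r : ℕ) (s : S) (x : Cfg n) :
    wb P A e rem (r + 1) s x = A s *ᵥ fun j =>
      ∫ ξ, (wb P A e rem r (P.nx s x ξ) x j + rem s x ξ j) ∂gpi (Fin m) := by
  funext i
  have hI : ∀ (s : S) j, Integrable (fun ω => Wf P A e rem r s x ω j) (PN m) := fun s j =>
    bm_integrable (bm_right (F := fun s ω => Wf P A e rem r s x ω j) (bm_Wf P hA he hr r x j) s) _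
  have hJ : ∀ j, Integrable (fun ξ => wb P A e rem r (P.nx s x ξ) x j + rem s x ξ j)
      (gpi (Fin m)) := fun j => bm_integrable ((bm_comp (bm_wb P hA he hr r x j)
        (P.meas_nx_right s x)).add (bm_right (F := fun s ξ => rem s x ξ j) (hr x j) s)) _
  have e1 : wb P A e rem (r + 1) s x i
      = ∫ ξ, ∫ ω, Wf P A e rem (r + 1) s x (consS ξ ω) i ∂PN m ∂gpi (Fin m) :=
    integral_consS (bm_integrable (bm_right (F := fun s ω => Wf P A e rem (r + 1) s x ω i)
      (bm_Wf P hA he hr (r + 1) x i) s) _)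
  have e2 : ∀ ξ, ∫ ω, Wf P A e rem (r + 1) s x (consS ξ ω) i ∂PN m
      = ∑ j, A s i j * (wb P A e rem r (P.nx s x ξ) x j + rem s x ξ j) := by
    intro ξ
    have e3 : ∀ ω, Wf P A e rem (r + 1) s x (consS ξ ω) i
        = ∑ j, A s i j * (Wf P A e rem r (P.nx s x ξ) x ω j + rem s x ξ j) := by
      intro ω
      rw [Wf, consS_zero, shS_one_consS]
      rfl
    simp only [e3]
    have hK : ∀ j, Integrable (fun ω => Wf P A e rem r (P.nx s x ξ) x ω j + rem s x ξ j) (PN m) :=
      fun j => (hI _ j).add (integrable_const _)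
    rw [integral_finsetSum _ fun j _ => (hK j).const_mul _]
    refine Finset.sum_congr rfl fun j _ => ?_
    rw [integral_const_mul, integral_add (hI _ j) (integrable_const _)]
    simp [wb]
  rw [e1]
  simp only [e2]
  rw [integral_finsetSum _ fun j _ => (hJ j).const_mul _]
  simp only [integral_const_mul]
  rfl

/-- Bayes: a terminal value with zero posterior mean propagates to zero posterior mean -/
theorem avg_wb_zero (hA : ∀ i j, BM fun s => A s i j) (he : ∀ x i, BM fun s => e s x i)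
    (h0 : ∀ s i, ∑ x, P.law s x * e s x i = 0) (r : ℕ) (s : S) (i : Fin n) :
    ∑ x, P.law s x * wb P A e (fun _ _ _ => 0) r s x i = 0 := by
  have hr : ∀ (x : Cfg n) (i : Fin n),
      BM fun p : S × Vec m => (fun _ _ _ => 0 : S → Cfg n → Vec m → Vec n) p.1 x p.2 i :=
    fun _ _ => BM.const 0
  induction r generalizing s i with
  | zero => simp only [wb_zero]; exact h0 s i
  | succ r ih =>
    have e1 : ∀ x, wb P A e (fun _ _ _ => 0) (r + 1) s x i = ∑ j, A s i j *
        ∫ ξ, wb P A e (fun _ _ _ => 0) r (P.nx s x ξ) x j ∂gpi (Fin m) := by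
      intro x
      rw [wb_succ P (rem := fun _ _ _ => 0) hA he hr]
      simp only [Matrix.mulVec, dotProduct, Pi.zero_apply, add_zero]
    simp only [e1, Finset.mul_sum]
    rw [Finset.sum_comm]
    refine Finset.sum_eq_zero fun j _ => ?_
    have h1 := P.U_avg thCH1 thCHG (Φ := fun s x => wb P A e (fun _ _ _ => 0) r s x j)
      (fun x => bm_wb P hA he hr r x j) s
    have h2 : P.avg (fun s x => wb P A e (fun _ _ _ => 0) r s x j) = fun _ => 0 := by
      funext s'; exact ih s' j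
    rw [h2, P.U_const] at h1
    have h3 : ∑ x, P.law s x * (A s i j * ∫ ξ, wb P A e (fun _ _ _ => 0) r (P.nx s x ξ) x j
        ∂gpi (Fin m)) = A s i j * P.avg (P.T fun s x => wb P A e (fun _ _ _ => 0) r s x j) s := by
      unfold Proc.avg Proc.T
      rw [Finset.mul_sum]
      exact Finset.sum_congr rfl fun x _ => by ring
    rw [h3, ← h1, mul_zero]

/-- the tracking identity on a layer -/
def IdOn (A : S → Mat n) (mh : S → Vec n) (rem : S → Cfg n → Vec m → Vec n) (s : S) : Prop :=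
  ∀ x, sv x - mh s = A s *ᵥ fun i =>
    ∫ ξ, (sv x i - mh (P.nx s x ξ) i + rem s x ξ i) ∂gpi (Fin m)

variable {mh : S → Vec n}

theorem wb_id (hA : ∀ i j, BM fun s => A s i j) (hmh : ∀ i, BM fun s => mh s i)
    (hr : ∀ x i, BM fun p : S × Vec m => rem p.1 x p.2 i) {Lay : ℕ → Set S}
    (hLay : ∀ k s z, s ∈ Lay k → P.nxt s z ∈ Lay (k + 1)) (r : ℕ) :
    ∀ k, (∀ j, k ≤ j → j < k + r → ∀ s ∈ Lay j, IdOn P A mh rem s) → ∀ s ∈ Lay k, ∀ x,
      wb P A (fun s x => sv x - mh s) rem r s x = sv x - mh s := by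
  have he : ∀ (x : Cfg n) i, BM fun s => (sv x - mh s) i := fun x i => (BM.const _).sub (hmh i)
  induction r with
  | zero => intro k _ s _ x; exact wb_zero P s x
  | succ r ih =>
    intro k h s hs x
    rw [wb_succ P hA he hr, h k le_rfl (by omega) s hs x]
    congr 1
    funext j
    refine integral_congr_ae (Eventually.of_forall fun ξ => ?_)
    beta_reduce
    rw [ih (k + 1) (fun j h1 h2 => h j (by omega) (by omega)) (P.nx s x ξ) (hLay k s _ hs) x]
    rfl

/-- terminal tracking error -/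
noncomputable def eN (mh : S → Vec n) (s : S) (_x : Cfg n) : Vec n := mean (P.law s) - mh s

/-- difference of the two posterior means -/
noncomputable def uu (f : Cfg n → ℝ) (s : S) : Vec n :=
  fun i => mean (P.nuf f s) i - mean (P.law s) i

theorem bm_meanlaw (i : Fin n) : BM fun s => mean (P.law s) i :=
  BM.sum _ fun x _ => (P.bm_law x).mul (BM.const _)

theorem bm_eN (hmh : ∀ i, BM fun s => mh s i) (x : Cfg n) (i : Fin n) :
    BM fun s => eN P mh s x i := (bm_meanlaw P i).sub (hmh i)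

theorem bm_uu {f : Cfg n → ℝ} (hf : ∀ x, 0 < f x) (i : Fin n) : BM fun s => uu P f s i :=
  (P.bm_mean hf i).sub (bm_meanlaw P i)

theorem sq_uu_le {f : Cfg n → ℝ} (hf : ∀ x, 0 < f x) (s : S) : F.sq (uu P f s) ≤ 4 * n := by
  unfold F.sq uu
  have h : ∑ i, (mean (P.nuf f s) i - mean (P.law s) i) ^ 2 ≤ ∑ _i : Fin n, (4 : ℝ) := by
    refine Finset.sum_le_sum fun i _ => ?_
    have h1 := abs_le.1 (Proc.abs_mean_le _ (P.nuf_isProb hf s) i)
    have h2 := abs_le.1 (Proc.abs_mean_le _ (P.law_isProb s) i)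
    nlinarith
  rw [Finset.sum_const, Finset.card_univ, Fintype.card_fin, nsmul_eq_mul] at h
  linarith

theorem uu_one (s : S) : uu P (fun _ => 1) s = 0 := by
  funext i
  have h1 : P.wt (fun _ => 1) s = 1 := by
    unfold Proc.wt Ex; simp [P.law_sum]
  have h2 : P.nuf (fun _ => 1) s = P.law s := by
    funext x; unfold Proc.nuf; rw [h1]; simp
  unfold uu; rw [h2]; simp

/-- the posterior mean under the weighted law in terms of the future -/
theorem mean_id (hA : ∀ i j, BM fun s => A s i j) (hmh : ∀ i, BM fun s => mh s i)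
    (hr : ∀ x i, BM fun p : S × Vec m => rem p.1 x p.2 i) {Lay : ℕ → Set S}
    (hLay : ∀ k s z, s ∈ Lay k → P.nxt s z ∈ Lay (k + 1)) {r k : ℕ}
    (hId : ∀ j, k ≤ j → j < k + r → ∀ s ∈ Lay j, IdOn P A mh rem s) {s : S} (hs : s ∈ Lay k)
    {f : Cfg n → ℝ} (hf : ∀ x, 0 < f x) (i : Fin n) :
    mean (P.nuf f s) i - mh s i =
      ∑ x, P.nuf f s x * ∫ ω, (Phi P A r s x ω *ᵥ uu P f (P.traj s x ω r)) i ∂PN m
      + ∑ x, P.nuf f s x * ∫ ω, Wf P A (eN P mh) rem r s x ω i ∂PN m := by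
  have hw := P.wt_pos hf s
  set e0 : S → Cfg n → Vec n := fun s x => f x • (sv x - mean (P.nuf f s)) with he0
  have hbe0 : ∀ x i, BM fun s => e0 s x i := fun x i =>
    BM.const_mul _ ((BM.const _).sub (P.bm_mean hf i))
  have h0 : ∀ s i, ∑ x, P.law s x * e0 s x i = 0 := by
    intro s i
    have hw := P.wt_pos hf s
    have e1 : ∀ x, P.law s x * e0 s x i = P.wt f s * (P.nuf f s x * sv x i)
        - P.wt f s * mean (P.nuf f s) i * P.nuf f s x := by
      intro x
      simp only [he0, Pi.smul_apply, Pi.sub_apply, smul_eq_mul, Proc.nuf]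
      field_simp
    simp only [e1, Finset.sum_sub_distrib, ← Finset.mul_sum, (P.nuf_isProb hf s).2]
    unfold mean; ring
  have h1 := avg_wb_zero P hA hbe0 h0 r s i
  have hmt : ∀ x : Cfg n, Measurable fun ω : ℕ → Vec m => P.traj s x ω r :=
    fun x => P.meas_traj_right s x r
  have hPh : ∀ x i j, BM fun ω => Phi P A r s x ω i j := fun x i j =>
    bm_right (F := fun s ω => Phi P A r s x ω i j) (bm_Phi P hA r x i j) s
  have i1 : ∀ x, Integrable (fun ω => (Phi P A r s x ω *ᵥ uu P f (P.traj s x ω r)) i) (PN m) :=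
    fun x => bm_integrable (bm_mulVec (hPh x) (fun j => bm_comp (bm_uu P hf j) (hmt x)) i) _
  have i2 : ∀ x, Integrable (fun ω => Wf P A (eN P mh) rem r s x ω i) (PN m) := fun x =>
    bm_integrable (bm_right (F := fun s ω => Wf P A (eN P mh) rem r s x ω i)
      (bm_Wf P hA (bm_eN P hmh) hr r x i) s) _
  have i3 : ∀ x, Integrable (fun ω => (Phi P A r s x ω *ᵥ e0 (P.traj s x ω r) x) i) (PN m) :=
    fun x => bm_integrable (bm_mulVec (hPh x) (fun j => bm_comp (hbe0 x j) (hmt x)) i) _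
  have h2 : ∀ x, f x * (sv x i - mh s i) = wb P A e0 (fun _ _ _ => 0) r s x i
      + f x * ∫ ω, (Phi P A r s x ω *ᵥ uu P f (P.traj s x ω r)) i ∂PN m
      + f x * ∫ ω, Wf P A (eN P mh) rem r s x ω i ∂PN m := by
    intro x
    have h3 := congrFun (wb_id P hA hmh hr hLay r k hId s hs x) i
    rw [Pi.sub_apply] at h3
    rw [← h3]
    unfold wb
    simp only [Wf_zero]
    have i4 : Integrable (fun ω => (Phi P A r s x ω *ᵥ e0 (P.traj s x ω r) x) i
        + f x * (Phi P A r s x ω *ᵥ uu P f (P.traj s x ω r)) i) (PN m) :=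
      (i3 x).add ((i1 x).const_mul _)
    rw [← integral_const_mul, ← integral_const_mul, ← integral_const_mul,
      ← integral_add (i3 x) ((i1 x).const_mul _), ← integral_add i4 ((i2 x).const_mul _)]
    refine integral_congr_ae (Eventually.of_forall fun ω => ?_)
    beta_reduce
    rw [Wf_split P A _ (eN P mh), Pi.add_apply, mul_add]
    congr 1
    have e2 : (sv x - mh (P.traj s x ω r) - eN P mh (P.traj s x ω r) x)
        = (sv x - mean (P.nuf f (P.traj s x ω r))) + uu P f (P.traj s x ω r) := by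
      funext j; simp only [eN, uu, Pi.sub_apply, Pi.add_apply]; ring
    rw [e2, Matrix.mulVec_add, he0]
    simp only [Matrix.mulVec_smul, Pi.add_apply, Pi.smul_apply, smul_eq_mul]
    ring
  have h4 : mean (P.nuf f s) i - mh s i = ∑ x, (P.law s x / P.wt f s) * (f x * (sv x i - mh s i)) := by
    have e3 : ∀ x, (P.law s x / P.wt f s) * (f x * (sv x i - mh s i))
        = P.nuf f s x * sv x i - mh s i * P.nuf f s x := by
      intro x; unfold Proc.nuf; field_simp
    simp only [e3, Finset.sum_sub_distrib, ← Finset.mul_sum, (P.nuf_isProb hf s).2]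
    unfold mean; ring
  rw [h4]
  simp only [h2, mul_add, Finset.sum_add_distrib]
  have e4 : ∑ x, P.law s x / P.wt f s * wb P A e0 (fun _ _ _ => 0) r s x i = 0 := by
    have : ∀ x, P.law s x / P.wt f s * wb P A e0 (fun _ _ _ => 0) r s x i
        = (P.wt f s)⁻¹ * (P.law s x * wb P A e0 (fun _ _ _ => 0) r s x i) := fun x => by
      field_simp
    simp only [this, ← Finset.mul_sum, h1, mul_zero]
  rw [e4, zero_add]
  congr 1 <;> refine Finset.sum_congr rfl fun x _ => ?_ <;> unfold Proc.nuf <;> field_simp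

/-- the tracking error of the reference is the posterior mean of the anticipating remainder -/
theorem mean_law_id (hA : ∀ i j, BM fun s => A s i j) (hmh : ∀ i, BM fun s => mh s i)
    (hr : ∀ x i, BM fun p : S × Vec m => rem p.1 x p.2 i) {Lay : ℕ → Set S}
    (hLay : ∀ k s z, s ∈ Lay k → P.nxt s z ∈ Lay (k + 1)) {r k : ℕ}
    (hId : ∀ j, k ≤ j → j < k + r → ∀ s ∈ Lay j, IdOn P A mh rem s) {s : S} (hs : s ∈ Lay k)
    (i : Fin n) :
    mean (P.law s) i - mh s i =
      ∑ x, P.law s x * ∫ ω, Wf P A (eN P mh) rem r s x ω i ∂PN m := by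
  have h := mean_id P hA hmh hr hLay hId hs (f := fun _ => 1) (fun _ => one_pos) i
  have h1 : P.wt (fun _ => 1) s = 1 := by
    unfold Proc.wt Ex; simp [P.law_sum]
  have h2 : P.nuf (fun _ => 1) s = P.law s := by
    funext x; unfold Proc.nuf; rw [h1]; simp
  rw [h2] at h
  simpa [uu_one] using h

theorem uu_id (hA : ∀ i j, BM fun s => A s i j) (hmh : ∀ i, BM fun s => mh s i)
    (hr : ∀ x i, BM fun p : S × Vec m => rem p.1 x p.2 i) {Lay : ℕ → Set S}
    (hLay : ∀ k s z, s ∈ Lay k → P.nxt s z ∈ Lay (k + 1)) {r k : ℕ}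
    (hId : ∀ j, k ≤ j → j < k + r → ∀ s ∈ Lay j, IdOn P A mh rem s) {s : S} (hs : s ∈ Lay k)
    {f : Cfg n → ℝ} (hf : ∀ x, 0 < f x) (i : Fin n) :
    uu P f s i =
      ∑ x, P.nuf f s x * ∫ ω, (Phi P A r s x ω *ᵥ uu P f (P.traj s x ω r)) i ∂PN m
      + ∑ x, (P.nuf f s x - P.law s x) * ∫ ω, Wf P A (eN P mh) rem r s x ω i ∂PN m := by
  have h1 := mean_id P hA hmh hr hLay hId hs hf i
  have h2 := mean_law_id P hA hmh hr hLay hId hs i
  simp only [sub_mul, Finset.sum_sub_distrib]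
  have h3 : uu P f s i = mean (P.nuf f s) i - mean (P.law s) i := rfl
  linarith

end Vale.Agent.N150.A1
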