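import Mathlib
import Vale.Agent.N150.A1One

/-! P150, block A1': one-time bound and entropy recursion along a tracked path. -/

open MeasureTheory ProbabilityTheory Filter Topology Real
open scoped Matrix

namespace Vale.Agent.N150.A1

open Vale.Agent.P150 Vale.Agent.P150.F

variable {n m : ℕ} {S : Type} [MeasurableSpace S] (P : Proc n m S)

theorem ip_sq_le {a : ℕ} (u v : Vec a) : ip u v ^ 2 ≤ F.sq u * F.sq v :=
  Finset.sum_mul_sq_le_sq_mul_sq _ _ _

theorem sq_nonneg' {a : ℕ} (u : Vec a) : 0 ≤ F.sq u := Finset.sum_nonneg fun _ _ => sq_nonneg _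

theorem ip_mulVec_eq {a : ℕ} (Rt : Matrix (Fin a) (Fin n) ℝ) (θ : Vec a) (v : Vec n) :
    ip θ (Rt *ᵥ v) = ∑ i, (θ ᵥ* Rt) i * v i := by
  have h : ip θ (Rt *ᵥ v) = θ ⬝ᵥ (Rt *ᵥ v) := rfl
  rw [h, Matrix.dotProduct_mulVec]; rfl

/-- weighted squared total variation distance -/
noncomputable def tv2 (f : Cfg n → ℝ) (s : S) : ℝ :=
  P.wt f s * (∑ x, |P.nuf f s x - P.law s x|) ^ 2

/-- weighted squared difference of the posterior means -/
noncomputable def errU (f : Cfg n → ℝ) (s : S) : ℝ := P.wt f s * F.sq (uu P f s)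

variable {f : Cfg n → ℝ}

theorem errU_eq (s : S) : errU P f s = P.err f (fun s => mean (P.law s)) s := rfl

theorem bm_errU (hf : ∀ x, 0 < f x) : BM (errU P f) := (P.bm_wt f).mul (bm_sq (bm_uu P hf))

theorem errU_nonneg (hf : ∀ x, 0 < f x) (s : S) : 0 ≤ errU P f s :=
  mul_nonneg (P.wt_pos hf s).le (sq_nonneg' _)

theorem bm_tv2 (hf : ∀ x, 0 < f x) : BM (tv2 P f) := by
  refine (P.bm_wt f).mul (BM.sum _ fun x _ => ?_).pow_two
  obtain ⟨h1, C, hC⟩ := (P.bm_nuf hf x).sub (P.bm_law x)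
  exact ⟨h1.abs, C, fun s => by rw [abs_abs]; exact hC s⟩

theorem tv2_le_ent (hf : ∀ x, 0 < f x) (s : S) : tv2 P f s ≤ 2 * P.ent f s := by
  have h := mul_le_mul_of_nonneg_left
    (pinsker (P.nuf_isProb hf s) (P.law_isProb s) (P.law_pos s)) (P.wt_pos hf s).le
  rw [P.ent_eq hf]
  unfold tv2
  linarith

theorem tv2_le_wt (hf : ∀ x, 0 < f x) (s : S) : tv2 P f s ≤ 4 * P.wt f s := by
  have h1 : ∑ x, |P.nuf f s x - P.law s x| ≤ 2 := by
    calc _ ≤ ∑ x, (P.nuf f s x + P.law s x) := by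
          refine Finset.sum_le_sum fun x _ => ?_
          have h2 := P.nuf_pos hf s x
          have h3 := P.law_pos s x
          rw [abs_le]; constructor <;> linarith
      _ = 2 := by rw [Finset.sum_add_distrib, (P.nuf_isProb hf s).2, P.law_sum]; norm_num
  have h2 := pow_le_pow_left₀ (Finset.sum_nonneg fun _ _ => abs_nonneg _) h1 2
  have h3 := mul_le_mul_of_nonneg_left h2 (P.wt_pos hf s).le
  unfold tv2
  linarith

theorem it_wt_mul (f : Cfg n → ℝ) {Φ : S → ℝ} (hΦ : BM Φ) (r : ℕ) (s : S) :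
    P.U^[r] (fun s => P.wt f s * Φ s) s
      = ∑ x, P.law s x * f x * ∫ ω, Φ (P.traj s x ω r) ∂PN m := by
  have e : (fun s => P.wt f s * Φ s) = P.avg fun s x => f x * Φ s := by
    funext s
    unfold Proc.wt Ex Proc.avg
    rw [Finset.sum_mul]
    exact Finset.sum_congr rfl fun x _ => by ring
  rw [e, it_avg P fun x => hΦ.const_mul _]
  unfold Proc.avg Proc.ET
  refine Finset.sum_congr rfl fun x _ => ?_
  rw [integral_const_mul, mul_assoc]

variable {A : S → Mat n} {mh : S → Vec n} {rem : S → Cfg n → Vec m → Vec n}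

/-- one-time bound for the difference of the posterior means, tested by any matrix `Rt` -/
theorem one_time (hA : ∀ i j, BM fun s => A s i j) (hmh : ∀ i, BM fun s => mh s i)
    (hr : ∀ x i, BM fun p : S × Vec m => rem p.1 x p.2 i) {Lay : ℕ → Set S}
    (hLay : ∀ k s z, s ∈ Lay k → P.nxt s z ∈ Lay (k + 1)) {r k : ℕ}
    (hId : ∀ j, k ≤ j → j < k + r → ∀ s ∈ Lay j, IdOn P A mh rem s) {s : S} (hs : s ∈ Lay k)
    (hf : ∀ x, 0 < f x) {Fm : ℝ} (hF : ∀ x, f x ≤ Fm) {a : ℕ} (Rt : Matrix (Fin a) (Fin n) ℝ)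
    {Bd : Cfg n → Set (ℕ → Vec m)} (hBd : ∀ x, MeasurableSet (Bd x)) {l M B1 B2 : ℝ}
    (hl : 0 ≤ l) (hM : 0 ≤ M) (hB1 : 0 ≤ B1) (hB2 : 0 ≤ B2)
    (hg : ∀ x ω, ω ∉ Bd x →
      F.sq (Rt *ᵥ (Phi P A r s x ω *ᵥ uu P f (P.traj s x ω r)))
          ≤ l * F.sq (uu P f (P.traj s x ω r)) ∧
        F.sq (Rt *ᵥ Wf P A (eN P mh) rem r s x ω) ≤ M)
    (hc : ∀ x ω, F.sq (Rt *ᵥ (Phi P A r s x ω *ᵥ uu P f (P.traj s x ω r))) ≤ B1 ∧
        F.sq (Rt *ᵥ Wf P A (eN P mh) rem r s x ω) ≤ B2) :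
    P.wt f s * F.sq (Rt *ᵥ uu P f s) ≤ 3 * l * P.U^[r] (errU P f) s + 3 * M * tv2 P f s
      + (3 * B1 + 12 * B2) * Fm * ∑ x, P.law s x * (PN m).real (Bd x) := by
  have hw := P.wt_pos hf s
  set θ := Rt *ᵥ uu P f s with hθ
  set c := θ ᵥ* Rt with hcd
  have hmt : ∀ x : Cfg n, Measurable fun ω : ℕ → Vec m => P.traj s x ω r :=
    fun x => P.meas_traj_right s x r
  have hPh : ∀ x i j, BM fun ω => Phi P A r s x ω i j := fun x i j =>
    bm_right (F := fun s ω => Phi P A r s x ω i j) (bm_Phi P hA r x i j) s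
  have b1 : ∀ x i, BM fun ω => (Phi P A r s x ω *ᵥ uu P f (P.traj s x ω r)) i :=
    fun x i => bm_mulVec (hPh x) (fun j => bm_comp (bm_uu P hf j) (hmt x)) i
  have b2 : ∀ x i, BM fun ω => Wf P A (eN P mh) rem r s x ω i := fun x i =>
    bm_right (F := fun s ω => Wf P A (eN P mh) rem r s x ω i)
      (bm_Wf P hA (bm_eN P hmh) hr r x i) s
  have b3 : ∀ x, BM fun ω => F.sq (uu P f (P.traj s x ω r)) := fun x =>
    bm_comp (bm_sq (bm_uu P hf)) (hmt x)
  have hsw : ∀ v : (ℕ → Vec m) → Vec n, (∀ i, BM fun ω => v ω i) →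
      ∫ ω, ∑ i, c i * v ω i ∂PN m = ∑ i, c i * ∫ ω, v ω i ∂PN m := by
    intro v hv
    rw [integral_finsetSum _ fun i _ => (bm_integrable (hv i) _).const_mul _]
    simp only [integral_const_mul]
  have key := scalar_one (PN m) (ν := P.nuf f s) (μ := P.law s) (P.nuf_isProb hf s).1
    (P.nuf_isProb hf s).2 (P.law_isProb s).1 (P.law_sum s)
    (α := fun x ω => ∑ i, c i * (Phi P A r s x ω *ᵥ uu P f (P.traj s x ω r)) i)
    (β := fun x ω => ∑ i, c i * Wf P A (eN P mh) rem r s x ω i)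
    (y := fun x ω => l * F.sq (uu P f (P.traj s x ω r)))
    (fun x => BM.sum _ fun i _ => (b1 x i).const_mul _)
    (fun x => BM.sum _ fun i _ => (b2 x i).const_mul _) (fun x => (b3 x).const_mul _)
    (fun x ω => mul_nonneg hl (sq_nonneg' _)) hBd (D := F.sq θ) (sq_nonneg' _) hM hB1 hB2 ?_ ?_ ?_
  · have e1 : P.wt f s * ∑ x, P.nuf f s x * ∫ ω, l * F.sq (uu P f (P.traj s x ω r)) ∂PN m
        = l * P.U^[r] (errU P f) s := by
      have e2 := it_wt_mul P f (bm_sq (bm_uu P hf)) r s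
      have e3 : errU P f = fun s => P.wt f s * F.sq (uu P f s) := rfl
      rw [e3, e2, Finset.mul_sum, Finset.mul_sum]
      refine Finset.sum_congr rfl fun x _ => ?_
      rw [integral_const_mul]
      unfold Proc.nuf
      field_simp
    have hp0 : ∀ x, 0 ≤ (PN m).real (Bd x) := fun x => measureReal_nonneg
    have e4 : P.wt f s * ∑ x, P.nuf f s x * (PN m).real (Bd x)
        ≤ Fm * ∑ x, P.law s x * (PN m).real (Bd x) := by
      rw [Finset.mul_sum, Finset.mul_sum]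
      refine Finset.sum_le_sum fun x _ => ?_
      have e5 : P.wt f s * (P.nuf f s x * (PN m).real (Bd x))
          = f x * (P.law s x * (PN m).real (Bd x)) := by
        unfold Proc.nuf; field_simp
      rw [e5]
      exact mul_le_mul_of_nonneg_right (hF x) (mul_nonneg (P.law_pos s x).le (hp0 x))
    have e6 : P.wt f s * ∑ x, P.law s x * (PN m).real (Bd x)
        ≤ Fm * ∑ x, P.law s x * (PN m).real (Bd x) :=
      mul_le_mul_of_nonneg_right (P.wt_le hF s)
        (Finset.sum_nonneg fun x _ => mul_nonneg (P.law_pos s x).le (hp0 x))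
    have h7 := mul_le_mul_of_nonneg_left key hw.le
    have h8 := mul_le_mul_of_nonneg_left e4 (show 0 ≤ 3 * B1 + 6 * B2 by positivity)
    have h9 := mul_le_mul_of_nonneg_left e6 (show 0 ≤ 6 * B2 by positivity)
    unfold tv2
    nlinarith
  · have e1 : F.sq θ = ∑ i, c i * uu P f s i := by
      rw [← ip_mulVec_eq, ← hθ]
      unfold F.sq ip
      exact Finset.sum_congr rfl fun i _ => by ring
    rw [e1]
    simp only [hsw _ (b1 _), hsw _ (b2 _), uu_id P hA hmh hr hLay hId hs hf, mul_add,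
      Finset.sum_add_distrib, Finset.mul_sum]
    congr 1 <;> rw [Finset.sum_comm] <;>
      exact Finset.sum_congr rfl fun x _ => Finset.sum_congr rfl fun i _ => by ring
  · intro x ω hω
    simp only [← ip_mulVec_eq, hcd]
    exact ⟨(ip_sq_le _ _).trans (mul_le_mul_of_nonneg_left (hg x ω hω).1 (sq_nonneg' _)),
      (ip_sq_le _ _).trans (mul_le_mul_of_nonneg_left (hg x ω hω).2 (sq_nonneg' _))⟩
  · intro x ω
    simp only [← ip_mulVec_eq, hcd]
    exact ⟨(ip_sq_le _ _).trans (mul_le_mul_of_nonneg_left (hc x ω).1 (sq_nonneg' _)),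
      (ip_sq_le _ _).trans (mul_le_mul_of_nonneg_left (hc x ω).2 (sq_nonneg' _))⟩

/-! ### Markov property for events of the future -/

theorem integral_markov {G : S → (ℕ → Vec m) → ℝ}
    (hG : BM fun p : S × (ℕ → Vec m) => G p.1 p.2) (x : Cfg n) (k : ℕ) (s : S) :
    ∫ ω, G (P.traj s x ω k) (shS k ω) ∂PN m
      = ∫ ω, ∫ ω', G (P.traj s x ω k) ω' ∂PN m ∂PN m := by
  induction k generalizing s with
  | zero => simp [shS_zero]
  | succ k ih =>
    have hm1 : BM fun ω => G (P.traj s x ω (k + 1)) (shS (k + 1) ω) :=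
      bm_comp hG ((P.meas_traj_right s x (k + 1)).prodMk (measurable_shS (k + 1)))
    have hm2 : BM fun ω => ∫ ω', G (P.traj s x ω (k + 1)) ω' ∂PN m :=
      bm_comp (bm_int hG (PN m)) (P.meas_traj_right s x (k + 1))
    rw [integral_consS (bm_integrable hm1 _), integral_consS (bm_integrable hm2 _)]
    refine integral_congr_ae (Eventually.of_forall fun ξ => ?_)
    simp only [Proc.traj_consS, shS_succ_consS]
    exact ih _

/-- probability of a future event given the state and the spins -/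
noncomputable def pbF (Bd : Cfg n → Set (S × (ℕ → Vec m))) (s : S) (x : Cfg n) : ℝ :=
  (PN m).real {ω | (s, ω) ∈ Bd x}

theorem pbF_eq {Bd : Cfg n → Set (S × (ℕ → Vec m))} (hBd : ∀ x, MeasurableSet (Bd x)) (s : S)
    (x : Cfg n) : pbF Bd s x = ∫ ω, (Bd x).indicator (fun _ => (1 : ℝ)) (s, ω) ∂PN m := by
  have hm : MeasurableSet {ω | (s, ω) ∈ Bd x} := (measurable_const.prodMk measurable_id) (hBd x)
  have e : (fun ω => (Bd x).indicator (fun _ => (1 : ℝ)) (s, ω))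
      = Set.indicator {ω | (s, ω) ∈ Bd x} fun _ => (1 : ℝ) := by
    funext ω
    by_cases h : (s, ω) ∈ Bd x
    · rw [Set.indicator_of_mem h, Set.indicator_of_mem (by exact h)]
    · rw [Set.indicator_of_notMem h, Set.indicator_of_notMem (by exact h)]
  rw [e, integral_indicator hm]
  simp [pbF]

theorem bm_pbF {Bd : Cfg n → Set (S × (ℕ → Vec m))} (hBd : ∀ x, MeasurableSet (Bd x))
    (x : Cfg n) : BM fun s => pbF Bd s x := by
  simp only [pbF_eq hBd]
  exact bm_int (F := fun s ω => (Bd x).indicator (fun _ => (1 : ℝ)) (s, ω)) (bm_ind (hBd x)) _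

theorem it_pbF {Bd : Cfg n → Set (S × (ℕ → Vec m))} (hBd : ∀ x, MeasurableSet (Bd x)) (k : ℕ)
    (s : S) : P.U^[k] (P.avg (pbF Bd)) s
      = PE (P.law s) fun x ω => (P.traj s x ω k, shS k ω) ∈ Bd x := by
  rw [it_avg P (bm_pbF hBd)]
  unfold Proc.avg Proc.ET PE
  refine Finset.sum_congr rfl fun x _ => ?_
  congr 1
  simp only [pbF_eq hBd]
  rw [← integral_markov P (G := fun s ω => (Bd x).indicator (fun _ => (1 : ℝ)) (s, ω))
    (bm_ind (hBd x))]
  have hm : MeasurableSet {ω | (P.traj s x ω k, shS k ω) ∈ Bd x} :=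
    ((P.meas_traj_right s x k).prodMk (measurable_shS k)) (hBd x)
  have e : (fun ω => (Bd x).indicator (fun _ => (1 : ℝ)) (P.traj s x ω k, shS k ω))
      = Set.indicator {ω | (P.traj s x ω k, shS k ω) ∈ Bd x} fun _ => (1 : ℝ) := by
    funext ω
    by_cases h : (P.traj s x ω k, shS k ω) ∈ Bd x
    · rw [Set.indicator_of_mem h, Set.indicator_of_mem (by exact h)]
    · rw [Set.indicator_of_notMem h, Set.indicator_of_notMem (by exact h)]
  rw [e, integral_indicator hm]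
  simp

/-! ### the entropy recursion -/

theorem sq_sqrt_R (s : S) (v : Vec n) :
    F.sq ((√(P.δ s) • (P.R s)ᵀ) *ᵥ v) = P.δ s * qf (P.Q s) v := by
  unfold Proc.Q
  rw [CH4pp.qf_RRt, Matrix.smul_mulVec, Finset.mul_sum]
  unfold F.sq
  refine Finset.sum_congr rfl fun i _ => ?_
  rw [Pi.smul_apply, smul_eq_mul, mul_pow, Real.sq_sqrt (P.hδ s).le]

theorem meas_dqf {Ω : Type} [MeasurableSpace Ω] {v : S × Ω → Vec n}
    (hv : ∀ i, Measurable fun p => v p i) :
    Measurable fun p : S × Ω => P.δ p.1 * qf (P.Q p.1) (v p) := by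
  refine (P.measδ.comp measurable_fst).mul ?_
  unfold qf ip Proc.Q Matrix.mulVec dotProduct
  simp only [Matrix.mul_apply, Matrix.transpose_apply]
  refine Finset.measurable_fun_sum _ fun i _ => (hv i).mul ?_
  refine Finset.measurable_fun_sum _ fun j _ => Measurable.mul ?_ (hv j)
  exact Finset.measurable_fun_sum _ fun l _ =>
    ((P.measR i l).comp measurable_fst).mul ((P.measR j l).comp measurable_fst)

/-- hypotheses of the tracking lemma on the time window `[k0, N)` -/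
structure Track (A : S → Mat n) (mh : S → Vec n) (rem : S → Cfg n → Vec m → Vec n)
    (Lay : ℕ → Set S) (s0 : S) (k0 N : ℕ) (C lam d B : ℝ) (l mm p : ℕ → ℝ) : Prop where
  hA : ∀ i j, BM fun s => A s i j
  hmh : ∀ i, BM fun s => mh s i
  hr : ∀ x i, BM fun q : S × Vec m => rem q.1 x q.2 i
  hLay : ∀ k s z, s ∈ Lay k → P.nxt s z ∈ Lay (k + 1)
  hs0 : s0 ∈ Lay 0
  hk : k0 ≤ N
  hId : ∀ k, k0 ≤ k → k < N → ∀ s ∈ Lay k, IdOn P A mh rem s
  hC : 0 ≤ C
  hlam0 : 0 < lam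
  hlam : m * (n * C) ≤ lam
  hd : lam ^ 2 * d ≤ 1
  hR : ∀ k, k0 ≤ k → k < N → ∀ s ∈ Lay k, (∀ i j, |P.R s i j| ≤ C) ∧ P.δ s ≤ d
  hB : 0 ≤ B
  crude : ∀ k, k0 ≤ k → k < N → ∀ s ∈ Lay k, ∀ x ω,
    (∀ v, P.δ s * qf (P.Q s) (Phi P A (N - k) s x ω *ᵥ v) ≤ B * F.sq v) ∧
      P.δ s * qf (P.Q s) (Wf P A (eN P mh) rem (N - k) s x ω) ≤ B
  hl : ∀ k, 0 ≤ l k
  hmm : ∀ k, 0 ≤ mm k
  good : ∀ k, k0 ≤ k → k < N → PE (P.law s0) (fun x ω => ¬
    ((∀ v, P.δ (P.traj s0 x ω k) * qf (P.Q (P.traj s0 x ω k))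
        (Phi P A (N - k) (P.traj s0 x ω k) x (shS k ω) *ᵥ v) ≤ l k * F.sq v) ∧
      P.δ (P.traj s0 x ω k) * qf (P.Q (P.traj s0 x ω k))
        (Wf P A (eN P mh) rem (N - k) (P.traj s0 x ω k) x (shS k ω)) ≤ mm k)) ≤ p k

variable {Lay : ℕ → Set S} {s0 : S} {k0 N : ℕ} {C lam d B : ℝ} {l mm p : ℕ → ℝ}

variable {P} in
theorem Track.step (h : Track P A mh rem Lay s0 k0 N C lam d B l mm p) (hf : ∀ x, 0 < f x)
    {Fm : ℝ} (hF : ∀ x, f x ≤ Fm) {k : ℕ} (hk0 : k0 ≤ k) (hkN : k < N) :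
    P.U^[k] (P.ent f) s0 ≤ P.U^[k + 1] (P.ent f) s0 + 3 / 2 * l k * P.U^[N] (errU P f) s0
      + 3 / 2 * mm k * P.U^[k] (tv2 P f) s0 + 6 * (n + 1) * B * Fm * p k
      + K0 * lam ^ 3 * (d * √d) * P.wt f s0 := by
  set r := N - k with hr
  have hFm : 0 ≤ Fm := (hf (fun _ => true)).le.trans (hF _)
  have hB := h.hB
  set Bd : Cfg n → Set (S × (ℕ → Vec m)) := fun x => {q |
    l k * F.sq (uu P f (P.traj q.1 x q.2 r)) < P.δ q.1 * qf (P.Q q.1)
      (Phi P A r q.1 x q.2 *ᵥ uu P f (P.traj q.1 x q.2 r)) ∨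
    mm k < P.δ q.1 * qf (P.Q q.1) (Wf P A (eN P mh) rem r q.1 x q.2)} with hBdd
  have hBd : ∀ x, MeasurableSet (Bd x) := by
    intro x
    have hu : ∀ j, BM fun q : S × (ℕ → Vec m) => uu P f (P.traj q.1 x q.2 r) j :=
      fun j => bm_comp (bm_uu P hf j) (P.meas_traj x r)
    refine MeasurableSet.union (measurableSet_lt ((bm_sq hu).1.const_mul _) (meas_dqf P ?_))
      (measurableSet_lt measurable_const (meas_dqf P ?_))
    · exact fun i => (bm_mulVec (bm_Phi P h.hA r x) hu i).1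
    · exact fun i => (bm_Wf P h.hA (bm_eN P h.hmh) h.hr r x i).1
  have hpt : ∀ s ∈ Lay (0 + k), P.ent f s ≤ P.U (P.ent f) s + 3 / 2 * l k * P.U^[r] (errU P f) s
      + 3 / 2 * mm k * tv2 P f s + 6 * (n + 1) * B * Fm * P.avg (pbF Bd) s
      + K0 * lam ^ 3 * (d * √d) * P.wt f s := by
    intro s hs
    rw [Nat.zero_add] at hs
    obtain ⟨hR1, hR2⟩ := h.hR k hk0 hkN s hs
    have hδ := P.hδ s
    have h1 := ent_step_poly P hf h.hlam0 h.hC hR1 h.hlam
      ((mul_le_mul_of_nonneg_left hR2 (sq_nonneg _)).trans h.hd)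
    have h2 := one_time P h.hA h.hmh h.hr h.hLay (r := r) (k := k)
      (fun j h1 h2 => h.hId j (by omega) (by omega)) hs hf hF (√(P.δ s) • (P.R s)ᵀ)
      (Bd := fun x => {ω | (s, ω) ∈ Bd x})
      (fun x => (measurable_const.prodMk measurable_id) (hBd x)) (l := l k) (M := mm k)
      (B1 := B * (4 * n)) (B2 := B) (h.hl k) (h.hmm k) (by positivity) hB ?_ ?_
    · rw [sq_sqrt_R] at h2
      have h3 : P.δ s * √(P.δ s) ≤ d * √d :=
        mul_le_mul hR2 (Real.sqrt_le_sqrt hR2) (Real.sqrt_nonneg _) (hδ.le.trans hR2)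
      have h4 : P.wt f s * (K0 * lam ^ 3 * (P.δ s * √(P.δ s)))
          ≤ P.wt f s * (K0 * lam ^ 3 * (d * √d)) :=
        mul_le_mul_of_nonneg_left (mul_le_mul_of_nonneg_left h3
          (mul_nonneg K0_nonneg (pow_nonneg h.hlam0.le 3))) (P.wt_pos hf s).le
      have e5 : P.avg (pbF Bd) s = ∑ x, P.law s x * (PN m).real {ω | (s, ω) ∈ Bd x} := rfl
      have e6 : (fun i => mean (P.nuf f s) i - mean (P.law s) i) = uu P f s := rfl
      rw [e6] at h1
      rw [e5]
      nlinarith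
    · intro x ω hω
      simp only [sq_sqrt_R]
      simp only [hBdd, Set.mem_ofPred_eq, not_or, not_lt] at hω
      exact hω
    · intro x ω
      simp only [sq_sqrt_R]
      obtain ⟨h5, h6⟩ := h.crude k hk0 hkN s hs x ω
      exact ⟨(h5 _).trans (mul_le_mul_of_nonneg_left (sq_uu_le P hf _) hB), h6⟩
  have b1 := bm_U P (P.bm_ent hf)
  have b2 := (bm_it P (bm_errU P hf) r).const_mul (3 / 2 * l k)
  have b3 := (bm_tv2 P hf).const_mul (3 / 2 * mm k)
  have b4 := (P.bm_avg (bm_pbF hBd)).const_mul (6 * (n + 1) * B * Fm)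
  have b5 := (P.bm_wt f).const_mul (K0 * lam ^ 3 * (d * √d))
  have h7 := it_mono P h.hLay (P.bm_ent hf) ((((b1.add b2).add b3).add b4).add b5) k 0 hpt s0 h.hs0
  rw [it_add P (((b1.add b2).add b3).add b4) b5, it_add P ((b1.add b2).add b3) b4,
    it_add P (b1.add b2) b3, it_add P b1 b2] at h7
  simp only [it_const_mul] at h7
  have e8 : P.U^[k] (fun s => P.U (P.ent f) s) s0 = P.U^[k + 1] (P.ent f) s0 := rfl
  have e9 : P.U^[k] (fun s => P.U^[r] (errU P f) s) s0 = P.U^[N] (errU P f) s0 := by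
    rw [show N = k + r by omega, Function.iterate_add_apply]
  have e10 : P.U^[k] (fun s => P.wt f s) s0 = P.wt f s0 := congrFun (it_wt P f k) s0
  have e11 : P.U^[k] (fun s => P.avg (pbF Bd) s) s0 ≤ p k := by
    refine (it_pbF P hBd k s0).trans_le (le_trans (PE_mono (P.law_isProb s0).1 ?_)
      (h.good k hk0 hkN))
    rintro x ω hω ⟨h1, h2⟩
    rcases hω with hω | hω
    · exact absurd (h1 _) (not_le.2 hω)
    · exact absurd h2 (not_le.2 hω)
  rw [e8, e9, e10] at h7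
  have h12 := mul_le_mul_of_nonneg_left e11 (show 0 ≤ 6 * ((n : ℝ) + 1) * B * Fm by positivity)
  have e13 : P.U^[k] (fun s => tv2 P f s) s0 = P.U^[k] (tv2 P f) s0 := rfl
  rw [e13] at h7
  linarith

theorem gronwall {H a b : ℕ → ℝ} {k0 N : ℕ} (hk : k0 ≤ N) (hH : 0 ≤ H N)
    (ha0 : ∀ k, 0 ≤ a k) (ha : ∀ k, k0 ≤ k → k < N → a k ≤ 1 / 2) (hb : ∀ k, k0 ≤ k → k < N → 0 ≤ b k)
    (h : ∀ k, k0 ≤ k → k < N → H k ≤ H (k + 1) + a k * H k + b k) :
    H k0 ≤ Real.exp (2 * ∑ k ∈ Finset.Ico k0 N, a k) * (H N + ∑ k ∈ Finset.Ico k0 N, b k) := by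
  induction hk using Nat.decreasingInduction with
  | self => simp
  | of_succ k hk ih =>
    have ih' := ih (fun j h1 h2 => ha j (by omega) h2) (fun j h1 h2 => hb j (by omega) h2)
      (fun j h1 h2 => h j (by omega) h2)
    rw [Finset.sum_eq_sum_Ico_succ_bot hk, Finset.sum_eq_sum_Ico_succ_bot hk, mul_add 2,
      Real.exp_add]
    have h1 := h k le_rfl hk
    have h2 := ha k le_rfl hk
    have h3 := hb k le_rfl hk
    have h4 := ha0 k
    set E := Real.exp (2 * ∑ j ∈ Finset.Ico (k + 1) N, a j) with hE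
    have hE1 : 1 ≤ E := Real.one_le_exp (mul_nonneg zero_le_two
      (Finset.sum_nonneg fun j _ => ha0 j))
    set Y := H N + ∑ j ∈ Finset.Ico (k + 1) N, b j with hY
    have hY0 : 0 ≤ Y := add_nonneg hH (Finset.sum_nonneg fun j hj => hb j
      (by have := (Finset.mem_Ico.1 hj).1; omega) (Finset.mem_Ico.1 hj).2)
    have h5 : (1 - a k) * H k ≤ E * (Y + b k) := by nlinarith
    have h6 : 1 + 2 * a k ≤ Real.exp (2 * a k) := by linarith [Real.add_one_le_exp (2 * a k)]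
    have h7 : 0 ≤ E * (Y + b k) := by positivity
    have h8 : E * (Y + b k) ≤ (1 - a k) * (Real.exp (2 * a k) * (E * (Y + b k))) := by
      have : 1 ≤ (1 - a k) * Real.exp (2 * a k) := by nlinarith
      nlinarith
    have h9 : H k ≤ Real.exp (2 * a k) * (E * (Y + b k)) :=
      le_of_mul_le_mul_left (h5.trans h8) (by linarith)
    calc H k ≤ _ := h9
      _ = _ := by rw [hY]; ring

variable {P} in
/-- multiplicative form -/
theorem Track.mul (h : Track P A mh rem Lay s0 k0 N C lam d B l mm p)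
    (hmm : ∀ k, k0 ≤ k → k < N → mm k ≤ 1 / 6) (hf : ∀ x, 0 < f x) {Fm : ℝ} (hF : ∀ x, f x ≤ Fm) :
    P.U^[k0] (P.ent f) s0 ≤ Real.exp (6 * ∑ k ∈ Finset.Ico k0 N, mm k) *
      (P.U^[N] (P.ent f) s0 + 3 / 2 * (∑ k ∈ Finset.Ico k0 N, l k) * P.U^[N] (errU P f) s0
        + 6 * (n + 1) * B * Fm * ∑ k ∈ Finset.Ico k0 N, p k
        + (N - k0 : ℕ) * (K0 * lam ^ 3 * (d * √d)) * P.wt f s0) := by
  have hFm : 0 ≤ Fm := (hf (fun _ => true)).le.trans (hF _)
  have hB := h.hB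
  have hE := it_nonneg P (bm_errU P hf) (errU_nonneg P hf) N s0
  have key := gronwall (H := fun k => P.U^[k] (P.ent f) s0) (a := fun k => 3 * mm k)
    (b := fun k => 3 / 2 * l k * P.U^[N] (errU P f) s0 + 6 * (n + 1) * B * Fm * p k
      + K0 * lam ^ 3 * (d * √d) * P.wt f s0) h.hk
    (it_nonneg P (P.bm_ent hf) (ent_nonneg P hf) N s0)
    (fun k => mul_nonneg (by norm_num) (h.hmm k)) (fun k h1 h2 => by linarith [hmm k h1 h2])
    (fun k h1 h2 => ?_) (fun k h1 h2 => ?_)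
  · refine key.trans (le_of_eq ?_)
    simp only [Finset.sum_add_distrib, ← Finset.mul_sum, ← Finset.sum_mul, Finset.sum_const,
      Nat.card_Ico, nsmul_eq_mul]
    congr 1
    · congr 1; ring
    · ring
  · have hp : 0 ≤ p k := le_trans (Finset.sum_nonneg fun x _ =>
      mul_nonneg (P.law_pos s0 x).le measureReal_nonneg) (h.good k h1 h2)
    have hd : 0 ≤ d * √d := by
      rcases le_total 0 d with h3 | h3
      · positivity
      · rw [Real.sqrt_eq_zero'.2 h3, mul_zero]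
    have := h.hl k
    have := K0_nonneg
    have := h.hlam0
    have := P.wt_pos hf s0
    positivity
  · have h3 := h.step hf hF h1 h2
    have h4 := it_mono' P (bm_tv2 P hf) ((P.bm_ent hf).const_mul 2) (tv2_le_ent P hf) k s0
    rw [it_const_mul] at h4
    have h5 := mul_le_mul_of_nonneg_left h4 (h.hmm k)
    beta_reduce at h5 ⊢
    linarith

variable {P} in
/-- additive form -/
theorem Track.add (h : Track P A mh rem Lay s0 k0 N C lam d B l mm p)
    (hf : ∀ x, 0 < f x) {Fm : ℝ} (hF : ∀ x, f x ≤ Fm) :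
    P.U^[k0] (P.ent f) s0 ≤ P.U^[N] (P.ent f) s0
      + 3 / 2 * (∑ k ∈ Finset.Ico k0 N, l k) * P.U^[N] (errU P f) s0
      + 6 * (∑ k ∈ Finset.Ico k0 N, mm k) * P.wt f s0
      + 6 * (n + 1) * B * Fm * ∑ k ∈ Finset.Ico k0 N, p k
      + (N - k0 : ℕ) * (K0 * lam ^ 3 * (d * √d)) * P.wt f s0 := by
  have key := gronwall (H := fun k => P.U^[k] (P.ent f) s0) (a := fun _ => 0)
    (b := fun k => 3 / 2 * l k * P.U^[N] (errU P f) s0 + 6 * mm k * P.wt f s0
      + 6 * (n + 1) * B * Fm * p k + K0 * lam ^ 3 * (d * √d) * P.wt f s0) h.hk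
    (it_nonneg P (P.bm_ent hf) (ent_nonneg P hf) N s0)
    (fun k => le_rfl) (fun k h1 h2 => by norm_num) (fun k h1 h2 => ?_) (fun k h1 h2 => ?_)
  · refine key.trans (le_of_eq ?_)
    simp only [Finset.sum_add_distrib, ← Finset.mul_sum, ← Finset.sum_mul, Finset.sum_const,
      Nat.card_Ico, nsmul_eq_mul, mul_zero, Real.exp_zero, one_mul]
    ring
  · have hFm : 0 ≤ Fm := (hf (fun _ => true)).le.trans (hF _)
    have hB := h.hB
    have hE := it_nonneg P (bm_errU P hf) (errU_nonneg P hf) N s0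
    have hp : 0 ≤ p k := le_trans (Finset.sum_nonneg fun x _ =>
      mul_nonneg (P.law_pos s0 x).le measureReal_nonneg) (h.good k h1 h2)
    have hd : 0 ≤ d * √d := by
      rcases le_total 0 d with h3 | h3
      · positivity
      · rw [Real.sqrt_eq_zero'.2 h3, mul_zero]
    have := h.hl k
    have := h.hmm k
    have := K0_nonneg
    have := h.hlam0
    have := P.wt_pos hf s0
    positivity
  · have h3 := h.step hf hF h1 h2
    have h4 := it_mono' P (bm_tv2 P hf) ((P.bm_wt f).const_mul 4) (tv2_le_wt P hf) k s0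
    rw [it_const_mul, it_wt] at h4
    have h5 := mul_le_mul_of_nonneg_left h4 (h.hmm k)
    beta_reduce at h5 ⊢
    linarith

end Vale.Agent.N150.A1
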