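import Vale.Agent.P150.Bdl.B39

/-! P150 at `β = 1`, endgame: definitions and statements. The terminal state of the bridge is a state
of the localization scheme of the library for the couplings `b • J₁`, `b < 1`, at the start of a
window, with no steering so far. -/

open MeasureTheory ProbabilityTheory Filter Topology
open scoped Matrix

namespace Vale.Agent.N150.End

open Vale.Agent.P150 Vale.Agent.P150.F

variable {n : ℕ}

/-- probability that the one-shot label `s Q x + √s R ξ` (`Q = R Rᵀ`, `x ∼ μ`) lies in `B` -/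
noncomputable def PY (μ : Cfg n → ℝ) (R : Mat n) (s : ℝ) (B : Set (Vec n)) : ℝ :=
  ∑ x, μ x * (gpi (Fin n)).real {ξ | obs R s x ξ ∈ B}

/-- terminal inequalities for a law `ρ` on the cube: entropy and shift of the mean are bounded by
the entropy production, up to the defect `A ^ 2 * θ` for densities bounded by `A` -/
def Term (C θ : ℝ) (ρ : Cfg n → ℝ) : Prop :=
  ∀ (f : Cfg n → ℝ) (A : ℝ), 1 ≤ A → (∀ x, 0 < f x) → (∀ x, f x ≤ A) →
    EntX ρ f ≤ C * DirW ρ f (fun x => Real.log (f x)) + A ^ 2 * θ ∧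
    Ex ρ f * F.sq (fun i => mean (fun x => ρ x * f x / Ex ρ f) i - mean ρ i)
      ≤ C * DirW ρ f (fun x => Real.log (f x)) + A ^ 2 * θ

/-- the TAP Hessian with the diagonal truncated at `L`, as a matrix -/
noncomputable def HLm (L r : ℝ) (J : Mat n) (m : Vec n) : Mat n :=
  Matrix.diagonal (fun i => min (1 / (1 - m i ^ 2)) L) + (r ^ 2 * (1 - qq m)) • (1 : Mat n) - r • J
    - (2 * r ^ 2 / n) • Matrix.vecMulVec m m

/-- `c` is an approximate TAP point for the couplings `r • J` and the field `y`, and the truncated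
TAP Hessian is invertible, with inverse bounded by `1 / c₀`, on the ball of radius `R √n` around `c` -/
def Ctr0 (c₀ L R E r : ℝ) (J : Mat n) (y c : Vec n) : Prop :=
  (∀ i, |c i| < 1) ∧ nv (tapG r J 0 y c) ≤ E ∧
    ∀ m : Vec n, (∀ i, |m i| < 1) → nv (m - c) ≤ R * √n →
      ∀ v, c₀ * nv v ≤ nv (HLm L r J m *ᵥ v)

/-- the no-outlier input along the levels `s = h j`, `j ≤ I`, of the `J`-killing path from `b • J` -/
structure TL (c₀ L R E b h c : ℝ) (I : ℕ) (J S0 : Mat n) (G : ℕ → Set (Vec n))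
    (cen : ℕ → Vec n → Vec n) : Prop where
  meas : ∀ j, MeasurableSet (G j)
  measc : ∀ j, Measurable (cen j)
  prob : ∀ j ≤ I, PY (gM (b • J) 0) S0 (h * j) (G j)ᶜ ≤ Real.exp (-(c * n))
  ctr : ∀ j ≤ I, ∀ y ∈ G j, Ctr0 c₀ L R E (b - h * j) J y (cen j y)
  link : ∀ j < I, ∀ y ∈ G j, ∀ y' ∈ G (j + 1), nv (y' - y) ≤ 20 * √h * √n →
    nv (cen (j + 1) y' - cen j y) ≤ R * √n / 8
  zero : nv (cen 0 0) ≤ R * √n / 8

/-- the output of the library side at the level `s` -/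
structure LibOut (C θ b s : ℝ) (J S0 : Mat n) (G : Set (Vec n)) (cen : Vec n → Vec n)
    (B : Set (Vec n)) : Prop where
  meas : MeasurableSet B
  sub : B ⊆ G
  prob : PY (gM (b • J) 0) S0 s Bᶜ ≤ θ
  near : ∀ y ∈ B, nv (mean (gM ((b - s) • J) y) - cen y) ≤ C
  term : ∀ y ∈ B, Term C θ (gM ((b - s) • J) y)

/-- (E5) terminal inequalities at the non-bad states of a scheme with small steps -/
def TermStmt : Prop := ∀ C T c : ℝ, 0 < C → 0 < c → ∃ C' > 0, ∀ᶠ n : ℕ in atTop, ∃ δ₀ > 0,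
  ∀ (β : ℝ) (J : Mat n) (D : D6Out β C T c J δ₀), ∀ k ≤ D.N, ∀ s : D.S, D.Inv k s →
    s ∉ D.P.badSet (D.P.badSet (fun _ => D.Exit) (Real.exp (-(c / 2 * n))))
        (Real.exp (-(c / 4 * n))) k →
      nv (mean (D.P.law s) - D.mh s) ≤ C' ∧ Term C' (Real.exp (-(c / 8 * n))) (D.P.law s)

/-- the directions of `p` vanish at every centre where no direction is needed -/
def Free (K : Cst) (p : SPar n) : Prop :=
  ∀ (i : ℕ) (z : Vec n), (∀ m : Vec n, (∀ j, |m j| < 1) → F.sq (m - z) ≤ p.ρ ^ 2 * n →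
    ∀ v, K.c₁ * F.sq v ≤ HL K.L (p.β - p.τ * i) p.J m v) → ∀ a, p.dirs i z a = 0

/-- (E1) the concrete scheme, with free directions, small balls and short windows -/
def SchemeStmt : Prop := ∀ b : ℝ, 0 ≤ b → b < 1 →
  ∀ {I : Type} (F : Filter I) (n : I → ℕ) (J : ∀ i, Mat (n i)), Good b F n J →
    ∀ c₀ L R : ℝ, 0 < c₀ → 0 < L → 0 < R → ∃ N₀ : ℕ, ∀ Nw : ℕ, N₀ ≤ Nw →
      ∃ (K : Cst) (T c : ℝ), K.OK ∧ K.β = b ∧ K.Nw = Nw ∧ K.c₁ ≤ c₀ ∧ L ≤ K.L ∧ K.ρ ≤ R ∧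
        0 < T ∧ 0 < c ∧ ∀ᶠ i in F, ∀ S0 : Mat (n i), S0 * S0ᵀ = J i + (4 : ℝ) • (1 : Mat (n i)) →
          ∀ δ₀ > 0, ∀ M : ℕ, 0 < M → ∃ (p : SPar (n i)) (hM : p.MMSucc) (hm : p.MhMeas K.c),
            p.Adm K ∧ p.J = J i ∧ p.S0 = S0 ∧ Free K p ∧ M ∣ p.q ∧
            (p.loc K.c hM hm).OK b (J i) T ∧ (∃ E, (p.loc K.c hM hm).Drift T E ∧ E * √p.dl ≤ 1) ∧
            p.dl ≤ δ₀ ∧ (p.loc K.c hM hm).pexit ≤ Real.exp (-(c * n i))

/-- (E3, E4) the library side of the endgame -/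
def LibStmt : Prop := ∀ b : ℝ, 0 ≤ b → b < 1 →
  ∀ {I : Type} (F : Filter I) (n : I → ℕ) (J : ∀ i, Mat (n i)), Good b F n J →
    ∀ c₀ L R : ℝ, 0 < c₀ → 0 < L → 0 < R → ∃ N₀ : ℕ, ∀ Nw : ℕ, N₀ ≤ Nw →
      ∀ (E c : ℝ) (A : ℕ), 0 < c → ∃ C > 0, ∃ c' > 0, ∀ᶠ i in F, ∀ l < Nw, ∀ M : ℕ, 0 < M →
        M ≤ n i ^ A →
        ∀ (S0 : Mat (n i)) (G : ℕ → Set (Vec (n i))) (cen : ℕ → Vec (n i) → Vec (n i)),
          S0 * S0ᵀ = J i + (4 : ℝ) • (1 : Mat (n i)) →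
          TL c₀ L R E b (b / Nw / M) c (l * M) (J i) S0 G cen →
          ∃ B, LibOut C (Real.exp (-(c' * n i))) b (b / Nw * l) (J i) S0 (G (l * M)) (cen (l * M)) B

/-- the full GOE matrix -/
noncomputable def goe (w : (Pairs n → ℝ) × Vec n) : Mat n :=
  skM w.1 + Matrix.diagonal fun a => √(2 / (n : ℝ)) * w.2 a

/-- the law of its Gaussian coordinates -/
noncomputable def PW (n : ℕ) : Measure ((Pairs n → ℝ) × Vec n) := (disorder n).prod (gpi (Fin n))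

/-- the total precision at the end of the bridge; `J' = J₁ + diagonal D` is the full matrix,
`b J' + σ W - Qtot = (b - s) J' - (4 s - σ ^ 2)` -/
noncomputable def Qtot (σ s : ℝ) (J' W : Mat n) : Mat n :=
  s • (J' + (5 / 2 : ℝ) • (1 : Mat n)) + σ • W + (3 / 2 * s - σ ^ 2) • (1 : Mat n)

/-- (E2) law comparison: the label of precision `Qtot` under the Gibbs measure of `b J₁ + σ W`
against the label of precision `s (J₁ + 4)` under the Gibbs measure of `b J₁` -/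
def LawStmt : Prop := ∀ b σ s : ℝ, 0 < b → 0 < σ → σ ≤ 1 / 10 → b ^ 2 + σ ^ 2 = 1 → 2 * σ ≤ s →
  s ≤ 3 * σ → ∀ c > 0, ∃ η > 0, ∃ c' > 0, ∀ δ > 0, ∀ᶠ i in whpF,
    ∀ (D : Vec i.1) (S0 : Mat i.1) (B : Set (Vec i.1)), (∀ a, |D a| ≤ η) →
      S0 * S0ᵀ = skM i.2 + (4 : ℝ) • (1 : Mat i.1) → MeasurableSet B →
      PY (gM (b • skM i.2) 0) S0 s B ≤ Real.exp (-(c * i.1)) →
      (PW i.1).real {w | ¬ (OpLe (goe w) (21 / 10) ∧ ∀ Rt : Mat i.1,
        Rt * Rtᵀ = Qtot σ s (skM i.2 + Matrix.diagonal D) (goe w) →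
        PY (gM (b • skM i.2 + σ • goe w) 0) Rt 1 B ≤ Real.exp (-(c' * i.1)))} ≤ δ

/-- (E2') the diagonal does not matter for the labels of the `J`-killing path -/
def DiagStmt : Prop := ∀ s c : ℝ, 0 ≤ s → s ≤ 1 → 0 < c → ∃ η > 0, ∀ᶠ n : ℕ in atTop,
  ∀ (μ : Cfg n → ℝ) (J S0 S1 : Mat n) (D : Vec n) (B : Set (Vec n)), IsProb μ → J.IsSymm →
    OpLe J 3 → (∀ a, |D a| ≤ η) → S0 * S0ᵀ = J + (4 : ℝ) • (1 : Mat n) →
    S1 * S1ᵀ = J + Matrix.diagonal D + (4 : ℝ) • (1 : Mat n) → MeasurableSet B →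
    PY μ S1 s B ≤ Real.exp (-(c * n)) → PY μ S0 s B ≤ Real.exp (-(c / 4 * n))

end Vale.Agent.N150.End
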