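import Mathlib
import Vale.Agent.N150.A1Tr
import Vale.Agent.N150.EndDefs

/-! P150, block A1': terminal bounds, their propagation along a tracked window, and the tail of the
tracking error at one time. -/

open MeasureTheory ProbabilityTheory Filter Topology Real
open scoped Matrix

namespace Vale.Agent.N150.A1

open Vale.Agent.P150 Vale.Agent.P150.F

variable {n m : ℕ} {S : Type} [MeasurableSpace S] (P : Proc n m S)

/-- terminal bound at time `N`: entropy and squared shift of the mean against the initial entropy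
production, up to the defects `Fm ^ 2 * θ` and `ζ * weight` -/
def TermAt (s0 : S) (N : ℕ) (CT θ ζ : ℝ) : Prop :=
  ∀ (f : Cfg n → ℝ) (Fm : ℝ), 1 ≤ Fm → (∀ x, 0 < f x) → (∀ x, f x ≤ Fm) →
    P.U^[N] (P.ent f) s0 ≤ CT * P.ep f s0 + Fm ^ 2 * θ + ζ * P.wt f s0 ∧
    P.U^[N] (errU P f) s0 ≤ CT * P.ep f s0 + Fm ^ 2 * θ + ζ * P.wt f s0

variable {P} in
theorem TermAt.mono {s0 : S} {N : ℕ} {CT θ ζ CT' θ' ζ' : ℝ} (h : TermAt P s0 N CT θ ζ)
    (h1 : CT ≤ CT') (h2 : θ ≤ θ') (h3 : ζ ≤ ζ') : TermAt P s0 N CT' θ' ζ' := by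
  intro f Fm hF hf hfF
  obtain ⟨a, b⟩ := h f Fm hF hf hfF
  have e1 := mul_le_mul_of_nonneg_right h1 (P.ep_nonneg hf s0)
  have e2 := mul_le_mul_of_nonneg_left h2 (sq_nonneg Fm)
  have e3 := mul_le_mul_of_nonneg_right h3 (P.wt_pos hf s0).le
  constructor <;> linarith

theorem it_ind {B : Set S} (hB : MeasurableSet B) (k : ℕ) (s : S) :
    P.U^[k] (B.indicator fun _ => (1 : ℝ)) s = PE (P.law s) fun x ω => P.traj s x ω k ∈ B := by
  rw [it_eq_ET P (bm_ind hB)]
  unfold PE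
  refine Finset.sum_congr rfl fun x _ => ?_
  congr 1
  have hm : MeasurableSet {ω | P.traj s x ω k ∈ B} := P.meas_traj_right s x k hB
  have e : (fun ω => B.indicator (fun _ => (1 : ℝ)) (P.traj s x ω k))
      = Set.indicator {ω | P.traj s x ω k ∈ B} fun _ => (1 : ℝ) := by
    funext ω
    by_cases h : P.traj s x ω k ∈ B
    · rw [Set.indicator_of_mem h, Set.indicator_of_mem (by exact h)]
    · rw [Set.indicator_of_notMem h, Set.indicator_of_notMem (by exact h)]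
  rw [e, integral_indicator hm]
  simp

/-- terminal inequalities on a good set of terminal states give the terminal bound -/
theorem termAt_of_term {Gd : Set S} (hG : MeasurableSet Gd) {C θ p : ℝ} (hC : 0 ≤ C) (hθ : 0 ≤ θ)
    (hT : ∀ s ∈ Gd, End.Term C θ (P.law s)) {s0 : S} {N : ℕ}
    (hp : PE (P.law s0) (fun x ω => P.traj s0 x ω N ∉ Gd) ≤ p) :
    TermAt P s0 N C (θ + (4 * n + 2) * p) 0 := by
  intro f Fm hF hf hfF
  have hF0 : 0 ≤ Fm := by linarith
  set Ψ : S → ℝ := fun s => C * P.ep f s + Fm ^ 2 * θ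
    + Fm ^ 2 * (4 * n + 2) * (Gdᶜ.indicator fun _ => (1 : ℝ)) s with hΨ
  have b1 := (P.bm_ep f).const_mul C
  have b2 : BM fun _ : S => Fm ^ 2 * θ := BM.const _
  have b3 := (bm_ind hG.compl).const_mul (Fm ^ 2 * (4 * n + 2))
  have bΨ : BM Ψ := (b1.add b2).add b3
  have hU : P.U^[N] Ψ s0 ≤ C * P.ep f s0 + Fm ^ 2 * (θ + (4 * n + 2) * p) + 0 * P.wt f s0 := by
    rw [hΨ, it_add P (b1.add b2) b3, it_add P b1 b2]
    simp only [it_const_mul, it_const]
    have h1 := mul_le_mul_of_nonneg_left (it_ep_le P hf N s0) hC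
    have h2 : P.U^[N] (fun s => (Gdᶜ.indicator fun _ => (1 : ℝ)) s) s0 ≤ p :=
      (it_ind P hG.compl N s0).trans_le hp
    have h3 := mul_le_mul_of_nonneg_left h2 (show 0 ≤ Fm ^ 2 * (4 * n + 2) by positivity)
    have e : P.U^[N] (fun s => P.ep f s) s0 = P.U^[N] (P.ep f) s0 := rfl
    rw [e]
    linarith
  have hn : (0 : ℝ) ≤ n := Nat.cast_nonneg n
  have hF2 : Fm ≤ Fm ^ 2 := by nlinarith
  constructor
  · refine (it_mono' P (P.bm_ent hf) bΨ (fun s => ?_) N s0).trans hU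
    have h0 := mul_nonneg hC (P.ep_nonneg hf s)
    by_cases hs : s ∈ Gd
    · have h1 : P.ent f s ≤ C * P.ep f s + Fm ^ 2 * θ := (hT s hs f Fm hF hf hfF).1
      simp only [hΨ]
      rw [Set.indicator_of_notMem (by simpa using hs)]
      linarith
    · have h1 := P.ent_le hf (Lf := Fm) (fun x =>
        (Real.log_le_sub_one_of_pos (hf x)).trans (by linarith [hfF x])) s
      have h2 := mul_le_mul_of_nonneg_left (P.wt_le hfF s) hF0
      have h3 : 0 ≤ Fm ^ 2 * θ := by positivity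
      simp only [hΨ]
      rw [Set.indicator_of_mem (by simpa using hs)]
      nlinarith
  · refine (it_mono' P (bm_errU P hf) bΨ (fun s => ?_) N s0).trans hU
    have h0 := mul_nonneg hC (P.ep_nonneg hf s)
    by_cases hs : s ∈ Gd
    · have h1 : errU P f s ≤ C * P.ep f s + Fm ^ 2 * θ := (hT s hs f Fm hF hf hfF).2
      simp only [hΨ]
      rw [Set.indicator_of_notMem (by simpa using hs)]
      linarith
    · have h1 : errU P f s ≤ Fm * (4 * n) :=
        mul_le_mul (P.wt_le hfF s) (sq_uu_le P hf s) (sq_nonneg' _) hF0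
      have h3 : 0 ≤ Fm ^ 2 * θ := by positivity
      simp only [hΨ]
      rw [Set.indicator_of_mem (by simpa using hs)]
      nlinarith

/-- hypotheses at the single time `k`, for the test matrices `Rt` -/
structure Test (A : S → Mat n) (mh : S → Vec n) (rem : S → Cfg n → Vec m → Vec n)
    (Lay : ℕ → Set S) (s0 : S) (k N : ℕ) {a : ℕ} (Rt : S → Matrix (Fin a) (Fin n) ℝ)
    (B l M p : ℝ) : Prop where
  hA : ∀ i j, BM fun s => A s i j
  hmh : ∀ i, BM fun s => mh s i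
  hr : ∀ x i, BM fun q : S × Vec m => rem q.1 x q.2 i
  hLay : ∀ k s z, s ∈ Lay k → P.nxt s z ∈ Lay (k + 1)
  hs0 : s0 ∈ Lay 0
  hk : k ≤ N
  hId : ∀ j, k ≤ j → j < N → ∀ s ∈ Lay j, IdOn P A mh rem s
  hRt : ∀ i j, BM fun s => Rt s i j
  hB : 0 ≤ B
  hl : 0 ≤ l
  hM : 0 ≤ M
  crude : ∀ s ∈ Lay k, ∀ x ω,
    (∀ v, F.sq (Rt s *ᵥ (Phi P A (N - k) s x ω *ᵥ v)) ≤ B * F.sq v) ∧
      F.sq (Rt s *ᵥ Wf P A (eN P mh) rem (N - k) s x ω) ≤ B
  good : PE (P.law s0) (fun x ω => ¬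
    ((∀ v, F.sq (Rt (P.traj s0 x ω k) *ᵥ (Phi P A (N - k) (P.traj s0 x ω k) x (shS k ω) *ᵥ v))
        ≤ l * F.sq v) ∧
      F.sq (Rt (P.traj s0 x ω k) *ᵥ Wf P A (eN P mh) rem (N - k) (P.traj s0 x ω k) x (shS k ω))
        ≤ M)) ≤ p

variable {A : S → Mat n} {mh : S → Vec n} {rem : S → Cfg n → Vec m → Vec n} {Lay : ℕ → Set S}
  {s0 : S} {k N a : ℕ} {Rt : S → Matrix (Fin a) (Fin n) ℝ} {B l M p : ℝ} {f : Cfg n → ℝ}

variable {P} in
theorem Test.p_nonneg (h : Test P A mh rem Lay s0 k N Rt B l M p) : 0 ≤ p :=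
  le_trans (Finset.sum_nonneg fun x _ => mul_nonneg (P.law_pos s0 x).le measureReal_nonneg) h.good

variable {P} in
/-- the one-time bound in expectation -/
theorem Test.err (h : Test P A mh rem Lay s0 k N Rt B l M p) (hf : ∀ x, 0 < f x) {Fm : ℝ}
    (hF : ∀ x, f x ≤ Fm) :
    P.U^[k] (fun s => P.wt f s * F.sq (Rt s *ᵥ uu P f s)) s0 ≤ 3 * l * P.U^[N] (errU P f) s0
      + 3 * M * P.U^[k] (tv2 P f) s0 + 12 * (n + 1) * B * Fm * p := by
  set r := N - k with hr
  have hkN := h.hk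
  have hFm : 0 ≤ Fm := (hf (fun _ => true)).le.trans (hF _)
  have hB := h.hB
  set Bd : Cfg n → Set (S × (ℕ → Vec m)) := fun x => {q |
    l * F.sq (uu P f (P.traj q.1 x q.2 r)) < F.sq (Rt q.1 *ᵥ
      (Phi P A r q.1 x q.2 *ᵥ uu P f (P.traj q.1 x q.2 r))) ∨
    M < F.sq (Rt q.1 *ᵥ Wf P A (eN P mh) rem r q.1 x q.2)} with hBdd
  have hR : ∀ i j, BM fun q : S × (ℕ → Vec m) => Rt q.1 i j :=
    fun i j => bm_comp (h.hRt i j) measurable_fst
  have hBd : ∀ x, MeasurableSet (Bd x) := by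
    intro x
    have hu : ∀ j, BM fun q : S × (ℕ → Vec m) => uu P f (P.traj q.1 x q.2 r) j :=
      fun j => bm_comp (bm_uu P hf j) (P.meas_traj x r)
    exact MeasurableSet.union (measurableSet_lt ((bm_sq hu).1.const_mul _)
      (bm_sq (bm_mulVec hR (bm_mulVec (bm_Phi P h.hA r x) hu))).1)
      (measurableSet_lt measurable_const
        (bm_sq (bm_mulVec hR (bm_Wf P h.hA (bm_eN P h.hmh) h.hr r x))).1)
  have hpt : ∀ s ∈ Lay (0 + k), P.wt f s * F.sq (Rt s *ᵥ uu P f s) ≤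
      3 * l * P.U^[r] (errU P f) s + 3 * M * tv2 P f s
        + 12 * (n + 1) * B * Fm * P.avg (pbF Bd) s := by
    intro s hs
    rw [Nat.zero_add] at hs
    have h2 := one_time P h.hA h.hmh h.hr h.hLay (r := r) (k := k)
      (fun j h1 h2 => h.hId j h1 (by omega)) hs hf hF (Rt s)
      (Bd := fun x => {ω | (s, ω) ∈ Bd x})
      (fun x => (measurable_const.prodMk measurable_id) (hBd x)) (l := l) (M := M)
      (B1 := B * (4 * n)) (B2 := B) h.hl h.hM (by positivity) hB ?_ ?_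
    · have e5 : P.avg (pbF Bd) s = ∑ x, P.law s x * (PN m).real {ω | (s, ω) ∈ Bd x} := rfl
      rw [e5]
      linarith
    · intro x ω hω
      simp only [hBdd, Set.mem_ofPred_eq, not_or, not_lt] at hω
      exact hω
    · intro x ω
      obtain ⟨h5, h6⟩ := h.crude s hs x ω
      exact ⟨(h5 _).trans (mul_le_mul_of_nonneg_left (sq_uu_le P hf _) hB), h6⟩
  have b0 := (P.bm_wt f).mul (bm_sq (bm_mulVec h.hRt (bm_uu P hf)))
  have b2 := (bm_it P (bm_errU P hf) r).const_mul (3 * l)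
  have b3 := (bm_tv2 P hf).const_mul (3 * M)
  have b4 := (P.bm_avg (bm_pbF hBd)).const_mul (12 * (n + 1) * B * Fm)
  have h7 := it_mono P h.hLay b0 ((b2.add b3).add b4) k 0 hpt s0 h.hs0
  rw [it_add P (b2.add b3) b4, it_add P b2 b3] at h7
  simp only [it_const_mul] at h7
  have e9 : P.U^[k] (fun s => P.U^[r] (errU P f) s) s0 = P.U^[N] (errU P f) s0 := by
    rw [show N = k + r by omega, Function.iterate_add_apply]
  have e11 : P.U^[k] (fun s => P.avg (pbF Bd) s) s0 ≤ p := by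
    refine (it_pbF P hBd k s0).trans_le (le_trans (PE_mono (P.law_isProb s0).1 ?_) h.good)
    rintro x ω hω ⟨h1, h2⟩
    rcases hω with hω | hω
    · exact absurd (h1 _) (not_le.2 hω)
    · exact absurd h2 (not_le.2 hω)
  rw [e9] at h7
  have h12 := mul_le_mul_of_nonneg_left e11 (show 0 ≤ 12 * ((n : ℝ) + 1) * B * Fm by positivity)
  have e13 : P.U^[k] (fun s => tv2 P f s) s0 = P.U^[k] (tv2 P f) s0 := rfl
  rw [e13] at h7
  linarith

theorem sq_avg_le {X Ω : Type} [Fintype X] [MeasurableSpace Ω] (pr : Measure Ω)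
    [IsProbabilityMeasure pr] {μ : X → ℝ} (hμ0 : ∀ x, 0 ≤ μ x) (hμ1 : ∑ x, μ x = 1)
    {β : X → Ω → ℝ} (hβ : ∀ x, BM (β x)) :
    (∑ x, μ x * ∫ ω, β x ω ∂pr) ^ 2 ≤ ∑ x, μ x * ∫ ω, β x ω ^ 2 ∂pr := by
  set c := ∑ x, μ x * ∫ ω, β x ω ∂pr with hc
  have h1 : ∀ x, 2 * c * ∫ ω, β x ω ∂pr - c ^ 2 ≤ ∫ ω, β x ω ^ 2 ∂pr := by
    intro x
    have i1 := bm_integrable (hβ x) pr
    have h2 : ∫ ω, (2 * c * β x ω - c ^ 2) ∂pr ≤ ∫ ω, β x ω ^ 2 ∂pr :=
      integral_mono ((i1.const_mul _).sub (integrable_const _)) (bm_integrable (hβ x).pow_two pr)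
        fun ω => by beta_reduce; nlinarith [sq_nonneg (β x ω - c)]
    rw [integral_sub (i1.const_mul _) (integrable_const _), integral_const_mul] at h2
    simpa using h2
  have h3 : ∑ x, μ x * (2 * c * ∫ ω, β x ω ∂pr - c ^ 2) ≤ ∑ x, μ x * ∫ ω, β x ω ^ 2 ∂pr :=
    Finset.sum_le_sum fun x _ => mul_le_mul_of_nonneg_left (h1 x) (hμ0 x)
  have h4 : ∑ x, μ x * (2 * c * ∫ ω, β x ω ∂pr - c ^ 2) = 2 * c * c - (∑ x, μ x) * c ^ 2 := by
    rw [Finset.sum_mul]
    conv_rhs => rw [hc, Finset.mul_sum, ← hc, ← Finset.sum_sub_distrib]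
    exact Finset.sum_congr rfl fun x _ => by ring
  rw [h4, hμ1] at h3
  linarith

variable {P} in
/-- the tail of the tracking error at time `k` (one Markov step) -/
theorem Test.tail (h : Test P A mh rem Lay s0 k N Rt B l M p) :
    PE (P.law s0) (fun x ω => M + 1 <
      F.sq (Rt (P.traj s0 x ω k) *ᵥ eN P mh (P.traj s0 x ω k) x)) ≤ B * p := by
  set r := N - k with hr
  have hkN := h.hk
  have hB := h.hB
  set Bd : Cfg n → Set (S × (ℕ → Vec m)) := fun x => {q |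
    M < F.sq (Rt q.1 *ᵥ Wf P A (eN P mh) rem r q.1 x q.2)} with hBdd
  have hR : ∀ i j, BM fun q : S × (ℕ → Vec m) => Rt q.1 i j :=
    fun i j => bm_comp (h.hRt i j) measurable_fst
  have hW : ∀ x i, BM fun q : S × (ℕ → Vec m) => (Rt q.1 *ᵥ Wf P A (eN P mh) rem r q.1 x q.2) i :=
    fun x => bm_mulVec hR (bm_Wf P h.hA (bm_eN P h.hmh) h.hr r x)
  have hBd : ∀ x, MeasurableSet (Bd x) := fun x =>
    measurableSet_lt measurable_const (bm_sq (hW x)).1
  set Ev : Set S := {s | M + 1 < F.sq (Rt s *ᵥ (mean (P.law s) - mh s))} with hEv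
  have hE : MeasurableSet Ev := measurableSet_lt measurable_const
    (bm_sq (bm_mulVec h.hRt fun j => (bm_meanlaw P j).sub (h.hmh j))).1
  have hpt : ∀ s ∈ Lay (0 + k), Ev.indicator (fun _ => (1 : ℝ)) s ≤ B * P.avg (pbF Bd) s := by
    intro s hs
    rw [Nat.zero_add] at hs
    have hp0 : 0 ≤ P.avg (pbF Bd) s :=
      Finset.sum_nonneg fun x _ => mul_nonneg (P.law_pos s x).le measureReal_nonneg
    by_cases hsE : s ∈ Ev
    swap
    · rw [Set.indicator_of_notMem hsE]; positivity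
    rw [Set.indicator_of_mem hsE]
    have b2 : ∀ x i, BM fun ω => Wf P A (eN P mh) rem r s x ω i := fun x i =>
      bm_right (F := fun s ω => Wf P A (eN P mh) rem r s x ω i)
        (bm_Wf P h.hA (bm_eN P h.hmh) h.hr r x i) s
    have b3 : ∀ x i, BM fun ω => (Rt s *ᵥ Wf P A (eN P mh) rem r s x ω) i := fun x i =>
      bm_mulVec (A := fun _ => Rt s) (fun _ _ => BM.const _) (b2 x) i
    have h1 : ∀ i, (Rt s *ᵥ (mean (P.law s) - mh s)) i
        = ∑ x, P.law s x * ∫ ω, (Rt s *ᵥ Wf P A (eN P mh) rem r s x ω) i ∂PN m := by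
      intro i
      have e1 : ∀ x, ∫ ω, (Rt s *ᵥ Wf P A (eN P mh) rem r s x ω) i ∂PN m
          = ∑ j, Rt s i j * ∫ ω, Wf P A (eN P mh) rem r s x ω j ∂PN m := by
        intro x
        simp only [Matrix.mulVec, dotProduct]
        rw [integral_finsetSum _ fun j _ => (bm_integrable (b2 x j) _).const_mul _]
        simp only [integral_const_mul]
      simp only [e1]
      simp only [Matrix.mulVec, dotProduct, Pi.sub_apply,
        mean_law_id P h.hA h.hmh h.hr h.hLay (r := r) (k := k)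
          (fun j h1 h2 => h.hId j h1 (by omega)) hs, Finset.mul_sum]
      rw [Finset.sum_comm]
      exact Finset.sum_congr rfl fun x _ => Finset.sum_congr rfl fun j _ => by ring
    have h2 : F.sq (Rt s *ᵥ (mean (P.law s) - mh s))
        ≤ ∑ x, P.law s x * ∫ ω, F.sq (Rt s *ᵥ Wf P A (eN P mh) rem r s x ω) ∂PN m := by
      unfold F.sq
      simp only [h1]
      refine (Finset.sum_le_sum fun i _ => sq_avg_le (PN m) (P.law_isProb s).1 (P.law_sum s)
        fun x => b3 x i).trans (le_of_eq ?_)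
      rw [Finset.sum_comm]
      refine Finset.sum_congr rfl fun x _ => ?_
      rw [integral_finsetSum _ fun i _ => bm_integrable (b3 x i).pow_two _, Finset.mul_sum]
    have h3 : ∀ x, ∫ ω, F.sq (Rt s *ᵥ Wf P A (eN P mh) rem r s x ω) ∂PN m ≤ M + B * pbF Bd s x := by
      intro x
      have i2 : Integrable (fun ω => (Bd x).indicator (fun _ => (1 : ℝ)) (s, ω)) (PN m) :=
        bm_integrable (bm_right (F := fun s ω => (Bd x).indicator (fun _ => (1 : ℝ)) (s, ω))
          (bm_ind (hBd x)) s) _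
      have h4 : ∫ ω, F.sq (Rt s *ᵥ Wf P A (eN P mh) rem r s x ω) ∂PN m
          ≤ ∫ ω, (M + B * (Bd x).indicator (fun _ => (1 : ℝ)) (s, ω)) ∂PN m := by
        refine integral_mono (bm_integrable (bm_sq (b3 x)) _)
          ((integrable_const _).add (i2.const_mul _)) fun ω => ?_
        beta_reduce
        by_cases hω : (s, ω) ∈ Bd x
        · rw [Set.indicator_of_mem hω]
          linarith [(h.crude s hs x ω).2, h.hM]
        · rw [Set.indicator_of_notMem hω]
          simp only [hBdd, Set.mem_ofPred_eq, not_lt] at hω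
          linarith
      rw [integral_add (integrable_const _) (i2.const_mul _), integral_const_mul,
        ← pbF_eq hBd] at h4
      simpa using h4
    have h5 : ∑ x, P.law s x * ∫ ω, F.sq (Rt s *ᵥ Wf P A (eN P mh) rem r s x ω) ∂PN m
        ≤ M + B * P.avg (pbF Bd) s := by
      calc _ ≤ ∑ x, P.law s x * (M + B * pbF Bd s x) :=
            Finset.sum_le_sum fun x _ => mul_le_mul_of_nonneg_left (h3 x) (P.law_pos s x).le
        _ = (∑ x, P.law s x) * M + B * P.avg (pbF Bd) s := by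
            unfold Proc.avg
            rw [Finset.sum_mul, Finset.mul_sum, ← Finset.sum_add_distrib]
            exact Finset.sum_congr rfl fun x _ => by ring
        _ = _ := by rw [P.law_sum, one_mul]
    have h6 : M + 1 < F.sq (Rt s *ᵥ (mean (P.law s) - mh s)) := hsE
    linarith
  have h7 := it_mono P h.hLay (bm_ind hE) ((P.bm_avg (bm_pbF hBd)).const_mul B) k 0 hpt s0 h.hs0
  rw [it_ind P hE, it_const_mul] at h7
  have e11 : P.U^[k] (P.avg (pbF Bd)) s0 ≤ p := by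
    refine (it_pbF P hBd k s0).trans_le (le_trans (PE_mono (P.law_isProb s0).1 ?_) h.good)
    rintro x ω hω ⟨_, h2⟩
    exact absurd h2 (not_le.2 hω)
  exact h7.trans (mul_le_mul_of_nonneg_left e11 hB)

variable {C lam d B' : ℝ} {l' mm p' : ℕ → ℝ}

variable {P} in
theorem Track.p_nonneg (h : Track P A mh rem Lay s0 k N C lam d B' l' mm p') :
    0 ≤ ∑ j ∈ Finset.Ico k N, p' j :=
  Finset.sum_nonneg fun j hj => le_trans (Finset.sum_nonneg fun x _ =>
    mul_nonneg (P.law_pos s0 x).le measureReal_nonneg)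
      (h.good j (Finset.mem_Ico.1 hj).1 (Finset.mem_Ico.1 hj).2)

theorem d_sqrt_nonneg (d : ℝ) : 0 ≤ d * √d := by
  rcases le_total 0 d with h3 | h3
  · positivity
  · rw [Real.sqrt_eq_zero'.2 h3, mul_zero]

variable {P} in
/-- propagation of the terminal bound from time `N` back to time `k` -/
theorem Track.term (h : Track P A mh rem Lay s0 k N C lam d B' l' mm p')
    (hmm : ∀ j, k ≤ j → j < N → mm j ≤ 1 / 6)
    (ht : Test P A mh rem Lay s0 k N (fun _ => (1 : Mat n)) B l M p) {CT θ ζ E C1 : ℝ}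
    (hT : TermAt P s0 N CT θ ζ) (hC : 0 ≤ CT) (hθ : 0 ≤ θ) (hζ : 0 ≤ ζ)
    (hE : Real.exp (6 * ∑ j ∈ Finset.Ico k N, mm j) ≤ E)
    (hC1 : E * (1 + 3 / 2 * ∑ j ∈ Finset.Ico k N, l' j) ≤ C1) :
    TermAt P s0 k (((1 + 6 * M) * C1 + 3 * l) * CT)
      (((1 + 6 * M) * C1 + 3 * l) * θ
        + (1 + 6 * M) * E * (6 * (n + 1) * B' * ∑ j ∈ Finset.Ico k N, p' j) + 12 * (n + 1) * B * p)
      (((1 + 6 * M) * C1 + 3 * l) * ζ
        + (1 + 6 * M) * E * ((N - k : ℕ) * (K0 * lam ^ 3 * (d * √d)))) := by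
  intro f Fm hF hf hfF
  obtain ⟨t1, t2⟩ := hT f Fm hF hf hfF
  have h1 := h.mul hmm hf hfF
  have h2 := ht.err hf hfF
  have h3 := it_mono' P (bm_tv2 P hf) ((P.bm_ent hf).const_mul 2) (tv2_le_ent P hf) k s0
  rw [it_const_mul] at h3
  have e0 : (fun s => P.wt f s * F.sq ((1 : Mat n) *ᵥ uu P f s)) = errU P f := by
    funext s; rw [Matrix.one_mulVec]; rfl
  rw [e0] at h2
  set X := CT * P.ep f s0 + Fm ^ 2 * θ + ζ * P.wt f s0 with hX
  have hep := P.ep_nonneg hf s0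
  have hw := (P.wt_pos hf s0).le
  have hX0 : 0 ≤ X := by positivity
  set Λ := ∑ j ∈ Finset.Ico k N, l' j with hΛ
  have hΛ0 : 0 ≤ Λ := Finset.sum_nonneg fun j _ => h.hl j
  set η := 6 * (n + 1) * B' * ∑ j ∈ Finset.Ico k N, p' j with hη
  have hB' := h.hB
  have hp' := h.p_nonneg
  have hη0 : 0 ≤ η := by positivity
  set κ := ((N - k : ℕ) : ℝ) * (K0 * lam ^ 3 * (d * √d)) with hκ
  have hκ0 : 0 ≤ κ := by
    have := K0_nonneg
    have := h.hlam0
    have := d_sqrt_nonneg d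
    positivity
  have hE0 : 0 ≤ E := (Real.exp_pos _).le.trans hE
  have hF2 : Fm ≤ Fm ^ 2 := by nlinarith
  have hM := ht.hM
  have hl := ht.hl
  have hB := ht.hB
  have hp := ht.p_nonneg
  have h4 : P.U^[k] (P.ent f) s0 ≤ C1 * X + E * (Fm ^ 2 * η + κ * P.wt f s0) := by
    have h5 : P.U^[N] (P.ent f) s0 + 3 / 2 * Λ * P.U^[N] (errU P f) s0
        + 6 * (n + 1) * B' * Fm * ∑ j ∈ Finset.Ico k N, p' j + κ * P.wt f s0
        ≤ (1 + 3 / 2 * Λ) * X + (Fm ^ 2 * η + κ * P.wt f s0) := by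
      have h6 := mul_le_mul_of_nonneg_left t2 (show 0 ≤ 3 / 2 * Λ by positivity)
      have h7 := mul_le_mul_of_nonneg_right hF2 hη0
      have h8 : 6 * (n + 1) * B' * Fm * ∑ j ∈ Finset.Ico k N, p' j = Fm * η := by rw [hη]; ring
      linarith
    have h9 : 0 ≤ (1 + 3 / 2 * Λ) * X + (Fm ^ 2 * η + κ * P.wt f s0) := by positivity
    have h10 := mul_le_mul_of_nonneg_right hC1 hX0
    calc _ ≤ _ := h1
      _ ≤ Real.exp (6 * ∑ j ∈ Finset.Ico k N, mm j) *
          ((1 + 3 / 2 * Λ) * X + (Fm ^ 2 * η + κ * P.wt f s0)) :=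
          mul_le_mul_of_nonneg_left h5 (Real.exp_pos _).le
      _ ≤ E * ((1 + 3 / 2 * Λ) * X + (Fm ^ 2 * η + κ * P.wt f s0)) :=
          mul_le_mul_of_nonneg_right hE h9
      _ ≤ _ := by linarith
  set Y := C1 * X + E * (Fm ^ 2 * η + κ * P.wt f s0) with hY
  have hC10 : 0 ≤ C1 := le_trans (by positivity) hC1
  have hY0 : 0 ≤ Y := by positivity
  have hZ : 12 * (n + 1) * B * Fm * p ≤ Fm ^ 2 * (12 * (n + 1) * B * p) := by
    have := mul_le_mul_of_nonneg_right hF2 (show 0 ≤ 12 * ((n : ℝ) + 1) * B * p by positivity)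
    linarith
  have hZ0 : 0 ≤ Fm ^ 2 * (12 * (n + 1) * B * p) := by positivity
  have e1 : ((1 + 6 * M) * C1 + 3 * l) * CT * P.ep f s0 + Fm ^ 2 * (((1 + 6 * M) * C1 + 3 * l) * θ
        + (1 + 6 * M) * E * η + 12 * (n + 1) * B * p)
      + (((1 + 6 * M) * C1 + 3 * l) * ζ + (1 + 6 * M) * E * κ) * P.wt f s0
      = (1 + 6 * M) * Y + 3 * l * X + Fm ^ 2 * (12 * (n + 1) * B * p) := by
    rw [hY, hX]; ring
  rw [e1]
  have h11 : 0 ≤ 6 * M * Y := by positivity
  have h12 : 0 ≤ 3 * l * X := by positivity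
  constructor
  · linarith
  · have h13 := mul_le_mul_of_nonneg_left t2 (show 0 ≤ 3 * l by positivity)
    have h14 := mul_le_mul_of_nonneg_left (h3.trans (mul_le_mul_of_nonneg_left h4 zero_le_two))
      (show 0 ≤ 3 * M by positivity)
    linarith

end Vale.Agent.N150.A1
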