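import Mathlib
import Vale.Agent.P150.Bdl.B38

/-! P150, block A1 (one step): first order expansion of the posterior mean under a second law,
with an explicit error term. -/

open MeasureTheory ProbabilityTheory Filter Topology Real
open scoped Matrix

namespace Vale.Agent.N150.A1

open Vale.Agent.P150 Vale.Agent.P150.F Vale.Agent.P150.F.CH4pp
open Vale.Agent.P245 (gsn EG1)

section abs

variable {X : Type*} [Fintype X] {m : ℕ} {δ R0 : ℝ} {V : X → Fin m → ℝ}

theorem integral_mlk_mul (hδ : 0 ≤ δ) (hδ1 : δ ≤ 1) (hR : 0 ≤ R0) (hV : ∀ x k, |V x k| ≤ R0)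
    (w w' : X → ℝ) :
    ∫ g, mlk w V δ g * mlk w' V δ g ∂(gsn m) =
      ∑ x, ∑ y, w x * w' y * Real.exp (δ * ∑ k, V x k * V y k) := by
  have e : ∀ g, mlk w V δ g * mlk w' V δ g
      = ∑ x, ∑ y, w x * w' y * (lk δ (V x) g * lk δ (V y) g) := by
    intro g
    unfold mlk
    rw [Finset.sum_mul_sum]
    refine Finset.sum_congr rfl fun x _ => Finset.sum_congr rfl fun y _ => ?_
    ring
  have hI : ∀ x y, Integrable (fun g => lk δ (V x) g * lk δ (V y) g) (gsn m) := fun x y =>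
    (eg1_mul (eg1_lk hδ hδ1 hR (hV x)) (eg1_lk hδ hδ1 hR (hV y))).integrable
      ((continuous_lk δ (V x)).mul (continuous_lk δ (V y))).aestronglyMeasurable
  simp_rw [e]
  rw [integral_finsetSum _ fun x _ => integrable_finsetSum _ fun y _ => (hI x y).const_mul _]
  refine Finset.sum_congr rfl fun x _ => ?_
  rw [integral_finsetSum _ fun y _ => (hI x y).const_mul _]
  refine Finset.sum_congr rfl fun y _ => ?_
  rw [integral_const_mul, integral_lk_lk hδ]

theorem sq_le_mul_sqrt (hδ : 0 ≤ δ) (hδ1 : δ ≤ 1) : δ ^ 2 ≤ δ * √δ := by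
  have h1 : √δ ≤ 1 := Real.sqrt_le_one.2 hδ1
  have h2 : δ ≤ √δ := by
    have h3 := Real.mul_self_sqrt hδ
    nlinarith [Real.sqrt_nonneg δ]
  nlinarith

theorem sum_exp_bil (hδ : 0 ≤ δ) (hδ1 : δ ≤ 1) (hR : 0 ≤ R0) (hV : ∀ x k, |V x k| ≤ R0)
    {w w' : X → ℝ} (hw0 : ∑ x, w x = 0) (hw1 : ∑ x, |w x| ≤ 2) (hw1' : ∑ x, |w' x| ≤ 2) :
    |∑ x, ∑ y, w x * w' y * Real.exp (δ * ∑ k, V x k * V y k) -
      δ * ∑ k, (∑ x, w x * V x k) * (∑ y, w' y * V y k)|
        ≤ 4 * ((m * R0 ^ 2) ^ 2 * Real.exp (m * R0 ^ 2)) * (δ * √δ) := by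
  set M : ℝ := m * R0 ^ 2 with hM
  have hM0 : 0 ≤ M := by positivity
  have hb : ∀ x y, |∑ k, V x k * V y k| ≤ M := by
    intro x y
    refine (Finset.abs_sum_le_sum_abs _ _).trans ?_
    calc ∑ k, |V x k * V y k| ≤ ∑ _k : Fin m, R0 * R0 := by
          refine Finset.sum_le_sum fun k _ => ?_
          rw [abs_mul]
          exact mul_le_mul (hV x k) (hV y k) (abs_nonneg _) hR
      _ = M := by rw [hM, Finset.sum_const, Finset.card_univ, Fintype.card_fin, nsmul_eq_mul]; ring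
  have hs : δ ^ 2 ≤ δ * √δ := sq_le_mul_sqrt hδ hδ1
  have hrem : ∀ x y, |Real.exp (δ * ∑ k, V x k * V y k) - 1 - δ * ∑ k, V x k * V y k|
      ≤ (M ^ 2 * Real.exp M) * (δ * √δ) := by
    intro x y
    have ht : |δ * ∑ k, V x k * V y k| ≤ δ * M := by
      rw [abs_mul, abs_of_nonneg hδ]
      exact mul_le_mul_of_nonneg_left (hb x y) hδ
    have ht1 : |δ * ∑ k, V x k * V y k| ≤ M := ht.trans (by nlinarith)
    refine exp_rem.trans ?_
    have h1 : (δ * ∑ k, V x k * V y k) ^ 2 ≤ (δ * M) ^ 2 := by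
      rw [← sq_abs]; exact pow_le_pow_left₀ (abs_nonneg _) ht 2
    calc (δ * ∑ k, V x k * V y k) ^ 2 * Real.exp |δ * ∑ k, V x k * V y k|
        ≤ (δ * M) ^ 2 * Real.exp M :=
          mul_le_mul h1 (Real.exp_le_exp.2 ht1) (Real.exp_pos _).le (by positivity)
      _ = (M ^ 2 * Real.exp M) * δ ^ 2 := by ring
      _ ≤ _ := mul_le_mul_of_nonneg_left hs (by positivity)
  have e0 : ∑ x, ∑ y, w x * w' y * 1 = 0 := by
    simp_rw [mul_one]
    rw [← Finset.sum_mul_sum, hw0, zero_mul]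
  have e1 : ∑ x, ∑ y, w x * w' y * (δ * ∑ k, V x k * V y k)
      = δ * ∑ k, (∑ x, w x * V x k) * (∑ y, w' y * V y k) := by
    have : ∀ k, (∑ x, w x * V x k) * (∑ y, w' y * V y k)
        = ∑ x, ∑ y, w x * w' y * (V x k * V y k) := by
      intro k
      rw [Finset.sum_mul_sum]
      refine Finset.sum_congr rfl fun x _ => Finset.sum_congr rfl fun y _ => ?_
      ring
    simp_rw [this]
    rw [Finset.mul_sum]
    simp_rw [Finset.mul_sum]
    rw [Finset.sum_comm]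
    conv_rhs => rw [Finset.sum_comm]
    rw [Finset.sum_comm]
    refine Finset.sum_congr rfl fun x _ => ?_
    rw [Finset.sum_comm]
    refine Finset.sum_congr rfl fun k _ => Finset.sum_congr rfl fun y _ => ?_
    ring
  have e2 : ∑ x, ∑ y, w x * w' y * Real.exp (δ * ∑ k, V x k * V y k)
      = ∑ x, ∑ y, w x * w' y * 1 + ∑ x, ∑ y, w x * w' y * (δ * ∑ k, V x k * V y k)
        + ∑ x, ∑ y, w x * w' y *
          (Real.exp (δ * ∑ k, V x k * V y k) - 1 - δ * ∑ k, V x k * V y k) := by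
    rw [← Finset.sum_add_distrib, ← Finset.sum_add_distrib]
    refine Finset.sum_congr rfl fun x _ => ?_
    rw [← Finset.sum_add_distrib, ← Finset.sum_add_distrib]
    refine Finset.sum_congr rfl fun y _ => ?_
    ring
  rw [e2, e0, e1, zero_add, add_sub_cancel_left]
  set D := (M ^ 2 * Real.exp M) * (δ * √δ) with hD
  have hD0 : 0 ≤ D := by positivity
  calc |∑ x, ∑ y, w x * w' y *
        (Real.exp (δ * ∑ k, V x k * V y k) - 1 - δ * ∑ k, V x k * V y k)|
      ≤ ∑ x, ∑ y, |w x| * |w' y| * D := by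
        refine (Finset.abs_sum_le_sum_abs _ _).trans (Finset.sum_le_sum fun x _ => ?_)
        refine (Finset.abs_sum_le_sum_abs _ _).trans (Finset.sum_le_sum fun y _ => ?_)
        rw [abs_mul, abs_mul]
        exact mul_le_mul_of_nonneg_left (hrem x y) (by positivity)
    _ = (∑ x, |w x|) * (∑ y, |w' y|) * D := by
        rw [Finset.sum_mul_sum, Finset.sum_mul]
        refine Finset.sum_congr rfl fun x _ => ?_
        rw [Finset.sum_mul]
    _ ≤ 4 * D := by
        have h0 : 0 ≤ ∑ x, |w x| := Finset.sum_nonneg fun x _ => abs_nonneg _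
        have h0' : 0 ≤ ∑ x, |w' x| := Finset.sum_nonneg fun x _ => abs_nonneg _
        have : (∑ x, |w x|) * (∑ y, |w' y|) ≤ 4 := by nlinarith
        exact mul_le_mul_of_nonneg_right this hD0
    _ = _ := by rw [hD]; ring

theorem abs_mlk_zero (hδ : 0 ≤ δ) (hδ1 : δ ≤ 1) (hR : 0 ≤ R0) (hV : ∀ x k, |V x k| ≤ R0)
    {w : X → ℝ} (hw0 : ∑ x, w x = 0) (hw1 : ∑ x, |w x| ≤ 2) (g : Fin m → ℝ) :
    |mlk w V δ g| ≤ 2 * (√δ * Real.exp (2 * Bd1 m R0 g)) := by
  have e : mlk w V δ g = ∑ x, w x * (lk δ (V x) g - 1) := by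
    unfold mlk
    simp_rw [mul_sub, mul_one]
    rw [Finset.sum_sub_distrib, hw0, sub_zero]
  rw [e]
  have hp : 0 ≤ √δ * Real.exp (2 * Bd1 m R0 g) := by positivity
  calc |∑ x, w x * (lk δ (V x) g - 1)| ≤ ∑ x, |w x * (lk δ (V x) g - 1)| :=
        Finset.abs_sum_le_sum_abs _ _
    _ ≤ ∑ x, |w x| * (√δ * Real.exp (2 * Bd1 m R0 g)) := by
        refine Finset.sum_le_sum fun x _ => ?_
        rw [abs_mul]
        exact mul_le_mul_of_nonneg_left (abs_lk_sub_one hδ hδ1 hR (hV x) g) (abs_nonneg _)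
    _ = (∑ x, |w x|) * (√δ * Real.exp (2 * Bd1 m R0 g)) := by rw [Finset.sum_mul]
    _ ≤ _ := mul_le_mul_of_nonneg_right hw1 hp

theorem integral_mlk (hδ : 0 ≤ δ) (hδ1 : δ ≤ 1) (hR : 0 ≤ R0) (hV : ∀ x k, |V x k| ≤ R0)
    (w : X → ℝ) : ∫ g, mlk w V δ g ∂(gsn m) = ∑ x, w x := by
  have hI : ∀ x, Integrable (lk δ (V x)) (gsn m) := fun x =>
    (eg1_lk hδ hδ1 hR (hV x)).integrable (continuous_lk δ (V x)).aestronglyMeasurable
  have e : ∫ g, mlk w V δ g ∂(gsn m) = ∑ x, w x * ∫ g, lk δ (V x) g ∂(gsn m) := by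
    unfold mlk
    rw [integral_finsetSum _ fun x _ => (hI x).const_mul _]
    refine Finset.sum_congr rfl fun x _ => ?_
    rw [integral_const_mul]
  rw [e]
  simp_rw [integral_lk_one hδ, mul_one]

/-- first order expansion, abstract form -/
theorem ch7_abs (hδ : 0 ≤ δ) (hδ1 : δ ≤ 1) (hR : 0 ≤ R0) (hV : ∀ x k, |V x k| ≤ R0)
    {ν μ w : X → ℝ} (hν0 : ∀ x, 0 ≤ ν x) (hν1 : ∑ x, ν x = 1) (hμ0 : ∀ x, 0 ≤ μ x)
    (hμ1 : ∑ x, μ x = 1) (hw0 : ∑ x, w x = 0) (hw1 : ∑ x, |w x| ≤ 2) :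
    |∫ g, mlk ν V δ g * (mlk w V δ g / mlk μ V δ g) ∂(gsn m) -
      δ * ∑ k, (∑ x, w x * V x k) * (∑ y, (ν y - μ y) * V y k)|
        ≤ (4 * ((m * R0 ^ 2) ^ 2 * Real.exp (m * R0 ^ 2)) + 4 * KB1 m 7 R0) * (δ * √δ) := by
  set w' : X → ℝ := fun x => ν x - μ x with hw'
  have hmw : ∀ g, mlk ν V δ g - mlk μ V δ g = mlk w' V δ g := by
    intro g
    unfold mlk
    rw [← Finset.sum_sub_distrib]
    refine Finset.sum_congr rfl fun x _ => ?_
    rw [hw']; ring
  have hw0' : ∑ x, w' x = 0 := by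
    rw [hw', Finset.sum_sub_distrib, hν1, hμ1, sub_self]
  have hw1' : ∑ x, |w' x| ≤ 2 := by
    calc ∑ x, |w' x| ≤ ∑ x, (ν x + μ x) := by
          refine Finset.sum_le_sum fun x _ => ?_
          rw [hw']
          refine (abs_sub _ _).trans ?_
          rw [abs_of_nonneg (hν0 x), abs_of_nonneg (hμ0 x)]
      _ = 2 := by rw [Finset.sum_add_distrib, hν1, hμ1]; norm_num
  have cμ := continuous_mlk μ V δ
  have cw := continuous_mlk w V δ
  have cw' := continuous_mlk w' V δ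
  have pμ := fun g => (Real.exp_pos _).trans_le (le_mlk hδ hδ1 hR hV hμ0 hμ1 g)
  set r : (Fin m → ℝ) → ℝ := fun g => mlk w V δ g * mlk w' V δ g * ((mlk μ V δ g)⁻¹ - 1) with hr
  have hsplit : ∀ g, mlk ν V δ g * (mlk w V δ g / mlk μ V δ g)
      = mlk w V δ g + mlk w V δ g * mlk w' V δ g + r g := by
    intro g
    have h := (pμ g).ne'
    rw [hr]
    simp only
    rw [← hmw g]
    field_simp
    ring
  have hrb : ∀ g, |r g| ≤ 4 * (δ * √δ) * Real.exp (7 * Bd1 m R0 g) := by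
    intro g
    have h1 := abs_mlk_zero hδ hδ1 hR hV hw0 hw1 g
    have h2 := abs_mlk_zero hδ hδ1 hR hV hw0' hw1' g
    have h3 := abs_mlk_sub_one hδ hδ1 hR hV hμ0 hμ1 g
    have h4 := le_mlk hδ hδ1 hR hV hμ0 hμ1 g
    have h5 : (mlk μ V δ g)⁻¹ ≤ Real.exp (Bd1 m R0 g) := by
      rw [inv_le_comm₀ (pμ g) (Real.exp_pos _), ← Real.exp_neg]; exact h4
    have h6 : |(mlk μ V δ g)⁻¹ - 1| ≤ √δ * Real.exp (2 * Bd1 m R0 g) * Real.exp (Bd1 m R0 g) := by
      have e : (mlk μ V δ g)⁻¹ - 1 = -(mlk μ V δ g - 1) * (mlk μ V δ g)⁻¹ := by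
        have h := (pμ g).ne'
        field_simp
        ring
      rw [e, abs_mul, abs_neg, abs_of_pos (inv_pos.2 (pμ g))]
      exact mul_le_mul h3 h5 (inv_pos.2 (pμ g)).le (by positivity)
    rw [hr]
    simp only
    rw [abs_mul, abs_mul]
    have hp : 0 ≤ √δ * Real.exp (2 * Bd1 m R0 g) := by positivity
    calc |mlk w V δ g| * |mlk w' V δ g| * |(mlk μ V δ g)⁻¹ - 1|
        ≤ (2 * (√δ * Real.exp (2 * Bd1 m R0 g))) * (2 * (√δ * Real.exp (2 * Bd1 m R0 g))) *
          (√δ * Real.exp (2 * Bd1 m R0 g) * Real.exp (Bd1 m R0 g)) :=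
          mul_le_mul (mul_le_mul h1 h2 (abs_nonneg _) (by positivity)) h6 (abs_nonneg _)
            (by positivity)
      _ = 4 * (√δ * √δ * √δ) * (Real.exp (2 * Bd1 m R0 g) * Real.exp (2 * Bd1 m R0 g) *
          Real.exp (2 * Bd1 m R0 g) * Real.exp (Bd1 m R0 g)) := by ring
      _ = _ := by
          rw [Real.mul_self_sqrt hδ, ← Real.exp_add, ← Real.exp_add, ← Real.exp_add]
          congr 2
          ring
  have iw : Integrable (mlk w V δ) (gsn m) :=
    (eg1_mlk hδ hδ1 hR hV w).integrable cw.aestronglyMeasurable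
  have iww : Integrable (fun g => mlk w V δ g * mlk w' V δ g) (gsn m) :=
    (eg1_mul (eg1_mlk hδ hδ1 hR hV w) (eg1_mlk hδ hδ1 hR hV w')).integrable
      (cw.mul cw').aestronglyMeasurable
  have iE := (integrable_exp_Bd1 (m := m) 7 R0).const_mul (4 * (δ * √δ))
  have cr : Continuous r :=
    (cw.mul cw').mul ((cμ.inv₀ fun g => (pμ g).ne').sub continuous_const)
  have ir : Integrable r (gsn m) :=
    Integrable.mono' iE cr.aestronglyMeasurable (Eventually.of_forall fun g => hrb g)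
  simp_rw [hsplit]
  have q1 := integral_add (iw.add iww) ir
  have q2 := integral_add iw iww
  simp only [Pi.add_apply] at q1 q2
  rw [q1, q2, integral_mlk hδ hδ1 hR hV, hw0, zero_add, integral_mlk_mul hδ hδ1 hR hV]
  have h1 := sum_exp_bil hδ hδ1 hR hV hw0 hw1 hw1'
  have h2 : |∫ g, r g ∂(gsn m)| ≤ 4 * (δ * √δ) * KB1 m 7 R0 := by
    refine (abs_integral_le_integral_abs).trans ?_
    refine (integral_mono ir.abs iE hrb).trans (le_of_eq ?_)
    rw [integral_const_mul]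
    rfl
  have e : ∀ a b c : ℝ, a + b - c = (a - c) + b := fun a b c => by ring
  rw [e]
  refine (abs_add_le _ _).trans ?_
  have e5 : ∑ k, (∑ x, w x * V x k) * (∑ y, (ν y - μ y) * V y k)
      = ∑ k, (∑ x, w x * V x k) * (∑ y, w' y * V y k) := rfl
  rw [e5]
  linarith only [h1, h2]

end abs

variable {n m : ℕ}

theorem abs_sv_sub_mean {μ : Cfg n → ℝ} (hμ : IsProb μ) (x : Cfg n) (i : Fin n) :
    |sv x i - mean μ i| ≤ 2 := by
  have h1 := abs_sv x i
  have h2 := Proc.abs_mean_le μ hμ i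
  have h3 := abs_sub (sv x i) (mean μ i)
  linarith

theorem sum_cw {μ : Cfg n → ℝ} (hμ : IsProb μ) (i : Fin n) :
    ∑ x, μ x * (sv x i - mean μ i) = 0 := by
  simp_rw [mul_sub]
  rw [Finset.sum_sub_distrib, ← Finset.sum_mul, hμ.2, one_mul]
  exact sub_self _

theorem sum_cw_chv {μ : Cfg n → ℝ} (hμ : IsProb μ) (R : Matrix (Fin n) (Fin m) ℝ) (i : Fin n)
    (k : Fin m) : ∑ x, μ x * (sv x i - mean μ i) * chv R x k = (covM μ * R) i k := by
  have h0 := sum_cw hμ i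
  unfold chv Matrix.mulVec dotProduct
  rw [Matrix.mul_apply]
  simp_rw [Finset.mul_sum]
  rw [Finset.sum_comm]
  refine Finset.sum_congr rfl fun j _ => ?_
  unfold covM
  rw [Finset.sum_mul]
  have e : ∀ x, μ x * ((sv x i - mean μ i) * (sv x j - mean μ j)) * R j k
      = μ x * (sv x i - mean μ i) * (Rᵀ k j * sv x j)
        - μ x * (sv x i - mean μ i) * (mean μ j * R j k) := by
    intro x
    rw [Matrix.transpose_apply]
    ring
  simp_rw [e]
  rw [Finset.sum_sub_distrib, ← Finset.sum_mul, h0, zero_mul, sub_zero]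

/-- **CH7**: the mean of the posterior of `μ`, averaged over labels produced by `ν` -/
theorem ch7 (n m : ℕ) (C : ℝ) : ∃ K, 0 ≤ K ∧ ∀ (R : Matrix (Fin n) (Fin m) ℝ),
    (∀ i j, |R i j| ≤ C) → ∀ δ, 0 ≤ δ → δ ≤ 1 → ∀ ν μ : Cfg n → ℝ, IsProb ν → IsProb μ → ∀ i,
      |EC ν R δ (fun _ z => mean (pst μ (R * Rᵀ) δ z) i) - mean μ i
        - δ * (covM μ * (R * Rᵀ)).mulVec (fun j => mean ν j - mean μ j) i| ≤ K * (δ * √δ) := by
  refine ⟨4 * ((m * (n * |C|) ^ 2) ^ 2 * Real.exp (m * (n * |C|) ^ 2)) + 4 * KB1 m 7 (n * |C|),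
    add_nonneg (by positivity) (mul_nonneg (by norm_num) (KB1_nonneg m 7 _)), ?_⟩
  intro R hR δ hδ hδ1 ν μ hν hμ i
  have hR00 : (0 : ℝ) ≤ n * |C| := by positivity
  have hV : ∀ x k, |chv R x k| ≤ n * |C| := fun x k =>
    abs_sg (fun i j => (hR i j).trans (le_abs_self C)) x k
  set w : Cfg n → ℝ := fun x => μ x * (sv x i - mean μ i) with hw
  have hw0 : ∑ x, w x = 0 := sum_cw hμ i
  have hw1 : ∑ x, |w x| ≤ 2 := by
    calc ∑ x, |w x| ≤ ∑ x, μ x * 2 := by
          refine Finset.sum_le_sum fun x _ => ?_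
          rw [hw]
          simp only
          rw [abs_mul, abs_of_nonneg (hμ.1 x)]
          exact mul_le_mul_of_nonneg_left (abs_sv_sub_mean hμ x i) (hμ.1 x)
      _ = 2 := by rw [← Finset.sum_mul, hμ.2, one_mul]
  have pμ := fun g => mlk_pos (m := m) hμ.1 hμ.2 (chv R) δ g
  have hmean : ∀ g, mean (pst μ (R * Rᵀ) δ (lb R δ g)) i
      = mean μ i + mlk w (chv R) δ g / mlk μ (chv R) δ g := by
    intro g
    have h := (pμ g).ne'
    have e1 : mean (pst μ (R * Rᵀ) δ (lb R δ g)) i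
        = (∑ x, μ x * lk δ (chv R x) g * sv x i) / mlk μ (chv R) δ g := by
      unfold mean
      rw [Finset.sum_div]
      refine Finset.sum_congr rfl fun x _ => ?_
      rw [pst_lb]
      ring
    have e2 : ∑ x, μ x * lk δ (chv R x) g * sv x i
        = mean μ i * mlk μ (chv R) δ g + mlk w (chv R) δ g := by
      unfold mlk
      rw [Finset.mul_sum, ← Finset.sum_add_distrib]
      refine Finset.sum_congr rfl fun x _ => ?_
      rw [hw]
      ring
    rw [e1, e2]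
    field_simp
  have cμ := continuous_mlk μ (chv R) δ
  have cw := continuous_mlk w (chv R) δ
  have cq : Continuous fun g => mlk w (chv R) δ g / mlk μ (chv R) δ g :=
    cw.div cμ fun g => (pμ g).ne'
  have hqb : ∀ g, |mlk w (chv R) δ g / mlk μ (chv R) δ g| ≤ 2 := by
    intro g
    have h1 := Proc.abs_mean_le _ (pst_isProb hμ (R * Rᵀ) δ (lb R δ g)) i
    have h2 := Proc.abs_mean_le μ hμ i
    rw [hmean g] at h1
    have h3 : mlk w (chv R) δ g / mlk μ (chv R) δ g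
        = (mean μ i + mlk w (chv R) δ g / mlk μ (chv R) δ g) - mean μ i := by ring
    rw [h3]
    have h4 := abs_sub (mean μ i + mlk w (chv R) δ g / mlk μ (chv R) δ g) (mean μ i)
    linarith
  have eq : EG1 fun g => mlk w (chv R) δ g / mlk μ (chv R) δ g :=
    eg1_mono (eg1_const (2 : ℝ)) fun g => by rw [abs_two]; exact hqb g
  have h0 := EC_label ν R hδ (fun z => mean (pst μ (R * Rᵀ) δ z) i) (fun x => by
    simp only [hmean]
    exact (eg1_mul (eg1_lk hδ hδ1 hR00 (hV x)) (eg1_add (eg1_const _) eq)).integrable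
      ((continuous_lk δ _).mul (continuous_const.add cq)).aestronglyMeasurable)
  simp only [hmean] at h0
  have iν : Integrable (mlk ν (chv R) δ) (gsn m) :=
    (eg1_mlk hδ hδ1 hR00 hV ν).integrable (continuous_mlk ν (chv R) δ).aestronglyMeasurable
  have iq : Integrable (fun g => mlk ν (chv R) δ g * (mlk w (chv R) δ g / mlk μ (chv R) δ g))
      (gsn m) :=
    (eg1_mul (eg1_mlk hδ hδ1 hR00 hV ν) eq).integrable
      ((continuous_mlk ν (chv R) δ).mul cq).aestronglyMeasurable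
  have h1 : ∫ g, mlk ν (chv R) δ g * (mean μ i + mlk w (chv R) δ g / mlk μ (chv R) δ g) ∂(gsn m)
      = mean μ i + ∫ g, mlk ν (chv R) δ g * (mlk w (chv R) δ g / mlk μ (chv R) δ g) ∂(gsn m) := by
    simp_rw [mul_add]
    rw [integral_add (iν.mul_const _) iq, integral_mul_const, integral_mlk hδ hδ1 hR00 hV, hν.2,
      one_mul]
  have h2 := ch7_abs hδ hδ1 hR00 hV hν.1 hν.2 hμ.1 hμ.2 hw0 hw1
  have h3 : ∑ k, (∑ x, w x * chv R x k) * (∑ y, (ν y - μ y) * chv R y k)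
      = (covM μ * (R * Rᵀ)).mulVec (fun j => mean ν j - mean μ j) i := by
    rw [← Matrix.mul_assoc, ← Matrix.mulVec_mulVec]
    unfold Matrix.mulVec dotProduct
    refine Finset.sum_congr rfl fun k _ => ?_
    rw [← mulVec_mean, hw]
    simp only
    rw [sum_cw_chv hμ]
    rfl
  rw [h3] at h2
  rw [h0, h1, add_sub_cancel_left]
  exact h2

end Vale.Agent.N150.A1
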