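import Vale.Agent.P150.Bdl.B1

/-! P150, critical upper bound: Gaussian tails (Chernoff, weighted chi-square, cone events,
rotations, quadratic forms). -/

open MeasureTheory ProbabilityTheory Real Set Filter Topology
open scoped Matrix ENNReal
open Vale.Agent.P150 Vale.Agent.P150.F

namespace Vale.Agent.N150.Tail

section Gen
variable {Ω : Type*} [MeasurableSpace Ω]

/-- Markov for the exponential. -/
theorem markov_exp (μ : Measure Ω) [IsFiniteMeasure μ] {Y : Ω → ℝ}
    (hi : Integrable (fun w => exp (Y w)) μ) (c : ℝ) :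
    μ.real {w | c ≤ Y w} ≤ exp (-c) * ∫ w, exp (Y w) ∂μ := by
  have hm := mul_meas_ge_le_integral_of_nonneg (μ := μ) (f := fun w => exp (Y w))
    (Eventually.of_forall fun w => (exp_pos _).le) hi (exp c)
  have h2 : μ.real {w | c ≤ Y w} ≤ μ.real {w | exp c ≤ exp (Y w)} :=
    measureReal_mono (fun w hw => exp_le_exp.2 hw) (measure_ne_top _ _)
  rw [exp_neg, inv_mul_eq_div, le_div_iff₀ (exp_pos _)]
  calc μ.real {w | c ≤ Y w} * exp c ≤ μ.real {w | exp c ≤ exp (Y w)} * exp c :=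
        mul_le_mul_of_nonneg_right h2 (exp_pos _).le
    _ ≤ _ := by rw [mul_comm]; exact hm

/-- Chernoff bound. -/
theorem chernoff (μ : Measure Ω) [IsFiniteMeasure μ] {Y : Ω → ℝ} {l : ℝ} (hl : 0 ≤ l)
    (hi : Integrable (fun w => exp (l * Y w)) μ) (c : ℝ) :
    μ.real {w | c ≤ Y w} ≤ exp (-(l * c)) * ∫ w, exp (l * Y w) ∂μ :=
  (measureReal_mono (fun w (hw : c ≤ Y w) => (mul_le_mul_of_nonneg_left hw hl :
    l * c ≤ l * Y w)) (measure_ne_top _ _)).trans (markov_exp μ hi (l * c))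

/-- the choice of the Chernoff parameter for a sub-gamma bound -/
theorem exists_par {V M x : ℝ} (hV : 0 < V) (hM : 0 ≤ M) (hx : 0 ≤ x) :
    ∃ l, 0 ≤ l ∧ l * M ≤ 1 ∧ l ^ 2 * V - l * (2 * √(V * x) + M * x) ≤ -x := by
  set s := √(V * x) with hs
  have hs0 : 0 ≤ s := sqrt_nonneg _
  have hs2 : s ^ 2 = V * x := sq_sqrt (by positivity)
  by_cases h : s / V * M ≤ 1
  · refine ⟨s / V, by positivity, h, ?_⟩
    have e1 : (s / V) ^ 2 * V = x := by
      rw [div_pow, hs2]; field_simp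
    have e2 : s / V * (2 * s) = 2 * x := by
      have : s / V * (2 * s) = 2 * (s ^ 2 / V) := by ring
      rw [this, hs2]; field_simp
    have e3 : 0 ≤ s / V * (M * x) := by positivity
    rw [e1, mul_add, e2]
    linarith
  · have h' : 1 < s / V * M := not_le.1 h
    have hM' : 0 < M := by
      rcases hM.eq_or_lt with h0 | h0
      · rw [← h0, mul_zero] at h'; linarith
      · exact h0
    refine ⟨1 / M, by positivity, by rw [one_div, inv_mul_cancel₀ hM'.ne'], ?_⟩
    have h3 : V < s * M := by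
      rw [div_mul_eq_mul_div, lt_div_iff₀ hV, one_mul] at h'; exact h'
    have e1 : 1 / M * (2 * s + M * x) = 2 * (s / M) + x := by field_simp
    have e2 : (1 / M) ^ 2 * V ≤ s / M := by
      rw [div_pow, one_pow, div_mul_eq_mul_div, one_mul, div_le_div_iff₀ (by positivity) hM']
      nlinarith
    have e3 : 0 ≤ s / M := by positivity
    rw [e1]
    linarith

/-- Sub-gamma (Bernstein) tail from a bound on the moment generating function. -/
theorem subgamma (μ : Measure Ω) [IsFiniteMeasure μ] {Y : Ω → ℝ} {V M x : ℝ} (hV : 0 < V)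
    (hM : 0 ≤ M) (hx : 0 ≤ x)
    (h : ∀ l, 0 ≤ l → l * M ≤ 1 → Integrable (fun w => exp (l * Y w)) μ ∧
      ∫ w, exp (l * Y w) ∂μ ≤ exp (l ^ 2 * V)) :
    μ.real {w | 2 * √(V * x) + M * x ≤ Y w} ≤ exp (-x) := by
  obtain ⟨l, h0, h1, h2⟩ := exists_par hV hM hx
  obtain ⟨hi, hb⟩ := h l h0 h1
  refine (chernoff μ h0 hi _).trans ((mul_le_mul_of_nonneg_left hb (exp_pos _).le).trans ?_)
  rw [← exp_add]
  exact exp_le_exp.2 (by linarith)

/-- union bound for two events -/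
theorem real_or_le (μ : Measure Ω) {p q r : Ω → Prop} (h : ∀ w, p w → q w ∨ r w)
    [IsFiniteMeasure μ] : μ.real {w | p w} ≤ μ.real {w | q w} + μ.real {w | r w} :=
  (measureReal_mono (s₂ := {w | q w} ∪ {w | r w}) (fun w hw => h w hw)
    (measure_ne_top _ _)).trans (measureReal_union_le _ _)

theorem real_imp_le (μ : Measure Ω) {p q : Ω → Prop} (h : ∀ w, p w → q w)
    [IsFiniteMeasure μ] : μ.real {w | p w} ≤ μ.real {w | q w} :=
  measureReal_mono (fun w hw => h w hw) (measure_ne_top _ _)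

/-- union bound over a finite set of indices -/
theorem real_exists_le (μ : Measure Ω) [IsFiniteMeasure μ] {κ : Type*} (s : Finset κ)
    (p : κ → Ω → Prop) (b : κ → ℝ) (h : ∀ k ∈ s, μ.real {w | p k w} ≤ b k) :
    μ.real {w | ∃ k ∈ s, p k w} ≤ ∑ k ∈ s, b k := by
  have e : {w | ∃ k ∈ s, p k w} = ⋃ k ∈ s, {w | p k w} := by
    ext w; simp
  rw [e]
  exact (measureReal_biUnion_finset_le _ _).trans (Finset.sum_le_sum h)

end Gen

variable {ι : Type*} [Fintype ι]

/-! ### Diagonal quadratic forms -/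

theorem quad_int (a : ι → ℝ) (ha : ∀ i, a i < 1 / 2) :
    Integrable (fun w : ι → ℝ => exp (∑ i, a i * w i ^ 2)) (gpi ι) := by
  simp_rw [exp_sum]
  exact Integrable.fintype_prod (μ := fun _ => gaussianReal 0 1)
    (f := fun i x => exp (a i * x ^ 2)) fun k => integrable_exp_sq_gaussian (ha k)

theorem quad_mgf (a : ι → ℝ) (ha : ∀ i, a i < 1 / 2) :
    ∫ w : ι → ℝ, exp (∑ i, a i * w i ^ 2) ∂gpi ι = ∏ i, (√(1 - 2 * a i))⁻¹ := by
  simp_rw [exp_sum]
  rw [integral_fintype_prod_eq_prod (μ := fun _ => gaussianReal 0 1)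
    (f := fun i x => exp (a i * x ^ 2))]
  exact Finset.prod_congr rfl fun i _ => integral_exp_sq_gaussian (ha i)

theorem inv_sqrt_le_exp {u c : ℝ} (h : exp (-(2 * c)) ≤ u) : (√u)⁻¹ ≤ exp c := by
  have h1 : exp (-c) ≤ √u := by
    apply le_sqrt_of_sq_le
    rw [← exp_nat_mul]
    refine le_trans (le_of_eq ?_) h
    congr 1; push_cast; ring
  rw [inv_le_comm₀ (lt_of_lt_of_le (exp_pos _) h1) (exp_pos _), ← exp_neg]
  exact h1

theorem inv_sqrt_le' {t : ℝ} (ht : t ≤ 1 / 4) : (√(1 - 2 * t))⁻¹ ≤ exp (t + 2 * t ^ 2) := by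
  rcases le_total 0 t with h | h
  · exact inv_sqrt_le h ht
  · refine inv_sqrt_le_exp ?_
    have hu : 0 ≤ -(2 * t) := by linarith
    by_cases h2 : -(2 * (t + 2 * t ^ 2)) ≤ 0
    · exact (exp_le_one_iff.2 h2).trans (by linarith)
    · have h3 : -(2 * (t + 2 * t ^ 2)) < 1 := by nlinarith [sq_nonneg (4 * t + 1)]
      have h4 := Real.exp_bound_div_one_sub_of_interval' (not_le.1 h2) h3
      refine h4.le.trans ?_
      rw [div_le_iff₀ (by linarith)]
      nlinarith [mul_nonneg hu (mul_nonneg hu hu), sq_nonneg t]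

/-- Weighted chi-square, upper tail (weights of any sign). -/
theorem chi_tail (a : ι → ℝ) {V M x : ℝ} (hV : 0 < V) (hM : 0 ≤ M) (hx : 0 ≤ x)
    (h2 : ∑ i, a i ^ 2 ≤ V) (hb : ∀ i, a i ≤ M) :
    (gpi ι).real {w | ∑ i, a i + 2 * √(2 * V * x) + 4 * M * x ≤ ∑ i, a i * w i ^ 2} ≤ exp (-x) := by
  have key := subgamma (gpi ι) (Y := fun w => ∑ i, a i * w i ^ 2 - ∑ i, a i) (V := 2 * V)
    (M := 4 * M) (by positivity) (by positivity) hx ?_
  · refine (real_imp_le _ fun w hw => ?_).trans key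
    linarith
  · intro l hl hlM
    have hq : ∀ i, l * a i ≤ 1 / 4 := fun i => by
      have := mul_le_mul_of_nonneg_left (hb i) hl
      linarith
    have e : ∀ w : ι → ℝ, exp (l * (∑ i, a i * w i ^ 2 - ∑ i, a i)) =
        exp (∑ i, (l * a i) * w i ^ 2) * exp (-(l * ∑ i, a i)) := by
      intro w
      rw [← exp_add, mul_sub, Finset.mul_sum]
      congr 1
      simp only [mul_assoc]; ring
    simp_rw [e]
    have ha' : ∀ i, l * a i < 1 / 2 := fun i => (hq i).trans_lt (by norm_num)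
    refine ⟨(quad_int _ ha').mul_const _, ?_⟩
    rw [integral_mul_const, quad_mgf _ ha']
    have h3 : ∏ i, (√(1 - 2 * (l * a i)))⁻¹ ≤ ∏ i, exp (l * a i + 2 * (l * a i) ^ 2) :=
      Finset.prod_le_prod (fun i _ => by positivity) fun i _ => inv_sqrt_le' (hq i)
    refine (mul_le_mul_of_nonneg_right h3 (exp_pos _).le).trans ?_
    rw [← exp_sum, ← exp_add]
    refine exp_le_exp.2 ?_
    rw [Finset.sum_add_distrib, ← Finset.mul_sum, ← Finset.mul_sum]
    simp_rw [mul_pow]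
    rw [← Finset.mul_sum]
    have := mul_le_mul_of_nonneg_left h2 (sq_nonneg l)
    linarith

/-- Weighted chi-square, lower tail. -/
theorem chi_tail_low (a : ι → ℝ) {V M x : ℝ} (hV : 0 < V) (hM : 0 ≤ M) (hx : 0 ≤ x)
    (h2 : ∑ i, a i ^ 2 ≤ V) (hb : ∀ i, -M ≤ a i) :
    (gpi ι).real {w | ∑ i, a i * w i ^ 2 ≤ ∑ i, a i - 2 * √(2 * V * x) - 4 * M * x} ≤ exp (-x) := by
  have key := chi_tail (fun i => -a i) hV hM hx (by simpa using h2) (fun i => by linarith [hb i])
  refine (real_imp_le _ fun w hw => ?_).trans key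
  simp only [neg_mul, Finset.sum_neg_distrib]
  linarith

/-- the squared norm over a set of coordinates, upper tail -/
theorem chi_set [DecidableEq ι] (S : Finset ι) {V x : ℝ} (hV : 0 < V) (hx : 0 ≤ x)
    (hS : (S.card : ℝ) ≤ V) :
    (gpi ι).real {w | S.card + 2 * √(2 * V * x) + 4 * x ≤ ∑ i ∈ S, w i ^ 2} ≤ exp (-x) := by
  have key := chi_tail (fun i => if i ∈ S then (1 : ℝ) else 0) hV zero_le_one hx
    (by simpa [ite_pow] using hS) (fun i => by split_ifs <;> norm_num)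
  refine (real_imp_le _ fun w hw => ?_).trans key
  simp only [ite_mul, one_mul, zero_mul, Finset.sum_ite_mem, Finset.univ_inter, Finset.sum_const,
    nsmul_eq_mul, mul_one]
  exact hw

/-- the squared norm over a set of coordinates, lower tail -/
theorem chi_set_low [DecidableEq ι] (S : Finset ι) {V x : ℝ} (hV : 0 < V) (hx : 0 ≤ x)
    (hS : (S.card : ℝ) ≤ V) :
    (gpi ι).real {w | ∑ i ∈ S, w i ^ 2 ≤ S.card - 2 * √(2 * V * x)} ≤ exp (-x) := by
  have key := chi_tail_low (fun i => if i ∈ S then (1 : ℝ) else 0) hV le_rfl hx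
    (by simpa [ite_pow] using hS) (fun i => by split_ifs <;> norm_num)
  refine (real_imp_le _ fun w hw => ?_).trans key
  simp only [ite_mul, one_mul, zero_mul, Finset.sum_ite_mem, Finset.univ_inter, Finset.sum_const,
    nsmul_eq_mul, mul_one, mul_zero, sub_zero]
  exact hw

/-- linear form of the upper tail -/
theorem chi_set_lin [DecidableEq ι] (S : Finset ι) {x : ℝ} :
    (gpi ι).real {w | 2 * S.card + 4 * x ≤ ∑ i ∈ S, w i ^ 2} ≤ exp (-x) := by
  refine (chernoff_sq S (t := 1 / 4) (by norm_num) (by norm_num) _).trans ?_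
  have h2 : (√(1 - 2 * (1 / 4 : ℝ)))⁻¹ ≤ exp (1 / 4 + 2 * (1 / 4) ^ 2) :=
    inv_sqrt_le (by norm_num) le_rfl
  refine (mul_le_mul_of_nonneg_left (pow_le_pow_left₀ (by positivity) h2 _) (exp_pos _).le).trans ?_
  rw [← exp_nat_mul, ← exp_add]
  refine exp_le_exp.2 ?_
  have : (0 : ℝ) ≤ S.card := Nat.cast_nonneg _
  linarith

/-- A diagonal cone event. -/
theorem cone_diag (a : ι → ℝ) (ha : ∀ i, a i < 1 / 2) (c : ℝ) :
    (gpi ι).real {w | c ≤ ∑ i, a i * w i ^ 2} ≤ exp (-c) * ∏ i, (√(1 - 2 * a i))⁻¹ := by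
  rw [← quad_mgf a ha]
  exact markov_exp _ (quad_int a ha) c

theorem cone_in {t : ℝ} (h1 : t < 1) (ht : 0 ≤ t) :
    (√(1 - 2 * ((1 - t) / 4)))⁻¹ ≤ exp (1 - t / 6) := by
  refine inv_sqrt_le_exp ?_
  have h4 : exp (-(2 * (1 - t / 6))) ≤ exp (-1) := exp_le_exp.2 (by linarith)
  have h5 : exp (-1) ≤ 1 / 2 := by
    rw [exp_neg, one_div]
    exact inv_anti₀ (by norm_num) (by linarith [Real.add_one_le_exp (1 : ℝ)])
  linarith

theorem cone_out {t : ℝ} (h1 : t < 1) (ht : 0 ≤ t) :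
    (√(1 - 2 * ((0 - t) / 4)))⁻¹ ≤ exp (0 - t / 6) := by
  refine inv_sqrt_le_exp ?_
  have h4 : -(2 * (0 - t / 6)) = t / 3 := by ring
  rw [h4]
  rcases ht.eq_or_lt with h0 | h0
  · rw [← h0]; simp
  have h5 := Real.exp_bound_div_one_sub_of_interval' (x := t / 3) (by linarith) (by linarith)
  refine h5.le.trans ?_
  rw [div_le_iff₀ (by linarith)]
  nlinarith

/-- **Cone tail**: the share of the coordinates in `S`. -/
theorem cone_tail [DecidableEq ι] (S : Finset ι) {t : ℝ} (ht : 0 ≤ t) :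
    (gpi ι).real {w | t * ∑ i, w i ^ 2 < ∑ i ∈ S, w i ^ 2} ≤
      exp (S.card - Fintype.card ι * t / 6) := by
  by_cases h1 : 1 ≤ t
  · have : ∀ w : ι → ℝ, t * ∑ i, w i ^ 2 < ∑ i ∈ S, w i ^ 2 → False := by
      intro w hw
      have h2 : ∑ i ∈ S, w i ^ 2 ≤ ∑ i, w i ^ 2 :=
        Finset.sum_le_sum_of_subset_of_nonneg (Finset.subset_univ _) fun i _ _ => sq_nonneg _
      have h3 : 0 ≤ ∑ i, w i ^ 2 := Finset.sum_nonneg fun i _ => sq_nonneg _
      have h4 := mul_le_mul_of_nonneg_right h1 h3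
      linarith
    refine (real_imp_le _ this).trans ?_
    simp only [Set.ofPred_false, measureReal_empty]
    exact (exp_pos _).le
  have h1' : t < 1 := not_le.1 h1
  have ha2 : ∀ i, ((if i ∈ S then 1 else 0) - t) / 4 < (1 / 2 : ℝ) := fun i => by
    split_ifs <;> linarith
  have key := cone_diag (fun i => ((if i ∈ S then 1 else 0) - t) / 4) ha2 0
  have himp : ∀ w : ι → ℝ, t * ∑ i, w i ^ 2 < ∑ i ∈ S, w i ^ 2 →
      0 ≤ ∑ i, ((if i ∈ S then 1 else 0) - t) / 4 * w i ^ 2 := by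
    intro w hw
    have e : ∑ i, ((if i ∈ S then 1 else 0) - t) / 4 * w i ^ 2 =
        (∑ i ∈ S, w i ^ 2 - t * ∑ i, w i ^ 2) / 4 := by
      have e1 : ∑ i ∈ S, w i ^ 2 = ∑ i, (if i ∈ S then 1 else 0) * w i ^ 2 := by
        simp only [ite_mul, one_mul, zero_mul, Finset.sum_ite_mem, Finset.univ_inter]
      rw [e1, Finset.mul_sum, ← Finset.sum_sub_distrib, Finset.sum_div]
      refine Finset.sum_congr rfl fun i _ => ?_
      ring
    rw [e]; linarith
  refine (real_imp_le _ himp).trans (key.trans ?_)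
  rw [neg_zero, exp_zero, one_mul]
  have h3 : ∀ i, (√(1 - 2 * (((if i ∈ S then 1 else 0) - t) / 4)))⁻¹ ≤
      exp ((if i ∈ S then 1 else 0) - t / 6) := by
    intro i
    split_ifs
    · exact cone_in h1' ht
    · exact cone_out h1' ht
  refine (Finset.prod_le_prod (fun i _ => inv_nonneg.2 (sqrt_nonneg _)) fun i _ => h3 i).trans
    (le_of_eq ?_)
  rw [← exp_sum, Finset.sum_sub_distrib]
  simp only [Finset.sum_ite_mem, Finset.univ_inter, Finset.sum_const, nsmul_eq_mul, mul_one,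
    Finset.card_univ, mul_div_assoc]

/-! ### Rotations -/

/-- A matrix with orthonormal rows maps the standard Gaussian to the standard Gaussian. -/
theorem rot_mp {κ : Type*} [Fintype κ] [DecidableEq κ] (B : Matrix κ ι ℝ) (hB : B * Bᵀ = 1) :
    MeasurePreserving (fun w : ι → ℝ => B *ᵥ w) (gpi ι) (gpi κ) := by
  have hm : Measurable fun w : ι → ℝ => B *ᵥ w := by
    refine measurable_pi_lambda _ fun k => ?_
    simp only [Matrix.mulVec, dotProduct]
    fun_prop
  refine ⟨hm, ?_⟩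
  have h1 : ((gpi ι).map fun w : ι → ℝ => B *ᵥ w).map (WithLp.toLp 2) =
      (gpi κ).map (WithLp.toLp 2 : (κ → ℝ) → EuclideanSpace ℝ κ) := by
    rw [map_pi_eq_stdGaussian]
    apply Measure.ext_of_charFun (E := EuclideanSpace ℝ κ)
    ext t
    have h2 := congrFun (congrArg charFun (map_pi_eq_stdGaussian (ι := ι)))
      (WithLp.toLp 2 (Bᵀ *ᵥ t.ofLp))
    rw [charFun_stdGaussian] at h2 ⊢
    have h3 : ‖(WithLp.toLp 2 (Bᵀ *ᵥ t.ofLp) : EuclideanSpace ℝ ι)‖ = ‖t‖ := by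
      rw [← sq_eq_sq₀ (norm_nonneg _) (norm_nonneg _), EuclideanSpace.real_norm_sq_eq,
        EuclideanSpace.real_norm_sq_eq]
      have : (Bᵀ *ᵥ t.ofLp) ⬝ᵥ (Bᵀ *ᵥ t.ofLp) = t.ofLp ⬝ᵥ t.ofLp := by
        rw [Matrix.mulVec_transpose, ← Matrix.dotProduct_mulVec, ← Matrix.mulVec_transpose,
          Matrix.mulVec_mulVec, hB, Matrix.one_mulVec]
      simpa [dotProduct, pow_two] using this
    rw [h3] at h2
    rw [← h2, Measure.map_map (by fun_prop) hm, charFun_apply, charFun_apply,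
      integral_map (by fun_prop) (by fun_prop), integral_map (by fun_prop) (by fun_prop)]
    refine integral_congr_ae (ae_of_all _ fun w => ?_)
    have h4 : inner ℝ (WithLp.toLp 2 (B *ᵥ w) : EuclideanSpace ℝ κ) t =
        inner ℝ (WithLp.toLp 2 w : EuclideanSpace ℝ ι) (WithLp.toLp 2 (Bᵀ *ᵥ t.ofLp)) := by
      rw [PiLp.inner_apply, PiLp.inner_apply]
      have : t.ofLp ⬝ᵥ (B *ᵥ w) = (Bᵀ *ᵥ t.ofLp) ⬝ᵥ w := by
        rw [Matrix.dotProduct_mulVec, Matrix.mulVec_transpose]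
      simpa [dotProduct] using this
    simp only [Function.comp_apply, h4]
  exact (MeasurableEquiv.toLp 2 (κ → ℝ)).map_measurableEquiv_injective h1

theorem rot_real {κ : Type*} [Fintype κ] [DecidableEq κ] (B : Matrix κ ι ℝ) (hB : B * Bᵀ = 1)
    {S : Set (κ → ℝ)} (hS : MeasurableSet S) :
    (gpi ι).real {w | B *ᵥ w ∈ S} = (gpi κ).real S :=
  (rot_mp B hB).measureReal_preimage hS.nullMeasurableSet

end Vale.Agent.N150.Tail
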