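import Mathlib
import Vale.Agent.N150.A1Tr
import Vale.Agent.N150.Tail

/-! P150, block A1': the tracking identity for a truncated prediction, and crude bounds. -/

open MeasureTheory ProbabilityTheory Filter Topology Real
open scoped Matrix

namespace Vale.Agent.N150.A1

open Vale.Agent.P150 Vale.Agent.P150.F

variable {n m : ℕ} {S : Type} [MeasurableSpace S] (P : Proc n m S)

/-- the box of moderate noises -/
def Box (m : ℕ) (K : ℝ) : Set (Vec m) := {ξ | ∀ j, |ξ j| ≤ K}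

theorem meas_Box (m : ℕ) (K : ℝ) : MeasurableSet (Box m K) := by
  have : Box m K = ⋂ j, {ξ : Vec m | |ξ j| ≤ K} := by ext ξ; simp [Box]
  rw [this]
  exact MeasurableSet.iInter fun j =>
    measurableSet_le (measurable_pi_apply j).abs measurable_const

/-- truncation of a noise term -/
noncomputable def trZ (Z : S → Cfg n → Vec m → Vec n) (K : ℝ) (s : S) (x : Cfg n) (ξ : Vec m) :
    Vec n := (Box m K).indicator (Z s x) ξ

/-- mean of the truncated noise term -/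
noncomputable def cZ (Z : S → Cfg n → Vec m → Vec n) (K : ℝ) (s : S) (x : Cfg n) : Vec n :=
  fun i => ∫ ξ, trZ Z K s x ξ i ∂gpi (Fin m)

/-- remainder of the prediction `mh + H (x - mh) + Z` -/
noncomputable def remZ (H : S → Mat n) (mh : S → Vec n) (Z : S → Cfg n → Vec m → Vec n) (K : ℝ)
    (s : S) (x : Cfg n) (ξ : Vec m) : Vec n :=
  mh (P.nx s x ξ) - mh s - H s *ᵥ (sv x - mh s) - trZ Z K s x ξ + cZ Z K s x

variable {H A : S → Mat n} {mh : S → Vec n} {Z : S → Cfg n → Vec m → Vec n} {K : ℝ}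

omit [MeasurableSpace S] in
theorem trZ_of_mem {s : S} {x : Cfg n} {ξ : Vec m} (h : ξ ∈ Box m K) : trZ Z K s x ξ = Z s x ξ :=
  Set.indicator_of_mem h _

omit [MeasurableSpace S] in
theorem trZ_of_not {s : S} {x : Cfg n} {ξ : Vec m} (h : ξ ∉ Box m K) : trZ Z K s x ξ = 0 :=
  Set.indicator_of_notMem h _

theorem bm_trZ (hZ : ∀ x i, Measurable fun q : S × Vec m => Z q.1 x q.2 i)
    (hb : ∃ C, ∀ s x ξ i, ξ ∈ Box m K → |Z s x ξ i| ≤ C) (x : Cfg n) (i : Fin n) :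
    BM fun q : S × Vec m => trZ Z K q.1 x q.2 i := by
  obtain ⟨C, hC⟩ := hb
  have e : (fun q : S × Vec m => trZ Z K q.1 x q.2 i)
      = Set.indicator (Prod.snd ⁻¹' Box m K) fun q : S × Vec m => Z q.1 x q.2 i := by
    funext q
    by_cases h : q.2 ∈ Box m K
    · rw [trZ_of_mem h, Set.indicator_of_mem (by exact h)]
    · rw [trZ_of_not h, Set.indicator_of_notMem (by exact h)]; rfl
  refine ⟨?_, |C|, fun q => ?_⟩
  · rw [e]; exact (hZ x i).indicator (measurable_snd (meas_Box m K))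
  · beta_reduce
    by_cases h : q.2 ∈ Box m K
    · rw [trZ_of_mem h]; exact (hC _ _ _ _ h).trans (le_abs_self C)
    · rw [trZ_of_not h]; simp

theorem bm_cZ (hZ : ∀ x i, BM fun q : S × Vec m => trZ Z K q.1 x q.2 i) (x : Cfg n) (i : Fin n) :
    BM fun s => cZ Z K s x i := bm_int (F := fun s ξ => trZ Z K s x ξ i) (hZ x i) _

theorem bm_remZ (hH : ∀ i j, BM fun s => H s i j) (hmh : ∀ i, BM fun s => mh s i)
    (hZ : ∀ x i, BM fun q : S × Vec m => trZ Z K q.1 x q.2 i) (x : Cfg n) (i : Fin n) :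
    BM fun q : S × Vec m => remZ P H mh Z K q.1 x q.2 i := by
  have h1 : BM fun q : S × Vec m => mh (P.nx q.1 x q.2) i := bm_comp (hmh i) (P.meas_nx x)
  have h2 : ∀ j, BM fun q : S × Vec m => mh q.1 j := fun j => bm_comp (hmh j) measurable_fst
  have h3 : BM fun q : S × Vec m => (H q.1 *ᵥ (sv x - mh q.1)) i :=
    bm_mulVec (fun i j => bm_comp (hH i j) measurable_fst) (fun j => (BM.const _).sub (h2 j)) i
  exact (((h1.sub (h2 i)).sub h3).sub (hZ x i)).add (bm_comp (bm_cZ hZ x i) measurable_fst)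

/-- the tracking identity holds as soon as `A` inverts `1 - H` -/
theorem idOn_remZ (hZ : ∀ x i, BM fun q : S × Vec m => trZ Z K q.1 x q.2 i) {s : S}
    (hA : A s * (1 - H s) = 1) : IdOn P A mh (remZ P H mh Z K) s := by
  intro x
  have e : (fun i => ∫ ξ, (sv x i - mh (P.nx s x ξ) i + remZ P H mh Z K s x ξ i) ∂gpi (Fin m))
      = (1 - H s) *ᵥ (sv x - mh s) := by
    funext i
    have e1 : ∀ ξ, sv x i - mh (P.nx s x ξ) i + remZ P H mh Z K s x ξ i
        = (((1 - H s) *ᵥ (sv x - mh s)) i + cZ Z K s x i) - trZ Z K s x ξ i := by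
      intro ξ
      simp only [remZ, Matrix.sub_mulVec, Matrix.one_mulVec, Pi.add_apply, Pi.sub_apply]
      ring
    simp only [e1]
    rw [integral_sub (integrable_const _)
      (bm_integrable (bm_right (F := fun s ξ => trZ Z K s x ξ i) (hZ x i) s) _)]
    simp [cZ]
  rw [e, Matrix.mulVec_mulVec, hA, Matrix.one_mulVec]

/-- a step with a scalar factor: `A = τ`, no prediction -/
theorem idOn_scal (hmh : ∀ i, BM fun s => mh s i) {rem : S → Cfg n → Vec m → Vec n} {s : S}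
    {τ : ℝ} (hτ : τ ≠ 0) (hA : A s = τ • (1 : Mat n))
    (hr : ∀ x ξ, rem s x ξ = τ⁻¹ • (sv x - mh s) - sv x + mh (P.nx s x ξ)) :
    IdOn P A mh rem s := by
  intro x
  have e : (fun i => ∫ ξ, (sv x i - mh (P.nx s x ξ) i + rem s x ξ i) ∂gpi (Fin m))
      = τ⁻¹ • (sv x - mh s) := by
    funext i
    have e1 : ∀ ξ, sv x i - mh (P.nx s x ξ) i + rem s x ξ i = (τ⁻¹ • (sv x - mh s)) i := by
      intro ξ
      simp only [hr, Pi.add_apply, Pi.sub_apply]
      ring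
    simp only [e1]
    simp
  have _h := hmh
  rw [e, hA, Matrix.smul_mulVec, Matrix.one_mulVec, smul_smul, mul_inv_cancel₀ hτ, one_smul]

/-- Gaussian tail of a quadratically growing function outside the box -/
theorem tail_box (hK : 0 ≤ K) {g : Vec m → ℝ} {c : ℝ} (hc : 0 ≤ c)
    (hg : ∀ ξ, |g ξ| ≤ c * (1 + F.sq ξ)) :
    |∫ ξ, (Box m K)ᶜ.indicator g ξ ∂gpi (Fin m)| ≤ 8 * c * Real.exp (m / 2 - K ^ 2 / 8) := by
  have hI := Tail.quad_int (ι := Fin m) (fun _ => (1 / 4 : ℝ)) (fun _ => by norm_num)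
  have hv := Tail.quad_mgf (ι := Fin m) (fun _ => (1 / 4 : ℝ)) (fun _ => by norm_num)
  have h1 : |∫ ξ, (Box m K)ᶜ.indicator g ξ ∂gpi (Fin m)|
      ≤ ∫ ξ : Vec m, 8 * c * Real.exp (-(K ^ 2 / 8)) * Real.exp (∑ i, 1 / 4 * ξ i ^ 2)
        ∂gpi (Fin m) := by
    rw [← Real.norm_eq_abs]
    refine norm_integral_le_of_norm_le (hI.const_mul _) (Eventually.of_forall fun ξ => ?_)
    rw [Real.norm_eq_abs]
    by_cases h : ξ ∈ Box m K
    · rw [Set.indicator_of_notMem (by simpa using h), abs_zero]; positivity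
    · rw [Set.indicator_of_mem (by simpa using h)]
      simp only [Box, Set.mem_ofPred_eq, not_forall, not_le] at h
      obtain ⟨j, hj⟩ := h
      have h2 : K ^ 2 ≤ F.sq ξ := by
        have h3 : K ^ 2 ≤ ξ j ^ 2 := by
          rw [← sq_abs (ξ j)]; exact pow_le_pow_left₀ hK hj.le 2
        exact h3.trans (Finset.single_le_sum (f := fun i => ξ i ^ 2) (fun _ _ => sq_nonneg _)
          (Finset.mem_univ j))
      have h4 : ∑ i, 1 / 4 * ξ i ^ 2 = F.sq ξ / 4 := by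
        unfold F.sq; rw [← Finset.mul_sum]; ring
      have h5 : 1 + F.sq ξ ≤ 8 * Real.exp (F.sq ξ / 8) := by
        have := Real.add_one_le_exp (F.sq ξ / 8)
        linarith
      have h6 : Real.exp (F.sq ξ / 8) ≤ Real.exp (-(K ^ 2 / 8)) * Real.exp (F.sq ξ / 4) := by
        rw [← Real.exp_add]; exact Real.exp_le_exp.2 (by linarith)
      rw [h4]
      calc |g ξ| ≤ c * (1 + F.sq ξ) := hg ξ
        _ ≤ c * (8 * (Real.exp (-(K ^ 2 / 8)) * Real.exp (F.sq ξ / 4))) :=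
            mul_le_mul_of_nonneg_left (by linarith) hc
        _ = _ := by ring
  refine h1.trans ?_
  rw [integral_const_mul, hv, Finset.prod_const, Finset.card_univ, Fintype.card_fin]
  have h7 : (√(1 - 2 * (1 / 4 : ℝ)))⁻¹ ≤ Real.exp (1 / 2) :=
    (Tail.inv_sqrt_le' (t := 1 / 4) le_rfl).trans (Real.exp_le_exp.2 (by norm_num))
  have h8 : (√(1 - 2 * (1 / 4 : ℝ)))⁻¹ ^ m ≤ Real.exp (m / 2) := by
    calc _ ≤ Real.exp (1 / 2) ^ m := pow_le_pow_left₀ (by positivity) h7 m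
      _ = _ := by rw [← Real.exp_nat_mul]; congr 1; ring
  calc _ ≤ 8 * c * Real.exp (-(K ^ 2 / 8)) * Real.exp (m / 2) :=
        mul_le_mul_of_nonneg_left h8 (by positivity)
    _ = _ := by rw [mul_assoc, ← Real.exp_add]; congr 2; ring

theorem integrable_sq_gauss : Integrable (fun ξ : Vec m => 1 + F.sq ξ) (gpi (Fin m)) := by
  have hI := Tail.quad_int (ι := Fin m) (fun _ => (1 / 4 : ℝ)) (fun _ => by norm_num)
  refine (hI.const_mul 4).mono' ?_ (Eventually.of_forall fun ξ => ?_)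
  · refine Continuous.aestronglyMeasurable ?_
    unfold F.sq; fun_prop
  · have h4 : ∑ i, 1 / 4 * ξ i ^ 2 = F.sq ξ / 4 := by
      unfold F.sq; rw [← Finset.mul_sum]; ring
    have h0 := sq_nonneg' ξ
    rw [h4, Real.norm_eq_abs, abs_of_nonneg (by linarith)]
    have := Real.add_one_le_exp (F.sq ξ / 4)
    linarith

omit [MeasurableSpace S] in
/-- the mean of a truncated centred term is tiny -/
theorem abs_cZ_le (hK : 0 ≤ K) {s : S} {x : Cfg n} {i : Fin n} {c : ℝ} (hc : 0 ≤ c)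
    (hm : Measurable fun ξ => Z s x ξ i) (h0 : ∫ ξ, Z s x ξ i ∂gpi (Fin m) = 0)
    (hg : ∀ ξ, |Z s x ξ i| ≤ c * (1 + F.sq ξ)) :
    |cZ Z K s x i| ≤ 8 * c * Real.exp (m / 2 - K ^ 2 / 8) := by
  have hI : Integrable (fun ξ => Z s x ξ i) (gpi (Fin m)) :=
    (integrable_sq_gauss.const_mul c).mono' hm.aestronglyMeasurable
      (Eventually.of_forall fun ξ => by rw [Real.norm_eq_abs]; exact hg ξ)
  have e1 : cZ Z K s x i = ∫ ξ, (Box m K).indicator (fun ξ => Z s x ξ i) ξ ∂gpi (Fin m) := by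
    unfold cZ
    refine integral_congr_ae (Eventually.of_forall fun ξ => ?_)
    beta_reduce
    by_cases h : ξ ∈ Box m K
    · rw [trZ_of_mem h, Set.indicator_of_mem h]
    · rw [trZ_of_not h, Set.indicator_of_notMem h]; rfl
  have e2 : ∫ ξ, (Box m K).indicator (fun ξ => Z s x ξ i) ξ ∂gpi (Fin m)
      + ∫ ξ, (Box m K)ᶜ.indicator (fun ξ => Z s x ξ i) ξ ∂gpi (Fin m) = 0 := by
    rw [← integral_add (hI.indicator (meas_Box m K)) (hI.indicator (meas_Box m K).compl), ← h0]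
    refine integral_congr_ae (Eventually.of_forall fun ξ => ?_)
    by_cases h : ξ ∈ Box m K <;> simp [h]
  have h3 := tail_box hK hc hg
  rw [e1, eq_neg_of_add_eq_zero_left e2, abs_neg]
  exact h3

theorem integral_coord (j : Fin m) : ∫ ξ : Vec m, ξ j ∂gpi (Fin m) = 0 := by
  have hp : MeasurePreserving (Function.eval j) (gpi (Fin m)) (gaussianReal 0 1) :=
    measurePreserving_eval _ j
  have h := integral_map (μ := gpi (Fin m)) (φ := Function.eval j) (f := fun t : ℝ => t)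
    hp.measurable.aemeasurable (by fun_prop)
  rw [hp.map_eq, integral_id_gaussianReal] at h
  exact h.symm

theorem abs_coord_le (ξ : Vec m) (j : Fin m) : |ξ j| ≤ 1 + F.sq ξ := by
  have h1 : ξ j ^ 2 ≤ F.sq ξ := Finset.single_le_sum (f := fun i => ξ i ^ 2)
    (fun _ _ => sq_nonneg _) (Finset.mem_univ j)
  have h2 := sq_abs (ξ j)
  nlinarith [abs_nonneg (ξ j), sq_nonneg (|ξ j| - 1)]

theorem integrable_coord (j : Fin m) : Integrable (fun ξ : Vec m => ξ j) (gpi (Fin m)) :=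
  integrable_sq_gauss.mono' (measurable_pi_apply j).aestronglyMeasurable
    (Eventually.of_forall fun ξ => by rw [Real.norm_eq_abs]; exact abs_coord_le ξ j)

theorem integral_mulVec {a : ℕ} (B : Matrix (Fin a) (Fin m) ℝ) (i : Fin a) :
    ∫ ξ : Vec m, (B *ᵥ ξ) i ∂gpi (Fin m) = 0 := by
  simp only [Matrix.mulVec, dotProduct]
  rw [integral_finsetSum _ fun j _ => (integrable_coord j).const_mul _]
  simp only [integral_const_mul, integral_coord, mul_zero, Finset.sum_const_zero]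

theorem abs_mulVec_le {a : ℕ} {B : Matrix (Fin a) (Fin m) ℝ} {c : ℝ} (hB : ∀ i j, |B i j| ≤ c)
    (hc : 0 ≤ c) (ξ : Vec m) (i : Fin a) : |(B *ᵥ ξ) i| ≤ m * c * (1 + F.sq ξ) := by
  simp only [Matrix.mulVec, dotProduct]
  refine (Finset.abs_sum_le_sum_abs _ _).trans ?_
  calc ∑ j, |B i j * ξ j| ≤ ∑ _j : Fin m, c * (1 + F.sq ξ) := by
        refine Finset.sum_le_sum fun j _ => ?_
        rw [abs_mul]
        exact mul_le_mul (hB i j) (abs_coord_le ξ j) (abs_nonneg _) hc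
    _ = _ := by simp [mul_assoc]

/-! ### the recursion without inverses -/

variable {e : S → Cfg n → Vec n} {rem : S → Cfg n → Vec m → Vec n}

theorem Wf_rec (s : S) (x : Cfg n) (ω : ℕ → Vec m) (k r : ℕ)
    (hA : A (P.traj s x ω k) * (1 - H (P.traj s x ω k)) = 1) :
    Wf P A e rem (r + 1) (P.traj s x ω k) x (shS k ω)
      - H (P.traj s x ω k) *ᵥ Wf P A e rem (r + 1) (P.traj s x ω k) x (shS k ω)
      = Wf P A e rem r (P.traj s x ω (k + 1)) x (shS (k + 1) ω)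
        + rem (P.traj s x ω k) x (ω k) := by
  have h1 : (1 - H (P.traj s x ω k)) * A (P.traj s x ω k) = 1 := mul_eq_one_comm.1 hA
  have h2 : ∀ v : Vec n, v - H (P.traj s x ω k) *ᵥ v = (1 - H (P.traj s x ω k)) *ᵥ v := by
    intro v; rw [Matrix.sub_mulVec, Matrix.one_mulVec]
  rw [h2, Wf_path, Matrix.mulVec_mulVec, h1, Matrix.one_mulVec]

theorem Phi_rec (s : S) (x : Cfg n) (ω : ℕ → Vec m) (k r : ℕ) (v : Vec n)
    (hA : A (P.traj s x ω k) * (1 - H (P.traj s x ω k)) = 1) :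
    Phi P A (r + 1) (P.traj s x ω k) x (shS k ω) *ᵥ v
      - H (P.traj s x ω k) *ᵥ (Phi P A (r + 1) (P.traj s x ω k) x (shS k ω) *ᵥ v)
      = Phi P A r (P.traj s x ω (k + 1)) x (shS (k + 1) ω) *ᵥ v := by
  have h1 : (1 - H (P.traj s x ω k)) * A (P.traj s x ω k) = 1 := mul_eq_one_comm.1 hA
  have h2 : ∀ v : Vec n, v - H (P.traj s x ω k) *ᵥ v = (1 - H (P.traj s x ω k)) *ᵥ v := by
    intro v; rw [Matrix.sub_mulVec, Matrix.one_mulVec]
  rw [h2, Phi_path, Matrix.mulVec_mulVec, ← Matrix.mul_assoc, h1, Matrix.one_mul]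

/-! ### crude bounds in a family of seminorms -/

variable {Lay : ℕ → Set S} {a : ℕ} {L : S → Matrix (Fin a) (Fin n) ℝ} {al ρ : ℕ → ℝ} {k0 N : ℕ}

theorem crude_W (hLay : ∀ k s z, s ∈ Lay k → P.nxt s z ∈ Lay (k + 1)) (hal : ∀ j, 1 ≤ al j)
    (hρ : ∀ j, 0 ≤ ρ j)
    (hstep : ∀ j, k0 ≤ j → j < N → ∀ s ∈ Lay j, ∀ z v,
      nv (L s *ᵥ (A s *ᵥ v)) ≤ al j * nv (L (P.nxt s z) *ᵥ v))
    {x : Cfg n} (hrem : ∀ j, k0 ≤ j → j < N → ∀ s ∈ Lay j, ∀ ξ,
      nv (L (P.nx s x ξ) *ᵥ rem s x ξ) ≤ ρ j) (r : ℕ) :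
    ∀ k, k0 ≤ k → k + r = N → ∀ s ∈ Lay k, ∀ ω, nv (L s *ᵥ Wf P A e rem r s x ω) ≤
      (∏ j ∈ Finset.Ico k N, al j) * (nv (L (P.traj s x ω r) *ᵥ e (P.traj s x ω r) x)
        + ∑ j ∈ Finset.Ico k N, ρ j) := by
  induction r with
  | zero =>
    intro k _ hk s _ ω
    obtain rfl : k = N := by omega
    simp [Wf]
  | succ r ih =>
    intro k hk0 hk s hs ω
    have hkN : k < N := by omega
    have h1 := ih (k + 1) (by omega) (by omega) (P.nx s x (ω 0)) (hLay k s _ hs) (shS 1 ω)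
    have h2 := hstep k hk0 hkN s hs (obs (P.R s) (P.δ s) x (ω 0))
      (Wf P A e rem r (P.nx s x (ω 0)) x (shS 1 ω) + rem s x (ω 0))
    have h3 := hrem k hk0 hkN s hs (ω 0)
    rw [Wf, traj_shift, Finset.prod_eq_prod_Ico_succ_bot hkN, Finset.sum_eq_sum_Ico_succ_bot hkN]
    refine h2.trans ?_
    rw [mul_assoc]
    refine mul_le_mul_of_nonneg_left ?_ (zero_le_one.trans (hal k))
    rw [Matrix.mulVec_add]
    refine (nv_add_le _ _).trans ?_
    have h4 : 1 ≤ ∏ j ∈ Finset.Ico (k + 1) N, al j := Finset.one_le_prod fun j _ => hal j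
    have h5 := mul_le_mul_of_nonneg_right h4 (hρ k)
    have e : P.nxt s (obs (P.R s) (P.δ s) x (ω 0)) = P.nx s x (ω 0) := rfl
    rw [e]
    nlinarith

theorem crude_Phi (hLay : ∀ k s z, s ∈ Lay k → P.nxt s z ∈ Lay (k + 1)) (hal : ∀ j, 1 ≤ al j)
    (hstep : ∀ j, k0 ≤ j → j < N → ∀ s ∈ Lay j, ∀ z v,
      nv (L s *ᵥ (A s *ᵥ v)) ≤ al j * nv (L (P.nxt s z) *ᵥ v))
    (x : Cfg n) {r k : ℕ} (hk0 : k0 ≤ k) (hk : k + r = N) {s : S} (hs : s ∈ Lay k)
    (ω : ℕ → Vec m) (v : Vec n) :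
    nv (L s *ᵥ (Phi P A r s x ω *ᵥ v)) ≤
      (∏ j ∈ Finset.Ico k N, al j) * nv (L (P.traj s x ω r) *ᵥ v) := by
  have h := crude_W P (e := fun _ _ => v) (rem := fun _ _ _ => 0) (ρ := fun _ => 0) hLay hal
    (fun _ => le_rfl) hstep (x := x) (fun j _ _ s _ ξ => by simp [nv_zero]) r k hk0 hk s hs ω
  rw [Wf_zero] at h
  simpa using h

theorem traj_mem (hLay : ∀ k s z, s ∈ Lay k → P.nxt s z ∈ Lay (k + 1)) {k : ℕ} {s : S}
    (hs : s ∈ Lay k) (x : Cfg n) (ω : ℕ → Vec m) (r : ℕ) : P.traj s x ω r ∈ Lay (k + r) := by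
  induction r with
  | zero => exact hs
  | succ r ih => exact hLay _ _ _ ih

theorem nv_eN_le {c : ℝ} (hmh : ∀ s i, |mh s i| ≤ c) (hc : 0 ≤ c) (s : S) (x : Cfg n) :
    nv (eN P mh s x) ≤ (1 + c) * √n := by
  refine nv_le_sqrt (by linarith) fun i => ?_
  have h1 := Proc.abs_mean_le _ (P.law_isProb s) i
  exact (abs_sub _ _).trans (add_le_add h1 (hmh s i))

/-! ### the inverse of `1 - δ G Q` for a projection `Q` -/

theorem nv_step {G Q : Mat n} (hQs : Qᵀ = Q) (hQ : Q * Q = Q) {δ c : ℝ} (hδ : 0 ≤ δ)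
    (hG : ∀ u, Q *ᵥ u = u → ip u (G *ᵥ u) ≤ c * F.sq u) (w : Vec n) :
    (1 - δ * c) * nv (Q *ᵥ w) ≤ nv (Q *ᵥ ((1 - δ • (G * Q)) *ᵥ w)) := by
  set u := Q *ᵥ w with hu
  have hQu : Q *ᵥ u = u := by rw [hu, Matrix.mulVec_mulVec, hQ]
  have h1 := hG u hQu
  have hs : Q.IsSymm := hQs
  have e1 : ip u (Q *ᵥ ((1 - δ • (G * Q)) *ᵥ w)) = F.sq u - δ * ip u (G *ᵥ u) := by
    rw [ip_mulVec_comm hs, hQu, Matrix.sub_mulVec, Matrix.one_mulVec, ip_sub_right,
      Matrix.smul_mulVec, ip_smul_right, ← Matrix.mulVec_mulVec, ← hu]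
    congr 1
    have e2 : ip u w = ip u (Q *ᵥ w) := by rw [ip_mulVec_comm hs, hQu]
    rw [e2, ← hu]
    unfold ip F.sq
    exact Finset.sum_congr rfl fun i _ => by ring
  have h2 := ip_le u (Q *ᵥ ((1 - δ • (G * Q)) *ᵥ w))
  have h3 := mul_le_mul_of_nonneg_left h1 hδ
  have h4 : (1 - δ * c) * nv u * nv u ≤ nv (Q *ᵥ ((1 - δ • (G * Q)) *ᵥ w)) * nv u := by
    have h5 : (1 - δ * c) * nv u * nv u = F.sq u - δ * (c * F.sq u) := by
      rw [← nv_sq u]; ring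
    rw [h5, mul_comm (nv _) (nv u)]
    linarith
  rcases (nv_nonneg u).eq_or_lt with h0 | h0
  · rw [← h0, mul_zero]; exact nv_nonneg _
  · exact le_of_mul_le_mul_right h4 h0

theorem eq_zero_of_nv {v : Vec n} (h : nv v = 0) : v = 0 := by
  have h1 : F.sq v = 0 := by rw [← nv_sq, h]; simp
  funext i
  have h2 := (Finset.sum_eq_zero_iff_of_nonneg fun i _ => sq_nonneg (v i)).1 h1 i
    (Finset.mem_univ i)
  exact pow_eq_zero_iff two_ne_zero |>.1 h2

theorem isUnit_step {G Q : Mat n} (hQs : Qᵀ = Q) (hQ : Q * Q = Q) {δ c : ℝ} (hδ : 0 ≤ δ)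
    (hc : δ * c < 1) (hG : ∀ u, Q *ᵥ u = u → ip u (G *ᵥ u) ≤ c * F.sq u) :
    IsUnit (1 - δ • (G * Q)).det := by
  rw [isUnit_iff_ne_zero]
  intro h0
  obtain ⟨w, hw, hw0⟩ := Matrix.exists_mulVec_eq_zero_iff.2 h0
  have h1 := nv_step hQs hQ hδ hG w
  rw [hw0, Matrix.mulVec_zero, nv_zero] at h1
  have h2 : nv (Q *ᵥ w) = 0 := by
    have := nv_nonneg (Q *ᵥ w)
    nlinarith
  have h3 := eq_zero_of_nv h2
  rw [Matrix.sub_mulVec, Matrix.one_mulVec, Matrix.smul_mulVec, ← Matrix.mulVec_mulVec, h3] at hw0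
  simp at hw0
  exact hw hw0

theorem inv_step {G Q : Mat n} (hQs : Qᵀ = Q) (hQ : Q * Q = Q) {δ c : ℝ} (hδ : 0 ≤ δ)
    (hc : δ * c < 1) (hG : ∀ u, Q *ᵥ u = u → ip u (G *ᵥ u) ≤ c * F.sq u) :
    (1 - δ • (G * Q))⁻¹ * (1 - δ • (G * Q)) = 1 ∧
      ∀ v, nv (Q *ᵥ ((1 - δ • (G * Q))⁻¹ *ᵥ v)) ≤ (1 - δ * c)⁻¹ * nv (Q *ᵥ v) := by
  have hu := isUnit_step hQs hQ hδ hc hG
  refine ⟨Matrix.nonsing_inv_mul _ hu, fun v => ?_⟩
  have h1 := nv_step hQs hQ hδ hG ((1 - δ • (G * Q))⁻¹ *ᵥ v)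
  rw [Matrix.mulVec_mulVec v (1 - δ • (G * Q)), Matrix.mul_nonsing_inv _ hu,
    Matrix.one_mulVec] at h1
  rw [le_inv_mul_iff₀ (by linarith)]
  exact h1

theorem inv_step_op {G Q : Mat n} (hQs : Qᵀ = Q) (hQ : Q * Q = Q) {δ c g : ℝ} (hδ : 0 ≤ δ)
    (hc : δ * c < 1) (hG : ∀ u, Q *ᵥ u = u → ip u (G *ᵥ u) ≤ c * F.sq u) (hg0 : 0 ≤ g)
    (hg : OpLe G g) : OpLe (1 - δ • (G * Q))⁻¹ (1 + δ * g * (1 - δ * c)⁻¹) := by
  have hu := isUnit_step hQs hQ hδ hc hG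
  have hs : Q.IsSymm := hQs
  refine opLe_of_nv fun v => ?_
  set w := (1 - δ • (G * Q))⁻¹ *ᵥ v with hw
  have h1 := (inv_step hQs hQ hδ hc hG).2 v
  rw [← hw] at h1
  have h2 : w = v + δ • (G *ᵥ (Q *ᵥ w)) := by
    have h3 : (1 - δ • (G * Q)) *ᵥ w = v := by
      rw [hw, Matrix.mulVec_mulVec, Matrix.mul_nonsing_inv _ hu, Matrix.one_mulVec]
    rw [Matrix.sub_mulVec, Matrix.one_mulVec, Matrix.smul_mulVec, ← Matrix.mulVec_mulVec] at h3
    rw [← h3]; simp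
  have hQv : nv (Q *ᵥ v) ≤ nv v := by
    have e2 : ip (Q *ᵥ v) (Q *ᵥ v) = ip (Q *ᵥ v) v := by
      rw [ip_mulVec_comm hs, Matrix.mulVec_mulVec, hQ]
    have e3 : ip (Q *ᵥ v) (Q *ᵥ v) = nv (Q *ᵥ v) * nv (Q *ᵥ v) := by
      rw [← pow_two, nv_sq]
      unfold ip F.sq
      exact Finset.sum_congr rfl fun i _ => by ring
    have h4 := ip_le (Q *ᵥ v) v
    rw [← e2, e3] at h4
    rcases (nv_nonneg (Q *ᵥ v)).eq_or_lt with h0 | h0
    · rw [← h0]; exact nv_nonneg _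
    · exact le_of_mul_le_mul_left h4 h0
  have hi : 0 ≤ (1 - δ * c)⁻¹ := inv_nonneg.2 (by linarith)
  have h5 : nv (G *ᵥ (Q *ᵥ w)) ≤ g * ((1 - δ * c)⁻¹ * nv v) :=
    (hg.nv_le hg0 _).trans (mul_le_mul_of_nonneg_left
      (h1.trans (mul_le_mul_of_nonneg_left hQv hi)) hg0)
  have h6 := nv_add_le v (δ • (G *ᵥ (Q *ᵥ w)))
  rw [← h2, nv_smul, abs_of_nonneg hδ] at h6
  have h7 := mul_le_mul_of_nonneg_left h5 hδ
  linarith

theorem abs_entry_le {B : Mat n} {c : ℝ} (hc : 0 ≤ c) (h : OpLe B c) (i j : Fin n) :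
    |B i j| ≤ c := by
  have h1 := h (Pi.single j 1)
  have h2 : F.sq (Pi.single j (1 : ℝ) : Vec n) = 1 := by
    unfold F.sq
    rw [Finset.sum_eq_single j (fun b _ hb => by simp [hb]) (by simp)]
    simp
  have h3 : B i j ^ 2 ≤ F.sq (B *ᵥ Pi.single j 1) := by
    have h4 : (B *ᵥ Pi.single j 1) i = B i j := by simp
    rw [← h4]
    exact Finset.single_le_sum (f := fun i => (B *ᵥ Pi.single j 1) i ^ 2)
      (fun _ _ => sq_nonneg _) (Finset.mem_univ i)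
  rw [h2, mul_one] at h1
  exact abs_le_of_sq_le_sq' (h3.trans h1) hc |> abs_le.2

theorem meas_det {B : S → Mat n} (hB : ∀ i j, Measurable fun s => B s i j) :
    Measurable fun s => (B s).det := by
  simp only [Matrix.det_apply']
  exact Finset.measurable_fun_sum _ fun σ _ =>
    (Finset.measurable_fun_prod _ fun i _ => hB _ _).const_mul _

theorem meas_inv {B : S → Mat n} (hB : ∀ i j, Measurable fun s => B s i j) (i j : Fin n) :
    Measurable fun s => (B s)⁻¹ i j := by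
  simp only [Matrix.inv_def, Matrix.smul_apply, Matrix.adjugate_apply, Ring.inverse_eq_inv',
    smul_eq_mul]
  refine (meas_det hB).inv.mul (meas_det fun a b => ?_)
  simp only [Matrix.updateRow_apply]
  split_ifs
  · exact measurable_const
  · exact hB a b

theorem qf_proj {Q : Mat n} (hQs : Qᵀ = Q) (hQ : Q * Q = Q) (v : Vec n) :
    qf Q v = nv (Q *ᵥ v) ^ 2 := by
  have hs : Q.IsSymm := hQs
  have e2 : ip (Q *ᵥ v) (Q *ᵥ v) = ip (Q *ᵥ v) v := by
    rw [ip_mulVec_comm hs, Matrix.mulVec_mulVec, hQ]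
  have e3 : qf Q v = ip (Q *ᵥ v) v := ip_mulVec_comm hs v v
  rw [e3, ← e2, nv_sq]
  unfold ip F.sq
  exact Finset.sum_congr rfl fun i _ => by ring

end Vale.Agent.N150.A1
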