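import Vale.Agent.P150.Bdl.B39

/-! Level splitting: defective entropy inequalities for bounded densities give the mixing time. -/

open Finset Filter Topology Set

namespace Vale.Agent.N150

open Vale.Agent.P150 Vale.Agent.P150.Semi Vale.Agent.P150.F

/-- Defective entropy inequality for densities bounded by `exp K`, with defect `E`. -/
def Lev {n : ℕ} (J : Fin n → Fin n → ℝ) (b : Fin n → ℝ) (K E A : ℝ) : Prop :=
  ∀ f : Cfg n → ℝ, (∀ x, 0 < f x) → (∀ x, f x ≤ Real.exp K) → ex J b f = 1 →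
    ex J b (fun x => f x * Real.log (f x)) ≤ E + A * dir J b f (fun x => Real.log (f x))

namespace A2

variable {n : ℕ} {J : Fin n → Fin n → ℝ} {b : Fin n → ℝ}

lemma Pt_nonneg {t : ℝ} (ht : 0 ≤ t) {f : Cfg n → ℝ} (hf : ∀ x, 0 ≤ f x) (x : Cfg n) :
    0 ≤ Pt J b t f x :=
  Finset.sum_nonneg fun y _ => mul_nonneg (kernel_nonneg J b ht x y) (hf y)

lemma Pt_le {t c : ℝ} (ht : 0 ≤ t) {f : Cfg n → ℝ} (hf : ∀ x, f x ≤ c) (x : Cfg n) :
    Pt J b t f x ≤ c := by
  calc Pt J b t f x ≤ ∑ y, kernel J b t x y * c :=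
        Finset.sum_le_sum fun y _ => mul_le_mul_of_nonneg_left (hf y) (kernel_nonneg J b ht x y)
    _ = c := by rw [← Finset.sum_mul, kernel_row, one_mul]

lemma Pt_lin (t c d : ℝ) (f g : Cfg n → ℝ) (x : Cfg n) :
    Pt J b t (fun y => c * f y + d * g y) x = c * Pt J b t f x + d * Pt J b t g x := by
  unfold Pt
  rw [Finset.mul_sum, Finset.mul_sum, ← Finset.sum_add_distrib]
  exact Finset.sum_congr rfl fun y _ => by ring

lemma Pt_add (t : ℝ) (f g : Cfg n → ℝ) (x : Cfg n) :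
    Pt J b t (fun y => f y + g y) x = Pt J b t f x + Pt J b t g x := by
  simpa using Pt_lin (J := J) (b := b) t 1 1 f g x

lemma Pt_smul (t c : ℝ) (f : Cfg n → ℝ) (x : Cfg n) :
    Pt J b t (fun y => c * f y) x = c * Pt J b t f x := by
  simpa using Pt_lin (J := J) (b := b) t c 0 f f x

lemma Pt_Pt (s t : ℝ) (f : Cfg n → ℝ) (x : Cfg n) :
    Pt J b (s + t) f x = Pt J b s (Pt J b t f) x := by
  unfold Pt
  rw [kernel_add]
  simp only [Matrix.mul_apply, Finset.sum_mul, Finset.mul_sum]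
  rw [Finset.sum_comm]
  exact Finset.sum_congr rfl fun y _ => Finset.sum_congr rfl fun z _ => by ring

lemma ent_le {K : ℝ} {f : Cfg n → ℝ} (hf : ∀ x, 0 ≤ f x) (hK : ∀ x, f x ≤ Real.exp K)
    (h1 : ex J b f = 1) : ex J b (fun x => f x * Real.log (f x)) ≤ K := by
  have h : ex J b (fun x => f x * Real.log (f x)) ≤ ex J b (fun x => K * f x) :=
    Semi.ex_mono b fun x => by
      rcases (hf x).eq_or_lt with h0 | h0
      · rw [← h0]; simp
      · rw [mul_comm K]
        exact mul_le_mul_of_nonneg_left ((Real.log_le_iff_le_exp h0).2 (hK x)) h0.le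
  rwa [Semi.ex_smul, h1, mul_one] at h

lemma entg_eq {f : Cfg n → ℝ} (h1 : ex J b f = 1) :
    entg J b f = ex J b (fun x => f x * Real.log (f x)) := by
  unfold entg
  rw [h1, Real.log_one, mul_zero, sub_zero]

/-- entropy decay along a positive bounded flow -/
lemma decay_pos (hJ : ∀ i j, J i j = J j i) {K E A : ℝ} (hA : 0 < A) (hL : Lev J b K E A)
    (u : ℝ → Cfg n → ℝ) (hu : ∀ t x, HasDerivAt (fun s => u s x) (gen J b (u t) x) t)
    (hpos : ∀ t, 0 ≤ t → ∀ x, 0 < u t x) (hK : ∀ t, 0 ≤ t → ∀ x, u t x ≤ Real.exp K)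
    (h1 : ∀ t, ex J b (u t) = 1) (t : ℝ) (ht : 0 ≤ t) :
    entg J b (u t) - E ≤ Real.exp (-(t / A)) * (entg J b (u 0) - E) := by
  set F : ℝ → ℝ := fun s => Real.exp (s / A) * (entg J b (u s) - E) with hF
  have hd : ∀ s, 0 ≤ s → HasDerivAt F (Real.exp (s / A) * (1 / A) * (entg J b (u s) - E)
      + Real.exp (s / A) * (-dir J b (u s) (fun x => Real.log (u s x)))) s := by
    intro s hs
    exact (((hasDerivAt_id s).div_const A).exp).mul
      ((entg_deriv b hJ u hu s (hpos s hs)).sub_const E)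
  have hanti : AntitoneOn F (Set.Ici 0) := by
    apply antitoneOn_of_deriv_nonpos (convex_Ici 0)
    · intro s hs
      exact (hd s hs).continuousAt.continuousWithinAt
    · intro s hs
      rw [interior_Ici] at hs
      exact (hd s (le_of_lt hs)).differentiableAt.differentiableWithinAt
    · intro s hs
      rw [interior_Ici] at hs
      have hs0 : (0 : ℝ) ≤ s := le_of_lt hs
      rw [(hd s hs0).deriv]
      have h2 := hL (u s) (hpos s hs0) (hK s hs0) (h1 s)
      rw [← entg_eq (h1 s)] at h2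
      have h4 : (1 / A) * (entg J b (u s) - E) ≤ dir J b (u s) (fun x => Real.log (u s x)) := by
        rw [one_div, inv_mul_le_iff₀ hA]
        linarith only [h2]
      have h5 := mul_le_mul_of_nonneg_left h4 (Real.exp_pos (s / A)).le
      linarith only [h5]
  have h0 := hanti (Set.mem_Ici.2 le_rfl) (Set.mem_Ici.2 ht) ht
  have h6 : F t = Real.exp (t / A) * (entg J b (u t) - E) := rfl
  have h7 : F 0 = entg J b (u 0) - E := by simp [hF]
  rw [h6, h7] at h0
  have h8 : Real.exp (-(t / A)) * Real.exp (t / A) = 1 := by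
    rw [← Real.exp_add]; simp
  calc entg J b (u t) - E = Real.exp (-(t / A)) * (Real.exp (t / A) * (entg J b (u t) - E)) := by
        rw [← mul_assoc, h8, one_mul]
    _ ≤ Real.exp (-(t / A)) * (entg J b (u 0) - E) :=
        mul_le_mul_of_nonneg_left h0 (Real.exp_pos _).le

/-- entropy decay for a nonnegative bounded density -/
lemma decay (hJ : ∀ i j, J i j = J j i) {K E A : ℝ} (hA : 0 < A) (hK0 : 0 ≤ K) (hE : 0 ≤ E)
    (hL : Lev J b K E A) {f : Cfg n → ℝ} (hf : ∀ x, 0 ≤ f x) (hK : ∀ x, f x ≤ Real.exp K)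
    (h1 : ex J b f = 1) {t : ℝ} (ht : 0 ≤ t) :
    ex J b (fun x => Pt J b t f x * Real.log (Pt J b t f x)) ≤ E + Real.exp (-(t / A)) * K := by
  have hP1 : ∀ s, ex J b (Pt J b s f) = 1 := fun s => by rw [ex_Pt b hJ, h1]
  have e1 : 1 ≤ Real.exp K := Real.one_le_exp hK0
  have key : ∀ ε : ℝ, 0 < ε → ε < 1 →
      entg J b (fun y => (1 - ε) * Pt J b t f y + ε) ≤ E + Real.exp (-(t / A)) * K := by
    intro ε h0 h2
    have hm : ∀ s, ex J b (fun y => (1 - ε) * Pt J b s f y + ε) = 1 := fun s => by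
      have h3 := Semi.ex_add (J := J) b (fun y => (1 - ε) * Pt J b s f y) (fun _ => ε)
      rw [Semi.ex_smul, hP1, Semi.ex_const] at h3
      rw [h3]; ring
    have hp : ∀ s, 0 ≤ s → ∀ y, 0 < (1 - ε) * Pt J b s f y + ε := fun s hs y => by
      have : 0 ≤ (1 - ε) * Pt J b s f y := mul_nonneg (by linarith only [h2]) (Pt_nonneg hs hf y)
      linarith only [this, h0]
    have hb : ∀ s, 0 ≤ s → ∀ y, (1 - ε) * Pt J b s f y + ε ≤ Real.exp K := fun s hs y => by
      have a1 := mul_le_mul_of_nonneg_left (Pt_le (J := J) (b := b) hs hK y)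
        (by linarith only [h2] : 0 ≤ 1 - ε)
      have a2 := mul_le_mul_of_nonneg_left e1 h0.le
      linarith only [a1, a2]
    have h4 := decay_pos hJ hA hL (fun s y => (1 - ε) * Pt J b s f y + ε) (fun s y => by
      have a2 := ((Pt_deriv' (J := J) b f s y).const_mul (1 - ε)).add_const ε
      have a3 : gen J b (fun y => (1 - ε) * Pt J b s f y + ε) y
          = (1 - ε) * gen J b (Pt J b s f) y := by
        rw [Semi.gen_add, Semi.gen_smul, Semi.gen_const, add_zero]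
      rw [a3]
      exact a2) hp hb hm t ht
    have h5 : entg J b (fun y => (1 - ε) * Pt J b 0 f y + ε) ≤ K := by
      rw [entg_eq (hm 0)]
      exact ent_le (fun y => (hp 0 le_rfl y).le) (hb 0 le_rfl) (hm 0)
    have h6 := mul_le_mul_of_nonneg_left
      (show entg J b (fun y => (1 - ε) * Pt J b 0 f y + ε) - E ≤ K by linarith only [h5, hE])
      (Real.exp_pos (-(t / A))).le
    linarith only [h4, h6]
  have l1 : Tendsto (fun ε : ℝ => entg J b (fun y => (1 - ε) * Pt J b t f y + ε))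
      (𝓝[>] 0) (𝓝 (entg J b (Pt J b t f))) := by
    have := ((continuous_entg_mix (J := J) b (Pt J b t f)).tendsto 0)
    simp only [sub_zero, one_mul, add_zero] at this
    exact this.mono_left nhdsWithin_le_nhds
  rw [← entg_eq (hP1 t)]
  refine le_of_tendsto l1 ?_
  filter_upwards [Ioo_mem_nhdsGT (one_pos : (0 : ℝ) < 1)] with ε hε
  exact key ε hε.1 hε.2

lemma exp_neg_three : Real.exp (-3) ≤ 1 / 16 := by
  have h5 : (16 : ℝ) ≤ Real.exp 3 := by
    have h6 := Real.exp_one_gt_d9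
    have h7 : Real.exp 3 = Real.exp 1 ^ 3 := by rw [← Real.exp_nat_mul]; norm_num
    rw [h7]
    calc (16 : ℝ) ≤ 2.7 ^ 3 := by norm_num
      _ ≤ Real.exp 1 ^ 3 := pow_le_pow_left₀ (by norm_num) (by linarith) 3
  rw [Real.exp_neg, one_div]
  exact inv_anti₀ (by norm_num) h5

/-- one run: half of the mass gets the bound `exp (K / 2)` -/
lemma split (hJ : ∀ i j, J i j = J j i) {K l A : ℝ} (hA : 0 < A) (hK : 30 ≤ K) (hl0 : 0 ≤ l)
    (hl : l ≤ K / 10) (hL : Lev J b (K + l) ((K + l) / 8) A) {w : Cfg n → ℝ} (hw : ∀ x, 0 ≤ w x)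
    (hwK : ∀ x, w x ≤ Real.exp K) (hm : Real.exp (-l) ≤ ex J b w) :
    ∃ g h : Cfg n → ℝ, (∀ x, Pt J b (3 * A) w x = g x + h x) ∧ (∀ x, 0 ≤ g x) ∧ (∀ x, 0 ≤ h x) ∧
      (∀ x, g x ≤ ex J b w * Real.exp (K / 2)) ∧ (∀ x, h x ≤ Real.exp K) ∧
      ex J b h ≤ ex J b w / 2 := by
  set θ := ex J b w with hθ
  have hθ0 : 0 < θ := (Real.exp_pos _).trans_le hm
  have ht : 0 ≤ 3 * A := by positivity
  set f : Cfg n → ℝ := fun x => θ⁻¹ * w x with hf
  have hf0 : ∀ x, 0 ≤ f x := fun x => mul_nonneg (inv_pos.2 hθ0).le (hw x)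
  have hf1 : ex J b f = 1 := by rw [hf, Semi.ex_smul, ← hθ, inv_mul_cancel₀ hθ0.ne']
  have hfK : ∀ x, f x ≤ Real.exp (K + l) := fun x => by
    have a1 : θ⁻¹ ≤ Real.exp l := by
      have := inv_anti₀ (Real.exp_pos _) hm
      rwa [← Real.exp_neg, neg_neg] at this
    rw [add_comm, Real.exp_add]
    exact mul_le_mul a1 (hwK x) (hw x) (Real.exp_pos _).le
  have hd := decay hJ hA (by linarith) (by linarith) hL hf0 hfK hf1 ht
  have e3 : 3 * A / A = 3 := by field_simp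
  rw [e3] at hd
  have hd2 := mul_le_mul_of_nonneg_right exp_neg_three (show 0 ≤ K + l by linarith)
  set p := Pt J b (3 * A) f with hp
  have hp0 : ∀ x, 0 ≤ p x := Pt_nonneg ht hf0
  have hwp : ∀ x, Pt J b (3 * A) w x = θ * p x := fun x => by
    rw [hp, hf, Pt_smul, ← mul_assoc, mul_inv_cancel₀ hθ0.ne', one_mul]
  have hM : 0 < K / 2 := by linarith
  refine ⟨fun x => θ * min (p x) (Real.exp (K / 2)),
    fun x => θ * (p x - min (p x) (Real.exp (K / 2))), fun x => by rw [hwp]; ring,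
    fun x => mul_nonneg hθ0.le (le_min (hp0 x) (Real.exp_pos _).le),
    fun x => mul_nonneg hθ0.le (sub_nonneg.2 (min_le_left _ _)),
    fun x => mul_le_mul_of_nonneg_left (min_le_right _ _) hθ0.le, fun x => ?_, ?_⟩
  · have a1 := Pt_le (J := J) (b := b) ht hwK x
    rw [hwp] at a1
    have a2 := mul_nonneg hθ0.le (le_min (hp0 x) (Real.exp_pos (K / 2)).le)
    linarith only [a1, a2]
  · rw [Semi.ex_smul]
    have h1 : ex J b (fun y => p y - min (p y) (Real.exp (K / 2)))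
        ≤ ex J b (fun y => (1 / (K / 2)) * (p y * Real.log (p y) + 1)) :=
      Semi.ex_mono b fun y => by
        have := D8M.sub_min_le (hp0 y) hM
        rw [one_div, inv_mul_eq_div]
        exact this
    rw [Semi.ex_smul, Semi.ex_add, Semi.ex_const] at h1
    have h2 : 1 / (K / 2) * (ex J b (fun y => p y * Real.log (p y)) + 1) ≤ 1 / 2 := by
      rw [one_div, inv_mul_le_iff₀ hM]
      linarith only [hd, hd2, hK, hl]
    have h3 := mul_le_mul_of_nonneg_left (h1.trans h2) hθ0.le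
    linarith only [h3]

/-- reruns of the remainder -/
lemma rerun (hJ : ∀ i j, J i j = J j i) {K l A : ℝ} (hA : 0 < A) (hK : 30 ≤ K) (hl0 : 0 ≤ l)
    (hl : l ≤ K / 10) (hL : Lev J b (K + l) ((K + l) / 8) A) (r : ℕ) :
    ∀ (θ : ℝ) (w : Cfg n → ℝ), (∀ x, 0 ≤ w x) → (∀ x, w x ≤ Real.exp K) → ex J b w ≤ θ →
    ∃ g h : Cfg n → ℝ, (∀ x, Pt J b (r * (3 * A)) w x = g x + h x) ∧ (∀ x, 0 ≤ g x) ∧
      (∀ x, 0 ≤ h x) ∧ (∀ x, g x ≤ 2 * θ * Real.exp (K / 2)) ∧
      ex J b h ≤ max (Real.exp (-l)) (θ / 2 ^ r) := by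
  induction r with
  | zero =>
    intro θ w hw _ hm
    have h0 : 0 ≤ θ := (Semi.ex_nonneg b hw).trans hm
    refine ⟨fun _ => 0, w, fun x => by simp [Semi.Pt_zero], fun _ => le_rfl, hw,
      fun _ => by positivity, ?_⟩
    simpa using Or.inr hm
  | succ r ih =>
    intro θ w hw hwK hm
    have h0 : 0 ≤ θ := (Semi.ex_nonneg b hw).trans hm
    have ht : 0 ≤ (r : ℝ) * (3 * A) := by positivity
    rcases le_total (ex J b w) (Real.exp (-l)) with h | h
    · refine ⟨fun _ => 0, Pt J b ((r + 1 : ℕ) * (3 * A)) w, fun x => by simp, fun _ => le_rfl,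
        Pt_nonneg (by positivity) hw, fun _ => by positivity, ?_⟩
      rw [ex_Pt b hJ]
      exact h.trans (le_max_left _ _)
    · obtain ⟨g, k, e, g0, k0, g1, k1, k2⟩ := split hJ hA hK hl0 hl hL hw hwK h
      obtain ⟨g', k', e', g0', k0', g1', k2'⟩ := ih (θ / 2) k k0 k1 (by linarith only [k2, hm])
      refine ⟨fun x => Pt J b (r * (3 * A)) g x + g' x, k', fun x => ?_,
        fun x => add_nonneg (Pt_nonneg ht g0 x) (g0' x), k0', fun x => ?_, ?_⟩
      · have e1 : ((r + 1 : ℕ) : ℝ) * (3 * A) = r * (3 * A) + 3 * A := by push_cast; ring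
        rw [e1, Pt_Pt, show Pt J b (3 * A) w = fun x => g x + k x from funext e, Pt_add, e']
        ring
      · have a1 := Pt_le (J := J) (b := b) ht g1 x
        have a2 := mul_le_mul_of_nonneg_right hm (Real.exp_pos (K / 2)).le
        have a3 := g1' x
        linarith only [a1, a2, a3]
      · rw [pow_succ', ← div_div]
        exact k2'

/-- the levels -/
lemma levels (hJ : ∀ i j, J i j = J j i) {K0 A : ℝ} (hA : 0 < A) (hK : 30 ≤ K0) (r : ℕ)
    (hr : (r : ℝ) ≤ K0 / 10) (hL : ∀ K, K0 ≤ K → Lev J b K (K / 8) A) (j : ℕ) :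
    ∀ w : Cfg n → ℝ, (∀ x, 0 ≤ w x) → (∀ x, w x ≤ Real.exp (2 ^ j * (K0 - 2) + 2)) →
    ex J b w ≤ 1 →
    ∃ g h : Cfg n → ℝ, (∀ x, Pt J b (j * (r * (3 * A))) w x = g x + h x) ∧ (∀ x, 0 ≤ g x) ∧
      (∀ x, 0 ≤ h x) ∧ (∀ x, g x ≤ Real.exp K0) ∧ ex J b h ≤ j / 2 ^ r := by
  induction j with
  | zero =>
    intro w hw hwK _
    refine ⟨w, fun _ => 0, fun x => by simp [Semi.Pt_zero], hw, fun _ => le_rfl,
      fun x => by simpa using hwK x, ?_⟩
    rw [Semi.ex_const]; simp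
  | succ j ih =>
    intro w hw hwK hm
    have h2 : (1 : ℝ) ≤ 2 ^ j := one_le_pow₀ (by norm_num)
    have h3 : K0 - 2 ≤ 2 ^ j * (K0 - 2) := le_mul_of_one_le_left (by linarith) h2
    set K : ℝ := 2 ^ (j + 1) * (K0 - 2) + 2 with hKd
    have hK2 : K = 2 * (2 ^ j * (K0 - 2)) + 2 := by rw [hKd]; ring
    have hl2 := Real.log_two_lt_d9
    have hl0 : 0 ≤ r * Real.log 2 := by have := Real.log_two_gt_d9; positivity
    have hl1 : r * Real.log 2 ≤ r := mul_le_of_le_one_right (Nat.cast_nonneg r) (by linarith)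
    obtain ⟨g, k, e, g0, k0, g1, k1⟩ := rerun hJ hA (K := K) (l := r * Real.log 2)
      (by linarith) hl0 (by linarith) (hL _ (by linarith)) r 1 w hw hwK hm
    have ht : 0 ≤ (r : ℝ) * (3 * A) := by positivity
    have hk : ex J b k ≤ 1 / 2 ^ r := by
      refine k1.trans (max_le (le_of_eq ?_) le_rfl)
      rw [Real.exp_neg, Real.exp_nat_mul, Real.exp_log two_pos, one_div]
    have hg : ex J b g ≤ 1 := by
      have a1 : ex J b g ≤ ex J b (Pt J b (r * (3 * A)) w) :=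
        Semi.ex_mono b fun x => by rw [e]; linarith only [k0 x]
      rw [ex_Pt b hJ] at a1
      exact a1.trans hm
    obtain ⟨g', k', e', g0', k0', g1', k1'⟩ := ih g g0 (fun x => by
      refine (g1 x).trans ?_
      have a1 : 2 ^ j * (K0 - 2) + 2 = 1 + K / 2 := by rw [hK2]; ring
      rw [a1, Real.exp_add]
      refine mul_le_mul_of_nonneg_right ?_ (Real.exp_pos _).le
      linarith [Real.add_one_le_exp (1 : ℝ)]) hg
    have ht' : 0 ≤ (j : ℝ) * (r * (3 * A)) := by positivity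
    refine ⟨g', fun x => k' x + Pt J b (j * (r * (3 * A))) k x, fun x => ?_, g0',
      fun x => add_nonneg (k0' x) (Pt_nonneg ht' k0 x), g1', ?_⟩
    · have e1 : ((j + 1 : ℕ) : ℝ) * (r * (3 * A)) = j * (r * (3 * A)) + r * (3 * A) := by
        push_cast; ring
      rw [e1, Pt_Pt, show Pt J b (r * (3 * A)) w = fun x => g x + k x from funext e, Pt_add, e']
      ring
    · rw [Semi.ex_add, ex_Pt b hJ]
      push_cast
      rw [add_div]
      linarith only [k1', hk]

end A2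

open A2

/-- **A2**, explicit form. -/
theorem tv_of_levels {n : ℕ} {J : Fin n → Fin n → ℝ} {b : Fin n → ℝ} (hJ : ∀ i j, J i j = J j i)
    {K0 A B : ℝ} (hA : 0 < A) (hK : 30 ≤ K0) (j : ℕ) (hj : (j : ℝ) + 3 ≤ K0 / 10)
    (hB : B ≤ 2 ^ j) (hmin : ∀ x, -Real.log (gibbs J b x) ≤ B)
    (hL : ∀ K, K0 ≤ K → Lev J b K (K / 8) A) (hl : Lev J b (K0 + 1) (1 / 100) A)
    {t : ℝ} (ht : A * (3 * j * (j + 3) + Real.log (200 * (K0 + 1))) ≤ t) (x : Cfg n) :
    tvDist J b t x ≤ 1 / 4 := by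
  have hw0 : ∀ y, 0 ≤ dens J b x 0 y := fun y => dens_nonneg b x le_rfl y
  have hwK : ∀ y, dens J b x 0 y ≤ Real.exp (2 ^ j * (K0 - 2) + 2) := fun y => by
    rw [dens_zero]
    split_ifs
    · have a1 : (gibbs J b y)⁻¹ = Real.exp (-Real.log (gibbs J b y)) := by
        rw [Real.exp_neg, Real.exp_log (gibbs_pos J b y)]
      rw [a1]
      refine Real.exp_le_exp.2 ((hmin y).trans (hB.trans ?_))
      have a2 : (2 : ℝ) ^ j * 1 ≤ 2 ^ j * (K0 - 2) :=
        mul_le_mul_of_nonneg_left (by linarith) (by positivity)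
      linarith
    · exact (Real.exp_pos _).le
  obtain ⟨g, h, e, g0, h0, g1, h1⟩ := levels hJ hA hK (j + 3) (by push_cast; exact hj) hL j
    (dens J b x 0) hw0 hwK (ex_dens b x 0).le
  set t1 : ℝ := j * (((j + 3 : ℕ) : ℝ) * (3 * A)) with ht1
  have ht10 : 0 ≤ t1 := by positivity
  have hh : ex J b h ≤ 1 / 8 := by
    refine h1.trans ?_
    rw [div_le_iff₀ (by positivity), pow_add]
    have a1 : (j : ℝ) ≤ 2 ^ j := by exact_mod_cast (Nat.lt_two_pow_self (n := j)).le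
    linarith
  have hh0 := Semi.ex_nonneg (J := J) b h0
  set θ := ex J b g with hθ
  have hθ1 : θ + ex J b h = 1 := by
    rw [hθ, ← Semi.ex_add, ← show Pt J b t1 (dens J b x 0) = fun y => g y + h y from funext e,
      ex_Pt b hJ, ex_dens]
  have hθ0 : 0 < θ := by linarith
  set f : Cfg n → ℝ := fun y => θ⁻¹ * g y with hf
  have hf0 : ∀ y, 0 ≤ f y := fun y => mul_nonneg (inv_pos.2 hθ0).le (g0 y)
  have hf1 : ex J b f = 1 := by rw [hf, Semi.ex_smul, ← hθ, inv_mul_cancel₀ hθ0.ne']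
  have hfK : ∀ y, f y ≤ Real.exp (K0 + 1) := fun y => by
    have a1 : θ⁻¹ ≤ Real.exp 1 := by
      rw [inv_le_comm₀ hθ0 (Real.exp_pos _)]
      have a2 : (Real.exp 1)⁻¹ ≤ 2⁻¹ :=
        inv_anti₀ two_pos (by linarith [Real.add_one_le_exp (1 : ℝ)])
      linarith
    rw [add_comm, Real.exp_add]
    exact mul_le_mul a1 (g1 y) (g0 y) (Real.exp_pos _).le
  set s := t - t1 with hs
  have hpos : 0 < 200 * (K0 + 1) := by linarith
  have hlog : 0 ≤ Real.log (200 * (K0 + 1)) := Real.log_nonneg (by linarith)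
  have hsA : A * Real.log (200 * (K0 + 1)) ≤ s := by
    have : t1 = A * (3 * j * (j + 3)) := by rw [ht1]; push_cast; ring
    rw [hs, this]; linarith
  have hs0 : 0 ≤ s := (mul_nonneg hA.le hlog).trans hsA
  have hd := decay hJ hA (by linarith) (by norm_num) hl hf0 hfK hf1 hs0
  have hd1 : Real.exp (-(s / A)) * (K0 + 1) ≤ 1 / 200 := by
    have a1 : Real.exp (-(s / A)) ≤ (200 * (K0 + 1))⁻¹ := by
      rw [← Real.exp_log hpos, ← Real.exp_neg]
      refine Real.exp_le_exp.2 (neg_le_neg ?_)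
      rw [le_div_iff₀ hA]; linarith
    have a2 := mul_le_mul_of_nonneg_right a1 (show 0 ≤ K0 + 1 by linarith)
    have a3 : (200 * (K0 + 1))⁻¹ * (K0 + 1) = 1 / 200 := by
      have : K0 + 1 ≠ 0 := by linarith
      field_simp
    linarith
  have hp := pinsker (J := J) b (Pt J b s f) (Pt_nonneg hs0 hf0) (by rw [ex_Pt b hJ, hf1])
  have hp1 : ex J b (fun y => |Pt J b s f y - 1|) ≤ 1 / 4 :=
    (abs_le_of_sq_le_sq' (hp.trans (by linarith)) (by norm_num : (0 : ℝ) ≤ 1 / 4)).2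
  have hdens : ∀ y, dens J b x t y - 1
      = θ * (Pt J b s f y - 1) + Pt J b s h y - ex J b h := fun y => by
    have a1 := D8M.dens_add b hJ x 0 t y
    rw [zero_add] at a1
    have a2 : t = s + t1 := by rw [hs]; ring
    have a3 : θ * Pt J b s f y = Pt J b s g y := by
      rw [hf, Pt_smul, ← mul_assoc, mul_inv_cancel₀ hθ0.ne', one_mul]
    rw [a1, a2, Pt_Pt, show Pt J b t1 (dens J b x 0) = fun y => g y + h y from funext e, Pt_add]
    linarith only [a3, hθ1]
  have hb : ex J b (fun y => |dens J b x t y - 1|)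
      ≤ ex J b (fun y => (1 * |Pt J b s f y - 1| + Pt J b s h y) + ex J b h) :=
    Semi.ex_mono b fun y => by
      rw [hdens y]
      have a1 := Pt_nonneg (J := J) (b := b) hs0 h0 y
      have a2 : |θ * (Pt J b s f y - 1)| ≤ 1 * |Pt J b s f y - 1| := by
        rw [abs_mul, abs_of_pos hθ0]
        exact mul_le_mul_of_nonneg_right (by linarith) (abs_nonneg _)
      have a3 := abs_le.1 a2
      rw [abs_le]
      constructor <;> linarith only [a1, a3.1, a3.2, hh0]
  rw [Semi.ex_add, Semi.ex_add, Semi.ex_const, Semi.ex_smul, ex_Pt b hJ] at hb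
  have htv : 2 * tvDist J b t x = ex J b (fun y => |dens J b x t y - 1|) := by
    rw [tvDist_eq]
    unfold ex
    ring
  linarith only [hb, htv, hp1, hh]

lemma Lev.mono {n : ℕ} {J : Fin n → Fin n → ℝ} {b : Fin n → ℝ} (hJ : ∀ i j, J i j = J j i)
    {K E A K' E' A' : ℝ} (h : Lev J b K E A) (hK : K' ≤ K) (hE : E ≤ E') (hA : A ≤ A') :
    Lev J b K' E' A' := fun f f0 f1 f2 =>
  (h f f0 (fun x => (f1 x).trans (Real.exp_le_exp.2 hK)) f2).trans
    (add_le_add hE (mul_le_mul_of_nonneg_right hA (D8M.dir_log_nonneg b hJ f0)))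

/-- (LEV): the defective entropy inequality on all levels above `a log n`. -/
def LevW : Prop := ∀ ε : ℝ, 0 < ε → ∃ a : ℝ, WHP (fun n => {g | ∀ K, a * Real.log n ≤ K →
  Lev (skJ 1 g) (fun _ => 0) K (K / 8) ((n : ℝ) ^ (2 / 3 + ε))})

/-- (LAST): the defective entropy inequality for polynomially bounded densities. -/
def LastW : Prop := ∀ ε : ℝ, 0 < ε → ∀ a : ℝ, WHP (fun n => {g |
  Lev (skJ 1 g) (fun _ => 0) (a * Real.log n) (1 / 100) ((n : ℝ) ^ (2 / 3 + ε))})

lemma whp_min : WHP (fun n => {g | ∀ x,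
    -Real.log (gibbs (skJ 1 g) (fun _ => 0) x) ≤ 4 * n}) := by
  have key : ∀ᶠ i in whpF, ∀ x, -Real.log (gibbs (skJ 1 i.2) (fun _ => 0) x) ≤ 4 * i.1 := by
    filter_upwards [G0_op 1 one_pos] with i h x
    rw [skJ_eq, d8Bridge.gibbs_eq _ _ _ (skM_symm i.2) (skM_self i.2)]
    exact d8Bridge.log_le _ _ _ (skM_symm i.2) (by norm_num at h; exact h) zero_le_one le_rfl x
  exact key

lemma ev_sq_log {c ε : ℝ} (hc : 0 < c) (hε : 0 < ε) :
    ∀ᶠ n : ℕ in atTop, c * Real.log n ^ 2 ≤ (n : ℝ) ^ ε := by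
  have h := (isLittleO_log_rpow_rpow_atTop 2 hε).bound (inv_pos.2 hc)
  filter_upwards [tendsto_natCast_atTop_atTop.eventually h] with n hn
  rw [Real.rpow_two, Real.norm_of_nonneg (by positivity), Real.norm_of_nonneg (by positivity),
    le_inv_mul_iff₀ hc] at hn
  exact hn

/-- **A2**: the critical upper bound from the two level statements. -/
theorem crit_upper (h1 : LevW) (h2 : LastW) {ε : ℝ} (hε : 0 < ε) :
    WHP (fun n => {g | tmix (skJ 1 g) (fun _ => 0) ≤ (n : ℝ) ^ (2 / 3 + ε) ∧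
      (n : ℝ) ^ (-(2 / 3 + ε)) ≤ gap (skJ 1 g) (fun _ => 0) ∧
      ∀ t, (n : ℝ) ^ (2 / 3 + ε) ≤ t → ∀ x, tvDist (skJ 1 g) (fun _ => 0) t x ≤ 1 / 4}) := by
  obtain ⟨a0, ha0⟩ := h1 (ε / 2) (by linarith)
  set a := max a0 30 with ha
  have ha30 : 30 ≤ a := le_max_right _ _
  refine MainThm.whp_mono (MainThm.whp_inter (MainThm.whp_inter ha0
    (h2 (ε / 2) (by linarith) (a + 1))) whp_min) ?_
  filter_upwards [eventually_ge_atTop 81,
    ev_sq_log (c := 2 * (27 + 200 * (a + 1))) (by linarith) (half_pos hε)] with n hn hlog g hg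
  obtain ⟨⟨hL, hl⟩, hmin⟩ := hg
  have hJ : ∀ i j, skJ 1 g i j = skJ 1 g j i := fun a b => by simp only [skJ, gsym_comm]
  have hn0 : (0 : ℝ) < n := by exact_mod_cast (by omega : 0 < n)
  set L := Real.log n with hLd
  have hL4 : 4 ≤ L := by
    rw [hLd, Real.le_log_iff_exp_le hn0]
    have e : Real.exp 4 = Real.exp 1 ^ 4 := by rw [← Real.exp_nat_mul]; norm_num
    have e2 : Real.exp 1 ^ 4 ≤ 3 ^ 4 :=
      pow_le_pow_left₀ (Real.exp_pos _).le Real.exp_one_lt_three.le 4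
    have e3 : (81 : ℝ) ≤ n := by exact_mod_cast hn
    linarith
  set j := Nat.log 2 n + 3 with hj
  have hj1 : (4 : ℝ) * n ≤ 2 ^ j := by
    have e := Nat.lt_pow_succ_log_self (b := 2) one_lt_two n
    have e2 : 4 * n ≤ 2 ^ j := by rw [hj, pow_add]; rw [pow_succ] at e; omega
    exact_mod_cast e2
  have hj2 : (j : ℝ) + 3 ≤ 3 * L := by
    have e : ((2 ^ Nat.log 2 n : ℕ) : ℝ) ≤ n := by
      exact_mod_cast Nat.pow_log_le_self 2 (by omega)
    have e2 := Real.log_le_log (by positivity) e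
    rw [Nat.cast_pow, Real.log_pow, Nat.cast_ofNat] at e2
    have e3 := mul_le_mul_of_nonneg_left Real.log_two_gt_d9.le (Nat.cast_nonneg (Nat.log 2 n))
    rw [hj]; push_cast
    linarith
  set A := (n : ℝ) ^ (2 / 3 + ε / 2) with hA
  have hA0 : 0 < A := Real.rpow_pos_of_pos hn0 _
  have haL : 30 * L ≤ a * L := mul_le_mul_of_nonneg_right ha30 (by linarith)
  have hT : A * (3 * j * (j + 3) + Real.log (200 * (a * L + 1))) ≤ (n : ℝ) ^ (2 / 3 + ε) / 2 := by
    have e1 : (n : ℝ) ^ (2 / 3 + ε) = A * (n : ℝ) ^ (ε / 2) := by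
      rw [hA, ← Real.rpow_add hn0]; congr 1; ring
    rw [e1, mul_div_assoc]
    refine mul_le_mul_of_nonneg_left ?_ hA0.le
    have e2 := Real.log_le_self (show 0 ≤ 200 * (a * L + 1) by linarith)
    have j0 : (0 : ℝ) ≤ j := Nat.cast_nonneg j
    have e3 : (j : ℝ) * (j + 3) ≤ (3 * L) * (3 * L) :=
      mul_le_mul (by linarith) hj2 (by linarith) (by linarith)
    have e4 : a * L * 1 ≤ a * L * L := mul_le_mul_of_nonneg_left (by linarith) (by linarith)
    nlinarith
  have key : ∀ t, (n : ℝ) ^ (2 / 3 + ε) / 2 ≤ t → ∀ x,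
      tvDist (skJ 1 g) (fun _ => 0) t x ≤ 1 / 4 := fun t ht x =>
    tv_of_levels hJ hA0 (K0 := a * L) (by linarith) j (by linarith) hj1 hmin
      (fun K hK => hL K ((mul_le_mul_of_nonneg_right (le_max_left _ _) (by linarith)).trans hK))
      (Lev.mono hJ hl (by linarith) le_rfl le_rfl) (hT.trans ht) x
  have hp : 0 < (n : ℝ) ^ (2 / 3 + ε) := Real.rpow_pos_of_pos hn0 _
  have hmix : tmix (skJ 1 g) (fun _ => 0) ≤ (n : ℝ) ^ (2 / 3 + ε) / 2 :=
    csInf_le ⟨0, fun t ht => ht.1⟩ ⟨by positivity, key _ le_rfl⟩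
  refine ⟨by linarith, ?_, fun t ht => key t (by linarith)⟩
  have e1 := log_two_le (by omega) hJ (fun _ => 0)
  have e2 := mul_le_mul_of_nonneg_left hmix (gap_pos (by omega) hJ (fun _ => 0)).le
  rw [Real.rpow_neg hn0.le, inv_le_iff_one_le_mul₀ hp]
  linarith [Real.log_two_gt_d9]

end Vale.Agent.N150
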