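import Vale.Agent.P150W51.Disc
import Vale.Agent.P150.Bdl.B39

set_option linter.all false

/-! P150 at the critical point: from the upper bound on the mixing time to the final statement. -/

open MeasureTheory ProbabilityTheory Filter Topology

namespace Vale.Agent.N150

open Vale.Agent.P150 Vale.Agent.P150W

/-- the target of the critical upper bound -/
def UpStmt : Prop := ∀ ε : ℝ, 0 < ε →
  WHP (fun n => {g | tmix (skJ 1 g) (fun _ => 0) ≤ (n : ℝ) ^ (2 / 3 + ε)})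

/-- the same in filter form -/
theorem upStmt_of (h : ∀ ε : ℝ, 0 < ε →
    ∀ᶠ i in F.whpF, tmix (skJ 1 i.2) (fun _ => 0) ≤ (i.1 : ℝ) ^ (2 / 3 + ε)) : UpStmt :=
  fun ε hε => h ε hε

/-- a constant and a power of the logarithm in front are harmless -/
theorem upStmt_of_log (h : ∀ ε : ℝ, 0 < ε → ∃ (C : ℝ) (k : ℕ),
    ∀ᶠ i in F.whpF, tmix (skJ 1 i.2) (fun _ => 0)
      ≤ C * Real.log i.1 ^ k * (i.1 : ℝ) ^ (2 / 3 + ε)) : UpStmt := by
  refine upStmt_of fun ε hε => ?_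
  obtain ⟨C, k, h1⟩ := h (ε / 2) (half_pos hε)
  have h2 : ∀ᶠ n : ℕ in atTop, C * Real.log n ^ k ≤ (n : ℝ) ^ (ε / 2) := by
    have h3 := (isLittleO_log_rpow_rpow_atTop (k : ℝ) (half_pos hε)).const_mul_left C
    have h4 := (h3.comp_tendsto tendsto_natCast_atTop_atTop).bound one_pos
    filter_upwards [h4] with n hn
    simp only [Function.comp, Real.norm_eq_abs, one_mul, Real.rpow_natCast] at hn
    refine (le_abs_self _).trans (hn.trans (le_of_eq ?_))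
    exact abs_of_nonneg (Real.rpow_nonneg (Nat.cast_nonneg _) _)
  filter_upwards [h1, F.eventually_whpF_nat h2, F.eventually_whpF_nat (eventually_gt_atTop 0)]
    with i a1 a2 a3
  have hn : (0 : ℝ) < i.1 := by exact_mod_cast a3
  refine a1.trans ?_
  have e : (i.1 : ℝ) ^ (2 / 3 + ε) = (i.1 : ℝ) ^ (ε / 2) * (i.1 : ℝ) ^ (2 / 3 + ε / 2) := by
    rw [← Real.rpow_add hn]
    congr 1
    ring
  rw [e]
  exact mul_le_mul_of_nonneg_right a2 (Real.rpow_nonneg hn.le _)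

/-- mixing time and gap at the critical point, matrix forms -/
theorem up_gap (h : UpStmt) (ε : ℝ) (hε : 0 < ε) : WHP (fun n => {g |
    (n : ℝ) ^ (-(2 / 3 + ε)) ≤ gap (skJ 1 g) (fun _ => 0) ∧
    tmix (skJ 1 g) (fun _ => 0) ≤ (n : ℝ) ^ (2 / 3 + ε)}) := by
  refine MainThm.whp_mono (h (ε / 2) (half_pos hε)) ?_
  have h2 : ∀ᶠ n : ℕ in atTop, 2 ≤ (n : ℝ) ^ (ε / 2) :=
    ((tendsto_rpow_atTop (half_pos hε)).comp tendsto_natCast_atTop_atTop).eventually_ge_atTop 2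
  filter_upwards [h2, eventually_gt_atTop 0] with n h2 hn0 g hg
  have hn : (0 : ℝ) < n := by exact_mod_cast hn0
  have hs : ∀ a b, skJ 1 g a b = skJ 1 g b a := fun a b => by simp only [skJ, gsym_comm]
  have h3 := log_two_le hn0 hs (fun _ => 0)
  have h4 := gap_pos hn0 hs (fun _ => 0)
  have hg' : tmix (skJ 1 g) (fun _ => 0) ≤ (n : ℝ) ^ (2 / 3 + ε / 2) := hg
  have e : (n : ℝ) ^ (2 / 3 + ε) = (n : ℝ) ^ (ε / 2) * (n : ℝ) ^ (2 / 3 + ε / 2) := by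
    rw [← Real.rpow_add hn]
    congr 1
    ring
  have h5 : 0 < (n : ℝ) ^ (2 / 3 + ε / 2) := Real.rpow_pos_of_pos hn _
  have h6 : 2 * (n : ℝ) ^ (2 / 3 + ε / 2) ≤ (n : ℝ) ^ (2 / 3 + ε) := by
    rw [e]
    exact mul_le_mul_of_nonneg_right h2 h5.le
  refine ⟨?_, by linarith only [hg', h6, h5]⟩
  rw [Real.rpow_neg hn.le, inv_le_comm₀ (Real.rpow_pos_of_pos hn _) h4, inv_eq_one_div,
    div_le_iff₀ h4]
  have h7 := mul_le_mul_of_nonneg_left hg' h4.le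
  have h8 := mul_le_mul_of_nonneg_left h6 h4.le
  have h9 := Real.log_two_gt_d9
  linarith only [h3, h7, h8, h9]

/-- item (3) of the final statement, for the dynamics run by Poisson clocks -/
theorem crit_of (h : UpStmt)
    (h3 : ∃ C : ℝ, 0 < C ∧ ∀ ε : ℝ, 0 < ε → WHP (fun n => {g |
      Real.exp (-(ε * n)) ≤ gapL (skJ 1 g) (fun _ => 0) ∧
      gapL (skJ 1 g) (fun _ => 0) ≤ C * Real.log n ^ 4 * (n : ℝ) ^ (-(2 / 3 : ℝ)) ∧
      Real.log 2 / (C * Real.log n ^ 4) * (n : ℝ) ^ (2 / 3 : ℝ) ≤ mix (skJ 1 g) (fun _ => 0) ∧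
      mix (skJ 1 g) (fun _ => 0) ≤ Real.exp (ε * n)})) :
    ∃ C : ℝ, 0 < C ∧ ∀ ε : ℝ, 0 < ε → WHP (fun n => {g |
      (n : ℝ) ^ (-(2 / 3 + ε)) ≤ gapL (skJ 1 g) (fun _ => 0) ∧
      gapL (skJ 1 g) (fun _ => 0) ≤ C * Real.log n ^ 4 * (n : ℝ) ^ (-(2 / 3 : ℝ)) ∧
      Real.log 2 / (C * Real.log n ^ 4) * (n : ℝ) ^ (2 / 3 : ℝ) ≤ mix (skJ 1 g) (fun _ => 0) ∧
      mix (skJ 1 g) (fun _ => 0) ≤ (n : ℝ) ^ (2 / 3 + ε)}) := by
  obtain ⟨C, hC, h4⟩ := h3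
  refine ⟨C, hC, fun ε hε => MainThm.whp_mono (MainThm.whp_inter (h4 ε hε) (up_gap h ε hε)) ?_⟩
  filter_upwards [eventually_gt_atTop 0] with n hn g hg
  obtain ⟨⟨-, a2, a3, -⟩, b1, b2⟩ := hg
  have hs : ∀ a b, skJ 1 g a b = skJ 1 g b a := fun a b => by simp only [skJ, gsym_comm]
  refine ⟨?_, a2, a3, ?_⟩
  · rw [gapL_eq hs hn]
    exact b1
  · rw [mix_eq]
    exact b2

end Vale.Agent.N150
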