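import Vale.Agent.N150.Top2

set_option linter.all false

/-! P150 at the critical point: the defective entropy inequality at macroscopic levels. -/

open MeasureTheory ProbabilityTheory Filter Topology Real
open scoped Matrix

namespace Vale.Agent.N150

open Vale.Agent.P150 Vale.Agent.P150.F

/-- the critical SK measure in the two languages -/
theorem gibbs_one {n : ℕ} (g : Pairs n → ℝ) :
    gibbs (skJ 1 g) (fun _ => 0) = gM ((1 : ℝ) • skM g) 0 := by
  rw [skJ_eq]
  exact d8Bridge.gibbs_eq n (skM g) 1 (skM_symm g) (skM_self g)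

theorem skJ_symm' {n : ℕ} (β : ℝ) (g : Pairs n → ℝ) (a b : Fin n) : skJ β g a b = skJ β g b a := by
  simp only [skJ, gsym_comm]

/-- with high probability every configuration has mass at least `exp (-4 n)` -/
theorem log_le_one : ∀ᶠ i in whpF, ∀ x, -Real.log (gM ((1 : ℝ) • skM i.2) 0 x) ≤ 4 * i.1 := by
  filter_upwards [G0_op 1 one_pos] with i hop
  have hop3 : OpLe (skM i.2) 3 := by norm_num at hop; exact hop
  exact d8Bridge.log_le i.1 (skM i.2) 1 (skM_symm i.2) hop3 zero_le_one le_rfl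

/-- (Top) in the form `KL ≤ e n + A EP`, for laws -/
theorem levTop_law (e : ℝ) (he : 0 < e) : ∃ A > (0 : ℝ), ∀ᶠ i in whpF,
    ∀ ν : Cfg i.1 → ℝ, IsProb ν → (∀ x, 0 < ν x) →
      KL ν (gM ((1 : ℝ) • skM i.2) 0) ≤ e * i.1 + A * EP ν (gM ((1 : ℝ) • skM i.2) 0) := by
  obtain ⟨η, hη, h⟩ := top_one e he
  refine ⟨2 / η, by positivity, ?_⟩
  filter_upwards [h, log_le_one] with i hi hl ν hν hp
  set μ := gM ((1 : ℝ) • skM i.2) 0 with hμdef
  have hμ : ∀ x, 0 < μ x := gM_pos _ _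
  have hn : (0 : ℝ) ≤ i.1 := Nat.cast_nonneg _
  have h1 : IP' ν μ ≤ 1 / 2 * EP ν μ := D8T.IP_le_prod hμ ν hp
  have h0 : 0 ≤ IP' ν μ := D8T.DirW_sq_nonneg hμ _
  have hE : 0 ≤ EP ν μ := by linarith only [h0, h1]
  have hA : 0 ≤ 2 / η * EP ν μ := mul_nonneg (by positivity) hE
  by_cases hc : IP' ν μ ≤ η * i.1
  · have := hi ν hν hp hc
    linarith only [this, hA]
  · push Not at hc
    have h2 := D8T.KL_le_log hμ hν hl
    have h3 : η * i.1 ≤ 1 / 2 * EP ν μ := by linarith only [hc, h1]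
    have h4 : 4 * (i.1 : ℝ) ≤ 4 * (2 / η * EP ν μ) / 4 * 1 := by
      have h5 : (i.1 : ℝ) = η * i.1 / η := by field_simp
      have h6 : η * i.1 / η ≤ 1 / 2 * EP ν μ / η := div_le_div_of_nonneg_right h3 hη.le
      have h7 : 1 / 2 * EP ν μ / η = 2 / η * EP ν μ / 4 := by field_simp; ring
      linarith only [h5, h6, h7]
    have h8 : 0 ≤ e * i.1 := mul_nonneg he.le hn
    linarith only [h2, h4, h8]

/-- entropy of a density in the two languages -/
theorem KL_dens {n : ℕ} (g : Pairs n → ℝ) (f : Cfg n → ℝ) :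
    KL (fun x => gM ((1 : ℝ) • skM g) 0 x * f x) (gM ((1 : ℝ) • skM g) 0)
      = ex (skJ 1 g) (fun _ => 0) (fun x => f x * Real.log (f x)) := by
  unfold KL ex
  rw [gibbs_one]
  refine Finset.sum_congr rfl fun x _ => ?_
  have := (gM_pos ((1 : ℝ) • skM g) 0 x).ne'
  rw [mul_div_cancel_left₀ _ this]
  ring

/-- entropy production of a density in the two languages -/
theorem EP_dens {n : ℕ} (g : Pairs n → ℝ) (f : Cfg n → ℝ) :
    EP (fun x => gM ((1 : ℝ) • skM g) 0 x * f x) (gM ((1 : ℝ) • skM g) 0)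
      = dir (skJ 1 g) (fun _ => 0) f (fun x => Real.log (f x)) := by
  rw [d8Bridge.dir_eq n _ _ (skJ_symm' 1 g), gibbs_one]
  unfold EP
  have e1 : ∀ x, gM ((1 : ℝ) • skM g) 0 x * f x / gM ((1 : ℝ) • skM g) 0 x = f x := fun x =>
    mul_div_cancel_left₀ _ (gM_pos ((1 : ℝ) • skM g) 0 x).ne'
  simp only [e1]

theorem isProb_dens {n : ℕ} (g : Pairs n → ℝ) {f : Cfg n → ℝ} (hf : ∀ x, 0 < f x)
    (hf1 : ex (skJ 1 g) (fun _ => 0) f = 1) :
    IsProb (fun x => gM ((1 : ℝ) • skM g) 0 x * f x) := by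
  refine ⟨fun x => (mul_pos (gM_pos _ _ x) (hf x)).le, ?_⟩
  unfold ex at hf1
  rw [gibbs_one] at hf1
  exact hf1

/-- **(Top) as LEV at macroscopic levels**: for every `e > 0` there is `A` such that with high
probability `Ent f ≤ e n + A E(f, log f)` for all positive densities `f` -/
theorem levTop (e : ℝ) (he : 0 < e) : ∃ A > (0 : ℝ), ∀ᶠ i in whpF,
    ∀ f : Cfg i.1 → ℝ, (∀ x, 0 < f x) → ex (skJ 1 i.2) (fun _ => 0) f = 1 →
      ex (skJ 1 i.2) (fun _ => 0) (fun x => f x * Real.log (f x))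
        ≤ e * i.1 + A * dir (skJ 1 i.2) (fun _ => 0) f (fun x => Real.log (f x)) := by
  obtain ⟨A, hA, h⟩ := levTop_law e he
  refine ⟨A, hA, ?_⟩
  filter_upwards [h] with i hi f hf hf1
  have h1 := hi _ (isProb_dens i.2 hf hf1) (fun x => mul_pos (gM_pos _ _ x) (hf x))
  rwa [KL_dens, EP_dens] at h1

/-- with high probability `-log μ x ≤ 4 n` for the critical SK measure -/
theorem log_gibbs_le : ∀ᶠ i in whpF, ∀ x,
    -Real.log (gibbs (skJ 1 i.2) (fun _ => 0) x) ≤ 4 * i.1 := by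
  filter_upwards [log_le_one] with i hi x
  rw [gibbs_one]
  exact hi x

end Vale.Agent.N150
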