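import Mathlib
import Vale.Agent.N150.A1Br
import Vale.Agent.N150.A2
import Vale.Agent.N150.LevTop
import Vale.Agent.N150.Final

/-! P150, block A1: from the path statement to the level inequalities and the mixing time. -/

open MeasureTheory ProbabilityTheory Filter Topology Real
open scoped Matrix

namespace Vale.Agent.N150.A1

open Vale.Agent.P150 Vale.Agent.P150.Semi Vale.Agent.P150.F

variable {n : ℕ}

/-- defective entropy inequality for a law on the cube -/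
def LevM (μ : Cfg n → ℝ) (K E A : ℝ) : Prop :=
  ∀ f : Cfg n → ℝ, (∀ x, 0 < f x) → (∀ x, f x ≤ Real.exp K) → Ex μ f = 1 →
    Ex μ (fun x => f x * Real.log (f x)) ≤ E + A * DirW μ f (fun x => Real.log (f x))

theorem lev_of_levM (g : Pairs n → ℝ) {K E A : ℝ} (h : LevM (gM ((1 : ℝ) • skM g) 0) K E A) :
    Lev (skJ 1 g) (fun _ => 0) K E A := by
  intro f hf hK h1
  rw [d8Bridge.dir_eq n _ _ (skJ_symm' 1 g)]
  unfold ex at h1 ⊢
  rw [gibbs_one] at h1 ⊢
  exact h f hf hK h1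

/-- a tracked path for the law `μ` at level `K`: total linear cost `a`, total quadratic cost `mt`,
defect `η` -/
def PathAt (μ : Cfg n → ℝ) (K a mt η : ℝ) : Prop :=
  ∃ (m : ℕ) (S : Type) (_ : MeasurableSpace S) (P : Proc n m S) (A : S → Mat n) (mh : S → Vec n)
    (rem : S → Cfg n → Vec m → Vec n) (Lay : ℕ → Set S) (s0 : S) (N : ℕ) (C lam d B : ℝ)
    (l mm p : ℕ → ℝ) (CT θ ζ : ℝ),
    P.law s0 = μ ∧ Track P A mh rem Lay s0 0 N C lam d B l mm p ∧ TermAt P s0 N CT θ ζ ∧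
    0 ≤ CT ∧ 0 ≤ θ ∧ 0 ≤ ζ ∧ (∀ k < N, mm k ≤ 1 / 6) ∧
    (1 + 3 / 2 * ∑ k ∈ Finset.range N, l k) * CT ≤ a ∧ ∑ k ∈ Finset.range N, mm k ≤ mt ∧
    (1 + 3 / 2 * ∑ k ∈ Finset.range N, l k) * (Real.exp (2 * K) * θ + ζ)
      + 6 * (n + 1) * B * Real.exp K * ∑ k ∈ Finset.range N, p k
      + N * (K0 * lam ^ 3 * (d * √d)) ≤ η

theorem PathAt.mono {μ : Cfg n → ℝ} {K a mt η a' mt' η' : ℝ} (h : PathAt μ K a mt η)
    (h1 : a ≤ a') (h2 : mt ≤ mt') (h3 : η ≤ η') : PathAt μ K a' mt' η' := by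
  obtain ⟨m, S, iS, P, A, mh, rem, Lay, s0, N, C, lam, d, B, l, mm, p, CT, θ, ζ, e, hT, hE, c1, c2,
    c3, c4, c5, c6, c7⟩ := h
  exact ⟨m, S, iS, P, A, mh, rem, Lay, s0, N, C, lam, d, B, l, mm, p, CT, θ, ζ, e, hT, hE, c1, c2,
    c3, c4, c5.trans h1, c6.trans h2, c7.trans h3⟩

theorem PathAt.core {μ : Cfg n → ℝ} {K a mt η : ℝ} (hK : 0 ≤ K) (h : PathAt μ K a mt η) :
    LevM μ K (6 * mt + η) a ∧ LevM μ K (Real.exp (6 * mt) * η) (Real.exp (6 * mt) * a) := by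
  obtain ⟨m, S, iS, P, A, mh, rem, Lay, s0, N, C, lam, d, B, l, mm, p, CT, θ, ζ, rfl, hT, hE, c1,
    c2, c3, c4, c5, c6, c7⟩ := h
  have key : ∀ f : Cfg n → ℝ, (∀ x, 0 < f x) → (∀ x, f x ≤ Real.exp K) → Ex (P.law s0) f = 1 →
      P.ent f s0 = Ex (P.law s0) (fun x => f x * Real.log (f x)) ∧
      P.U^[N] (P.ent f) s0 + 3 / 2 * (∑ k ∈ Finset.Ico 0 N, l k) * P.U^[N] (errU P f) s0
        + 6 * (n + 1) * B * Real.exp K * ∑ k ∈ Finset.Ico 0 N, p k
        + (N - 0 : ℕ) * (K0 * lam ^ 3 * (d * √d)) * P.wt f s0 ≤ η + a * P.ep f s0 := by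
    intro f hf hfK h1
    have hw : P.wt f s0 = 1 := h1
    refine ⟨?_, ?_⟩
    · unfold Proc.ent EntX
      rw [h1]; simp
    · obtain ⟨t1, t2⟩ := hE f (Real.exp K) (Real.one_le_exp hK) hf hfK
      rw [← Finset.range_eq_Ico, Nat.sub_zero, hw]
      rw [hw, ← Real.exp_nat_mul] at t1 t2
      have hΛ : 0 ≤ ∑ k ∈ Finset.range N, l k := Finset.sum_nonneg fun k _ => hT.hl k
      have h2 := mul_le_mul_of_nonneg_left t2
        (show 0 ≤ 3 / 2 * ∑ k ∈ Finset.range N, l k by positivity)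
      have h3 := mul_le_mul_of_nonneg_right c5 (P.ep_nonneg hf s0)
      push_cast at t1 h2
      linarith
  constructor
  · intro f hf hfK h1
    obtain ⟨e1, e2⟩ := key f hf hfK h1
    have h2 : P.ent f s0 ≤ _ := hT.add hf hfK
    have hw : P.wt f s0 = 1 := h1
    have e3 : DirW (P.law s0) f (fun x => Real.log (f x)) = P.ep f s0 := rfl
    rw [← e1, e3]
    rw [hw] at h2 e2
    rw [Finset.range_eq_Ico] at c6
    linarith
  · intro f hf hfK h1
    obtain ⟨e1, e2⟩ := key f hf hfK h1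
    have h2 : P.ent f s0 ≤ _ := hT.mul (fun k _ hk => c4 k hk) hf hfK
    have e3 : DirW (P.law s0) f (fun x => Real.log (f x)) = P.ep f s0 := rfl
    rw [← e1, e3]
    rw [Finset.range_eq_Ico] at c6
    have h0 : 0 ≤ η + a * P.ep f s0 := by
      refine le_trans ?_ e2
      have := it_nonneg P (P.bm_ent hf) (ent_nonneg P hf) N s0
      have := it_nonneg P (bm_errU P hf) (errU_nonneg P hf) N s0
      have : 0 ≤ ∑ k ∈ Finset.Ico 0 N, l k := Finset.sum_nonneg fun k _ => hT.hl k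
      have := hT.p_nonneg
      have := hT.hB
      have := K0_nonneg
      have := hT.hlam0
      have := d_sqrt_nonneg d
      have := P.wt_pos hf s0
      positivity
    calc P.ent f s0 ≤ _ := h2
      _ ≤ Real.exp (6 * ∑ k ∈ Finset.Ico 0 N, mm k) * (η + a * P.ep f s0) :=
          mul_le_mul_of_nonneg_left e2 (Real.exp_pos _).le
      _ ≤ Real.exp (6 * mt) * (η + a * P.ep f s0) :=
          mul_le_mul_of_nonneg_right (Real.exp_le_exp.2 (by linarith)) h0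
      _ = _ := by ring

/-- additive form -/
theorem PathAt.lev_add {μ : Cfg n → ℝ} {K a mt η : ℝ} (hK : 0 ≤ K) (h : PathAt μ K a mt η) :
    LevM μ K (6 * mt + η) a := (h.core hK).1

/-- multiplicative form -/
theorem PathAt.lev_mul {μ : Cfg n → ℝ} {K a mt η : ℝ} (hK : 0 ≤ K) (h : PathAt μ K a mt η) :
    LevM μ K (Real.exp (6 * mt) * η) (Real.exp (6 * mt) * a) := (h.core hK).2

/-- the path statement with the exponent `γ`, on dyadic levels -/
def PathWg (γ : ℝ) : Prop := ∃ a0 : ℝ, ∀ ε θ : ℝ, 0 < ε → 0 < θ → ∃ k0 : ℝ, 0 < k0 ∧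
  ∀ᶠ i in whpF, ∀ j : ℕ, a0 * Real.log i.1 ≤ 2 ^ j → (2 : ℝ) ^ j ≤ k0 * i.1 →
    PathAt (gM ((1 : ℝ) • skM i.2) 0) (2 ^ j) ((i.1 : ℝ) ^ (γ + ε)) (θ * 2 ^ j) (1 / i.1)

/-- the path statement -/
def PathW : Prop := PathWg (2 / 3)

/-- `LevW` with a general exponent -/
def LevWg (γ : ℝ) : Prop := ∀ ε : ℝ, 0 < ε → ∃ a : ℝ, WHP (fun n => {g | ∀ K,
  a * Real.log n ≤ K → Lev (skJ 1 g) (fun _ => 0) K (K / 8) ((n : ℝ) ^ (γ + ε))})

/-- `LastW` with a general exponent -/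
def LastWg (γ : ℝ) : Prop := ∀ ε : ℝ, 0 < ε → ∀ a : ℝ, WHP (fun n => {g |
  Lev (skJ 1 g) (fun _ => 0) (a * Real.log n) (1 / 100) ((n : ℝ) ^ (γ + ε))})

theorem exists_dyadic {K : ℝ} (hK : 1 ≤ K) : ∃ j : ℕ, K ≤ 2 ^ j ∧ (2 : ℝ) ^ j ≤ 2 * K := by
  obtain ⟨j, h1, h2⟩ := exists_nat_pow_near hK (one_lt_two : (1 : ℝ) < 2)
  exact ⟨j + 1, h2.le, by rw [pow_succ]; linarith⟩

theorem one_le_log {n : ℕ} (hn : 3 ≤ n) : 1 ≤ Real.log n := by
  have h0 : (3 : ℝ) ≤ n := by exact_mod_cast hn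
  rw [Real.le_log_iff_exp_le (by linarith)]
  linarith [Real.exp_one_lt_three]

theorem levWg_of {γ : ℝ} (hγ : 0 ≤ γ) (h : PathWg γ) : LevWg γ := by
  intro ε hε
  obtain ⟨a0, h⟩ := h
  obtain ⟨k0, hk0, h1⟩ := h ε (1 / 200) hε (by norm_num)
  obtain ⟨A, _, h2⟩ := levTop (k0 / 16) (by positivity)
  refine ⟨max a0 16, ?_⟩
  have h3 : ∀ᶠ n : ℕ in atTop, A ≤ (n : ℝ) ^ (γ + ε) :=
    ((tendsto_rpow_atTop (by linarith)).comp tendsto_natCast_atTop_atTop).eventually_ge_atTop A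
  have key : ∀ᶠ i in whpF, ∀ K, max a0 16 * Real.log i.1 ≤ K →
      Lev (skJ 1 i.2) (fun _ => 0) K (K / 8) ((i.1 : ℝ) ^ (γ + ε)) := by
    filter_upwards [h1, h2, eventually_whpF_nat h3, eventually_whpF_nat (eventually_ge_atTop 3)]
      with i h1 h2 h3 hn K hK
    have hJ := skJ_symm' 1 i.2
    have hL := one_le_log hn
    have hn1 : (1 : ℝ) ≤ i.1 := by exact_mod_cast (by omega : 1 ≤ i.1)
    have h16 : 16 ≤ K := by nlinarith [le_max_right a0 16]
    rcases le_total (2 * K) (k0 * i.1) with hc | hc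
    · obtain ⟨j, j1, j2⟩ := exists_dyadic (show 1 ≤ K by linarith)
      have h4 := (h1 j (((mul_le_mul_of_nonneg_right (le_max_left _ _) (by linarith)).trans
        hK).trans j1) (j2.trans hc)).lev_add (by positivity)
      refine Lev.mono hJ (lev_of_levM _ h4) j1 ?_ le_rfl
      have h5 : 1 / (i.1 : ℝ) ≤ 1 := by rw [div_le_one (by linarith)]; exact hn1
      linarith
    · intro f hf _ hf1
      refine (h2 f hf hf1).trans (add_le_add (by linarith) ?_)
      exact mul_le_mul_of_nonneg_right h3 (D8M.dir_log_nonneg _ hJ hf)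
  exact key

theorem lastWg_of {γ : ℝ} (h : PathWg γ) : LastWg γ := by
  have main : ∀ ε : ℝ, 0 < ε → ε ≤ 1 → ∀ a : ℝ, ∀ᶠ i in whpF,
      Lev (skJ 1 i.2) (fun _ => 0) (a * Real.log i.1) (1 / 100) ((i.1 : ℝ) ^ (γ + ε)) := by
    intro ε hε hε1 a
    obtain ⟨a0, h⟩ := h
    set b := max (max a a0) 1 with hb
    have hb1 : 1 ≤ b := le_max_right _ _
    have hba : a ≤ b := (le_max_left _ _).trans (le_max_left _ _)
    have hb0 : a0 ≤ b := (le_max_right _ _).trans (le_max_left _ _)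
    obtain ⟨k0, hk0, h1⟩ := h (ε / 2) (ε / (24 * b)) (half_pos hε) (by positivity)
    have h3 : ∀ᶠ n : ℕ in atTop, 2 * b * Real.log n ≤ k0 * n := by
      have h4 := Real.isLittleO_log_id_atTop.bound (show 0 < k0 / (2 * b) by positivity)
      filter_upwards [tendsto_natCast_atTop_atTop.eventually h4] with n hn
      simp only [id, Real.norm_eq_abs, Nat.abs_cast] at hn
      have h5 := mul_le_mul_of_nonneg_left ((le_abs_self _).trans hn)
        (show 0 ≤ 2 * b by positivity)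
      have e : 2 * b * (k0 / (2 * b) * n) = k0 * n := by field_simp
      linarith
    filter_upwards [h1, eventually_whpF_nat h3, eventually_whpF_nat (eventually_ge_atTop 10000)]
      with i h1 h3 hn
    have hJ := skJ_symm' 1 i.2
    have hL := one_le_log (show 3 ≤ i.1 by omega)
    have hn1 : (10000 : ℝ) ≤ i.1 := by exact_mod_cast hn
    have hn0 : (0 : ℝ) < i.1 := by linarith
    obtain ⟨j, j1, j2⟩ := exists_dyadic (show 1 ≤ b * Real.log i.1 by nlinarith)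
    have h4 := (h1 j ((mul_le_mul_of_nonneg_right hb0 (by linarith)).trans j1)
      (by linarith)).lev_mul (by positivity)
    have h5 : Real.exp (6 * (ε / (24 * b) * 2 ^ j)) ≤ (i.1 : ℝ) ^ (ε / 2) := by
      rw [Real.rpow_def_of_pos hn0]
      refine Real.exp_le_exp.2 ?_
      have h6 := mul_le_mul_of_nonneg_left j2 (show 0 ≤ ε / (24 * b) by positivity)
      have e : ε / (24 * b) * (2 * (b * Real.log i.1)) = Real.log i.1 * ε / 12 := by
        field_simp; ring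
      linarith
    refine Lev.mono hJ (lev_of_levM _ h4) ((mul_le_mul_of_nonneg_right hba (by linarith)).trans j1)
      ?_ ?_
    · have h6 : (i.1 : ℝ) ^ (ε / 2) ≤ (i.1 : ℝ) ^ (1 / 2 : ℝ) :=
        Real.rpow_le_rpow_of_exponent_le (by linarith) (by linarith)
      rw [← Real.sqrt_eq_rpow] at h6
      have h7 : 100 ≤ √(i.1 : ℝ) := Real.le_sqrt_of_sq_le (by linarith)
      have h8 := Real.mul_self_sqrt hn0.le
      rw [mul_one_div, div_le_iff₀ hn0]
      nlinarith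
    · calc _ ≤ (i.1 : ℝ) ^ (ε / 2) * (i.1 : ℝ) ^ (γ + ε / 2) :=
            mul_le_mul_of_nonneg_right h5 (Real.rpow_nonneg hn0.le _)
        _ = _ := by rw [← Real.rpow_add hn0]; congr 1; ring
  intro ε hε a
  have key : ∀ᶠ i in whpF,
      Lev (skJ 1 i.2) (fun _ => 0) (a * Real.log i.1) (1 / 100) ((i.1 : ℝ) ^ (γ + ε)) := by
    filter_upwards [main (min ε 1) (lt_min hε one_pos) (min_le_right _ _) a,
      eventually_whpF_nat (eventually_ge_atTop 1)] with i hi hn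
    refine Lev.mono (skJ_symm' 1 i.2) hi le_rfl le_rfl ?_
    exact Real.rpow_le_rpow_of_exponent_le (by exact_mod_cast hn) (by linarith [min_le_left ε 1])
  exact key

theorem levW_of (h : PathW) : LevW := levWg_of (by norm_num) h

theorem lastW_of (h : PathW) : LastW := lastWg_of h

/-- the upper bound with a general exponent from the two level statements -/
theorem crit_upper_g {γ : ℝ} (h1 : LevWg γ) (h2 : LastWg γ) {ε : ℝ} (hε : 0 < ε) :
    WHP (fun n => {g | tmix (skJ 1 g) (fun _ => 0) ≤ (n : ℝ) ^ (γ + ε) ∧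
      (n : ℝ) ^ (-(γ + ε)) ≤ gap (skJ 1 g) (fun _ => 0) ∧
      ∀ t, (n : ℝ) ^ (γ + ε) ≤ t → ∀ x, tvDist (skJ 1 g) (fun _ => 0) t x ≤ 1 / 4}) := by
  obtain ⟨a0, ha0⟩ := h1 (ε / 2) (by linarith)
  set a := max a0 30 with ha
  have ha30 : 30 ≤ a := le_max_right _ _
  refine MainThm.whp_mono (MainThm.whp_inter (MainThm.whp_inter ha0
    (h2 (ε / 2) (by linarith) (a + 1))) whp_min) ?_
  filter_upwards [eventually_ge_atTop 81,
    ev_sq_log (c := 2 * (27 + 200 * (a + 1))) (by linarith) (half_pos hε)] with n hn hlog g hg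
  obtain ⟨⟨hL, hl⟩, hmin⟩ := hg
  have hJ : ∀ i j, skJ 1 g i j = skJ 1 g j i := fun a b => by simp only [skJ, gsym_comm]
  have hn0 : (0 : ℝ) < n := by exact_mod_cast (by omega : 0 < n)
  set L := Real.log n with hLd
  have hL4 : 4 ≤ L := by
    rw [hLd, Real.le_log_iff_exp_le hn0]
    have e : Real.exp 4 = Real.exp 1 ^ 4 := by rw [← Real.exp_nat_mul]; norm_num
    have e2 : Real.exp 1 ^ 4 ≤ 3 ^ 4 :=
      pow_le_pow_left₀ (Real.exp_pos _).le Real.exp_one_lt_three.le 4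
    have e3 : (81 : ℝ) ≤ n := by exact_mod_cast hn
    linarith
  set j := Nat.log 2 n + 3 with hj
  have hj1 : (4 : ℝ) * n ≤ 2 ^ j := by
    have e := Nat.lt_pow_succ_log_self (b := 2) one_lt_two n
    have e2 : 4 * n ≤ 2 ^ j := by rw [hj, pow_add]; rw [pow_succ] at e; omega
    exact_mod_cast e2
  have hj2 : (j : ℝ) + 3 ≤ 3 * L := by
    have e : ((2 ^ Nat.log 2 n : ℕ) : ℝ) ≤ n := by
      exact_mod_cast Nat.pow_log_le_self 2 (by omega)
    have e2 := Real.log_le_log (by positivity) e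
    rw [Nat.cast_pow, Real.log_pow, Nat.cast_ofNat] at e2
    have e3 := mul_le_mul_of_nonneg_left Real.log_two_gt_d9.le (Nat.cast_nonneg (Nat.log 2 n))
    rw [hj]; push_cast
    linarith
  set A := (n : ℝ) ^ (γ + ε / 2) with hA
  have hA0 : 0 < A := Real.rpow_pos_of_pos hn0 _
  have haL : 30 * L ≤ a * L := mul_le_mul_of_nonneg_right ha30 (by linarith)
  have hT : A * (3 * j * (j + 3) + Real.log (200 * (a * L + 1))) ≤ (n : ℝ) ^ (γ + ε) / 2 := by
    have e1 : (n : ℝ) ^ (γ + ε) = A * (n : ℝ) ^ (ε / 2) := by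
      rw [hA, ← Real.rpow_add hn0]; congr 1; ring
    rw [e1, mul_div_assoc]
    refine mul_le_mul_of_nonneg_left ?_ hA0.le
    have e2 := Real.log_le_self (show 0 ≤ 200 * (a * L + 1) by linarith)
    have j0 : (0 : ℝ) ≤ j := Nat.cast_nonneg j
    have e3 : (j : ℝ) * (j + 3) ≤ (3 * L) * (3 * L) :=
      mul_le_mul (by linarith) hj2 (by linarith) (by linarith)
    have e4 : a * L * 1 ≤ a * L * L := mul_le_mul_of_nonneg_left (by linarith) (by linarith)
    nlinarith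
  have key : ∀ t, (n : ℝ) ^ (γ + ε) / 2 ≤ t → ∀ x,
      tvDist (skJ 1 g) (fun _ => 0) t x ≤ 1 / 4 := fun t ht x =>
    tv_of_levels hJ hA0 (K0 := a * L) (by linarith) j (by linarith) hj1 hmin
      (fun K hK => hL K ((mul_le_mul_of_nonneg_right (le_max_left _ _) (by linarith)).trans hK))
      (Lev.mono hJ hl (by linarith) le_rfl le_rfl) (hT.trans ht) x
  have hp : 0 < (n : ℝ) ^ (γ + ε) := Real.rpow_pos_of_pos hn0 _
  have hmix : tmix (skJ 1 g) (fun _ => 0) ≤ (n : ℝ) ^ (γ + ε) / 2 :=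
    csInf_le ⟨0, fun t ht => ht.1⟩ ⟨by positivity, key _ le_rfl⟩
  refine ⟨by linarith, ?_, fun t ht => key t (by linarith)⟩
  have e1 := log_two_le (by omega) hJ (fun _ => 0)
  have e2 := mul_le_mul_of_nonneg_left hmix (gap_pos (by omega) hJ (fun _ => 0)).le
  rw [Real.rpow_neg hn0.le, inv_le_iff_one_le_mul₀ hp]
  linarith [Real.log_two_gt_d9]

/-- the upper bound with a general exponent from the path statement -/
theorem upper_of_pathWg {γ : ℝ} (hγ : 0 ≤ γ) (h : PathWg γ) {ε : ℝ} (hε : 0 < ε) :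
    WHP (fun n => {g | tmix (skJ 1 g) (fun _ => 0) ≤ (n : ℝ) ^ (γ + ε) ∧
      (n : ℝ) ^ (-(γ + ε)) ≤ gap (skJ 1 g) (fun _ => 0) ∧
      ∀ t, (n : ℝ) ^ (γ + ε) ≤ t → ∀ x, tvDist (skJ 1 g) (fun _ => 0) t x ≤ 1 / 4}) :=
  crit_upper_g (levWg_of hγ h) (lastWg_of h) hε

/-- the critical upper bound from the path statement -/
theorem upper_of_pathW (h : PathW) {ε : ℝ} (hε : 0 < ε) :
    WHP (fun n => {g | tmix (skJ 1 g) (fun _ => 0) ≤ (n : ℝ) ^ (2 / 3 + ε) ∧
      (n : ℝ) ^ (-(2 / 3 + ε)) ≤ gap (skJ 1 g) (fun _ => 0) ∧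
      ∀ t, (n : ℝ) ^ (2 / 3 + ε) ≤ t → ∀ x, tvDist (skJ 1 g) (fun _ => 0) t x ≤ 1 / 4}) :=
  crit_upper (levW_of h) (lastW_of h) hε

theorem upStmt_of_pathW (h : PathW) : UpStmt := fun _ hε =>
  MainThm.whp_mono (upper_of_pathW h hε) (Eventually.of_forall fun _ _ hg => hg.1)

end Vale.Agent.N150.A1
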