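import Mathlib
import Vale.Agent.N150.A1Lev

/-! P150, block A1: a measurable form of the conclusion of the path statement. -/

open MeasureTheory ProbabilityTheory Filter Topology Real
open scoped Matrix

namespace Vale.Agent.N150.A1

open Vale.Agent.P150 Vale.Agent.P150.Semi Vale.Agent.P150.F

variable {n : ℕ}

/-- defective entropy inequality for densities strictly below `exp K` -/
def LevS (μ : Cfg n → ℝ) (K E A : ℝ) : Prop :=
  ∀ f : Cfg n → ℝ, (∀ x, 0 < f x) → (∀ x, f x < Real.exp K) → Ex μ f = 1 →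
    Ex μ (fun x => f x * Real.log (f x)) ≤ E + A * DirW μ f (fun x => Real.log (f x))

theorem LevM.levS {μ : Cfg n → ℝ} {K E A : ℝ} (h : LevM μ K E A) : LevS μ K E A :=
  fun f hf hK h1 => h f hf (fun x => (hK x).le) h1

theorem LevS.levM {μ : Cfg n → ℝ} {K K' E A : ℝ} (h : LevS μ K E A) (hK : K' < K) :
    LevM μ K' E A :=
  fun f hf hf' h1 => h f hf (fun x => (hf' x).trans_lt (Real.exp_lt_exp.2 hK)) h1

theorem ex_pos {μ f : Cfg n → ℝ} (hμ : ∀ x, 0 < μ x) (hf : ∀ x, 0 < f x) : 0 < Ex μ f :=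
  Finset.sum_pos (fun x _ => mul_pos (hμ x) (hf x)) Finset.univ_nonempty

theorem levS_iff {μ : Cfg n → ℝ} (hμ : ∀ x, 0 < μ x) (K E A : ℝ) :
    LevS μ K E A ↔ ∀ f : Cfg n → ℝ, (∀ x, 0 < f x) →
      (∃ x, Real.exp K ≤ f x / Ex μ f) ∨
      Ex μ (fun x => f x / Ex μ f * Real.log (f x / Ex μ f)) ≤
        E + A * DirW μ (fun x => f x / Ex μ f) (fun x => Real.log (f x / Ex μ f)) := by
  constructor
  · intro h f hf
    by_cases hc : ∃ x, Real.exp K ≤ f x / Ex μ f
    · exact Or.inl hc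
    · push Not at hc
      have h0 := ex_pos hμ hf
      refine Or.inr (h _ (fun x => div_pos (hf x) h0) hc ?_)
      have e : Ex μ (fun x => f x / Ex μ f) = Ex μ f / Ex μ f := by
        conv_rhs => unfold Ex; rw [Finset.sum_div]
        exact Finset.sum_congr rfl fun x _ => by rw [mul_div_assoc]; rfl
      rw [e, div_self h0.ne']
  · intro h f hf hK h1
    rcases h f hf with ⟨x, hx⟩ | h2
    · rw [h1, div_one] at hx
      exact absurd (hK x) (not_lt.2 hx)
    · simpa only [h1, div_one] using h2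

theorem isClosed_levS (K E A : ℝ) :
    IsClosed {ν : {ν : Cfg n → ℝ // ∀ x, 0 < ν x} | LevS ν.1 K E A} := by
  have e : {ν : {ν : Cfg n → ℝ // ∀ x, 0 < ν x} | LevS ν.1 K E A} = ⋂ f : Cfg n → ℝ,
      ⋂ _ : ∀ x, 0 < f x, ((⋃ x, {ν | Real.exp K ≤ f x / Ex ν.1 f}) ∪
        {ν | Ex ν.1 (fun x => f x / Ex ν.1 f * Real.log (f x / Ex ν.1 f)) ≤
          E + A * DirW ν.1 (fun x => f x / Ex ν.1 f) (fun x => Real.log (f x / Ex ν.1 f))}) := by
    ext ν
    simp only [Set.mem_ofPred_eq, Set.mem_iInter, Set.mem_union, Set.mem_iUnion]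
    exact levS_iff ν.2 K E A
  rw [e]
  refine isClosed_iInter fun f => isClosed_iInter fun hf => ?_
  have c0 : ∀ x, Continuous fun ν : {ν : Cfg n → ℝ // ∀ x, 0 < ν x} => ν.1 x := fun x =>
    (continuous_apply x).comp continuous_subtype_val
  have c1 : Continuous fun ν : {ν : Cfg n → ℝ // ∀ x, 0 < ν x} => Ex ν.1 f :=
    continuous_finsetSum _ fun x _ => (c0 x).mul continuous_const
  have c2 : ∀ x, Continuous fun ν : {ν : Cfg n → ℝ // ∀ x, 0 < ν x} => f x / Ex ν.1 f := fun x =>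
    continuous_const.div c1 fun ν => (ex_pos ν.2 hf).ne'
  have c3 : ∀ x, Continuous fun ν : {ν : Cfg n → ℝ // ∀ x, 0 < ν x} =>
      Real.log (f x / Ex ν.1 f) := fun x =>
    (c2 x).log fun ν => (div_pos (hf x) (ex_pos ν.2 hf)).ne'
  refine IsClosed.union (isClosed_iUnion_of_finite fun x => isClosed_le continuous_const (c2 x))
    (isClosed_le ?_ ?_)
  · exact continuous_finsetSum _ fun x _ => (c0 x).mul ((c2 x).mul (c3 x))
  · refine continuous_const.add (continuous_const.mul (continuous_const.mul ?_))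
    refine continuous_finsetSum _ fun i _ => continuous_finsetSum _ fun x _ => ?_
    exact (((c0 x).mul (c0 _)).div ((c0 x).add (c0 _))
      fun ν => (add_pos (ν.2 x) (ν.2 _)).ne').mul (((c2 _).sub (c2 x)).mul ((c3 _).sub (c3 x)))

theorem ms_levS {S : Type*} [MeasurableSpace S] {μ : S → Cfg n → ℝ}
    (hm : ∀ x, Measurable fun s => μ s x) (hp : ∀ s x, 0 < μ s x) (K E A : ℝ) :
    MeasurableSet {s | LevS (μ s) K E A} := by
  have h1 : Measurable fun s => (⟨μ s, hp s⟩ : {ν : Cfg n → ℝ // ∀ x, 0 < ν x}) :=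
    (measurable_pi_iff.2 hm).subtype_mk
  exact h1 (isClosed_levS K E A).measurableSet

/-- the two level inequalities produced by a path -/
def LevP (μ : Cfg n → ℝ) (K a mt η : ℝ) : Prop :=
  LevS μ K (6 * mt + η) a ∧ LevS μ K (Real.exp (6 * mt) * η) (Real.exp (6 * mt) * a)

theorem PathAt.levP {μ : Cfg n → ℝ} {K a mt η : ℝ} (hK : 0 ≤ K) (h : PathAt μ K a mt η) :
    LevP μ K a mt η := ⟨(h.lev_add hK).levS, (h.lev_mul hK).levS⟩

/-- the level inequalities on all dyadic levels between `a0 log n` and `k0 n` -/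
def PrA (γ ε θ a0 k0 : ℝ) (μ : Cfg n → ℝ) : Prop :=
  ∀ j : ℕ, a0 * Real.log n ≤ 2 ^ j → (2 : ℝ) ^ j ≤ k0 * n →
    LevP μ (2 ^ j) ((n : ℝ) ^ (γ + ε)) (θ * 2 ^ j) (1 / n)

/-- paths on all dyadic levels between `a0 log n` and `k0 n` -/
def PrB (γ ε θ a0 k0 : ℝ) (μ : Cfg n → ℝ) : Prop :=
  ∀ j : ℕ, a0 * Real.log n ≤ 2 ^ j → (2 : ℝ) ^ j ≤ k0 * n →
    PathAt μ (2 ^ j) ((n : ℝ) ^ (γ + ε)) (θ * 2 ^ j) (1 / n)

theorem PrB.prA {γ ε θ a0 k0 : ℝ} {μ : Cfg n → ℝ} (h : PrB γ ε θ a0 k0 μ) : PrA γ ε θ a0 k0 μ :=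
  fun j h1 h2 => (h j h1 h2).levP (by positivity)

theorem ms_prA {S : Type*} [MeasurableSpace S] {μ : S → Cfg n → ℝ}
    (hm : ∀ x, Measurable fun s => μ s x) (hp : ∀ s x, 0 < μ s x) (γ ε θ a0 k0 : ℝ) :
    MeasurableSet {s | PrA γ ε θ a0 k0 (μ s)} := by
  have e : {s | PrA γ ε θ a0 k0 (μ s)} = ⋂ j : ℕ, ⋂ _ : a0 * Real.log n ≤ 2 ^ j,
      ⋂ _ : (2 : ℝ) ^ j ≤ k0 * n, ({s | LevS (μ s) (2 ^ j) (6 * (θ * 2 ^ j) + 1 / n)
        ((n : ℝ) ^ (γ + ε))} ∩ {s | LevS (μ s) (2 ^ j) (Real.exp (6 * (θ * 2 ^ j)) * (1 / n))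
        (Real.exp (6 * (θ * 2 ^ j)) * (n : ℝ) ^ (γ + ε))}) := by
    ext s
    simp only [Set.mem_ofPred_eq, Set.mem_iInter, Set.mem_inter_iff]
    rfl
  rw [e]
  exact MeasurableSet.iInter fun j => MeasurableSet.iInter fun _ => MeasurableSet.iInter fun _ =>
    (ms_levS hm hp _ _ _).inter (ms_levS hm hp _ _ _)

theorem measurable_gM {S : Type*} [MeasurableSpace S] {M : S → Mat n} {y : S → Vec n}
    (hM : ∀ i j, Measurable fun s => M s i j) (hy : ∀ i, Measurable fun s => y s i) (x : Cfg n) :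
    Measurable fun s => gM (M s) (y s) x := by
  have h : ∀ x : Cfg n,
      Measurable fun s => Real.exp (qf (M s) (sv x) / 2 + ip (y s) (sv x)) := by
    intro x
    refine Real.measurable_exp.comp (Measurable.add (Measurable.div_const ?_ _) ?_)
    · unfold qf ip Matrix.mulVec dotProduct
      exact Finset.measurable_sum _ fun i _ => Measurable.const_mul
        (Finset.measurable_sum _ fun j _ => (hM i j).mul_const _) _
    · exact Finset.measurable_sum _ fun i _ => (hy i).mul_const _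
  exact (h x).div (Finset.measurable_sum _ fun x' _ => h x')

/-- the predicate `PrA` of the Gibbs law is measurable in the coupling matrix -/
theorem ms_prA_gM {S : Type*} [MeasurableSpace S] {M : S → Mat n}
    (hM : ∀ i j, Measurable fun s => M s i j) (γ ε θ a0 k0 : ℝ) :
    MeasurableSet {s | PrA γ ε θ a0 k0 (gM (M s) 0)} :=
  ms_prA (μ := fun s => gM (M s) 0) (measurable_gM hM fun _ => measurable_const)
    (fun _ => gM_pos _ _) γ ε θ a0 k0

/-- the measurable path statement with the exponent `γ` -/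
def PathP (γ : ℝ) : Prop := ∃ a0 : ℝ, ∀ ε θ : ℝ, 0 < ε → 0 < θ → ∃ k0 : ℝ, 0 < k0 ∧
  WHP (fun n => {g : Pairs n → ℝ | PrA γ ε θ a0 k0 (gM (skM g) 0)})

theorem PathWg.pathP {γ : ℝ} (h : PathWg γ) : PathP γ := by
  obtain ⟨a0, h⟩ := h
  refine ⟨a0, fun ε θ hε hθ => ?_⟩
  obtain ⟨k0, hk0, h1⟩ := h ε θ hε hθ
  refine ⟨k0, hk0, ?_⟩
  have key : ∀ᶠ i in whpF, PrA γ ε θ a0 k0 (gM (skM i.2) 0) := by
    filter_upwards [h1] with i hi j j1 j2
    have h2 := (hi j j1 j2).levP (by positivity)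
    rwa [one_smul] at h2
  exact key

theorem exists_dyadic_lt {K : ℝ} (hK : 1 ≤ K) : ∃ j : ℕ, K < 2 ^ j ∧ (2 : ℝ) ^ j ≤ 2 * K := by
  obtain ⟨j, h1, h2⟩ := exists_nat_pow_near hK (one_lt_two : (1 : ℝ) < 2)
  exact ⟨j + 1, h2, by rw [pow_succ]; linarith⟩

theorem lev_of_levS (g : Pairs n → ℝ) {K K' E A : ℝ} (h : LevS (gM (skM g) 0) K E A)
    (hK : K' < K) : Lev (skJ 1 g) (fun _ => 0) K' E A :=
  lev_of_levM g (by rw [one_smul]; exact h.levM hK)

theorem levWg_of_pathP {γ : ℝ} (hγ : 0 ≤ γ) (h : PathP γ) : LevWg γ := by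
  intro ε hε
  obtain ⟨a0, h⟩ := h
  obtain ⟨k0, hk0, h0⟩ := h ε (1 / 200) hε (by norm_num)
  have h1 : ∀ᶠ i in whpF, PrA γ ε (1 / 200) a0 k0 (gM (skM i.2) 0) := h0
  obtain ⟨A, _, h2⟩ := levTop (k0 / 16) (by positivity)
  refine ⟨max a0 16, ?_⟩
  have h3 : ∀ᶠ n : ℕ in atTop, A ≤ (n : ℝ) ^ (γ + ε) :=
    ((tendsto_rpow_atTop (by linarith)).comp tendsto_natCast_atTop_atTop).eventually_ge_atTop A
  have key : ∀ᶠ i in whpF, ∀ K, max a0 16 * Real.log i.1 ≤ K →
      Lev (skJ 1 i.2) (fun _ => 0) K (K / 8) ((i.1 : ℝ) ^ (γ + ε)) := by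
    filter_upwards [h1, h2, eventually_whpF_nat h3, eventually_whpF_nat (eventually_ge_atTop 3)]
      with i h1 h2 h3 hn K hK
    have hJ := skJ_symm' 1 i.2
    have hL := one_le_log hn
    have hn1 : (1 : ℝ) ≤ i.1 := by exact_mod_cast (by omega : 1 ≤ i.1)
    have h16 : 16 ≤ K := by nlinarith [le_max_right a0 16]
    rcases le_total (2 * K) (k0 * i.1) with hc | hc
    · obtain ⟨j, j1, j2⟩ := exists_dyadic_lt (show 1 ≤ K by linarith)
      have h4 := (h1 j (((mul_le_mul_of_nonneg_right (le_max_left _ _) (by linarith)).trans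
        hK).trans j1.le) (j2.trans hc)).1
      refine Lev.mono hJ (lev_of_levS _ h4 j1) le_rfl ?_ le_rfl
      have h5 : 1 / (i.1 : ℝ) ≤ 1 := by rw [div_le_one (by linarith)]; exact hn1
      linarith
    · intro f hf _ hf1
      refine (h2 f hf hf1).trans (add_le_add (by linarith) ?_)
      exact mul_le_mul_of_nonneg_right h3 (D8M.dir_log_nonneg _ hJ hf)
  exact key

theorem lastWg_of_pathP {γ : ℝ} (h : PathP γ) : LastWg γ := by
  have main : ∀ ε : ℝ, 0 < ε → ε ≤ 1 → ∀ a : ℝ, ∀ᶠ i in whpF,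
      Lev (skJ 1 i.2) (fun _ => 0) (a * Real.log i.1) (1 / 100) ((i.1 : ℝ) ^ (γ + ε)) := by
    intro ε hε hε1 a
    obtain ⟨a0, h⟩ := h
    set b := max (max a a0) 1 with hb
    have hb1 : 1 ≤ b := le_max_right _ _
    have hba : a ≤ b := (le_max_left _ _).trans (le_max_left _ _)
    have hb0 : a0 ≤ b := (le_max_right _ _).trans (le_max_left _ _)
    obtain ⟨k0, hk0, h0⟩ := h (ε / 2) (ε / (24 * b)) (half_pos hε) (by positivity)
    have h1 : ∀ᶠ i in whpF, PrA γ (ε / 2) (ε / (24 * b)) a0 k0 (gM (skM i.2) 0) := h0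
    have h3 : ∀ᶠ n : ℕ in atTop, 2 * b * Real.log n ≤ k0 * n := by
      have h4 := Real.isLittleO_log_id_atTop.bound (show 0 < k0 / (2 * b) by positivity)
      filter_upwards [tendsto_natCast_atTop_atTop.eventually h4] with n hn
      simp only [id, Real.norm_eq_abs, Nat.abs_cast] at hn
      have h5 := mul_le_mul_of_nonneg_left ((le_abs_self _).trans hn)
        (show 0 ≤ 2 * b by positivity)
      have e : 2 * b * (k0 / (2 * b) * n) = k0 * n := by field_simp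
      linarith
    filter_upwards [h1, eventually_whpF_nat h3, eventually_whpF_nat (eventually_ge_atTop 10000)]
      with i h1 h3 hn
    have hJ := skJ_symm' 1 i.2
    have hL := one_le_log (show 3 ≤ i.1 by omega)
    have hn1 : (10000 : ℝ) ≤ i.1 := by exact_mod_cast hn
    have hn0 : (0 : ℝ) < i.1 := by linarith
    obtain ⟨j, j1, j2⟩ := exists_dyadic_lt (show 1 ≤ b * Real.log i.1 by nlinarith)
    have h4 := (h1 j ((mul_le_mul_of_nonneg_right hb0 (by linarith)).trans j1.le)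
      (by linarith)).2
    have h5 : Real.exp (6 * (ε / (24 * b) * 2 ^ j)) ≤ (i.1 : ℝ) ^ (ε / 2) := by
      rw [Real.rpow_def_of_pos hn0]
      refine Real.exp_le_exp.2 ?_
      have h6 := mul_le_mul_of_nonneg_left j2 (show 0 ≤ ε / (24 * b) by positivity)
      have e : ε / (24 * b) * (2 * (b * Real.log i.1)) = Real.log i.1 * ε / 12 := by
        field_simp; ring
      linarith
    refine Lev.mono hJ (lev_of_levS _ h4
      ((mul_le_mul_of_nonneg_right hba (by linarith)).trans_lt j1)) le_rfl ?_ ?_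
    · have h6 : (i.1 : ℝ) ^ (ε / 2) ≤ (i.1 : ℝ) ^ (1 / 2 : ℝ) :=
        Real.rpow_le_rpow_of_exponent_le (by linarith) (by linarith)
      rw [← Real.sqrt_eq_rpow] at h6
      have h7 : 100 ≤ √(i.1 : ℝ) := Real.le_sqrt_of_sq_le (by linarith)
      have h8 := Real.mul_self_sqrt hn0.le
      rw [mul_one_div, div_le_iff₀ hn0]
      nlinarith
    · calc _ ≤ (i.1 : ℝ) ^ (ε / 2) * (i.1 : ℝ) ^ (γ + ε / 2) :=
            mul_le_mul_of_nonneg_right h5 (Real.rpow_nonneg hn0.le _)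
        _ = _ := by rw [← Real.rpow_add hn0]; congr 1; ring
  intro ε hε a
  have key : ∀ᶠ i in whpF,
      Lev (skJ 1 i.2) (fun _ => 0) (a * Real.log i.1) (1 / 100) ((i.1 : ℝ) ^ (γ + ε)) := by
    filter_upwards [main (min ε 1) (lt_min hε one_pos) (min_le_right _ _) a,
      eventually_whpF_nat (eventually_ge_atTop 1)] with i hi hn
    refine Lev.mono (skJ_symm' 1 i.2) hi le_rfl le_rfl ?_
    exact Real.rpow_le_rpow_of_exponent_le (by exact_mod_cast hn) (by linarith [min_le_left ε 1])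
  exact key

/-- the upper bound with a general exponent from the measurable path statement -/
theorem upper_of_pathP {γ : ℝ} (hγ : 0 ≤ γ) (h : PathP γ) {ε : ℝ} (hε : 0 < ε) :
    WHP (fun n => {g | tmix (skJ 1 g) (fun _ => 0) ≤ (n : ℝ) ^ (γ + ε) ∧
      (n : ℝ) ^ (-(γ + ε)) ≤ gap (skJ 1 g) (fun _ => 0) ∧
      ∀ t, (n : ℝ) ^ (γ + ε) ≤ t → ∀ x, tvDist (skJ 1 g) (fun _ => 0) t x ≤ 1 / 4}) :=
  crit_upper_g (levWg_of_pathP hγ h) (lastWg_of_pathP h) hε

theorem upStmt_of_pathP (h : PathP (2 / 3)) : UpStmt := fun _ hε =>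
  MainThm.whp_mono (upper_of_pathP (by norm_num) h hε)
    (Eventually.of_forall fun _ _ hg => hg.1)

end Vale.Agent.N150.A1
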