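import Vale.Agent.N150.EdgeTr
import Vale.Agent.P150.Bdl.B1

/-! Spectral inequalities for spectra sandwiched between `lam - Z s` and the clipped spectrum
`min lam (2 - s)`, and the Weyl monotonicity of ordered eigenvalues. -/

open Real Finset Matrix

namespace Vale.Agent.N150.Adm

open Vale.Agent.N150.Edge Vale.Agent.P150
open Vale.Agent.P150.F (Mat Vec ip qf hsq OpLe)

variable {n : ℕ} {w s Z : ℝ} {lam mu : Fin n → ℝ}

/-- `mu` lies between `lam - Z s` and the clipped spectrum -/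
def Sand (s Z : ℝ) (lam mu : Fin n → ℝ) : Prop :=
  ∀ a, lam a - Z * s ≤ mu a ∧ mu a ≤ min (lam a) (2 - s)

/-- the standing hypotheses on the spectrum and the scale -/
structure Std (n : ℕ) (w s : ℝ) (lam : Fin n → ℝ) : Prop where
  rig : Rigid w lam
  hn : 0 < n
  hw : 0 < w
  hk : kap w ≤ 1 / 1000
  lo : sc0 n w ≤ s
  hi : s ≤ 1 / 100

/-- `tr (z - mu) ^ (-j)` -/
noncomputable def tr (j : ℕ) (mu : Fin n → ℝ) (z : ℝ) : ℝ := ∑ a, ((z - mu a) ^ j)⁻¹

lemma Std.pos (h : Std n w s lam) : 0 < s := (sc0_pos h.hn h.hw).trans_le h.lo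

lemma Std.mono (h : Std n w s lam) {r : ℝ} (h1 : s ≤ r) (h2 : r ≤ 1 / 100) : Std n w r lam :=
  ⟨h.rig, h.hn, h.hw, h.hk, h.lo.trans h1, h2⟩

lemma Std.sqrt_le (h : Std n w s lam) : √s ≤ 1 / 10 := by
  rw [Real.sqrt_le_left (by norm_num)]
  linarith [h.hi]

lemma sand_clip (h : Std n w s lam) : Sand s 2 lam fun a => min (lam a) (2 - s) := fun a => by
  refine ⟨le_min (by linarith [h.pos]) ?_, le_rfl⟩
  linarith [h.rig.le_eps a, h.lo]

lemma Sand.mono (h : Sand s Z lam mu) {Z' : ℝ} (hs : 0 ≤ s) (hZ : Z ≤ Z') : Sand s Z' lam mu :=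
  fun a => ⟨by nlinarith [(h a).1], (h a).2⟩

lemma Sand.lo (h : Sand s Z lam mu) (a : Fin n) : max (2 - lam a) s ≤ 2 - mu a :=
  max_le (by linarith [(h a).2, min_le_left (lam a) (2 - s)])
    (by linarith [(h a).2, min_le_right (lam a) (2 - s)])

lemma Sand.hi (h : Sand s Z lam mu) (a : Fin n) : 2 - mu a ≤ max (2 - lam a) s + Z * s := by
  linarith [(h a).1, le_max_left (2 - lam a) s]

lemma Sand.le_top (h : Sand s Z lam mu) (a : Fin n) : mu a ≤ 2 - s :=
  (h a).2.trans (min_le_right _ _)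

/-- (S1), range -/
lemma Sand.eps_le (h : Sand s Z lam mu) (H : Std n w s lam) (hZ : Z * s ≤ 1) (a : Fin n) :
    2 - s - mu a ≤ 6 := by
  linarith [(h a).1, H.rig.eps_le a, H.pos]

lemma two_mul_sqrt {σ : ℝ} (hσ : 0 ≤ σ) : 2 * σ * √(2 * σ) ≤ 3 * (σ * √σ) := by
  have h1 : √(2 * σ) ≤ 3 / 2 * √σ := by
    rw [Real.sqrt_le_left (by positivity), mul_pow, Real.sq_sqrt hσ]
    nlinarith
  nlinarith [Real.sqrt_nonneg σ]

/-- (S1), counting -/
lemma Sand.card_le (h : Sand s Z lam mu) (H : Std n w s lam) {σ : ℝ} (hσ : s ≤ σ) :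
    ((univ.filter fun a => 2 - s - mu a ≤ σ).card : ℝ) ≤ n * (σ * √σ) := by
  have h0 := H.pos
  have h1 : ((univ.filter fun a => 2 - s - mu a ≤ σ).card : ℝ) ≤ cnt lam (2 * σ) := by
    unfold cnt
    refine Nat.cast_le.2 (card_le_card fun a ha => ?_)
    simp only [mem_filter, mem_univ, true_and] at ha ⊢
    linarith [(h a).2, min_le_left (lam a) (2 - s)]
  have h2 := H.rig.cnt_upper H.hn H.hw (s := 2 * σ) (by linarith [H.lo]) (by linarith [H.lo, H.hi])
  have h3 := two_mul_sqrt (σ := σ) (by linarith)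
  have h4 : (0 : ℝ) ≤ n := Nat.cast_nonneg _
  have h5 : 0 ≤ σ * √σ := mul_nonneg (by linarith) (Real.sqrt_nonneg _)
  have h6 : (c0 + kap w) * (n * (2 * σ * √(2 * σ))) ≤ 1 / 3 * (n * (3 * (σ * √σ))) :=
    mul_le_mul (by linarith [c0_le, H.hk]) (mul_le_mul_of_nonneg_left h3 h4)
      (mul_nonneg h4 (mul_nonneg (by linarith) (Real.sqrt_nonneg _))) (by norm_num)
  linarith

lemma Sand.tr_le (h : Sand s Z lam mu) (j : ℕ) {z : ℝ} (hz : 2 - s < z) :
    tr j mu z ≤ trC j lam s (z - 2) := by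
  refine sum_le_sum fun a _ => ?_
  have h1 := le_max_right (2 - lam a) s
  exact inv_anti₀ (pow_pos (by linarith) _) (pow_le_pow_left₀ (by linarith) (by linarith [h.lo a]) j)

lemma Sand.le_tr (h : Sand s Z lam mu) (j : ℕ) {z : ℝ} (hz : 2 - s < z) :
    trC j lam s (z - 2 + Z * s) ≤ tr j mu z := by
  refine sum_le_sum fun a _ => ?_
  have h1 := h.le_top a
  exact inv_anti₀ (pow_pos (by linarith) _) (pow_le_pow_left₀ (by linarith) (by linarith [h.hi a]) j)

lemma tr_clip (j : ℕ) (z : ℝ) : tr j (fun a => min (lam a) (2 - s)) z = trC j lam s (z - 2) := by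
  refine sum_congr rfl fun a _ => ?_
  congr 2
  show z - min (lam a) (2 - s) = _
  rcases le_total (lam a) (2 - s) with h | h
  · rw [min_eq_left h, max_eq_left (by linarith)]; ring
  · rw [min_eq_right h, max_eq_right (by linarith)]; ring

/-- (S2), lower part, for the clipped spectrum -/
lemma Std.clip_half (H : Std n w s lam) :
    n + 1 / 50 * (n * √s) ≤ tr 1 (fun a => min (lam a) (2 - s)) (2 - s / 2) := by
  rw [tr_clip, show 2 - s / 2 - 2 = -(s / 2) by ring]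
  exact H.rig.trC_half H.hn H.hw H.hk H.lo H.hi

/-- (S2), upper part -/
lemma Sand.tr_one_le (h : Sand s Z lam mu) (H : Std n w s lam) {r : ℝ} (h1 : s ≤ r)
    (h2 : r ≤ 1 / 4) : tr 1 mu (2 + 2 * r) ≤ n * (1 - √r / 4) := by
  have h0 := H.pos
  refine (h.tr_le 1 (by linarith)).trans ?_
  rw [show 2 + 2 * r - 2 = 2 * r by ring]
  refine (trC_le_trR 1 s fun a => H.rig.pos (by linarith [H.lo]) a).trans ?_
  exact H.rig.trR_one_le' H.hn H.hw (by linarith [H.hk]) (H.lo.trans h1) h2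

lemma Std.two_le (H : Std n w s lam) {r : ℝ} (h1 : s ≤ r) (h2 : r ≤ 4) :
    trC 2 lam r 0 ≤ 3 * (n / √r) := by
  have h3 := (abs_le.1 (H.rig.trC_two H.hn H.hw (H.lo.trans h1) h2)).2
  have h4 : √r ≤ 2 := by
    rw [Real.sqrt_le_left (by norm_num)]; linarith
  have h5 : 0 ≤ n / √r := by positivity
  nlinarith [c0_le, H.hk]

lemma Std.two_le' (H : Std n w s lam) : trC 2 lam s 0 ≤ n / √s := by
  have h3 := (abs_le.1 (H.rig.trC_two H.hn H.hw H.lo (by linarith [H.hi]))).2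
  have h5 : 0 ≤ n / √s := by positivity
  nlinarith [c0_le, H.hk, H.sqrt_le]

lemma Std.le_two (H : Std n w s lam) : 7 / 10 * (n / √s) ≤ trC 2 lam s 0 := by
  have h3 := (abs_le.1 (H.rig.trC_two H.hn H.hw H.lo (by linarith [H.hi]))).1
  have h5 : 0 ≤ n / √s := by positivity
  nlinarith [le_c0, H.hk, H.sqrt_le]

lemma Std.three_le (H : Std n w s lam) : trC 3 lam s 0 ≤ 1 / 2 * (n / (s * √s)) := by
  have h3 := (abs_le.1 (H.rig.trC_three H.hn H.hw H.lo (by linarith [H.hi]))).2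
  have h0 := H.pos
  have h5 : 0 ≤ n / (s * √s) := by positivity
  nlinarith [c0_le, H.hk, H.hi]

/-- (S3), upper part -/
lemma Sand.tr_two_le (h : Sand s Z lam mu) (H : Std n w s lam) {z : ℝ} (hz : 2 - s / 2 ≤ z) :
    tr 2 mu z ≤ 4 * (n / √s) := by
  have h0 := H.pos
  refine (h.tr_le 2 (by linarith)).trans ((trC_le_scale 2 lam h0 (θ := 1 / 2) (by norm_num)
    (by norm_num) (by linarith)).trans ?_)
  have := H.two_le'
  rw [div_le_iff₀ (by norm_num)]
  linarith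

lemma Sand.tr_three_le (h : Sand s Z lam mu) (H : Std n w s lam) {z : ℝ} (hz : 2 - s / 2 ≤ z) :
    tr 3 mu z ≤ 4 * (n / (s * √s)) := by
  have h0 := H.pos
  refine (h.tr_le 3 (by linarith)).trans ((trC_le_scale 3 lam h0 (θ := 1 / 2) (by norm_num)
    (by norm_num) (by linarith)).trans ?_)
  have := H.three_le
  rw [div_le_iff₀ (by norm_num)]
  linarith

/-- (S3), lower part -/
lemma Sand.le_tr_two (h : Sand s Z lam mu) (H : Std n w s lam) {z Y : ℝ} (hz : 2 - s < z)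
    (hY : 0 ≤ Y + Z) (hZ : 0 ≤ Z) (hzY : z ≤ 2 + Y * s) :
    7 / 10 * (n / √s) / (1 + (Y + Z)) ^ 2 ≤ tr 2 mu z := by
  have h0 := H.pos
  refine le_trans ?_ (h.le_tr 2 hz)
  refine le_trans ?_ (scale_le_trC 2 lam hY (by nlinarith) (by nlinarith))
  exact div_le_div_of_nonneg_right H.le_two (by positivity)

/-- (S4), low part -/
lemma Sand.tr_low (h : Sand s Z lam mu) (H : Std n w s lam) {z σ : ℝ} (hz : 2 - s / 2 ≤ z)
    (h1 : s ≤ σ) (h2 : σ ≤ 1) :
    ∑ a, (if 2 - s - mu a ≤ σ then (z - mu a)⁻¹ else 0) ≤ 4 * (n * √σ) := by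
  have h0 := H.pos
  set R := 2 * σ with hR
  have hR0 : 0 < R := by linarith
  have e1 : ∑ a, (if 2 - s - mu a ≤ σ then (z - mu a)⁻¹ else 0)
      ≤ 2 * (trC 1 lam s 0 - trC 1 lam R 0 + cnt lam R * R⁻¹) := by
    unfold trC
    rw [cnt_eq, sum_mul, ← sum_sub_distrib, ← sum_add_distrib, mul_sum]
    refine sum_le_sum fun a _ => ?_
    simp only [add_zero, pow_one]
    have k1 := le_max_right (2 - lam a) s
    have k2 : (max (2 - lam a) R)⁻¹ ≤ (max (2 - lam a) s)⁻¹ :=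
      inv_anti₀ (by linarith) (max_le_max le_rfl (by linarith))
    by_cases ha : 2 - s - mu a ≤ σ
    · have k3 : 2 - lam a ≤ R := by linarith [h.lo a, le_max_left (2 - lam a) s]
      rw [if_pos ha, if_pos k3, max_eq_right k3, one_mul, sub_add_cancel]
      have k4 : max (2 - lam a) s / 2 ≤ z - mu a := by linarith [h.lo a]
      calc (z - mu a)⁻¹ ≤ (max (2 - lam a) s / 2)⁻¹ := inv_anti₀ (by linarith) k4
        _ = 2 * (max (2 - lam a) s)⁻¹ := by rw [inv_div, div_eq_mul_inv]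
    · rw [if_neg ha]
      have k5 : 0 ≤ (if 2 - lam a ≤ R then (1 : ℝ) else 0) * R⁻¹ := by
        split_ifs <;> positivity
      linarith
  have e2 := (abs_le.1 (H.rig.trC_one H.hn H.hw H.lo (by linarith [H.hi]))).2
  have e3 := (abs_le.1 (H.rig.trC_one H.hn H.hw (r := R) (by linarith [H.lo]) (by linarith))).1
  have e4 := H.rig.cnt_upper H.hn H.hw (s := R) (by linarith [H.lo]) (by linarith [H.lo, H.hi])
  have e5 : cnt lam R * R⁻¹ ≤ (c0 + kap w) * (n * √R) := by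
    rw [← div_eq_mul_inv, div_le_iff₀ hR0]
    linarith
  have e6 : √R ≤ 3 / 2 * √σ := by
    rw [Real.sqrt_le_left (by positivity), mul_pow, Real.sq_sqrt (by linarith)]
    nlinarith
  have h4 : (0 : ℝ) ≤ n := Nat.cast_nonneg _
  have e7 : 0 ≤ n * √s := by positivity
  have e8 : 0 ≤ n * √R := by positivity
  have e9 : n * √R ≤ 3 / 2 * (n * √σ) := by nlinarith
  have e10 : (s / 16 + 10 * kap w) * (n * √s) ≤ 2 * c0 * (n * √s) :=
    mul_le_mul_of_nonneg_right (by linarith [le_c0, H.hk, H.hi]) e7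
  have e11 : (R / 16 + 10 * kap w + 2 * c0 + (c0 + kap w)) * (n * √R) ≤ 1 * (n * √R) :=
    mul_le_mul_of_nonneg_right (by linarith [c0_le, H.hk]) e8
  nlinarith

/-- (S4), high part -/
lemma Sand.tr_high (h : Sand s Z lam mu) (H : Std n w s lam) {z σ : ℝ} (hz : 2 - s / 2 ≤ z)
    (h1 : s ≤ σ) (h2 : σ ≤ 4) :
    ∑ a, (if 2 - s - mu a ≤ σ then 0 else ((z - mu a) ^ 2)⁻¹) ≤ 12 * (n / √σ) := by
  have h0 := H.pos
  have e1 : ∑ a, (if 2 - s - mu a ≤ σ then 0 else ((z - mu a) ^ 2)⁻¹) ≤ 4 * trC 2 lam σ 0 := by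
    unfold trC
    rw [mul_sum]
    refine sum_le_sum fun a _ => ?_
    have k1 := le_max_right (2 - lam a) σ
    rw [add_zero]
    split_ifs with ha
    · have : 0 < max (2 - lam a) σ := by linarith
      positivity
    · have k2 : max (2 - lam a) σ / 2 ≤ z - mu a := by
        have k3 := h.lo a
        have k4 := le_max_left (2 - lam a) s
        have k5 := le_max_right (2 - lam a) s
        rcases le_total (2 - lam a) σ with k | k
        · rw [max_eq_right k]; linarith [not_le.1 ha]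
        · rw [max_eq_left k]; linarith
      calc ((z - mu a) ^ 2)⁻¹ ≤ ((max (2 - lam a) σ / 2) ^ 2)⁻¹ :=
            inv_anti₀ (pow_pos (by linarith) _) (pow_le_pow_left₀ (by linarith) k2 2)
        _ = 4 * (max (2 - lam a) σ ^ 2)⁻¹ := by rw [div_pow, inv_div, div_eq_mul_inv]; norm_num
  linarith [H.two_le h1 h2]

/-! ### elementary properties of the trace functions -/

lemma tr_pos (hn : 0 < n) (j : ℕ) {z : ℝ} (hz : ∀ a, mu a < z) : 0 < tr j mu z :=
  sum_pos (fun a _ => inv_pos.2 (pow_pos (sub_pos.2 (hz a)) _)) ⟨⟨0, hn⟩, mem_univ _⟩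

lemma tr_anti (j : ℕ) {z z' : ℝ} (hz : ∀ a, mu a < z) (h : z ≤ z') : tr j mu z' ≤ tr j mu z :=
  sum_le_sum fun a _ => inv_anti₀ (pow_pos (sub_pos.2 (hz a)) _)
    (pow_le_pow_left₀ (sub_pos.2 (hz a)).le (by linarith) j)

lemma tr_sub {z z' : ℝ} (hz : ∀ a, mu a < z) (hz' : ∀ a, mu a < z') :
    tr 1 mu z - tr 1 mu z' = (z' - z) * ∑ a, ((z - mu a) * (z' - mu a))⁻¹ := by
  unfold tr
  rw [← sum_sub_distrib, mul_sum]
  refine sum_congr rfl fun a _ => ?_
  have h1 := (sub_pos.2 (hz a)).ne'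
  have h2 := (sub_pos.2 (hz' a)).ne'
  field_simp
  ring

lemma tr_sub_ge {z z' : ℝ} (hz : ∀ a, mu a < z) (h : z ≤ z') :
    (z' - z) * tr 2 mu z' ≤ tr 1 mu z - tr 1 mu z' := by
  rw [tr_sub hz fun a => (hz a).trans_le h]
  refine mul_le_mul_of_nonneg_left (sum_le_sum fun a _ => ?_) (by linarith)
  have h1 := sub_pos.2 (hz a)
  exact inv_anti₀ (mul_pos h1 (by linarith)) (by nlinarith)

lemma tr_sub_le {z z' : ℝ} (hz : ∀ a, mu a < z) (h : z ≤ z') :
    tr 1 mu z - tr 1 mu z' ≤ (z' - z) * tr 2 mu z := by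
  rw [tr_sub hz fun a => (hz a).trans_le h]
  refine mul_le_mul_of_nonneg_left (sum_le_sum fun a _ => ?_) (by linarith)
  have h1 := sub_pos.2 (hz a)
  exact inv_anti₀ (pow_pos h1 _) (by nlinarith)

/-- the spectral parameter is Lipschitz in the trace -/
lemma abs_sub_le_of_tr {z z' zh T : ℝ} (hz : ∀ a, mu a < z) (hz' : ∀ a, mu a < z') (h1 : z ≤ zh)
    (h2 : z' ≤ zh) (hT : T ≤ tr 2 mu zh) : |z - z'| * T ≤ |tr 1 mu z - tr 1 mu z'| := by
  rcases le_total z z' with h | h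
  · have k1 := tr_sub_ge hz h
    have k2 := tr_anti 2 hz' h2
    rw [abs_sub_comm, abs_of_nonneg (by linarith)]
    refine le_trans ?_ (le_abs_self _)
    nlinarith
  · have k1 := tr_sub_ge hz' h
    have k2 := tr_anti 2 hz h1
    rw [abs_of_nonneg (by linarith), abs_sub_comm]
    refine le_trans ?_ (le_abs_self _)
    nlinarith

lemma le_of_tr_le (hn : 0 < n) {z z' : ℝ} (hz : ∀ a, mu a < z) (hz' : ∀ a, mu a < z')
    (h : tr 1 mu z ≤ tr 1 mu z') : z' ≤ z := by
  by_contra hc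
  have h1 := not_le.1 hc
  have h2 := tr_sub_ge hz h1.le
  have h3 := mul_pos (sub_pos.2 h1) (tr_pos hn 2 hz')
  linarith

/-! ### Weyl monotonicity -/

lemma qf_frame (O : Mat n) (lam v : Vec n) :
    qf (Oᵀ * Matrix.diagonal lam * O) v = ∑ a, lam a * (O *ᵥ v) a ^ 2 := by
  unfold qf ip
  rw [← Matrix.mulVec_mulVec, ← Matrix.mulVec_mulVec]
  have : ∑ i, v i * (Oᵀ *ᵥ (Matrix.diagonal lam *ᵥ (O *ᵥ v))) i
      = (O *ᵥ v) ⬝ᵥ (Matrix.diagonal lam *ᵥ (O *ᵥ v)) := by
    rw [← Matrix.vecMul_transpose O v, ← Matrix.dotProduct_mulVec]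
    rfl
  rw [this]
  refine sum_congr rfl fun a _ => ?_
  rw [Matrix.mulVec_diagonal]
  ring

lemma sq_frame {O : Mat n} (hO : Oᵀ * O = 1) (v : Vec n) : ∑ a, (O *ᵥ v) a ^ 2 = F.sq v := by
  have h := qf_frame O (fun _ => 1) v
  rw [Matrix.diagonal_one, Matrix.mul_one, hO] at h
  simp only [one_mul] at h
  rw [← h]
  unfold qf ip F.sq
  rw [Matrix.one_mulVec]
  exact sum_congr rfl fun i _ => by ring

/-- counting form of the monotonicity of eigenvalues -/
lemma card_le_of_qf {O O' : Mat n} (hO : Oᵀ * O = 1) (hO' : O'ᵀ * O' = 1)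
    (h : ∀ v, qf (O'ᵀ * Matrix.diagonal mu * O') v ≤ qf (Oᵀ * Matrix.diagonal lam * O) v) (t : ℝ) :
    (univ.filter fun a => t ≤ mu a).card ≤ (univ.filter fun a => t ≤ lam a).card := by
  have hO2 : O' * O'ᵀ = 1 := mul_eq_one_comm.1 hO'
  let ex : ({a // t ≤ mu a} → ℝ) →ₗ[ℝ] Vec n :=
    { toFun := fun c a => if ha : t ≤ mu a then c ⟨a, ha⟩ else 0
      map_add' := fun c d => funext fun a => by by_cases ha : t ≤ mu a <;> simp [ha]
      map_smul' := fun r c => funext fun a => by by_cases ha : t ≤ mu a <;> simp [ha] }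
  let f : ({a // t ≤ mu a} → ℝ) →ₗ[ℝ] ({a // t ≤ lam a} → ℝ) :=
    (LinearMap.funLeft ℝ ℝ Subtype.val).comp ((Matrix.mulVecLin (O * O'ᵀ)).comp ex)
  have hf : Function.Injective f := by
    rw [← LinearMap.ker_eq_bot, LinearMap.ker_eq_bot']
    intro c hc
    set v := O'ᵀ *ᵥ ex c with hv
    have e1 : O' *ᵥ v = ex c := by rw [hv, Matrix.mulVec_mulVec, hO2, Matrix.one_mulVec]
    have e2 : ∀ a, t ≤ lam a → (O *ᵥ v) a = 0 := fun a ha => by
      rw [hv, Matrix.mulVec_mulVec]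
      exact congrFun hc ⟨a, ha⟩
    have e3 := h v
    rw [qf_frame, qf_frame, e1] at e3
    have e4 : ∑ a, t * ex c a ^ 2 ≤ ∑ a, mu a * ex c a ^ 2 := sum_le_sum fun a _ => by
      by_cases ha : t ≤ mu a
      · exact mul_le_mul_of_nonneg_right ha (sq_nonneg _)
      · have : ex c a = 0 := dif_neg ha
        rw [this]; simp
    have e5 : ∑ a, t * ex c a ^ 2 = ∑ a, t * (O *ᵥ v) a ^ 2 := by
      rw [← mul_sum, ← mul_sum, sq_frame hO, ← e1, sq_frame hO']
    have e6 : ∀ a ∈ univ, 0 ≤ (t - lam a) * (O *ᵥ v) a ^ 2 := fun a _ => by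
      by_cases ha : t ≤ lam a
      · rw [e2 a ha]; simp
      · exact mul_nonneg (by linarith [not_le.1 ha]) (sq_nonneg _)
    have e7 : ∑ a, (t - lam a) * (O *ᵥ v) a ^ 2 = 0 := by
      refine le_antisymm ?_ (sum_nonneg e6)
      simp only [sub_mul, sum_sub_distrib]
      linarith
    have e8 : ∀ a, (O *ᵥ v) a = 0 := fun a => by
      by_cases ha : t ≤ lam a
      · exact e2 a ha
      · have k := (sum_eq_zero_iff_of_nonneg e6).1 e7 a (mem_univ _)
        exact pow_eq_zero_iff two_ne_zero |>.1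
          ((mul_eq_zero.1 k).resolve_left (by linarith [not_le.1 ha]))
    have e9 : v = 0 := by
      rw [← Matrix.one_mulVec v, ← hO, ← Matrix.mulVec_mulVec, show O *ᵥ v = 0 from funext e8,
        Matrix.mulVec_zero]
    funext a
    have k := congrFun e1 a.1
    rw [e9, Matrix.mulVec_zero] at k
    exact ((dif_pos a.2 : ex c a.1 = c ⟨a.1, a.2⟩).symm.trans k.symm :)
  have := LinearMap.finrank_le_finrank_of_injective hf
  rwa [Module.finrank_fintype_fun_eq_card, Module.finrank_fintype_fun_eq_card,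
    Fintype.card_subtype, Fintype.card_subtype] at this

lemma le_of_card_le {σ τ : Equiv.Perm (Fin n)} (h1 : Monotone (mu ∘ σ)) (h2 : Monotone (lam ∘ τ))
    (h : ∀ t, (univ.filter fun a => t ≤ mu a).card ≤ (univ.filter fun a => t ≤ lam a).card)
    (i : Fin n) : mu (σ i) ≤ lam (τ i) := by
  by_contra hc
  have hc' := not_le.1 hc
  have k1 : (Finset.Ici i).card ≤ (univ.filter fun a => mu (σ i) ≤ mu a).card :=
    card_le_card_of_injOn σ (fun j hj => by
      simp only [coe_filter, mem_univ, true_and, Set.mem_ofPred_eq]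
      exact h1 (Finset.mem_Ici.1 hj)) σ.injective.injOn
  have k2 : (univ.filter fun a => mu (σ i) ≤ lam a).card ≤ (Finset.Ioi i).card :=
    card_le_card_of_injOn τ.symm (fun a ha => by
      simp only [coe_filter, mem_univ, true_and, Set.mem_ofPred_eq] at ha
      simp only [coe_Ioi, Set.mem_Ioi]
      by_contra k
      have k3 : lam (τ (τ.symm a)) ≤ lam (τ i) := h2 (not_lt.1 k)
      rw [Equiv.apply_symm_apply] at k3
      linarith) τ.symm.injective.injOn
  have k3 := h (mu (σ i))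
  have k4 : (Finset.Ioi i).card < (Finset.Ici i).card :=
    card_lt_card ⟨Finset.Ioi_subset_Ici_self, fun k => lt_irrefl i (Finset.mem_Ioi.1
      (k (Finset.mem_Ici.2 le_rfl)))⟩
  omega

/-- **Weyl**: ordered eigenvalues are monotone in the matrix -/
theorem weyl {O O' : Mat n} (hO : Oᵀ * O = 1) (hO' : O'ᵀ * O' = 1)
    (h : ∀ v, qf (O'ᵀ * Matrix.diagonal mu * O') v ≤ qf (Oᵀ * Matrix.diagonal lam * O) v)
    {σ τ : Equiv.Perm (Fin n)} (h1 : Monotone (mu ∘ σ)) (h2 : Monotone (lam ∘ τ)) (i : Fin n) :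
    mu (σ i) ≤ lam (τ i) :=
  le_of_card_le h1 h2 (card_le_of_qf hO hO' h) i

lemma rigid_perm (h : Rigid w lam) (σ : Equiv.Perm (Fin n)) : Rigid w (lam ∘ σ) := by
  refine ⟨fun a => h.1 (σ a), fun s h1 h2 => ?_⟩
  have e : cnt (lam ∘ σ) s = cnt lam s := by
    rw [cnt_eq, cnt_eq]
    exact Equiv.sum_comp σ fun a => if 2 - lam a ≤ s then (1 : ℝ) else 0
  rw [e]
  exact h.2 s h1 h2

lemma Std.perm (h : Std n w s lam) (σ : Equiv.Perm (Fin n)) : Std n w s (lam ∘ σ) :=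
  ⟨rigid_perm h.rig σ, h.hn, h.hw, h.hk, h.lo, h.hi⟩

/-- a matrix between `J - Z s` and the clipped matrix has a sandwiched spectrum -/
theorem sand_of_qf {O O' : Mat n} (hO : Oᵀ * O = 1) (hO' : O'ᵀ * O' = 1)
    (h1 : ∀ v, qf (Oᵀ * Matrix.diagonal lam * O) v - Z * s * F.sq v
      ≤ qf (O'ᵀ * Matrix.diagonal mu * O') v)
    (h2 : ∀ v, qf (O'ᵀ * Matrix.diagonal mu * O') v
      ≤ qf (Oᵀ * Matrix.diagonal (fun a => min (lam a) (2 - s)) * O) v) :
    ∃ σ : Equiv.Perm (Fin n), Sand s Z (lam ∘ σ) mu := by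
  have m1 := Tuple.monotone_sort mu
  have m2 := Tuple.monotone_sort lam
  refine ⟨(Tuple.sort mu).symm.trans (Tuple.sort lam), fun a => ⟨?_, ?_⟩⟩
  · have k := weyl (mu := fun a => lam a - Z * s) (lam := mu) hO' hO (fun v => by
      refine le_trans (le_of_eq ?_) (h1 v)
      rw [qf_frame, qf_frame, ← sq_frame hO, mul_sum, ← sum_sub_distrib]
      exact sum_congr rfl fun a _ => by ring) (σ := Tuple.sort lam)
      (fun i j hij => sub_le_sub_right (m2 hij) _) m1 ((Tuple.sort mu).symm a)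
    rwa [Equiv.apply_symm_apply] at k
  · have k := weyl hO hO' h2 m1 (τ := Tuple.sort lam)
      (fun i j hij => min_le_min_right _ (m2 hij)) ((Tuple.sort mu).symm a)
    rwa [Equiv.apply_symm_apply] at k

end Vale.Agent.N150.Adm
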