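import Vale.Agent.N150.SphAnn
import Vale.Agent.P150.Bdl.B21

/-! P150: the cap flow `J_s = min (J, 2 - s)` as an adaptive channel process, on a time grid which
contains all the gaps `2 - lam a`. -/

open Matrix MeasureTheory Finset

namespace Vale.Agent.N150.Cap

open Vale.Agent.P150 Vale.Agent.P150.F Vale.Agent.N150.Sp

variable {n : ℕ}

/-- indicator of the capped modes `2 - lam a ≤ s` -/
noncomputable def dI (lam : Vec n) (s : ℝ) : Vec n := fun a => if 2 - lam a ≤ s then 1 else 0

/-- the clipped spectrum -/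
noncomputable def lamC (lam : Vec n) (s : ℝ) : Vec n := fun a => min (lam a) (2 - s)

/-- the accumulated precision `(s - (2 - lam a))₊` -/
noncomputable def pr (lam : Vec n) (s : ℝ) : Vec n := fun a => max (s - (2 - lam a)) 0

/-- a time grid adapted to the spectrum: no gap `2 - lam a` lies strictly inside a step -/
structure Grid (lam : Vec n) (t : ℕ → ℝ) (dl : ℝ) : Prop where
  lt : ∀ k, t k < t (k + 1)
  le : ∀ k, t (k + 1) - t k ≤ dl
  one : dl ≤ 1
  start : ∀ a, t 0 ≤ 2 - lam a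
  skip : ∀ k a, t k < 2 - lam a → t (k + 1) ≤ 2 - lam a

/-- the clipped matrix -/
noncomputable def JC (lam : Vec n) (O : OG n) (s : ℝ) : Mat n := JO (lamC lam s) O

/-- the projection on the capped modes -/
noncomputable def PC (lam : Vec n) (O : OG n) (s : ℝ) : Mat n := JO (dI lam s) O

/-- the driving matrix: the noise is written in the eigenframe -/
noncomputable def RC (lam : Vec n) (O : OG n) (s : ℝ) : Mat n := O.1ᵀ * Matrix.diagonal (dI lam s)

/-- the field in the eigenframe, for the planted vector `xt` and the noise `ω` -/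
noncomputable def yF (lam : Vec n) (t : ℕ → ℝ) (xt : Vec n) (ω : ℕ → Vec n) : ℕ → Vec n
  | 0 => 0
  | k + 1 => fun a => yF lam t xt ω k a
      + dI lam (t k) a * ((t (k + 1) - t k) * xt a + √(t (k + 1) - t k) * ω k a)

/-- the noise part of the field in the eigenframe -/
noncomputable def nz (lam : Vec n) (t : ℕ → ℝ) (ω : ℕ → Vec n) (k : ℕ) : Vec n :=
  fun a => ∑ j ∈ range k, dI lam (t j) a * √(t (j + 1) - t j) * ω j a

/-! ### diagonal bookkeeping -/

theorem dI_mul_self (lam : Vec n) (s : ℝ) (a : Fin n) : dI lam s a * dI lam s a = dI lam s a := by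
  unfold dI; split_ifs <;> simp

theorem dI_mul_of_le (lam : Vec n) {s s' : ℝ} (h : s ≤ s') (a : Fin n) :
    dI lam s a * dI lam s' a = dI lam s a := by
  unfold dI
  by_cases h1 : 2 - lam a ≤ s
  · rw [if_pos h1, if_pos (h1.trans h), one_mul]
  · rw [if_neg h1, zero_mul]

theorem dI_nonneg (lam : Vec n) (s : ℝ) (a : Fin n) : 0 ≤ dI lam s a := by
  unfold dI; split_ifs <;> simp

theorem dI_le_one (lam : Vec n) (s : ℝ) (a : Fin n) : dI lam s a ≤ 1 := by
  unfold dI; split_ifs <;> simp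

theorem lamC_eq (lam : Vec n) (s : ℝ) (a : Fin n) : lamC lam s a = lam a - pr lam s a := by
  unfold lamC pr
  rcases le_total (lam a) (2 - s) with h | h
  · rw [min_eq_left h, max_eq_right (by linarith), sub_zero]
  · rw [min_eq_right h, max_eq_left (by linarith)]; ring

theorem two_sub_lamC (lam : Vec n) (s : ℝ) (a : Fin n) :
    2 - lamC lam s a = max (2 - lam a) s := by
  unfold lamC
  rcases le_total (lam a) (2 - s) with h | h
  · rw [min_eq_left h, max_eq_left (by linarith)]
  · rw [min_eq_right h, max_eq_right (by linarith)]; ring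

theorem pr_nonneg (lam : Vec n) (s : ℝ) (a : Fin n) : 0 ≤ pr lam s a := le_max_right _ _

theorem dI_mul_pr (lam : Vec n) (s : ℝ) (a : Fin n) : dI lam s a * pr lam s a = pr lam s a := by
  unfold dI pr
  split_ifs with h
  · rw [one_mul]
  · rw [zero_mul, max_eq_right (by linarith)]

theorem dI_mul_lamC (lam : Vec n) (s : ℝ) (a : Fin n) :
    dI lam s a * lamC lam s a = (2 - s) * dI lam s a := by
  unfold dI lamC
  split_ifs with h
  · rw [one_mul, mul_one, min_eq_right (by linarith)]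
  · simp

theorem JO_mul (u v : Vec n) (O : OG n) : JO u O * JO v O = JO (fun a => u a * v a) O := by
  unfold JO
  calc O.1ᵀ * Matrix.diagonal u * O.1 * (O.1ᵀ * Matrix.diagonal v * O.1)
      = O.1ᵀ * (Matrix.diagonal u * (O.1 * O.1ᵀ) * Matrix.diagonal v) * O.1 := by
        simp only [Matrix.mul_assoc]
    _ = _ := by rw [OG.mul_transpose, Matrix.mul_one, Matrix.diagonal_mul_diagonal]

theorem JO_transpose (u : Vec n) (O : OG n) : (JO u O)ᵀ = JO u O := by
  unfold JO
  rw [Matrix.transpose_mul, Matrix.transpose_mul, Matrix.transpose_transpose,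
    Matrix.diagonal_transpose, Matrix.mul_assoc]

theorem JO_sub_smul (u v : Vec n) (c : ℝ) (O : OG n) :
    JO (fun a => u a - c * v a) O = JO u O - c • JO v O := by
  unfold JO
  have e : Matrix.diagonal (fun a => u a - c * v a)
      = Matrix.diagonal u - c • Matrix.diagonal v := by
    ext i j
    simp only [Matrix.diagonal_apply, Matrix.sub_apply, Matrix.smul_apply, smul_eq_mul]
    split_ifs <;> simp
  rw [e, Matrix.mul_sub, Matrix.sub_mul, Matrix.mul_smul, Matrix.smul_mul]

theorem JO_one (O : OG n) : JO (fun _ => 1) O = 1 := by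
  unfold JO
  rw [Matrix.diagonal_one, Matrix.mul_one, OG.transpose_mul]

theorem JO_mulVec (u : Vec n) (O : OG n) (v : Vec n) :
    JO u O *ᵥ v = O.1ᵀ *ᵥ fun a => u a * (O.1 *ᵥ v) a := by
  unfold JO
  rw [← Matrix.mulVec_mulVec, ← Matrix.mulVec_mulVec]
  congr 1
  funext a
  rw [Matrix.mulVec_diagonal]

theorem act_JO (u : Vec n) (O : OG n) (v : Vec n) :
    O.1 *ᵥ (JO u O *ᵥ v) = fun a => u a * (O.1 *ᵥ v) a := by
  rw [JO_mulVec, OG.mulVec_tr_mulVec]

theorem RC_mul (lam : Vec n) (O : OG n) (s : ℝ) : RC lam O s * (RC lam O s)ᵀ = PC lam O s := by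
  unfold RC PC JO
  rw [Matrix.transpose_mul, Matrix.transpose_transpose, Matrix.diagonal_transpose,
    Matrix.mul_assoc, ← Matrix.mul_assoc (Matrix.diagonal _), Matrix.diagonal_mul_diagonal,
    Matrix.mul_assoc]
  simp only [dI_mul_self]

theorem RC_mulVec (lam : Vec n) (O : OG n) (s : ℝ) (ξ : Vec n) :
    RC lam O s *ᵥ ξ = O.1ᵀ *ᵥ fun a => dI lam s a * ξ a := by
  unfold RC
  rw [← Matrix.mulVec_mulVec]
  congr 1
  funext a
  rw [Matrix.mulVec_diagonal]

theorem abs_RC_le (lam : Vec n) (O : OG n) (s : ℝ) (i j : Fin n) : |RC lam O s i j| ≤ 1 := by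
  unfold RC
  rw [Matrix.mul_diagonal, Matrix.transpose_apply, abs_mul, abs_of_nonneg (dI_nonneg lam s j)]
  exact mul_le_one₀ (OG.abs_le_one O j i) (dI_nonneg lam s j) (dI_le_one lam s j)

theorem PC_transpose (lam : Vec n) (O : OG n) (s : ℝ) : (PC lam O s)ᵀ = PC lam O s :=
  JO_transpose _ _

theorem PC_mul_of_le (lam : Vec n) (O : OG n) {s s' : ℝ} (h : s ≤ s') :
    PC lam O s * PC lam O s' = PC lam O s := by
  unfold PC
  rw [JO_mul]
  simp only [dI_mul_of_le lam h]

theorem PC_mul_self (lam : Vec n) (O : OG n) (s : ℝ) : PC lam O s * PC lam O s = PC lam O s :=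
  PC_mul_of_le lam O le_rfl

theorem PC_mul_JC (lam : Vec n) (O : OG n) (s : ℝ) :
    PC lam O s * JC lam O s = (2 - s) • PC lam O s := by
  unfold PC JC
  rw [JO_mul]
  have h := JO_sub_smul (fun _ => 0) (dI lam s) (-(2 - s)) O
  have h0 : JO (fun _ : Fin n => (0 : ℝ)) O = 0 := by
    unfold JO
    rw [Matrix.diagonal_zero, Matrix.mul_zero, Matrix.zero_mul]
  rw [h0, neg_smul, zero_sub, neg_neg] at h
  rw [← h]
  congr 1
  funext a
  rw [dI_mul_lamC]
  ring

namespace Grid

variable {lam : Vec n} {t : ℕ → ℝ} {dl : ℝ}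

theorem strictMono (h : Grid lam t dl) : StrictMono t := strictMono_nat_of_lt_succ h.lt

theorem mono (h : Grid lam t dl) : Monotone t := h.strictMono.monotone

theorem step_pos (h : Grid lam t dl) (k : ℕ) : 0 < t (k + 1) - t k := sub_pos.2 (h.lt k)

theorem dl_pos (h : Grid lam t dl) : 0 < dl := (h.step_pos 0).trans_le (h.le 0)

theorem pr_zero (h : Grid lam t dl) (a : Fin n) : pr lam (t 0) a = 0 :=
  max_eq_right (by linarith [h.start a])

theorem pr_succ (h : Grid lam t dl) (k : ℕ) (a : Fin n) :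
    pr lam (t (k + 1)) a = pr lam (t k) a + (t (k + 1) - t k) * dI lam (t k) a := by
  unfold pr dI
  have h1 := h.lt k
  split_ifs with h2
  · rw [max_eq_left (by linarith), max_eq_left (by linarith)]; ring
  · have h3 := h.skip k a (not_le.1 h2)
    rw [max_eq_right (by linarith), max_eq_right (by linarith [not_le.1 h2])]; ring

theorem pr_eq (h : Grid lam t dl) (k : ℕ) (a : Fin n) :
    pr lam (t k) a = ∑ j ∈ range k, (t (j + 1) - t j) * dI lam (t j) a := by
  induction k with
  | zero => rw [h.pr_zero, Finset.sum_range_zero]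
  | succ k ih => rw [h.pr_succ, Finset.sum_range_succ, ih]

theorem lamC_zero (h : Grid lam t dl) : lamC lam (t 0) = lam := by
  funext a
  rw [lamC_eq, h.pr_zero, sub_zero]

theorem JC_zero (h : Grid lam t dl) (O : OG n) : JC lam O (t 0) = JO lam O := by
  unfold JC
  rw [h.lamC_zero]

theorem JC_succ (h : Grid lam t dl) (O : OG n) (k : ℕ) :
    JC lam O (t (k + 1)) = JC lam O (t k) - (t (k + 1) - t k) • PC lam O (t k) := by
  unfold JC PC
  rw [← JO_sub_smul]
  congr 1
  funext a
  rw [lamC_eq, lamC_eq, h.pr_succ]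
  ring

theorem PC_mul_succ (h : Grid lam t dl) (O : OG n) (k : ℕ) :
    PC lam O (t k) * PC lam O (t (k + 1)) = PC lam O (t k) := PC_mul_of_le lam O (h.lt k).le

/-- closed form of the field in the eigenframe -/
theorem yF_eq (h : Grid lam t dl) (xt : Vec n) (ω : ℕ → Vec n) (k : ℕ) (a : Fin n) :
    yF lam t xt ω k a = pr lam (t k) a * xt a + nz lam t ω k a := by
  unfold nz
  induction k with
  | zero => rw [h.pr_zero]; simp [yF]
  | succ k ih =>
    rw [h.pr_succ, Finset.sum_range_succ]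
    simp only [yF]
    rw [ih]
    ring

/-- the field lives on the capped modes -/
theorem dI_mul_yF (h : Grid lam t dl) (xt : Vec n) (ω : ℕ → Vec n) (k : ℕ) (a : Fin n) :
    dI lam (t k) a * yF lam t xt ω k a = yF lam t xt ω k a := by
  induction k with
  | zero => simp [yF]
  | succ k ih =>
    have h1 := dI_mul_of_le lam (h.lt k).le a
    simp only [yF]
    rw [← ih]
    linear_combination (yF lam t xt ω k a
      + ((t (k + 1) - t k) * xt a + √(t (k + 1) - t k) * ω k a)) * h1

theorem PC_yF (h : Grid lam t dl) (O : OG n) (xt : Vec n) (ω : ℕ → Vec n) (k : ℕ) :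
    PC lam O (t k) *ᵥ (O.1ᵀ *ᵥ yF lam t xt ω k) = O.1ᵀ *ᵥ yF lam t xt ω k := by
  unfold PC
  rw [JO_mulVec, OG.mulVec_tr_mulVec]
  simp only [h.dI_mul_yF]

/-- the cap flow as a channel process; states are `(k, y)` -/
noncomputable def proc (h : Grid lam t dl) (O : OG n) : Proc n n (ℕ × Vec n) where
  δ s := t (s.1 + 1) - t s.1
  hδ s := h.step_pos s.1
  hδ1 s := (h.le s.1).trans h.one
  M s := JC lam O (t s.1)
  y s := s.2
  R s := RC lam O (t s.1)
  nxt s z := (s.1 + 1, s.2 + z)
  measδ := (measurable_from_nat (f := fun k => t (k + 1) - t k)).comp measurable_fst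
  measM i j := (measurable_from_nat (f := fun k => JC lam O (t k) i j)).comp measurable_fst
  measy i := (measurable_pi_apply i).comp measurable_snd
  measR i j := (measurable_from_nat (f := fun k => RC lam O (t k) i j)).comp measurable_fst
  measnxt := ((measurable_from_nat (f := fun k => k + 1)).comp
    (measurable_fst.comp measurable_fst)).prodMk
      ((measurable_snd.comp measurable_fst).add measurable_snd)
  hM s z := by rw [RC_mul]; exact h.JC_succ O s.1
  hy _ _ := rfl

variable (h : Grid lam t dl) (O : OG n)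

@[simp] theorem proc_δ (s : ℕ × Vec n) : (h.proc O).δ s = t (s.1 + 1) - t s.1 := rfl
@[simp] theorem proc_M (s : ℕ × Vec n) : (h.proc O).M s = JC lam O (t s.1) := rfl
@[simp] theorem proc_y (s : ℕ × Vec n) : (h.proc O).y s = s.2 := rfl
@[simp] theorem proc_R (s : ℕ × Vec n) : (h.proc O).R s = RC lam O (t s.1) := rfl
@[simp] theorem proc_nxt (s : ℕ × Vec n) (z : Vec n) :
    (h.proc O).nxt s z = (s.1 + 1, s.2 + z) := rfl

theorem proc_Q (s : ℕ × Vec n) : (h.proc O).Q s = PC lam O (t s.1) := RC_mul lam O _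

theorem proc_law (s : ℕ × Vec n) : (h.proc O).law s = gM (JC lam O (t s.1)) s.2 := rfl

theorem proc_law_zero : (h.proc O).law (0, 0) = gM (JO lam O) 0 := by
  rw [proc_law, h.JC_zero]

theorem obs_RC (s δ : ℝ) (x : Cfg n) (ξ : Vec n) : obs (RC lam O s) δ x ξ
    = O.1ᵀ *ᵥ fun a => dI lam s a * (δ * (O.1 *ᵥ sv x) a + √δ * ξ a) := by
  have e : obs (RC lam O s) δ x ξ
      = δ • ((RC lam O s * (RC lam O s)ᵀ) *ᵥ sv x) + √δ • (RC lam O s *ᵥ ξ) := rfl
  rw [e, RC_mul, RC_mulVec]
  unfold PC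
  rw [JO_mulVec, ← Matrix.mulVec_smul, ← Matrix.mulVec_smul, ← Matrix.mulVec_add]
  congr 1
  funext a
  simp only [Pi.add_apply, Pi.smul_apply, smul_eq_mul]
  ring

theorem proc_nx (s : ℕ × Vec n) (x : Cfg n) (ξ : Vec n) : (h.proc O).nx s x ξ
    = (s.1 + 1, s.2 + (t (s.1 + 1) - t s.1) • (PC lam O (t s.1) *ᵥ sv x)
        + √(t (s.1 + 1) - t s.1) • (RC lam O (t s.1) *ᵥ ξ)) := by
  have e : (h.proc O).nx s x ξ = (s.1 + 1, s.2 + ((t (s.1 + 1) - t s.1) •
      ((RC lam O (t s.1) * (RC lam O (t s.1))ᵀ) *ᵥ sv x)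
        + √(t (s.1 + 1) - t s.1) • (RC lam O (t s.1) *ᵥ ξ))) := rfl
  rw [e, RC_mul, add_assoc]

theorem traj_fst (s : ℕ × Vec n) (x : Cfg n) (ω : ℕ → Vec n) (k : ℕ) :
    ((h.proc O).traj s x ω k).1 = s.1 + k := by
  induction k with
  | zero => rfl
  | succ k ih => rw [Proc.traj_succ, proc_nx, ih]; rfl

/-- **path formula**: the field is a function of the frame vector `O x` and of the noise -/
theorem traj_eq (x : Cfg n) (ω : ℕ → Vec n) (k : ℕ) :
    (h.proc O).traj (0, 0) x ω k = (k, O.1ᵀ *ᵥ yF lam t (O.1 *ᵥ sv x) ω k) := by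
  induction k with
  | zero => simp [yF]
  | succ k ih =>
    rw [Proc.traj_succ, ih]
    have e : (h.proc O).nx (k, O.1ᵀ *ᵥ yF lam t (O.1 *ᵥ sv x) ω k) x (ω k)
        = (k + 1, O.1ᵀ *ᵥ yF lam t (O.1 *ᵥ sv x) ω k
          + obs (RC lam O (t k)) (t (k + 1) - t k) x (ω k)) := rfl
    rw [e, obs_RC, ← Matrix.mulVec_add]
    rfl

end Grid

/-! ### existence of adapted grids -/

/-- the next grid point -/
noncomputable def nextT (lam : Vec n) (dl s : ℝ) : ℝ :=
  (univ.filter fun a => s < 2 - lam a).fold min (s + dl) fun a => 2 - lam a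

/-- the canonical adapted grid -/
noncomputable def grid (lam : Vec n) (dl s0 : ℝ) (k : ℕ) : ℝ := (nextT lam dl)^[k] s0

theorem grid_succ (lam : Vec n) (dl s0 : ℝ) (k : ℕ) :
    grid lam dl s0 (k + 1) = nextT lam dl (grid lam dl s0 k) := Function.iterate_succ_apply' _ _ _

theorem lt_nextT (lam : Vec n) {dl : ℝ} (hdl : 0 < dl) (s : ℝ) : s < nextT lam dl s := by
  unfold nextT
  rw [Finset.lt_fold_min]
  exact ⟨by linarith, fun a ha => (Finset.mem_filter.1 ha).2⟩

theorem nextT_le (lam : Vec n) (dl s : ℝ) : nextT lam dl s ≤ s + dl := by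
  unfold nextT
  rw [Finset.fold_min_le]
  exact Or.inl le_rfl

theorem nextT_le_gap (lam : Vec n) (dl : ℝ) {s : ℝ} {a : Fin n} (h : s < 2 - lam a) :
    nextT lam dl s ≤ 2 - lam a := by
  unfold nextT
  rw [Finset.fold_min_le]
  exact Or.inr ⟨a, Finset.mem_filter.2 ⟨Finset.mem_univ a, h⟩, le_rfl⟩

theorem nextT_cases (lam : Vec n) (dl s : ℝ) :
    s + dl ≤ nextT lam dl s ∨ ∃ a, s < 2 - lam a ∧ 2 - lam a ≤ nextT lam dl s := by
  have h : nextT lam dl s ≤ nextT lam dl s := le_rfl
  conv_lhs at h => unfold nextT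
  rw [Finset.fold_min_le] at h
  rcases h with h | ⟨a, ha, h⟩
  · exact Or.inl h
  · exact Or.inr ⟨a, (Finset.mem_filter.1 ha).2, h⟩

theorem grid_Grid (lam : Vec n) {dl s0 : ℝ} (hdl : 0 < dl) (hdl1 : dl ≤ 1)
    (hs : ∀ a, s0 ≤ 2 - lam a) : Grid lam (grid lam dl s0) dl where
  lt k := by rw [grid_succ]; exact lt_nextT lam hdl _
  le k := by rw [grid_succ]; linarith [nextT_le lam dl (grid lam dl s0 k)]
  one := hdl1
  start := hs
  skip k a h := by rw [grid_succ]; exact nextT_le_gap lam dl h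

/-- the canonical grid advances by `dl` except for at most `n` steps -/
theorem le_grid (lam : Vec n) {dl : ℝ} (hdl : 0 < dl) (s0 : ℝ) (k : ℕ) :
    s0 + ((k : ℝ) - n) * dl ≤ grid lam dl s0 k := by
  have key : ∀ k : ℕ, s0 + ((k : ℝ) - ∑ a, dI lam (grid lam dl s0 k) a) * dl
      ≤ grid lam dl s0 k := by
    intro k
    induction k with
    | zero =>
      have h1 : 0 ≤ ∑ a, dI lam (grid lam dl s0 0) a := Finset.sum_nonneg fun a _ => dI_nonneg _ _ a
      have h2 := mul_nonneg h1 hdl.le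
      have h3 : grid lam dl s0 0 = s0 := rfl
      rw [Nat.cast_zero]
      linarith only [h2, h3]
    | succ k ih =>
      rw [grid_succ]
      set s := grid lam dl s0 k
      have h0 := lt_nextT lam hdl s
      have hm : ∀ a, dI lam s a ≤ dI lam (nextT lam dl s) a := fun a => by
        unfold dI
        by_cases h1 : 2 - lam a ≤ s
        · rw [if_pos h1, if_pos (h1.trans h0.le)]
        · rw [if_neg h1]; split_ifs <;> simp
      push_cast
      rcases nextT_cases lam dl s with h1 | ⟨a, h1, h2⟩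
      · have h2 := mul_le_mul_of_nonneg_right
          (Finset.sum_le_sum fun a (_ : a ∈ univ) => hm a) hdl.le
        linarith only [ih, h1, h2]
      · have h3 : ∑ b, dI lam s b + 1 ≤ ∑ b, dI lam (nextT lam dl s) b := by
          have h4 : dI lam (nextT lam dl s) a - dI lam s a
              ≤ ∑ b, (dI lam (nextT lam dl s) b - dI lam s b) :=
            Finset.single_le_sum (f := fun b => dI lam (nextT lam dl s) b - dI lam s b)
              (fun b _ => sub_nonneg.2 (hm b)) (Finset.mem_univ a)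
          have h5 : dI lam (nextT lam dl s) a - dI lam s a = 1 := by
            unfold dI
            rw [if_pos h2, if_neg (not_le.2 h1), sub_zero]
          rw [Finset.sum_sub_distrib] at h4
          linarith only [h4, h5]
        have h4 := mul_le_mul_of_nonneg_right h3 hdl.le
        linarith only [ih, h0, h4]
  have h1 : ∑ a, dI lam (grid lam dl s0 k) a ≤ n := by
    calc ∑ a, dI lam (grid lam dl s0 k) a ≤ ∑ _a : Fin n, (1 : ℝ) :=
          Finset.sum_le_sum fun a _ => dI_le_one _ _ a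
      _ = n := by simp
  have h2 := mul_le_mul_of_nonneg_right h1 hdl.le
  linarith only [key k, h2]

/-- first passage of a level by a grid -/
theorem Grid.exists_first {lam : Vec n} {t : ℕ → ℝ} {dl : ℝ} (h : Grid lam t dl) {r : ℝ}
    (h0 : t 0 ≤ r) {N : ℕ} (hN : r ≤ t N) :
    ∃ k ≤ N, r ≤ t k ∧ t k ≤ r + dl ∧ ∀ j < k, t j < r := by
  classical
  have hex : ∃ k, r ≤ t k := ⟨N, hN⟩
  refine ⟨Nat.find hex, Nat.find_min' hex hN, Nat.find_spec hex, ?_,
    fun j hj => not_le.1 (Nat.find_min hex hj)⟩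
  rcases hk : Nat.find hex with _ | k
  · linarith [h.dl_pos]
  · have h1 : t k < r := not_le.1 (Nat.find_min hex (by omega))
    linarith [h.le k]

/-- an adapted grid which reaches `T` after at most `(T - s0) / dl + n + 1` steps -/
theorem exists_grid (lam : Vec n) {dl s0 T : ℝ} (hdl : 0 < dl) (hdl1 : dl ≤ 1)
    (hs : ∀ a, s0 ≤ 2 - lam a) (hT : s0 ≤ T) :
    ∃ (t : ℕ → ℝ) (N : ℕ), Grid lam t dl ∧ t 0 = s0 ∧ T ≤ t N ∧ t N ≤ T + dl ∧
      (∀ j < N, t j < T) ∧ (N : ℝ) ≤ (T - s0) / dl + n + 1 := by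
  have hG := grid_Grid lam hdl hdl1 hs
  set N0 := ⌈(T - s0) / dl⌉₊ + n with hN0
  have h1 : (T - s0) / dl ≤ ⌈(T - s0) / dl⌉₊ := Nat.le_ceil _
  have h2 : (⌈(T - s0) / dl⌉₊ : ℝ) < (T - s0) / dl + 1 :=
    Nat.ceil_lt_add_one (div_nonneg (sub_nonneg.2 hT) hdl.le)
  have h3 : T ≤ grid lam dl s0 N0 := by
    have h4 := le_grid lam hdl s0 N0
    rw [hN0] at h4 ⊢
    push_cast at h4
    rw [div_le_iff₀ hdl] at h1
    linarith only [h1, h4]
  obtain ⟨k, hk, a1, a2, a3⟩ := hG.exists_first (r := T) hT h3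
  refine ⟨grid lam dl s0, k, hG, rfl, a1, a2, a3, ?_⟩
  have h5 : (k : ℝ) ≤ N0 := by exact_mod_cast hk
  rw [hN0] at h5
  push_cast at h5
  linarith only [h5, h2]

end Vale.Agent.N150.Cap
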