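import Vale.Agent.N150.EdgeDet

/-! Deterministic consequences of rigidity: traces of clipped and unclipped resolvents. -/

open Real Set intervalIntegral MeasureTheory

namespace Vale.Agent.N150.Edge

variable {n : ℕ} {w : ℝ} {lam : Fin n → ℝ}

/-- `tr (max (E, r) + x) ^ (-j)`, `E = 2 - lam` -/
noncomputable def trC (j : ℕ) (lam : Fin n → ℝ) (r x : ℝ) : ℝ :=
  ∑ a, ((max (2 - lam a) r + x) ^ j)⁻¹

/-- `tr (E + η) ^ (-j)`, `E = 2 - lam` -/
noncomputable def trR (j : ℕ) (lam : Fin n → ℝ) (η : ℝ) : ℝ := ∑ a, ((2 - lam a + η) ^ j)⁻¹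

lemma int_le {φ g F : ℝ → ℝ} {r b : ℝ} (hrb : r ≤ b) (hφ : ContinuousOn φ (Icc r b))
    (hg : ContinuousOn g (Icc r b)) (hF : ∀ u ∈ Icc r b, HasDerivAt F (g u) u)
    (h : ∀ u ∈ Icc r b, φ u ≤ g u) : ∫ u in r..b, φ u ≤ F b - F r := by
  have e := uIcc_of_le hrb
  rw [← integral_eq_sub_of_hasDerivAt (f := F) (f' := g) (fun x hx => hF x (e ▸ hx))
    (hg.mono e.le).intervalIntegrable]
  exact integral_mono_on hrb (hφ.mono e.le).intervalIntegrable (hg.mono e.le).intervalIntegrable h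

lemma le_int {φ g F : ℝ → ℝ} {r b : ℝ} (hrb : r ≤ b) (hφ : ContinuousOn φ (Icc r b))
    (hg : ContinuousOn g (Icc r b)) (hF : ∀ u ∈ Icc r b, HasDerivAt F (g u) u)
    (h : ∀ u ∈ Icc r b, g u ≤ φ u) : F b - F r ≤ ∫ u in r..b, φ u := by
  have e := uIcc_of_le hrb
  rw [← integral_eq_sub_of_hasDerivAt (f := F) (f' := g) (fun x hx => hF x (e ▸ hx))
    (hg.mono e.le).intervalIntegrable]
  exact integral_mono_on hrb (hg.mono e.le).intervalIntegrable (hφ.mono e.le).intervalIntegrable h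

lemma hasDerivAt_inv_pow (j : ℕ) {u : ℝ} (hu : 0 < u) :
    HasDerivAt (fun u : ℝ => (u ^ (j + 1))⁻¹) (-((j + 1 : ℝ) / u ^ (j + 2))) u := by
  have h := ((hasDerivAt_id u).fun_pow (j + 1)).fun_inv (by simp only [id]; positivity)
  refine h.congr_deriv ?_
  simp only [id, Nat.add_sub_cancel]
  push_cast
  field_simp
  ring

lemma contOn_div_pow (c : ℝ) (j : ℕ) {r b : ℝ} (hr : 0 < r) :
    ContinuousOn (fun u : ℝ => c / u ^ j) (Icc r b) := by
  refine continuousOn_const.div (by fun_prop) fun x hx => ?_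
  have : 0 < x := hr.trans_le hx.1
  positivity

/-- summation by parts for `u ^ (-j-1)` -/
lemma Rigid.trC_err (h : Rigid w lam) (hn : 0 < n) (hw : 0 < w) (j : ℕ) {r : ℝ}
    (hr : sc0 n w ≤ r) (hr4 : r ≤ 4) :
    |trC (j + 1) lam r 0 -
      n * (((5 : ℝ) ^ (j + 1))⁻¹ + (j + 1) * ∫ u in r..5, scF u / u ^ (j + 2))| ≤
      10 * (j + 1) * kap w * (n * √r / r ^ j) := by
  have hr0 : 0 < r := (sc0_pos hn hw).trans_le hr
  have h1 := h.sbp_tail hn hw (f := fun u => (u ^ (j + 1))⁻¹)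
    (f' := fun u => -((j + 1 : ℝ) / u ^ (j + 2))) (B := (j + 1) / r ^ (j + 2)) hr hr4
    (fun u hu => hasDerivAt_inv_pow j (hr0.trans_le hu.1)) (contOn_div_pow _ _ hr0).neg ?_
  · have e1 : scV (fun u => (u ^ (j + 1))⁻¹) (fun u => -((j + 1 : ℝ) / u ^ (j + 2))) r 5 =
        ((5 : ℝ) ^ (j + 1))⁻¹ + (j + 1) * ∫ u in r..5, scF u / u ^ (j + 2) := by
      unfold scV
      rw [← intervalIntegral.integral_const_mul, sub_eq_add_neg, ← intervalIntegral.integral_neg]
      congr 2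
      funext u
      ring
    rw [e1] at h1
    unfold trC
    simp only [add_zero]
    refine h1.trans (le_of_eq ?_)
    field_simp
    ring
  · intro u hu
    have hu0 : 0 < u := hr0.trans_le hu.1
    rw [abs_neg, abs_of_nonneg (by positivity)]
    have h2 : r ^ j ≤ u ^ j := pow_le_pow_left₀ hr0.le hu.1 j
    have e : ((j : ℝ) + 1) / r ^ (j + 2) * (r / u) ^ 2 = (j + 1) / (r ^ j * u ^ 2) := by
      field_simp
      ring
    rw [e, pow_add]
    gcongr

/-- `tr max(E, r)⁻¹ = n (1 - (4 / (3 π)) √r (1 + o(1)))` -/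
theorem Rigid.trC_one (h : Rigid w lam) (hn : 0 < n) (hw : 0 < w) {r : ℝ}
    (hr : sc0 n w ≤ r) (hr4 : r ≤ 4) :
    |trC 1 lam r 0 - n * (1 - 2 * c0 * √r)| ≤ (r / 16 + 10 * kap w) * (n * √r) := by
  have hr0 : 0 < r := (sc0_pos hn hw).trans_le hr
  have h1 := h.trC_err hn hw 0 hr hr4
  have h2 := first_moment hr0 hr4
  simp only [zero_add, pow_one, Nat.cast_zero, one_mul, mul_one, pow_zero, div_one] at h1
  have hn' : (0 : ℝ) < n := by exact_mod_cast hn
  have h3 : c0 / 4 * (r * √r) ≤ r / 16 * √r := by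
    have := c0_le
    have h4 : 0 ≤ r * √r := by positivity
    nlinarith
  have h4 := mul_le_mul_of_nonneg_left (h2.trans h3) hn'.le
  rw [← abs_of_pos hn', ← abs_mul, abs_of_pos hn'] at h4
  rw [abs_le] at h1 h4 ⊢
  norm_num at h1 h4 ⊢
  constructor <;> nlinarith [h1.1, h1.2, h4.1, h4.2]

lemma hasDerivAt_inv_sqrt {u : ℝ} (hu : 0 < u) :
    HasDerivAt (fun u : ℝ => (√u)⁻¹) (-(1 / (2 * (u * √u)))) u := by
  have h2 : 0 < √u := sqrt_pos.2 hu
  have h := (hasDerivAt_sqrt hu.ne').fun_inv h2.ne'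
  refine h.congr_deriv ?_
  rw [sq_sqrt hu.le]
  field_simp

lemma hasDerivAt_inv_mul_sqrt {u : ℝ} (hu : 0 < u) :
    HasDerivAt (fun u : ℝ => (u * √u)⁻¹) (-(3 / (2 * (u * (u * √u))))) u := by
  have h2 : 0 < √u := sqrt_pos.2 hu
  have h := (hasDerivAt_mul_sqrt hu).fun_inv (by positivity)
  refine h.congr_deriv ?_
  rw [mul_pow, sq_sqrt hu.le]
  have h1 : √u * √u = u := mul_self_sqrt hu.le
  field_simp
  nlinarith

lemma sqrt_five : 2.23 ≤ √5 ∧ √5 ≤ 2.24 :=
  ⟨by apply le_sqrt_of_sq_le; norm_num, by rw [sqrt_le_left (by norm_num)]; norm_num⟩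

lemma contOn_scF_div (j : ℕ) {r b : ℝ} (hr : 0 < r) :
    ContinuousOn (fun u : ℝ => scF u / u ^ j) (Icc r b) := by
  refine continuous_scF.continuousOn.div (by fun_prop) fun x hx => ?_
  have : 0 < x := hr.trans_le hx.1
  positivity

lemma second_moment {r : ℝ} (h0 : 0 < r) (h4 : r ≤ 4) :
    |((5 : ℝ) ^ 2)⁻¹ + 2 * (∫ u in r..5, scF u / u ^ 3) - 4 * c0 * (√r)⁻¹| ≤ 1 := by
  have hr5 : r ≤ 5 := by linarith
  have hc1 : ContinuousOn (fun u : ℝ => 1 / (2 * (u * √u))) (Icc r 5) := by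
    refine continuousOn_const.div (by fun_prop) fun x hx => ?_
    have : 0 < x := h0.trans_le hx.1
    positivity
  have hc2 : ContinuousOn (fun u : ℝ => 1 / (2 * √u)) (Icc r 5) := by
    refine continuousOn_const.div (by fun_prop) fun x hx => ?_
    have : 0 < x := h0.trans_le hx.1
    positivity
  have h1 := int_le (φ := fun u => scF u / u ^ 3) (F := fun u => -2 * c0 * (√u)⁻¹)
    (g := fun u => -2 * c0 * -(1 / (2 * (u * √u)))) hr5 (contOn_scF_div 3 h0)
    (continuousOn_const.mul hc1.neg)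
    (fun u hu => (hasDerivAt_inv_sqrt (h0.trans_le hu.1)).const_mul _) (fun u hu => by
      have hu0 : 0 < u := h0.trans_le hu.1
      have h2 : 0 < √u := sqrt_pos.2 hu0
      have h1 : √u * √u = u := mul_self_sqrt hu0.le
      rw [div_le_iff₀ (by positivity)]
      refine (scF_le hu0.le).trans (le_of_eq ?_)
      set v := √u
      rw [← h1]
      field_simp)
  have h2 := le_int (φ := fun u => scF u / u ^ 3)
    (F := fun u => -2 * c0 * (√u)⁻¹ - 3 / 10 * c0 * √u)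
    (g := fun u => -2 * c0 * -(1 / (2 * (u * √u))) - 3 / 10 * c0 * (1 / (2 * √u))) hr5
    (contOn_scF_div 3 h0) ((continuousOn_const.mul hc1.neg).sub (continuousOn_const.mul hc2))
    (fun u hu => ((hasDerivAt_inv_sqrt (h0.trans_le hu.1)).const_mul _).sub
      ((hasDerivAt_sqrt (h0.trans_le hu.1).ne').const_mul _)) (fun u hu => by
      have hu0 : 0 < u := h0.trans_le hu.1
      have h2 : 0 < √u := sqrt_pos.2 hu0
      have h1 : √u * √u = u := mul_self_sqrt hu0.le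
      rw [le_div_iff₀ (by positivity)]
      refine le_trans (le_of_eq ?_) (le_scF hu0.le hu.2)
      set v := √u
      rw [← h1]
      field_simp
      ring)
  obtain ⟨h5, h6⟩ := sqrt_five
  have h7 : (√5)⁻¹ ≤ 0.45 := by rw [inv_le_comm₀ (by positivity) (by norm_num)]; linarith
  have h8 : 0.44 ≤ (√5)⁻¹ := by rw [le_inv_comm₀ (by norm_num) (by positivity)]; linarith
  have h9 := c0_le
  have h10 := le_c0
  have h11 : 0 ≤ c0 * √r := by positivity
  rw [abs_le]
  constructor <;> nlinarith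

lemma third_moment {r : ℝ} (h0 : 0 < r) (h4 : r ≤ 4) :
    |((5 : ℝ) ^ 3)⁻¹ + 3 * (∫ u in r..5, scF u / u ^ 4) - 2 * c0 * (r * √r)⁻¹| ≤ (√r)⁻¹ := by
  have hr5 : r ≤ 5 := by linarith
  have hc1 : ContinuousOn (fun u : ℝ => 1 / (2 * (u * √u))) (Icc r 5) := by
    refine continuousOn_const.div (by fun_prop) fun x hx => ?_
    have : 0 < x := h0.trans_le hx.1
    positivity
  have hc2 : ContinuousOn (fun u : ℝ => 3 / (2 * (u * (u * √u)))) (Icc r 5) := by
    refine continuousOn_const.div (by fun_prop) fun x hx => ?_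
    have : 0 < x := h0.trans_le hx.1
    positivity
  have h1 := int_le (φ := fun u => scF u / u ^ 4) (F := fun u => -(2 / 3) * c0 * (u * √u)⁻¹)
    (g := fun u => -(2 / 3) * c0 * -(3 / (2 * (u * (u * √u))))) hr5 (contOn_scF_div 4 h0)
    (continuousOn_const.mul hc2.neg)
    (fun u hu => (hasDerivAt_inv_mul_sqrt (h0.trans_le hu.1)).const_mul _) (fun u hu => by
      have hu0 : 0 < u := h0.trans_le hu.1
      have h2 : 0 < √u := sqrt_pos.2 hu0
      have h1 : √u * √u = u := mul_self_sqrt hu0.le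
      rw [div_le_iff₀ (by positivity)]
      refine (scF_le hu0.le).trans (le_of_eq ?_)
      set v := √u
      rw [← h1]
      field_simp)
  have h2 := le_int (φ := fun u => scF u / u ^ 4)
    (F := fun u => -(2 / 3) * c0 * (u * √u)⁻¹ + 3 / 10 * c0 * (√u)⁻¹)
    (g := fun u => -(2 / 3) * c0 * -(3 / (2 * (u * (u * √u)))) +
      3 / 10 * c0 * -(1 / (2 * (u * √u)))) hr5
    (contOn_scF_div 4 h0) ((continuousOn_const.mul hc2.neg).add (continuousOn_const.mul hc1.neg))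
    (fun u hu => ((hasDerivAt_inv_mul_sqrt (h0.trans_le hu.1)).const_mul _).add
      ((hasDerivAt_inv_sqrt (h0.trans_le hu.1)).const_mul _)) (fun u hu => by
      have hu0 : 0 < u := h0.trans_le hu.1
      have h2 : 0 < √u := sqrt_pos.2 hu0
      have h1 : √u * √u = u := mul_self_sqrt hu0.le
      rw [le_div_iff₀ (by positivity)]
      refine le_trans (le_of_eq ?_) (le_scF hu0.le hu.2)
      set v := √u
      rw [← h1]
      field_simp
      ring)
  obtain ⟨h5, h6⟩ := sqrt_five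
  have h7 : (5 * √5)⁻¹ ≤ 0.09 := by rw [inv_le_comm₀ (by positivity) (by norm_num)]; linarith
  have h8 : 0.08 ≤ (5 * √5)⁻¹ := by rw [le_inv_comm₀ (by norm_num) (by positivity)]; linarith
  have h9 := c0_le
  have h10 := le_c0
  have h11 : 0 ≤ c0 * (√5)⁻¹ := by positivity
  have h12 : √r ≤ 2 := by rw [sqrt_le_left (by norm_num)]; linarith
  have h13 : 0 < √r := sqrt_pos.2 h0
  have h14 : 0.5 ≤ (√r)⁻¹ := by rw [le_inv_comm₀ (by norm_num) h13]; linarith
  rw [abs_le]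
  constructor <;> nlinarith

/-- `tr max(E, r)⁻² = (8 / (3 π)) n / √r (1 + o(1))` -/
theorem Rigid.trC_two (h : Rigid w lam) (hn : 0 < n) (hw : 0 < w) {r : ℝ}
    (hr : sc0 n w ≤ r) (hr4 : r ≤ 4) :
    |trC 2 lam r 0 - 4 * c0 * (n / √r)| ≤ (√r + 20 * kap w) * (n / √r) := by
  have hr0 : 0 < r := (sc0_pos hn hw).trans_le hr
  have h1 := h.trC_err hn hw 1 hr hr4
  have h2 := second_moment hr0 hr4
  have hn' : (0 : ℝ) < n := by exact_mod_cast hn
  have h4 := mul_le_mul_of_nonneg_left h2 hn'.le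
  rw [← abs_of_pos hn', ← abs_mul, abs_of_pos hn'] at h4
  have h13 : 0 < √r := sqrt_pos.2 hr0
  have e1 : (n : ℝ) * √r / r ^ 1 = n / √r := by
    rw [pow_one, mul_div_assoc, sqrt_div_self' hr0]; ring
  have e2 : √r * (n / √r) = n := by field_simp
  have e3 : (n : ℝ) * (√r)⁻¹ = n / √r := by rw [div_eq_mul_inv]
  rw [e1] at h1
  rw [mul_sub, ← mul_assoc _ (4 * c0), mul_comm _ (4 * c0), mul_assoc (4 * c0), e3] at h4
  rw [abs_le] at h1 h4 ⊢
  norm_num at h1 h4 ⊢
  constructor <;> nlinarith [h1.1, h1.2, h4.1, h4.2]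

/-- `tr max(E, r)⁻³ = (4 / (3 π)) n / r ^ (3/2) (1 + o(1))` -/
theorem Rigid.trC_three (h : Rigid w lam) (hn : 0 < n) (hw : 0 < w) {r : ℝ}
    (hr : sc0 n w ≤ r) (hr4 : r ≤ 4) :
    |trC 3 lam r 0 - 2 * c0 * (n / (r * √r))| ≤ (r + 30 * kap w) * (n / (r * √r)) := by
  have hr0 : 0 < r := (sc0_pos hn hw).trans_le hr
  have h1 := h.trC_err hn hw 2 hr hr4
  have h2 := third_moment hr0 hr4
  have hn' : (0 : ℝ) < n := by exact_mod_cast hn
  have h4 := mul_le_mul_of_nonneg_left h2 hn'.le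
  rw [← abs_of_pos hn', ← abs_mul, abs_of_pos hn'] at h4
  have h13 : 0 < √r := sqrt_pos.2 hr0
  have h14 : √r * √r = r := mul_self_sqrt hr0.le
  have e1 : (n : ℝ) * √r / r ^ 2 = n / (r * √r) := by
    field_simp
    nlinarith
  have e2 : r * (n / (r * √r)) = n * (√r)⁻¹ := by field_simp
  have e3 : (n : ℝ) * (r * √r)⁻¹ = n / (r * √r) := by rw [div_eq_mul_inv]
  rw [e1] at h1
  set I := ∫ u in r..5, scF u / u ^ 4
  set X := (n : ℝ) / (r * √r)
  rw [mul_sub, ← mul_assoc _ (2 * c0), mul_comm _ (2 * c0), mul_assoc (2 * c0), e3] at h4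
  rw [abs_le] at h1 h4 ⊢
  norm_num at h1 h4 ⊢
  constructor <;> nlinarith [h1.1, h1.2, h4.1, h4.2]

/-! ### shifts of the spectral parameter -/

lemma trC_nonneg (j : ℕ) (lam : Fin n → ℝ) {r x : ℝ} (hx : -r < x) : 0 ≤ trC j lam r x := by
  refine Finset.sum_nonneg fun a _ => ?_
  have : 0 < max (2 - lam a) r + x := by linarith [le_max_right (2 - lam a) r]
  positivity

lemma trC_anti (j : ℕ) (lam : Fin n → ℝ) {r r' x x' : ℝ} (hx : -r < x) (hr : r ≤ r')
    (hxx : x ≤ x') : trC j lam r' x' ≤ trC j lam r x := by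
  refine Finset.sum_le_sum fun a _ => ?_
  have h0 : 0 < max (2 - lam a) r + x := by linarith [le_max_right (2 - lam a) r]
  have h1 : max (2 - lam a) r ≤ max (2 - lam a) r' := max_le_max le_rfl hr
  exact inv_anti₀ (by positivity) (pow_le_pow_left₀ h0.le (by linarith) j)

/-- comparison with `x = 0`, upper bound -/
lemma trC_le_scale (j : ℕ) (lam : Fin n → ℝ) {r x θ : ℝ} (hr : 0 < r) (hθ0 : 0 ≤ θ) (hθ : θ < 1)
    (hx : -(θ * r) ≤ x) : trC j lam r x ≤ trC j lam r 0 / (1 - θ) ^ j := by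
  unfold trC
  rw [Finset.sum_div]
  refine Finset.sum_le_sum fun a _ => ?_
  have h1 : r ≤ max (2 - lam a) r := le_max_right _ _
  set m := max (2 - lam a) r
  have h2 : 0 < 1 - θ := by linarith
  have h3 : m * (1 - θ) ≤ m + x := by nlinarith
  have h4 : 0 < m := by linarith
  rw [add_zero, div_eq_mul_inv, ← mul_inv, ← mul_pow]
  exact inv_anti₀ (by positivity) (pow_le_pow_left₀ (by positivity) h3 j)

/-- comparison with `x = 0`, lower bound -/
lemma scale_le_trC (j : ℕ) (lam : Fin n → ℝ) {r x θ : ℝ} (hθ0 : 0 ≤ θ)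
    (hx0 : -r < x) (hx : x ≤ θ * r) : trC j lam r 0 / (1 + θ) ^ j ≤ trC j lam r x := by
  unfold trC
  rw [Finset.sum_div]
  refine Finset.sum_le_sum fun a _ => ?_
  have h1 : r ≤ max (2 - lam a) r := le_max_right _ _
  set m := max (2 - lam a) r
  have h3 : m + x ≤ m * (1 + θ) := by nlinarith
  have h4 : 0 < m + x := by linarith
  rw [add_zero, div_eq_mul_inv, ← mul_inv, ← mul_pow]
  exact inv_anti₀ (by positivity) (pow_le_pow_left₀ h4.le h3 j)

/-- second order expansion in the spectral parameter -/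
lemma trC_one_expand (lam : Fin n → ℝ) {r x : ℝ} (hr : 0 < r) (hx : -r < x) :
    trC 1 lam r x = trC 1 lam r 0 - x * trC 2 lam r 0 +
      x ^ 2 * ∑ a, (max (2 - lam a) r ^ 2 * (max (2 - lam a) r + x))⁻¹ := by
  unfold trC
  rw [Finset.mul_sum, Finset.mul_sum, ← Finset.sum_sub_distrib, ← Finset.sum_add_distrib]
  refine Finset.sum_congr rfl fun a _ => ?_
  have h1 : r ≤ max (2 - lam a) r := le_max_right _ _
  set m := max (2 - lam a) r
  have h4 : 0 < m + x := by linarith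
  have h5 : 0 < m := by linarith
  simp only [add_zero]
  field_simp
  ring

lemma trC_one_ge (lam : Fin n → ℝ) {r x : ℝ} (hr : 0 < r) (hx : -r < x) :
    trC 1 lam r 0 - x * trC 2 lam r 0 ≤ trC 1 lam r x := by
  rw [trC_one_expand lam hr hx]
  have : 0 ≤ ∑ a, (max (2 - lam a) r ^ 2 * (max (2 - lam a) r + x))⁻¹ := by
    refine Finset.sum_nonneg fun a _ => ?_
    have : 0 < max (2 - lam a) r + x := by linarith [le_max_right (2 - lam a) r]
    positivity
  nlinarith [mul_nonneg (sq_nonneg x) this]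

lemma trC_one_ge_neg (lam : Fin n → ℝ) {r x : ℝ} (hr : 0 < r) (hx : -r < x) (hx0 : x ≤ 0) :
    trC 1 lam r 0 - x * trC 2 lam r 0 + x ^ 2 * trC 3 lam r 0 ≤ trC 1 lam r x := by
  rw [trC_one_expand lam hr hx]
  have : trC 3 lam r 0 ≤ ∑ a, (max (2 - lam a) r ^ 2 * (max (2 - lam a) r + x))⁻¹ := by
    refine Finset.sum_le_sum fun a _ => ?_
    have h1 : r ≤ max (2 - lam a) r := le_max_right _ _
    set m := max (2 - lam a) r
    have h4 : 0 < m + x := by linarith
    have h5 : 0 < m := by linarith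
    refine inv_anti₀ (by positivity) ?_
    rw [add_zero, pow_succ m 2]
    gcongr
    linarith
  nlinarith [mul_le_mul_of_nonneg_left this (sq_nonneg x)]

lemma trC_one_le (lam : Fin n → ℝ) {r x : ℝ} (hr : 0 < r) (hx : -(r / 2) ≤ x) :
    trC 1 lam r x ≤ trC 1 lam r 0 - x * trC 2 lam r 0 + 2 * x ^ 2 * trC 3 lam r 0 := by
  rw [trC_one_expand lam hr (by linarith)]
  have : ∑ a, (max (2 - lam a) r ^ 2 * (max (2 - lam a) r + x))⁻¹ ≤ 2 * trC 3 lam r 0 := by
    unfold trC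
    rw [Finset.mul_sum]
    refine Finset.sum_le_sum fun a _ => ?_
    have h1 : r ≤ max (2 - lam a) r := le_max_right _ _
    set m := max (2 - lam a) r
    have h4 : m / 2 ≤ m + x := by linarith
    have h5 : 0 < m := by linarith
    have e : 2 * ((m + 0) ^ 3)⁻¹ = (m ^ 2 * (m / 2))⁻¹ := by rw [add_zero]; field_simp
    rw [e]
    refine inv_anti₀ (by positivity) ?_
    gcongr
  nlinarith [mul_le_mul_of_nonneg_left this (sq_nonneg x)]

lemma trC_one_le_pos (lam : Fin n → ℝ) {r x : ℝ} (hr : 0 < r) (hx : 0 ≤ x) :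
    trC 1 lam r x ≤ trC 1 lam r 0 - x * (r / (r + x)) * trC 2 lam r 0 := by
  unfold trC
  rw [Finset.mul_sum, ← Finset.sum_sub_distrib]
  refine Finset.sum_le_sum fun a _ => ?_
  have h1 : r ≤ max (2 - lam a) r := le_max_right _ _
  set m := max (2 - lam a) r
  have h5 : 0 < m := by linarith
  have h6 : r / (r + x) ≤ m / (m + x) := by
    rw [div_le_div_iff₀ (by positivity) (by positivity)]
    nlinarith
  have e : ((m + x) ^ 1)⁻¹ = ((m + 0) ^ 1)⁻¹ - x * (m / (m + x)) * ((m + 0) ^ 2)⁻¹ := by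
    simp only [add_zero, pow_one]
    field_simp
    ring
  rw [e]
  gcongr

/-- the clipped trace at half the gap exceeds `n` -/
theorem Rigid.trC_half (h : Rigid w lam) (hn : 0 < n) (hw : 0 < w) (hk : kap w ≤ 1 / 1000)
    {r : ℝ} (hr : sc0 n w ≤ r) (hr1 : r ≤ 1 / 100) :
    n + 1 / 50 * (n * √r) ≤ trC 1 lam r (-(r / 2)) := by
  have hr0 : 0 < r := (sc0_pos hn hw).trans_le hr
  have hn' : (0 : ℝ) < n := by exact_mod_cast hn
  have h1 := (abs_le.1 (h.trC_one hn hw hr (by linarith))).1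
  have h2 := (abs_le.1 (h.trC_two hn hw hr (by linarith))).1
  have h3 := (abs_le.1 (h.trC_three hn hw hr (by linarith))).1
  have h4 := trC_one_ge_neg lam hr0 (x := -(r / 2)) (by linarith) (by linarith)
  have h13 : 0 < √r := sqrt_pos.2 hr0
  have h14 : √r * √r = r := mul_self_sqrt hr0.le
  have h15 : √r ≤ 1 / 10 := by rw [sqrt_le_left (by norm_num)]; linarith
  have e2 : r * (n / √r) = n * √r := by field_simp; nlinarith
  have e3 : r ^ 2 * (n / (r * √r)) = n * √r := by field_simp; nlinarith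
  have h5 : (4 * c0 - √r - 20 * kap w) * (n * √r) ≤ r * trC 2 lam r 0 := by
    rw [← e2]; nlinarith
  have h6 : (2 * c0 - r - 30 * kap w) * (n * √r) ≤ r ^ 2 * trC 3 lam r 0 := by
    rw [← e3]; nlinarith [sq_pos_of_pos hr0]
  have h7 := le_c0
  have h8 : 0 < (n : ℝ) * √r := by positivity
  set X := (n : ℝ) * √r
  have h9 : n * (1 - 2 * c0 * √r) = n - 2 * c0 * X := by ring
  rw [h9] at h1
  have h10 : 0 ≤ (c0 / 2 - r / 16 - √r / 2 - r / 4 - 55 / 2 * kap w - 1 / 50) * X :=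
    mul_nonneg (by linarith) h8.le
  nlinarith

/-- the gap above a clipped spectrum is at least half the clipping scale -/
theorem Rigid.delta_ge (h : Rigid w lam) (hn : 0 < n) (hw : 0 < w) (hk : kap w ≤ 1 / 1000)
    {r x : ℝ} (hr : sc0 n w ≤ r) (hr1 : r ≤ 1 / 100) (hx : -r < x) (ht : trC 1 lam r x ≤ n) :
    -(r / 2) ≤ x := by
  by_contra hc
  have hr0 : 0 < r := (sc0_pos hn hw).trans_le hr
  have hn' : (0 : ℝ) < n := by exact_mod_cast hn
  have h1 := trC_anti 1 lam hx le_rfl (not_le.1 hc).le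
  have h2 := h.trC_half hn hw hk hr hr1
  have h8 : 0 < (n : ℝ) * √r := by positivity
  linarith

/-! ### unclipped resolvent traces -/

lemma trR_nonneg (j : ℕ) {η : ℝ} (hη : ∀ a, 0 < 2 - lam a + η) : 0 ≤ trR j lam η :=
  Finset.sum_nonneg fun a _ => by have := hη a; positivity

lemma trR_anti (j : ℕ) {η η' : ℝ} (hη : ∀ a, 0 < 2 - lam a + η) (h : η ≤ η') :
    trR j lam η' ≤ trR j lam η := by
  refine Finset.sum_le_sum fun a _ => ?_
  have h0 := hη a
  exact inv_anti₀ (by positivity) (pow_le_pow_left₀ h0.le (by linarith) j)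

lemma trC_le_trR (j : ℕ) (r : ℝ) {η : ℝ} (hη : ∀ a, 0 < 2 - lam a + η) :
    trC j lam r η ≤ trR j lam η := by
  refine Finset.sum_le_sum fun a _ => ?_
  have h0 := hη a
  exact inv_anti₀ (by positivity)
    (pow_le_pow_left₀ h0.le (by linarith [le_max_left (2 - lam a) r]) j)

lemma trR_le_trC (j : ℕ) {r η b : ℝ} (hb : 0 < b) (hη : ∀ a, b ≤ 2 - lam a + η) :
    trR j lam η ≤ trC j lam r η + cnt lam r * ((b ^ j)⁻¹ - ((r + η) ^ j)⁻¹) := by
  unfold trR trC
  rw [cnt_eq, Finset.sum_mul, ← Finset.sum_add_distrib]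
  refine Finset.sum_le_sum fun a _ => ?_
  by_cases ha : 2 - lam a ≤ r
  · rw [if_pos ha, max_eq_right ha, one_mul]
    have := inv_anti₀ (by positivity) (pow_le_pow_left₀ hb.le (hη a) j)
    linarith
  · rw [if_neg ha, max_eq_left (not_le.1 ha).le, zero_mul, add_zero]

lemma Rigid.pos (h : Rigid w lam) {η : ℝ} (hη : sc0 n w < η) (a : Fin n) : 0 < 2 - lam a + η := by
  linarith [h.le_eps a]

/-- lower bound of the resolvent trace -/
theorem Rigid.trR_one_ge (h : Rigid w lam) (hn : 0 < n) (hw : 0 < w) {η : ℝ} (hη : sc0 n w ≤ η)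
    (hη4 : η ≤ 4) (hp : ∀ a, 0 < 2 - lam a + η) :
    n - (6 * c0 + η / 16 + √η + 30 * kap w) * (n * √η) ≤ trR 1 lam η := by
  have hr0 : 0 < η := (sc0_pos hn hw).trans_le hη
  have h1 := (abs_le.1 (h.trC_one hn hw hη hη4)).1
  have h2 := (abs_le.1 (h.trC_two hn hw hη hη4)).2
  have h3 := trC_one_ge lam hr0 (x := η) (by linarith)
  have h4 := trC_le_trR 1 η hp
  have h13 : 0 < √η := sqrt_pos.2 hr0
  have h14 : √η * √η = η := mul_self_sqrt hr0.le
  have e2 : η * (n / √η) = n * √η := by field_simp; nlinarith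
  have h5 : η * trC 2 lam η 0 ≤ (4 * c0 + √η + 20 * kap w) * (n * √η) := by
    rw [← e2]; nlinarith
  nlinarith

/-- lower bound of the resolvent trace for every `η` above the edge scale -/
theorem Rigid.trR_one_ge' (h : Rigid w lam) (hn : 0 < n) (hw : 0 < w) (hk : kap w ≤ 1 / 100)
    {η : ℝ} (hη : sc0 n w ≤ η) (hp : ∀ a, 0 < 2 - lam a + η) :
    n * (1 - 4 * √η) ≤ trR 1 lam η := by
  have hr0 : 0 < η := (sc0_pos hn hw).trans_le hη
  have hn' : (0 : ℝ) < n := by exact_mod_cast hn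
  rcases le_total η 4 with h4 | h4
  · refine le_trans ?_ (h.trR_one_ge hn hw hη h4 hp)
    have h12 : √η ≤ 2 := by rw [sqrt_le_left (by norm_num)]; linarith
    have h8 : 0 ≤ (n : ℝ) * √η := by positivity
    have := c0_le
    have h9 : 0 ≤ (4 - (6 * c0 + η / 16 + √η + 30 * kap w)) * (n * √η) :=
      mul_nonneg (by linarith) h8
    nlinarith
  · have h2 : 2 ≤ √η := by apply le_sqrt_of_sq_le; linarith
    have := trR_nonneg 1 hp
    nlinarith

/-- upper bound of the resolvent trace -/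
theorem Rigid.trR_one_le (h : Rigid w lam) (hn : 0 < n) (hw : 0 < w) {r : ℝ} (hr : sc0 n w ≤ r)
    (hr4 : r ≤ 4) :
    trR 1 lam (2 * r) ≤ n - (4 * c0 - r / 16 - 2 / 3 * √r - 24 * kap w) * (n * √r) := by
  have hr0 : 0 < r := (sc0_pos hn hw).trans_le hr
  have h1 := (abs_le.1 (h.trC_one hn hw hr hr4)).2
  have h2 := (abs_le.1 (h.trC_two hn hw hr hr4)).1
  have h3 := trC_one_le_pos lam hr0 (x := 2 * r) (by linarith)
  have h4 := trR_le_trC (lam := lam) 1 (r := r) (η := 2 * r) hr0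
    (fun a => by linarith [h.le_eps a])
  have h5 := h.cnt_upper hn hw hr (hr.trans hr4)
  have h13 : 0 < √r := sqrt_pos.2 hr0
  have h14 : √r * √r = r := mul_self_sqrt hr0.le
  have e1 : 2 * r * (r / (r + 2 * r)) = 2 / 3 * r := by field_simp; ring
  have e2 : r * (n / √r) = n * √r := by field_simp; nlinarith
  have e3 : (r ^ 1)⁻¹ - ((r + 2 * r) ^ 1)⁻¹ = 2 / 3 * r⁻¹ := by field_simp; ring
  rw [e1] at h3
  rw [e3] at h4
  have h6 : (4 * c0 - √r - 20 * kap w) * (n * √r) ≤ r * trC 2 lam r 0 := by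
    rw [← e2]; nlinarith
  have h7 : cnt lam r * r⁻¹ ≤ (c0 + kap w) * (n * √r) := by
    rw [← div_eq_mul_inv, div_le_iff₀ hr0]
    nlinarith
  nlinarith

theorem Rigid.trR_one_le' (h : Rigid w lam) (hn : 0 < n) (hw : 0 < w) (hk : kap w ≤ 1 / 100)
    {r : ℝ} (hr : sc0 n w ≤ r) (hr4 : r ≤ 1 / 4) : trR 1 lam (2 * r) ≤ n * (1 - √r / 4) := by
  have hr0 : 0 < r := (sc0_pos hn hw).trans_le hr
  refine (h.trR_one_le hn hw hr (by linarith)).trans ?_
  have h12 : √r ≤ 1 / 2 := by rw [sqrt_le_left (by norm_num)]; linarith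
  have h8 : 0 ≤ (n : ℝ) * √r := by positivity
  have := le_c0
  have h9 : 0 ≤ ((4 * c0 - r / 16 - 2 / 3 * √r - 24 * kap w) - 1 / 4) * (n * √r) :=
    mul_nonneg (by linarith) h8
  nlinarith

theorem Rigid.trR_two_le (h : Rigid w lam) (hn : 0 < n) (hw : 0 < w) {r : ℝ} (hr : sc0 n w ≤ r)
    (hr4 : r ≤ 4) : trR 2 lam (2 * r) ≤ (5 * c0 + √r + 21 * kap w) * (n / √r) := by
  have hr0 : 0 < r := (sc0_pos hn hw).trans_le hr
  have h2 := (abs_le.1 (h.trC_two hn hw hr hr4)).2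
  have h3 := trC_anti 2 lam (r := r) (r' := r) (x := 0) (x' := 2 * r) (by linarith) le_rfl
    (by linarith)
  have h4 := trR_le_trC (lam := lam) 2 (r := r) (η := 2 * r) hr0
    (fun a => by linarith [h.le_eps a])
  have h5 := h.cnt_upper hn hw hr (hr.trans hr4)
  have h13 : 0 < √r := sqrt_pos.2 hr0
  have h14 : √r * √r = r := mul_self_sqrt hr0.le
  have e2 : (n / √r) * r ^ 2 = n * (r * √r) := by field_simp; nlinarith
  have h7 : cnt lam r * (r ^ 2)⁻¹ ≤ (c0 + kap w) * (n / √r) := by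
    rw [← div_eq_mul_inv, div_le_iff₀ (by positivity), mul_assoc, e2]
    exact h5
  have h8 : 0 ≤ cnt lam r * ((r + 2 * r) ^ 2)⁻¹ := by
    have := cnt_nonneg lam r
    positivity
  nlinarith

theorem Rigid.trR_two_ge (h : Rigid w lam) (hn : 0 < n) (hw : 0 < w) {η : ℝ} (hη : sc0 n w ≤ η)
    (hη4 : η ≤ 4) (hp : ∀ a, 0 < 2 - lam a + η) :
    (c0 - √η / 4 - 5 * kap w) * (n / √η) ≤ trR 2 lam η := by
  have hr0 : 0 < η := (sc0_pos hn hw).trans_le hη
  have h2 := (abs_le.1 (h.trC_two hn hw hη hη4)).1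
  have h3 := scale_le_trC 2 lam (r := η) (x := η) (θ := 1) (by norm_num) (by linarith) (by linarith)
  have h4 := trC_le_trR 2 η hp
  norm_num at h3
  nlinarith

theorem Rigid.trR_three_le (h : Rigid w lam) (hn : 0 < n) (hw : 0 < w) {r : ℝ} (hr : sc0 n w ≤ r)
    (hr4 : r ≤ 4) : trR 3 lam (2 * r) ≤ (3 * c0 + r + 31 * kap w) * (n / (r * √r)) := by
  have hr0 : 0 < r := (sc0_pos hn hw).trans_le hr
  have h2 := (abs_le.1 (h.trC_three hn hw hr hr4)).2
  have h3 := trC_anti 3 lam (r := r) (r' := r) (x := 0) (x' := 2 * r) (by linarith) le_rfl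
    (by linarith)
  have h4 := trR_le_trC (lam := lam) 3 (r := r) (η := 2 * r) hr0
    (fun a => by linarith [h.le_eps a])
  have h5 := h.cnt_upper hn hw hr (hr.trans hr4)
  have h13 : 0 < √r := sqrt_pos.2 hr0
  have h14 : √r * √r = r := mul_self_sqrt hr0.le
  have e2 : (n / (r * √r)) * r ^ 3 = n * (r * √r) := by field_simp; nlinarith
  have h7 : cnt lam r * (r ^ 3)⁻¹ ≤ (c0 + kap w) * (n / (r * √r)) := by
    rw [← div_eq_mul_inv, div_le_iff₀ (by positivity), mul_assoc, e2]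
    exact h5
  have h8 : 0 ≤ cnt lam r * ((r + 2 * r) ^ 3)⁻¹ := by
    have := cnt_nonneg lam r
    positivity
  nlinarith

/-! ### the saddle point and log-determinants -/

/-- every positive level is attained by the resolvent trace -/
theorem exists_root (hn : 0 < n) (m : Fin n → ℝ) {τ : ℝ} (hτ : 0 < τ) :
    ∃ x, (∀ a, τ⁻¹ ≤ m a + x) ∧ (∃ a, m a + x ≤ n / τ) ∧ ∑ a, (m a + x)⁻¹ = τ := by
  have : Nonempty (Fin n) := ⟨⟨0, hn⟩⟩
  obtain ⟨b, hb⟩ := Finite.exists_min m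
  have hn' : (1 : ℝ) ≤ n := by exact_mod_cast hn
  have hi : 0 < τ⁻¹ := by positivity
  have hle : τ⁻¹ - m b ≤ n / τ - m b := by
    rw [div_eq_mul_inv]; nlinarith
  have hc : ContinuousOn (fun x => ∑ a, (m a + x)⁻¹) (Icc (τ⁻¹ - m b) (n / τ - m b)) := by
    refine continuousOn_finsetSum _ fun a _ => ContinuousOn.inv₀ (by fun_prop) fun x hx => ?_
    have := hb a
    have := hx.1
    linarith
  have h1 : τ ≤ ∑ a, (m a + (τ⁻¹ - m b))⁻¹ := by
    have h2 := Finset.single_le_sum (f := fun a => (m a + (τ⁻¹ - m b))⁻¹)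
      (fun a _ => by have := hb a; exact inv_nonneg.2 (by linarith)) (Finset.mem_univ b)
    simpa using h2
  have h2 : ∑ a, (m a + (n / τ - m b))⁻¹ ≤ τ := by
    have h3 : ∀ a ∈ (Finset.univ : Finset (Fin n)), (m a + (n / τ - m b))⁻¹ ≤ τ / n := by
      intro a _
      rw [← inv_div (n : ℝ) τ]
      exact inv_anti₀ (by positivity) (by linarith [hb a])
    refine (Finset.sum_le_sum h3).trans (le_of_eq ?_)
    rw [Finset.sum_const, Finset.card_univ, Fintype.card_fin, nsmul_eq_mul]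
    field_simp
  obtain ⟨x, hx, hxe⟩ := intermediate_value_Icc' hle hc ⟨h2, h1⟩
  exact ⟨x, fun a => by linarith [hb a, hx.1], ⟨b, by linarith [hx.2]⟩, hxe⟩

/-- some eigenvalue is within the edge scale of `2` -/
theorem Rigid.exists_top (h : Rigid w lam) (hn : 0 < n) (hw : 0 < w) (hk : kap w ≤ 1 / 100)
    (hs : sc0 n w ≤ 4) : ∃ a, 2 - lam a ≤ sc0 n w := by
  have h1 := h.cnt_lower hn hw le_rfl hs (by linarith)
  have h0 := sc0_pos hn hw
  have hn' : (0 : ℝ) < n := by exact_mod_cast hn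
  have h2 : 0 < c0 * (1 - 3 / 20 * sc0 n w) - kap w := by
    have := le_c0
    nlinarith
  have h3 : 0 < cnt lam (sc0 n w) := lt_of_lt_of_le (by positivity) h1
  by_contra hc
  push Not at hc
  rw [cnt_eq, Finset.sum_eq_zero fun a _ => if_neg (not_le.2 (hc a))] at h3
  exact lt_irrefl _ h3

/-- location of any solution of `tr (2 + η - Λ)⁻¹ = n` -/
theorem Rigid.root_mem (h : Rigid w lam) (hn : 0 < n) (hw : 0 < w) (hk : kap w ≤ 1 / 100)
    (hs : sc0 n w ≤ 1 / 4) {η : ℝ} (hp : ∀ a, 0 < 2 - lam a + η) (he : n ≤ trR 1 lam η) :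
    -sc0 n w ≤ η ∧ η ≤ 2 * sc0 n w := by
  have h0 := sc0_pos hn hw
  have hn' : (0 : ℝ) < n := by exact_mod_cast hn
  constructor
  · obtain ⟨a, ha⟩ := h.exists_top hn hw hk (by linarith)
    linarith [hp a]
  · by_contra hc
    have h1 := trR_anti 1 (h.pos (η := 2 * sc0 n w) (by linarith)) (not_le.1 hc).le
    have h2 := h.trR_one_le' hn hw hk le_rfl hs
    have h3 : 0 < (n : ℝ) * √(sc0 n w) := by positivity
    nlinarith

/-- the saddle point `γ₀ = 2 + η` -/
theorem Rigid.exists_gamma (h : Rigid w lam) (hn : 0 < n) (hw : 0 < w) (hk : kap w ≤ 1 / 100)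
    (hs : sc0 n w ≤ 1 / 4) : ∃ η, (∀ a, (n : ℝ)⁻¹ ≤ 2 - lam a + η) ∧ trR 1 lam η = n ∧
      -sc0 n w ≤ η ∧ η ≤ 2 * sc0 n w := by
  have hn' : (0 : ℝ) < n := by exact_mod_cast hn
  obtain ⟨η, h1, -, h2⟩ := exists_root hn (fun a => 2 - lam a) hn'
  have h3 : trR 1 lam η = n := by simpa [trR] using h2
  exact ⟨η, h1, h3, h.root_mem hn hw hk hs (fun a => lt_of_lt_of_le (by positivity) (h1 a)) h3.ge⟩

lemma log_sub_ge {η t : ℝ} (hp : ∀ a, 0 < 2 - lam a + η) (hq : ∀ a, 0 < 2 - lam a + t) :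
    (t - η) * trR 1 lam t ≤ ∑ a, log (2 - lam a + t) - ∑ a, log (2 - lam a + η) := by
  unfold trR
  rw [Finset.mul_sum, ← Finset.sum_sub_distrib]
  refine Finset.sum_le_sum fun a _ => ?_
  have h1 := hp a
  have h2 := hq a
  have h3 := log_le_sub_one_of_pos (div_pos h1 h2)
  rw [log_div h1.ne' h2.ne'] at h3
  have e : (2 - lam a + η) / (2 - lam a + t) - 1 = -((t - η) * ((2 - lam a + t) ^ 1)⁻¹) := by
    field_simp
    ring
  linarith

lemma log_sub_le {η t : ℝ} (hp : ∀ a, 0 < 2 - lam a + η) (hq : ∀ a, 0 < 2 - lam a + t) :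
    ∑ a, log (2 - lam a + t) - ∑ a, log (2 - lam a + η) ≤ (t - η) * trR 1 lam η := by
  have := log_sub_ge hq hp
  linarith

/-- the good spectrum of the blueprint -/
theorem Rigid.gs (h : Rigid w lam) (hn : 0 < n) (hw : 0 < w) (hk : kap w ≤ 1 / 100)
    (hs : sc0 n w ≤ 1 / 8) :
    (∀ s, sc0 n w ≤ s → |cnt lam s - n * scF s| ≤ kap w * (n * s ^ (3 / 2 : ℝ))) ∧
      |(∑ a, (2 + 2 * sc0 n w - lam a)⁻¹) / n - 1| ≤ 4 * √(sc0 n w) := by
  have h0 := sc0_pos hn hw
  have hn' : (0 : ℝ) < n := by exact_mod_cast hn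
  refine ⟨fun s hss => ?_, ?_⟩
  · rw [rpow_three_half (by linarith)]
    exact h.cnt_err' hn hw hss (by linarith)
  · have e : ∑ a, (2 + 2 * sc0 n w - lam a)⁻¹ = trR 1 lam (2 * sc0 n w) := by
      unfold trR
      refine Finset.sum_congr rfl fun a _ => ?_
      rw [pow_one]; congr 1; ring
    rw [e]
    have h1 := h.trR_one_le' hn hw hk le_rfl (by linarith)
    have h2 := h.trR_one_ge hn hw (η := 2 * sc0 n w) (by linarith) (by linarith)
      (h.pos (by linarith))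
    have h3 : √(2 * sc0 n w) ≤ 1 / 2 := by rw [sqrt_le_left (by norm_num)]; linarith
    have h4 : √(2 * sc0 n w) ≤ 3 / 2 * √(sc0 n w) := by
      rw [sqrt_le_left (by positivity), mul_pow, sq_sqrt h0.le]; linarith
    have h5 := c0_le
    have h6 : 0 ≤ √(sc0 n w) := sqrt_nonneg _
    have h7 : (6 * c0 + 2 * sc0 n w / 16 + √(2 * sc0 n w) + 30 * kap w) * (n * √(2 * sc0 n w)) ≤
        2.1 * (n * (3 / 2 * √(sc0 n w))) := by
      have := kap_pos hw
      have := c0_pos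
      gcongr
      linarith
    rw [abs_le, le_sub_iff_add_le, sub_le_iff_le_add, le_div_iff₀ hn', div_le_iff₀ hn']
    have h8 : 0 ≤ (n : ℝ) * √(sc0 n w) := by positivity
    constructor <;> nlinarith

end Vale.Agent.N150.Edge
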