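import Mathlib

/-! The orthogonal group `O(n)`, its Haar probability measure, closed subgroups, stabilisers,
reflections. -/

namespace Vale.Agent.N150

open Matrix MeasureTheory ProbabilityTheory

/-- The orthogonal group `O(n)`. -/
abbrev OG (n : ℕ) := Matrix.orthogonalGroup (Fin n) ℝ

variable {n : ℕ}

namespace OG

lemma mul_transpose (U : OG n) : U.1 * U.1ᵀ = 1 :=
  (Matrix.mem_orthogonalGroup_iff (Fin n) ℝ).1 U.2

lemma transpose_mul (U : OG n) : U.1ᵀ * U.1 = 1 :=
  (Matrix.mem_orthogonalGroup_iff' (Fin n) ℝ).1 U.2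

lemma coe_mul (U V : OG n) : (U * V).1 = U.1 * V.1 := rfl

lemma coe_one : (1 : OG n).1 = 1 := rfl

lemma coe_inv (U : OG n) : (U⁻¹).1 = U.1ᵀ := by
  have h : U.1 * (U⁻¹).1 = 1 := congrArg Subtype.val (mul_inv_cancel U)
  calc (U⁻¹).1 = (U.1ᵀ * U.1) * (U⁻¹).1 := by rw [transpose_mul, one_mul]
    _ = _ := by rw [mul_assoc, h, mul_one]

/-- an orthogonal matrix as an element of the group -/
def mk' (A : Matrix (Fin n) (Fin n) ℝ) (h : A * Aᵀ = 1) : OG n :=
  ⟨A, (Matrix.mem_orthogonalGroup_iff (Fin n) ℝ).2 h⟩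

@[simp] lemma mk'_val (A : Matrix (Fin n) (Fin n) ℝ) (h : A * Aᵀ = 1) : (mk' A h).1 = A := rfl

lemma dot (U : OG n) (x y : Fin n → ℝ) : (U.1 *ᵥ x) ⬝ᵥ (U.1 *ᵥ y) = x ⬝ᵥ y := by
  rw [Matrix.dotProduct_mulVec, Matrix.vecMul_mulVec, transpose_mul, Matrix.vecMul_one]

lemma dot_left (U : OG n) (x y : Fin n → ℝ) : (U.1 *ᵥ x) ⬝ᵥ y = x ⬝ᵥ (U.1ᵀ *ᵥ y) := by
  rw [Matrix.dotProduct_mulVec, Matrix.vecMul_transpose]

lemma tr_mulVec_mulVec (U : OG n) (x : Fin n → ℝ) : U.1ᵀ *ᵥ (U.1 *ᵥ x) = x := by
  rw [Matrix.mulVec_mulVec, transpose_mul, Matrix.one_mulVec]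

lemma mulVec_tr_mulVec (U : OG n) (x : Fin n → ℝ) : U.1 *ᵥ (U.1ᵀ *ᵥ x) = x := by
  rw [Matrix.mulVec_mulVec, mul_transpose, Matrix.one_mulVec]

lemma sum_sq_mulVec (U : OG n) (x : Fin n → ℝ) : ∑ i, (U.1 *ᵥ x) i ^ 2 = ∑ i, x i ^ 2 := by
  have := dot U x x
  simpa only [dotProduct, ← sq] using this

lemma row_sq (U : OG n) (i : Fin n) : ∑ j, U.1 i j ^ 2 = 1 := by
  have h : (U.1 * U.1ᵀ) i i = (1 : Matrix (Fin n) (Fin n) ℝ) i i := by rw [mul_transpose]
  rw [Matrix.mul_apply, Matrix.one_apply_eq] at h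
  simpa only [Matrix.transpose_apply, ← sq] using h

lemma col_sq (U : OG n) (j : Fin n) : ∑ i, U.1 i j ^ 2 = 1 := by
  have h : (U.1ᵀ * U.1) j j = (1 : Matrix (Fin n) (Fin n) ℝ) j j := by rw [transpose_mul]
  rw [Matrix.mul_apply, Matrix.one_apply_eq] at h
  simpa only [Matrix.transpose_apply, ← sq] using h

lemma abs_le_one (U : OG n) (i j : Fin n) : |U.1 i j| ≤ 1 := by
  have h : U.1 i j ^ 2 ≤ ∑ k, U.1 i k ^ 2 :=
    Finset.single_le_sum (f := fun k => U.1 i k ^ 2) (fun k _ => sq_nonneg _) (Finset.mem_univ j)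
  rw [row_sq] at h
  exact (sq_le_one_iff_abs_le_one _).1 h

lemma det_sq (U : OG n) : U.1.det ^ 2 = 1 := by
  have h := congrArg Matrix.det (mul_transpose U)
  rw [Matrix.det_mul, Matrix.det_transpose, Matrix.det_one] at h
  rw [sq, h]

lemma det_eq (U : OG n) : U.1.det = 1 ∨ U.1.det = -1 := by
  have h := det_sq U
  have : (U.1.det - 1) * (U.1.det + 1) = 0 := by ring_nf; linarith
  rcases mul_eq_zero.1 this with h | h
  · left; linarith
  · right; linarith

/-- left multiplication by an orthogonal matrix keeps the Hilbert-Schmidt norm -/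
lemma hs_mul_left (U : OG n) (A : Matrix (Fin n) (Fin n) ℝ) :
    ∑ i, ∑ j, (U.1 * A) i j ^ 2 = ∑ i, ∑ j, A i j ^ 2 := by
  rw [Finset.sum_comm, Finset.sum_comm (f := fun i j => A i j ^ 2)]
  refine Finset.sum_congr rfl fun j _ => ?_
  exact sum_sq_mulVec U fun i => A i j

/-- right multiplication by an orthogonal matrix keeps the Hilbert-Schmidt norm -/
lemma hs_mul_right (U : OG n) (A : Matrix (Fin n) (Fin n) ℝ) :
    ∑ i, ∑ j, (A * U.1) i j ^ 2 = ∑ i, ∑ j, A i j ^ 2 := by
  refine Finset.sum_congr rfl fun i _ => ?_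
  have := sum_sq_mulVec U⁻¹ fun j => A i j
  rw [coe_inv] at this
  rw [← this]
  refine Finset.sum_congr rfl fun j _ => ?_
  simp only [Matrix.mul_apply, Matrix.mulVec, dotProduct, Matrix.transpose_apply, mul_comm]

end OG

instance secondCountable_OG : SecondCountableTopology (OG n) := by
  have : SecondCountableTopology (Matrix (Fin n) (Fin n) ℝ) :=
    inferInstanceAs (SecondCountableTopology (Fin n → Fin n → ℝ))
  exact TopologicalSpace.Subtype.secondCountableTopology _

instance metrizable_OG : TopologicalSpace.MetrizableSpace (OG n) := by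
  have : TopologicalSpace.MetrizableSpace (Matrix (Fin n) (Fin n) ℝ) :=
    inferInstanceAs (TopologicalSpace.MetrizableSpace (Fin n → Fin n → ℝ))
  exact Topology.IsEmbedding.subtypeVal.metrizableSpace

theorem isCompact_orth :
    IsCompact {A : Fin n → Fin n → ℝ | Matrix.of A ∈ orthogonalGroup (Fin n) ℝ} := by
  refine Metric.isCompact_of_isClosed_isBounded ?_ ?_
  · have h : {A : Fin n → Fin n → ℝ | Matrix.of A ∈ orthogonalGroup (Fin n) ℝ} =
        {A : Fin n → Fin n → ℝ |
          ∀ i j, ∑ k, A i k * A j k = (1 : Matrix (Fin n) (Fin n) ℝ) i j} := by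
      ext A
      simp only [Set.mem_ofPred_eq, Matrix.mem_orthogonalGroup_iff, ← Matrix.ext_iff,
        Matrix.mul_apply, Matrix.transpose_apply, Matrix.of_apply]
    rw [h]
    simp only [Set.ofPred_forall]
    refine isClosed_iInter fun i => isClosed_iInter fun j => isClosed_eq ?_ continuous_const
    fun_prop
  · rw [Metric.isBounded_iff_subset_closedBall (0 : Fin n → Fin n → ℝ)]
    refine ⟨1, fun A hA => ?_⟩
    rw [mem_closedBall_zero_iff, pi_norm_le_iff_of_nonneg zero_le_one]
    intro i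
    rw [pi_norm_le_iff_of_nonneg zero_le_one]
    intro j
    exact OG.abs_le_one ⟨Matrix.of A, hA⟩ i j

instance compact_OG : CompactSpace (OG n) := isCompact_iff_compactSpace.1 (isCompact_orth (n := n))

instance meas_OG : MeasurableSpace (OG n) := borel (OG n)

instance borel_OG : BorelSpace (OG n) := ⟨rfl⟩

lemma continuous_val : Continuous fun U : OG n => U.1 := continuous_subtype_val

lemma continuous_entry (i j : Fin n) : Continuous fun U : OG n => U.1 i j :=
  (continuous_apply_apply i j).comp continuous_subtype_val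

lemma measurable_entry (i j : Fin n) : Measurable fun U : OG n => U.1 i j :=
  (continuous_entry i j).measurable

lemma continuous_OG {α : Type*} [TopologicalSpace α] {f : α → OG n}
    (hf : ∀ i j, Continuous fun a => (f a).1 i j) : Continuous f :=
  continuous_induced_rng.2 (continuous_pi fun i => continuous_pi fun j => hf i j)

lemma measurable_OG {α : Type*} [MeasurableSpace α] {f : α → OG n}
    (hf : ∀ i j, Measurable fun a => (f a).1 i j) : Measurable f := by
  have h : (meas_OG : MeasurableSpace (OG n)) =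
      MeasurableSpace.comap (fun (U : OG n) (i j : Fin n) => U.1 i j) MeasurableSpace.pi := by
    rw [BorelSpace.measurable_eq (α := Fin n → Fin n → ℝ)]
    exact borel_comap
  intro s hs
  rw [h] at hs
  obtain ⟨t, ht, rfl⟩ := hs
  have h2 : Measurable fun a => (fun (i j : Fin n) => (f a).1 i j) :=
    measurable_pi_iff.2 fun i => measurable_pi_iff.2 fun j => hf i j
  exact h2 ht

lemma continuous_det : Continuous fun U : OG n => U.1.det := continuous_val.matrix_det

lemma measurable_det : Measurable fun U : OG n => U.1.det := continuous_det.measurable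

lemma continuous_mulVec : Continuous fun p : OG n × (Fin n → ℝ) => p.1.1 *ᵥ p.2 :=
  (continuous_val.comp continuous_fst).matrix_mulVec continuous_snd

lemma measurable_mulVecG {α : Type*} [MeasurableSpace α] {f : α → OG n} {v : α → Fin n → ℝ}
    (hf : Measurable f) (hv : Measurable v) : Measurable fun a => (f a).1 *ᵥ v a :=
  continuous_mulVec.measurable.comp (hf.prodMk hv)

lemma measurable_tr_mulVec {α : Type*} [MeasurableSpace α] {f : α → OG n} {v : α → Fin n → ℝ}
    (hf : Measurable f) (hv : Measurable v) : Measurable fun a => (f a).1ᵀ *ᵥ v a := by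
  have h := measurable_mulVecG (f := fun a => (f a)⁻¹) hf.inv hv
  simpa only [OG.coe_inv] using h

/-! ### Invariant probability measures on subgroups -/

/-- a probability measure carried by the subgroup `H` and invariant under left translations by
elements of `H` -/
structure InvOn (H : Subgroup (OG n)) (ν : Measure (OG n)) : Prop where
  prob : IsProbabilityMeasure ν
  ae : ∀ᵐ U ∂ν, U ∈ H
  left : ∀ g ∈ H, ν.map (fun U => g * U) = ν

namespace InvOn

variable {H : Subgroup (OG n)} {ν ν' : Measure (OG n)}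

lemma lint_left (h : InvOn H ν) {g : OG n} (hg : g ∈ H) {f : OG n → ENNReal}
    (hf : Measurable f) : ∫⁻ U, f (g * U) ∂ν = ∫⁻ U, f U ∂ν := by
  rw [← lintegral_map hf (measurable_const_mul g), h.left g hg]

lemma lint_inv_eq (h : InvOn H ν) (h' : InvOn H ν') {f : OG n → ENNReal} (hf : Measurable f) :
    ∫⁻ U, f U ∂ν = ∫⁻ U, f U⁻¹ ∂ν' := by
  have := h.prob
  have := h'.prob
  have h1 : ∫⁻ W, ∫⁻ U, f (W⁻¹ * U) ∂ν ∂ν' = ∫⁻ U, f U ∂ν := by
    rw [lintegral_congr_ae (g := fun _ => ∫⁻ U, f U ∂ν)]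
    · simp only [lintegral_const, measure_univ, mul_one]
    · filter_upwards [h'.ae] with W hW using h.lint_left (H.inv_mem hW) hf
  have h2 : ∫⁻ U, ∫⁻ W, f (W⁻¹ * U) ∂ν' ∂ν = ∫⁻ U, f U⁻¹ ∂ν' := by
    rw [lintegral_congr_ae (g := fun _ => ∫⁻ U, f U⁻¹ ∂ν')]
    · simp only [lintegral_const, measure_univ, mul_one]
    · filter_upwards [h.ae] with U hU
      have := h'.lint_left (f := fun W => f W⁻¹) (H.inv_mem hU) (hf.comp measurable_inv)
      simpa only [_root_.mul_inv_rev, inv_inv] using this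
  rw [← h1, ← h2]
  apply lintegral_lintegral_swap
  exact (hf.comp ((measurable_inv.comp measurable_fst).mul measurable_snd)).aemeasurable

lemma map_inv_eq (h : InvOn H ν) (h' : InvOn H ν') : ν'.map (fun U => U⁻¹) = ν := by
  ext s hs
  rw [← lintegral_indicator_one hs, ← lintegral_indicator_one hs,
    lintegral_map (measurable_one.indicator hs) measurable_inv]
  exact (h.lint_inv_eq h' (measurable_one.indicator hs)).symm

lemma map_inv (h : InvOn H ν) : ν.map (fun U => U⁻¹) = ν := h.map_inv_eq h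

/-- uniqueness -/
theorem unique (h : InvOn H ν) (h' : InvOn H ν') : ν = ν' := by
  rw [← h.map_inv_eq h', h'.map_inv]

lemma right (h : InvOn H ν) {g : OG n} (hg : g ∈ H) : ν.map (fun U => U * g) = ν := by
  have e : (fun U : OG n => U * g) = (fun U => U⁻¹) ∘ (fun U => g⁻¹ * U) ∘ (fun U => U⁻¹) := by
    funext U; simp only [Function.comp_apply, _root_.mul_inv_rev, inv_inv]
  rw [e, ← Measure.map_map measurable_inv ((measurable_const_mul _).comp measurable_inv),
    ← Measure.map_map (measurable_const_mul _) measurable_inv, h.map_inv,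
    h.left _ (H.inv_mem hg), h.map_inv]

lemma lint_right (h : InvOn H ν) {g : OG n} (hg : g ∈ H) {f : OG n → ENNReal}
    (hf : Measurable f) : ∫⁻ U, f (U * g) ∂ν = ∫⁻ U, f U ∂ν := by
  rw [← lintegral_map hf (measurable_mul_const g), h.right hg]

lemma lint_inv (h : InvOn H ν) {f : OG n → ENNReal} (hf : Measurable f) :
    ∫⁻ U, f U⁻¹ ∂ν = ∫⁻ U, f U ∂ν := (h.lint_inv_eq h hf).symm

lemma int_left {E : Type*} [NormedAddCommGroup E] [NormedSpace ℝ E] (h : InvOn H ν) {g : OG n}
    (hg : g ∈ H) (f : OG n → E) : ∫ U, f (g * U) ∂ν = ∫ U, f U ∂ν := by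
  have := integral_map_equiv (μ := ν) (MeasurableEquiv.mulLeft g) f
  rw [MeasurableEquiv.coe_mulLeft, h.left g hg] at this
  exact this.symm

lemma int_right {E : Type*} [NormedAddCommGroup E] [NormedSpace ℝ E] (h : InvOn H ν) {g : OG n}
    (hg : g ∈ H) (f : OG n → E) : ∫ U, f (U * g) ∂ν = ∫ U, f U ∂ν := by
  have := integral_map_equiv (μ := ν) (MeasurableEquiv.mulRight g) f
  rw [MeasurableEquiv.coe_mulRight, h.right hg] at this
  exact this.symm

lemma int_inv {E : Type*} [NormedAddCommGroup E] [NormedSpace ℝ E] (h : InvOn H ν)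
    (f : OG n → E) : ∫ U, f U⁻¹ ∂ν = ∫ U, f U ∂ν := by
  have := integral_map_equiv (μ := ν) (MeasurableEquiv.inv (OG n)) f
  rw [show ⇑(MeasurableEquiv.inv (OG n)) = fun U => U⁻¹ from rfl, h.map_inv] at this
  exact this.symm

/-- translation invariance for arbitrary sets -/
lemma meas_left (h : InvOn H ν) {g : OG n} (hg : g ∈ H) (S : Set (OG n)) :
    ν {U | g * U ∈ S} = ν S := by
  have := (MeasurableEquiv.mulLeft g).map_apply (μ := ν) S
  rw [MeasurableEquiv.coe_mulLeft, h.left g hg] at this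
  exact this.symm

lemma meas_right (h : InvOn H ν) {g : OG n} (hg : g ∈ H) (S : Set (OG n)) :
    ν {U | U * g ∈ S} = ν S := by
  have := (MeasurableEquiv.mulRight g).map_apply (μ := ν) S
  rw [MeasurableEquiv.coe_mulRight, h.right hg] at this
  exact this.symm

lemma meas_inv (h : InvOn H ν) (S : Set (OG n)) : ν {U | U⁻¹ ∈ S} = ν S := by
  have := (MeasurableEquiv.inv (OG n)).map_apply (μ := ν) S
  rw [show ⇑(MeasurableEquiv.inv (OG n)) = fun U => U⁻¹ from rfl, h.map_inv] at this
  exact this.symm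

/-- the same notion from right invariance -/
lemma of_right (hm : MeasurableSet (H : Set (OG n))) (hp : IsProbabilityMeasure ν)
    (ha : ∀ᵐ U ∂ν, U ∈ H) (hr : ∀ g ∈ H, ν.map (fun U => U * g) = ν) : InvOn H ν := by
  have h1 : InvOn H (ν.map fun U => U⁻¹) := by
    refine ⟨Measure.isProbabilityMeasure_map measurable_inv.aemeasurable, ?_, fun g hg => ?_⟩
    · refine (ae_map_iff measurable_inv.aemeasurable hm).2 ?_
      filter_upwards [ha] with U hU using H.inv_mem hU
    · rw [Measure.map_map (measurable_const_mul g) measurable_inv]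
      have e : ((fun U : OG n => g * U) ∘ fun U => U⁻¹) = (fun U => U⁻¹) ∘ fun U => U * g⁻¹ := by
        funext U; simp only [Function.comp_apply, _root_.mul_inv_rev, inv_inv]
      rw [e, ← Measure.map_map measurable_inv (measurable_mul_const _), hr _ (H.inv_mem hg)]
  have h2 := h1.map_inv
  rw [Measure.map_map measurable_inv measurable_inv] at h2
  have e : ((fun U : OG n => U⁻¹) ∘ fun U => U⁻¹) = id := by funext U; simp
  rw [e, Measure.map_id] at h2
  rwa [← h2] at h1

/-- averaging over a subgroup on the right does not change an invariant integral -/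
lemma lint_fibre {K : Subgroup (OG n)} (h : InvOn H ν) (h' : InvOn K ν') (hK : K ≤ H)
    {F : OG n → ENNReal} (hF : Measurable F) :
    ∫⁻ O, ∫⁻ U, F (O * U) ∂ν' ∂ν = ∫⁻ O, F O ∂ν := by
  have := h.prob
  have := h'.prob
  have hm : Measurable (Function.uncurry fun O U : OG n => F (O * U)) :=
    hF.comp (measurable_fst.mul measurable_snd)
  rw [lintegral_lintegral_swap hm.aemeasurable,
    lintegral_congr_ae (g := fun _ => ∫⁻ O, F O ∂ν)]
  · simp only [lintegral_const, measure_univ, mul_one]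
  · filter_upwards [h'.ae] with U hU using h.lint_right (hK hU) hF

/-- averaging over a subgroup on the left does not change an invariant integral -/
lemma lint_fibre_left {K : Subgroup (OG n)} (h : InvOn H ν) (h' : InvOn K ν') (hK : K ≤ H)
    {F : OG n → ENNReal} (hF : Measurable F) :
    ∫⁻ O, ∫⁻ U, F (U * O) ∂ν' ∂ν = ∫⁻ O, F O ∂ν := by
  have := h.prob
  have := h'.prob
  have hm : Measurable (Function.uncurry fun O U : OG n => F (U * O)) :=
    hF.comp (measurable_snd.mul measurable_fst)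
  rw [lintegral_lintegral_swap hm.aemeasurable,
    lintegral_congr_ae (g := fun _ => ∫⁻ O, F O ∂ν)]
  · simp only [lintegral_const, measure_univ, mul_one]
  · filter_upwards [h'.ae] with U hU using h.lint_left (hK hU) hF

/-- conjugation -/
lemma conj {K : Subgroup (OG n)} (h : InvOn H ν) (g : OG n)
    (hm : MeasurableSet (K : Set (OG n))) (hK : ∀ U, U ∈ H ↔ g * U * g⁻¹ ∈ K) :
    InvOn K (ν.map fun U => g * U * g⁻¹) := by
  have := h.prob
  have hc : Measurable fun U : OG n => g * U * g⁻¹ :=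
    (measurable_const_mul g).mul measurable_const
  refine ⟨Measure.isProbabilityMeasure_map hc.aemeasurable, ?_, fun k hk => ?_⟩
  · refine (ae_map_iff hc.aemeasurable hm).2 ?_
    filter_upwards [h.ae] with U hU using (hK U).1 hU
  · have h1 : g⁻¹ * k * g ∈ H := (hK _).2 (by simpa [mul_assoc] using hk)
    rw [Measure.map_map (measurable_const_mul k) hc]
    have e : ((fun U : OG n => k * U) ∘ fun U => g * U * g⁻¹) =
        (fun U => g * U * g⁻¹) ∘ fun U => (g⁻¹ * k * g) * U := by
      funext U; simp only [Function.comp_apply]; group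
    rw [e, ← Measure.map_map hc (measurable_const_mul _), h.left _ h1]

end InvOn

/-- the Haar probability measure of a closed subgroup, as a measure on `O(n)` -/
noncomputable def haarS (H : Subgroup (OG n)) (hH : IsClosed (H : Set (OG n))) : Measure (OG n) :=
  haveI : CompactSpace H := isCompact_iff_compactSpace.1 hH.isCompact
  (Measure.haarMeasure (⊤ : TopologicalSpace.PositiveCompacts H)).map Subtype.val

theorem invOn_haarS (H : Subgroup (OG n)) (hH : IsClosed (H : Set (OG n))) :
    InvOn H (haarS H hH) := by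
  have : CompactSpace H := isCompact_iff_compactSpace.1 hH.isCompact
  have : IsProbabilityMeasure (Measure.haarMeasure (⊤ : TopologicalSpace.PositiveCompacts H)) :=
    ⟨Measure.haarMeasure_self⟩
  have hv : Measurable (Subtype.val : H → OG n) := measurable_subtype_coe
  refine ⟨Measure.isProbabilityMeasure_map hv.aemeasurable, ?_, fun g hg => ?_⟩
  · exact (ae_map_iff hv.aemeasurable hH.measurableSet).2 (Filter.Eventually.of_forall fun U => U.2)
  · unfold haarS
    rw [Measure.map_map (measurable_const_mul g) hv]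
    have e : ((fun U : OG n => g * U) ∘ (Subtype.val : H → OG n)) =
        Subtype.val ∘ fun U : H => (⟨g, hg⟩ : H) * U := rfl
    rw [e, ← Measure.map_map hv (measurable_const_mul _), map_mul_left_eq_self]

/-- the Haar probability measure on `O(n)` -/
noncomputable def haar (n : ℕ) : Measure (OG n) :=
  Measure.haarMeasure (⊤ : TopologicalSpace.PositiveCompacts (OG n))

instance : IsProbabilityMeasure (haar n) := ⟨Measure.haarMeasure_self⟩

instance : (haar n).IsHaarMeasure := by unfold haar; infer_instance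

theorem invOn_haar : InvOn ⊤ (haar n) :=
  ⟨inferInstance, Filter.Eventually.of_forall fun _ => Subgroup.mem_top _, fun g _ => map_mul_left_eq_self _ g⟩

instance : (haar n).IsMulRightInvariant := ⟨fun _ => invOn_haar.right (Subgroup.mem_top _)⟩

instance : (haar n).IsInvInvariant := ⟨invOn_haar.map_inv⟩

theorem eq_haar_of_left (ν : Measure (OG n)) [IsProbabilityMeasure ν]
    (h : ∀ g : OG n, ν.map (fun U => g * U) = ν) : ν = haar n :=
  InvOn.unique (H := ⊤)
    ⟨inferInstance, Filter.Eventually.of_forall fun _ => Subgroup.mem_top _, fun g _ => h g⟩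
    invOn_haar

theorem eq_haar_of_right (ν : Measure (OG n)) [IsProbabilityMeasure ν]
    (h : ∀ g : OG n, ν.map (fun U => U * g) = ν) : ν = haar n :=
  InvOn.unique (InvOn.of_right (by simp) inferInstance
    (Filter.Eventually.of_forall fun _ => Subgroup.mem_top _) fun g _ => h g) invOn_haar

/-! ### Stabilisers -/

/-- the full stabiliser: orthogonal matrices acting only on the range of `P` -/
def HG (P : Matrix (Fin n) (Fin n) ℝ) : Subgroup (OG n) where
  carrier := {U | U.1 * (1 - P) = 1 - P}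
  mul_mem' := by
    intro a b ha hb
    simp only [Set.mem_ofPred_eq] at *
    rw [OG.coe_mul, mul_assoc, hb, ha]
  one_mem' := by simp only [Set.mem_ofPred_eq, OG.coe_one, one_mul]
  inv_mem' := by
    intro a ha
    simp only [Set.mem_ofPred_eq] at *
    rw [OG.coe_inv]
    calc a.1ᵀ * (1 - P) = a.1ᵀ * (a.1 * (1 - P)) := by rw [ha]
      _ = 1 - P := by rw [← mul_assoc, OG.transpose_mul, one_mul]

/-- the rotations acting only on the range of `P` -/
def SG (P : Matrix (Fin n) (Fin n) ℝ) : Subgroup (OG n) where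
  carrier := {U | U.1 * (1 - P) = 1 - P ∧ U.1.det = 1}
  mul_mem' := by
    intro a b ha hb
    refine ⟨(HG P).mul_mem ha.1 hb.1, ?_⟩
    rw [OG.coe_mul, Matrix.det_mul, ha.2, hb.2, one_mul]
  one_mem' := ⟨(HG P).one_mem, by rw [OG.coe_one, Matrix.det_one]⟩
  inv_mem' := by
    intro a ha
    refine ⟨(HG P).inv_mem ha.1, ?_⟩
    rw [OG.coe_inv, Matrix.det_transpose, ha.2]

variable {P : Matrix (Fin n) (Fin n) ℝ}

lemma mem_HG {U : OG n} : U ∈ HG P ↔ U.1 * (1 - P) = 1 - P := Iff.rfl

lemma mem_SG {U : OG n} : U ∈ SG P ↔ U.1 * (1 - P) = 1 - P ∧ U.1.det = 1 := Iff.rfl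

lemma SG_le_HG : SG P ≤ HG P := fun _ h => h.1

lemma isClosed_HG (P : Matrix (Fin n) (Fin n) ℝ) : IsClosed (HG P : Set (OG n)) :=
  isClosed_eq (continuous_val.matrix_mul continuous_const) continuous_const

lemma isClosed_SG (P : Matrix (Fin n) (Fin n) ℝ) : IsClosed (SG P : Set (OG n)) :=
  (isClosed_HG P).inter (isClosed_eq continuous_det continuous_const)

/-- an element of the stabiliser fixes every vector killed by `P` -/
lemma HG_mulVec {U : OG n} (hU : U ∈ HG P) {v : Fin n → ℝ} (hv : P *ᵥ v = 0) : U.1 *ᵥ v = v := by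
  have h : (1 - P) *ᵥ v = v := by rw [Matrix.sub_mulVec, Matrix.one_mulVec, hv, sub_zero]
  calc U.1 *ᵥ v = U.1 *ᵥ ((1 - P) *ᵥ v) := by rw [h]
    _ = v := by rw [Matrix.mulVec_mulVec, mem_HG.1 hU, h]

lemma HG_left (hP : Pᵀ = P) {U : OG n} (hU : U ∈ HG P) : (1 - P) * U.1 = 1 - P := by
  have h := congrArg Matrix.transpose (mem_HG.1 ((HG P).inv_mem hU))
  rwa [OG.coe_inv, Matrix.transpose_mul, Matrix.transpose_transpose, Matrix.transpose_sub,
    Matrix.transpose_one, hP] at h

/-- elements of the stabiliser commute with the projection -/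
lemma HG_comm (hP : Pᵀ = P) {U : OG n} (hU : U ∈ HG P) : U.1 * P = P * U.1 := by
  have h1 := mem_HG.1 hU
  have h2 := HG_left hP hU
  rw [mul_sub, mul_one] at h1
  rw [sub_mul, one_mul, ← h1] at h2
  exact (sub_right_injective h2).symm

/-- the Haar probability measure on the rotations of the range of `P` -/
noncomputable def haarP (P : Matrix (Fin n) (Fin n) ℝ) : Measure (OG n) :=
  haarS (SG P) (isClosed_SG P)

/-- the Haar probability measure on the full stabiliser -/
noncomputable def haarH (P : Matrix (Fin n) (Fin n) ℝ) : Measure (OG n) :=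
  haarS (HG P) (isClosed_HG P)

theorem invOn_haarP (P : Matrix (Fin n) (Fin n) ℝ) : InvOn (SG P) (haarP P) := invOn_haarS _ _

theorem invOn_haarH (P : Matrix (Fin n) (Fin n) ℝ) : InvOn (HG P) (haarH P) := invOn_haarS _ _

instance : IsProbabilityMeasure (haarP P) := (invOn_haarP P).prob

instance : IsProbabilityMeasure (haarH P) := (invOn_haarH P).prob

lemma conj_HG (g U : OG n) : U ∈ HG P ↔ g * U * g⁻¹ ∈ HG (g.1 * P * g.1ᵀ) := by
  have e : 1 - g.1 * P * g.1ᵀ = g.1 * (1 - P) * g.1ᵀ := by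
    rw [mul_sub, sub_mul, mul_one, OG.mul_transpose]
  have e2 : g.1 * U.1 * g.1ᵀ * (g.1 * (1 - P) * g.1ᵀ) = g.1 * (U.1 * (1 - P)) * g.1ᵀ := by
    calc _ = g.1 * U.1 * (g.1ᵀ * g.1) * (1 - P) * g.1ᵀ := by simp only [mul_assoc]
      _ = _ := by rw [OG.transpose_mul]; simp only [mul_assoc, one_mul]
  rw [mem_HG, mem_HG, OG.coe_mul, OG.coe_mul, OG.coe_inv, e, e2]
  refine ⟨fun h => by rw [h], fun h => ?_⟩
  have h2 := congrArg (fun A => g.1ᵀ * A * g.1) h
  simp only [mul_assoc, OG.transpose_mul, mul_one] at h2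
  simpa only [← mul_assoc, OG.transpose_mul, one_mul] using h2

lemma conj_SG (g U : OG n) : U ∈ SG P ↔ g * U * g⁻¹ ∈ SG (g.1 * P * g.1ᵀ) := by
  have e : (g * U * g⁻¹).1.det = U.1.det := by
    rw [OG.coe_mul, OG.coe_mul, OG.coe_inv, Matrix.det_mul, Matrix.det_mul, Matrix.det_transpose]
    have := OG.det_sq g
    linear_combination U.1.det * this
  rw [mem_SG, mem_SG, e]
  exact and_congr_left' (conj_HG g U)

theorem haarP_conj (g : OG n) (P : Matrix (Fin n) (Fin n) ℝ) :
    haarP (g.1 * P * g.1ᵀ) = (haarP P).map fun U => g * U * g⁻¹ :=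
  (invOn_haarP _).unique
    ((invOn_haarP P).conj g (isClosed_SG _).measurableSet (conj_SG g))

theorem haarH_conj (g : OG n) (P : Matrix (Fin n) (Fin n) ℝ) :
    haarH (g.1 * P * g.1ᵀ) = (haarH P).map fun U => g * U * g⁻¹ :=
  (invOn_haarH _).unique
    ((invOn_haarH P).conj g (isClosed_HG _).measurableSet (conj_HG g))

/-- fibre formula for a fixed projection -/
theorem lint_haar_fibre (P : Matrix (Fin n) (Fin n) ℝ) {F : OG n → ENNReal} (hF : Measurable F) :
    ∫⁻ O, ∫⁻ U, F (O * U) ∂haarP P ∂haar n = ∫⁻ O, F O ∂haar n :=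
  invOn_haar.lint_fibre (invOn_haarP P) le_top hF

theorem lint_haar_fibre_left (P : Matrix (Fin n) (Fin n) ℝ) {F : OG n → ENNReal}
    (hF : Measurable F) :
    ∫⁻ O, ∫⁻ U, F (U * O) ∂haarP P ∂haar n = ∫⁻ O, F O ∂haar n :=
  invOn_haar.lint_fibre_left (invOn_haarP P) le_top hF

lemma HG_one : HG (1 : Matrix (Fin n) (Fin n) ℝ) = ⊤ := by
  ext U; simp [mem_HG]

theorem haarH_one : haarH (1 : Matrix (Fin n) (Fin n) ℝ) = haar n := by
  have h := invOn_haarH (1 : Matrix (Fin n) (Fin n) ℝ)
  rw [HG_one] at h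
  exact h.unique invOn_haar

/-! ### Reflections -/

/-- Householder reflection matrix (the identity for `w = 0`) -/
noncomputable def rfl' (w : Fin n → ℝ) : Matrix (Fin n) (Fin n) ℝ :=
  1 - (2 / (w ⬝ᵥ w)) • Matrix.vecMulVec w w

lemma rfl'_transpose (w : Fin n → ℝ) : (rfl' w)ᵀ = rfl' w := by
  unfold rfl'
  ext i j
  simp [Matrix.one_apply, Matrix.vecMulVec_apply, eq_comm, mul_comm]

lemma rfl'_mulVec (w x : Fin n → ℝ) :
    rfl' w *ᵥ x = x - ((2 / (w ⬝ᵥ w)) * (w ⬝ᵥ x)) • w := by
  unfold rfl'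
  rw [Matrix.sub_mulVec, Matrix.one_mulVec, Matrix.smul_mulVec, Matrix.vecMulVec_mulVec]
  ext i
  simp [smul_smul, mul_comm]

lemma rfl'_mul_self (w : Fin n → ℝ) : rfl' w * rfl' w = 1 := by
  by_cases hw : w ⬝ᵥ w = 0
  · unfold rfl'
    rw [hw]; simp
  · have h1 : Matrix.vecMulVec w w * Matrix.vecMulVec w w = (w ⬝ᵥ w) • Matrix.vecMulVec w w := by
      ext i j
      simp only [Matrix.mul_apply, Matrix.vecMulVec_apply, Matrix.smul_apply, smul_eq_mul,
        dotProduct, Finset.sum_mul]
      refine Finset.sum_congr rfl fun k _ => ?_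
      ring
    unfold rfl'
    rw [sub_mul, one_mul, mul_sub, mul_one, Matrix.smul_mul, Matrix.mul_smul, h1, smul_smul,
      smul_smul]
    have h2 : 2 / (w ⬝ᵥ w) * (2 / (w ⬝ᵥ w)) * (w ⬝ᵥ w) = 2 / (w ⬝ᵥ w) + 2 / (w ⬝ᵥ w) := by
      field_simp; ring
    rw [h2, add_smul]
    abel

/-- Householder reflection as an element of `O(n)` -/
noncomputable def rflG (w : Fin n → ℝ) : OG n :=
  OG.mk' (rfl' w) (by rw [rfl'_transpose, rfl'_mul_self])

lemma rflG_val (w : Fin n → ℝ) : (rflG w).1 = rfl' w := rfl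

lemma rflG_mul_self (w : Fin n → ℝ) : rflG w * rflG w = 1 := Subtype.ext (rfl'_mul_self w)

lemma rflG_inv (w : Fin n → ℝ) : (rflG w)⁻¹ = rflG w :=
  inv_eq_of_mul_eq_one_right (rflG_mul_self w)

lemma rfl'_self {w : Fin n → ℝ} (hw : w ⬝ᵥ w ≠ 0) : rfl' w *ᵥ w = -w := by
  rw [rfl'_mulVec, div_mul_cancel₀ _ hw]
  ext i; simp; ring

lemma rfl'_perp {w x : Fin n → ℝ} (h : w ⬝ᵥ x = 0) : rfl' w *ᵥ x = x := by
  rw [rfl'_mulVec, h]; simp

/-- the reflection exchanging two vectors of the same length -/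
lemma rfl'_swap {u v : Fin n → ℝ} (h : u ⬝ᵥ u = v ⬝ᵥ v) : rfl' (u - v) *ᵥ u = v := by
  by_cases hw : (u - v) ⬝ᵥ (u - v) = 0
  · have e : u - v = 0 := dotProduct_self_eq_zero.1 hw
    rw [rfl'_mulVec, e, smul_zero, sub_zero]
    exact sub_eq_zero.1 e
  · have e : (u - v) ⬝ᵥ (u - v) = 2 * ((u - v) ⬝ᵥ u) := by
      simp only [sub_dotProduct, dotProduct_sub, dotProduct_comm v u]
      linarith
    have e2 : 2 / ((u - v) ⬝ᵥ (u - v)) * ((u - v) ⬝ᵥ u) = 1 := by
      rw [div_mul_eq_mul_div, ← e, div_self hw]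
    rw [rfl'_mulVec, e2, one_smul, sub_sub_cancel]

lemma det_rfl' {w : Fin n → ℝ} (hw : w ⬝ᵥ w ≠ 0) : (rfl' w).det = -1 := by
  have e : rfl' w = 1 + Matrix.vecMulVec ((-(2 / (w ⬝ᵥ w))) • w) w := by
    unfold rfl'
    ext i j
    simp [Matrix.vecMulVec_apply, sub_eq_add_neg]
  rw [e, Matrix.vecMulVec_eq (Fin 1), Matrix.det_one_add_replicateCol_mul_replicateRow,
    dotProduct_smul, smul_eq_mul, neg_mul, div_mul_cancel₀ _ hw]
  norm_num

lemma conj_rflG (h : OG n) (w : Fin n → ℝ) : h * rflG w * h⁻¹ = rflG (h.1 *ᵥ w) := by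
  apply Subtype.ext
  rw [OG.coe_mul, OG.coe_mul, OG.coe_inv]
  show h.1 * rfl' w * h.1ᵀ = rfl' _
  unfold rfl'
  rw [OG.dot, mul_sub, mul_one, sub_mul, OG.mul_transpose, Matrix.mul_smul, Matrix.smul_mul,
    Matrix.mul_vecMulVec, Matrix.vecMulVec_mul, Matrix.vecMul_transpose]

/-- a reflection along a vector in the range of a symmetric projection is in the stabiliser -/
lemma rflG_mem_HG (hP : Pᵀ = P) {w : Fin n → ℝ} (hw : P *ᵥ w = w) : rflG w ∈ HG P := by
  rw [mem_HG, rflG_val]
  unfold rfl'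
  have h : w ᵥ* (1 - P) = 0 := by
    rw [Matrix.vecMul_sub, Matrix.vecMul_one, ← hP, Matrix.vecMul_transpose, hw, sub_self]
  rw [sub_mul, one_mul, Matrix.smul_mul, Matrix.vecMulVec_mul, h]
  simp

lemma measurable_dot {α : Type*} [MeasurableSpace α] {f g : α → (Fin n → ℝ)}
    (hf : Measurable f) (hg : Measurable g) : Measurable fun a => f a ⬝ᵥ g a := by
  unfold dotProduct
  refine Finset.measurable_sum _ fun i _ => ?_
  exact ((measurable_pi_apply i).comp hf).mul ((measurable_pi_apply i).comp hg)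

lemma measurable_rflG {α : Type*} [MeasurableSpace α] {f : α → (Fin n → ℝ)} (hf : Measurable f) :
    Measurable fun a => rflG (f a) := by
  refine measurable_OG fun i j => ?_
  have : (fun a => (rflG (f a)).1 i j) =
      fun a => (1 : Matrix (Fin n) (Fin n) ℝ) i j - (2 / (f a ⬝ᵥ f a)) * (f a i * f a j) := by
    funext a
    show rfl' (f a) i j = _
    simp [rfl', Matrix.vecMulVec_apply]
  rw [this]
  have hi := (measurable_pi_apply i).comp hf
  have hj := (measurable_pi_apply j).comp hf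
  exact measurable_const.sub ((measurable_const.div (measurable_dot hf hf)).mul (hi.mul hj))

/-! ### Rotation invariance of the standard Gaussian -/

/-- an orthogonal matrix as a linear isometry -/
noncomputable def isoOf (h : OG n) :
    EuclideanSpace ℝ (Fin n) ≃ₗᵢ[ℝ] EuclideanSpace ℝ (Fin n) where
  toLinearEquiv := LinearEquiv.ofLinearMap (Matrix.toEuclideanLin h.1)
    (Matrix.toEuclideanLin h.1ᵀ)
    (by
      ext x i
      simp [Matrix.toLpLin_apply, Matrix.mulVec_mulVec, OG.mul_transpose])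
    (by
      ext x i
      simp [Matrix.toLpLin_apply, Matrix.mulVec_mulVec, OG.transpose_mul])
  norm_map' := by
    intro x
    rw [EuclideanSpace.norm_eq, EuclideanSpace.norm_eq]
    congr 1
    have := OG.dot h x.ofLp x.ofLp
    simp only [dotProduct] at this
    simp only [Real.norm_eq_abs, sq, abs_mul_abs_self]
    exact this

theorem gauss_map (h : OG n) :
    (Measure.pi fun _ : Fin n => gaussianReal 0 1).map (fun x => h.1 *ᵥ x) =
      Measure.pi fun _ : Fin n => gaussianReal 0 1 := by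
  have h1 : (Measure.pi fun _ : Fin n => gaussianReal 0 1).map (WithLp.toLp 2) =
      stdGaussian (EuclideanSpace ℝ (Fin n)) := map_pi_eq_stdGaussian
  have h2 := stdGaussian_map (E := EuclideanSpace ℝ (Fin n)) (isoOf h)
  have hm : Measurable (WithLp.ofLp : EuclideanSpace ℝ (Fin n) → (Fin n → ℝ)) := by fun_prop
  have hm2 : Measurable (WithLp.toLp 2 : (Fin n → ℝ) → EuclideanSpace ℝ (Fin n)) := by fun_prop
  have h3 : (fun x : Fin n → ℝ => h.1 *ᵥ x) =
      (WithLp.ofLp : EuclideanSpace ℝ (Fin n) → (Fin n → ℝ)) ∘ (isoOf h) ∘ (WithLp.toLp 2) := by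
    funext x
    rfl
  have h4 : (Measure.pi fun _ : Fin n => gaussianReal 0 1) =
      (stdGaussian (EuclideanSpace ℝ (Fin n))).map WithLp.ofLp := by
    rw [← h1, Measure.map_map hm hm2]
    exact Measure.map_id.symm
  rw [h3, ← Measure.map_map hm (by fun_prop), ← Measure.map_map (by fun_prop) hm2, h1, h2, ← h4]

end Vale.Agent.N150
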