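import Mathlib
import Vale.Agent.P150.Bdl.B1

/-! The uniform law on a sphere through normalised Gaussian vectors, spherical integrals and the
saddle function; invariance of the standard Gaussian measure under co-isometries. -/

open MeasureTheory ProbabilityTheory Matrix
open scoped ENNReal

namespace Vale.Agent.N150

open Vale.Agent.P150 Vale.Agent.P150.F

variable {n : ℕ}

/-- radial projection on the sphere of squared radius `ρ` -/
noncomputable def rp (ρ : ℝ) (g : Vec n) : Vec n := (√ρ / √(F.sq g)) • g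

/-- the uniform law on the sphere `|u|² = ρ` (for `n ≥ 1`) -/
noncomputable def sph (n : ℕ) (ρ : ℝ) : Measure (Vec n) := (gpi (Fin n)).map (rp ρ)

/-- the energy in eigen-coordinates -/
noncomputable def HE (lam yt u : Vec n) : ℝ := (∑ a, lam a * u a ^ 2) / 2 + ∑ a, yt a * u a

/-- the spherical integral on the sphere of squared radius `n` -/
noncomputable def IS (lam yt : Vec n) : ℝ := ∫ u, Real.exp (HE lam yt u) ∂(sph n n)

/-- the saddle function -/
noncomputable def PhiS (lam yt : Vec n) (γ : ℝ) : ℝ :=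
  n * (γ - 1) / 2 - (∑ a, Real.log (γ - lam a)) / 2 + (∑ a, yt a ^ 2 / (γ - lam a)) / 2

/-! ### co-isometries preserve the Gaussian measure -/

theorem integral_cexp_gpi' {ι : Type*} [Fintype ι] (a : ι → ℝ) :
    ∫ z, Complex.exp ((∑ i, a i * z i : ℝ) * Complex.I) ∂(gpi ι) =
      Complex.exp (-((∑ i, a i ^ 2) / 2 : ℝ)) := by
  have e : ∀ z : ι → ℝ, Complex.exp ((∑ i, a i * z i : ℝ) * Complex.I) =
      ∏ i, Complex.exp ((a i * z i : ℝ) * Complex.I) := by
    intro z
    rw [← Complex.exp_sum]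
    congr 1
    push_cast
    rw [Finset.sum_mul]
  simp_rw [e]
  unfold gpi
  rw [integral_fintype_prod_eq_prod (𝕜 := ℂ) (μ := fun _ => gaussianReal 0 1)
    (f := fun (i : ι) (x : ℝ) => Complex.exp ((a i * x : ℝ) * Complex.I))]
  have e1 : ∀ i : ι, ∫ x, Complex.exp ((a i * x : ℝ) * Complex.I) ∂(gaussianReal 0 1) =
      Complex.exp (-(a i ^ 2 / 2 : ℝ)) := by
    intro i
    have h := charFun_gaussianReal (μ := 0) (v := 1) (a i)
    rw [charFun_apply_real] at h
    simp only [Complex.ofReal_mul]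
    rw [h]
    congr 1
    push_cast
    ring
  simp_rw [e1]
  rw [← Complex.exp_sum]
  congr 1
  push_cast
  rw [Finset.sum_div, Finset.sum_neg_distrib]

theorem measurable_matVec {ι κ : Type*} [Fintype ι] (A : Matrix κ ι ℝ) :
    Measurable (fun w : ι → ℝ => A.mulVec w) := by
  refine measurable_pi_iff.2 fun k => ?_
  simp only [Matrix.mulVec, dotProduct]
  fun_prop

theorem dual_eq_sum {κ : Type*} [Fintype κ] [DecidableEq κ] (L : StrongDual ℝ (κ → ℝ))
    (v : κ → ℝ) : L v = ∑ k, L (Pi.single k 1) * v k := by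
  have h : v = ∑ k, v k • (Pi.single k (1 : ℝ) : κ → ℝ) := by
    funext j
    simp [Finset.sum_apply, Pi.single_apply]
  conv_lhs => rw [h]
  rw [map_sum]
  refine Finset.sum_congr rfl fun k _ => ?_
  rw [map_smul, smul_eq_mul, mul_comm]

/-- A matrix with orthonormal rows maps the standard Gaussian measure to the standard Gaussian
measure. -/
theorem mp_mulVec {ι κ : Type*} [Fintype ι] [Fintype κ] [DecidableEq κ] {A : Matrix κ ι ℝ}
    (h : A * Aᵀ = 1) : MeasurePreserving (fun w : ι → ℝ => A.mulVec w) (gpi ι) (gpi κ) := by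
  refine ⟨measurable_matVec A, ?_⟩
  have : IsProbabilityMeasure ((gpi ι).map (fun w : ι → ℝ => A.mulVec w)) :=
    Measure.isProbabilityMeasure_map (measurable_matVec A).aemeasurable
  apply Measure.ext_of_charFunDual
  funext L
  rw [charFunDual_apply, charFunDual_apply, integral_map (measurable_matVec A).aemeasurable
    (by fun_prop : Measurable fun v : κ → ℝ =>
      Complex.exp ((L v : ℝ) * Complex.I)).aestronglyMeasurable]
  set c : κ → ℝ := fun k => L (Pi.single k 1) with hc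
  have e1 : ∀ v : κ → ℝ, L v = ∑ k, c k * v k := dual_eq_sum L
  have e2 : ∀ w : ι → ℝ, L (A.mulVec w) = ∑ i, (Aᵀ.mulVec c) i * w i := by
    intro w
    rw [e1]
    have h1 : ∑ k, c k * A.mulVec w k = c ⬝ᵥ A.mulVec w := rfl
    rw [h1, Matrix.dotProduct_mulVec, ← Matrix.mulVec_transpose]
    rfl
  simp_rw [e2]
  conv_rhs => simp only [e1]
  rw [integral_cexp_gpi', integral_cexp_gpi']
  have e3 : ∑ i, (Aᵀ.mulVec c) i ^ 2 = ∑ k, c k ^ 2 := by
    have h1 : ∑ i, (Aᵀ.mulVec c) i ^ 2 = Aᵀ.mulVec c ⬝ᵥ Aᵀ.mulVec c := by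
      simp only [dotProduct, pow_two]
    have h2 : ∑ k, c k ^ 2 = c ⬝ᵥ c := by simp only [dotProduct, pow_two]
    rw [h1, h2, Matrix.dotProduct_mulVec, Matrix.vecMul_transpose, Matrix.mulVec_mulVec, h,
      Matrix.one_mulVec]
  rw [e3]

/-- A linear map which preserves the sum of squares preserves the standard Gaussian measure. -/
theorem mp_of_isometry {ι : Type*} [Fintype ι] (T : (ι → ℝ) →ₗ[ℝ] (ι → ℝ))
    (hT : ∀ w, ∑ i, T w i ^ 2 = ∑ i, w i ^ 2) : MeasurePreserving T (gpi ι) (gpi ι) := by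
  classical
  set A : Matrix ι ι ℝ := LinearMap.toMatrix' T with hA
  have hTA : ∀ w, T w = A.mulVec w := fun w => by
    rw [hA, ← Matrix.toLin'_apply, Matrix.toLin'_toMatrix']
  have hip : ∀ v w : ι → ℝ, T v ⬝ᵥ T w = v ⬝ᵥ w := by
    intro v w
    have h1 := hT (v + w)
    have h2 := hT v
    have h3 := hT w
    rw [map_add] at h1
    simp only [Pi.add_apply, add_sq, Finset.sum_add_distrib] at h1
    have h4 : ∑ i, 2 * T v i * T w i = 2 * (T v ⬝ᵥ T w) := by
      simp only [dotProduct, Finset.mul_sum, mul_assoc]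
    have h5 : ∑ i, 2 * v i * w i = 2 * (v ⬝ᵥ w) := by
      simp only [dotProduct, Finset.mul_sum, mul_assoc]
    linarith
  have hAA : Aᵀ * A = 1 := by
    ext i j
    have h1 := hip (Pi.single i 1) (Pi.single j 1)
    rw [hTA, hTA] at h1
    simp only [Matrix.mulVec_single_one] at h1
    rw [Matrix.mul_apply, Matrix.one_apply]
    simp only [Matrix.transpose_apply]
    have h2 : (Pi.single i (1 : ℝ) : ι → ℝ) ⬝ᵥ Pi.single j 1 = if i = j then 1 else 0 := by
      rw [single_dotProduct, one_mul, Pi.single_apply]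
    rw [← h2, ← h1]
    rfl
  have h := mp_mulVec (A := A) (mul_eq_one_comm.1 hAA)
  have e : (T : (ι → ℝ) → (ι → ℝ)) = fun w => A.mulVec w := funext hTA
  rw [e]
  exact h

/-! ### the sphere -/

theorem sq_nonneg' (v : Vec n) : 0 ≤ F.sq v := Finset.sum_nonneg fun _ _ => sq_nonneg _

theorem sq_smul' (c : ℝ) (v : Vec n) : F.sq (c • v) = c ^ 2 * F.sq v := by
  unfold F.sq
  rw [Finset.mul_sum]
  exact Finset.sum_congr rfl fun i _ => by simp only [Pi.smul_apply, smul_eq_mul]; ring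

theorem sq_eq_zero' {v : Vec n} (h : F.sq v = 0) : v = 0 := by
  funext i
  have h1 := (Finset.sum_eq_zero_iff_of_nonneg (fun j _ => sq_nonneg (v j))).1 h i
    (Finset.mem_univ i)
  exact pow_eq_zero_iff (two_ne_zero) |>.1 h1

theorem sq_pos' {v : Vec n} (h : v ≠ 0) : 0 < F.sq v :=
  lt_of_le_of_ne (sq_nonneg' v) fun h1 => h (sq_eq_zero' h1.symm)

theorem sq_eq_dot (v : Vec n) : F.sq v = v ⬝ᵥ v := by
  simp only [F.sq, dotProduct, pow_two]

theorem ip_eq_dot (u v : Vec n) : ip u v = u ⬝ᵥ v := rfl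

theorem ip_mulVec_orth {O : Mat n} (h : Oᵀ * O = 1) (u v : Vec n) :
    ip (O.mulVec u) (O.mulVec v) = ip u v := by
  rw [ip_eq_dot, ip_eq_dot, Matrix.dotProduct_mulVec, ← Matrix.mulVec_transpose,
    Matrix.mulVec_mulVec, h, Matrix.one_mulVec]

theorem sq_mulVec_orth {O : Mat n} (h : Oᵀ * O = 1) (v : Vec n) :
    F.sq (O.mulVec v) = F.sq v := by
  rw [sq_eq_dot, sq_eq_dot]
  exact ip_mulVec_orth h v v

@[fun_prop] theorem continuous_sq : Continuous (F.sq : Vec n → ℝ) := by
  unfold F.sq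
  fun_prop

@[fun_prop] theorem measurable_sq : Measurable (F.sq : Vec n → ℝ) := continuous_sq.measurable

@[fun_prop] theorem measurable_rp (ρ : ℝ) : Measurable (rp ρ : Vec n → Vec n) := by
  unfold rp
  fun_prop

theorem measurable_rp2 : Measurable (fun p : ℝ × Vec n => rp p.1 p.2) := by
  unfold rp
  fun_prop

theorem sq_rp {ρ : ℝ} (hρ : 0 ≤ ρ) {g : Vec n} (hg : g ≠ 0) : F.sq (rp ρ g) = ρ := by
  have h := sq_pos' hg
  unfold rp
  rw [sq_smul', div_pow, Real.sq_sqrt hρ, Real.sq_sqrt h.le, div_mul_cancel₀ _ h.ne']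

theorem sq_rp_le {ρ : ℝ} (hρ : 0 ≤ ρ) (g : Vec n) : F.sq (rp ρ g) ≤ ρ := by
  by_cases hg : g = 0
  · subst hg
    unfold rp
    rw [smul_zero]
    simpa [F.sq] using hρ
  · exact (sq_rp hρ hg).le

theorem rp_mulVec {O : Mat n} (h : Oᵀ * O = 1) (ρ : ℝ) (g : Vec n) :
    rp ρ (O.mulVec g) = O.mulVec (rp ρ g) := by
  unfold rp
  rw [sq_mulVec_orth h, Matrix.mulVec_smul]

theorem rp_smul {c : ℝ} (hc : 0 < c) (ρ : ℝ) (g : Vec n) : rp ρ (c • g) = rp ρ g := by
  unfold rp
  rw [sq_smul', Real.sqrt_mul (sq_nonneg c), Real.sqrt_sq hc.le, smul_smul]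
  congr 1
  by_cases h : √(F.sq g) = 0
  · simp [h]
  · field_simp

theorem smul_rp {c ρ : ℝ} (hc : 0 ≤ c) (g : Vec n) : √c • rp ρ g = rp (c * ρ) g := by
  unfold rp
  rw [smul_smul, Real.sqrt_mul hc, mul_div_assoc]

theorem rp_self {g : Vec n} : rp (F.sq g) g = g := by
  by_cases hg : g = 0
  · subst hg
    unfold rp
    rw [smul_zero]
  · unfold rp
    rw [div_self (Real.sqrt_pos.2 (sq_pos' hg)).ne', one_smul]

theorem ae_ne_zero (hn : 0 < n) : ∀ᵐ g ∂(gpi (Fin n)), g ≠ 0 := by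
  have hmp : MeasurePreserving (Function.eval (⟨0, hn⟩ : Fin n)) (gpi (Fin n))
      (gaussianReal 0 1) := measurePreserving_eval _ _
  have : NullSingletonClass (gaussianReal 0 1) := nullSingletonClass_gaussianReal one_ne_zero
  have h1 : ∀ᵐ x ∂(gaussianReal 0 1), x ≠ (0 : ℝ) := by
    rw [ae_iff]
    simp
  filter_upwards [hmp.quasiMeasurePreserving.ae h1] with g hg h0
  exact hg (by rw [h0]; rfl)

instance (ρ : ℝ) : IsProbabilityMeasure (sph n ρ) :=
  Measure.isProbabilityMeasure_map (measurable_rp ρ).aemeasurable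

theorem mp_rp (ρ : ℝ) : MeasurePreserving (rp ρ) (gpi (Fin n)) (sph n ρ) :=
  ⟨measurable_rp ρ, rfl⟩

theorem lintegral_sph (ρ : ℝ) {G : Vec n → ℝ≥0∞} (hG : Measurable G) :
    ∫⁻ u, G u ∂(sph n ρ) = ∫⁻ g, G (rp ρ g) ∂(gpi (Fin n)) :=
  lintegral_map hG (measurable_rp ρ)

theorem integral_sph (ρ : ℝ) {G : Vec n → ℝ} (hG : Measurable G) :
    ∫ u, G u ∂(sph n ρ) = ∫ g, G (rp ρ g) ∂(gpi (Fin n)) :=
  integral_map (measurable_rp ρ).aemeasurable hG.aestronglyMeasurable

theorem ae_sph (hn : 0 < n) {ρ : ℝ} (hρ : 0 ≤ ρ) : ∀ᵐ u ∂(sph n ρ), F.sq u = ρ := by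
  unfold sph
  rw [ae_map_iff (measurable_rp ρ).aemeasurable
    (measurableSet_eq_fun measurable_sq measurable_const)]
  filter_upwards [ae_ne_zero hn] with g hg
  exact sq_rp hρ hg

theorem ae_sph_le {ρ : ℝ} (hρ : 0 ≤ ρ) : ∀ᵐ u ∂(sph n ρ), F.sq u ≤ ρ := by
  unfold sph
  rw [ae_map_iff (measurable_rp ρ).aemeasurable (measurableSet_le measurable_sq measurable_const)]
  exact ae_of_all _ fun g => sq_rp_le hρ g

/-- continuous functions are integrable on the sphere -/
theorem integrable_sph {ρ : ℝ} (hρ : 0 ≤ ρ) {G : Vec n → ℝ} (hG : Continuous G) :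
    Integrable G (sph n ρ) := by
  have hK : IsCompact (Metric.closedBall (0 : Vec n) (√ρ)) := isCompact_closedBall _ _
  obtain ⟨C, hC⟩ := hK.exists_bound_of_continuousOn hG.continuousOn
  refine Integrable.of_bound hG.aestronglyMeasurable C ?_
  filter_upwards [ae_sph_le hρ] with u hu
  refine hC u ?_
  rw [mem_closedBall_zero_iff, pi_norm_le_iff_of_nonneg (Real.sqrt_nonneg _)]
  intro i
  rw [Real.norm_eq_abs]
  refine Real.abs_le_sqrt (le_trans ?_ hu)
  exact Finset.single_le_sum (f := fun j => u j ^ 2) (fun j _ => sq_nonneg _) (Finset.mem_univ i)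

/-- rotation invariance of the sphere -/
theorem mp_sph {O : Mat n} (h : Oᵀ * O = 1) (ρ : ℝ) :
    MeasurePreserving (fun u : Vec n => O.mulVec u) (sph n ρ) (sph n ρ) := by
  refine ⟨measurable_matVec O, ?_⟩
  have h1 := (mp_mulVec (A := O) (mul_eq_one_comm.1 h)).map_eq
  unfold sph
  rw [Measure.map_map (measurable_matVec O) (measurable_rp ρ)]
  conv_rhs => rw [← h1]
  rw [Measure.map_map (measurable_rp ρ) (measurable_matVec O)]
  congr 1
  funext g
  exact (rp_mulVec h ρ g).symm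

/-- scaling of the sphere -/
theorem mp_sph_smul {c : ℝ} (hc : 0 ≤ c) (ρ : ℝ) :
    MeasurePreserving (fun u : Vec n => √c • u) (sph n ρ) (sph n (c * ρ)) := by
  have hm : Measurable (fun u : Vec n => √c • u) := by fun_prop
  refine ⟨hm, ?_⟩
  unfold sph
  rw [Measure.map_map hm (measurable_rp ρ)]
  congr 1
  funext g
  exact smul_rp hc g

@[fun_prop] theorem continuous_HE (lam yt : Vec n) : Continuous (HE lam yt) := by
  unfold HE
  fun_prop

theorem integrable_exp_HE (lam yt : Vec n) {ρ : ℝ} (hρ : 0 ≤ ρ) :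
    Integrable (fun u => Real.exp (HE lam yt u)) (sph n ρ) :=
  integrable_sph hρ (by fun_prop)

theorem IS_pos (lam yt : Vec n) : 0 < IS lam yt :=
  integral_exp_pos (integrable_exp_HE lam yt (Nat.cast_nonneg n))

end Vale.Agent.N150
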