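import Mathlib
import Vale.Agent.N150.SphDef

/-! Gaussian tilting, Householder reflections, moments of the squared norm. -/

open MeasureTheory ProbabilityTheory Matrix
open scoped ENNReal

namespace Vale.Agent.N150

open Vale.Agent.P150 Vale.Agent.P150.F

variable {n : ℕ}

/-! ### Gaussian tilting -/

/-- the affine map `g ↦ y / w + g / √w` -/
noncomputable def aff {ι : Type*} (w y g : ι → ℝ) : ι → ℝ := fun a => y a / w a + g a / √(w a)

@[fun_prop] theorem measurable_aff {ι : Type*} (w y : ι → ℝ) : Measurable (aff w y) := by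
  unfold aff
  fun_prop

theorem lintegral_aff_vol {ι : Type*} [Fintype ι] {w : ι → ℝ} (y : ι → ℝ) (hw : ∀ a, 0 < w a)
    {K : (ι → ℝ) → ℝ≥0∞} (hK : Measurable K) :
    ∫⁻ g, K (aff w y g) = ENNReal.ofReal (Real.exp ((∑ a, Real.log (w a)) / 2)) * ∫⁻ x, K x := by
  classical
  set D : Matrix ι ι ℝ := Matrix.diagonal fun a => (√(w a))⁻¹ with hD
  have hs : ∀ a, 0 < √(w a) := fun a => Real.sqrt_pos.2 (hw a)
  have hdet : D.det = ∏ a, (√(w a))⁻¹ := by rw [hD, Matrix.det_diagonal]
  have hpos : 0 < D.det := by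
    rw [hdet]
    exact Finset.prod_pos fun a _ => inv_pos.2 (hs a)
  have h1 := Real.map_matrix_volume_pi_eq_smul_volume_pi hpos.ne'
  set c : ι → ℝ := fun a => y a / w a with hc
  have hm : Measurable (Matrix.toLin' D) := (LinearMap.continuous_on_pi _).measurable
  have e : ∀ g, aff w y g = c + Matrix.toLin' D g := by
    intro g
    funext a
    simp only [aff, hc, hD, Pi.add_apply, Matrix.toLin'_apply, Matrix.mulVec_diagonal]
    rw [div_eq_inv_mul (g a)]
  simp_rw [e]
  have hK' : Measurable fun x => K (c + x) := hK.comp (measurable_const_add c)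
  rw [← lintegral_map hK' hm, h1, lintegral_smul_measure, lintegral_add_left_eq_self K c,
    smul_eq_mul]
  congr 2
  rw [abs_of_pos (inv_pos.2 hpos), hdet, Finset.prod_inv_distrib, inv_inv, Finset.sum_div,
    Real.exp_sum]
  refine Finset.prod_congr rfl fun a _ => ?_
  rw [Real.sqrt_eq_rpow, Real.rpow_def_of_pos (hw a)]
  congr 1
  ring

/-- the tilted Gaussian law -/
theorem lintegral_tilt {ι : Type*} [Fintype ι] {w : ι → ℝ} (y : ι → ℝ) (hw : ∀ a, 0 < w a)
    {G : (ι → ℝ) → ℝ≥0∞} (hG : Measurable G) :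
    ∫⁻ g, ENNReal.ofReal (Real.exp (∑ a, ((1 - w a) * g a ^ 2 / 2 + y a * g a))) * G g ∂(gpi ι)
      = ENNReal.ofReal (Real.exp (-(∑ a, Real.log (w a)) / 2 + (∑ a, y a ^ 2 / w a) / 2)) *
        ∫⁻ g, G (aff w y g) ∂(gpi ι) := by
  have hs : ∀ a, 0 < √(w a) := fun a => Real.sqrt_pos.2 (hw a)
  set inv : (ι → ℝ) → (ι → ℝ) := fun x a => √(w a) * (x a - y a / w a) with hinv
  have hminv : Measurable inv := by
    rw [hinv]
    fun_prop
  have hia : ∀ g, inv (aff w y g) = g := by
    intro g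
    funext a
    simp only [hinv, aff]
    have := (hs a).ne'
    field_simp
    ring
  have hgm : Measurable (gd : (ι → ℝ) → ℝ) := continuous_gd.measurable
  have hE : Measurable fun g : ι → ℝ =>
      ENNReal.ofReal (Real.exp (∑ a, ((1 - w a) * g a ^ 2 / 2 + y a * g a))) := by fun_prop
  have hE2 : Measurable fun g : ι → ℝ =>
      ENNReal.ofReal (Real.exp (∑ a, ((1 - w a) * g a ^ 2 / 2 + y a * g a))) * G g := hE.mul hG
  have hG2 : Measurable fun g : ι → ℝ => G (aff w y g) := hG.comp (measurable_aff w y)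
  rw [lintegral_gpi hE2, lintegral_gpi hG2]
  set K : (ι → ℝ) → ℝ≥0∞ := fun x => ENNReal.ofReal (gd (inv x)) * G x with hKd
  have hK : Measurable K := ((hgm.comp hminv).ennreal_ofReal).mul hG
  have e1 : ∀ g, ENNReal.ofReal (gd g) * G (aff w y g) = K (aff w y g) := by
    intro g
    simp only [hKd, hia]
  simp_rw [e1]
  rw [lintegral_aff_vol y hw hK, ← mul_assoc, ← ENNReal.ofReal_mul (Real.exp_pos _).le,
    ← Real.exp_add, ← lintegral_const_mul _ hK]
  refine lintegral_congr fun x => ?_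
  simp only [hKd]
  rw [← mul_assoc, ← mul_assoc, ← ENNReal.ofReal_mul (gd_nonneg _),
    ← ENNReal.ofReal_mul (Real.exp_pos _).le]
  congr 2
  rw [gd_eq, gd_eq, mul_assoc, ← Real.exp_add, mul_left_comm, ← Real.exp_add]
  congr 2
  have e2 : ∀ a, inv x a ^ 2 = w a * x a ^ 2 - 2 * (y a * x a) + y a ^ 2 / w a := by
    intro a
    simp only [hinv]
    rw [mul_pow, Real.sq_sqrt (hw a).le]
    have := (hw a).ne'
    field_simp
    ring
  simp only [e2, Finset.sum_add_distrib, Finset.sum_sub_distrib, ← Finset.mul_sum,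
    ← Finset.sum_div, sub_mul, one_mul]
  ring

theorem lintegral_tilt_one {ι : Type*} [Fintype ι] {w : ι → ℝ} (y : ι → ℝ) (hw : ∀ a, 0 < w a) :
    ∫⁻ g, ENNReal.ofReal (Real.exp (∑ a, ((1 - w a) * g a ^ 2 / 2 + y a * g a))) ∂(gpi ι)
      = ENNReal.ofReal (Real.exp (-(∑ a, Real.log (w a)) / 2 + (∑ a, y a ^ 2 / w a) / 2)) := by
  have h := lintegral_tilt y hw (G := fun _ => 1) measurable_const
  simpa using h

/-! ### Householder reflections -/

/-- the reflection in the hyperplane orthogonal to `v` -/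
noncomputable def hh (v : Vec n) : Mat n := 1 - (2 / F.sq v) • Matrix.vecMulVec v v

theorem hh_mulVec (v u : Vec n) : (hh v).mulVec u = u - (2 / F.sq v * ip v u) • v := by
  unfold hh
  rw [Matrix.sub_mulVec, Matrix.one_mulVec, Matrix.smul_mulVec, Matrix.vecMulVec_mulVec]
  congr 1
  funext i
  simp only [Pi.smul_apply, smul_eq_mul, ip_eq_dot, MulOpposite.smul_eq_mul_unop,
    MulOpposite.unop_op]
  ring

theorem hh_transpose (v : Vec n) : (hh v)ᵀ = hh v := by
  unfold hh
  rw [Matrix.transpose_sub, Matrix.transpose_one, Matrix.transpose_smul,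
    Matrix.transpose_vecMulVec]

theorem ip_comm' (u v : Vec n) : ip u v = ip v u := by
  rw [ip_eq_dot, ip_eq_dot, dotProduct_comm]

theorem ip_self' (u : Vec n) : ip u u = F.sq u := by rw [ip_eq_dot, sq_eq_dot]

theorem hh_hh (v u : Vec n) : (hh v).mulVec ((hh v).mulVec u) = u := by
  rw [hh_mulVec, hh_mulVec]
  by_cases hv : v = 0
  · subst hv
    simp
  have h := (sq_pos' hv).ne'
  have e : ip v (u - (2 / F.sq v * ip v u) • v) = -ip v u := by
    rw [ip_eq_dot, dotProduct_sub, dotProduct_smul, ← sq_eq_dot, ← ip_eq_dot, smul_eq_mul]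
    field_simp
    ring
  rw [e, mul_neg, neg_smul, sub_neg_eq_add, sub_add_cancel]

theorem hh_orth (v : Vec n) : (hh v)ᵀ * hh v = 1 := by
  rw [hh_transpose]
  refine Matrix.ext_of_mulVec_single fun i => ?_
  rw [← Matrix.mulVec_mulVec, hh_hh, Matrix.one_mulVec]

theorem hh_of_orth {v u : Vec n} (h : ip v u = 0) : (hh v).mulVec u = u := by
  rw [hh_mulVec, h, mul_zero, zero_smul, sub_zero]

theorem hh_swap {a b : Vec n} (h : F.sq a = F.sq b) : (hh (a - b)).mulVec a = b := by
  by_cases hv : a - b = 0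
  · rw [hh_of_orth (by rw [hv]; simp [ip]), sub_eq_zero.1 hv]
  have h1 := (sq_pos' hv).ne'
  have h2 : F.sq (a - b) = 2 * ip (a - b) a := by
    rw [sq_eq_dot, ip_eq_dot, dotProduct_sub, sub_dotProduct, sub_dotProduct, ← sq_eq_dot,
      ← sq_eq_dot, ← h, dotProduct_comm b a]
    ring
  rw [hh_mulVec]
  have e : 2 / F.sq (a - b) * ip (a - b) a = 1 := by
    rw [div_mul_eq_mul_div, ← h2, div_self h1]
  rw [e, one_smul, sub_sub_cancel]

/-- Families with the same Gram matrix differ by an orthogonal matrix. -/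
theorem exists_orth_of_gram {κ : Type*} [Fintype κ] (x x' : κ → Vec n)
    (h : ∀ j k, ip (x j) (x k) = ip (x' j) (x' k)) :
    ∃ U : Mat n, Uᵀ * U = 1 ∧ ∀ k, U.mulVec (x k) = x' k := by
  classical
  have key : ∀ S : Finset κ, ∃ U : Mat n, Uᵀ * U = 1 ∧ ∀ k ∈ S, U.mulVec (x k) = x' k := by
    intro S
    induction S using Finset.induction_on with
    | empty => exact ⟨1, by simp, by simp⟩
    | insert k S _ ih =>
      obtain ⟨U, hU, hS⟩ := ih
      refine ⟨hh (U.mulVec (x k) - x' k) * U, ?_, fun j hj => ?_⟩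
      · rw [Matrix.transpose_mul, Matrix.mul_assoc, ← Matrix.mul_assoc _ (hh _) U, hh_orth,
          Matrix.one_mul, hU]
      · rw [← Matrix.mulVec_mulVec]
        rcases Finset.mem_insert.1 hj with rfl | hj
        · refine hh_swap ?_
          rw [sq_mulVec_orth hU, ← ip_self', ← ip_self', h]
        · rw [hS j hj]
          refine hh_of_orth ?_
          rw [ip_eq_dot, sub_dotProduct, ← ip_eq_dot, ← ip_eq_dot, ← h, ← hS j hj,
            ip_mulVec_orth hU, sub_self]
  obtain ⟨U, hU, hS⟩ := key Finset.univ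
  exact ⟨U, hU, fun k => hS k (Finset.mem_univ k)⟩

theorem exists_orth_one {x x' : Vec n} (h : F.sq x = F.sq x') :
    ∃ U : Mat n, Uᵀ * U = 1 ∧ U.mulVec x = x' :=
  ⟨hh (x - x'), hh_orth _, hh_swap h⟩

theorem exists_orth_two {x y x' y' : Vec n} (h1 : F.sq x = F.sq x') (h2 : F.sq y = F.sq y')
    (h3 : ip x y = ip x' y') :
    ∃ U : Mat n, Uᵀ * U = 1 ∧ U.mulVec x = x' ∧ U.mulVec y = y' := by
  obtain ⟨U, hU, h⟩ := exists_orth_of_gram (fun b : Bool => if b then x else y)
    (fun b : Bool => if b then x' else y') (by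
      intro j k
      cases j <;> cases k <;> simp [ip_self', h1, h2, h3, ip_comm' y x, ip_comm' y' x'])
  exact ⟨U, hU, by simpa using h true, by simpa using h false⟩

/-! ### moments of the squared norm -/

theorem integrable_pow_gauss (k : ℕ) : Integrable (fun x : ℝ => x ^ k) (gaussianReal 0 1) := by
  have h := (memLp_id_gaussianReal (μ := 0) (v := 1) (k : NNReal)).integrable_norm_pow'
    (p := k)
  refine Integrable.mono' h (by fun_prop) (ae_of_all _ fun x => ?_)
  simp

theorem gauss_pow_succ' (k : ℕ) :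
    ∫ x, x ^ (k + 2) ∂(gaussianReal 0 1) = (k + 1) * ∫ x, x ^ k ∂(gaussianReal 0 1) := by
  set φ : ℝ → ℝ := gaussianPDFReal 0 1 with hφ
  have h4 : φ = fun y => (Real.sqrt (2 * Real.pi))⁻¹ * Real.exp (-(y ^ 2) / 2) := by
    funext y
    rw [hφ, gaussianPDFReal_def]
    simp
  have hφd : ∀ x, HasDerivAt φ (-(x * φ x)) x := by
    intro x
    have h2 : HasDerivAt (fun y : ℝ => -(y ^ 2) / 2) (-(2 * x) / 2) x := by
      have h0 := ((hasDerivAt_pow 2 x).neg).div_const (2 : ℝ)
      simpa using h0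
    have h3 := (h2.exp).const_mul ((Real.sqrt (2 * Real.pi))⁻¹)
    rw [h4]
    refine h3.congr_deriv ?_
    ring
  have hkφ : ∀ k : ℕ, Integrable (fun x => x ^ k * φ x) := by
    intro k
    have h1 := integrable_pow_gauss k
    rw [gaussianReal_of_var_ne_zero _ one_ne_zero] at h1
    have h2 := (integrable_withDensity_iff_integrable_smul'
      (measurable_gaussianPDF 0 1) (by
        refine Filter.Eventually.of_forall fun x => ?_
        exact gaussianPDF_lt_top)).mp h1
    refine h2.congr (Filter.Eventually.of_forall fun x => ?_)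
    simp only [smul_eq_mul, gaussianPDF, ENNReal.toReal_ofReal (gaussianPDFReal_nonneg 0 1 x)]
    ring
  have key := integral_mul_deriv_eq_deriv_mul_of_integrable (u := fun x => x ^ (k + 1)) (v := φ)
    (u' := fun x => (k + 1) * x ^ k) (v' := fun x => -(x * φ x))
    (fun x _ => by simpa using hasDerivAt_pow (k + 1) x) (fun x _ => hφd x)
    (by
      refine (hkφ (k + 2)).neg.congr (Filter.Eventually.of_forall fun x => ?_)
      show -(x ^ (k + 2) * φ x) = x ^ (k + 1) * -(x * φ x)
      ring)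
    (by
      refine ((hkφ k).const_mul (k + 1)).congr (Filter.Eventually.of_forall fun x => ?_)
      show (k + 1) * (x ^ k * φ x) = (k + 1) * x ^ k * φ x
      ring)
    (hkφ (k + 1))
  have e1 : ∀ j : ℕ, ∫ x, x ^ j ∂(gaussianReal 0 1) = ∫ x, x ^ j * φ x := by
    intro j
    rw [integral_gaussianReal_eq_integral_smul one_ne_zero]
    refine integral_congr_ae (Filter.Eventually.of_forall fun x => ?_)
    show φ x * x ^ j = x ^ j * φ x
    ring
  have e4 : ∫ x, x ^ (k + 1) * -(x * φ x) = - ∫ x, x ^ (k + 2) * φ x := by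
    rw [← integral_neg]
    refine integral_congr_ae (Filter.Eventually.of_forall fun x => ?_)
    show x ^ (k + 1) * -(x * φ x) = -(x ^ (k + 2) * φ x)
    ring
  have e5 : ∫ x, (k + 1) * x ^ k * φ x = (k + 1) * ∫ x, x ^ k * φ x := by
    rw [← integral_const_mul]
    refine integral_congr_ae (Filter.Eventually.of_forall fun x => ?_)
    show (k + 1) * x ^ k * φ x = (k + 1) * (x ^ k * φ x)
    ring
  rw [e4, e5] at key
  rw [e1, e1]
  linarith only [key]

theorem gauss_two : ∫ x, x ^ 2 ∂(gaussianReal 0 1) = (1 : ℝ) := by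
  rw [gauss_pow_succ' 0]; simp

theorem gauss_four : ∫ x, x ^ 4 ∂(gaussianReal 0 1) = (3 : ℝ) := by
  rw [gauss_pow_succ' 2, gauss_two]; norm_num

theorem memLp_sq_gauss : MemLp (fun x : ℝ => x ^ 2) 2 (gaussianReal 0 1) := by
  rw [memLp_two_iff_integrable_sq (by fun_prop)]
  simpa only [← pow_mul] using integrable_pow_gauss 4

theorem memLp_sq : MemLp (F.sq : Vec n → ℝ) 2 (gpi (Fin n)) := by
  unfold F.sq
  refine memLp_finsetSum (f := fun (i : Fin n) (g : Vec n) => g i ^ 2) _ fun i _ => ?_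
  exact memLp_sq_gauss.comp_measurePreserving (measurePreserving_eval (fun _ => gaussianReal 0 1) i)

theorem integrable_sq : Integrable (F.sq : Vec n → ℝ) (gpi (Fin n)) :=
  memLp_sq.integrable one_le_two

theorem integral_sq : ∫ g, F.sq g ∂(gpi (Fin n)) = n := by
  unfold F.sq
  have h : ∀ i : Fin n, MeasurePreserving (Function.eval i) (gpi (Fin n)) (gaussianReal 0 1) :=
    fun i => measurePreserving_eval (fun _ => gaussianReal 0 1) i
  rw [integral_finsetSum (f := fun (i : Fin n) (g : Vec n) => g i ^ 2) _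
    fun i _ => (h i).integrable_comp_of_integrable (integrable_pow_gauss 2)]
  have h2 : ∀ i : Fin n, ∫ g : Vec n, g i ^ 2 ∂(gpi (Fin n)) = 1 := by
    intro i
    rw [← gauss_two, ← (h i).map_eq, integral_map (h i).measurable.aemeasurable (by fun_prop)]
  simp [h2]

theorem variance_sq : ∫ g, (F.sq g - n) ^ 2 ∂(gpi (Fin n)) = 2 * n := by
  have h1 := variance_sum_pi (ι := Fin n) (μ := fun _ => gaussianReal 0 1)
    (X := fun _ (x : ℝ) => x ^ 2) (fun _ => memLp_sq_gauss)
  have h2 : Var[fun x : ℝ => x ^ 2; gaussianReal 0 1] = 2 := by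
    rw [variance_eq_sub memLp_sq_gauss]
    have e : ((fun x : ℝ => x ^ 2) ^ 2) = fun x : ℝ => x ^ 4 := by
      funext x
      simp only [Pi.pow_apply]
      ring
    rw [e, gauss_four, gauss_two]
    norm_num
  have e : (∑ i : Fin n, fun ω : Vec n => ω i ^ 2) = F.sq := by
    funext ω
    simp [F.sq, Finset.sum_apply]
  rw [e, variance_eq_integral measurable_sq.aemeasurable] at h1
  have h3 : ∫ g, F.sq g ∂(Measure.pi fun _ : Fin n => gaussianReal 0 1) = n := integral_sq
  simp only [h2, Finset.sum_const, Finset.card_univ, Fintype.card_fin, nsmul_eq_mul] at h1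
  rw [h3] at h1
  rw [mul_comm]
  exact h1

theorem integrable_sqrt_sq (ρ : ℝ) :
    Integrable (fun g : Vec n => √(F.sq g / ρ)) (gpi (Fin n)) := by
  refine Integrable.mono' ((integrable_sq.div_const ρ).abs.add (integrable_const 1))
    (by fun_prop : Measurable fun g : Vec n => √(F.sq g / ρ)).aestronglyMeasurable
    (ae_of_all _ fun g => ?_)
  simp only [Pi.add_apply]
  rw [Real.norm_of_nonneg (Real.sqrt_nonneg _), Real.sqrt_le_left (by positivity)]
  nlinarith [le_abs_self (F.sq g / ρ), abs_nonneg (F.sq g / ρ)]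

/-- the mean of `|g| / √n` lies in `[1 - 1 / n, 1]` -/
theorem integral_sqrt_sq (hn : 0 < n) :
    1 - 1 / (n : ℝ) ≤ ∫ g : Vec n, √(F.sq g / n) ∂(gpi (Fin n)) ∧
      ∫ g : Vec n, √(F.sq g / n) ∂(gpi (Fin n)) ≤ 1 := by
  have hn' : (0 : ℝ) < n := by exact_mod_cast hn
  have i1 : Integrable (fun g : Vec n => (1 + F.sq g / n) / 2) (gpi (Fin n)) :=
    ((integrable_const 1).add (integrable_sq.div_const _)).div_const _
  have v1 : ∫ g : Vec n, (1 + F.sq g / n) / 2 ∂(gpi (Fin n)) = 1 := by
    rw [integral_div, integral_add (integrable_const 1) (integrable_sq.div_const _), integral_div,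
      integral_sq]
    simp [hn'.ne']
  have i2 : Integrable (fun g : Vec n => (F.sq g - n) ^ 2 / (2 * n ^ 2)) (gpi (Fin n)) :=
    (memLp_sq.sub (memLp_const (n : ℝ))).integrable_sq.div_const _
  have v2 : ∫ g : Vec n, (F.sq g - n) ^ 2 / (2 * (n : ℝ) ^ 2) ∂(gpi (Fin n)) = 1 / (n : ℝ) := by
    rw [integral_div, variance_sq]
    field_simp
  constructor
  · rw [← v2]
    conv_lhs => rw [← v1]
    rw [← integral_sub i1 i2]
    refine integral_mono (i1.sub i2) (integrable_sqrt_sq _) fun g => ?_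
    have h0 : 0 ≤ F.sq g / n := div_nonneg (sq_nonneg' g) hn'.le
    have h1 := Real.sq_sqrt h0
    have h2 := Real.sqrt_nonneg (F.sq g / n)
    have e : (F.sq g - n) ^ 2 / (2 * n ^ 2) = (F.sq g / n - 1) ^ 2 / 2 := by
      field_simp
    simp only
    rw [e]
    set s := √(F.sq g / n)
    rw [← h1]
    have h3 : 0 ≤ (s - 1) ^ 2 * (s * (s + 2)) := by positivity
    nlinarith [h3]
  · conv_rhs => rw [← v1]
    refine integral_mono (integrable_sqrt_sq _) i1 fun g => ?_
    have h0 : 0 ≤ F.sq g / n := div_nonneg (sq_nonneg' g) hn'.le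
    have h1 := Real.sq_sqrt h0
    simp only
    nlinarith [sq_nonneg (√(F.sq g / n) - 1)]

end Vale.Agent.N150
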