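import Mathlib
import Vale.Agent.N150.SphTilt
import Vale.Agent.N150.Haar0

/-! Annealing over the orthogonal group, the polar formula, pairs of vectors. -/

open MeasureTheory ProbabilityTheory Matrix
open scoped ENNReal

namespace Vale.Agent.N150.Sp

open Vale.Agent.P150 Vale.Agent.P150.F

variable {n : ℕ}

theorem meas_act (x : Vec n) : Measurable fun O : OG n => O.1 *ᵥ x :=
  (continuous_val.matrix_mulVec continuous_const).measurable

theorem meas_act2 : Measurable fun p : OG n × Vec n => p.1.1 *ᵥ p.2 :=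
  continuous_mulVec.measurable

theorem cont_act (x : Vec n) : Continuous fun O : OG n => O.1 *ᵥ x :=
  continuous_val.matrix_mulVec continuous_const

theorem mul_act (O V : OG n) (x : Vec n) : (O * V).1 *ᵥ x = O.1 *ᵥ (V.1 *ᵥ x) := by
  rw [OG.coe_mul, Matrix.mulVec_mulVec]

theorem sq_act (O : OG n) (x : Vec n) : F.sq (O.1 *ᵥ x) = F.sq x :=
  sq_mulVec_orth (OG.transpose_mul O) x

theorem ip_act (O : OG n) (x y : Vec n) : ip (O.1 *ᵥ x) (O.1 *ᵥ y) = ip x y :=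
  ip_mulVec_orth (OG.transpose_mul O) x y

/-- continuous functions on the group are integrable -/
theorem integrable_haar {f : OG n → ℝ} (hf : Continuous f) : Integrable f (haar n) :=
  hf.integrable_of_hasCompactSupport (HasCompactSupport.of_compactSpace f)

/-- Haar averages of functions of `O x_k` depend on the Gram matrix only -/
theorem int_gram {κ : Type*} [Fintype κ] {x x' : κ → Vec n}
    (h : ∀ j k, ip (x j) (x k) = ip (x' j) (x' k)) (K : (κ → Vec n) → ℝ) :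
    ∫ O, K (fun k => O.1 *ᵥ x k) ∂(haar n) = ∫ O, K (fun k => O.1 *ᵥ x' k) ∂(haar n) := by
  obtain ⟨U, hU, hx⟩ := exists_orth_of_gram x x' h
  rw [← invOn_haar.int_right (g := OG.mk' U (mul_eq_one_comm.1 hU)) (Subgroup.mem_top _)
    (fun O : OG n => K fun k => O.1 *ᵥ x k)]
  simp only [mul_act, OG.mk'_val, hx]

theorem lint_gram {κ : Type*} [Fintype κ] {x x' : κ → Vec n}
    (h : ∀ j k, ip (x j) (x k) = ip (x' j) (x' k)) {K : (κ → Vec n) → ℝ≥0∞} (hK : Measurable K) :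
    ∫⁻ O, K (fun k => O.1 *ᵥ x k) ∂(haar n) = ∫⁻ O, K (fun k => O.1 *ᵥ x' k) ∂(haar n) := by
  obtain ⟨U, hU, hx⟩ := exists_orth_of_gram x x' h
  rw [← invOn_haar.lint_right (g := OG.mk' U (mul_eq_one_comm.1 hU)) (Subgroup.mem_top _)
    (f := fun O : OG n => K fun k => O.1 *ᵥ x k)
    (hK.comp (measurable_pi_iff.2 fun k => meas_act (x k)))]
  simp only [mul_act, OG.mk'_val, hx]

theorem lint_one {x x' : Vec n} (h : F.sq x = F.sq x') {G : Vec n → ℝ≥0∞} (hG : Measurable G) :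
    ∫⁻ O, G (O.1 *ᵥ x) ∂(haar n) = ∫⁻ O, G (O.1 *ᵥ x') ∂(haar n) := by
  obtain ⟨U, hU, hx⟩ := exists_orth_one h
  rw [← invOn_haar.lint_right (g := OG.mk' U (mul_eq_one_comm.1 hU)) (Subgroup.mem_top _)
    (f := fun O : OG n => G (O.1 *ᵥ x)) (hG.comp (meas_act x))]
  simp only [mul_act, OG.mk'_val, hx]

theorem int_two {x y x' y' : Vec n} (h1 : F.sq x = F.sq x') (h2 : F.sq y = F.sq y')
    (h3 : ip x y = ip x' y') (K : Vec n → Vec n → ℝ) :
    ∫ O, K (O.1 *ᵥ x) (O.1 *ᵥ y) ∂(haar n) = ∫ O, K (O.1 *ᵥ x') (O.1 *ᵥ y') ∂(haar n) := by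
  obtain ⟨U, hU, hx, hy⟩ := exists_orth_two h1 h2 h3
  rw [← invOn_haar.int_right (g := OG.mk' U (mul_eq_one_comm.1 hU)) (Subgroup.mem_top _)
    (fun O : OG n => K (O.1 *ᵥ x) (O.1 *ᵥ y))]
  simp only [mul_act, OG.mk'_val, hx, hy]

theorem lint_two {x y x' y' : Vec n} (h1 : F.sq x = F.sq x') (h2 : F.sq y = F.sq y')
    (h3 : ip x y = ip x' y') {K : Vec n × Vec n → ℝ≥0∞} (hK : Measurable K) :
    ∫⁻ O, K (O.1 *ᵥ x, O.1 *ᵥ y) ∂(haar n) = ∫⁻ O, K (O.1 *ᵥ x', O.1 *ᵥ y') ∂(haar n) := by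
  obtain ⟨U, hU, hx, hy⟩ := exists_orth_two h1 h2 h3
  rw [← invOn_haar.lint_right (g := OG.mk' U (mul_eq_one_comm.1 hU)) (Subgroup.mem_top _)
    (f := fun O : OG n => K (O.1 *ᵥ x, O.1 *ᵥ y)) (hK.comp ((meas_act x).prodMk (meas_act y)))]
  simp only [mul_act, OG.mk'_val, hx, hy]

/-- averaging a rotation invariant measure over the group -/
theorem lint_avg {μ : Measure (Vec n)} [SFinite μ]
    (hμ : ∀ O : OG n, MeasurePreserving (fun u : Vec n => O.1 *ᵥ u) μ μ)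
    {G : Vec n → ℝ≥0∞} (hG : Measurable G) :
    ∫⁻ u, G u ∂μ = ∫⁻ u, ∫⁻ O, G (O.1 *ᵥ u) ∂(haar n) ∂μ := by
  have h1 : ∫⁻ u, G u ∂μ = ∫⁻ O, ∫⁻ u, G (O.1 *ᵥ u) ∂μ ∂(haar n) := by
    have : ∀ O : OG n, ∫⁻ u, G (O.1 *ᵥ u) ∂μ = ∫⁻ u, G u ∂μ := fun O =>
      (hμ O).lintegral_comp hG
    simp [this]
  rw [h1, lintegral_lintegral_swap]
  exact (hG.comp meas_act2).aemeasurable

theorem mp_gpi (O : OG n) :
    MeasurePreserving (fun u : Vec n => O.1 *ᵥ u) (gpi (Fin n)) (gpi (Fin n)) :=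
  mp_mulVec (OG.mul_transpose O)

theorem mp_sphG (O : OG n) (ρ : ℝ) :
    MeasurePreserving (fun u : Vec n => O.1 *ᵥ u) (sph n ρ) (sph n ρ) :=
  mp_sph (OG.transpose_mul O) ρ

/-- **annealing**, one vector -/
theorem lint_haar_sph (hn : 0 < n) (x : Vec n) {G : Vec n → ℝ≥0∞} (hG : Measurable G) :
    ∫⁻ O, G (O.1 *ᵥ x) ∂(haar n) = ∫⁻ u, G u ∂(sph n (F.sq x)) := by
  rw [lint_avg (fun O => mp_sphG O _) hG]
  have h : ∀ᵐ u ∂(sph n (F.sq x)),
      ∫⁻ O, G (O.1 *ᵥ u) ∂(haar n) = ∫⁻ O, G (O.1 *ᵥ x) ∂(haar n) := by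
    filter_upwards [ae_sph hn (sq_nonneg' x)] with u hu
    exact lint_one hu hG
  rw [lintegral_congr_ae h]
  simp

theorem mp_haar_sph (hn : 0 < n) (x : Vec n) :
    MeasurePreserving (fun O : OG n => O.1 *ᵥ x) (haar n) (sph n (F.sq x)) := by
  refine ⟨meas_act x, ?_⟩
  ext s hs
  rw [← lintegral_indicator_one hs, ← lintegral_indicator_one hs,
    lintegral_map (measurable_one.indicator hs) (meas_act x),
    lint_haar_sph hn x (measurable_one.indicator hs)]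

theorem mp_haar_sph_tr (hn : 0 < n) (x : Vec n) :
    MeasurePreserving (fun O : OG n => O.1ᵀ *ᵥ x) (haar n) (sph n (F.sq x)) := by
  have h1 : MeasurePreserving (fun O : OG n => O⁻¹) (haar n) (haar n) :=
    ⟨measurable_inv, invOn_haar.map_inv⟩
  have h2 := (mp_haar_sph hn x).comp h1
  have e : (fun O : OG n => O.1 *ᵥ x) ∘ (fun O : OG n => O⁻¹) = fun O : OG n => O.1ᵀ *ᵥ x := by
    funext O
    simp only [Function.comp, OG.coe_inv]
  rwa [e] at h2

theorem int_haar_sph (hn : 0 < n) (x : Vec n) {G : Vec n → ℝ} (hG : Measurable G) :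
    ∫ O, G (O.1 *ᵥ x) ∂(haar n) = ∫ u, G u ∂(sph n (F.sq x)) := by
  rw [← (mp_haar_sph hn x).map_eq, integral_map (meas_act x).aemeasurable
    hG.aestronglyMeasurable]

/-- **polar formula** -/
theorem lintegral_polar (hn : 0 < n) {G : Vec n → ℝ≥0∞} (hG : Measurable G) :
    ∫⁻ g, G g ∂(gpi (Fin n)) = ∫⁻ g, ∫⁻ u, G u ∂(sph n (F.sq g)) ∂(gpi (Fin n)) := by
  rw [lint_avg mp_gpi hG]
  exact lintegral_congr fun g => lint_haar_sph hn g hG

theorem meas_polar (ρ : ℝ) :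
    Measurable fun p : Vec n × Vec n => √(F.sq p.1 / ρ) • p.2 := by
  fun_prop

/-- **polar formula** on a fixed sphere -/
theorem lintegral_polar' (hn : 0 < n) {ρ : ℝ} (hρ : 0 < ρ) {G : Vec n → ℝ≥0∞}
    (hG : Measurable G) :
    ∫⁻ g, G g ∂(gpi (Fin n)) =
      ∫⁻ u, ∫⁻ g : Vec n, G (√(F.sq g / ρ) • u) ∂(gpi (Fin n)) ∂(sph n ρ) := by
  rw [lintegral_polar hn hG, ← lintegral_lintegral_swap]
  · refine lintegral_congr fun g => ?_
    have h := mp_sph_smul (n := n) (div_nonneg (sq_nonneg' g) hρ.le) ρ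
    rw [div_mul_cancel₀ _ hρ.ne'] at h
    exact (h.lintegral_comp hG).symm
  · exact (hG.comp (meas_polar ρ)).aemeasurable

/-- independence of the length and the direction of a Gaussian vector -/
theorem lintegral_indep (hn : 0 < n) {ρ : ℝ} (hρ : 0 < ρ) {K : ℝ × Vec n → ℝ≥0∞}
    (hK : Measurable K) :
    ∫⁻ g, K (F.sq g, rp ρ g) ∂(gpi (Fin n)) =
      ∫⁻ u, ∫⁻ g : Vec n, K (F.sq g, u) ∂(gpi (Fin n)) ∂(sph n ρ) := by
  have hG : Measurable fun g : Vec n => K (F.sq g, rp ρ g) :=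
    hK.comp (measurable_sq.prodMk (measurable_rp ρ))
  rw [lintegral_polar' hn hρ hG]
  refine lintegral_congr_ae ?_
  filter_upwards [ae_sph hn hρ.le] with u hu
  refine lintegral_congr_ae ?_
  filter_upwards [ae_ne_zero hn] with g hg
  have h0 : 0 < F.sq g / ρ := div_pos (sq_pos' hg) hρ
  rw [sq_smul', Real.sq_sqrt h0.le, hu, div_mul_cancel₀ _ hρ.ne', rp_smul (Real.sqrt_pos.2 h0),
    ← hu, rp_self]

/-- two independent uniform vectors -/
theorem lint_sph_sph (hn : 0 < n) (x : Vec n) (ρ : ℝ) {K : Vec n × Vec n → ℝ≥0∞}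
    (hK : Measurable K) :
    ∫⁻ u, ∫⁻ v, K (u, v) ∂(sph n ρ) ∂(sph n (F.sq x)) =
      ∫⁻ v, ∫⁻ O, K (O.1 *ᵥ x, O.1 *ᵥ v) ∂(haar n) ∂(sph n ρ) := by
  have h1 : ∫⁻ v, ∫⁻ O, K (O.1 *ᵥ x, O.1 *ᵥ v) ∂(haar n) ∂(sph n ρ) =
      ∫⁻ O, ∫⁻ v, K (O.1 *ᵥ x, O.1 *ᵥ v) ∂(sph n ρ) ∂(haar n) :=
    (lintegral_lintegral_swap (f := fun (O : OG n) (v : Vec n) => K (O.1 *ᵥ x, O.1 *ᵥ v))
      (hK.comp (((meas_act x).comp measurable_fst).prodMk meas_act2)).aemeasurable).symm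
  rw [h1, ← lint_haar_sph hn x (hK.lintegral_prod_right')]
  refine lintegral_congr fun O => ?_
  exact ((mp_sphG O ρ).lintegral_comp (f := fun v => K (O.1 *ᵥ x, v))
    (hK.comp (measurable_const.prodMk measurable_id))).symm

/-! ### the partition function -/

/-- the matrix with eigenvalues `lam` and frame `O` -/
noncomputable def JO (lam : Vec n) (O : OG n) : Mat n := O.1ᵀ * Matrix.diagonal lam * O.1

theorem qf_JO (lam : Vec n) (O : OG n) (x : Vec n) :
    qf (JO lam O) x = ∑ a, lam a * (O.1 *ᵥ x) a ^ 2 := by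
  unfold qf JO
  rw [ip_eq_dot, ← Matrix.mulVec_mulVec, ← Matrix.mulVec_mulVec, Matrix.dotProduct_mulVec,
    Matrix.vecMul_transpose]
  simp only [dotProduct, Matrix.mulVec_diagonal]
  exact Finset.sum_congr rfl fun a _ => by ring

theorem ip_tr (yt : Vec n) (O : OG n) (x : Vec n) :
    ip (O.1ᵀ *ᵥ yt) x = ∑ a, yt a * (O.1 *ᵥ x) a := by
  rw [ip_comm', ip_eq_dot, ← OG.dot_left, dotProduct_comm]
  rfl

theorem energy_JO (lam yt : Vec n) (O : OG n) (x : Vec n) :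
    qf (JO lam O) x / 2 + ip (O.1ᵀ *ᵥ yt) x = HE lam yt (O.1 *ᵥ x) := by
  rw [qf_JO, ip_tr]
  rfl

theorem sq_sv (x : Cfg n) : F.sq (sv x) = n := by
  unfold F.sq sv
  have h : ∀ i, sp (x i) ^ 2 = 1 := fun i => by cases x i <;> simp [sp]
  simp [h]

/-- the partition function in the frame `O` -/
noncomputable def ZO (lam yt : Vec n) (O : OG n) : ℝ :=
  ∑ x : Cfg n, Real.exp (HE lam yt (O.1 *ᵥ sv x))

theorem ZO_pos (lam yt : Vec n) (O : OG n) : 0 < ZO lam yt O :=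
  Finset.sum_pos (fun _ _ => Real.exp_pos _) Finset.univ_nonempty

theorem gM_JO (lam yt : Vec n) (O : OG n) (x : Cfg n) :
    gM (JO lam O) (O.1ᵀ *ᵥ yt) x = Real.exp (HE lam yt (O.1 *ᵥ sv x)) / ZO lam yt O := by
  unfold gM ZO
  simp only [energy_JO]

theorem gM_JO_zero (lam : Vec n) (O : OG n) (x : Cfg n) :
    gM (JO lam O) 0 x = Real.exp (HE lam 0 (O.1 *ᵥ sv x)) / ZO lam 0 O := by
  rw [← gM_JO, Matrix.mulVec_zero]

theorem continuous_ZO (lam yt : Vec n) : Continuous (ZO lam yt) := by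
  unfold ZO
  exact continuous_finsetSum _ fun x _ =>
    Real.continuous_exp.comp ((continuous_HE lam yt).comp (cont_act _))

/-- annealed sums over the cube -/
theorem lint_cube (hn : 0 < n) {G : Vec n → ℝ≥0∞} (hG : Measurable G) :
    ∫⁻ O, ∑ x : Cfg n, G (O.1 *ᵥ sv x) ∂(haar n) = 2 ^ n * ∫⁻ u, G u ∂(sph n n) := by
  rw [lintegral_finsetSum (f := fun (x : Cfg n) (O : OG n) => G (O.1 *ᵥ sv x)) _
    fun x _ => hG.comp (meas_act _)]
  simp only [lint_haar_sph hn _ hG, sq_sv, Finset.sum_const, Finset.card_univ, Fintype.card_fun,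
    Fintype.card_bool, Fintype.card_fin, nsmul_eq_mul]
  push_cast
  rfl

theorem int_cube (hn : 0 < n) {G : Vec n → ℝ} (hG : Continuous G) :
    ∫ O, ∑ x : Cfg n, G (O.1 *ᵥ sv x) ∂(haar n) = 2 ^ n * ∫ u, G u ∂(sph n n) := by
  rw [integral_finsetSum (f := fun (x : Cfg n) (O : OG n) => G (O.1 *ᵥ sv x)) _
    fun x _ => integrable_haar (hG.comp (cont_act _))]
  simp only [int_haar_sph hn _ hG.measurable, sq_sv, Finset.sum_const, Finset.card_univ,
    Fintype.card_fun, Fintype.card_bool, Fintype.card_fin, nsmul_eq_mul]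
  push_cast
  rfl

/-- the annealed partition function -/
theorem int_ZO (hn : 0 < n) (lam yt : Vec n) : ∫ O, ZO lam yt O ∂(haar n) = 2 ^ n * IS lam yt :=
  int_cube hn (G := fun u => Real.exp (HE lam yt u)) (by fun_prop)

/-- **planted transfer**: a quenched Gibbs average on the event that the partition function is
not small is bounded by the annealed one -/
theorem lint_transfer (lam yt : Vec n) {z : ℝ} (hz : 0 < z) {Φ : OG n → Cfg n → ℝ≥0∞} :
    ∫⁻ O in {O | z ≤ ZO lam yt O},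
        ∑ x : Cfg n, ENNReal.ofReal (gM (JO lam O) (O.1ᵀ *ᵥ yt) x) * Φ O x ∂(haar n) ≤
      ENNReal.ofReal z⁻¹ *
        ∫⁻ O, ∑ x : Cfg n, ENNReal.ofReal (Real.exp (HE lam yt (O.1 *ᵥ sv x))) * Φ O x
          ∂(haar n) := by
  have hS : MeasurableSet {O | z ≤ ZO lam yt O} :=
    measurableSet_le measurable_const (continuous_ZO lam yt).measurable
  rw [← lintegral_const_mul' _ _ ENNReal.ofReal_ne_top]
  refine le_trans (setLIntegral_mono' hS fun O hO => ?_) (setLIntegral_le_lintegral _ _)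
  rw [Finset.mul_sum]
  refine Finset.sum_le_sum fun x _ => ?_
  rw [← mul_assoc, ← ENNReal.ofReal_mul (inv_pos.2 hz).le, gM_JO]
  refine mul_le_mul_left (ENNReal.ofReal_le_ofReal ?_) _
  rw [div_eq_inv_mul]
  exact mul_le_mul_of_nonneg_right (inv_anti₀ hz hO) (Real.exp_pos _).le

/-- quenched tail of an event of `O x` from the spherical integral -/
theorem haar_gibbs_tail (hn : 0 < n) (lam yt : Vec n) {z p : ℝ} (hz : 0 < z) (hp : 0 < p)
    {A : Set (Vec n)} (hA : MeasurableSet A) :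
    haar n {O | z ≤ ZO lam yt O ∧
        p ≤ ∑ x : Cfg n, gM (JO lam O) (O.1ᵀ *ᵥ yt) x * A.indicator 1 (O.1 *ᵥ sv x)} ≤
      ENNReal.ofReal (2 ^ n * (∫ u in A, Real.exp (HE lam yt u) ∂(sph n n)) / (z * p)) := by
  set G : Vec n → ℝ≥0∞ := A.indicator fun u => ENNReal.ofReal (Real.exp (HE lam yt u)) with hGd
  have hG : Measurable G := Measurable.indicator (by fun_prop) hA
  have h1 := lint_cube hn hG
  have h2 : ∫⁻ u, G u ∂(sph n n) =
      ENNReal.ofReal (∫ u in A, Real.exp (HE lam yt u) ∂(sph n n)) := by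
    rw [hGd, lintegral_indicator hA, ofReal_integral_eq_lintegral_ofReal
      (integrable_exp_HE lam yt (Nat.cast_nonneg n)).restrict
      (ae_of_all _ fun u => (Real.exp_pos _).le)]
  have hm : Measurable fun O : OG n => ∑ x : Cfg n, G (O.1 *ᵥ sv x) :=
    Finset.measurable_sum _ fun x _ => hG.comp (meas_act _)
  have h3 := meas_ge_le_lintegral_div (μ := haar n) hm.aemeasurable
    (ε := ENNReal.ofReal (z * p)) (by simp; positivity) ENNReal.ofReal_ne_top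
  rw [h1, h2] at h3
  refine le_trans (measure_mono fun O hO => ?_) (h3.trans (le_of_eq ?_))
  · obtain ⟨h4, h5⟩ := hO
    have h6 : ∑ x : Cfg n, G (O.1 *ᵥ sv x) = ENNReal.ofReal (ZO lam yt O *
        ∑ x : Cfg n, gM (JO lam O) (O.1ᵀ *ᵥ yt) x * A.indicator 1 (O.1 *ᵥ sv x)) := by
      have hZ := ZO_pos lam yt O
      rw [Finset.mul_sum, ENNReal.ofReal_sum_of_nonneg]
      · refine Finset.sum_congr rfl fun x _ => ?_
        rw [gM_JO, ← mul_assoc, mul_div_cancel₀ _ hZ.ne', hGd]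
        by_cases hx : O.1 *ᵥ sv x ∈ A
        · simp [hx]
        · simp [hx]
      · intro x _
        rw [gM_JO]
        exact mul_nonneg hZ.le (mul_nonneg (by positivity)
          (Set.indicator_nonneg (fun _ _ => zero_le_one) _))
    rw [Set.mem_ofPred_eq, h6]
    exact ENNReal.ofReal_le_ofReal (mul_le_mul h4 h5 hp.le (hz.le.trans h4))
  · rw [ENNReal.ofReal_div_of_pos (by positivity),
      ENNReal.ofReal_mul (p := 2 ^ n) (by positivity), ENNReal.ofReal_pow (by norm_num)]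
    simp

end Vale.Agent.N150.Sp
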