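import Mathlib
import Vale.Agent.N150.SphDef

/-! Change of measure for diagonal Gaussian tilts, mass of a thin shell at the mean squared radius,
and the lower saddle bound for the spherical integral. -/

open MeasureTheory ProbabilityTheory Real
open scoped ENNReal NNReal

namespace Vale.Agent.N150

open Vale.Agent.P150 Vale.Agent.P150.F

variable {n : ℕ}

/-! ### log-concavity of the Gaussian measure -/

theorem gd_logconc {θ : ℝ} (h0 : 0 < θ) (h1 : θ < 1) (x y : Vec n) :
    gd x ^ (1 - θ) * gd y ^ θ ≤ gd ((1 - θ) • x + θ • y) := by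
  rw [gd_eq, gd_eq, gd_eq]
  set c : ℝ := ((√(2 * π))⁻¹) ^ Fintype.card (Fin n) with hc
  have hc0 : 0 < c := by positivity
  rw [Real.mul_rpow hc0.le (exp_pos _).le, Real.mul_rpow hc0.le (exp_pos _).le, ← exp_mul,
    ← exp_mul]
  have e : c ^ (1 - θ) * c ^ θ = c := by
    rw [← Real.rpow_add hc0]; simp
  calc c ^ (1 - θ) * exp (-(∑ i, x i ^ 2) / 2 * (1 - θ)) * (c ^ θ * exp (-(∑ i, y i ^ 2) / 2 * θ))
      = (c ^ (1 - θ) * c ^ θ) *
          exp (-(∑ i, x i ^ 2) / 2 * (1 - θ) + -(∑ i, y i ^ 2) / 2 * θ) := by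
        rw [exp_add]; ring
    _ ≤ _ := by
        rw [e]
        refine mul_le_mul_of_nonneg_left (exp_le_exp.2 ?_) hc0.le
        have h : ∑ i, ((1 - θ) • x + θ • y) i ^ 2 ≤
            (1 - θ) * ∑ i, x i ^ 2 + θ * ∑ i, y i ^ 2 := by
          rw [Finset.mul_sum, Finset.mul_sum, ← Finset.sum_add_distrib]
          refine Finset.sum_le_sum fun i _ => ?_
          simp only [Pi.add_apply, Pi.smul_apply, smul_eq_mul]
          nlinarith [mul_nonneg (mul_pos h0 (sub_pos.2 h1)).le (sq_nonneg (x i - y i))]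
        linarith

/-- The standard Gaussian measure is log-concave. -/
theorem gpi_logconc {θ : ℝ} (h0 : 0 < θ) (h1 : θ < 1) {A B C : Set (Vec n)}
    (hA : MeasurableSet A) (hB : MeasurableSet B) (hC : MeasurableSet C)
    (h : ∀ x ∈ A, ∀ y ∈ B, (1 - θ) • x + θ • y ∈ C) :
    (gpi (Fin n)).real A ^ (1 - θ) * (gpi (Fin n)).real B ^ θ ≤ (gpi (Fin n)).real C := by
  have hg : Measurable fun x : Vec n => ENNReal.ofReal (gd x) :=
    continuous_gd.measurable.ennreal_ofReal
  have e : ∀ S : Set (Vec n), MeasurableSet S →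
      gpi (Fin n) S = ∫⁻ x, S.indicator (fun x => ENNReal.ofReal (gd x)) x := by
    intro S hS
    rw [gpi_eq, withDensity_apply _ hS, lintegral_indicator hS]
  have key := PL.prekopa_leindler (n := n) h0 h1 (hg.indicator hA) (hg.indicator hB)
    (hg.indicator hC) (fun x y => by
      by_cases hx : x ∈ A
      · by_cases hy : y ∈ B
        · rw [Set.indicator_of_mem hx, Set.indicator_of_mem hy,
            Set.indicator_of_mem (h x hx y hy),
            ENNReal.ofReal_rpow_of_nonneg (gd_nonneg x) (by linarith),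
            ENNReal.ofReal_rpow_of_nonneg (gd_nonneg y) h0.le,
            ← ENNReal.ofReal_mul (Real.rpow_nonneg (gd_nonneg x) _)]
          exact ENNReal.ofReal_le_ofReal (gd_logconc h0 h1 x y)
        · rw [Set.indicator_of_notMem hy, ENNReal.zero_rpow_of_pos h0, mul_zero]
          exact zero_le
      · rw [Set.indicator_of_notMem hx, ENNReal.zero_rpow_of_pos (by linarith), zero_mul]
        exact zero_le)
  rw [← e A hA, ← e B hB, ← e C hC] at key
  have h2 := ENNReal.toReal_mono (measure_ne_top _ _) key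
  rw [ENNReal.toReal_mul, ← ENNReal.toReal_rpow, ← ENNReal.toReal_rpow] at h2
  exact h2

/-! ### Gaussian moments -/

theorem integrable_pow_g (k : ℕ) : Integrable (fun x : ℝ => x ^ k) (gaussianReal 0 1) := by
  have h := (memLp_id_gaussianReal (μ := 0) (v := 1) (k : NNReal))
  rcases Nat.eq_zero_or_pos k with rfl | hk
  · simp
  · have h2 := h.integrable_norm_rpow (by simpa using hk.ne') (by simp)
    refine h2.mono' (by fun_prop) (Filter.Eventually.of_forall fun x => ?_)
    simp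

theorem gmom_succ (k : ℕ) :
    ∫ x, x ^ (k + 2) ∂(gaussianReal 0 1) = (k + 1) * ∫ x, x ^ k ∂(gaussianReal 0 1) := by
  have h := stein_one (g := fun x => x ^ (k + 1)) (g' := fun x => (k + 1) * x ^ k)
    (fun t => by simpa using hasDerivAt_pow (k + 1) t)
    ((integrable_pow_g (k + 2)).congr (ae_of_all _ fun x => by simp only; ring))
    ((integrable_pow_g k).const_mul _) (integrable_pow_g (k + 1))
  rw [integral_const_mul] at h
  rw [← h]
  exact integral_congr_ae (ae_of_all _ fun x => by simp only; ring)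

theorem gmom1 : ∫ x, x ^ 1 ∂(gaussianReal 0 1) = (0 : ℝ) := by simp
theorem gmom2 : ∫ x, x ^ 2 ∂(gaussianReal 0 1) = (1 : ℝ) := by
  have h := gmom_succ 0
  simpa using h
theorem gmom3 : ∫ x, x ^ 3 ∂(gaussianReal 0 1) = (0 : ℝ) := by
  rw [gmom_succ 1, gmom1, mul_zero]
theorem gmom4 : ∫ x, x ^ 4 ∂(gaussianReal 0 1) = (3 : ℝ) := by
  rw [gmom_succ 2, gmom2]; norm_num

theorem aff_poly (a0 a1 a2 a3 a4 : ℝ) :
    Integrable (fun x : ℝ => a0 + a1 * x ^ 1 + a2 * x ^ 2 + a3 * x ^ 3 + a4 * x ^ 4)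
      (gaussianReal 0 1) ∧
    ∫ x, (a0 + a1 * x ^ 1 + a2 * x ^ 2 + a3 * x ^ 3 + a4 * x ^ 4) ∂(gaussianReal 0 1) =
      a0 + a2 + 3 * a4 := by
  have i0 : Integrable (fun _ : ℝ => a0) (gaussianReal 0 1) := integrable_const _
  have i1 := (integrable_pow_g 1).const_mul a1
  have i2 := (integrable_pow_g 2).const_mul a2
  have i3 := (integrable_pow_g 3).const_mul a3
  have i4 := (integrable_pow_g 4).const_mul a4
  have j1 : Integrable (fun x : ℝ => a0 + a1 * x ^ 1) (gaussianReal 0 1) := i0.add i1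
  have j2 : Integrable (fun x : ℝ => a0 + a1 * x ^ 1 + a2 * x ^ 2) (gaussianReal 0 1) := j1.add i2
  have j3 : Integrable (fun x : ℝ => a0 + a1 * x ^ 1 + a2 * x ^ 2 + a3 * x ^ 3)
      (gaussianReal 0 1) := j2.add i3
  refine ⟨j3.add i4, ?_⟩
  rw [integral_add j3 i4, integral_add j2 i3, integral_add j1 i2, integral_add i0 i1,
    integral_const_mul, integral_const_mul, integral_const_mul, integral_const_mul, gmom1, gmom2,
    gmom3, gmom4]
  simp
  ring

theorem aff_sq (m s : ℝ) :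
    Integrable (fun x : ℝ => (m + s * x) ^ 2) (gaussianReal 0 1) ∧
      ∫ x, (m + s * x) ^ 2 ∂(gaussianReal 0 1) = m ^ 2 + s ^ 2 := by
  have e : (fun x : ℝ => (m + s * x) ^ 2) =
      fun x => m ^ 2 + 2 * m * s * x ^ 1 + s ^ 2 * x ^ 2 + 0 * x ^ 3 + 0 * x ^ 4 := by
    funext x; ring
  rw [e]
  refine ⟨(aff_poly _ _ _ _ _).1, ?_⟩
  rw [(aff_poly _ _ _ _ _).2]; ring

theorem aff_four (m s : ℝ) :
    Integrable (fun x : ℝ => (m + s * x) ^ 4) (gaussianReal 0 1) ∧
      ∫ x, (m + s * x) ^ 4 ∂(gaussianReal 0 1) ≤ 3 * (m ^ 2 + s ^ 2) ^ 2 := by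
  have e : (fun x : ℝ => (m + s * x) ^ 4) =
      fun x => m ^ 4 + 4 * m ^ 3 * s * x ^ 1 + 6 * m ^ 2 * s ^ 2 * x ^ 2 + 4 * m * s ^ 3 * x ^ 3
        + s ^ 4 * x ^ 4 := by
    funext x; ring
  rw [e]
  refine ⟨(aff_poly _ _ _ _ _).1, ?_⟩
  rw [(aff_poly _ _ _ _ _).2]
  nlinarith [sq_nonneg (m ^ 2)]

/-- the affine image `μ + σ g` of a Gaussian vector -/
def afm (μ σ g : Vec n) : Vec n := fun a => μ a + σ a * g a

@[fun_prop] theorem continuous_afm (μ σ : Vec n) : Continuous (afm μ σ) := by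
  unfold afm; fun_prop

@[fun_prop] theorem measurable_afm (μ σ : Vec n) : Measurable (afm μ σ) :=
  (continuous_afm μ σ).measurable

theorem sq_aff_mom (μ σ : Vec n) :
    Integrable (fun g => F.sq (afm μ σ g)) (gpi (Fin n)) ∧
      ∫ g, F.sq (afm μ σ g) ∂(gpi (Fin n)) = ∑ a, (μ a ^ 2 + σ a ^ 2) := by
  have hi : ∀ a, Integrable (fun g : Vec n => (μ a + σ a * g a) ^ 2) (gpi (Fin n)) := fun a =>
    integrable_comp_eval (μ := fun _ => gaussianReal 0 1) (i := a) (aff_sq (μ a) (σ a)).1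
  refine ⟨integrable_finsetSum _ fun a _ => hi a, ?_⟩
  unfold F.sq afm
  rw [integral_finsetSum _ fun a _ => hi a]
  refine Finset.sum_congr rfl fun a _ => ?_
  rw [integral_comp_eval (μ := fun _ => gaussianReal 0 1) (i := a)
    (f := fun x => (μ a + σ a * x) ^ 2) (by fun_prop), (aff_sq _ _).2]

theorem sq_aff_mom2 (μ σ : Vec n) :
    Integrable (fun g => F.sq (afm μ σ g) ^ 2) (gpi (Fin n)) ∧
      ∫ g, F.sq (afm μ σ g) ^ 2 ∂(gpi (Fin n)) ≤ 3 * n * (∑ a, (μ a ^ 2 + σ a ^ 2)) ^ 2 := by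
  have hi : ∀ a, Integrable (fun g : Vec n => (μ a + σ a * g a) ^ 4) (gpi (Fin n)) := fun a =>
    integrable_comp_eval (μ := fun _ => gaussianReal 0 1) (i := a) (aff_four (μ a) (σ a)).1
  have hs : Integrable (fun g : Vec n => n * ∑ a, (μ a + σ a * g a) ^ 4) (gpi (Fin n)) :=
    (integrable_finsetSum _ fun a _ => hi a).const_mul _
  have hle : ∀ g : Vec n, F.sq (afm μ σ g) ^ 2 ≤ n * ∑ a, (μ a + σ a * g a) ^ 4 := by
    intro g
    have h := sq_sum_le_card_mul_sum_sq (s := Finset.univ) (f := fun a => afm μ σ g a ^ 2)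
    rw [Finset.card_univ, Fintype.card_fin] at h
    refine h.trans (le_of_eq ?_)
    congr 1
    exact Finset.sum_congr rfl fun a _ => by unfold afm; ring
  have hI : Integrable (fun g => F.sq (afm μ σ g) ^ 2) (gpi (Fin n)) := by
    refine hs.mono' (by fun_prop) (ae_of_all _ fun g => ?_)
    rw [Real.norm_eq_abs, abs_of_nonneg (sq_nonneg _)]
    exact hle g
  refine ⟨hI, (integral_mono hI hs hle).trans ?_⟩
  rw [integral_const_mul, integral_finsetSum _ fun a _ => hi a]
  have h1 : ∑ a, ∫ g : Vec n, (μ a + σ a * g a) ^ 4 ∂(gpi (Fin n)) ≤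
      ∑ a, 3 * (μ a ^ 2 + σ a ^ 2) ^ 2 := by
    refine Finset.sum_le_sum fun a _ => ?_
    rw [integral_comp_eval (μ := fun _ => gaussianReal 0 1) (i := a)
      (f := fun x => (μ a + σ a * x) ^ 4) (by fun_prop)]
    exact (aff_four _ _).2
  have h2 : ∑ a, (μ a ^ 2 + σ a ^ 2) ^ 2 ≤ (∑ a, (μ a ^ 2 + σ a ^ 2)) ^ 2 :=
    Finset.sum_sq_le_sq_sum_of_nonneg fun a _ => by positivity
  rw [← Finset.mul_sum] at h1
  have hn : (0 : ℝ) ≤ n := Nat.cast_nonneg n
  nlinarith

/-! ### mass of the shell at the mean squared radius -/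

theorem sq_combo_le {θ : ℝ} (h0 : 0 ≤ θ) (h1 : θ ≤ 1) (u v : Vec n) :
    F.sq ((1 - θ) • u + θ • v) ≤ (1 - θ) * F.sq u + θ * F.sq v := by
  unfold F.sq
  rw [Finset.mul_sum, Finset.mul_sum, ← Finset.sum_add_distrib]
  refine Finset.sum_le_sum fun i _ => ?_
  simp only [Pi.add_apply, Pi.smul_apply, smul_eq_mul]
  nlinarith [mul_nonneg (mul_nonneg h0 (sub_nonneg.2 h1)) (sq_nonneg (u i - v i))]

theorem aff_combo (μ σ x y : Vec n) (θ : ℝ) :
    afm μ σ ((1 - θ) • x + θ • y) = (1 - θ) • afm μ σ x + θ • afm μ σ y := by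
  funext a
  simp only [afm, Pi.add_apply, Pi.smul_apply, smul_eq_mul]
  ring

/-- an elementary consequence of log-concavity of a distribution function -/
theorem logconc_gap {a b f θ : ℝ} (ha : 0 < a) (haf : a ≤ f) (hf : f ≤ 1) (h0 : 0 ≤ θ)
    (h : a ^ (1 - θ) * f ^ θ ≤ b) : a * θ * (f - a) ≤ b - a := by
  have hf0 : 0 < f := ha.trans_le haf
  have e : a ^ (1 - θ) * f ^ θ = a * exp (θ * Real.log (f / a)) := by
    rw [Real.rpow_def_of_pos ha, Real.rpow_def_of_pos hf0, Real.log_div hf0.ne' ha.ne',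
      ← exp_add]
    conv_rhs => rw [← exp_log ha, ← exp_add, Real.log_exp]
    congr 1
    ring
  have h1 : 1 - a / f ≤ Real.log (f / a) := by
    have := Real.one_sub_inv_le_log_of_pos (div_pos hf0 ha)
    rwa [inv_div] at this
  have h2 : f - a ≤ 1 - a / f := by
    rw [le_sub_iff_add_le, ← le_sub_iff_add_le', div_le_iff₀ hf0]
    nlinarith [mul_nonneg (sub_nonneg.2 haf) (sub_nonneg.2 hf)]
  have h3 := Real.add_one_le_exp (θ * Real.log (f / a))
  have h4 : θ * (f - a) ≤ θ * Real.log (f / a) := mul_le_mul_of_nonneg_left (h2.trans h1) h0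
  rw [e] at h
  nlinarith

/-- The squared norm of a Gaussian vector with diagonal covariance has polynomial mass in a window
around its mean. -/
theorem shell_ge (hn : 0 < n) (μ σ : Vec n) {N h : ℝ} (hN : N = ∑ a, (μ a ^ 2 + σ a ^ 2))
    (h0 : 0 < h) (hh : h ≤ N) :
    h ^ 6 / (72 * n ^ 2 * N ^ 6) ≤
      (gpi (Fin n)).real {g | N - h < F.sq (afm μ σ g) ∧ F.sq (afm μ σ g) ≤ N + h} := by
  set P := gpi (Fin n) with hP
  set X : Vec n → ℝ := fun g => F.sq (afm μ σ g) with hX
  have hXm : Measurable X := by rw [hX]; fun_prop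
  have hX0 : ∀ g, 0 ≤ X g := fun g => sq_nonneg' _
  obtain ⟨i1, m1⟩ := sq_aff_mom μ σ
  obtain ⟨i2, m2⟩ := sq_aff_mom2 μ σ
  rw [← hN] at m1 m2
  have hN0 : 0 < N := h0.trans_le hh
  have hn1 : (1 : ℝ) ≤ n := by exact_mod_cast hn
  have hS : ∀ r, MeasurableSet {g | X g ≤ r} := fun r => measurableSet_le hXm measurable_const
  have hcompl : ∀ r, P.real {g | X g ≤ r} = 1 - P.real {g | r < X g} := by
    intro r
    have : {g | X g ≤ r} = {g | r < X g}ᶜ := by ext g; simp
    rw [this, measureReal_compl (measurableSet_lt measurable_const hXm), probReal_univ]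
  have markov : ∀ r, 0 < r → P.real {g | r < X g} ≤ N / r := by
    intro r hr
    have h1 := mul_meas_ge_le_integral_of_nonneg (μ := P) (ae_of_all _ hX0) i1 r
    have h2 : P.real {g | r < X g} ≤ P.real {g | r ≤ X g} :=
      measureReal_mono (fun g (hg : r < X g) => (hg.le : r ≤ X g)) (measure_ne_top _ _)
    rw [le_div_iff₀ hr]
    rw [m1] at h1
    nlinarith
  set c2 : ℝ := h ^ 2 / (3 * n * N ^ 2) with hc2
  have hc20 : 0 < c2 := by positivity
  have hc21 : c2 ≤ 1 / 3 := by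
    rw [hc2, div_le_div_iff₀ (by positivity) (by norm_num)]
    nlinarith [mul_le_mul hh hh h0.le hN0.le, mul_pos hN0 hN0]
  -- second moment bound on the upper tail
  have pz : c2 ≤ P.real {g | N - h < X g} := by
    set t : ℝ := h / (3 * n * N ^ 2) with ht
    have ht0 : 0 < t := by positivity
    have hU : MeasurableSet {g | N - h < X g} := measurableSet_lt measurable_const hXm
    have hpt : ∀ g, X g ≤ (N - h) + (t / 2 * X g ^ 2 +
        1 / (2 * t) * {g | N - h < X g}.indicator 1 g) := by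
      intro g
      by_cases hg : g ∈ {g | N - h < X g}
      · rw [Set.indicator_of_mem hg, Pi.one_apply, mul_one]
        have h1 : X g ≤ t / 2 * X g ^ 2 + 1 / (2 * t) := by
          have h2 : t / 2 * X g ^ 2 + 1 / (2 * t) - X g = (t * X g - 1) ^ 2 / (2 * t) := by
            field_simp; ring
          have h3 : 0 ≤ (t * X g - 1) ^ 2 / (2 * t) := by positivity
          linarith
        linarith
      · rw [Set.indicator_of_notMem hg, mul_zero, add_zero]
        have h1 : X g ≤ N - h := not_lt.1 hg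
        have h2 : 0 ≤ t / 2 * X g ^ 2 := by positivity
        linarith
    have iI : Integrable ({g | N - h < X g}.indicator (1 : Vec n → ℝ)) P :=
      (integrable_const (1 : ℝ)).indicator hU
    have j1 : Integrable (fun g => t / 2 * X g ^ 2 +
        1 / (2 * t) * {g | N - h < X g}.indicator 1 g) P := (i2.const_mul _).add (iI.const_mul _)
    have j2 : Integrable (fun g => (N - h) + (t / 2 * X g ^ 2 +
        1 / (2 * t) * {g | N - h < X g}.indicator 1 g)) P := (integrable_const _).add j1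
    have h1 := integral_mono i1 j2 hpt
    rw [integral_add (integrable_const _) j1, integral_add (i2.const_mul _) (iI.const_mul _),
      integral_const_mul, integral_const_mul, integral_indicator_one hU, m1, integral_const,
      probReal_univ, one_smul] at h1
    have h2 : t / 2 * ∫ g, X g ^ 2 ∂P ≤ h / 2 := by
      calc t / 2 * ∫ g, X g ^ 2 ∂P ≤ t / 2 * (3 * n * N ^ 2) :=
            mul_le_mul_of_nonneg_left m2 (by positivity)
        _ = h / 2 := by rw [ht]; field_simp
    have h3 : h / 2 ≤ 1 / (2 * t) * P.real {g | N - h < X g} := by linarith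
    rw [one_div, inv_mul_eq_div, le_div_iff₀ (by positivity)] at h3
    have h4 : c2 = h / 2 * (2 * t) := by rw [hc2, ht]; field_simp
    linarith
  set a := P.real {g | X g ≤ N - h} with ha
  set b := P.real {g | X g ≤ N + h} with hb
  have hdiff : P.real {g | N - h < X g ∧ X g ≤ N + h} = b - a := by
    have e : {g | N - h < X g ∧ X g ≤ N + h} = {g | X g ≤ N + h} \ {g | X g ≤ N - h} := by
      ext g; simp [and_comm]
    have hsub : {g | X g ≤ N - h} ⊆ {g | X g ≤ N + h} := fun g (hg : X g ≤ N - h) =>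
      (by linarith : X g ≤ N + h)
    rw [e, measureReal_sdiff hsub (hS _)]
  have hb1 : h / (2 * N) ≤ b := by
    rw [hb, hcompl]
    have h1 := markov (N + h) (by linarith)
    have h2 : h / (2 * N) ≤ 1 - N / (N + h) := by
      rw [show 1 - N / (N + h) = h / (N + h) by field_simp; ring]
      gcongr; linarith
    linarith
  have ha1 : a ≤ 1 - c2 := by rw [ha, hcompl]; linarith
  have hfin : h ^ 6 / (72 * n ^ 2 * N ^ 6) = h / (4 * N) * (h * c2 / N) * (c2 / 2) := by
    rw [hc2]; field_simp; ring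
  have hq : h / N ≤ 1 := (div_le_one hN0).2 hh
  change _ ≤ P.real {g | N - h < X g ∧ X g ≤ N + h}
  rw [hdiff, hfin]
  have hθ' : h * c2 / N ≤ 1 := by
    rw [mul_div_right_comm]
    nlinarith [div_pos h0 hN0]
  by_cases hcase : a ≤ h / (4 * N)
  · have h1 : h / (4 * N) ≤ b - a := by
      have : h / (2 * N) = h / (4 * N) + h / (4 * N) := by field_simp; ring
      linarith
    refine le_trans ?_ h1
    have h2 : 0 ≤ h / (4 * N) := by positivity
    have h3 : h * c2 / N * (c2 / 2) ≤ 1 := by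
      have : 0 ≤ h * c2 / N := by positivity
      nlinarith
    rw [mul_assoc]
    exact mul_le_of_le_one_right h2 h3
  · push Not at hcase
    have ha0 : 0 < a := lt_trans (by positivity) hcase
    set M : ℝ := 2 * N / c2 with hM
    have hM6 : 6 * N ≤ M := by
      rw [hM, le_div_iff₀ hc20]; nlinarith
    set θ : ℝ := 2 * h / (M - N + h) with hθ
    have hden : 0 < M - N + h := by linarith
    have hθ0 : 0 < θ := by positivity
    have hθ1 : θ < 1 := by rw [hθ, div_lt_one hden]; linarith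
    set f := P.real {g | X g ≤ M} with hf
    have hf1 : f ≤ 1 := measureReal_le_one
    have hf2 : 1 - c2 / 2 ≤ f := by
      rw [hf, hcompl]
      have h1 := markov M (by linarith)
      have h2 : N / M = c2 / 2 := by rw [hM]; field_simp
      linarith
    have key := gpi_logconc hθ0 hθ1 (hS (N - h)) (hS M) (hS (N + h)) (fun x hx y hy => by
      have h1 := sq_combo_le hθ0.le hθ1.le (afm μ σ x) (afm μ σ y)
      rw [← aff_combo] at h1
      have h2 : (1 - θ) * (N - h) + θ * M = N + h := by rw [hθ]; field_simp; ring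
      have h3 : (1 - θ) * X x ≤ (1 - θ) * (N - h) :=
        mul_le_mul_of_nonneg_left hx (by linarith)
      have h4 : θ * X y ≤ θ * M := mul_le_mul_of_nonneg_left hy hθ0.le
      change X ((1 - θ) • x + θ • y) ≤ N + h
      change X ((1 - θ) • x + θ • y) ≤ (1 - θ) * X x + θ * X y at h1
      linarith)
    have h5 := logconc_gap ha0 (by linarith) hf1 hθ0.le key
    refine le_trans ?_ h5
    have h6 : h * c2 / N ≤ θ := by
      have e : h * c2 / N = 2 * h / M := by rw [hM]; field_simp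
      rw [e, hθ]
      gcongr; linarith
    have h7 : c2 / 2 ≤ f - a := by linarith
    gcongr

/-! ### diagonal Gaussian tilts -/

theorem pi_gauss_eq {ι : Type*} [Fintype ι] (μ : ι → ℝ) (v : ι → ℝ≥0) (hv : ∀ a, v a ≠ 0) :
    Measure.pi (fun a => gaussianReal (μ a) (v a)) = (volume : Measure (ι → ℝ)).withDensity
      fun x => ENNReal.ofReal (∏ a, gaussianPDFReal (μ a) (v a) (x a)) := by
  refine Measure.pi_eq fun s hs => ?_
  rw [withDensity_apply _ (MeasurableSet.univ_pi hs), volume_pi, Measure.restrict_pi_pi,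
    ← ofReal_integral_eq_lintegral_ofReal]
  · rw [integral_fintype_prod_eq_prod (fun a => gaussianPDFReal (μ a) (v a)),
      ENNReal.ofReal_prod_of_nonneg]
    · refine Finset.prod_congr rfl fun i _ => ?_
      rw [gaussianReal_of_var_ne_zero _ (hv i), withDensity_apply _ (hs i),
        ofReal_integral_eq_lintegral_ofReal]
      · rfl
      · exact (integrable_gaussianPDFReal _ _).restrict
      · exact ae_of_all _ fun x => gaussianPDFReal_nonneg _ _ x
    · exact fun i _ => integral_nonneg fun x => gaussianPDFReal_nonneg _ _ x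
  · exact Integrable.fintype_prod fun i => (integrable_gaussianPDFReal _ _).restrict
  · exact ae_of_all _ fun x => Finset.prod_nonneg fun a _ => gaussianPDFReal_nonneg _ _ _

theorem map_aff (μ σ : Vec n) : (gpi (Fin n)).map (afm μ σ) =
    Measure.pi fun a => gaussianReal (μ a) (NNReal.mk (σ a ^ 2) (sq_nonneg _)) := by
  have h1 : ∀ a, (gaussianReal 0 1).map (fun x => μ a + σ a * x) =
      gaussianReal (μ a) (NNReal.mk (σ a ^ 2) (sq_nonneg _)) := by
    intro a
    have e : (fun x => μ a + σ a * x) = (fun x => μ a + x) ∘ fun x => σ a * x := rfl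
    rw [e, ← Measure.map_map (by fun_prop) (by fun_prop), gaussianReal_map_const_mul,
      gaussianReal_map_const_add]
    simp
  have : ∀ a, SigmaFinite ((gaussianReal 0 1).map (fun x => μ a + σ a * x)) := fun a => by
    rw [h1]; infer_instance
  have h := Measure.pi_map_pi (μ := fun _ : Fin n => gaussianReal 0 1)
    (f := fun a x => μ a + σ a * x) (fun a => by fun_prop)
  simp only [h1] at h
  exact h

theorem tilt_one {c : ℝ} (hc : 0 < c) (y x : ℝ) :
    gaussianPDFReal 0 1 x * exp (-((c - 1) * x ^ 2) / 2 + y * x) =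
      exp (-Real.log c / 2 + y ^ 2 / c / 2) *
        gaussianPDFReal (y / c) (NNReal.mk ((√c)⁻¹ ^ 2) (sq_nonneg _)) x := by
  have hs : 0 < √c := Real.sqrt_pos.2 hc
  have e1 : ((√c)⁻¹) ^ 2 = c⁻¹ := by rw [inv_pow, Real.sq_sqrt hc.le]
  have e2 : exp (-Real.log c / 2) = (√c)⁻¹ := by
    rw [Real.sqrt_eq_rpow, Real.rpow_def_of_pos hc, ← exp_neg]
    congr 1; ring
  unfold gaussianPDFReal
  simp only [NNReal.coe_one, mul_one, sub_zero, NNReal.coe_mk]
  rw [e1, exp_add (-Real.log c / 2), e2, Real.sqrt_mul (by positivity), Real.sqrt_mul' _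
    (inv_pos.2 hc).le, Real.sqrt_inv, Real.sqrt_mul (by positivity)]
  have e3 : exp (-x ^ 2 / 2) * exp (-((c - 1) * x ^ 2) / 2 + y * x) =
      exp (y ^ 2 / c / 2) * exp (-(x - y / c) ^ 2 / (2 * c⁻¹)) := by
    rw [← exp_add, ← exp_add]
    congr 1
    field_simp
    ring
  have h2 : √2 ≠ 0 := by positivity
  have hπ : √π ≠ 0 := by positivity
  rw [mul_assoc, e3]
  field_simp

/-- Change of measure: the Gaussian measure tilted by a diagonal quadratic form and a field. -/
theorem lintegral_tiltL {c : Vec n} (hc : ∀ a, 0 < c a) (y : Vec n) {G : Vec n → ℝ≥0∞}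
    (hG : Measurable G) :
    ∫⁻ g, ENNReal.ofReal (exp (-(∑ a, (c a - 1) * g a ^ 2) / 2 + ∑ a, y a * g a)) * G g
        ∂(gpi (Fin n)) =
      ENNReal.ofReal (exp (-(∑ a, Real.log (c a)) / 2 + (∑ a, y a ^ 2 / c a) / 2)) *
        ∫⁻ g, G (afm (fun a => y a / c a) (fun a => (√(c a))⁻¹) g) ∂(gpi (Fin n)) := by
  have hm : Measurable fun g : Vec n =>
      ENNReal.ofReal (exp (-(∑ a, (c a - 1) * g a ^ 2) / 2 + ∑ a, y a * g a)) := by
    refine Measurable.ennreal_ofReal ?_
    fun_prop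
  have hv : ∀ a, NNReal.mk ((√(c a))⁻¹ ^ 2) (sq_nonneg _) ≠ 0 := by
    intro a h
    have h1 : (√(c a))⁻¹ ^ 2 = 0 := congrArg NNReal.toReal h
    have h2 : 0 < (√(c a))⁻¹ ^ 2 := by have := hc a; positivity
    exact h2.ne' h1
  have hp : Measurable fun x : Vec n => ENNReal.ofReal
      (∏ a, gaussianPDFReal (y a / c a) (NNReal.mk ((√(c a))⁻¹ ^ 2) (sq_nonneg _)) (x a)) := by
    refine Measurable.ennreal_ofReal (Finset.measurable_prod _ fun a _ => ?_)
    exact (measurable_gaussianPDFReal _ _).comp (measurable_pi_apply a)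
  rw [← lintegral_map hG (measurable_afm _ _), map_aff, pi_gauss_eq _ _ hv,
    lintegral_withDensity_eq_lintegral_mul _ hp hG, lintegral_gpi (hm.fun_mul hG),
    ← lintegral_const_mul _ (hp.mul hG)]
  refine lintegral_congr fun x => ?_
  simp only [Pi.mul_apply]
  rw [← mul_assoc, ← mul_assoc, ← ENNReal.ofReal_mul (gd_nonneg x),
    ← ENNReal.ofReal_mul (exp_pos _).le]
  congr 2
  have e1 : -(∑ a, (c a - 1) * x a ^ 2) / 2 + ∑ a, y a * x a =
      ∑ a, (-((c a - 1) * x a ^ 2) / 2 + y a * x a) := by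
    rw [Finset.sum_add_distrib, ← Finset.sum_div, Finset.sum_neg_distrib]
  have e2 : -(∑ a, Real.log (c a)) / 2 + (∑ a, y a ^ 2 / c a) / 2 =
      ∑ a, (-Real.log (c a) / 2 + y a ^ 2 / c a / 2) := by
    rw [Finset.sum_add_distrib, ← Finset.sum_div, ← Finset.sum_div, Finset.sum_neg_distrib]
  rw [e1, e2, exp_sum, exp_sum, gd, ← Finset.prod_mul_distrib, ← Finset.prod_mul_distrib]
  exact Finset.prod_congr rfl fun a _ => tilt_one (hc a) (y a) (x a)

/-! ### the lower saddle bound -/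

theorem abs_HE_smul_sub {lam yt u : Vec n} {B ρ t : ℝ} (hl : ∀ a, |lam a| ≤ B) (hρ : 0 < ρ)
    (hu : F.sq u = ρ) (ht : 0 ≤ t) (h : |t ^ 2 - 1| ≤ 1 / ρ) :
    |HE lam yt (t • u) - HE lam yt u| ≤ B / 2 + (F.sq yt / ρ + 1) / 2 := by
  have e : HE lam yt (t • u) - HE lam yt u =
      (t ^ 2 - 1) * (∑ a, lam a * u a ^ 2) / 2 + (t - 1) * ∑ a, yt a * u a := by
    unfold HE
    have e1 : ∑ a, lam a * (t • u) a ^ 2 = t ^ 2 * ∑ a, lam a * u a ^ 2 := by
      rw [Finset.mul_sum]
      exact Finset.sum_congr rfl fun a _ => by simp only [Pi.smul_apply, smul_eq_mul]; ring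
    have e2 : ∑ a, yt a * (t • u) a = t * ∑ a, yt a * u a := by
      rw [Finset.mul_sum]
      exact Finset.sum_congr rfl fun a _ => by simp only [Pi.smul_apply, smul_eq_mul]; ring
    rw [e1, e2]; ring
  have h1 : |∑ a, lam a * u a ^ 2| ≤ B * ρ := by
    rw [← hu, F.sq, Finset.mul_sum]
    refine (Finset.abs_sum_le_sum_abs _ _).trans (Finset.sum_le_sum fun a _ => ?_)
    rw [abs_mul, abs_of_nonneg (sq_nonneg (u a))]
    exact mul_le_mul_of_nonneg_right (hl a) (sq_nonneg _)
  have h2 : |∑ a, yt a * u a| ≤ (F.sq yt + ρ) / 2 := by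
    rw [← hu, F.sq, F.sq, ← Finset.sum_add_distrib, Finset.sum_div]
    refine (Finset.abs_sum_le_sum_abs _ _).trans (Finset.sum_le_sum fun a _ => ?_)
    rw [abs_le]
    constructor <;> nlinarith [sq_nonneg (yt a - u a), sq_nonneg (yt a + u a)]
  have h3 : |t - 1| ≤ 1 / ρ := by
    refine le_trans ?_ h
    rw [show t ^ 2 - 1 = (t - 1) * (t + 1) by ring, abs_mul, abs_of_nonneg (by linarith : 0 ≤ t + 1)]
    exact le_mul_of_one_le_right (abs_nonneg _) (by linarith)
  rw [e]
  refine (abs_add_le _ _).trans (add_le_add ?_ ?_)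
  · rw [abs_div, abs_mul, abs_two]
    refine div_le_div_of_nonneg_right ?_ (by norm_num)
    calc _ ≤ 1 / ρ * (B * ρ) := mul_le_mul h h1 (abs_nonneg _) (by positivity)
      _ = B := by field_simp
  · rw [abs_mul]
    calc _ ≤ 1 / ρ * ((F.sq yt + ρ) / 2) := mul_le_mul h3 h2 (abs_nonneg _) (by positivity)
      _ = _ := by field_simp

/-- Lower saddle bound on the sphere `|u|² = ρ`, at a point `γ` which solves the saddle
equation. -/
theorem sph_ge_saddle (hn : 0 < n) {lam yt : Vec n} {γ B ρ : ℝ} (hρ : 1 ≤ ρ)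
    (hγ : ∀ a, lam a < γ) (hs : ∑ a, (1 / (γ - lam a) + yt a ^ 2 / (γ - lam a) ^ 2) = ρ)
    (hl : ∀ a, |lam a| ≤ B) :
    exp (ρ * (γ - 1) / 2 - (∑ a, Real.log (γ - lam a)) / 2 + (∑ a, yt a ^ 2 / (γ - lam a)) / 2
        - (|γ - 1| + B + F.sq yt / ρ + 1) / 2) / (72 * n ^ 2 * ρ ^ 6) ≤
      ∫ u, exp (HE lam yt u) ∂(sph n ρ) := by
  have hρ0 : 0 < ρ := by linarith
  set c : Vec n := fun a => γ - lam a with hc
  have hc0 : ∀ a, 0 < c a := fun a => sub_pos.2 (hγ a)
  set S : Set (Vec n) := {g | ρ - 1 < F.sq g ∧ F.sq g ≤ ρ + 1} with hS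
  have hSm : MeasurableSet S :=
    (measurableSet_lt measurable_const measurable_sq).inter
      (measurableSet_le measurable_sq measurable_const)
  have key := lintegral_tiltL hc0 yt (G := S.indicator 1) (measurable_one.indicator hSm)
  have hsh := shell_ge hn (fun a => yt a / c a) (fun a => (√(c a))⁻¹) (N := ρ) (h := 1) (by
    rw [← hs]
    refine Finset.sum_congr rfl fun a _ => ?_
    rw [inv_pow, Real.sq_sqrt (hc0 a).le, div_pow, add_comm, one_div]) one_pos hρ
  have e1 : ∫⁻ g, S.indicator (1 : Vec n → ℝ≥0∞)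
      (afm (fun a => yt a / c a) (fun a => (√(c a))⁻¹) g) ∂(gpi (Fin n)) =
      gpi (Fin n) (afm (fun a => yt a / c a) (fun a => (√(c a))⁻¹) ⁻¹' S) := by
    rw [← lintegral_indicator_one (measurable_afm _ _ hSm)]
    rfl
  set D : ℝ := -(ρ * (γ - 1) / 2) + (|γ - 1| + B + F.sq yt / ρ + 1) / 2 with hD
  have hi : Integrable (fun g => exp D * exp (HE lam yt (rp ρ g))) (gpi (Fin n)) :=
    ((mp_rp ρ).integrable_comp_of_integrable (integrable_exp_HE lam yt hρ0.le)).const_mul _
  have hup : ∫⁻ g, ENNReal.ofReal (exp (-(∑ a, (c a - 1) * g a ^ 2) / 2 + ∑ a, yt a * g a)) *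
      S.indicator 1 g ∂(gpi (Fin n)) ≤
      ENNReal.ofReal (exp D * ∫ u, exp (HE lam yt u) ∂(sph n ρ)) := by
    rw [integral_sph ρ (by fun_prop), ← integral_const_mul,
      ofReal_integral_eq_lintegral_ofReal hi (ae_of_all _ fun g => by positivity)]
    refine lintegral_mono fun g => ?_
    by_cases hg : g ∈ S
    · rw [Set.indicator_of_mem hg, Pi.one_apply, mul_one, ← exp_add]
      refine ENNReal.ofReal_le_ofReal (exp_le_exp.2 ?_)
      have hg1 : ρ - 1 < F.sq g := hg.1
      have hg2 : F.sq g ≤ ρ + 1 := hg.2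
      have hg0 : 0 < F.sq g := by linarith
      have hne : g ≠ 0 := by
        rintro rfl
        simp [F.sq] at hg0
      set t : ℝ := √(F.sq g) / √ρ with ht
      have ht0 : 0 ≤ t := by positivity
      have hgt : t • rp ρ g = g := by
        rw [rp, smul_smul, ht]
        have h1 : √ρ ≠ 0 := by positivity
        have h2 : √(F.sq g) ≠ 0 := by positivity
        rw [show √(F.sq g) / √ρ * (√ρ / √(F.sq g)) = 1 by field_simp, one_smul]
      have ht2 : |t ^ 2 - 1| ≤ 1 / ρ := by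
        rw [ht, div_pow, Real.sq_sqrt hg0.le, Real.sq_sqrt hρ0.le,
          show F.sq g / ρ - 1 = (F.sq g - ρ) / ρ by field_simp, abs_div, abs_of_pos hρ0]
        refine div_le_div_of_nonneg_right (abs_le.2 ⟨by linarith, by linarith⟩) hρ0.le
      have h1 := abs_HE_smul_sub (yt := yt) hl hρ0 (sq_rp hρ0.le hne) ht0 ht2
      rw [hgt] at h1
      have e2 : -(∑ a, (c a - 1) * g a ^ 2) / 2 + ∑ a, yt a * g a =
          -((γ - 1) * F.sq g) / 2 + HE lam yt g := by
        have : ∑ a, (c a - 1) * g a ^ 2 = (γ - 1) * F.sq g - ∑ a, lam a * g a ^ 2 := by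
          rw [F.sq, Finset.mul_sum, ← Finset.sum_sub_distrib]
          exact Finset.sum_congr rfl fun a _ => by rw [hc]; ring
        rw [this, HE]; ring
      have h2 : |(γ - 1) * (F.sq g - ρ)| ≤ |γ - 1| := by
        rw [abs_mul]
        exact mul_le_of_le_one_right (abs_nonneg _) (abs_le.2 ⟨by linarith, by linarith⟩)
      rw [e2, hD]
      have h3 := (abs_le.1 h1).2
      have h4 := (abs_le.1 h2).1
      nlinarith
    · rw [Set.indicator_of_notMem hg, mul_zero]
      exact zero_le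
  rw [key, e1, ← ofReal_measureReal, ← ENNReal.ofReal_mul (exp_pos _).le,
    ENNReal.ofReal_le_ofReal_iff (by
      have := integral_nonneg (μ := sph n ρ) (f := fun u => exp (HE lam yt u))
        fun u => (exp_pos _).le
      positivity)] at hup
  have h5 : exp (-(∑ a, Real.log (c a)) / 2 + (∑ a, yt a ^ 2 / c a) / 2) *
      (1 ^ 6 / (72 * n ^ 2 * ρ ^ 6)) ≤ exp D * ∫ u, exp (HE lam yt u) ∂(sph n ρ) :=
    le_trans (mul_le_mul_of_nonneg_left hsh (exp_pos _).le) hup
  refine le_of_mul_le_mul_left (a := exp D) (le_trans (le_of_eq ?_) h5) (exp_pos _)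
  rw [one_pow, mul_one_div, ← mul_div_assoc, ← exp_add]
  congr 2
  rw [hD]; ring

/-- the left side of the saddle equation -/
noncomputable def sadF (lam yt : Vec n) (γ : ℝ) : ℝ :=
  ∑ a, (1 / (γ - lam a) + yt a ^ 2 / (γ - lam a) ^ 2)

/-- existence of a saddle point below any supersolution -/
theorem exists_saddle (hn : 0 < n) {lam yt : Vec n} {ρ γ₁ : ℝ} (hρ : 0 < ρ)
    (h1 : ∀ a, lam a < γ₁) (h2 : sadF lam yt γ₁ ≤ ρ) :
    ∃ γ, (∀ a, lam a + 1 / ρ ≤ γ) ∧ γ ≤ γ₁ ∧ sadF lam yt γ = ρ := by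
  have : Nonempty (Fin n) := ⟨⟨0, hn⟩⟩
  obtain ⟨a0, ha0⟩ := Finite.exists_max lam
  have hlow : ∀ γ, lam a0 < γ → 1 / (γ - lam a0) ≤ sadF lam yt γ := by
    intro γ hγ
    have hpos : ∀ a, 0 < γ - lam a := fun a => by linarith [ha0 a]
    have h3 : 1 / (γ - lam a0) ≤ 1 / (γ - lam a0) + yt a0 ^ 2 / (γ - lam a0) ^ 2 :=
      le_add_of_nonneg_right (by positivity)
    exact h3.trans (Finset.single_le_sum
      (f := fun a => 1 / (γ - lam a) + yt a ^ 2 / (γ - lam a) ^ 2)
      (fun a _ => by have := hpos a; positivity) (Finset.mem_univ a0))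
  have hρ' : 0 < 1 / ρ := by positivity
  have h01 : lam a0 + 1 / ρ ≤ γ₁ := by
    have h3 := (hlow γ₁ (h1 a0)).trans h2
    have h4 : 0 < γ₁ - lam a0 := sub_pos.2 (h1 a0)
    rw [div_le_iff₀ h4] at h3
    have : 1 / ρ ≤ γ₁ - lam a0 := by rw [div_le_iff₀ hρ]; linarith
    linarith
  have hcont : ContinuousOn (sadF lam yt) (Set.Icc (lam a0 + 1 / ρ) γ₁) := by
    refine continuousOn_finsetSum _ fun a _ => ?_
    have hne : ∀ γ ∈ Set.Icc (lam a0 + 1 / ρ) γ₁, γ - lam a ≠ 0 := fun γ hγ => by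
      have := hγ.1
      have := ha0 a
      linarith
    exact (continuousOn_const.div (by fun_prop) hne).add
      (continuousOn_const.div (by fun_prop) fun γ hγ => pow_ne_zero 2 (hne γ hγ))
  have h3 : ρ ≤ sadF lam yt (lam a0 + 1 / ρ) := by
    have := hlow (lam a0 + 1 / ρ) (by linarith)
    rwa [add_sub_cancel_left, one_div_one_div] at this
  obtain ⟨γ, hγ, he⟩ := intermediate_value_Icc' h01 hcont ⟨h2, h3⟩
  exact ⟨γ, fun a => by linarith [ha0 a, hγ.1], hγ.2, he⟩

theorem sadF_crude (hn : 0 < n) {lam yt : Vec n} {B : ℝ} (hl : ∀ a, lam a ≤ B) :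
    sadF lam yt (B + 1 + F.sq yt / n) ≤ n := by
  have hn0 : (0 : ℝ) < n := by exact_mod_cast hn
  set δ : ℝ := 1 + F.sq yt / n with hδ
  have hδ1 : 1 ≤ δ := by
    have := sq_nonneg' yt
    rw [hδ]
    exact le_add_of_nonneg_right (by positivity)
  have h1 : sadF lam yt (B + 1 + F.sq yt / n) ≤ ∑ a, (1 / δ + yt a ^ 2 / δ) := by
    refine Finset.sum_le_sum fun a _ => ?_
    have h2 : δ ≤ B + 1 + F.sq yt / n - lam a := by linarith [hl a]
    refine add_le_add (one_div_le_one_div_of_le (by linarith) h2) ?_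
    refine div_le_div_of_nonneg_left (sq_nonneg _) (by linarith) ?_
    nlinarith
  refine h1.trans (le_of_eq ?_)
  rw [Finset.sum_add_distrib, ← Finset.sum_div, ← Finset.sum_div, Finset.sum_const,
    Finset.card_univ, Fintype.card_fin, nsmul_eq_mul, mul_one]
  change n / δ + F.sq yt / δ = n
  have : δ ≠ 0 := by linarith
  field_simp
  rw [hδ]
  field_simp

/-- convexity of the saddle function: the tangent inequality -/
theorem PhiS_tangent {lam yt : Vec n} {γ γ' : ℝ} (h : ∀ a, lam a < γ) (h' : ∀ a, lam a < γ') :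
    PhiS lam yt γ + (γ' - γ) * (n - sadF lam yt γ) / 2 ≤ PhiS lam yt γ' := by
  have h1 : ∀ a, -Real.log (γ - lam a) + yt a ^ 2 / (γ - lam a) -
      (γ' - γ) * (1 / (γ - lam a) + yt a ^ 2 / (γ - lam a) ^ 2) ≤
      -Real.log (γ' - lam a) + yt a ^ 2 / (γ' - lam a) := by
    intro a
    have hp : 0 < γ - lam a := sub_pos.2 (h a)
    have hp' : 0 < γ' - lam a := sub_pos.2 (h' a)
    have h2 := Real.log_le_sub_one_of_pos (div_pos hp' hp)
    rw [Real.log_div hp'.ne' hp.ne'] at h2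
    have h3 : (γ' - lam a) / (γ - lam a) - 1 = (γ' - γ) * (1 / (γ - lam a)) := by
      field_simp; ring
    have h4 : yt a ^ 2 / (γ' - lam a) - (yt a ^ 2 / (γ - lam a) -
        (γ' - γ) * (yt a ^ 2 / (γ - lam a) ^ 2)) =
        yt a ^ 2 * (γ' - γ) ^ 2 / ((γ' - lam a) * (γ - lam a) ^ 2) := by
      field_simp; ring
    have h5 : 0 ≤ yt a ^ 2 * (γ' - γ) ^ 2 / ((γ' - lam a) * (γ - lam a) ^ 2) := by positivity
    linarith
  have h2 := Finset.sum_le_sum fun a (_ : a ∈ Finset.univ) => h1 a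
  rw [Finset.sum_sub_distrib, Finset.sum_add_distrib, Finset.sum_add_distrib, ← Finset.mul_sum,
    Finset.sum_neg_distrib, Finset.sum_neg_distrib] at h2
  unfold PhiS sadF
  linarith

theorem PhiS_min {lam yt : Vec n} {γ γ' : ℝ} (h : ∀ a, lam a < γ) (h' : ∀ a, lam a < γ')
    (hs : sadF lam yt γ = n) : PhiS lam yt γ ≤ PhiS lam yt γ' := by
  have := PhiS_tangent (yt := yt) h h'
  rwa [hs, sub_self, mul_zero, zero_div, add_zero] at this

/-- Lower saddle bound for the spherical integral `IS`. -/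
theorem IS_ge_saddle (hn : 0 < n) {lam yt : Vec n} {γ B : ℝ} (hγ : ∀ a, lam a < γ)
    (hs : sadF lam yt γ = n) (hl : ∀ a, |lam a| ≤ B) :
    exp (PhiS lam yt γ - (|γ - 1| + B + F.sq yt / n + 1) / 2) / (72 * n ^ 8) ≤ IS lam yt := by
  have h := sph_ge_saddle hn (ρ := n) (by exact_mod_cast hn) hγ hs hl
  rw [show (72 : ℝ) * n ^ 2 * n ^ 6 = 72 * n ^ 8 by ring] at h
  exact h

/-- The saddle point exists and the spherical integral is at least the saddle value, up to a
polynomial factor. -/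
theorem IS_ge (hn : 0 < n) {lam yt : Vec n} {B Y γ₁ : ℝ} (hl : ∀ a, |lam a| ≤ B)
    (hy : F.sq yt ≤ Y * n) (h1 : ∀ a, lam a < γ₁) (h2 : sadF lam yt γ₁ ≤ n) :
    ∃ γ, (∀ a, lam a + 1 / n ≤ γ) ∧ γ ≤ γ₁ ∧ γ ≤ B + 1 + Y ∧ sadF lam yt γ = n ∧
      exp (PhiS lam yt γ - (B + Y + 1)) / (72 * n ^ 8) ≤ IS lam yt := by
  have hn0 : (0 : ℝ) < n := by exact_mod_cast hn
  have hY : F.sq yt / n ≤ Y := (div_le_iff₀ hn0).2 hy
  have hY0 : 0 ≤ F.sq yt / n := div_nonneg (sq_nonneg' _) hn0.le
  have hB : ∀ a, lam a ≤ B := fun a => (le_abs_self _).trans (hl a)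
  have h3 : ∀ a, lam a < min γ₁ (B + 1 + F.sq yt / n) := fun a =>
    lt_min (h1 a) (by linarith [hB a])
  have h4 : sadF lam yt (min γ₁ (B + 1 + F.sq yt / n)) ≤ n := by
    rcases min_choice γ₁ (B + 1 + F.sq yt / n) with h | h
    · rwa [h]
    · rw [h]; exact sadF_crude hn hB
  obtain ⟨γ, g1, g2, g3⟩ := exists_saddle hn hn0 h3 h4
  have g4 : γ ≤ B + 1 + F.sq yt / n := g2.trans (min_le_right _ _)
  have hinv : 0 < 1 / (n : ℝ) := by positivity
  have g5 : ∀ a, lam a < γ := fun a => by linarith [g1 a]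
  refine ⟨γ, g1, g2.trans (min_le_left _ _), by linarith, g3,
    le_trans ?_ (IS_ge_saddle hn g5 g3 hl)⟩
  have g6 : |γ - 1| ≤ B + 1 + Y := by
    have h5 := g5 ⟨0, hn⟩
    have h6 := (abs_le.1 (hl ⟨0, hn⟩)).1
    rw [abs_le]
    constructor <;> linarith
  gcongr
  linarith

end Vale.Agent.N150
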