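import Vale.Agent.N150.Plant
import Vale.Agent.N150.SphAnn
import Vale.Agent.N150.SphLow
import Vale.Agent.N150.Tail
import Vale.Agent.N150.EdgeTr

/-! Quadratic forms of the frame spins under the spherical Gibbs law. -/

open MeasureTheory ProbabilityTheory Matrix Real
open scoped ENNReal

namespace Vale.Agent.N150.Path

open Vale.Agent.P150 Vale.Agent.P150.F Vale.Agent.N150.Plant

variable {n : ℕ}

theorem ofReal_int_le {Ω : Type*} [MeasurableSpace Ω] {μ : Measure Ω} {f : Ω → ℝ}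
    (hf : Integrable f μ) : ENNReal.ofReal (∫ w, f w ∂μ) ≤ ∫⁻ w, ENNReal.ofReal (f w) ∂μ := by
  have h1 : ∫ w, f w ∂μ ≤ ∫ w, max (f w) 0 ∂μ :=
    integral_mono hf hf.pos_part fun w => le_max_left _ _
  refine (ENNReal.ofReal_le_ofReal h1).trans ?_
  rw [ofReal_integral_eq_lintegral_ofReal hf.pos_part (ae_of_all _ fun w => le_max_right _ _)]
  refine lintegral_mono fun w => ?_
  rcases le_total (f w) 0 with h | h
  · rw [max_eq_right h, ENNReal.ofReal_zero]; exact zero_le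
  · rw [max_eq_left h]

/-- upper saddle bound without field -/
theorem IS_le_zero (hn : 0 < n) {lam : Vec n} {γ : ℝ} (hγ : ∀ a, lam a < γ) :
    IS lam 0 ≤ exp (PhiS lam 0 γ) := by
  have hn0 : (0 : ℝ) < n := by exact_mod_cast hn
  have h1 := lintegral_tilt_one (w := fun a => γ - lam a) (0 : Vec n) fun a => sub_pos.2 (hγ a)
  rw [Sp.lintegral_polar' hn hn0 (by fun_prop)] at h1
  have h2 : ∫⁻ u, ENNReal.ofReal (exp (HE lam 0 u) * exp (-(n * (γ - 1) / 2))) ∂(sph n n) ≤
      ENNReal.ofReal (exp (-(∑ a, log (γ - lam a)) / 2 + (∑ a, (0 : Vec n) a ^ 2 / (γ - lam a)) / 2)) := by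
    rw [← h1]
    refine lintegral_mono_ae ?_
    filter_upwards [ae_sph hn hn0.le] with u hu
    set c := HE lam 0 u + -(n * (γ - 1) / 2) with hc
    have e : ∀ g : Vec n, ∑ a, ((1 - (γ - lam a)) * (√(F.sq g / n) • u) a ^ 2 / 2 +
        (0 : Vec n) a * (√(F.sq g / n) • u) a) = F.sq g / n * c := by
      intro g
      have h3 : √(F.sq g / n) ^ 2 = F.sq g / n := sq_sqrt (div_nonneg (sq_nonneg' g) hn0.le)
      have h4 : c = ∑ a, (1 - (γ - lam a)) * u a ^ 2 / 2 := by
        have h5 : ∑ a, (1 - (γ - lam a)) * u a ^ 2 / 2 =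
            (∑ a, lam a * u a ^ 2) / 2 - (γ - 1) / 2 * ∑ a, u a ^ 2 := by
          rw [Finset.sum_div, Finset.mul_sum, ← Finset.sum_sub_distrib]
          exact Finset.sum_congr rfl fun a _ => by ring
        have h6 : ∑ a, u a ^ 2 = (n : ℝ) := hu
        rw [h5, h6, hc]
        simp only [HE, Pi.zero_apply, zero_mul, Finset.sum_const_zero]
        ring
      rw [h4, Finset.mul_sum]
      refine Finset.sum_congr rfl fun a _ => ?_
      simp only [Pi.smul_apply, smul_eq_mul, Pi.zero_apply, zero_mul, add_zero]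
      rw [mul_pow, h3]
      ring
    simp only [e]
    rw [← exp_add, ← hc]
    have i1 : Integrable (fun g : Vec n => exp c * (1 - c) + exp c * c / n * F.sq g)
        (gpi (Fin n)) := (integrable_const _).add (integrable_sq.const_mul _)
    have v1 : ∫ g : Vec n, (exp c * (1 - c) + exp c * c / n * F.sq g) ∂(gpi (Fin n)) = exp c := by
      rw [integral_add (integrable_const _) (integrable_sq.const_mul _), integral_const,
        integral_const_mul, integral_sq]
      simp only [probReal_univ, smul_eq_mul, one_mul]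
      field_simp
      ring
    conv_lhs => rw [← v1]
    refine (ofReal_int_le i1).trans (lintegral_mono fun g => ENNReal.ofReal_le_ofReal ?_)
    have h7 := add_one_le_exp (F.sq g / n * c - c)
    have h8 : exp (F.sq g / n * c) = exp c * exp (F.sq g / n * c - c) := by
      rw [← exp_add]; congr 1; ring
    rw [h8]
    calc exp c * (1 - c) + exp c * c / n * F.sq g = exp c * (F.sq g / n * c - c + 1) := by ring
      _ ≤ _ := mul_le_mul_of_nonneg_left h7 (exp_pos _).le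
  rw [← ofReal_integral_eq_lintegral_ofReal
    ((integrable_exp_HE lam 0 hn0.le).mul_const _) (ae_of_all _ fun u => by positivity),
    ENNReal.ofReal_le_ofReal_iff (exp_pos _).le, integral_mul_const] at h2
  have e3 : exp (PhiS lam 0 γ) = exp (-(∑ a, log (γ - lam a)) / 2 +
      (∑ a, (0 : Vec n) a ^ 2 / (γ - lam a)) / 2) * exp (n * (γ - 1) / 2) := by
    rw [← exp_add]
    congr 1
    unfold PhiS
    ring
  rw [e3]
  have h9 := mul_le_mul_of_nonneg_right h2 (exp_pos (n * (γ - 1) / 2)).le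
  rwa [mul_assoc, ← exp_add, neg_add_cancel, exp_zero, mul_one] at h9

theorem integrable_spM (M : Mat n) (y : Vec n) {G : Vec n → ℝ} (hG : Continuous G) :
    Integrable G (spM M y) := by
  unfold spM
  rw [integrable_withDensity_iff_integrable_smul' (measurable_sdens M y)
    (ae_of_all _ fun _ => ENNReal.ofReal_lt_top)]
  have e : (fun u => (ENNReal.ofReal (exp (HM M y u) / ISM M y)).toReal • G u) =
      fun u => exp (HM M y u) / ISM M y * G u := by
    funext u
    rw [ENNReal.toReal_ofReal (div_pos (exp_pos _) (ISM_pos M y)).le, smul_eq_mul]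
  rw [e]
  exact integrable_sph (Nat.cast_nonneg n) (by fun_prop)

theorem integral_spM (M : Mat n) (y : Vec n) (G : Vec n → ℝ) :
    ∫ u, G u ∂(spM M y) = (∫ u, exp (HM M y u) * G u ∂(sph n n)) / ISM M y := by
  unfold spM
  rw [integral_withDensity_eq_integral_toReal_smul (measurable_sdens M y)
    (ae_of_all _ fun _ => ENNReal.ofReal_lt_top), ← integral_div]
  refine integral_congr_ae (ae_of_all _ fun u => ?_)
  simp only
  rw [ENNReal.toReal_ofReal (div_pos (exp_pos _) (ISM_pos M y)).le, smul_eq_mul]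
  ring

theorem ae_spM (hn : 0 < n) (M : Mat n) (y : Vec n) : ∀ᵐ u ∂(spM M y), F.sq u = n :=
  (withDensity_absolutelyContinuous _ _).ae_le (ae_sph hn (Nat.cast_nonneg n))

/-- the spherical Gibbs law of a spectrum -/
noncomputable abbrev sG (lam : Vec n) : Measure (Vec n) := spM (diagonal lam) 0

theorem mgf_sG (lam g : Vec n) :
    ∫ u, exp (∑ a, g a * u a ^ 2) ∂(sG lam) = IS (fun a => lam a + 2 * g a) 0 / IS lam 0 := by
  rw [integral_spM, ISM_diag]
  congr 1
  unfold IS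
  refine integral_congr_ae (ae_of_all _ fun u => ?_)
  simp only [HM_diag]
  rw [← exp_add]
  congr 1
  simp only [HE, Pi.zero_apply, zero_mul, Finset.sum_const_zero, add_zero]
  rw [Finset.sum_div, Finset.sum_div, ← Finset.sum_add_distrib]
  exact Finset.sum_congr rfl fun a _ => by ring

/-- the saddle point of a spectrum and the constant of the lower bound -/
structure Sad (lam : Vec n) (γ C : ℝ) : Prop where
  npos : 0 < n
  lt : ∀ a, lam a < γ
  sum : ∑ a, (γ - lam a)⁻¹ = n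
  low : exp (PhiS lam 0 γ) ≤ C * IS lam 0

theorem Sad.pos {lam : Vec n} {γ C : ℝ} (h : Sad lam γ C) (a : Fin n) : 0 < γ - lam a :=
  sub_pos.2 (h.lt a)

theorem Sad.one_le {lam : Vec n} {γ C : ℝ} (h : Sad lam γ C) : 1 ≤ C := by
  have h1 := (IS_le_zero h.npos h.lt).trans h.low
  have h2 := IS_pos lam 0
  by_contra hc
  push Not at hc
  nlinarith

theorem sad_of (hn : 0 < n) {lam : Vec n} {γ : ℝ} (hγ : ∀ a, lam a < γ)
    (hs : ∑ a, (γ - lam a)⁻¹ = n) (hl : ∀ a, |lam a| ≤ 3) (h2 : |γ - 1| ≤ 2) :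
    Sad lam γ (1500 * n ^ 8) := by
  refine ⟨hn, hγ, hs, ?_⟩
  have hn0 : (0 : ℝ) < n := by exact_mod_cast hn
  have h1 := IS_ge_saddle hn (yt := 0) hγ (by simpa [sadF] using hs) hl
  have h3 : F.sq (0 : Vec n) = 0 := by simp [F.sq]
  rw [h3, zero_div, add_zero, div_le_iff₀ (by positivity)] at h1
  have h4 : exp (PhiS lam 0 γ) ≤ exp (PhiS lam 0 γ - (|γ - 1| + 3 + 1) / 2) * exp 3 := by
    rw [← exp_add]
    exact exp_le_exp.2 (by linarith)
  have h5 : exp 3 ≤ 20.5 := by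
    have := exp_one_lt_d9
    have e : exp 3 = exp 1 ^ 3 := by rw [← exp_nat_mul]; norm_num
    rw [e]
    calc exp 1 ^ 3 ≤ 2.7182818286 ^ 3 := by gcongr
      _ ≤ _ := by norm_num
  have h6 := IS_pos lam 0
  calc exp (PhiS lam 0 γ) ≤ IS lam 0 * (72 * n ^ 8) * 20.5 :=
        h4.trans (mul_le_mul h1 h5 (exp_pos _).le (by positivity))
    _ = 1476 * n ^ 8 * IS lam 0 := by ring
    _ ≤ _ := by gcongr; norm_num

theorem neg_log_le {t : ℝ} (ht : t ≤ 1 / 4) : -log (1 - 2 * t) / 2 ≤ t + 2 * t ^ 2 := by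
  have h := Tail.inv_sqrt_le' ht
  have h0 : 0 < 1 - 2 * t := by linarith
  have h1 := log_le_log (by positivity) h
  rw [log_exp, log_inv, log_sqrt h0.le] at h1
  linarith

theorem Sad.mgf_le {lam : Vec n} {γ C : ℝ} (h : Sad lam γ C) {g : Vec n}
    (hg : ∀ a, g a / (γ - lam a) ≤ 1 / 4) :
    ∫ u, exp (∑ a, g a * u a ^ 2) ∂(sG lam) ≤
      C * exp (∑ a, g a / (γ - lam a) + 2 * ∑ a, (g a / (γ - lam a)) ^ 2) := by
  have hp := h.pos
  have h1 : ∀ a, lam a + 2 * g a < γ := by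
    intro a
    have := (div_le_iff₀ (hp a)).1 (hg a)
    linarith [hp a]
  have h2 := IS_le_zero h.npos h1
  have h3 : PhiS (fun a => lam a + 2 * g a) 0 γ ≤ PhiS lam 0 γ +
      (∑ a, g a / (γ - lam a) + 2 * ∑ a, (g a / (γ - lam a)) ^ 2) := by
    have h4 : ∀ a, -log (γ - (lam a + 2 * g a)) / 2 ≤ -log (γ - lam a) / 2 +
        (g a / (γ - lam a) + 2 * (g a / (γ - lam a)) ^ 2) := by
      intro a
      have h5 := neg_log_le (hg a)
      have h6 : γ - (lam a + 2 * g a) = (γ - lam a) * (1 - 2 * (g a / (γ - lam a))) := by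
        have := (hp a).ne'
        field_simp
        ring
      rw [h6, log_mul (hp a).ne' (by linarith [hg a])]
      linarith
    have h5 := Finset.sum_le_sum fun a (_ : a ∈ Finset.univ) => h4 a
    simp only [Finset.sum_add_distrib, ← Finset.sum_div, ← Finset.mul_sum,
      Finset.sum_neg_distrib] at h5
    simp only [PhiS, Pi.zero_apply, ne_eq, OfNat.ofNat_ne_zero, not_false_eq_true, zero_pow,
      zero_div, Finset.sum_const_zero, add_zero]
    linarith
  rw [mgf_sG, div_le_iff₀ (IS_pos lam 0)]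
  refine h2.trans ((exp_le_exp.2 h3).trans ?_)
  rw [exp_add]
  calc _ ≤ C * IS lam 0 * exp _ := mul_le_mul_of_nonneg_right h.low (exp_pos _).le
    _ = _ := by ring

/-- upper tail of a diagonal quadratic form -/
theorem Sad.tail {lam : Vec n} {γ C : ℝ} (h : Sad lam γ C) (g : Vec n) {V M z : ℝ} (hV : 0 < V)
    (hM : 0 ≤ M) (hz : 0 ≤ z) (h2 : ∑ a, (g a / (γ - lam a)) ^ 2 ≤ V)
    (hb : ∀ a, g a / (γ - lam a) ≤ M) :
    (sG lam).real {u | ∑ a, g a / (γ - lam a) + 2 * √(2 * V * z) + 4 * M * z ≤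
      ∑ a, g a * u a ^ 2} ≤ C * exp (-z) := by
  obtain ⟨l, h0, h1, h3⟩ := Tail.exists_par (V := 2 * V) (M := 4 * M) (by positivity)
    (by positivity) hz
  have hC := h.one_le
  refine (Tail.chernoff (sG lam) (Y := fun u => ∑ a, g a * u a ^ 2) h0
    (integrable_spM _ _ (by fun_prop)) _).trans ?_
  have e : ∀ u : Vec n, l * ∑ a, g a * u a ^ 2 = ∑ a, (l * g a) * u a ^ 2 := by
    intro u
    rw [Finset.mul_sum]
    exact Finset.sum_congr rfl fun a _ => by ring
  simp only [e]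
  have h4 := h.mgf_le (g := fun a => l * g a) (fun a => by
    have := mul_le_mul_of_nonneg_left (hb a) h0
    rw [mul_div_assoc]
    linarith)
  refine (mul_le_mul_of_nonneg_left h4 (exp_pos _).le).trans ?_
  rw [mul_left_comm, ← exp_add]
  refine mul_le_mul_of_nonneg_left (exp_le_exp.2 ?_) (by linarith)
  simp only [mul_div_assoc, mul_pow, ← Finset.mul_sum]
  have := mul_le_mul_of_nonneg_left h2 (sq_nonneg l)
  linarith

/-- lower tail of a diagonal quadratic form -/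
theorem Sad.tail_low {lam : Vec n} {γ C : ℝ} (h : Sad lam γ C) (g : Vec n) {V M z : ℝ}
    (hV : 0 < V) (hM : 0 ≤ M) (hz : 0 ≤ z) (h2 : ∑ a, (g a / (γ - lam a)) ^ 2 ≤ V)
    (hb : ∀ a, -M ≤ g a / (γ - lam a)) :
    (sG lam).real {u | ∑ a, g a * u a ^ 2 ≤
      ∑ a, g a / (γ - lam a) - 2 * √(2 * V * z) - 4 * M * z} ≤ C * exp (-z) := by
  have key := h.tail (fun a => -g a) hV hM hz (by simpa only [neg_div, neg_sq] using h2)
    (fun a => by rw [neg_div]; linarith [hb a])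
  refine (Tail.real_imp_le _ fun u hu => ?_).trans key
  simp only [neg_mul, neg_div, Finset.sum_neg_distrib]
  linarith

/-- two sided tail for nonnegative weights -/
theorem Sad.tail_abs {lam : Vec n} {γ C : ℝ} (h : Sad lam γ C) (g : Vec n) {V M z : ℝ}
    (hV : 0 < V) (hM : 0 ≤ M) (hz : 0 ≤ z) (h2 : ∑ a, (g a / (γ - lam a)) ^ 2 ≤ V)
    (hb : ∀ a, |g a / (γ - lam a)| ≤ M) :
    (sG lam).real {u | 2 * √(2 * V * z) + 4 * M * z ≤
      |∑ a, g a * u a ^ 2 - ∑ a, g a / (γ - lam a)|} ≤ 2 * (C * exp (-z)) := by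
  have h3 := h.tail g hV hM hz h2 fun a => (abs_le.1 (hb a)).2
  have h4 := h.tail_low g hV hM hz h2 fun a => (abs_le.1 (hb a)).1
  refine (Tail.real_or_le _ (q := fun u => _) (r := fun u => _) fun u hu => ?_).trans
    ((add_le_add h3 h4).trans (le_of_eq (by ring)))
  rcases le_abs.1 hu with h5 | h5
  · left; linarith
  · right; linarith

/-! ### functionals at a scale -/

/-- the gaps below the saddle point -/
def gp (lam : Vec n) (γ : ℝ) : Vec n := fun a => γ - lam a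

/-- `tr (1 / e - 1 / max e s)` -/
noncomputable def Ws (e : Vec n) (s : ℝ) : ℝ := ∑ a, ((e a)⁻¹ - (max (e a) s)⁻¹)

/-- `tr (max e s) ^ (-2)` -/
noncomputable def T2s (e : Vec n) (s : ℝ) : ℝ := ∑ a, (max (e a) s ^ 2)⁻¹

/-- `tr (s - e)₊` -/
noncomputable def F0 (e : Vec n) (s : ℝ) : ℝ := ∑ a, max (s - e a) 0

/-- `x . (s - e)₊ x` -/
noncomputable def F1 (e : Vec n) (s : ℝ) (x : Vec n) : ℝ := ∑ a, max (s - e a) 0 * x a ^ 2

/-- `x . (s - e)₊ ^ 2 x` -/
noncomputable def F2 (e : Vec n) (s : ℝ) (x : Vec n) : ℝ := ∑ a, max (s - e a) 0 ^ 2 * x a ^ 2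

/-- the soft mass `x . (s / max e s) x` of the modes below `s` -/
noncomputable def Tm (e : Vec n) (s : ℝ) (x : Vec n) : ℝ := ∑ a, s / max (e a) s * x a ^ 2

/-- the deviation at level `z` -/
noncomputable def Dv (U z : ℝ) : ℝ := 2 * √(2 * U * z) + 4 * z

theorem Dv_nonneg (U : ℝ) {z : ℝ} (hz : 0 ≤ z) : 0 ≤ Dv U z := by unfold Dv; positivity

theorem Dv_scale {β : ℝ} (hβ : 0 ≤ β) (U z : ℝ) :
    2 * √(2 * (β ^ 2 * U) * z) + 4 * β * z = β * Dv U z := by
  unfold Dv
  rw [show 2 * (β ^ 2 * U) * z = β ^ 2 * (2 * U * z) by ring, sqrt_mul (sq_nonneg β), sqrt_sq hβ]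
  ring

theorem min_div {e s : ℝ} (he : 0 < e) (hs : 0 < s) : min e s / e = s / max e s := by
  rcases le_total e s with h | h
  · rw [min_eq_left h, max_eq_right h, div_self he.ne', div_self hs.ne']
  · rw [min_eq_right h, max_eq_left h]

theorem Sad.tail_scale {lam : Vec n} {γ C : ℝ} (h : Sad lam γ C) (b : Vec n) {c β s U z : ℝ}
    (hβ : 0 < β) (hs : 0 < s) (hU : 0 < U) (hz : 0 ≤ z) (hT : s ^ 2 * T2s (gp lam γ) s ≤ U)
    (hb : ∀ a, |c - b a| ≤ β * min (gp lam γ a) s) :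
    (sG lam).real {u | β * Dv U z ≤ |∑ a, b a * u a ^ 2 - ∑ a, b a / gp lam γ a|} ≤
      2 * (C * exp (-z)) := by
  have hp : ∀ a, 0 < gp lam γ a := h.pos
  have h1 : ∀ a, |(c - b a) / (γ - lam a)| ≤ β * (s / max (gp lam γ a) s) := by
    intro a
    rw [← min_div (hp a) hs, abs_div, abs_of_pos (h.pos a), ← mul_div_assoc]
    exact div_le_div_of_nonneg_right (hb a) (h.pos a).le
  have h2 : ∀ a, s / max (gp lam γ a) s ≤ 1 := fun a =>
    (div_le_one (lt_max_of_lt_right hs)).2 (le_max_right _ _)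
  have h3 : ∑ a, ((c - b a) / (γ - lam a)) ^ 2 ≤ β ^ 2 * U := by
    refine le_trans ?_ (mul_le_mul_of_nonneg_left hT (sq_nonneg β))
    unfold T2s
    rw [Finset.mul_sum, Finset.mul_sum]
    refine Finset.sum_le_sum fun a _ => ?_
    rw [← sq_abs]
    refine (pow_le_pow_left₀ (abs_nonneg _) (h1 a) 2).trans (le_of_eq ?_)
    rw [mul_pow, div_pow, div_eq_mul_inv]
  have key := h.tail_abs (fun a => c - b a) (V := β ^ 2 * U) (M := β) (by positivity) hβ.le hz h3
    (fun a => (h1 a).trans (by nlinarith [h2 a]))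
  rw [Dv_scale hβ.le] at key
  refine le_trans (le_of_eq (measureReal_congr ?_)) key
  filter_upwards [ae_spM h.npos (diagonal lam) 0] with u hu
  have e1 : ∑ a, (c - b a) * u a ^ 2 = c * n - ∑ a, b a * u a ^ 2 := by
    rw [← hu, F.sq, Finset.mul_sum, ← Finset.sum_sub_distrib]
    exact Finset.sum_congr rfl fun a _ => by ring
  have e2 : ∑ a, (c - b a) / (γ - lam a) = c * n - ∑ a, b a / gp lam γ a := by
    rw [← h.sum, Finset.mul_sum, ← Finset.sum_sub_distrib]
    exact Finset.sum_congr rfl fun a _ => by rw [sub_div, div_eq_mul_inv c]; rfl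
  apply propext
  change _ ≤ _ ↔ _ ≤ _
  rw [e1, e2, abs_sub_comm]
  congr! 2
  ring

theorem mean_F1 {e : Vec n} (he : ∀ a, 0 < e a) {s : ℝ} (hs : 0 < s) :
    ∑ a, max (s - e a) 0 / e a = s * Ws e s := by
  unfold Ws
  rw [Finset.mul_sum]
  refine Finset.sum_congr rfl fun a _ => ?_
  have := (he a).ne'
  rcases le_total (e a) s with h | h
  · rw [max_eq_left (sub_nonneg.2 h), max_eq_right h]; field_simp
  · rw [max_eq_right (sub_nonpos.2 h), max_eq_left h]; simp

theorem mean_F2 {e : Vec n} (he : ∀ a, 0 < e a) {s : ℝ} (hs : 0 < s) :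
    ∑ a, max (s - e a) 0 ^ 2 / e a = s ^ 2 * Ws e s - F0 e s := by
  unfold Ws F0
  rw [Finset.mul_sum, ← Finset.sum_sub_distrib]
  refine Finset.sum_congr rfl fun a _ => ?_
  have := (he a).ne'
  rcases le_total (e a) s with h | h
  · rw [max_eq_left (sub_nonneg.2 h), max_eq_right h]; field_simp
  · rw [max_eq_right (sub_nonpos.2 h), max_eq_left h]; simp

theorem mean_Tm {e : Vec n} (he : ∀ a, 0 < e a) {s : ℝ} (hs : 0 < s) :
    ∑ a, s * (s / max (e a) s) / e a = s * Ws e s + s ^ 2 * T2s e s := by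
  unfold Ws T2s
  rw [Finset.mul_sum, Finset.mul_sum, ← Finset.sum_add_distrib]
  refine Finset.sum_congr rfl fun a _ => ?_
  have := (he a).ne'
  rcases le_total (e a) s with h | h
  · rw [max_eq_right h]; field_simp; ring
  · rw [max_eq_left h]; field_simp; ring

/-- the good event of the frame spins at the scale `s` -/
structure XG (e : Vec n) (s D : ℝ) (x : Vec n) : Prop where
  f1 : |F1 e s x - s * Ws e s| < D
  f2 : |F2 e s x - (s ^ 2 * Ws e s - F0 e s)| < 2 * s * D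
  tm : |s * Tm e s x - (s * Ws e s + s ^ 2 * T2s e s)| < D

theorem Sad.tail_Tm {lam : Vec n} {γ C : ℝ} (h : Sad lam γ C) {s U z : ℝ} (hs : 0 < s)
    (hU : 0 < U) (hz : 0 ≤ z) (hT : s ^ 2 * T2s (gp lam γ) s ≤ U) :
    (sG lam).real {x | Dv U z ≤ |s * Tm (gp lam γ) s x -
      (s * Ws (gp lam γ) s + s ^ 2 * T2s (gp lam γ) s)|} ≤ 2 * (C * exp (-z)) := by
  have hp : ∀ a, 0 < gp lam γ a := h.pos
  have h3 := h.tail_scale (fun a => s * (s / max (gp lam γ a) s)) (c := s) one_pos hs hU hz hT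
    (fun a => by
      rcases le_total (gp lam γ a) s with h4 | h4
      · rw [max_eq_right h4, div_self hs.ne', mul_one, sub_self, abs_zero, min_eq_left h4]
        linarith [hp a]
      · rw [max_eq_left h4, min_eq_right h4, one_mul]
        have h5 : s / gp lam γ a ≤ 1 := (div_le_one (hp a)).2 h4
        have h6 : 0 ≤ s / gp lam γ a := div_nonneg hs.le (hp a).le
        rw [abs_of_nonneg (by nlinarith)]
        nlinarith)
  rw [mean_Tm hp hs, one_mul] at h3
  simpa only [Tm, Finset.mul_sum, mul_assoc] using h3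

theorem Sad.tail_XG {lam : Vec n} {γ C : ℝ} (h : Sad lam γ C) {s U z : ℝ} (hs : 0 < s)
    (hU : 0 < U) (hz : 0 ≤ z) (hT : s ^ 2 * T2s (gp lam γ) s ≤ U) :
    (sG lam).real {x | ¬ XG (gp lam γ) s (Dv U z) x} ≤ 6 * (C * exp (-z)) := by
  have hp : ∀ a, 0 < gp lam γ a := h.pos
  have h1 := h.tail_scale (fun a => max (s - gp lam γ a) 0) (c := s) one_pos hs hU hz hT
    (fun a => by
      rcases le_total (gp lam γ a) s with h4 | h4
      · rw [max_eq_left (sub_nonneg.2 h4), min_eq_left h4, sub_sub_cancel, one_mul,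
          abs_of_pos (hp a)]
      · rw [max_eq_right (sub_nonpos.2 h4), min_eq_right h4, sub_zero, one_mul, abs_of_pos hs])
  have h2 := h.tail_scale (fun a => max (s - gp lam γ a) 0 ^ 2) (c := s ^ 2) (β := 2 * s)
    (by positivity) hs hU hz hT (fun a => by
      have := hp a
      rcases le_total (gp lam γ a) s with h4 | h4
      · rw [max_eq_left (sub_nonneg.2 h4), min_eq_left h4, abs_of_nonneg (by nlinarith)]
        nlinarith
      · rw [max_eq_right (sub_nonpos.2 h4), min_eq_right h4, abs_of_nonneg (by nlinarith)]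
        nlinarith)
  have h3 := h.tail_Tm hs hU hz hT
  rw [mean_F1 hp hs, one_mul] at h1
  rw [mean_F2 hp hs] at h2
  refine (Tail.real_or_le _ (q := fun x => _) (r := fun x => _ ∨ _) fun x hx => ?_).trans
    ((add_le_add h1 ((Tail.real_or_le _ (q := fun x => _) (r := fun x => _)
      fun x hx => hx).trans (add_le_add h2 h3))).trans (le_of_eq (by ring)))
  by_contra hc
  push Not at hc
  exact hx ⟨hc.1, hc.2.1, hc.2.2⟩

theorem measurableSet_XG (e : Vec n) (s D : ℝ) : MeasurableSet {x | XG e s D x} := by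
  have e1 : {x | XG e s D x} = {x | |F1 e s x - s * Ws e s| < D} ∩
      ({x | |F2 e s x - (s ^ 2 * Ws e s - F0 e s)| < 2 * s * D} ∩
        {x | |s * Tm e s x - (s * Ws e s + s ^ 2 * T2s e s)| < D}) :=
    Set.ext fun x => ⟨fun h => ⟨h.1, h.2, h.3⟩, fun h => ⟨h.1, h.2.1, h.2.2⟩⟩
  rw [e1]
  unfold F1 F2 Tm
  exact (measurableSet_lt (by fun_prop) measurable_const).inter
    ((measurableSet_lt (by fun_prop) measurable_const).inter
      (measurableSet_lt (by fun_prop) measurable_const))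

theorem Tm_nonneg (e : Vec n) {s : ℝ} (hs : 0 < s) (x : Vec n) : 0 ≤ Tm e s x :=
  Finset.sum_nonneg fun a _ => by
    have h : 0 < max (e a) s := lt_max_of_lt_right hs
    positivity

/-- the mass of the modes below `s` -/
theorem mass_le_Tm (e : Vec n) {s : ℝ} (hs : 0 < s) (x : Vec n) (S : Finset (Fin n))
    (hS : ∀ a ∈ S, e a ≤ s) : ∑ a ∈ S, x a ^ 2 ≤ Tm e s x := by
  have h1 : ∑ a ∈ S, x a ^ 2 = ∑ a ∈ S, s / max (e a) s * x a ^ 2 :=
    Finset.sum_congr rfl fun a ha => by rw [max_eq_right (hS a ha), div_self hs.ne', one_mul]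
  rw [h1]
  refine Finset.sum_le_sum_of_subset_of_nonneg (Finset.subset_univ _) fun a _ _ => ?_
  have h : 0 < max (e a) s := lt_max_of_lt_right hs
  positivity

theorem card_le_T2s (e : Vec n) {s : ℝ} (hs : 0 < s) (S : Finset (Fin n))
    (hS : ∀ a ∈ S, e a ≤ s) : (S.card : ℝ) ≤ s ^ 2 * T2s e s := by
  have h1 : (S.card : ℝ) = ∑ a ∈ S, s ^ 2 * (max (e a) s ^ 2)⁻¹ := by
    rw [Finset.card_eq_sum_ones]
    push_cast
    exact Finset.sum_congr rfl fun a ha => by
      rw [max_eq_right (hS a ha), mul_inv_cancel₀ (by positivity)]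
  rw [h1, T2s, Finset.mul_sum]
  exact Finset.sum_le_sum_of_subset_of_nonneg (Finset.subset_univ _) fun a _ _ => by positivity

/-! ### spectral input -/

open Edge

/-- the spectral input at the scale `s` -/
structure Spec (e : Vec n) (ε s : ℝ) : Prop where
  w : |Ws e s - 2 * c0 * (n * √s)| ≤ ε * (n * √s)
  t : s ^ 2 * T2s e s ≤ 2 * (n * (s * √s))

theorem Spec.mono {e : Vec n} {ε ε' s : ℝ} (h : Spec e ε s) (hε : ε ≤ ε') : Spec e ε' s :=
  ⟨h.w.trans (mul_le_mul_of_nonneg_right hε (by positivity)), h.t⟩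

theorem trC_one_shift (lam : Vec n) {r x : ℝ} (hr : 0 < r) (hx : -(r / 2) ≤ x) :
    |trC 1 lam r x - trC 1 lam r 0| ≤ 2 * |x| * trC 2 lam r 0 := by
  unfold trC
  rw [← Finset.sum_sub_distrib, Finset.mul_sum]
  refine (Finset.abs_sum_le_sum_abs _ _).trans (Finset.sum_le_sum fun a _ => ?_)
  have h1 : r ≤ max (2 - lam a) r := le_max_right _ _
  set m := max (2 - lam a) r
  have h2 : 0 < m := by linarith
  have h3 : 0 < m + x := by linarith
  have e : ((m + x) ^ 1)⁻¹ - ((m + 0) ^ 1)⁻¹ = -x / (m * (m + x)) := by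
    rw [add_zero]; field_simp; ring
  rw [e, abs_div, abs_neg, abs_of_pos (mul_pos h2 h3), add_zero, ← div_eq_mul_inv,
    div_le_div_iff₀ (mul_pos h2 h3) (by positivity)]
  have := mul_nonneg (mul_nonneg (abs_nonneg x) h2.le) (by linarith : 0 ≤ m + 2 * x)
  nlinarith

theorem max_gp (lam : Vec n) (η s : ℝ) (a : Fin n) :
    max (gp lam (2 + η) a) s = max (2 - lam a) (s - η) + η := by
  rw [← max_add_add_right]
  unfold gp
  congr 1 <;> ring

theorem sqrt_near {s r : ℝ} (hs0 : 0 < s) (r1 : 9 / 10 * s ≤ r) (r2 : r ≤ 11 / 10 * s) :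
    47 / 50 * √s ≤ √r ∧ √r ≤ 21 / 20 * √s ∧ |√r - √s| * √s ≤ |s - r| := by
  have r0 : 0 < r := by linarith
  have q0 : 0 < √s := sqrt_pos.2 hs0
  have p0 : 0 < √r := sqrt_pos.2 r0
  have qq : √s ^ 2 = s := sq_sqrt hs0.le
  have pp : √r ^ 2 = r := sq_sqrt r0.le
  refine ⟨?_, ?_, ?_⟩
  · apply le_sqrt_of_sq_le; rw [mul_pow, qq]; linarith
  · rw [sqrt_le_left (by positivity), mul_pow, qq]; linarith
  · have a2 : s - r = -((√r - √s) * (√r + √s)) := by linarith [qq, pp]
    rw [a2, abs_neg, abs_mul, abs_of_pos (by positivity : 0 < √r + √s)]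
    exact mul_le_mul_of_nonneg_left (by linarith) (abs_nonneg _)

theorem trC_two_near {w : ℝ} {lam : Vec n} (h : Rigid w lam) (hn : 0 < n) (hw : 0 < w)
    (hk : Edge.kap w ≤ 1 / 100) {r s : ℝ} (hs : 20 * sc0 n w ≤ s) (hs1 : s ≤ 1 / 16)
    (r1 : 9 / 10 * s ≤ r) (r2 : r ≤ 11 / 10 * s) : trC 2 lam r 0 ≤ 7 / 5 * (n / √s) := by
  have h0 := sc0_pos hn hw
  have hs0 : 0 < s := by linarith
  have hn0 : (0 : ℝ) < n := by exact_mod_cast hn
  obtain ⟨p1, p2, -⟩ := sqrt_near hs0 r1 r2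
  have q0 : 0 < √s := sqrt_pos.2 hs0
  have p0 : 0 < √r := by linarith
  have q1 : √s ≤ 1 / 4 := by rw [sqrt_le_left (by norm_num)]; linarith
  have t2 := (abs_le.1 (h.trC_two hn hw (r := r) (by linarith) (by linarith))).2
  have hc := c0_le
  have a1 : n / √r ≤ 50 / 47 * (n / √s) := by
    rw [← mul_div_assoc, div_le_div_iff₀ p0 q0]
    have := mul_le_mul_of_nonneg_left p1 hn0.le
    linarith
  have a2 : 0 ≤ n / √r := by positivity
  have a3 : trC 2 lam r 0 ≤ (4 * c0 + √r + 20 * Edge.kap w) * (n / √r) := by linarith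
  have a4 : 4 * c0 + √r + 20 * Edge.kap w ≤ 1.312 := by linarith
  have a5 := mul_le_mul_of_nonneg_right a4 a2
  have a6 : 0 ≤ n / √s := by positivity
  linarith

theorem Ws_eq {lam : Vec n} {η : ℝ} (he : trR 1 lam η = n) (s : ℝ) :
    Ws (gp lam (2 + η)) s = n - trC 1 lam (s - η) η := by
  unfold Ws trC
  rw [Finset.sum_sub_distrib, ← he]
  unfold trR
  simp only [pow_one, max_gp]
  congr 1
  exact Finset.sum_congr rfl fun a _ => by unfold gp; congr 1; ring

theorem T2s_eq (lam : Vec n) (η s : ℝ) : T2s (gp lam (2 + η)) s = trC 2 lam (s - η) η := by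
  unfold T2s trC
  simp only [max_gp]

theorem div_sqrt_eq (c : ℝ) {s : ℝ} (hs : 0 < s) : c / √s = c * √s / s := by
  rw [div_eq_div_iff (sqrt_pos.2 hs).ne' hs.ne', mul_assoc, mul_self_sqrt hs.le]

theorem spec_w {w : ℝ} {lam : Vec n} (h : Rigid w lam) (hn : 0 < n) (hw : 0 < w)
    (hk : Edge.kap w ≤ 1 / 100) {η s : ℝ} (hη : |η| ≤ 2 * sc0 n w)
    (hs : 20 * sc0 n w ≤ s) (hs1 : s ≤ 1 / 16) :
    |n - trC 1 lam (s - η) η - 2 * c0 * (n * √s)| ≤
      (7 * (sc0 n w / s) + s / 8 + 11 * Edge.kap w) * (n * √s) := by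
  have h0 := sc0_pos hn hw
  have hk0 := kap_pos hw
  have hn0 : (0 : ℝ) < n := by exact_mod_cast hn
  obtain ⟨hη1, hη2⟩ := abs_le.1 hη
  have hs0 : 0 < s := by linarith
  have r1 : 9 / 10 * s ≤ s - η := by linarith
  have r2 : s - η ≤ 11 / 10 * s := by linarith
  have t3 := trC_two_near h hn hw hk hs hs1 r1 r2
  obtain ⟨p1, p2, p3⟩ := sqrt_near hs0 r1 r2
  rw [sub_sub_cancel] at p3
  have t1 := h.trC_one hn hw (r := s - η) (by linarith) (by linarith)
  have t4 := trC_one_shift lam (r := s - η) (by linarith) (x := η) (by linarith)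
  have t0 := trC_nonneg 2 lam (r := s - η) (x := 0) (by linarith)
  generalize s - η = r at *
  have q0 : 0 < √s := sqrt_pos.2 hs0
  have hc := c0_le
  have hc0 := c0_pos
  have t5 : 2 * |η| * trC 2 lam r 0 ≤ 28 / 5 * (sc0 n w / s * (n * √s)) := by
    calc _ ≤ 2 * (2 * sc0 n w) * (7 / 5 * (n / √s)) :=
          mul_le_mul (by linarith) t3 t0 (by positivity)
      _ = _ := by rw [div_sqrt_eq _ hs0]; ring
  have t6 : |√r - √s| ≤ 2 * (sc0 n w / s) * √s := by
    have a3 : 2 * (sc0 n w / s) * √s * √s = 2 * sc0 n w := by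
      rw [mul_assoc, mul_self_sqrt hs0.le]; field_simp
    exact le_of_mul_le_mul_right (by linarith) q0
  have a1 : 0 ≤ sc0 n w / s * (n * √s) := by positivity
  have t7 : |2 * c0 * (n * (√r - √s))| ≤ (sc0 n w / s) * (n * √s) := by
    rw [abs_mul, abs_mul (n : ℝ), abs_of_pos hn0, abs_of_pos (by positivity : 0 < 2 * c0)]
    have := mul_le_mul_of_nonneg_right hc a1
    calc 2 * c0 * (n * |√r - √s|) ≤ 2 * c0 * (n * (2 * (sc0 n w / s) * √s)) := by gcongr
      _ = 4 * (c0 * (sc0 n w / s * (n * √s))) := by ring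
      _ ≤ _ := by linarith
  have t8 : (r / 16 + 10 * Edge.kap w) * (n * √r) ≤ (s / 8 + 11 * Edge.kap w) * (n * √s) := by
    calc _ ≤ (11 / 10 * s / 16 + 10 * Edge.kap w) * (n * (21 / 20 * √s)) := by gcongr
      _ = (231 / 3200 * s + 21 / 2 * Edge.kap w) * (n * √s) := by ring
      _ ≤ _ := mul_le_mul_of_nonneg_right (by linarith) (by positivity)
  obtain ⟨b1, b2⟩ := abs_le.1 t1
  obtain ⟨b3, b4⟩ := abs_le.1 t4
  obtain ⟨b5, b6⟩ := abs_le.1 t7
  rw [abs_le]
  constructor <;> linarith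

theorem spec_of_rigid {w : ℝ} {lam : Vec n} (h : Rigid w lam) (hn : 0 < n) (hw : 0 < w)
    (hk : Edge.kap w ≤ 1 / 100) {η s : ℝ} (hη : |η| ≤ 2 * sc0 n w) (he : trR 1 lam η = n)
    (hs : 20 * sc0 n w ≤ s) (hs1 : s ≤ 1 / 16) :
    Spec (gp lam (2 + η)) (7 * (sc0 n w / s) + s / 8 + 11 * Edge.kap w) s := by
  refine ⟨by rw [Ws_eq he]; exact spec_w h hn hw hk hη hs hs1, ?_⟩
  have h0 := sc0_pos hn hw
  obtain ⟨hη1, hη2⟩ := abs_le.1 hη
  have hs0 : 0 < s := by linarith
  have t3 := trC_two_near h hn hw hk hs hs1 (r := s - η) (by linarith) (by linarith)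
  have t4 := trC_le_scale 2 lam (r := s - η) (x := η) (θ := 1 / 9) (by linarith) (by norm_num)
    (by norm_num) (by linarith)
  have e2 : 2 * (n * (s * √s)) = s ^ 2 * (2 * (n / √s)) := by
    rw [div_sqrt_eq _ hs0]; field_simp
  rw [T2s_eq, e2]
  refine mul_le_mul_of_nonneg_left (t4.trans ?_) (sq_nonneg s)
  have a6 : 0 ≤ n / √s := by positivity
  rw [div_le_iff₀ (by norm_num)]
  linarith

/-- saddle data of a rigid spectrum -/
theorem exists_sad {w : ℝ} {lam : Vec n} (h : Rigid w lam) (hn : 0 < n) (hw : 0 < w)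
    (hk : Edge.kap w ≤ 1 / 100) (hs : sc0 n w ≤ 1 / 4) :
    ∃ η, |η| ≤ 2 * sc0 n w ∧ Sad lam (2 + η) (1500 * n ^ 8) ∧ ∀ s, 20 * sc0 n w ≤ s →
      s ≤ 1 / 16 → Spec (gp lam (2 + η)) (7 * (sc0 n w / s) + s / 8 + 11 * Edge.kap w) s := by
  obtain ⟨η, h1, h2, h3, h4⟩ := h.exists_gamma hn hw hk hs
  have h0 := sc0_pos hn hw
  have hn0 : (0 : ℝ) < (n : ℝ)⁻¹ := by positivity
  have h5 : |η| ≤ 2 * sc0 n w := abs_le.2 ⟨by linarith, h4⟩
  refine ⟨η, h5, sad_of hn (fun a => by linarith [h1 a]) ?_ (fun a => ?_) ?_,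
    fun s a1 a2 => spec_of_rigid h hn hw hk h5 h2 a1 a2⟩
  · rw [← h2]
    unfold trR
    exact Finset.sum_congr rfl fun a _ => by rw [pow_one]; congr 1; ring
  · exact abs_le.2 ⟨by linarith [h.eps_le a], by linarith [h.le_eps a]⟩
  · exact abs_le.2 ⟨by linarith, by linarith⟩

/-- the mass of the low modes at any level -/
theorem Sad.tail_mass {lam : Vec n} {γ C : ℝ} (h : Sad lam γ C) {s z ζ : ℝ} (hs : 0 < s)
    (hS : Spec (gp lam γ) 1 s) (hz : 0 ≤ z) (hζ : z ≤ ζ * (n * (s * √s))) :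
    (sG lam).real {x | (6 + 6 * ζ) * (n * √s) < Tm (gp lam γ) s x} ≤ 2 * (C * exp (-z)) := by
  have hn0 : (0 : ℝ) < n := by exact_mod_cast h.npos
  have q0 : 0 < √s := sqrt_pos.2 hs
  set u := n * (s * √s) with hu
  have u0 : 0 < u := by positivity
  have hζ0 : 0 ≤ ζ := by
    by_contra hc
    push Not at hc
    nlinarith
  refine (Tail.real_imp_le _ fun x hx => ?_).trans
    (h.tail_Tm hs (U := 2 * u) (by positivity) hz hS.t)
  refine le_trans ?_ (le_abs_self _)
  have a1 : √(2 * (2 * u) * z) ≤ (1 + ζ) * u := by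
    rw [sqrt_le_left (by positivity)]
    have := mul_le_mul_of_nonneg_left hζ u0.le
    nlinarith [sq_nonneg ((1 - ζ) * u)]
  have a2 : s * Ws (gp lam γ) s ≤ (2 * c0 + 1) * u := by
    have := mul_le_mul_of_nonneg_left (abs_le.1 hS.w).2 hs.le
    rw [hu]
    linarith
  have a3 : (6 + 6 * ζ) * u ≤ s * Tm (gp lam γ) s x := by
    have := mul_le_mul_of_nonneg_left hx.le hs.le
    rw [hu]
    linarith
  have a4 := mul_le_mul_of_nonneg_right c0_le u0.le
  have a5 := hS.t
  unfold Dv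
  linarith

/-- event `E0`: the mass of the modes with `2 - lam ≤ s - 2 s₀` at level `z ≤ 6 n s ^ (3/2)` -/
theorem early_mass {w : ℝ} {lam : Vec n} (h : Rigid w lam) (hn : 0 < n) (hw : 0 < w)
    (hk : Edge.kap w ≤ 1 / 100) {s z : ℝ} (hs : 20 * sc0 n w ≤ s) (hs1 : s ≤ 1 / 16) (hz : 0 ≤ z)
    (hζ : z ≤ 6 * (n * (s * √s))) (S : Finset (Fin n))
    (hS : ∀ a ∈ S, 2 - lam a ≤ s - 2 * sc0 n w) :
    (sG lam).real {x | 42 * (n * √s) < ∑ a ∈ S, x a ^ 2} ≤ 3000 * n ^ 8 * exp (-z) := by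
  have h0 := sc0_pos hn hw
  have hs0 : 0 < s := by linarith
  obtain ⟨η, h1, h2, h3⟩ := exists_sad h hn hw hk (by linarith)
  have h4 : sc0 n w / s ≤ 1 / 20 := by rw [div_le_iff₀ hs0]; linarith
  have h5 := h2.tail_mass hs0 ((h3 s hs hs1).mono (by linarith)) hz hζ
  refine (Tail.real_imp_le _ fun x hx => ?_).trans (h5.trans (le_of_eq (by ring)))
  have h6 := mass_le_Tm (gp lam (2 + η)) hs0 x S fun a ha => by
    have := hS a ha
    have := (abs_le.1 h1).2
    unfold gp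
    linarith
  linarith

end Vale.Agent.N150.Path
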