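import Mathlib
import Vale.Agent.N150.SphAnn
import Vale.Agent.N150.SphLow

/-! Upper bounds for spherical integrals of rank one and two. -/

open MeasureTheory ProbabilityTheory Matrix
open scoped ENNReal

namespace Vale.Agent.N150.Sp

open Vale.Agent.P150 Vale.Agent.P150.F

variable {n : ℕ}

/-- Jensen's inequality for the exponential -/
theorem jensen_exp {α : Type*} [MeasurableSpace α] {μ : Measure α} [IsProbabilityMeasure μ]
    {f : α → ℝ} (hf : Integrable f μ) :
    ENNReal.ofReal (Real.exp (∫ a, f a ∂μ)) ≤ ∫⁻ a, ENNReal.ofReal (Real.exp (f a)) ∂μ := by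
  set m := ∫ a, f a ∂μ with hm
  set h : α → ℝ := fun a => Real.exp m * (1 + (f a - m)) with hh
  have hi : Integrable h μ := ((integrable_const 1).add (hf.sub (integrable_const m))).const_mul _
  have h1 : ∫ a, h a ∂μ = Real.exp m := by
    have i1 : Integrable (fun a => f a - m) μ := hf.sub (integrable_const m)
    rw [hh, integral_const_mul, integral_add (integrable_const 1) i1,
      integral_sub hf (integrable_const m)]
    simp [hm]
  have h2 : ∫ a, h a ∂μ ≤ ∫ a, max (h a) 0 ∂μ :=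
    integral_mono hi hi.pos_part fun a => le_max_left _ _
  calc ENNReal.ofReal (Real.exp m) ≤ ENNReal.ofReal (∫ a, max (h a) 0 ∂μ) :=
        ENNReal.ofReal_le_ofReal (h1 ▸ h2)
    _ = ∫⁻ a, ENNReal.ofReal (max (h a) 0) ∂μ :=
        ofReal_integral_eq_lintegral_ofReal hi.pos_part (ae_of_all _ fun a => le_max_right _ _)
    _ ≤ _ := by
        refine lintegral_mono fun a => ENNReal.ofReal_le_ofReal (max_le ?_ (Real.exp_pos _).le)
        have h3 := Real.add_one_le_exp (f a - m)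
        have h4 : Real.exp (f a) = Real.exp m * Real.exp (f a - m) := by
          rw [← Real.exp_add]; congr 1; ring
        rw [h4, hh]
        exact mul_le_mul_of_nonneg_left (by linarith) (Real.exp_pos _).le

theorem abs_sum_le (y u : Vec n) : |∑ a, y a * u a| ≤ √(F.sq y * F.sq u) :=
  Real.abs_le_sqrt (Finset.sum_mul_sq_le_sq_mul_sq _ y u)

theorem ip_sq_le (y u : Vec n) : ip y u ^ 2 ≤ F.sq y * F.sq u :=
  Finset.sum_mul_sq_le_sq_mul_sq _ y u

theorem HE_smul (lam yt u : Vec n) (t : ℝ) :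
    HE lam yt (t • u) = t ^ 2 * ((∑ a, lam a * u a ^ 2) / 2) + t * ∑ a, yt a * u a := by
  unfold HE
  rw [← mul_div_assoc, Finset.mul_sum, Finset.mul_sum]
  congr 1
  · congr 1
    exact Finset.sum_congr rfl fun a _ => by simp only [Pi.smul_apply, smul_eq_mul]; ring
  · exact Finset.sum_congr rfl fun a _ => by simp only [Pi.smul_apply, smul_eq_mul]; ring

theorem tilt_exp_eq (lam yt g : Vec n) (γ : ℝ) :
    ∑ a, ((1 - (γ - lam a)) * g a ^ 2 / 2 + yt a * g a) = (1 - γ) * F.sq g / 2 + HE lam yt g := by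
  unfold HE F.sq
  rw [Finset.mul_sum, Finset.sum_div, Finset.sum_div, ← Finset.sum_add_distrib,
    ← Finset.sum_add_distrib]
  exact Finset.sum_congr rfl fun a _ => by ring

theorem lint_exp_HE (lam yt : Vec n) {ρ : ℝ} (hρ : 0 ≤ ρ) :
    ∫⁻ u, ENNReal.ofReal (Real.exp (HE lam yt u)) ∂(sph n ρ) =
      ENNReal.ofReal (∫ u, Real.exp (HE lam yt u) ∂(sph n ρ)) :=
  (ofReal_integral_eq_lintegral_ofReal (integrable_exp_HE lam yt hρ)
    (ae_of_all _ fun _ => (Real.exp_pos _).le)).symm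

/-- the tilted Gaussian integral of a function of the length and the direction -/
theorem tilt_polar (hn : 0 < n) {lam : Vec n} (yt : Vec n) {γ : ℝ} (hγ : ∀ a, lam a < γ)
    {K : ℝ × Vec n → ℝ≥0∞} (hK : Measurable K) :
    ∫⁻ u, ∫⁻ g : Vec n, ENNReal.ofReal (Real.exp ((1 - γ) * F.sq g / 2 +
        HE lam yt (√(F.sq g / n) • u))) * K (F.sq g, u) ∂(gpi (Fin n)) ∂(sph n n) =
      ENNReal.ofReal (Real.exp (PhiS lam yt γ - n * (γ - 1) / 2)) *
        ∫⁻ g, K (F.sq (aff (fun a => γ - lam a) yt g), rp n (aff (fun a => γ - lam a) yt g))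
          ∂(gpi (Fin n)) := by
  have hn' : (0 : ℝ) < n := by exact_mod_cast hn
  have hG : Measurable fun g : Vec n => K (F.sq g, rp n g) :=
    hK.comp (measurable_sq.prodMk (measurable_rp _))
  have h1 := lintegral_tilt (w := fun a => γ - lam a) yt (fun a => sub_pos.2 (hγ a)) hG
  have e : PhiS lam yt γ - n * (γ - 1) / 2 =
      -(∑ a, Real.log (γ - lam a)) / 2 + (∑ a, yt a ^ 2 / (γ - lam a)) / 2 := by
    unfold PhiS
    ring
  rw [e, ← h1]
  simp only [tilt_exp_eq]
  have hHE : Measurable (HE lam yt) := (continuous_HE lam yt).measurable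
  set K' : ℝ × Vec n → ℝ≥0∞ := fun p => ENNReal.ofReal (Real.exp ((1 - γ) * p.1 / 2 +
    HE lam yt (√(p.1 / n) • p.2))) * K p with hK'
  have hm : Measurable K' := by
    refine Measurable.mul ?_ hK
    refine (Real.measurable_exp.comp (Measurable.add (by fun_prop)
      (hHE.comp (by fun_prop)))).ennreal_ofReal
  have h2 := lintegral_indep hn hn' hm
  simp only [hK'] at h2
  rw [← h2]
  refine lintegral_congr fun g => ?_
  rw [smul_rp (div_nonneg (sq_nonneg' g) hn'.le), div_mul_cancel₀ _ hn'.ne', rp_self]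

/-- **rank one upper bound with a test function of the direction**, no polynomial loss -/
theorem sph_le_test (hn : 0 < n) {lam : Vec n} (yt : Vec n) {γ : ℝ} (hγ : ∀ a, lam a < γ)
    {G : Vec n → ℝ≥0∞} (hG : Measurable G) :
    ∫⁻ u, ENNReal.ofReal (Real.exp (HE lam yt u)) * G u ∂(sph n n) ≤
      ENNReal.ofReal (Real.exp (PhiS lam yt γ + √(F.sq yt / n))) *
        ∫⁻ g, G (rp n (aff (fun a => γ - lam a) yt g)) ∂(gpi (Fin n)) := by
  have hn' : (0 : ℝ) < n := by exact_mod_cast hn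
  have h1 := tilt_polar hn yt hγ (K := fun p => G p.2) (hG.comp measurable_snd)
  set c : ℝ := n * (γ - 1) / 2 + √(F.sq yt / n) with hc
  have e : PhiS lam yt γ + √(F.sq yt / n) = c + (PhiS lam yt γ - n * (γ - 1) / 2) := by
    rw [hc]; ring
  rw [e, Real.exp_add, ENNReal.ofReal_mul (Real.exp_pos _).le, mul_assoc, ← h1,
    ← lintegral_const_mul' _ _ ENNReal.ofReal_ne_top]
  refine lintegral_mono_ae ?_
  filter_upwards [ae_sph hn hn'.le] with u hu
  set A : ℝ := (∑ a, lam a * u a ^ 2) / 2 with hA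
  set B : ℝ := ∑ a, yt a * u a with hB
  have e2 : ∀ g : Vec n, (1 - γ) * F.sq g / 2 + HE lam yt (√(F.sq g / n) • u) =
      ((1 - γ) / 2 + A / n) * F.sq g + B * √(F.sq g / n) := by
    intro g
    rw [HE_smul, Real.sq_sqrt (div_nonneg (sq_nonneg' g) hn'.le)]
    ring
  simp only [e2]
  have i1 : Integrable (fun g : Vec n => ((1 - γ) / 2 + A / n) * F.sq g) (gpi (Fin n)) :=
    integrable_sq.const_mul _
  have i2 : Integrable (fun g : Vec n => B * √(F.sq g / n)) (gpi (Fin n)) :=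
    (integrable_sqrt_sq _).const_mul _
  have hj := jensen_exp (i1.add i2)
  simp only [Pi.add_apply] at hj
  rw [integral_add i1 i2, integral_const_mul, integral_const_mul, integral_sq] at hj
  rw [lintegral_mul_const _ (by fun_prop), ← mul_assoc]
  refine mul_le_mul_left (le_trans ?_ (mul_le_mul_right hj _)) _
  rw [← ENNReal.ofReal_mul (Real.exp_pos _).le, ← Real.exp_add]
  refine ENNReal.ofReal_le_ofReal (Real.exp_le_exp.2 ?_)
  obtain ⟨k1, k2⟩ := integral_sqrt_sq hn
  set κ := ∫ g : Vec n, √(F.sq g / n) ∂(gpi (Fin n))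
  have hB1 : |B| ≤ n * √(F.sq yt / n) := by
    refine (abs_sum_le yt u).trans (le_of_eq ?_)
    rw [hu, show F.sq yt * n = (n : ℝ) ^ 2 * (F.sq yt / n) by field_simp,
      Real.sqrt_mul (sq_nonneg _), Real.sqrt_sq hn'.le]
  have h3 : B * (1 - κ) ≤ √(F.sq yt / n) := by
    calc B * (1 - κ) ≤ |B| * (1 - κ) := mul_le_mul_of_nonneg_right (le_abs_self B) (by linarith)
      _ ≤ (n * √(F.sq yt / n)) * (1 / n) :=
          mul_le_mul hB1 (by linarith) (by linarith) (by positivity)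
      _ = _ := by field_simp
  have h4 : ((1 - γ) / 2 + A / n) * n = (1 - γ) * n / 2 + A := by field_simp
  have h5 : HE lam yt u = A + B := rfl
  rw [h4, h5, hc]
  linarith

/-- **rank one upper bound** -/
theorem IS_le (hn : 0 < n) {lam : Vec n} (yt : Vec n) {γ : ℝ} (hγ : ∀ a, lam a < γ) :
    IS lam yt ≤ Real.exp (PhiS lam yt γ + √(F.sq yt / n)) := by
  have h := sph_le_test hn yt hγ (G := fun _ => 1) measurable_const
  simp only [mul_one, lintegral_const, measure_univ] at h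
  rw [lint_exp_HE lam yt (Nat.cast_nonneg n)] at h
  exact (ENNReal.ofReal_le_ofReal_iff (Real.exp_pos _).le).1 h

theorem IS_zero_le (hn : 0 < n) {lam : Vec n} {γ : ℝ} (hγ : ∀ a, lam a < γ) :
    IS lam 0 ≤ Real.exp (PhiS lam 0 γ) := by
  have h := IS_le hn 0 hγ
  simpa [F.sq] using h

/-- **rank one upper bound with a test function on a thin shell** -/
theorem sph_le_shell (hn : 0 < n) {lam : Vec n} (yt : Vec n) {γ B : ℝ} (hγ : ∀ a, lam a < γ)
    (hl : ∀ a, |lam a| ≤ B) {G : Vec n → ℝ≥0∞} (hG : Measurable G) :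
    ∫⁻ u, ENNReal.ofReal (Real.exp (HE lam yt u)) * G u ∂(sph n n) ≤
      ENNReal.ofReal (72 * n ^ 8 *
          Real.exp (PhiS lam yt γ + (|γ - 1| + B + F.sq yt / n + 1) / 2)) *
        ∫⁻ g, {x : Vec n | n - 1 < F.sq x ∧ F.sq x ≤ n + 1}.indicator (fun x => G (rp n x))
          (aff (fun a => γ - lam a) yt g) ∂(gpi (Fin n)) := by
  have hn' : (0 : ℝ) < n := by exact_mod_cast hn
  have hn1 : (1 : ℝ) ≤ n := by exact_mod_cast hn
  set I : Set ℝ := Set.Ioc ((n : ℝ) - 1) (n + 1) with hI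
  have hK : Measurable fun p : ℝ × Vec n => I.indicator (1 : ℝ → ℝ≥0∞) p.1 * G p.2 :=
    ((measurable_one.indicator measurableSet_Ioc).comp measurable_fst).mul
      (hG.comp measurable_snd)
  have h1 := tilt_polar hn yt hγ hK
  have e0 : ∀ x : Vec n, {x : Vec n | n - 1 < F.sq x ∧ F.sq x ≤ n + 1}.indicator
      (fun x => G (rp n x)) x = I.indicator (1 : ℝ → ℝ≥0∞) (F.sq x) * G (rp n x) := by
    intro x
    by_cases hx : n - 1 < F.sq x ∧ F.sq x ≤ n + 1
    · rw [Set.indicator_of_mem (s := {x : Vec n | n - 1 < F.sq x ∧ F.sq x ≤ n + 1}) hx,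
        Set.indicator_of_mem (show F.sq x ∈ I from hx)]
      simp
    · rw [Set.indicator_of_notMem (s := {x : Vec n | n - 1 < F.sq x ∧ F.sq x ≤ n + 1}) hx,
        Set.indicator_of_notMem (show F.sq x ∉ I from hx)]
      simp
  simp only [e0]
  set D : ℝ := (|γ - 1| + B + F.sq yt / n + 1) / 2 with hD
  have e : 72 * n ^ 8 * Real.exp (PhiS lam yt γ + D) = (72 * n ^ 8 *
      Real.exp (n * (γ - 1) / 2 + D)) * Real.exp (PhiS lam yt γ - n * (γ - 1) / 2) := by
    rw [mul_assoc (72 * (n : ℝ) ^ 8), ← Real.exp_add]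
    congr 2
    ring
  rw [e, ENNReal.ofReal_mul (by positivity), mul_assoc, ← h1,
    ← lintegral_const_mul' _ _ ENNReal.ofReal_ne_top]
  refine lintegral_mono_ae ?_
  filter_upwards [ae_sph hn hn'.le] with u hu
  set S : Set (Vec n) := {g | n - 1 < F.sq g ∧ F.sq g ≤ n + 1} with hS
  have hSm : MeasurableSet S := measurable_sq measurableSet_Ioc
  have hsh : ENNReal.ofReal (1 / (72 * n ^ 8)) ≤ gpi (Fin n) S := by
    have h := shell_ge hn (0 : Vec n) (fun _ => 1) (N := n) (h := 1) (by simp) one_pos hn1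
    have e1 : ∀ g : Vec n, afm (0 : Vec n) (fun _ => 1) g = g := by
      intro g
      funext a
      simp [afm]
    simp only [e1] at h
    rw [show (1 : ℝ) ^ 6 / (72 * n ^ 2 * n ^ 6) = 1 / (72 * n ^ 8) by ring] at h
    exact (ENNReal.ofReal_le_iff_le_toReal (measure_ne_top _ _)).2 h
  have h2 : ENNReal.ofReal (Real.exp (HE lam yt u - (n * (γ - 1) / 2 + D))) * G u *
      gpi (Fin n) S ≤ ∫⁻ g : Vec n, ENNReal.ofReal (Real.exp ((1 - γ) * F.sq g / 2 +
        HE lam yt (√(F.sq g / n) • u))) * (I.indicator (1 : ℝ → ℝ≥0∞) (F.sq g) * G u)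
          ∂(gpi (Fin n)) := by
    rw [← lintegral_indicator_one hSm, ← lintegral_const_mul _ (measurable_one.indicator hSm)]
    refine lintegral_mono fun g => ?_
    by_cases hg : g ∈ S
    · rw [Set.indicator_of_mem hg, Set.indicator_of_mem (show F.sq g ∈ I from hg)]
      simp only [Pi.one_apply, mul_one, one_mul]
      refine mul_le_mul_left (ENNReal.ofReal_le_ofReal (Real.exp_le_exp.2 ?_)) _
      have h0 : 0 ≤ F.sq g / n := div_nonneg (sq_nonneg' g) hn'.le
      have hd : |F.sq g - n| ≤ 1 := abs_le.2 ⟨by linarith [hg.1], by linarith [hg.2]⟩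
      have h3 := abs_HE_smul_sub (yt := yt) hl hn' hu (Real.sqrt_nonneg (F.sq g / n)) (by
        rw [Real.sq_sqrt h0, show F.sq g / n - 1 = (F.sq g - n) / n by field_simp, abs_div,
          abs_of_pos hn']
        gcongr)
      have h4 : |(γ - 1) * (F.sq g - n)| ≤ |γ - 1| := by
        rw [abs_mul]
        exact mul_le_of_le_one_right (abs_nonneg _) hd
      have h5 := (abs_le.1 h3).1
      have h6 := (abs_le.1 h4).2
      rw [hD]
      nlinarith
    · rw [Set.indicator_of_notMem hg]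
      simp
  refine le_trans ?_ (mul_le_mul_right (le_trans (mul_le_mul_right hsh _) h2) _)
  refine le_of_eq ?_
  rw [mul_right_comm _ (G u), ← mul_assoc, ← ENNReal.ofReal_mul (Real.exp_pos _).le,
    ← ENNReal.ofReal_mul (by positivity)]
  congr 2
  rw [Real.exp_sub]
  field_simp

/-- scaling to the standard radius -/
theorem sph_eq_IS (hn : 0 < n) (lam yt : Vec n) {ρ : ℝ} (hρ : 0 ≤ ρ) :
    ∫ u, Real.exp (HE lam yt u) ∂(sph n ρ) = IS ((ρ / n) • lam) (√(ρ / n) • yt) := by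
  have hn' : (0 : ℝ) < n := by exact_mod_cast hn
  have h0 : 0 ≤ ρ / n := div_nonneg hρ hn'.le
  have h := mp_sph_smul (n := n) h0 n
  rw [div_mul_cancel₀ _ hn'.ne'] at h
  rw [← h.map_eq, integral_map h.measurable.aemeasurable
    (by fun_prop : Continuous fun u => Real.exp (HE lam yt u)).aestronglyMeasurable]
  unfold IS
  refine integral_congr_ae (ae_of_all _ fun u => ?_)
  simp only
  rw [HE_smul, Real.sq_sqrt h0]
  unfold HE
  rw [← mul_div_assoc, Finset.mul_sum, Finset.mul_sum]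
  simp only [Pi.smul_apply, smul_eq_mul, mul_assoc]

/-- **rank one upper bound**, any radius -/
theorem sph_le (hn : 0 < n) {lam : Vec n} (yt : Vec n) {γ ρ : ℝ} (hγ : ∀ a, lam a < γ)
    (hρ : 0 < ρ) :
    ∫ u, Real.exp (HE lam yt u) ∂(sph n ρ) ≤
      Real.exp (PhiS lam yt γ + (ρ - n) * γ / 2 - n * Real.log (ρ / n) / 2
        + √(F.sq yt * ρ) / n) := by
  have hn' : (0 : ℝ) < n := by exact_mod_cast hn
  have h0 : 0 < ρ / n := div_pos hρ hn'
  rw [sph_eq_IS hn lam yt hρ.le]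
  refine (IS_le hn _ (γ := ρ / n * γ) fun a => ?_).trans (le_of_eq ?_)
  · exact mul_lt_mul_of_pos_left (hγ a) h0
  congr 1
  have e1 : ∀ a, ρ / n * γ - ((ρ / n) • lam) a = ρ / n * (γ - lam a) := fun a => by
    simp only [Pi.smul_apply, smul_eq_mul]; ring
  have e2 : √(F.sq (√(ρ / n) • yt) / n) = √(F.sq yt * ρ) / n := by
    rw [sq_smul', Real.sq_sqrt h0.le,
      show ρ / n * F.sq yt / n = F.sq yt * ρ / (n : ℝ) ^ 2 by field_simp,
      Real.sqrt_div' _ (sq_nonneg _), Real.sqrt_sq hn'.le]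
  unfold PhiS
  simp only [e1, e2]
  have e3 : ∑ a, Real.log (ρ / n * (γ - lam a)) =
      n * Real.log (ρ / n) + ∑ a, Real.log (γ - lam a) := by
    rw [Finset.sum_congr rfl fun a _ => Real.log_mul h0.ne' (sub_pos.2 (hγ a)).ne',
      Finset.sum_add_distrib]
    simp
  have e4 : ∑ a, (√(ρ / n) • yt) a ^ 2 / (ρ / n * (γ - lam a)) = ∑ a, yt a ^ 2 / (γ - lam a) := by
    refine Finset.sum_congr rfl fun a _ => ?_
    simp only [Pi.smul_apply, smul_eq_mul]
    rw [mul_pow, Real.sq_sqrt h0.le, mul_div_mul_left _ _ h0.ne']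
  rw [e3, e4]
  field_simp
  ring

/-! ### rank two -/

theorem continuous_ip (a : Vec n) : Continuous (ip a) := by
  unfold ip
  fun_prop

theorem ip_smul_left' (c : ℝ) (u v : Vec n) : ip (c • u) v = c * ip u v := by
  rw [ip_eq_dot, ip_eq_dot, smul_dotProduct, smul_eq_mul]

theorem ip_smul_right' (c : ℝ) (u v : Vec n) : ip u (c • v) = c * ip u v := by
  rw [ip_eq_dot, ip_eq_dot, dotProduct_smul, smul_eq_mul]

theorem ip_add_right' (u v w : Vec n) : ip u (v + w) = ip u v + ip u w := by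
  rw [ip_eq_dot, ip_eq_dot, ip_eq_dot, dotProduct_add]

theorem sq_add' (u v : Vec n) : F.sq (u + v) = F.sq u + 2 * ip u v + F.sq v := by
  unfold F.sq ip
  rw [Finset.mul_sum, ← Finset.sum_add_distrib, ← Finset.sum_add_distrib]
  exact Finset.sum_congr rfl fun a _ => by simp only [Pi.add_apply]; ring

/-- second moment of a linear functional on the sphere -/
theorem int_ip_sq (hn : 0 < n) (a : Vec n) {ρ : ℝ} (hρ : 0 ≤ ρ) :
    ∫ v, ip a v ^ 2 ∂(sph n ρ) = F.sq a * ρ / n := by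
  have hn' : (0 : ℝ) < n := by exact_mod_cast hn
  have h1 : ∀ i : Fin n, ∫ v, ip a v ^ 2 ∂(sph n ρ) = F.sq a * ∫ v, v i ^ 2 ∂(sph n ρ) := by
    intro i
    have hs : F.sq a = F.sq (√(F.sq a) • (Pi.single i 1 : Vec n)) := by
      rw [sq_smul', Real.sq_sqrt (sq_nonneg' a), sq_eq_dot (Pi.single i 1), single_dotProduct]
      simp
    obtain ⟨U, hU, hx⟩ := exists_orth_one hs
    have h2 := (mp_sph hU ρ).map_eq
    have hc : Continuous fun v : Vec n => F.sq a * v i ^ 2 := by fun_prop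
    rw [← integral_const_mul]
    conv_rhs => rw [← h2]
    rw [integral_map (measurable_matVec U).aemeasurable hc.aestronglyMeasurable]
    refine integral_congr_ae (ae_of_all _ fun v => ?_)
    simp only
    rw [← ip_mulVec_orth hU, hx, ip_smul_left', ip_eq_dot, single_dotProduct, mul_pow,
      Real.sq_sqrt (sq_nonneg' a), one_mul]
  have h3 : ∑ i : Fin n, ∫ v, v i ^ 2 ∂(sph n ρ) = ρ := by
    rw [← integral_finsetSum _ fun i _ => integrable_sph hρ (by fun_prop)]
    have : ∫ v, ∑ i : Fin n, v i ^ 2 ∂(sph n ρ) = ∫ _v, ρ ∂(sph n ρ) :=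
      integral_congr_ae (ae_sph hn hρ)
    simpa using this
  have h4 : ∑ _i : Fin n, ∫ v, ip a v ^ 2 ∂(sph n ρ) = F.sq a * ρ := by
    rw [Finset.sum_congr rfl fun i _ => h1 i, ← Finset.mul_sum, h3]
  simp only [Finset.sum_const, Finset.card_univ, Fintype.card_fin, nsmul_eq_mul] at h4
  rw [eq_div_iff hn'.ne', ← h4, mul_comm]

/-- odd functions have mean zero on the sphere -/
theorem int_odd (ρ : ℝ) {f : Vec n → ℝ} (hf : Measurable f) (h : ∀ v, f (-v) = -f v) :
    ∫ v, f v ∂(sph n ρ) = 0 := by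
  have h2 := (mp_sph (n := n) (O := -1) (by simp) ρ).map_eq
  have h3 : ∫ v, f v ∂(sph n ρ) = -∫ v, f v ∂(sph n ρ) := by
    conv_lhs => rw [← h2]
    rw [integral_map (measurable_matVec _).aemeasurable hf.aestronglyMeasurable, ← integral_neg]
    refine integral_congr_ae (ae_of_all _ fun v => ?_)
    simp only
    rw [Matrix.neg_mulVec, Matrix.one_mulVec, h]
  linarith

theorem HE_comb (lam yt p q : Vec n) (t s : ℝ) :
    HE lam yt (t • p + s • q) = t ^ 2 * ((∑ a, lam a * p a ^ 2) / 2)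
      + s ^ 2 * ((∑ a, lam a * q a ^ 2) / 2) + t * s * (∑ a, lam a * (p a * q a))
      + t * (∑ a, yt a * p a) + s * ∑ a, yt a * q a := by
  unfold HE
  simp only [← mul_div_assoc, Finset.mul_sum, Finset.sum_div, ← Finset.sum_add_distrib]
  exact Finset.sum_congr rfl fun a _ => by
    simp only [Pi.add_apply, Pi.smul_apply, smul_eq_mul]; ring

theorem quad_le {lam : Vec n} {hi : ℝ} (h : ∀ a, lam a ≤ hi) (u : Vec n) :
    ∑ a, lam a * u a ^ 2 ≤ hi * F.sq u := by
  unfold F.sq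
  rw [Finset.mul_sum]
  exact Finset.sum_le_sum fun a _ => mul_le_mul_of_nonneg_right (h a) (sq_nonneg _)

theorem le_quad {lam : Vec n} {lo : ℝ} (h : ∀ a, lo ≤ lam a) (u : Vec n) :
    lo * F.sq u ≤ ∑ a, lam a * u a ^ 2 := by
  unfold F.sq
  rw [Finset.mul_sum]
  exact Finset.sum_le_sum fun a _ => mul_le_mul_of_nonneg_right (h a) (sq_nonneg _)

theorem HE_zero (lam yt : Vec n) : HE lam yt 0 = 0 := by simp [HE]

/-- **rank two upper bound**: an orthogonal pair against two independent vectors, with test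
function of the first vector -/
theorem lint_frame_le (hn : 0 < n) (l1 y1 : Vec n) {l2 : Vec n} (y2 : Vec n) {lo hi : ℝ}
    (hlo : ∀ a, lo ≤ l2 a) (hhi : ∀ a, l2 a ≤ hi) {a b : Vec n} (hab : ip a b = 0)
    {G : Vec n → ℝ≥0∞} (hG : Measurable G) :
    ∫⁻ O, ENNReal.ofReal (Real.exp (HE l1 y1 (O.1 *ᵥ a) + HE l2 y2 (O.1 *ᵥ b))) * G (O.1 *ᵥ a)
        ∂(haar n) ≤
      ENNReal.ofReal (Real.exp ((hi - lo) * F.sq b / (2 * n) + √(F.sq y2 * F.sq b) / n)) *
        ((∫⁻ u, ENNReal.ofReal (Real.exp (HE l1 y1 u)) * G u ∂(sph n (F.sq a))) *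
          ∫⁻ v, ENNReal.ofReal (Real.exp (HE l2 y2 v)) ∂(sph n (F.sq b))) := by
  have hn' : (0 : ℝ) < n := by exact_mod_cast hn
  have hb0 := sq_nonneg' b
  have hD : 0 ≤ hi - lo := by linarith [hlo ⟨0, hn⟩, hhi ⟨0, hn⟩]
  set err : ℝ := (hi - lo) * F.sq b / (2 * n) + √(F.sq y2 * F.sq b) / n with herr
  have herr0 : 0 ≤ err := by positivity
  have m1 : Measurable fun u => ENNReal.ofReal (Real.exp (HE l1 y1 u)) * G u :=
    Measurable.mul (by fun_prop) hG
  have m2 : Measurable fun u => ENNReal.ofReal (Real.exp (HE l2 y2 u)) := by fun_prop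
  by_cases ha : a = 0
  · subst ha
    have h1 : ∫⁻ u, ENNReal.ofReal (Real.exp (HE l1 y1 u)) * G u ∂(sph n (F.sq (0 : Vec n))) =
        G 0 := by
      rw [← lint_haar_sph hn 0 m1]
      simp [HE_zero]
    rw [h1, ← lint_haar_sph hn b m2]
    simp only [Matrix.mulVec_zero, HE_zero, zero_add]
    have m3 : Measurable fun O : OG n => ENNReal.ofReal (Real.exp (HE l2 y2 (O.1 *ᵥ b))) :=
      m2.comp (meas_act b)
    rw [lintegral_mul_const _ m3, mul_comm (G 0)]
    refine le_mul_of_one_le_left (zero_le) ?_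
    rw [ENNReal.one_le_ofReal]
    exact Real.one_le_exp herr0
  have ha0 := sq_pos' ha
  set ρ1 := F.sq a with hρ1
  set ρ2 := F.sq b with hρ2
  set K : Vec n × Vec n → ℝ≥0∞ := fun p => (ENNReal.ofReal (Real.exp (HE l1 y1 p.1)) * G p.1) *
    ENNReal.ofReal (Real.exp (HE l2 y2 p.2)) with hK
  have hKm : Measurable K := (m1.comp measurable_fst).mul (m2.comp measurable_snd)
  have h1 : (∫⁻ u, ENNReal.ofReal (Real.exp (HE l1 y1 u)) * G u ∂(sph n ρ1)) *
      ∫⁻ v, ENNReal.ofReal (Real.exp (HE l2 y2 v)) ∂(sph n ρ2) =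
      ∫⁻ u, ∫⁻ v, K (u, v) ∂(sph n ρ2) ∂(sph n ρ1) := by
    rw [← lintegral_mul_const _ m1]
    refine lintegral_congr fun u => ?_
    rw [← lintegral_const_mul _ m2]
  set t : Vec n → ℝ := fun v => ip a v / √(ρ1 * ρ2) with ht
  set s : Vec n → ℝ := fun v => √(1 - t v ^ 2) with hs
  have ct : Continuous t := (continuous_ip a).div_const _
  have cs : Continuous s := by rw [hs]; fun_prop
  set a' : Vec n := √(ρ2 / ρ1) • a with ha'
  have hsa' : F.sq a' = ρ2 := by
    rw [ha', sq_smul', Real.sq_sqrt (div_nonneg hb0 ha0.le), div_mul_cancel₀ _ ha0.ne']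
  have hab' : ip a' b = 0 := by rw [ha', ip_smul_left', hab, mul_zero]
  have ht1 : ∀ᵐ v ∂(sph n ρ2), t v ^ 2 ≤ 1 := by
    filter_upwards [ae_sph hn hb0] with v hv
    have h := ip_sq_le a v
    rw [hv] at h
    rw [ht]
    simp only
    rw [div_pow, Real.sq_sqrt (mul_nonneg ha0.le hb0)]
    exact div_le_one_of_le₀ h (mul_nonneg ha0.le hb0)
  have h2 : ∀ᵐ v ∂(sph n ρ2), ∫⁻ O, K (O.1 *ᵥ a, O.1 *ᵥ v) ∂(haar n) =
      ∫⁻ O, K (O.1 *ᵥ a, O.1 *ᵥ (t v • a' + s v • b)) ∂(haar n) := by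
    filter_upwards [ae_sph hn hb0, ht1] with v hv hv1
    refine lint_two rfl ?_ ?_ hKm
    · rw [sq_add', sq_smul' (t v), sq_smul' (s v), ip_smul_left' (t v), ip_smul_right' (s v), hab',
        hsa', hv, hs]
      simp only
      rw [Real.sq_sqrt (by linarith)]
      ring
    · rw [ip_add_right', ip_smul_right' (t v), ip_smul_right' (s v), hab, ha', ip_smul_right',
        ip_self', ht]
      simp only
      rcases hb0.eq_or_lt with h0 | h0
      · have hv0 : v = 0 := sq_eq_zero' (hv.trans h0.symm)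
        simp [hv0, ip]
      · rw [Real.sqrt_mul ha0.le, Real.sqrt_div hb0]
        have k1 : 0 < √ρ1 := Real.sqrt_pos.2 ha0
        have k2 : 0 < √ρ2 := Real.sqrt_pos.2 h0
        have k3 : √ρ1 * √ρ1 = ρ1 := Real.mul_self_sqrt ha0.le
        field_simp
        rw [pow_two, k3]
        ring
  have hcv : Continuous fun v : Vec n => t v • a' + s v • b := by fun_prop
  rw [h1, lint_sph_sph hn a ρ2 hKm, lintegral_congr_ae h2,
    ← lintegral_lintegral_swap (f := fun (O : OG n) (v : Vec n) =>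
      K (O.1 *ᵥ a, O.1 *ᵥ (t v • a' + s v • b)))
      (hKm.comp (((meas_act a).comp measurable_fst).prodMk
        (meas_act2.comp (measurable_fst.prodMk
          (hcv.measurable.comp measurable_snd))))).aemeasurable,
    ← lintegral_const_mul' _ _ ENNReal.ofReal_ne_top]
  refine lintegral_mono fun O => ?_
  simp only [hK]
  have m4 : Measurable fun v : Vec n =>
      ENNReal.ofReal (Real.exp (HE l2 y2 (O.1 *ᵥ (t v • a' + s v • b)))) :=
    m2.comp ((measurable_matVec O.1).comp hcv.measurable)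
  rw [lintegral_const_mul _ m4]
  set p := O.1 *ᵥ a' with hp
  set q := O.1 *ᵥ b with hq
  have e1 : ∀ v, O.1 *ᵥ (t v • a' + s v • b) = t v • p + s v • q := fun v => by
    rw [Matrix.mulVec_add, Matrix.mulVec_smul _ (t v), Matrix.mulVec_smul _ (s v)]
  simp only [e1, HE_comb]
  set Qp : ℝ := (∑ a, l2 a * p a ^ 2) / 2 with hQp
  set Qr : ℝ := (∑ a, l2 a * q a ^ 2) / 2 with hQr
  set X : ℝ := ∑ a, l2 a * (p a * q a)
  set Lp : ℝ := ∑ a, y2 a * p a
  set Lq : ℝ := ∑ a, y2 a * q a with hLq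
  have i1 : Integrable (fun v => t v ^ 2 * Qp) (sph n ρ2) := integrable_sph hb0 (by fun_prop)
  have i2 : Integrable (fun v => s v ^ 2 * Qr) (sph n ρ2) := integrable_sph hb0 (by fun_prop)
  have i3 : Integrable (fun v => t v * s v * X) (sph n ρ2) := integrable_sph hb0 (by fun_prop)
  have i4 : Integrable (fun v => t v * Lp) (sph n ρ2) := integrable_sph hb0 (by fun_prop)
  have i5 : Integrable (fun v => s v * Lq) (sph n ρ2) := integrable_sph hb0 (by fun_prop)
  have j2 : Integrable (fun v => t v ^ 2 * Qp + s v ^ 2 * Qr) (sph n ρ2) := i1.add i2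
  have j3 : Integrable (fun v => t v ^ 2 * Qp + s v ^ 2 * Qr + t v * s v * X) (sph n ρ2) :=
    j2.add i3
  have j4 : Integrable (fun v => t v ^ 2 * Qp + s v ^ 2 * Qr + t v * s v * X + t v * Lp)
      (sph n ρ2) := j3.add i4
  have j5 : Integrable (fun v => t v ^ 2 * Qp + s v ^ 2 * Qr + t v * s v * X + t v * Lp
      + s v * Lq) (sph n ρ2) := j4.add i5
  have hj := jensen_exp j5
  rw [integral_add j4 i5, integral_add j3 i4, integral_add j2 i3, integral_add i1 i2] at hj
  simp only [integral_mul_const] at hj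
  have tneg : ∀ v, t (-v) = -t v := fun v => by
    simp only [ht]
    rw [show -v = (-1 : ℝ) • v by simp, ip_smul_right']
    ring
  have v4 : ∫ v, t v ∂(sph n ρ2) = 0 := int_odd _ ct.measurable tneg
  have v3 : ∫ v, t v * s v ∂(sph n ρ2) = 0 := int_odd _ (ct.mul cs).measurable fun v => by
    simp only [hs, tneg]
    ring_nf
  set τ := ∫ v, t v ^ 2 ∂(sph n ρ2) with hτ
  have it : Integrable (fun v => t v ^ 2) (sph n ρ2) := integrable_sph hb0 (by fun_prop)
  have τ0 : 0 ≤ τ := integral_nonneg fun v => sq_nonneg _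
  have τ1 : τ ≤ 1 / n := by
    have : τ = (ρ1 * ρ2 / n) / (ρ1 * ρ2) := by
      rw [hτ, ← int_ip_sq hn a hb0, ← integral_div]
      refine integral_congr_ae (ae_of_all _ fun v => ?_)
      simp only [ht]
      rw [div_pow, Real.sq_sqrt (mul_nonneg ha0.le hb0)]
    rw [this, div_right_comm]
    gcongr
    exact div_self_le_one _
  have v0 : ∫ v, (1 - t v ^ 2) ∂(sph n ρ2) = 1 - τ := by
    rw [integral_sub (integrable_const 1) it]
    simp [hτ]
  have v2 : ∫ v, s v ^ 2 ∂(sph n ρ2) = 1 - τ := by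
    rw [← v0]
    refine integral_congr_ae ?_
    filter_upwards [ht1] with v hv
    simp only [hs]
    rw [Real.sq_sqrt (by linarith)]
  set κ := ∫ v, s v ∂(sph n ρ2) with hκ
  have is : Integrable s (sph n ρ2) := integrable_sph hb0 cs
  have κ1 : κ ≤ 1 := by
    have : κ ≤ ∫ _v, (1 : ℝ) ∂(sph n ρ2) := integral_mono is (integrable_const 1) fun v => by
      simp only [hs]
      rw [Real.sqrt_le_left (by norm_num)]
      nlinarith [sq_nonneg (t v)]
    simpa using this
  have κ0 : 1 - τ ≤ κ := by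
    rw [← v0]
    refine integral_mono_ae ((integrable_const 1).sub it) is ?_
    filter_upwards [ht1] with v hv
    simp only [hs]
    refine Real.le_sqrt_of_sq_le ?_
    nlinarith [mul_nonneg (sq_nonneg (t v)) (sub_nonneg.2 hv)]
  rw [v2, v3, v4] at hj
  rw [Real.exp_add, ENNReal.ofReal_mul (Real.exp_pos _).le, mul_right_comm, mul_left_comm]
  refine mul_le_mul_right (le_trans ?_ (mul_le_mul_right hj _)) _
  rw [← ENNReal.ofReal_mul (Real.exp_pos _).le, ← Real.exp_add]
  refine ENNReal.ofReal_le_ofReal (Real.exp_le_exp.2 ?_)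
  have k1 : Qr ≤ hi * ρ2 / 2 := by
    have := quad_le hhi q
    rw [hq, sq_act] at this
    rw [hQr]
    linarith
  have k2 : lo * ρ2 / 2 ≤ Qp := by
    have := le_quad hlo p
    rw [hp, sq_act, hsa'] at this
    rw [hQp]
    linarith
  have k3 : |Lq| ≤ √(F.sq y2 * ρ2) := by
    have := abs_sum_le y2 q
    rwa [hq, sq_act] at this
  have k4 : Lq * (1 - κ) ≤ √(F.sq y2 * ρ2) / n := by
    calc Lq * (1 - κ) ≤ |Lq| * (1 - κ) := mul_le_mul_of_nonneg_right (le_abs_self _) (by linarith)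
      _ ≤ √(F.sq y2 * ρ2) * (1 / n) := mul_le_mul k3 (by linarith) (by linarith) (by positivity)
      _ = _ := by ring
  have k5 : τ * (Qr - Qp) ≤ (hi - lo) * ρ2 / (2 * n) := by
    calc τ * (Qr - Qp) ≤ τ * ((hi - lo) * ρ2 / 2) := mul_le_mul_of_nonneg_left (by linarith) τ0
      _ ≤ 1 / n * ((hi - lo) * ρ2 / 2) := mul_le_mul_of_nonneg_right τ1 (by positivity)
      _ = _ := by field_simp
  have h5 : HE l2 y2 q = Qr + Lq := rfl
  rw [h5, herr]
  nlinarith

theorem continuous_frame (l1 y1 l2 y2 a b : Vec n) :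
    Continuous fun O : OG n => Real.exp (HE l1 y1 (O.1 *ᵥ a) + HE l2 y2 (O.1 *ᵥ b)) :=
  Real.continuous_exp.comp (((continuous_HE l1 y1).comp (cont_act a)).add
    ((continuous_HE l2 y2).comp (cont_act b)))

/-- **rank two upper bound** -/
theorem frame_le (hn : 0 < n) (l1 y1 : Vec n) {l2 : Vec n} (y2 : Vec n) {lo hi : ℝ}
    (hlo : ∀ a, lo ≤ l2 a) (hhi : ∀ a, l2 a ≤ hi) {a b : Vec n} (hab : ip a b = 0) :
    ∫ O, Real.exp (HE l1 y1 (O.1 *ᵥ a) + HE l2 y2 (O.1 *ᵥ b)) ∂(haar n) ≤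
      Real.exp ((hi - lo) * F.sq b / (2 * n) + √(F.sq y2 * F.sq b) / n) *
        ((∫ u, Real.exp (HE l1 y1 u) ∂(sph n (F.sq a))) *
          ∫ v, Real.exp (HE l2 y2 v) ∂(sph n (F.sq b))) := by
  have h := lint_frame_le hn l1 y1 y2 hlo hhi hab (G := fun _ => 1) measurable_const
  simp only [mul_one] at h
  have p1 : 0 ≤ ∫ u, Real.exp (HE l1 y1 u) ∂(sph n (F.sq a)) :=
    integral_nonneg fun _ => (Real.exp_pos _).le
  have p2 : 0 ≤ ∫ u, Real.exp (HE l2 y2 u) ∂(sph n (F.sq b)) :=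
    integral_nonneg fun _ => (Real.exp_pos _).le
  rw [lint_exp_HE _ _ (sq_nonneg' a), lint_exp_HE _ _ (sq_nonneg' b),
    ← ofReal_integral_eq_lintegral_ofReal (integrable_haar (continuous_frame l1 y1 l2 y2 a b))
      (ae_of_all _ fun _ => (Real.exp_pos _).le), ← ENNReal.ofReal_mul p1,
    ← ENNReal.ofReal_mul (Real.exp_pos _).le] at h
  exact (ENNReal.ofReal_le_ofReal_iff (by positivity)).1 h

theorem HE_smul_lam (t : ℝ) (lam u : Vec n) : HE (t • lam) 0 u = t * HE lam 0 u := by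
  unfold HE
  simp only [Pi.zero_apply, zero_mul, Finset.sum_const_zero, add_zero, Pi.smul_apply, smul_eq_mul,
    mul_assoc, ← Finset.mul_sum]
  ring

/-- rank two upper bound at zero field, two temperatures -/
theorem frame_zero_le (hn : 0 < n) {lam : Vec n} {lo hi t1 t2 : ℝ} (ht : 0 ≤ t2)
    (hlo : ∀ a, lo ≤ lam a) (hhi : ∀ a, lam a ≤ hi) {u v : Vec n} (huv : ip u v = 0)
    (hu : F.sq u = n) (hv : F.sq v = n) :
    ∫ O, Real.exp (t1 * HE lam 0 (O.1 *ᵥ u) + t2 * HE lam 0 (O.1 *ᵥ v)) ∂(haar n) ≤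
      Real.exp (t2 * (hi - lo) / 2) * (IS (t1 • lam) 0 * IS (t2 • lam) 0) := by
  have hn' : (0 : ℝ) < n := by exact_mod_cast hn
  have h := frame_le hn (t1 • lam) 0 (l2 := t2 • lam) 0 (lo := t2 * lo) (hi := t2 * hi)
    (fun a => mul_le_mul_of_nonneg_left (hlo a) ht) (fun a => mul_le_mul_of_nonneg_left (hhi a) ht)
    huv
  rw [hu, hv] at h
  simp only [HE_smul_lam] at h
  unfold IS
  simp only [HE_smul_lam]
  refine h.trans (le_of_eq ?_)
  congr 2
  have : F.sq (0 : Vec n) = 0 := by simp [F.sq]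
  rw [this]
  field_simp
  simp

/-! ### tails -/

theorem PhiS_shift {lam yt : Vec n} {γ η : ℝ} (h : ∀ a, lam a < γ) (hη : 0 ≤ η) :
    PhiS lam yt (γ + η) ≤ PhiS lam yt γ + η * (n - sadF lam yt (γ + η)) / 2 := by
  have := PhiS_tangent (yt := yt) (γ := γ + η) (γ' := γ) (fun a => by linarith [h a]) h
  linarith

/-- raising the spectrum by `θ c`, `0 ≤ c ≤ 1` -/
theorem PhiS_raise {lam c : Vec n} {γ θ : ℝ} (h : ∀ a, lam a < γ) (hθ : 0 ≤ θ)
    (hc0 : ∀ a, 0 ≤ c a) (hc1 : ∀ a, c a ≤ 1) :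
    PhiS (fun a => lam a + θ * c a) 0 (γ + 2 * θ) ≤
      PhiS lam 0 (γ + 2 * θ) + (∑ a, c a * (θ / (γ + θ - lam a))) / 2 := by
  unfold PhiS
  have h1 : ∑ a, Real.log (γ + 2 * θ - lam a) ≤
      ∑ a, Real.log (γ + 2 * θ - (lam a + θ * c a)) + ∑ a, c a * (θ / (γ + θ - lam a)) := by
    rw [← Finset.sum_add_distrib]
    refine Finset.sum_le_sum fun a _ => ?_
    have k0 : θ * c a ≤ θ := mul_le_of_le_one_right hθ (hc1 a)
    have k1 : 0 ≤ θ * c a := mul_nonneg hθ (hc0 a)
    have p1 : 0 < γ + θ - lam a := by linarith [h a]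
    have p2 : 0 < γ + 2 * θ - (lam a + θ * c a) := by linarith
    have p3 : 0 < γ + 2 * θ - lam a := by linarith
    have k2 := Real.log_le_sub_one_of_pos (div_pos p3 p2)
    rw [Real.log_div p3.ne' p2.ne'] at k2
    have k3 : (γ + 2 * θ - lam a) / (γ + 2 * θ - (lam a + θ * c a)) - 1 =
        θ * c a / (γ + 2 * θ - (lam a + θ * c a)) := by
      field_simp
      ring
    have k4 : θ * c a / (γ + 2 * θ - (lam a + θ * c a)) ≤ c a * (θ / (γ + θ - lam a)) := by
      rw [← mul_div_assoc, mul_comm (c a)]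
      exact div_le_div_of_nonneg_left k1 p1 (by linarith)
    linarith
  simp only [Pi.zero_apply, ne_eq, OfNat.ofNat_ne_zero, not_false_eq_true, zero_pow, zero_div,
    Finset.sum_const_zero]
  linarith

/-- exponential moment of a weighted squared norm under the spherical Gibbs weight -/
theorem mgf_le (hn : 0 < n) {lam c : Vec n} {γ θ : ℝ} (h : ∀ a, lam a < γ) (hθ : 0 ≤ θ)
    (hc0 : ∀ a, 0 ≤ c a) (hc1 : ∀ a, c a ≤ 1) :
    ∫ u, Real.exp (HE lam 0 u + θ * (∑ a, c a * u a ^ 2) / 2) ∂(sph n n) ≤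
      Real.exp (PhiS lam 0 γ + θ * (n - ∑ a, 1 / (γ + 2 * θ - lam a))
        + (∑ a, c a * (θ / (γ + θ - lam a))) / 2) := by
  have e : ∀ u, HE lam 0 u + θ * (∑ a, c a * u a ^ 2) / 2 = HE (fun a => lam a + θ * c a) 0 u := by
    intro u
    unfold HE
    simp only [Pi.zero_apply, zero_mul, Finset.sum_const_zero, add_zero, add_mul,
      Finset.sum_add_distrib, Finset.mul_sum, mul_assoc]
    ring
  simp only [e]
  refine (IS_zero_le hn (γ := γ + 2 * θ) fun a => ?_).trans (Real.exp_le_exp.2 ?_)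
  · linarith [h a, mul_le_of_le_one_right hθ (hc1 a)]
  have h1 := PhiS_raise h hθ hc0 hc1
  have h2 := PhiS_shift (yt := 0) h (η := 2 * θ) (by linarith)
  have h3 : sadF lam 0 (γ + 2 * θ) = ∑ a, 1 / (γ + 2 * θ - lam a) := by simp [sadF]
  rw [h3] at h2
  linarith

/-- **one replica tail** -/
theorem tail_le (hn : 0 < n) {lam c : Vec n} {γ θ : ℝ} (h : ∀ a, lam a < γ) (hθ : 0 ≤ θ)
    (hc0 : ∀ a, 0 ≤ c a) (hc1 : ∀ a, c a ≤ 1) (R : ℝ) :
    ∫ u in {u : Vec n | R ≤ ∑ a, c a * u a ^ 2}, Real.exp (HE lam 0 u) ∂(sph n n) ≤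
      Real.exp (PhiS lam 0 γ + θ * (n - ∑ a, 1 / (γ + 2 * θ - lam a))
        + (∑ a, c a * (θ / (γ + θ - lam a))) / 2 - θ * R / 2) := by
  have hS : MeasurableSet {u : Vec n | R ≤ ∑ a, c a * u a ^ 2} :=
    measurableSet_le measurable_const (by fun_prop)
  have i1 : Integrable (fun u => Real.exp (HE lam 0 u + θ * (∑ a, c a * u a ^ 2) / 2) *
      Real.exp (-(θ * R / 2))) (sph n n) := integrable_sph (Nat.cast_nonneg n) (by fun_prop)
  calc _ ≤ ∫ u in {u : Vec n | R ≤ ∑ a, c a * u a ^ 2},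
        Real.exp (HE lam 0 u + θ * (∑ a, c a * u a ^ 2) / 2) * Real.exp (-(θ * R / 2))
          ∂(sph n n) := by
        refine setIntegral_mono_on (integrable_exp_HE lam 0 (Nat.cast_nonneg n)).integrableOn
          i1.integrableOn hS fun u hu => ?_
        rw [← Real.exp_add]
        refine Real.exp_le_exp.2 ?_
        have := mul_le_mul_of_nonneg_left (show R ≤ ∑ a, c a * u a ^ 2 from hu) hθ
        linarith
    _ ≤ ∫ u, Real.exp (HE lam 0 u + θ * (∑ a, c a * u a ^ 2) / 2) * Real.exp (-(θ * R / 2))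
          ∂(sph n n) := setIntegral_le_integral i1 (ae_of_all _ fun u => by positivity)
    _ ≤ _ := by
        rw [integral_mul_const, sub_eq_add_neg _ (θ * R / 2), Real.exp_add _ (-(θ * R / 2))]
        exact mul_le_mul_of_nonneg_right (mgf_le hn h hθ hc0 hc1) (Real.exp_pos _).le

end Vale.Agent.N150.Sp
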