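import Vale.Agent.N150.Adm0
import Vale.Agent.N150.PathQ
import Vale.Agent.N150.SphUp
import Vale.Agent.N150.CapDef

/-! The cost of the tilt `2 + 2 r` for a rigid spectrum, and the spectrum of `diag lam - Q` for
`(s - E)₊ ≤ Q ≤ Z s`. -/

open Real Finset Matrix

namespace Vale.Agent.N150.Adm

open Vale.Agent.N150.Edge Vale.Agent.P150
open Vale.Agent.P150.F (Mat Vec ip qf hsq OpLe)

variable {n : ℕ} {w s r Z : ℝ} {lam mu : Fin n → ℝ}

lemma Std.lt (H : Std n w r lam) (a : Fin n) : r ≤ 2 + 2 * r - lam a := by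
  linarith [H.rig.le_eps a, H.lo]

lemma tr_eq_trR (j : ℕ) (η : ℝ) : tr j lam (2 + η) = trR j lam η :=
  sum_congr rfl fun a _ => by rw [show 2 + η - lam a = 2 - lam a + η by ring]

lemma Std.tr_le (H : Std n w r lam) : tr 1 lam (2 + 2 * r) ≤ n * (1 - √r / 4) := by
  rw [tr_eq_trR]
  exact H.rig.trR_one_le' H.hn H.hw (by linarith [H.hk]) H.lo (by linarith [H.hi])

lemma Std.le_tr (H : Std n w r lam) : n * (1 - 6 * √r) ≤ tr 1 lam (2 + 2 * r) := by
  have h0 := H.pos
  rw [tr_eq_trR]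
  refine le_trans ?_ (H.rig.trR_one_ge' H.hn H.hw (by linarith [H.hk]) (by linarith [H.lo])
    fun a => by linarith [H.lt a])
  have h1 : √(2 * r) ≤ 3 / 2 * √r := by
    rw [Real.sqrt_le_left (by positivity), mul_pow, Real.sq_sqrt h0.le]
    nlinarith
  have h2 : (0 : ℝ) ≤ n := Nat.cast_nonneg n
  nlinarith

lemma Std.tr_two (H : Std n w r lam) : tr 2 lam (2 + 2 * r) ≤ 2 * (n / √r) := by
  rw [tr_eq_trR]
  refine (H.rig.trR_two_le H.hn H.hw H.lo (by linarith [H.hi])).trans ?_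
  have h5 : 0 ≤ n / √r := by positivity
  nlinarith [c0_le, H.hk, H.sqrt_le]

lemma sadF_zero (z : ℝ) : sadF lam 0 z = tr 1 lam z := by
  unfold sadF tr
  exact sum_congr rfl fun a _ => by simp

lemma sadF_eq (yt : Vec n) (z : ℝ) :
    sadF mu yt z = tr 1 mu z + ∑ a, yt a ^ 2 / (z - mu a) ^ 2 := by
  unfold sadF tr
  rw [← sum_add_distrib]
  exact sum_congr rfl fun a _ => by simp

/-- the cost of the tilt `2 + 2 r` -/
theorem Std.cost (H : Std n w r lam) :
    exp (PhiS lam 0 (2 + 2 * r)) ≤ 1500 * n ^ 8 * exp (12 * (n * (r * √r))) * IS lam 0 := by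
  have h0 := H.pos
  obtain ⟨η, h1, h2, -⟩ := Path.exists_sad H.rig H.hn H.hw (by linarith [H.hk])
    (by linarith [H.lo, H.hi])
  have h3 := abs_le.1 h1
  have h4 := Sp.PhiS_shift (lam := lam) (yt := 0) h2.lt (η := 2 * r - η) (by linarith [H.lo])
  rw [show 2 + η + (2 * r - η) = 2 + 2 * r by ring, sadF_zero] at h4
  have h5 := H.le_tr
  have h6 := H.tr_le
  have h7 : (0 : ℝ) ≤ n * √r := by positivity
  have h8 : (2 * r - η) * (n - tr 1 lam (2 + 2 * r)) ≤ 4 * r * (6 * (n * √r)) :=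
    mul_le_mul (by linarith [H.lo]) (by linarith) (by linarith) (by positivity)
  calc exp (PhiS lam 0 (2 + 2 * r)) ≤ exp (PhiS lam 0 (2 + η) + 12 * (n * (r * √r))) :=
        exp_le_exp.2 (by nlinarith)
    _ ≤ 1500 * n ^ 8 * IS lam 0 * exp (12 * (n * (r * √r))) := by
        rw [exp_add]
        exact mul_le_mul_of_nonneg_right h2.low (exp_pos _).le
    _ = _ := by ring

lemma qf_diag (d v : Vec n) : qf (Matrix.diagonal d) v = ∑ a, d a * v a ^ 2 := by
  have h := qf_frame (1 : Mat n) d v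
  simpa using h

lemma qf_sub' (A B : Mat n) (v : Vec n) : qf (A - B) v = qf A v - qf B v := by
  unfold qf ip
  rw [Matrix.sub_mulVec, ← sum_sub_distrib]
  exact sum_congr rfl fun a _ => by rw [Pi.sub_apply]; ring

/-- the spectrum of `diag lam - Q` is sandwiched -/
theorem sand_of_Q {U Q : Mat n} (hU : Uᵀ * U = 1)
    (hM : Matrix.diagonal lam - Q = Uᵀ * Matrix.diagonal mu * U)
    (h1 : ∀ v, qf (Matrix.diagonal (Cap.pr lam s)) v ≤ qf Q v)
    (h2 : ∀ v, qf Q v ≤ Z * s * F.sq v) :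
    ∃ σ : Equiv.Perm (Fin n), Sand s Z (lam ∘ σ) mu := by
  refine sand_of_qf (O := 1) (O' := U) (by simp) hU (fun v => ?_) fun v => ?_
  · rw [← hM, qf_sub']
    simp only [Matrix.transpose_one, Matrix.one_mul, Matrix.mul_one]
    linarith [h2 v]
  · rw [← hM, qf_sub']
    simp only [Matrix.transpose_one, Matrix.one_mul, Matrix.mul_one]
    have h3 := h1 v
    rw [qf_diag] at h3 ⊢
    rw [qf_diag]
    have e : ∑ a, min (lam a) (2 - s) * v a ^ 2
        = ∑ a, lam a * v a ^ 2 - ∑ a, Cap.pr lam s a * v a ^ 2 := by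
      rw [← sum_sub_distrib]
      refine sum_congr rfl fun a _ => ?_
      rw [show min (lam a) (2 - s) = Cap.lamC lam s a from rfl, Cap.lamC_eq]
      ring
    linarith

/-- lower bound of the trace of the resolvent of a sandwiched spectrum -/
lemma Sand.le_tr_one (h : Sand s Z lam mu) (H : Std n w s lam) {z Y : ℝ} (hz : 2 - s < z)
    (hZ : 0 ≤ Z) (hY : 0 ≤ Y) (hzY : z ≤ 2 + Y * s) :
    n * (1 - 4 * √(2 + Y + Z) * √s) ≤ tr 1 mu z := by
  have h0 := H.pos
  have hY0 : 0 ≤ Y * s := by positivity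
  have hZ0 : 0 ≤ Z * s := by positivity
  have h1 := H.rig.trR_one_ge' H.hn H.hw (by linarith [H.hk]) (η := (2 + Y + Z) * s)
    (by nlinarith [H.lo]) fun a => by nlinarith [H.rig.le_eps a, H.lo]
  rw [Real.sqrt_mul (by positivity), ← mul_assoc] at h1
  refine h1.trans (sum_le_sum fun a _ => ?_)
  have h2 := h.le_top a
  have h3 := (h a).1
  rw [pow_one, pow_one]
  exact inv_anti₀ (by linarith) (by nlinarith)

/-- the trace defect -/
lemma Sand.trD_le (h : Sand s Z lam mu) (H : Std n w s lam) (hZ : 0 ≤ Z) (h0 : 0 ≤ r)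
    (hr : r ≤ s) : n - tr 1 mu (2 + 2 * r) ≤ 4 * √(4 + Z) * (n * √s) := by
  have h1 := h.le_tr_one H (z := 2 + 2 * r) (Y := 2) (by linarith [H.pos]) hZ (by norm_num)
    (by linarith)
  rw [show (2 : ℝ) + 2 + Z = 4 + Z by ring] at h1
  linarith

/-! ### the noise of a path as the image of one Gaussian vector -/

section noise
open MeasureTheory ProbabilityTheory
open Vale.Agent.P150.F (PN)

/-- the first `k` noise vectors as one vector -/
def unc (k : ℕ) (ω : ℕ → Vec n) : ↥(range k) × Fin n → ℝ := fun p => ω p.1 p.2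

theorem mp_unc (k : ℕ) : MeasurePreserving (unc (n := n) k) (PN n) (gpi (↥(range k) × Fin n)) := by
  have h1 : MeasurePreserving (range k).restrict (PN n)
      (Measure.pi fun _ : ↥(range k) => gpi (Fin n)) :=
    ⟨Finset.measurable_restrict _, Measure.infinitePi_map_restrict _⟩
  have h := Measure.infinitePi_map_curry (ι := ↥(range k)) (κ := Fin n) (X := ℝ)
    (fun _ _ => gaussianReal 0 1)
  simp only [Measure.infinitePi_eq_pi] at h
  have h2 : MeasurePreserving (MeasurableEquiv.curry ↥(range k) (Fin n) ℝ)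
      (gpi (↥(range k) × Fin n)) (Measure.pi fun _ : ↥(range k) => gpi (Fin n)) :=
    ⟨(MeasurableEquiv.curry ↥(range k) (Fin n) ℝ).measurable, h⟩
  exact (h2.symm _).comp h1

/-- the matrix of the noise `∑ j < k, c j • R j ω j` -/
def nzM (c : ℕ → ℝ) (R : ℕ → Mat n) (k : ℕ) : Matrix (Fin n) (↥(range k) × Fin n) ℝ :=
  Matrix.of fun a p => c p.1 * R p.1 a p.2

theorem nzM_mulVec (c : ℕ → ℝ) (R : ℕ → Mat n) (k : ℕ) (ω : ℕ → Vec n) :
    nzM c R k *ᵥ unc k ω = ∑ j ∈ range k, c j • (R j *ᵥ ω j) := by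
  funext a
  rw [Finset.sum_apply, ← Finset.sum_coe_sort]
  simp only [Matrix.mulVec, dotProduct, nzM, unc, Matrix.of_apply, Fintype.sum_prod_type,
    Pi.smul_apply, smul_eq_mul, mul_sum, mul_assoc]

theorem nzM_mul (c : ℕ → ℝ) (R : ℕ → Mat n) (k : ℕ) :
    nzM c R k * (nzM c R k)ᵀ = ∑ j ∈ range k, c j ^ 2 • (R j * (R j)ᵀ) := by
  ext a b
  rw [Matrix.sum_apply, ← Finset.sum_coe_sort]
  simp only [Matrix.mul_apply, nzM, Matrix.of_apply, Matrix.transpose_apply,
    Fintype.sum_prod_type, Matrix.smul_apply, smul_eq_mul, mul_sum]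
  exact sum_congr rfl fun j _ => sum_congr rfl fun i _ => by ring

/-- transfer of any bound from one Gaussian vector to the path -/
theorem spN_le (M : Mat n) (y : Vec n) (k : ℕ)
    (B : Set (Vec n × (↥(range k) × Fin n → ℝ))) :
    Plant.spN n M y {q | (q.1, unc k q.2) ∈ B}
      ≤ ((Plant.spM M y).prod (gpi (↥(range k) × Fin n))) B := by
  have h := (MeasurePreserving.id (Plant.spM M y)).prod (mp_unc (n := n) k)
  rw [← h.map_eq]
  exact Measure.le_map_apply h.measurable.aemeasurable B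

/-- the field of the cap flow -/
theorem yF_eq_nz {t : ℕ → ℝ} {dl : ℝ} (h : Cap.Grid lam t dl) (u : Vec n) (ω : ℕ → Vec n)
    (k : ℕ) : Cap.yF lam t u ω k = Matrix.diagonal (Cap.pr lam (t k)) *ᵥ u
      + nzM (fun j => √(t (j + 1) - t j)) (fun j => Matrix.diagonal (Cap.dI lam (t j))) k
        *ᵥ unc k ω := by
  rw [nzM_mulVec]
  funext a
  rw [h.yF_eq, Pi.add_apply, Matrix.mulVec_diagonal, Finset.sum_apply]
  unfold Cap.nz
  congr 1
  exact sum_congr rfl fun j _ => by
    rw [Pi.smul_apply, Matrix.mulVec_diagonal, smul_eq_mul]; ring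

theorem nzM_cap {t : ℕ → ℝ} {dl : ℝ} (h : Cap.Grid lam t dl) (k : ℕ) :
    nzM (fun j => √(t (j + 1) - t j)) (fun j => Matrix.diagonal (Cap.dI lam (t j))) k *
      (nzM (fun j => √(t (j + 1) - t j)) (fun j => Matrix.diagonal (Cap.dI lam (t j))) k)ᵀ
      = Matrix.diagonal (Cap.pr lam (t k)) := by
  rw [nzM_mul]
  ext a b
  rw [Matrix.sum_apply]
  simp only [Matrix.diagonal_transpose, Matrix.diagonal_mul_diagonal, Cap.dI_mul_self,
    Matrix.smul_apply, Matrix.diagonal_apply, smul_eq_mul]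
  split_ifs with hab
  · rw [h.pr_eq]
    exact sum_congr rfl fun j _ => by rw [Real.sq_sqrt (h.step_pos j).le]
  · simp

end noise

end Vale.Agent.N150.Adm
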