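import Mathlib

/-! Edge rigidity of the GOE: definitions, the semicircle law and its Stieltjes transform. -/

open MeasureTheory ProbabilityTheory Filter Topology Real Set
open scoped Matrix

namespace Vale.Agent.N150.Edge

/-- semicircle density in the variable `e = 2 - λ` -/
noncomputable def scD (e : ℝ) : ℝ := √(e * (4 - e)) / (2 * π)

/-- semicircle mass of `[2 - s, 2]` -/
noncomputable def scF (s : ℝ) : ℝ := ∫ e in (0 : ℝ)..s, scD e

/-- number of points within `s` of the edge (or above it) -/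
noncomputable def cnt {n : ℕ} (lam : Fin n → ℝ) (s : ℝ) : ℝ :=
  ((Finset.univ.filter fun a => 2 - s ≤ lam a).card : ℝ)

/-- rigidity of a spectrum down to the scale `w n ^ (-2/3)` -/
def Rigid {n : ℕ} (w : ℝ) (lam : Fin n → ℝ) : Prop :=
  (∀ a, -3 ≤ lam a ∧ lam a ≤ 2 + w * (n : ℝ) ^ (-(2 / 3 : ℝ))) ∧
  ∀ s : ℝ, w * (n : ℝ) ^ (-(2 / 3 : ℝ)) ≤ s → s ≤ 4 →
    |cnt lam s - n * scF s| ≤ (n * s ^ (3 / 2 : ℝ)) ^ (3 / 5 : ℝ)

/-- a family of matrices with the covariance structure of the GOE -/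
structure GoeFam {n : ℕ} {ι : Type} [Fintype ι] (A : ι → Matrix (Fin n) (Fin n) ℝ) : Prop where
  symm : ∀ i a b, A i a b = A i b a
  cov : ∀ a b c d, ∑ i, A i a b * A i c d =
    ((if a = c ∧ b = d then 1 else 0) + (if a = d ∧ b = c then 1 else 0)) / (n : ℝ)

/-- the random matrix `∑ i, ω i • A i` -/
noncomputable def goeM {n : ℕ} {ι : Type} [Fintype ι] (A : ι → Matrix (Fin n) (Fin n) ℝ)
    (ω : ι → ℝ) : Matrix (Fin n) (Fin n) ℝ := ∑ i, ω i • A i

/-- `J = Oᵀ diag(lam) O` with `O` orthogonal -/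
def IsEig {n : ℕ} (J O : Matrix (Fin n) (Fin n) ℝ) (lam : Fin n → ℝ) : Prop :=
  Oᵀ * O = 1 ∧ J = Oᵀ * Matrix.diagonal lam * O

/-- every diagonalisation of `J` has a rigid spectrum -/
def RigidM {n : ℕ} (w : ℝ) (J : Matrix (Fin n) (Fin n) ℝ) : Prop :=
  ∀ O lam, IsEig J O lam → Rigid w lam

/-- The rigidity theorem (statement; proved in `EdgeMain`). -/
def RigidStmt : Prop :=
  ∃ C : ℝ, 0 < C ∧ ∀ (w : ℝ) (n : ℕ), 1 ≤ w → w * (n : ℝ) ^ (-(2 / 3 : ℝ)) ≤ 1 → 0 < n →
    ∀ (ι : Type) [Fintype ι] (A : ι → Matrix (Fin n) (Fin n) ℝ), GoeFam A →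
      (Measure.pi fun _ : ι => gaussianReal 0 1) {ω | ¬ RigidM w (goeM A ω)} ≤
        ENNReal.ofReal (C * w ^ (-(1 / 4 : ℝ)))

lemma Rigid.mono {n : ℕ} {w w' : ℝ} {lam : Fin n → ℝ} (h : Rigid w lam) (hw : w ≤ w') :
    Rigid w' lam := by
  have h0 : w * (n : ℝ) ^ (-(2 / 3 : ℝ)) ≤ w' * (n : ℝ) ^ (-(2 / 3 : ℝ)) :=
    mul_le_mul_of_nonneg_right hw (by positivity)
  exact ⟨fun a => ⟨(h.1 a).1, (h.1 a).2.trans (by linarith)⟩,
    fun s hs hs4 => h.2 s (h0.trans hs) hs4⟩

lemma scD_nonneg (e : ℝ) : 0 ≤ scD e := by unfold scD; positivity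

lemma continuous_scD : Continuous scD := by unfold scD; fun_prop

lemma scD_le {e : ℝ} (he : 0 ≤ e) : scD e ≤ √e / π := by
  unfold scD
  have h1 : √(e * (4 - e)) ≤ 2 * √e := by
    rw [show (2 : ℝ) * √e = √(4 * e) by
      rw [Real.sqrt_mul (by norm_num), show (4 : ℝ) = 2 ^ 2 by norm_num,
        Real.sqrt_sq (by norm_num)]]
    exact Real.sqrt_le_sqrt (by nlinarith)
  rw [div_le_div_iff₀ (by positivity) pi_pos]
  nlinarith [pi_pos]

lemma scD_of_nonpos {e : ℝ} (he : e ≤ 0) : scD e = 0 := by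
  unfold scD
  rw [Real.sqrt_eq_zero_of_nonpos (by nlinarith), zero_div]

lemma scD_of_ge {e : ℝ} (he : 4 ≤ e) : scD e = 0 := by
  unfold scD
  rw [Real.sqrt_eq_zero_of_nonpos (by nlinarith), zero_div]

lemma scF_sub (s t : ℝ) : scF t - scF s = ∫ e in s..t, scD e := by
  unfold scF
  rw [intervalIntegral.integral_interval_sub_left (continuous_scD.intervalIntegrable _ _)
    (continuous_scD.intervalIntegrable _ _)]

lemma scF_mono {s t : ℝ} (h : s ≤ t) : scF s ≤ scF t := by
  have := scF_sub s t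
  have h2 : 0 ≤ ∫ e in s..t, scD e :=
    intervalIntegral.integral_nonneg h fun e _ => scD_nonneg e
  linarith

lemma scF_sub_le {s t : ℝ} (hs : 0 ≤ s) (h : s ≤ t) : scF t - scF s ≤ (t - s) * (√t / π) := by
  rw [scF_sub]
  have h1 : ∫ e in s..t, scD e ≤ ∫ _e in s..t, √t / π := by
    refine intervalIntegral.integral_mono_on h (continuous_scD.intervalIntegrable _ _)
      (continuous_const.intervalIntegrable _ _) fun e he => ?_
    refine (scD_le (hs.trans he.1)).trans ?_
    gcongr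
    exact he.2
  rwa [intervalIntegral.integral_const, smul_eq_mul] at h1

lemma scF_zero : scF 0 = 0 := by simp [scF]

lemma hasDerivAt_scF (s : ℝ) : HasDerivAt scF (scD s) s :=
  intervalIntegral.integral_hasDerivAt_right (continuous_scD.intervalIntegrable _ _)
    (continuous_scD.stronglyMeasurableAtFilter _ _) continuous_scD.continuousAt

/-- change of variables `e = 2 - 2 cos θ` -/
lemma integral_scD_eq (f : ℝ → ℂ) (hf : Continuous f) :
    ∫ e in (0 : ℝ)..4, (scD e : ℂ) * f e =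
      ∫ θ in (0 : ℝ)..π, ((2 / π * sin θ ^ 2 : ℝ) : ℂ) * f (2 - 2 * cos θ) := by
  have hd : ∀ θ ∈ uIcc (0 : ℝ) π, HasDerivAt (fun θ => 2 - 2 * cos θ) (2 * sin θ) θ := by
    intro θ _
    have := ((Real.hasDerivAt_cos θ).const_mul 2).const_sub 2
    exact this.congr_deriv (by ring)
  have hg : Continuous fun e => (scD e : ℂ) * f e :=
    (Complex.continuous_ofReal.comp continuous_scD).mul hf
  have h := intervalIntegral.integral_deriv_smul_comp (E := ℂ) hd
    (by fun_prop : ContinuousOn (fun θ => 2 * sin θ) (uIcc (0 : ℝ) π)) hg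
  simp only [Real.cos_zero, Real.cos_pi] at h
  rw [show (2 : ℝ) - 2 * 1 = 0 by norm_num, show (2 : ℝ) - 2 * -1 = 4 by norm_num] at h
  rw [← h]
  refine intervalIntegral.integral_congr fun θ hθ => ?_
  rw [uIcc_of_le pi_pos.le] at hθ
  have hs : 0 ≤ sin θ := sin_nonneg_of_nonneg_of_le_pi hθ.1 hθ.2
  have h1 : scD (2 - 2 * cos θ) = sin θ / π := by
    unfold scD
    have : (2 - 2 * cos θ) * (4 - (2 - 2 * cos θ)) = (2 * sin θ) ^ 2 := by
      nlinarith [sin_sq_add_cos_sq θ]
    rw [this, Real.sqrt_sq (by positivity)]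
    field_simp
  simp only [Function.comp, h1, Complex.real_smul]
  push_cast
  ring

lemma scF_four : scF 4 = 1 := by
  have h := integral_scD_eq (fun _ => 1) continuous_const
  simp only [mul_one] at h
  rw [intervalIntegral.integral_ofReal, intervalIntegral.integral_ofReal] at h
  have h2 := Complex.ofReal_injective h
  unfold scF
  rw [h2, intervalIntegral.integral_const_mul, integral_sin_sq]
  simp only [Real.sin_zero, Real.sin_pi]
  field_simp
  ring

/-- the Poisson integral on the half circle -/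
lemma integral_poisson (r : ℂ) (hr : ‖r‖ < 1) :
    ∫ θ in (0 : ℝ)..π, (1 - r ^ 2) / (1 + r ^ 2 - 2 * r * ((cos θ : ℝ) : ℂ)) = (π : ℂ) := by
  have hne : ∀ w : ℂ, ‖w‖ = 1 → 1 - r * w ∈ Complex.slitPlane := by
    intro w hw
    left
    have h1 := Complex.re_le_norm (r * w)
    rw [norm_mul, hw, mul_one] at h1
    simp only [Complex.sub_re, Complex.one_re]
    linarith
  have hn1 : ∀ θ : ℝ, ‖Complex.exp (θ * Complex.I)‖ = 1 := fun θ => Complex.norm_exp_ofReal_mul_I θ
  have hn2 : ∀ θ : ℝ, ‖Complex.exp (-(θ * Complex.I))‖ = 1 := by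
    intro θ
    have := Complex.norm_exp_ofReal_mul_I (-θ)
    simpa using this
  have hd : ∀ θ : ℝ, HasDerivAt (fun θ : ℝ => (θ : ℂ) + Complex.I *
      (Complex.log (1 - r * Complex.exp (θ * Complex.I)) -
        Complex.log (1 - r * Complex.exp (-(θ * Complex.I)))))
      ((1 - r ^ 2) / (1 + r ^ 2 - 2 * r * (cos θ : ℝ))) θ := by
    intro θ
    have h0 : HasDerivAt (fun θ : ℝ => (θ : ℂ)) 1 θ := by
      simpa using (hasDerivAt_id θ).ofReal_comp
    have h1 : HasDerivAt (fun θ : ℝ => 1 - r * Complex.exp (θ * Complex.I))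
        (-(r * (Complex.exp (θ * Complex.I) * Complex.I))) θ := by
      have := (((h0.mul_const Complex.I).cexp).const_mul r).const_sub 1
      simpa using this
    have h2 : HasDerivAt (fun θ : ℝ => 1 - r * Complex.exp (-(θ * Complex.I)))
        (-(r * (Complex.exp (-(θ * Complex.I)) * (-Complex.I)))) θ := by
      have := (((h0.mul_const Complex.I).neg.cexp).const_mul r).const_sub 1
      simpa using this
    have h3 := h1.clog_real (hne _ (hn1 θ))
    have h4 := h2.clog_real (hne _ (hn2 θ))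
    refine (h0.add ((h3.sub h4).const_mul Complex.I)).congr_deriv ?_
    have e1 := Complex.slitPlane_ne_zero (hne _ (hn1 θ))
    have e2 := Complex.slitPlane_ne_zero (hne _ (hn2 θ))
    set a := Complex.exp (θ * Complex.I) with ha
    set b := Complex.exp (-(θ * Complex.I)) with hb
    have hab : a * b = 1 := by rw [ha, hb, ← Complex.exp_add]; simp
    have hc : ((cos θ : ℝ) : ℂ) = (a + b) / 2 := by
      rw [Complex.ofReal_cos, Complex.cos, ha, hb]
      simp
    have e3 : 1 + r ^ 2 - 2 * r * ((cos θ : ℝ) : ℂ) = (1 - r * a) * (1 - r * b) := by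
      rw [hc]
      linear_combination (-r ^ 2) * hab
    rw [e3]
    field_simp
    linear_combination (r * a * (r * b - 1) + r * b * (r * a - 1)) * Complex.I_mul_I -
      r ^ 2 * hab
  have hc : Continuous fun θ : ℝ => (1 - r ^ 2) / (1 + r ^ 2 - 2 * r * ((cos θ : ℝ) : ℂ)) := by
    refine continuous_const.div (by fun_prop) fun θ => ?_
    have e1 := Complex.slitPlane_ne_zero (hne _ (hn1 θ))
    have e2 := Complex.slitPlane_ne_zero (hne _ (hn2 θ))
    set a := Complex.exp (θ * Complex.I) with ha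
    set b := Complex.exp (-(θ * Complex.I)) with hb
    have hab : a * b = 1 := by rw [ha, hb, ← Complex.exp_add]; simp
    have hc : ((cos θ : ℝ) : ℂ) = (a + b) / 2 := by
      rw [Complex.ofReal_cos, Complex.cos, ha, hb]
      simp
    have e3 : 1 + r ^ 2 - 2 * r * ((cos θ : ℝ) : ℂ) = (1 - r * a) * (1 - r * b) := by
      rw [hc]
      linear_combination (-r ^ 2) * hab
    rw [e3]
    exact mul_ne_zero e1 e2
  rw [intervalIntegral.integral_eq_sub_of_hasDerivAt (fun θ _ => hd θ) (hc.intervalIntegrable _ _)]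
  have e1 : Complex.exp (-((π : ℝ) * Complex.I)) = Complex.exp ((π : ℝ) * Complex.I) := by
    rw [Complex.exp_neg, Complex.exp_pi_mul_I]; norm_num
  rw [e1]
  simp

/-- Stieltjes transform of the semicircle law: for `‖r‖ < 1`, `r ≠ 0`, `z = r + r⁻¹`. -/
theorem stieltjes_sc (r : ℂ) (hr : ‖r‖ < 1) (hr0 : r ≠ 0) :
    ∫ e in (0 : ℝ)..4, (scD e : ℂ) * (r + r⁻¹ - 2 + e)⁻¹ = r := by
  have hne : ∀ x : ℝ, |x| ≤ 1 → 1 + r ^ 2 - 2 * r * (x : ℂ) ≠ 0 := by
    intro x hx h
    have hx2 : x ^ 2 ≤ 1 := by nlinarith [abs_nonneg x, sq_abs x]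
    have h1 := congrArg Complex.re h
    have h2 := congrArg Complex.im h
    simp only [sq, Complex.sub_re, Complex.add_re, Complex.one_re, Complex.mul_re,
      Complex.re_ofNat, Complex.im_ofNat, Complex.ofReal_re, Complex.ofReal_im, Complex.mul_im,
      Complex.zero_re, Complex.sub_im, Complex.add_im, Complex.one_im, Complex.zero_im] at h1 h2
    have h3 : r.re ^ 2 + r.im ^ 2 < 1 := by
      have := Complex.sq_norm r
      rw [Complex.normSq_apply] at this
      nlinarith [norm_nonneg r]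
    have h4 : r.im * (r.re - x) = 0 := by linarith
    rcases mul_eq_zero.1 h4 with h5 | h5
    · rw [h5] at h1 h3
      nlinarith [sq_nonneg (r.re - x), sq_nonneg (1 - r.re * x), sq_nonneg r.re]
    · have h6 : r.re = x := by linarith
      rw [h6] at h1 h3
      nlinarith
  have hz : ∀ e : ℝ, r + r⁻¹ - 2 + e = (1 + r ^ 2 - 2 * r * ((1 - e / 2 : ℝ) : ℂ)) / r := by
    intro e
    push_cast
    field_simp
    ring
  -- a continuous version of the integrand
  set c : ℝ → ℝ := fun e => max (-1) (min 1 (1 - e / 2)) with hc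
  have hc1 : ∀ e, |c e| ≤ 1 := fun e =>
    abs_le.2 ⟨le_max_left _ _, max_le (by norm_num) (min_le_left _ _)⟩
  have hc2 : ∀ e, 0 ≤ e → e ≤ 4 → c e = 1 - e / 2 := by
    intro e h0 h4
    rw [hc]
    simp only
    rw [min_eq_right (by linarith), max_eq_right (by linarith)]
  set f : ℝ → ℂ := fun e => r / (1 + r ^ 2 - 2 * r * (c e : ℂ)) with hf
  have hfc : Continuous f := by
    refine continuous_const.div ?_ fun e => hne _ (hc1 e)
    have : Continuous c := by rw [hc]; fun_prop
    fun_prop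
  have e1 : ∫ e in (0 : ℝ)..4, (scD e : ℂ) * (r + r⁻¹ - 2 + e)⁻¹ =
      ∫ e in (0 : ℝ)..4, (scD e : ℂ) * f e := by
    refine intervalIntegral.integral_congr fun e he => ?_
    rw [uIcc_of_le (by norm_num)] at he
    simp only [hf]
    rw [hz, inv_div, hc2 e he.1 he.2]
  rw [e1, integral_scD_eq f hfc]
  have hπ : (π : ℂ) ≠ 0 := by exact_mod_cast pi_pos.ne'
  have hr1 : 1 - r ^ 2 ≠ 0 := by
    have := hne 0 (by norm_num)
    intro h
    have h2 : r ^ 2 = 1 := by linear_combination -h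
    have h3 := congrArg norm h2
    rw [norm_pow, norm_one] at h3
    nlinarith [norm_nonneg r]
  have e2 : ∀ θ : ℝ, ((2 / π * sin θ ^ 2 : ℝ) : ℂ) * f (2 - 2 * cos θ) =
      (-(1 - r ^ 2) / (2 * π * r)) * ((1 - r ^ 2) / (1 + r ^ 2 - 2 * r * (cos θ : ℝ))) +
        ((1 + r ^ 2) / (2 * π * r) + ((cos θ : ℝ) : ℂ) / π) := by
    intro θ
    have h1 : c (2 - 2 * cos θ) = cos θ := by
      rw [hc2 _ (by linarith [cos_le_one θ]) (by linarith [neg_one_le_cos θ])]
      ring
    simp only [hf, h1]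
    have h2 := hne (cos θ) (abs_cos_le_one θ)
    have h3 : sin θ ^ 2 = 1 - cos θ ^ 2 := by nlinarith [sin_sq_add_cos_sq θ]
    rw [h3]
    set x : ℝ := cos θ
    push_cast
    set D : ℂ := 1 + r ^ 2 - 2 * r * (x : ℂ) with hD
    field_simp
    rw [hD]
    ring
  simp only [e2]
  have hc3 : Continuous fun θ : ℝ => (1 - r ^ 2) / (1 + r ^ 2 - 2 * r * ((cos θ : ℝ) : ℂ)) :=
    continuous_const.div (by fun_prop) fun θ => hne _ (abs_cos_le_one θ)
  rw [intervalIntegral.integral_add ((hc3.const_mul _).intervalIntegrable _ _)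
    ((by fun_prop : Continuous fun θ : ℝ => (1 + r ^ 2) / (2 * π * r) +
      ((cos θ : ℝ) : ℂ) / π).intervalIntegrable _ _),
    intervalIntegral.integral_const_mul, integral_poisson r hr,
    intervalIntegral.integral_add (continuous_const.intervalIntegrable _ _)
      ((by fun_prop : Continuous fun θ : ℝ => ((cos θ : ℝ) : ℂ) / π).intervalIntegrable _ _),
    intervalIntegral.integral_const, intervalIntegral.integral_div,
    intervalIntegral.integral_ofReal, integral_cos]
  simp only [sub_zero, Real.sin_pi, Real.sin_zero, Complex.real_smul]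
  push_cast
  field_simp
  ring

end Vale.Agent.N150.Edge
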