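import Mathlib
import Vale.Agent.P150.Bdl.B1
import Vale.Agent.N150.SphDef
import Vale.Agent.N150.EdgeDef

/-! Linear images of standard Gaussian measures: the law depends only on the covariance,
convolution, Cameron-Martin shift, Lebesgue density, invariance of the GOE, concentration of the
norm of an affine image. -/

open MeasureTheory ProbabilityTheory Matrix Real
open scoped ENNReal

namespace Vale.Agent.N150.Law

open Vale.Agent.P150 Vale.Agent.P150.F Vale.Agent.N150.Edge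

variable {n : ℕ}

instance instProbGpi (ι : Type*) [Fintype ι] : IsProbabilityMeasure (gpi ι) := by
  unfold gpi; infer_instance

/-! ### the law of a linear image depends only on the covariance -/

theorem charFunDual_map_mulVec {ι κ : Type*} [Fintype ι] [Fintype κ] [DecidableEq κ]
    (A : Matrix κ ι ℝ) (L : StrongDual ℝ (κ → ℝ)) :
    charFunDual ((gpi ι).map (fun w => A.mulVec w)) L = Complex.exp
      (-(((fun k => L (Pi.single k 1)) ⬝ᵥ (A * Aᵀ).mulVec fun k => L (Pi.single k 1)) / 2 : ℝ)) := by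
  have hm : Measurable fun v : κ → ℝ => Complex.exp ((L v : ℝ) * Complex.I) := by fun_prop
  rw [charFunDual_apply, integral_map (measurable_matVec A).aemeasurable hm.aestronglyMeasurable]
  set c : κ → ℝ := fun k => L (Pi.single k 1) with hc
  have e1 : ∀ v : κ → ℝ, L v = ∑ k, c k * v k := dual_eq_sum L
  have e2 : ∀ w : ι → ℝ, L (A.mulVec w) = ∑ i, (Aᵀ.mulVec c) i * w i := by
    intro w
    rw [e1]
    have h1 : ∑ k, c k * A.mulVec w k = c ⬝ᵥ A.mulVec w := rfl
    rw [h1, Matrix.dotProduct_mulVec, ← Matrix.mulVec_transpose]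
    rfl
  have e3 : ∑ i, (Aᵀ.mulVec c) i ^ 2 = c ⬝ᵥ (A * Aᵀ).mulVec c := by
    have h1 : ∑ i, (Aᵀ.mulVec c) i ^ 2 = Aᵀ.mulVec c ⬝ᵥ Aᵀ.mulVec c := by
      simp only [dotProduct, pow_two]
    rw [h1, ← Matrix.mulVec_mulVec, Matrix.dotProduct_mulVec c A, ← Matrix.mulVec_transpose]
  simp_rw [e2]
  rw [integral_cexp_gpi', e3]

theorem map_mulVec_eq {ι ι' κ : Type*} [Fintype ι] [Fintype ι'] [Fintype κ] [DecidableEq κ]
    {A : Matrix κ ι ℝ} {B : Matrix κ ι' ℝ} (h : A * Aᵀ = B * Bᵀ) :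
    (gpi ι).map (fun w => A.mulVec w) = (gpi ι').map (fun w => B.mulVec w) := by
  have : IsProbabilityMeasure ((gpi ι).map (fun w : ι → ℝ => A.mulVec w)) :=
    Measure.isProbabilityMeasure_map (measurable_matVec A).aemeasurable
  have : IsProbabilityMeasure ((gpi ι').map (fun w : ι' → ℝ => B.mulVec w)) :=
    Measure.isProbabilityMeasure_map (measurable_matVec B).aemeasurable
  apply Measure.ext_of_charFunDual
  funext L
  rw [charFunDual_map_mulVec, charFunDual_map_mulVec, h]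

theorem lintegral_mulVec_eq {ι ι' κ : Type*} [Fintype ι] [Fintype ι'] [Fintype κ] [DecidableEq κ]
    {A : Matrix κ ι ℝ} {B : Matrix κ ι' ℝ} (h : A * Aᵀ = B * Bᵀ) {F : (κ → ℝ) → ℝ≥0∞}
    (hF : Measurable F) :
    ∫⁻ w, F (A.mulVec w) ∂gpi ι = ∫⁻ w, F (B.mulVec w) ∂gpi ι' := by
  rw [← lintegral_map hF (measurable_matVec A), ← lintegral_map hF (measurable_matVec B),
    map_mulVec_eq h]

theorem integral_mulVec_eq {ι ι' κ : Type*} [Fintype ι] [Fintype ι'] [Fintype κ] [DecidableEq κ]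
    {A : Matrix κ ι ℝ} {B : Matrix κ ι' ℝ} (h : A * Aᵀ = B * Bᵀ) {F : (κ → ℝ) → ℝ}
    (hF : Measurable F) :
    ∫ w, F (A.mulVec w) ∂gpi ι = ∫ w, F (B.mulVec w) ∂gpi ι' := by
  rw [← integral_map (measurable_matVec A).aemeasurable hF.aestronglyMeasurable,
    ← integral_map (measurable_matVec B).aemeasurable hF.aestronglyMeasurable, map_mulVec_eq h]

/-- convolution of two centred Gaussian laws -/
theorem lintegral_mulVec_add {ι ι₁ ι₂ κ : Type*} [Fintype ι] [Fintype ι₁] [Fintype ι₂] [Fintype κ]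
    [DecidableEq κ] {A : Matrix κ ι ℝ} {A₁ : Matrix κ ι₁ ℝ} {A₂ : Matrix κ ι₂ ℝ}
    (h : A * Aᵀ = A₁ * A₁ᵀ + A₂ * A₂ᵀ) {F : (κ → ℝ) → ℝ≥0∞} (hF : Measurable F) :
    ∫⁻ w, F (A.mulVec w) ∂gpi ι
      = ∫⁻ w₂, ∫⁻ w₁, F (A₁.mulVec w₁ + A₂.mulVec w₂) ∂gpi ι₁ ∂gpi ι₂ := by
  have h1 : A * Aᵀ = Matrix.fromCols A₁ A₂ * (Matrix.fromCols A₁ A₂)ᵀ := by
    rw [h, Matrix.transpose_fromCols, Matrix.fromCols_mul_fromRows]
  rw [lintegral_mulVec_eq h1 hF]
  have hp := measurePreserving_sumPiEquivProdPi_symm (X := fun _ : ι₁ ⊕ ι₂ => ℝ)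
    (fun _ => gaussianReal 0 1)
  have hm : Measurable fun w : ι₁ ⊕ ι₂ → ℝ => F ((Matrix.fromCols A₁ A₂).mulVec w) :=
    hF.comp (measurable_matVec _)
  have e := hp.lintegral_comp hm
  unfold gpi
  rw [← e, lintegral_prod_symm' (fun a : (ι₁ → ℝ) × (ι₂ → ℝ) => F ((Matrix.fromCols A₁ A₂).mulVec
    ((MeasurableEquiv.sumPiEquivProdPi fun _ : ι₁ ⊕ ι₂ => ℝ).symm a))) (hm.comp hp.measurable)]
  refine lintegral_congr fun w₂ => lintegral_congr fun w₁ => ?_
  congr 1
  have : ((MeasurableEquiv.sumPiEquivProdPi fun _ : ι₁ ⊕ ι₂ => ℝ).symm (w₁, w₂))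
      = Sum.elim w₁ w₂ := by
    funext i
    cases i <;> rfl
  rw [this, Matrix.fromCols_mulVec_sumElim]

/-! ### Cameron-Martin -/

theorem lintegral_shift {ι : Type*} [Fintype ι] (a : ι → ℝ) {F : (ι → ℝ) → ℝ≥0∞}
    (hF : Measurable F) :
    ∫⁻ w, F (w + a) ∂gpi ι
      = ∫⁻ w, ENNReal.ofReal (Real.exp (a ⬝ᵥ w - a ⬝ᵥ a / 2)) * F w ∂gpi ι := by
  have hm1 : Measurable fun w : ι → ℝ => F (w + a) := hF.comp (measurable_id.add_const a)
  have hm2 : Measurable fun w : ι → ℝ => ENNReal.ofReal (Real.exp (a ⬝ᵥ w - a ⬝ᵥ a / 2)) * F w := by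
    refine Measurable.mul ?_ hF
    unfold dotProduct
    fun_prop
  rw [lintegral_gpi hm1, lintegral_gpi hm2]
  rw [← lintegral_add_right_eq_self
    (fun w : ι → ℝ => ENNReal.ofReal (gd w) *
      (ENNReal.ofReal (Real.exp (a ⬝ᵥ w - a ⬝ᵥ a / 2)) * F w)) a]
  refine lintegral_congr fun w => ?_
  rw [← mul_assoc, ← ENNReal.ofReal_mul (gd_nonneg _)]
  congr 2
  rw [gd_eq, gd_eq, mul_assoc, ← Real.exp_add]
  congr 2
  have e1 : ∑ i, (w + a) i ^ 2 = ∑ i, w i ^ 2 + 2 * (a ⬝ᵥ w) + a ⬝ᵥ a := by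
    unfold dotProduct
    rw [Finset.mul_sum, ← Finset.sum_add_distrib, ← Finset.sum_add_distrib]
    exact Finset.sum_congr rfl fun i _ => by simp only [Pi.add_apply]; ring
  rw [e1, dotProduct_add]
  ring

/-! ### the Lebesgue density -/

/-- density of the centred Gaussian law with covariance `Q` -/
noncomputable def dens (Q : Mat n) (y : Vec n) : ℝ :=
  (√Q.det)⁻¹ * ((√(2 * π))⁻¹ ^ n * Real.exp (-qf Q⁻¹ y / 2))

theorem dens_nonneg (Q : Mat n) (y : Vec n) : 0 ≤ dens Q y := by unfold dens; positivity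

theorem qf_eq_dot (A : Mat n) (v : Vec n) : qf A v = v ⬝ᵥ A.mulVec v := rfl

theorem lintegral_dens {R Q : Mat n} (hR : R * Rᵀ = Q) (hQ : Q.det ≠ 0) {F : Vec n → ℝ≥0∞}
    (hF : Measurable F) :
    ∫⁻ ξ, F (R.mulVec ξ) ∂gpi (Fin n) = ∫⁻ y, ENNReal.ofReal (dens Q y) * F y := by
  have hdet : Q.det = R.det ^ 2 := by rw [← hR, Matrix.det_mul, Matrix.det_transpose, pow_two]
  have hR0 : R.det ≠ 0 := fun h => hQ (by rw [hdet, h]; simp)
  have hRu : IsUnit R.det := isUnit_iff_ne_zero.2 hR0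
  have hm1 : Measurable fun ξ : Vec n => F (R.mulVec ξ) := hF.comp (measurable_matVec R)
  rw [lintegral_gpi hm1]
  set G : Vec n → ℝ≥0∞ := fun y => ENNReal.ofReal (gd (R⁻¹.mulVec y)) * F y with hG
  have hGm : Measurable G :=
    ((continuous_gd.measurable.comp (measurable_matVec R⁻¹)).ennreal_ofReal).mul hF
  have e1 : ∀ ξ : Vec n, ENNReal.ofReal (gd ξ) * F (R.mulVec ξ) = G (Matrix.toLin' R ξ) := by
    intro ξ
    rw [hG, Matrix.toLin'_apply]
    simp only
    rw [Matrix.mulVec_mulVec, Matrix.nonsing_inv_mul _ hRu, Matrix.one_mulVec]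
  simp_rw [e1]
  have hT : Measurable fun ξ : Vec n => Matrix.toLin' R ξ := by
    simp_rw [Matrix.toLin'_apply]; exact measurable_matVec R
  rw [← lintegral_map hGm hT, Real.map_matrix_volume_pi_eq_smul_volume_pi hR0, lintegral_smul_measure,
    smul_eq_mul, ← lintegral_const_mul _ hGm]
  refine lintegral_congr fun y => ?_
  rw [hG]
  simp only
  rw [← mul_assoc, ← ENNReal.ofReal_mul (abs_nonneg _)]
  congr 2
  unfold dens
  rw [hdet, Real.sqrt_sq_eq_abs, abs_inv, gd_eq, Fintype.card_fin]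
  congr 3
  have e2 : ∑ i, (R⁻¹.mulVec y) i ^ 2 = R⁻¹.mulVec y ⬝ᵥ R⁻¹.mulVec y := by
    simp only [dotProduct, pow_two]
  rw [e2, qf_eq_dot, ← hR, Matrix.mul_inv_rev, ← Matrix.mulVec_mulVec, Matrix.dotProduct_mulVec y,
    ← Matrix.mulVec_transpose, ← Matrix.transpose_nonsing_inv, Matrix.transpose_transpose]

/-- the planted Gaussian law `N(Q x, Q)` has density `exp(⟨y,x⟩ - xᵀQx/2) dens Q y` -/
theorem lintegral_planted {R Q : Mat n} (hR : R * Rᵀ = Q) (hQ : Q.det ≠ 0) (x : Vec n)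
    {F : Vec n → ℝ≥0∞} (hF : Measurable F) :
    ∫⁻ ξ, F (Q.mulVec x + R.mulVec ξ) ∂gpi (Fin n)
      = ∫⁻ y, ENNReal.ofReal (dens Q y) * (ENNReal.ofReal (Real.exp (ip y x - qf Q x / 2)) * F y) := by
  have hm : Measurable fun y : Vec n => ENNReal.ofReal (Real.exp (ip y x - qf Q x / 2)) * F y := by
    refine Measurable.mul ?_ hF
    unfold ip
    fun_prop
  rw [← lintegral_dens hR hQ hm]
  have h1 := lintegral_shift (Rᵀ.mulVec x) (F := fun ξ : Vec n => F (R.mulVec ξ))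
    (hF.comp (measurable_matVec R))
  have e1 : ∀ ξ : Vec n, R.mulVec (ξ + Rᵀ.mulVec x) = Q.mulVec x + R.mulVec ξ := by
    intro ξ
    rw [Matrix.mulVec_add, Matrix.mulVec_mulVec, hR, add_comm]
  simp_rw [e1] at h1
  rw [h1]
  refine lintegral_congr fun ξ => ?_
  congr 4
  · rw [ip_eq_dot, dotProduct_comm (R.mulVec ξ), Matrix.dotProduct_mulVec, Matrix.mulVec_transpose]
  · rw [qf_eq_dot, ← hR, ← Matrix.mulVec_mulVec, Matrix.dotProduct_mulVec x R,
      ← Matrix.mulVec_transpose]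

theorem dens_conj {O : Mat n} (hO : Oᵀ * O = 1) (Q : Mat n) (y : Vec n) :
    dens (O * Q * Oᵀ) (O.mulVec y) = dens Q y := by
  have hO' : O * Oᵀ = 1 := mul_eq_one_comm.1 hO
  have hdO : O.det * O.det = 1 := by
    have := congrArg Matrix.det hO
    rwa [Matrix.det_mul, Matrix.det_transpose, Matrix.det_one] at this
  have hi1 : O⁻¹ = Oᵀ := Matrix.inv_eq_left_inv hO
  have hi2 : Oᵀ⁻¹ = O := Matrix.inv_eq_left_inv hO'
  unfold dens
  have e1 : (O * Q * Oᵀ).det = Q.det := by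
    rw [Matrix.det_mul, Matrix.det_mul, Matrix.det_transpose]
    linear_combination Q.det * hdO
  have e2 : qf (O * Q * Oᵀ)⁻¹ (O.mulVec y) = qf Q⁻¹ y := by
    rw [Matrix.mul_inv_rev, Matrix.mul_inv_rev, hi1, hi2, qf_eq_dot, qf_eq_dot,
      Matrix.mulVec_mulVec, Matrix.mul_assoc, Matrix.mul_assoc, hO, Matrix.mul_one,
      ← Matrix.mulVec_mulVec]
    exact ip_mulVec_orth hO _ _
  rw [e1, e2]

/-- bounds on the quadratic form of the inverse -/
theorem qf_inv_bounds {Q : Mat n} {lam : ℝ} (hlam : 0 < lam) (hQ : ∀ v, lam * F.sq v ≤ qf Q v)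
    (hd : Q.det ≠ 0) (y : Vec n) : 0 ≤ qf Q⁻¹ y ∧ qf Q⁻¹ y ≤ F.sq y / lam := by
  have hu : IsUnit Q.det := isUnit_iff_ne_zero.2 hd
  set u := Q⁻¹.mulVec y with hudef
  have e1 : Q.mulVec u = y := by
    rw [hudef, Matrix.mulVec_mulVec, Matrix.mul_nonsing_inv _ hu, Matrix.one_mulVec]
  have e2 : qf Q⁻¹ y = qf Q u := by
    unfold qf
    rw [e1, ← hudef, ipN_comm]
  have h1 := hQ u
  have h2 : qf Q⁻¹ y ≤ nv y * nv u := ip_le y u
  have h0 : 0 ≤ lam * F.sq u := mul_nonneg hlam.le (sqN_nonneg u)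
  refine ⟨by rw [e2]; linarith, ?_⟩
  rw [le_div_iff₀ hlam, ← nv_sq y]
  rw [← nv_sq u, ← e2] at h1
  have hy := nv_nonneg y
  have hu0 := nv_nonneg u
  have h3 : lam * nv u ≤ nv y := by
    rcases hu0.eq_or_lt with h | h
    · rw [← h]; simpa using hy
    · have : lam * nv u * nv u ≤ nv y * nv u := by nlinarith
      exact le_of_mul_le_mul_right this h
  nlinarith

theorem det_ne_zero_of_pos {Q : Mat n} {lam : ℝ} (hlam : 0 < lam)
    (hQ : ∀ v, lam * F.sq v ≤ qf Q v) : Q.det ≠ 0 := by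
  intro h
  obtain ⟨v, hv, h0⟩ := Matrix.exists_mulVec_eq_zero_iff.2 h
  have h1 := hQ v
  unfold qf at h1
  rw [h0] at h1
  have h2 : ip v 0 = 0 := by simp [ip]
  have h3 := sq_pos' hv
  nlinarith

theorem qf_smul_vec (A : Mat n) (t : ℝ) (y : Vec n) : qf A (t • y) = t ^ 2 * qf A y := by
  unfold qf
  rw [Matrix.mulVec_smul, ip_smul_left, ip_smul_right]
  ring

/-- the density is log-Lipschitz along rays -/
theorem dens_smul_le {Q : Mat n} {lam : ℝ} (hlam : 0 < lam) (hQ : ∀ v, lam * F.sq v ≤ qf Q v)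
    (t : ℝ) (y : Vec n) {D : ℝ} (hD : |F.sq (t • y) - F.sq y| ≤ D) :
    dens Q y ≤ Real.exp (D / (2 * lam)) * dens Q (t • y) := by
  obtain ⟨h1, h2⟩ := qf_inv_bounds hlam hQ (det_ne_zero_of_pos hlam hQ) y
  unfold dens
  have e : -qf Q⁻¹ y / 2 ≤ D / (2 * lam) + -qf Q⁻¹ (t • y) / 2 := by
    rw [qf_smul_vec]
    rw [sq_smul'] at hD
    have h3 : (t ^ 2 - 1) * qf Q⁻¹ y ≤ D / lam := by
      have h4 : (t ^ 2 - 1) * qf Q⁻¹ y ≤ |t ^ 2 - 1| * (F.sq y / lam) :=
        (mul_le_mul_of_nonneg_right (le_abs_self _) h1).trans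
          (mul_le_mul_of_nonneg_left h2 (abs_nonneg _))
      have h5 : |t ^ 2 - 1| * F.sq y ≤ D := by
        have : t ^ 2 * F.sq y - F.sq y = (t ^ 2 - 1) * F.sq y := by ring
        rwa [this, abs_mul, abs_of_nonneg (sqN_nonneg y)] at hD
      calc _ ≤ |t ^ 2 - 1| * (F.sq y / lam) := h4
        _ = |t ^ 2 - 1| * F.sq y / lam := by ring
        _ ≤ D / lam := div_le_div_of_nonneg_right h5 hlam.le
    have h6 : D / (2 * lam) = D / lam / 2 := by field_simp
    rw [h6]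
    linarith
  have h7 := Real.exp_le_exp.2 e
  rw [Real.exp_add] at h7
  have h8 : 0 ≤ (√Q.det)⁻¹ * (√(2 * π))⁻¹ ^ n := by positivity
  calc (√Q.det)⁻¹ * ((√(2 * π))⁻¹ ^ n * Real.exp (-qf Q⁻¹ y / 2))
      = (√Q.det)⁻¹ * (√(2 * π))⁻¹ ^ n * Real.exp (-qf Q⁻¹ y / 2) := by ring
    _ ≤ (√Q.det)⁻¹ * (√(2 * π))⁻¹ ^ n *
        (Real.exp (D / (2 * lam)) * Real.exp (-qf Q⁻¹ (t • y) / 2)) :=
        mul_le_mul_of_nonneg_left h7 h8
    _ = _ := by ring

/-- joint measurability of the density -/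
theorem measurable_dens {X : Type*} [MeasurableSpace X] [TopologicalSpace X] [BorelSpace X]
    {Q : X → Mat n} (hQ : Continuous Q) {y : X → Vec n} (hy : Measurable y) :
    Measurable fun p => dens (Q p) (y p) := by
  have h1 : Measurable fun p => (Q p).det := hQ.matrix_det.measurable
  have h2 : ∀ i j, Measurable fun p => (Q p)⁻¹ i j := by
    intro i j
    have e : (fun p => (Q p)⁻¹ i j) = fun p => ((Q p).det)⁻¹ * (Q p).adjugate i j := by
      funext p
      rw [Matrix.inv_def, Ring.inverse_eq_inv, Matrix.smul_apply, smul_eq_mul]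
    rw [e]
    exact h1.inv.mul ((continuous_apply_apply i j).comp hQ.matrix_adjugate).measurable
  have h3 : ∀ i, Measurable fun p => y p i := fun i => (measurable_pi_apply i).comp hy
  have h4 : Measurable fun p => qf (Q p)⁻¹ (y p) := by
    unfold qf ip Matrix.mulVec dotProduct
    exact Finset.measurable_fun_sum _ fun i _ => (h3 i).mul
      (Finset.measurable_fun_sum _ fun j _ => (h2 i j).mul (h3 j))
  unfold dens
  exact h1.sqrt.inv.mul (measurable_const.mul (h4.neg.div_const 2).exp)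

/-- two vectors of the same length are related by an orthogonal matrix -/
theorem exists_orth {y y' : Vec n} (h : F.sq y = F.sq y') :
    ∃ O : Mat n, Oᵀ * O = 1 ∧ O.mulVec y = y' := by
  by_cases hv : y - y' = 0
  · exact ⟨1, by simp, by rw [Matrix.one_mulVec]; exact sub_eq_zero.1 hv⟩
  set v := y - y' with hvd
  have hp : 0 < F.sq v := sq_pos' hv
  have hvv : Matrix.vecMulVec v v * Matrix.vecMulVec v v = F.sq v • Matrix.vecMulVec v v := by
    ext i j
    simp only [Matrix.mul_apply, Matrix.vecMulVec_apply, Matrix.smul_apply, smul_eq_mul, F.sq,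
      Finset.sum_mul]
    exact Finset.sum_congr rfl fun k _ => by ring
  refine ⟨1 - (2 / F.sq v) • Matrix.vecMulVec v v, ?_, ?_⟩
  · rw [Matrix.transpose_sub, Matrix.transpose_one, Matrix.transpose_smul,
      Matrix.transpose_vecMulVec, Matrix.sub_mul, Matrix.mul_sub, Matrix.mul_sub, Matrix.one_mul,
      Matrix.one_mul, Matrix.mul_one, Matrix.smul_mul, Matrix.mul_smul, hvv, smul_smul, smul_smul]
    have : 2 / F.sq v * (2 / F.sq v) * F.sq v = 2 / F.sq v + 2 / F.sq v := by field_simp; ring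
    rw [this, add_smul]
    abel
  · rw [Matrix.sub_mulVec, Matrix.one_mulVec, Matrix.smul_mulVec, vecMulVec_mulVec]
    have e1 : F.sq v = 2 * ip v y := by
      have e2 : F.sq v = F.sq y - 2 * ip y' y + F.sq y' := by
        rw [hvd]
        unfold F.sq ip
        rw [Finset.mul_sum, ← Finset.sum_sub_distrib, ← Finset.sum_add_distrib]
        exact Finset.sum_congr rfl fun i _ => by simp only [Pi.sub_apply]; ring
      rw [e2, hvd, ip_sub_left, ipN_self, ← h]
      ring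
    rw [smul_smul]
    have e3 : 2 / F.sq v * ip v y = 1 := by
      field_simp
      linarith
    rw [e3, one_smul, hvd]
    abel

/-! ### second moments and concentration of the norm of an affine image -/

section moments
variable {ι : Type*} [Fintype ι]

theorem memLp_lin (c : ι → ℝ) : MemLp (fun g : ι → ℝ => ∑ i, c i * g i) 2 (gpi ι) := by
  refine memLp_finsetSum _ fun i _ => ?_
  have h1 : MemLp (fun x : ℝ => x) 2 (gaussianReal 0 1) := memLp_id_gaussianReal 2
  exact (h1.comp_measurePreserving (measurePreserving_eval _ i)).const_mul (c i)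

theorem integral_lin0 (c : ι → ℝ) : ∫ g : ι → ℝ, ∑ i, c i * g i ∂gpi ι = 0 := by
  have h0 : ∀ i, Integrable (fun g : ι → ℝ => g i) (gpi ι) := fun i =>
    ((memLp_id_gaussianReal 2).comp_measurePreserving
      (measurePreserving_eval (fun _ : ι => gaussianReal 0 1) i)).integrable (by norm_num)
  rw [integral_finsetSum _ fun i _ => (h0 i).const_mul (c i)]
  refine Finset.sum_eq_zero fun i _ => ?_
  have h6 : ∫ g : ι → ℝ, c i * g i ∂gpi ι = c i * ∫ g : ι → ℝ, g i ∂gpi ι := integral_const_mul _ _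
  rw [h6]
  have h7 : ∫ g : ι → ℝ, g i ∂gpi ι = ∫ x, x ∂gaussianReal 0 1 := by
    have hmp := measurePreserving_eval (fun _ : ι => gaussianReal 0 1) i
    rw [← hmp.map_eq, integral_map hmp.measurable.aemeasurable
      (Continuous.aestronglyMeasurable (by fun_prop))]
  rw [h7, integral_id_gaussianReal, mul_zero]

theorem integral_lin2 (c : ι → ℝ) : ∫ g : ι → ℝ, (∑ i, c i * g i) ^ 2 ∂gpi ι = ∑ i, c i ^ 2 := by
  have h1 : ∀ i, MemLp (fun x : ℝ => c i * x) 2 (gaussianReal 0 1) := fun i =>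
    (memLp_id_gaussianReal 2).const_mul (c i)
  have h2 := variance_sum_pi (μ := fun _ : ι => gaussianReal 0 1) h1
  have h3 : ∀ i, Var[fun x : ℝ => c i * x; gaussianReal 0 1] = c i ^ 2 := by
    intro i
    rw [variance_const_mul, variance_fun_id_gaussianReal]
    simp
  simp only [h3] at h2
  rw [← h2]
  have h4 : (∑ i, fun g : ι → ℝ => c i * g i) = fun g : ι → ℝ => ∑ i, c i * g i := by
    funext g; simp
  rw [h4, variance_of_integral_eq_zero _ (integral_lin0 c)]
  exact (memLp_lin c).aestronglyMeasurable.aemeasurable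

theorem integral_sq_aff (B : Matrix (Fin n) ι ℝ) (v : Vec n) :
    ∫ w, F.sq (v + B.mulVec w) ∂gpi ι = F.sq v + (B * Bᵀ).trace := by
  have e : ∀ w : ι → ℝ, F.sq (v + B.mulVec w) = ∑ a, (v a ^ 2 + 2 * v a * (∑ i, B a i * w i)
      + (∑ i, B a i * w i) ^ 2) := by
    intro w
    unfold F.sq
    refine Finset.sum_congr rfl fun a _ => ?_
    have : (v + B.mulVec w) a = v a + ∑ i, B a i * w i := rfl
    rw [this]; ring
  simp_rw [e]
  have i1 : ∀ a, Integrable (fun w : ι → ℝ => ∑ i, B a i * w i) (gpi ι) := fun a =>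
    (memLp_lin _).integrable (by norm_num)
  have i2 : ∀ a, Integrable (fun w : ι → ℝ => (∑ i, B a i * w i) ^ 2) (gpi ι) := fun a =>
    (memLp_lin _).integrable_sq
  have i3 : ∀ a, Integrable (fun w : ι → ℝ => v a ^ 2 + 2 * v a * (∑ i, B a i * w i)) (gpi ι) :=
    fun a => (integrable_const _).add ((i1 a).const_mul _)
  have i4 : ∀ a, Integrable (fun w : ι → ℝ => v a ^ 2 + 2 * v a * (∑ i, B a i * w i)
      + (∑ i, B a i * w i) ^ 2) (gpi ι) := fun a => (i3 a).add (i2 a)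
  rw [integral_finsetSum _ fun a _ => i4 a]
  unfold F.sq Matrix.trace
  rw [← Finset.sum_add_distrib]
  refine Finset.sum_congr rfl fun a _ => ?_
  rw [integral_add (i3 a) (i2 a), integral_add (integrable_const _) ((i1 a).const_mul _),
    integral_const_mul, integral_lin0, integral_lin2]
  simp [Matrix.mul_apply, pow_two]

theorem sq_mulVec_le {B : Matrix (Fin n) ι ℝ} {L : ℝ} (hL : 0 ≤ L)
    (h : ∀ u, qf (B * Bᵀ) u ≤ L ^ 2 * F.sq u) (w : ι → ℝ) :
    nv (B.mulVec w) ≤ L * √(∑ i, w i ^ 2) := by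
  set u := B.mulVec w with hu
  have h1 : F.sq u = (Bᵀ.mulVec u) ⬝ᵥ w := by
    rw [sq_eq_dot, Matrix.mulVec_transpose, ← Matrix.dotProduct_mulVec]
  have h2 : ∑ i, (Bᵀ.mulVec u) i ^ 2 = qf (B * Bᵀ) u := by
    have : ∑ i, (Bᵀ.mulVec u) i ^ 2 = Bᵀ.mulVec u ⬝ᵥ Bᵀ.mulVec u := by
      simp only [dotProduct, pow_two]
    rw [this, qf_eq_dot, ← Matrix.mulVec_mulVec, Matrix.dotProduct_mulVec u B,
      ← Matrix.mulVec_transpose]
  have h3 : ((Bᵀ.mulVec u) ⬝ᵥ w) ^ 2 ≤ (∑ i, (Bᵀ.mulVec u) i ^ 2) * ∑ i, w i ^ 2 :=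
    Finset.sum_mul_sq_le_sq_mul_sq _ _ _
  have hw : 0 ≤ ∑ i, w i ^ 2 := Finset.sum_nonneg fun _ _ => sq_nonneg _
  rw [← h1, h2] at h3
  have h4 : F.sq u ^ 2 ≤ F.sq u * (L ^ 2 * ∑ i, w i ^ 2) := by
    have := mul_le_mul_of_nonneg_right (h u) hw
    nlinarith
  have h5 : F.sq u ≤ L ^ 2 * ∑ i, w i ^ 2 := by
    rcases (sqN_nonneg u).eq_or_lt with h0 | h0
    · rw [← h0]; positivity
    · rw [pow_two] at h4; exact le_of_mul_le_mul_left h4 h0
  refine nv_le_of_sq_le (by positivity) ?_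
  rwa [mul_pow, Real.sq_sqrt hw]

theorem lip_aff {B : Matrix (Fin n) ι ℝ} {L : ℝ} (hL : 0 ≤ L)
    (h : ∀ u, qf (B * Bᵀ) u ≤ L ^ 2 * F.sq u) (v : Vec n) :
    Lip L fun w => nv (v + B.mulVec w) := by
  intro w w'
  have h1 := sq_mulVec_le hL h (w - w')
  have e : v + B.mulVec w - (v + B.mulVec w') = B.mulVec (w - w') := by
    rw [Matrix.mulVec_sub]; abel
  have h2 : nv (v + B.mulVec w) ≤ nv (B.mulVec (w - w')) + nv (v + B.mulVec w') := by
    rw [← e]
    have := nv_add_le (v + B.mulVec w - (v + B.mulVec w')) (v + B.mulVec w')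
    rwa [sub_add_cancel] at this
  have h3 : nv (v + B.mulVec w') ≤ nv (B.mulVec (w - w')) + nv (v + B.mulVec w) := by
    rw [← e, nv_sub_comm]
    have := nv_add_le (v + B.mulVec w' - (v + B.mulVec w)) (v + B.mulVec w)
    rwa [sub_add_cancel] at this
  have h4 : nv (B.mulVec (w - w')) ≤ L * ed w w' := h1
  rw [abs_le]
  constructor <;> linarith

theorem norm_conc_arith {r m M t L S : ℝ} (hr0 : 0 ≤ r) (hm0 : 0 ≤ m) (hM0 : 0 ≤ M)
    (hM : S ≤ M ^ 2) (h0 : 0 ≤ S - m ^ 2) (hv : S - m ^ 2 ≤ 4 * L ^ 2)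
    (hw : t * (2 * M + t) + 4 * L ^ 2 ≤ |r ^ 2 - S|) : t ≤ |r - m| := by
  have hmM : m ≤ M := by
    by_contra hc
    push Not at hc
    nlinarith
  by_contra hc
  have hc' : |r - m| < t := not_le.1 hc
  obtain ⟨h1, h2⟩ := abs_lt.1 hc'
  have ht0 : 0 < t := lt_of_le_of_lt (abs_nonneg _) hc'
  have h3 : |r ^ 2 - m ^ 2| < t * (2 * M + t) := by
    have e2 : r ^ 2 - m ^ 2 = (r - m) * (r + m) := by ring
    rw [e2, abs_mul, abs_of_nonneg (add_nonneg hr0 hm0)]
    calc |r - m| * (r + m) ≤ |r - m| * (2 * M + t) :=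
          mul_le_mul_of_nonneg_left (by linarith) (abs_nonneg _)
      _ < t * (2 * M + t) := mul_lt_mul_of_pos_right hc' (by linarith)
  have h4 := abs_lt.1 h3
  rcases le_abs.1 hw with h5 | h5 <;> linarith [h4.1, h4.2]

/-- concentration of the square of a nonnegative Lipschitz function -/
theorem lip_sq_conc {f : (ι → ℝ) → ℝ} {L M t S : ℝ} (hf : Lip L f) (hL : 0 < L) (ht : 0 ≤ t)
    (hf0 : ∀ w, 0 ≤ f w) (hsq : ∫ w, f w ^ 2 ∂gpi ι = S) (hM0 : 0 ≤ M) (hM : S ≤ M ^ 2) :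
    (gpi ι).real {w | t * (2 * M + t) + 4 * L ^ 2 ≤ |f w ^ 2 - S|}
      ≤ 2 * Real.exp (-(t ^ 2 / (4 * L ^ 2))) := by
  have hv := hf.var_le hL
  have i1 := hf.integrable
  have i2 := hf.integrable_sq
  have ht2 := hf.tail_abs hL ht
  set m := ∫ w', f w' ∂gpi ι with hm
  have hm0 : 0 ≤ m := integral_nonneg hf0
  have e : ∫ w, (f w - m) ^ 2 ∂gpi ι = S - m ^ 2 := by
    have e1 : ∀ w, (f w - m) ^ 2 = (f w ^ 2 - 2 * m * f w) + m ^ 2 := fun w => by ring
    simp_rw [e1]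
    have i3 : Integrable (fun w => 2 * m * f w) (gpi ι) := i1.const_mul _
    have i4 : Integrable (fun w => f w ^ 2 - 2 * m * f w) (gpi ι) := i2.sub i3
    rw [integral_add i4 (integrable_const _), integral_sub i2 i3, integral_const_mul, ← hm, hsq]
    simp only [integral_const, probReal_univ, smul_eq_mul, one_mul]
    ring
  have h0 : 0 ≤ ∫ w, (f w - m) ^ 2 ∂gpi ι := integral_nonneg fun w => sq_nonneg _
  rw [e] at hv h0
  exact le_trans (measureReal_mono fun w hw => norm_conc_arith (hf0 w) hm0 hM0 hM h0 hv hw) ht2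

/-- concentration of the squared norm of an affine image of a Gaussian vector -/
theorem norm_conc {B : Matrix (Fin n) ι ℝ} {L M t : ℝ} (hL : 0 < L) (ht : 0 ≤ t)
    (h : ∀ u, qf (B * Bᵀ) u ≤ L ^ 2 * F.sq u) (v : Vec n) (hM0 : 0 ≤ M)
    (hM : F.sq v + (B * Bᵀ).trace ≤ M ^ 2) :
    (gpi ι).real {w | t * (2 * M + t) + 4 * L ^ 2
        ≤ |F.sq (v + B.mulVec w) - (F.sq v + (B * Bᵀ).trace)|}
      ≤ 2 * Real.exp (-(t ^ 2 / (4 * L ^ 2))) := by
  have hsq := integral_sq_aff B v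
  have hf2 : ∀ w, F.sq (v + B.mulVec w) = nv (v + B.mulVec w) ^ 2 := fun w => (nv_sq _).symm
  simp_rw [hf2] at hsq ⊢
  exact lip_sq_conc (lip_aff hL.le h v) hL ht (fun w => nv_nonneg _) hsq hM0 hM

end moments

/-! ### the GOE -/

section GOE
variable {ι : Type} [Fintype ι] {A : ι → Mat n}

/-- the matrix with the given entries -/
def toM (v : Fin n × Fin n → ℝ) : Mat n := Matrix.of fun a b => v (a, b)

/-- the linear map from the coefficients to the entries -/
def flat (A : ι → Mat n) : Matrix (Fin n × Fin n) ι ℝ := Matrix.of fun p i => A i p.1 p.2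

theorem goeM_apply (A : ι → Mat n) (ω : ι → ℝ) (a b : Fin n) :
    goeM A ω a b = ∑ i, ω i * A i a b := by
  unfold goeM
  rw [Matrix.sum_apply]
  rfl

theorem toM_flat (A : ι → Mat n) (ω : ι → ℝ) : toM ((flat A).mulVec ω) = goeM A ω := by
  ext a b
  rw [goeM_apply]
  simp [toM, flat, Matrix.mulVec, dotProduct, mul_comm]

theorem continuous_toM : Continuous (toM : (Fin n × Fin n → ℝ) → Mat n) := by
  unfold toM
  exact continuous_matrix fun a b => continuous_apply (a, b)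

theorem continuous_goeM (A : ι → Mat n) : Continuous (goeM A) := by
  refine continuous_matrix fun a b => ?_
  simp_rw [goeM_apply]
  fun_prop

theorem goeM_symm (hA : GoeFam A) (ω : ι → ℝ) (a b : Fin n) : goeM A ω a b = goeM A ω b a := by
  rw [goeM_apply, goeM_apply]
  exact Finset.sum_congr rfl fun i _ => by rw [hA.symm i a b]

theorem goeM_add (A : ι → Mat n) (ω a : ι → ℝ) : goeM A (ω + a) = goeM A ω + goeM A a := by
  unfold goeM
  rw [← Finset.sum_add_distrib]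
  exact Finset.sum_congr rfl fun i _ => by rw [Pi.add_apply, add_smul]

theorem ip_goeM (A : ι → Mat n) (ω : ι → ℝ) (u v : Vec n) :
    ip u ((goeM A ω).mulVec v) = ∑ i, ip u ((A i).mulVec v) * ω i := by
  unfold goeM
  rw [Matrix.sum_mulVec, ip_sum_right]
  exact Finset.sum_congr rfl fun i _ => by rw [Matrix.smul_mulVec, ip_smul_right, mul_comm]

/-- covariance of two bilinear forms -/
theorem goe_bil (hA : GoeFam A) (u v u' v' : Vec n) :
    ∑ i, ip u ((A i).mulVec v) * ip u' ((A i).mulVec v')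
      = (ip u u' * ip v v' + ip u v' * ip v u') / n := by
  have e : ∀ (i : ι) (u v : Vec n), ip u ((A i).mulVec v)
      = ∑ p : Fin n × Fin n, u p.1 * v p.2 * A i p.1 p.2 := by
    intro i u v
    unfold ip Matrix.mulVec dotProduct
    rw [Fintype.sum_prod_type]
    refine Finset.sum_congr rfl fun a _ => ?_
    rw [Finset.mul_sum]
    exact Finset.sum_congr rfl fun b _ => by ring
  have e2 : ∑ i, ip u ((A i).mulVec v) * ip u' ((A i).mulVec v')
      = ∑ p : Fin n × Fin n, ∑ q : Fin n × Fin n, u p.1 * v p.2 * (u' q.1 * v' q.2) *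
        ∑ i, A i p.1 p.2 * A i q.1 q.2 := by
    simp_rw [e, Finset.sum_mul_sum]
    rw [Finset.sum_comm]
    refine Finset.sum_congr rfl fun p _ => ?_
    rw [Finset.sum_comm]
    refine Finset.sum_congr rfl fun q _ => ?_
    rw [Finset.mul_sum]
    exact Finset.sum_congr rfl fun i _ => by ring
  rw [e2]
  simp_rw [hA.cov]
  have e3 : ∀ p : Fin n × Fin n, ∑ q : Fin n × Fin n, u p.1 * v p.2 * (u' q.1 * v' q.2) *
      (((if p.1 = q.1 ∧ p.2 = q.2 then 1 else 0) + (if p.1 = q.2 ∧ p.2 = q.1 then 1 else 0)) / (n : ℝ))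
      = (u p.1 * u' p.1 * (v p.2 * v' p.2) + u p.1 * v' p.1 * (v p.2 * u' p.2)) / n := by
    intro p
    have e4 : ∀ q : Fin n × Fin n, u p.1 * v p.2 * (u' q.1 * v' q.2) *
        (((if p.1 = q.1 ∧ p.2 = q.2 then 1 else 0) + (if p.1 = q.2 ∧ p.2 = q.1 then 1 else 0)) / (n : ℝ))
        = (if q = p then u p.1 * u' p.1 * (v p.2 * v' p.2) / n else 0)
          + (if q = (p.2, p.1) then u p.1 * v' p.1 * (v p.2 * u' p.2) / n else 0) := by
      rintro ⟨c, d⟩
      obtain ⟨a, b⟩ := p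
      simp only [Prod.mk.injEq]
      by_cases h1 : a = c ∧ b = d
      · have h1' : c = a ∧ d = b := ⟨h1.1.symm, h1.2.symm⟩
        by_cases h2 : a = d ∧ b = c
        · have h2' : c = b ∧ d = a := ⟨h2.2.symm, h2.1.symm⟩
          rw [if_pos h1, if_pos h2, if_pos h1', if_pos h2']
          obtain ⟨rfl, rfl⟩ := h1
          obtain ⟨rfl, -⟩ := h2
          ring
        · have h2' : ¬ (c = b ∧ d = a) := fun h => h2 ⟨h.2.symm, h.1.symm⟩
          rw [if_pos h1, if_neg h2, if_pos h1', if_neg h2']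
          obtain ⟨rfl, rfl⟩ := h1
          ring
      · have h1' : ¬ (c = a ∧ d = b) := fun h => h1 ⟨h.1.symm, h.2.symm⟩
        by_cases h2 : a = d ∧ b = c
        · have h2' : c = b ∧ d = a := ⟨h2.2.symm, h2.1.symm⟩
          rw [if_neg h1, if_pos h2, if_neg h1', if_pos h2']
          obtain ⟨rfl, rfl⟩ := h2
          ring
        · have h2' : ¬ (c = b ∧ d = a) := fun h => h2 ⟨h.2.symm, h.1.symm⟩
          rw [if_neg h1, if_neg h2, if_neg h1', if_neg h2']
          ring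
    simp_rw [e4]
    rw [Finset.sum_add_distrib, Finset.sum_ite_eq', Finset.sum_ite_eq']
    simp only [Finset.mem_univ, if_true]
    ring
  simp_rw [e3]
  rw [← Finset.sum_div, Finset.sum_add_distrib, Fintype.sum_prod_type, Fintype.sum_prod_type]
  unfold ip
  rw [Finset.sum_mul_sum, Finset.sum_mul_sum]

theorem conj_apply (O B : Mat n) (a b : Fin n) :
    (O * B * Oᵀ) a b = ip (O a) (B.mulVec (O b)) := by
  unfold ip Matrix.mulVec dotProduct
  simp only [Matrix.mul_apply, Matrix.transpose_apply, Finset.sum_mul, Finset.mul_sum]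
  rw [Finset.sum_comm]
  exact Finset.sum_congr rfl fun i _ => Finset.sum_congr rfl fun j _ => by ring

theorem goeFam_conj (hA : GoeFam A) {O : Mat n} (hO : Oᵀ * O = 1) :
    GoeFam fun i => O * A i * Oᵀ := by
  have hO' : O * Oᵀ = 1 := mul_eq_one_comm.1 hO
  have hrow : ∀ a c, ip (O a) (O c) = if a = c then 1 else 0 := by
    intro a c
    have := congrFun (congrFun hO' a) c
    rw [Matrix.mul_apply, Matrix.one_apply] at this
    exact this
  refine ⟨fun i a b => ?_, fun a b c d => ?_⟩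
  · have hs : (A i).IsSymm := by ext a b; exact hA.symm i b a
    rw [conj_apply, conj_apply, ip_mulVec_comm hs, ipN_comm]
  · simp_rw [conj_apply]
    rw [goe_bil hA, hrow, hrow, hrow, hrow]
    congr 2
    · by_cases h1 : a = c <;> by_cases h2 : b = d <;> simp [h1, h2]
    · by_cases h1 : a = d <;> by_cases h2 : b = c <;> simp [h1, h2]

theorem goeM_conj (A : ι → Mat n) (O : Mat n) (ω : ι → ℝ) :
    goeM (fun i => O * A i * Oᵀ) ω = O * goeM A ω * Oᵀ := by
  unfold goeM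
  rw [Matrix.mul_sum, Matrix.sum_mul]
  exact Finset.sum_congr rfl fun i _ => by rw [Matrix.mul_smul, Matrix.smul_mul]

/-- any two GOE families have the same law -/
theorem lintegral_goe_eq {ι' : Type} [Fintype ι'] {A' : ι' → Mat n} (hA : GoeFam A)
    (hA' : GoeFam A') {G : Mat n → ℝ≥0∞} (hG : Measurable fun v => G (toM v)) :
    ∫⁻ ω, G (goeM A ω) ∂gpi ι = ∫⁻ ω, G (goeM A' ω) ∂gpi ι' := by
  have h : flat A * (flat A)ᵀ = flat A' * (flat A')ᵀ := by
    ext p q
    have h1 := hA.cov p.1 p.2 q.1 q.2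
    have h2 := hA'.cov p.1 p.2 q.1 q.2
    simp only [Matrix.mul_apply, Matrix.transpose_apply, flat, Matrix.of_apply]
    rw [h1, h2]
  have := lintegral_mulVec_eq h hG
  simpa only [toM_flat] using this

/-- invariance of the GOE under orthogonal conjugation -/
theorem lintegral_goe_conj (hA : GoeFam A) {O : Mat n} (hO : Oᵀ * O = 1) {G : Mat n → ℝ≥0∞}
    (hG : Measurable fun v => G (toM v)) :
    ∫⁻ ω, G (O * goeM A ω * Oᵀ) ∂gpi ι = ∫⁻ ω, G (goeM A ω) ∂gpi ι := by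
  have := lintegral_goe_eq (goeFam_conj hA hO) hA hG
  simpa only [goeM_conj] using this

/-- the planted GOE: tilting by `exp(σ xᵀWx/2)` shifts `W` by `σ x xᵀ/n` -/
theorem lintegral_goe_tilt (hA : GoeFam A) (σ : ℝ) (x : Vec n) {G : Mat n → ℝ≥0∞}
    (hG : Measurable fun ω => G (goeM A ω)) :
    ∫⁻ ω, ENNReal.ofReal (Real.exp (σ * qf (goeM A ω) x / 2 - σ ^ 2 * F.sq x ^ 2 / (4 * n)))
        * G (goeM A ω) ∂gpi ι
      = ∫⁻ ω, G (goeM A ω + (σ / n) • Matrix.vecMulVec x x) ∂gpi ι := by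
  set a : ι → ℝ := fun i => σ / 2 * qf (A i) x with ha
  have h1 := lintegral_shift a hG
  have e1 : goeM A a = (σ / n) • Matrix.vecMulVec x x := by
    ext c d
    rw [goeM_apply]
    have h2 := goe_bil hA x x (Pi.single c 1) (Pi.single d 1)
    have h3 : ∀ i, ip (Pi.single c 1) ((A i).mulVec (Pi.single d 1)) = A i c d := by
      intro i
      simp [ip, Pi.single_apply]
    have h4 : ∀ c : Fin n, ip x (Pi.single c 1) = x c := by
      intro c
      simp [ip, Pi.single_apply]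
    simp_rw [h3, h4] at h2
    have e2 : ∑ i, a i * A i c d = σ / 2 * ∑ i, ip x ((A i).mulVec x) * A i c d := by
      rw [Finset.mul_sum]
      exact Finset.sum_congr rfl fun i _ => by rw [ha]; unfold qf; ring
    rw [e2, h2, Matrix.smul_apply, Matrix.vecMulVec_apply, smul_eq_mul]
    ring
  simp_rw [goeM_add, e1] at h1
  rw [h1]
  refine lintegral_congr fun ω => ?_
  congr 4
  · unfold qf
    rw [ip_goeM, Finset.mul_sum, Finset.sum_div]
    exact Finset.sum_congr rfl fun i _ => by rw [ha]; unfold qf; ring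
  · have h2 := goe_bil hA x x x x
    have e2 : a ⬝ᵥ a = σ ^ 2 / 4 * ∑ i, ip x ((A i).mulVec x) * ip x ((A i).mulVec x) := by
      unfold dotProduct
      rw [Finset.mul_sum]
      exact Finset.sum_congr rfl fun i _ => by rw [ha]; unfold qf; ring
    rw [e2, h2, ipN_self]
    ring

theorem opLe_conj {O W : Mat n} (hO : Oᵀ * O = 1) {C : ℝ} (h : OpLe W C) :
    OpLe (O * W * Oᵀ) C := by
  have hO' : O * Oᵀ = 1 := mul_eq_one_comm.1 hO
  intro v
  rw [← Matrix.mulVec_mulVec, ← Matrix.mulVec_mulVec, sq_mulVec_orth hO]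
  have h1 := h (Oᵀ.mulVec v)
  rwa [sq_mulVec_orth (O := Oᵀ) (by rw [Matrix.transpose_transpose]; exact hO')] at h1

theorem opLe_conj_iff {O W : Mat n} (hO : Oᵀ * O = 1) {C : ℝ} :
    OpLe (O * W * Oᵀ) C ↔ OpLe W C := by
  have hO' : O * Oᵀ = 1 := mul_eq_one_comm.1 hO
  refine ⟨fun h => ?_, opLe_conj hO⟩
  have h1 := opLe_conj (O := Oᵀ) (by rw [Matrix.transpose_transpose]; exact hO') h
  have e : Oᵀ * (O * W * Oᵀ) * Oᵀᵀ = W := by
    rw [Matrix.transpose_transpose, ← Matrix.mul_assoc, ← Matrix.mul_assoc, hO, Matrix.one_mul,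
      Matrix.mul_assoc, hO, Matrix.mul_one]
  rwa [e] at h1

theorem isClosed_opLe (C : ℝ) : IsClosed {W : Mat n | OpLe W C} := by
  have e : {W : Mat n | OpLe W C} = ⋂ v : Vec n, {W : Mat n | F.sq (W.mulVec v) ≤ C ^ 2 * F.sq v} := by
    ext W
    simp [OpLe]
  rw [e]
  refine isClosed_iInter fun v => isClosed_le ?_ continuous_const
  exact continuous_sq.comp (continuous_id.matrix_mulVec continuous_const)

end GOE

end Vale.Agent.N150.Law
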