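import Vale.Agent.N150.Adm1
import Vale.Agent.N150.EndGauss
import Vale.Agent.N150.Tail

/-! The planted vector and the field `Q x + R ξ` in the eigenframe of `diag Lam - Q`. -/

open Real Finset Matrix MeasureTheory ProbabilityTheory
open scoped ENNReal

namespace Vale.Agent.N150.Adm

open Vale.Agent.N150.Edge Vale.Agent.P150
open Vale.Agent.P150.F (Mat Vec ip qf hsq OpLe nv)

variable {n : ℕ} {ι : Type} [Fintype ι] {Lam mu : Vec n} {U : Mat n} {R : Matrix (Fin n) ι ℝ}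
  {g e0 s0 q : ℝ}

/-- frame data: `U` diagonalises `diag Lam - R Rᵀ` -/
structure Fr (Lam mu : Vec n) (U : Mat n) (R : Matrix (Fin n) ι ℝ) (g e0 s0 q : ℝ) : Prop where
  hU : Uᵀ * U = 1
  hM : Matrix.diagonal Lam - R * Rᵀ = Uᵀ * Matrix.diagonal mu * U
  he : 0 < e0
  hs : 0 < s0
  hq : 0 < q
  hE : ∀ a, e0 ≤ g - Lam a
  hN : ∀ a, s0 ≤ g - mu a
  hQ : ∀ v, qf (R * Rᵀ) v ≤ q * F.sq v

/-- `(g - lam) ^ (-1/2)` -/
noncomputable def dm (lam : Vec n) (g : ℝ) : Mat n := Matrix.diagonal fun a => (√(g - lam a))⁻¹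

/-- `(g - lam) ^ (1/2)` -/
noncomputable def dp (lam : Vec n) (g : ℝ) : Mat n := Matrix.diagonal fun a => √(g - lam a)

/-- the matrix of the planted vector -/
noncomputable def Ax (ι : Type) (Lam : Vec n) (U : Mat n) (g : ℝ) :
    Matrix (Fin n) (Fin n ⊕ ι) ℝ :=
  Matrix.fromCols (U * dm Lam g) 0

/-- the matrix of the normalised posterior fluctuation -/
noncomputable def Az (Lam mu : Vec n) (U : Mat n) (R : Matrix (Fin n) ι ℝ) (g : ℝ) :
    Matrix (Fin n) (Fin n ⊕ ι) ℝ := dm mu g * U * Matrix.fromCols (dp Lam g) (-R)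

/-- the matrix of the normalised noise -/
noncomputable def Ar (mu : Vec n) (U : Mat n) (R : Matrix (Fin n) ι ℝ) (g : ℝ) :
    Matrix (Fin n) (Fin n ⊕ ι) ℝ := dm mu g * U * Matrix.fromCols 0 R

/-- the matrix of the posterior mean -/
noncomputable def Av (Lam mu : Vec n) (U : Mat n) (R : Matrix (Fin n) ι ℝ) (g : ℝ) :
    Matrix (Fin n) (Fin n ⊕ ι) ℝ := Ax ι Lam U g - dm mu g * Az Lam mu U R g

lemma dm_tr (lam : Vec n) (g : ℝ) : (dm lam g)ᵀ = dm lam g := Matrix.diagonal_transpose _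

lemma dp_tr (lam : Vec n) (g : ℝ) : (dp lam g)ᵀ = dp lam g := Matrix.diagonal_transpose _

lemma dm_dp {lam : Vec n} (h : ∀ a, 0 < g - lam a) : dm lam g * dp lam g = 1 := by
  unfold dm dp
  rw [Matrix.diagonal_mul_diagonal, ← Matrix.diagonal_one]
  congr 1
  funext a
  exact inv_mul_cancel₀ (Real.sqrt_pos.2 (h a)).ne'

lemma dp_dp {lam : Vec n} (h : ∀ a, 0 < g - lam a) :
    dp lam g * dp lam g = Matrix.diagonal fun a => g - lam a := by
  unfold dp
  rw [Matrix.diagonal_mul_diagonal]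
  congr 1
  funext a
  exact Real.mul_self_sqrt (h a).le

lemma dm_dm {lam : Vec n} (h : ∀ a, 0 < g - lam a) :
    dm lam g * dm lam g = Matrix.diagonal fun a => (g - lam a)⁻¹ := by
  unfold dm
  rw [Matrix.diagonal_mul_diagonal]
  congr 1
  funext a
  rw [← mul_inv, Real.mul_self_sqrt (h a).le]

lemma diag_sub (lam : Vec n) (g : ℝ) :
    (Matrix.diagonal fun a => g - lam a) = g • (1 : Mat n) - Matrix.diagonal lam := by
  ext a b
  simp only [Matrix.diagonal_apply, Matrix.sub_apply, Matrix.smul_apply, Matrix.one_apply,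
    smul_eq_mul]
  split_ifs <;> simp

lemma qf_conj' (A M : Mat n) (v : Vec n) : qf (A * M * Aᵀ) v = qf M (Aᵀ *ᵥ v) := by
  have h := Plant.qf_conj Aᵀ M v
  rwa [Matrix.transpose_transpose] at h

lemma trace_eq_qf (M : Mat n) : M.trace = ∑ a, qf M (Pi.single a 1) := by
  refine sum_congr rfl fun a _ => ?_
  simp [qf, ip, Pi.single_apply]

lemma real_pre_le {α β : Type*} [MeasurableSpace α] [MeasurableSpace β] {μ : Measure α}
    {ν : Measure β} [IsFiniteMeasure ν] {f : α → β} (h : MeasurePreserving f μ ν) (S : Set β) :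
    μ.real (f ⁻¹' S) ≤ ν.real S := by
  refine ENNReal.toReal_mono (measure_ne_top _ _) ?_
  rw [← h.map_eq]
  exact Measure.le_map_apply h.measurable.aemeasurable S

namespace Fr

variable (h : Fr Lam mu U R g e0 s0 q)
include h

lemma pE (a : Fin n) : 0 < g - Lam a := h.he.trans_le (h.hE a)

lemma pN (a : Fin n) : 0 < g - mu a := h.hs.trans_le (h.hN a)

lemma hU' : U * Uᵀ = 1 := mul_eq_one_comm.1 h.hU

lemma sq_U (v : Vec n) : F.sq (U *ᵥ v) = F.sq v := sq_frame h.hU v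

lemma sq_Ut (v : Vec n) : F.sq (Uᵀ *ᵥ v) = F.sq v :=
  sq_frame (by rw [Matrix.transpose_transpose]; exact h.hU') v

lemma key : U * ((Matrix.diagonal fun a => g - Lam a) + R * Rᵀ)
    = (Matrix.diagonal fun a => g - mu a) * U := by
  have e : (Matrix.diagonal fun a => g - Lam a) + R * Rᵀ
      = g • (1 : Mat n) - Uᵀ * Matrix.diagonal mu * U := by
    rw [diag_sub, ← h.hM]; abel
  rw [e, diag_sub, Matrix.mul_sub, Matrix.sub_mul, Matrix.mul_smul, Matrix.smul_mul,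
    Matrix.mul_one, Matrix.one_mul, ← Matrix.mul_assoc, ← Matrix.mul_assoc, h.hU', Matrix.one_mul]

lemma Az_Az : Az Lam mu U R g * (Az Lam mu U R g)ᵀ = 1 := by
  have e : Matrix.fromCols (dp Lam g) (-R) * (Matrix.fromCols (dp Lam g) (-R))ᵀ
      = (Matrix.diagonal fun a => g - Lam a) + R * Rᵀ := by
    rw [Matrix.transpose_fromCols, Matrix.fromCols_mul_fromRows, dp_tr, dp_dp h.pE,
      Matrix.transpose_neg, Matrix.neg_mul, Matrix.mul_neg, neg_neg]
  unfold Az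
  rw [Matrix.transpose_mul, Matrix.transpose_mul, dm_tr]
  calc _ = dm mu g * (U * (Matrix.fromCols (dp Lam g) (-R) * (Matrix.fromCols (dp Lam g) (-R))ᵀ))
        * (Uᵀ * dm mu g) := by simp only [Matrix.mul_assoc]
    _ = dm mu g * (dp mu g * dp mu g) * (U * Uᵀ) * dm mu g := by
        rw [e, h.key, dp_dp h.pN]; simp only [Matrix.mul_assoc]
    _ = 1 := by
        rw [h.hU', Matrix.mul_one, ← Matrix.mul_assoc, dm_dp h.pN, Matrix.one_mul]
        exact mul_eq_one_comm.1 (dm_dp h.pN)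

lemma Ax_Az : Ax ι Lam U g * (Az Lam mu U R g)ᵀ = dm mu g := by
  unfold Ax Az
  rw [Matrix.transpose_mul, Matrix.transpose_mul, dm_tr, ← Matrix.mul_assoc,
    Matrix.transpose_fromCols, Matrix.fromCols_mul_fromRows, dp_tr, Matrix.zero_mul, add_zero,
    Matrix.mul_assoc U, dm_dp h.pE, Matrix.mul_one, ← Matrix.mul_assoc, h.hU', Matrix.one_mul]

lemma Av_Av : Av Lam mu U R g * (Av Lam mu U R g)ᵀ
    = U * (Matrix.diagonal fun a => (g - Lam a)⁻¹) * Uᵀ
      - Matrix.diagonal fun a => (g - mu a)⁻¹ := by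
  have e1 : Ax ι Lam U g * (Ax ι Lam U g)ᵀ
      = U * (Matrix.diagonal fun a => (g - Lam a)⁻¹) * Uᵀ := by
    unfold Ax
    rw [Matrix.transpose_fromCols, Matrix.fromCols_mul_fromRows, Matrix.zero_mul, add_zero,
      Matrix.transpose_mul, dm_tr, ← dm_dm h.pE]
    simp only [Matrix.mul_assoc]
  have e2 : Az Lam mu U R g * (Ax ι Lam U g)ᵀ = dm mu g := by
    have := congrArg Matrix.transpose h.Ax_Az
    rwa [Matrix.transpose_mul, Matrix.transpose_transpose, dm_tr] at this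
  unfold Av
  rw [Matrix.transpose_sub, Matrix.transpose_mul, dm_tr, Matrix.sub_mul, Matrix.mul_sub,
    Matrix.mul_sub, e1, ← Matrix.mul_assoc, h.Ax_Az, Matrix.mul_assoc (dm mu g), e2,
    Matrix.mul_assoc (dm mu g), ← Matrix.mul_assoc (Az Lam mu U R g), h.Az_Az, Matrix.one_mul,
    sub_self, sub_zero, dm_dm h.pN]

lemma Av_trace : (Av Lam mu U R g * (Av Lam mu U R g)ᵀ).trace = tr 1 Lam g - tr 1 mu g := by
  rw [h.Av_Av, Matrix.trace_sub, Matrix.trace_mul_comm, ← Matrix.mul_assoc, h.hU, Matrix.one_mul,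
    Matrix.trace_diagonal, Matrix.trace_diagonal]
  simp only [tr, pow_one]

lemma Av_qf (u : Vec n) :
    qf (Av Lam mu U R g * (Av Lam mu U R g)ᵀ) u ≤ (√e0)⁻¹ ^ 2 * F.sq u := by
  rw [h.Av_Av, qf_sub', qf_conj', qf_diag, qf_diag, inv_pow, Real.sq_sqrt h.he.le, ← h.sq_Ut u]
  have h1 : 0 ≤ ∑ a, (g - mu a)⁻¹ * u a ^ 2 :=
    sum_nonneg fun a _ => mul_nonneg (inv_nonneg.2 (h.pN a).le) (sq_nonneg _)
  have h2 : ∑ a, (g - Lam a)⁻¹ * (Uᵀ *ᵥ u) a ^ 2 ≤ e0⁻¹ * F.sq (Uᵀ *ᵥ u) := by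
    unfold F.sq
    rw [mul_sum]
    exact sum_le_sum fun a _ =>
      mul_le_mul_of_nonneg_right (inv_anti₀ h.he (h.hE a)) (sq_nonneg _)
  linarith

lemma sq_dm (u : Vec n) : F.sq (dm mu g *ᵥ u) = ∑ a, u a ^ 2 / (g - mu a) := by
  refine sum_congr rfl fun a _ => ?_
  unfold dm
  rw [Matrix.mulVec_diagonal, mul_pow, inv_pow, Real.sq_sqrt (h.pN a).le]
  ring

lemma div_le (u : Vec n) : ∑ a, u a ^ 2 / (g - mu a) ≤ F.sq u / s0 := by
  unfold F.sq
  rw [sum_div]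
  exact sum_le_sum fun a _ => div_le_div_of_nonneg_left (sq_nonneg _) h.hs (h.hN a)

lemma Ar_qf (u : Vec n) :
    qf (Ar mu U R g * (Ar mu U R g)ᵀ) u ≤ q * ∑ a, u a ^ 2 / (g - mu a) := by
  have e : Ar mu U R g * (Ar mu U R g)ᵀ = (dm mu g * U) * (R * Rᵀ) * (dm mu g * U)ᵀ := by
    unfold Ar
    rw [Matrix.transpose_mul (dm mu g * U), Matrix.mul_assoc, ← Matrix.mul_assoc (Matrix.fromCols _ _),
      Matrix.transpose_fromCols, Matrix.fromCols_mul_fromRows, Matrix.zero_mul, zero_add,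
      ← Matrix.mul_assoc]
  rw [e, qf_conj']
  refine (h.hQ _).trans (le_of_eq ?_)
  rw [Matrix.transpose_mul, dm_tr, ← Matrix.mulVec_mulVec, h.sq_Ut, h.sq_dm]

lemma Ar_trace : (Ar mu U R g * (Ar mu U R g)ᵀ).trace ≤ q * tr 1 mu g := by
  rw [trace_eq_qf]
  unfold tr
  rw [mul_sum]
  refine sum_le_sum fun a _ => (h.Ar_qf _).trans (le_of_eq ?_)
  congr 1
  rw [sum_eq_single a (fun b _ hb => by simp [hb]) (by simp)]
  simp

lemma sq_Q (v : Vec n) : F.sq ((R * Rᵀ) *ᵥ v) ≤ q ^ 2 * F.sq v := by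
  have h1 := Law.sq_mulVec_le (B := R) (L := √q) (Real.sqrt_nonneg _)
    (fun u => by rw [Real.sq_sqrt h.hq.le]; exact h.hQ u) (Rᵀ *ᵥ v)
  have h2 : ∑ i, (Rᵀ *ᵥ v) i ^ 2 = qf (R * Rᵀ) v := by
    rw [Law.qf_eq_dot, ← Matrix.mulVec_mulVec, Matrix.dotProduct_mulVec, ← Matrix.mulVec_transpose]
    simp only [dotProduct, pow_two]
  have h3 := pow_le_pow_left₀ (F.nv_nonneg _) h1 2
  rw [F.nv_sq, mul_pow, Real.sq_sqrt h.hq.le, Real.sq_sqrt (sum_nonneg fun _ _ => sq_nonneg _), h2,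
    Matrix.mulVec_mulVec] at h3
  nlinarith [h.hQ v, h.hq]

/-- the field in terms of the planted vector and the fluctuation -/
lemma field_eq (η : Vec n) (ξ : ι → ℝ) (a : Fin n) :
    (U *ᵥ ((R * Rᵀ) *ᵥ (dm Lam g *ᵥ η) + R *ᵥ ξ)) a / (g - mu a)
      = (Av Lam mu U R g *ᵥ Sum.elim η ξ) a := by
  have e1 : dp Lam g *ᵥ η = (Matrix.diagonal fun a => g - Lam a) *ᵥ (dm Lam g *ᵥ η) := by
    rw [Matrix.mulVec_mulVec, ← dp_dp h.pE, Matrix.mul_assoc, mul_eq_one_comm.1 (dm_dp h.pE),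
      Matrix.mul_one]
  have e2 := congrFun (congrArg (fun M => M *ᵥ (dm Lam g *ᵥ η)) h.key) a
  simp only [← Matrix.mulVec_mulVec, Matrix.add_mulVec, Matrix.mulVec_add, Matrix.mulVec_diagonal,
    Pi.add_apply] at e2
  unfold Av Ax Az
  rw [Matrix.sub_mulVec, ← Matrix.mul_assoc, ← Matrix.mul_assoc, dm_dm h.pN,
    Matrix.fromCols_mulVec_sumElim, ← Matrix.mulVec_mulVec, ← Matrix.mulVec_mulVec,
    ← Matrix.mulVec_mulVec, Matrix.fromCols_mulVec_sumElim, e1]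
  simp only [← Matrix.mulVec_mulVec, Matrix.mulVec_add, Matrix.mulVec_diagonal, Pi.add_apply,
    Pi.sub_apply, Matrix.zero_mulVec, add_zero, Matrix.neg_mulVec, Matrix.mulVec_neg, Pi.neg_apply]
  have h1 := (h.pN a).ne'
  field_simp
  linarith

end Fr

end Vale.Agent.N150.Adm
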