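import Vale.Agent.P150.Bdl.B1

set_option linter.all false

/-! P150 at the critical point: the deterministic backward recursion for the tracking functional
`W` along the clipped localisation (crude Gronwall, sharp window with the explicit adjoint
propagator, radial lemma, summation over the windows). -/

open Finset
open scoped Matrix

namespace Vale.Agent.N150.Rec

open Vale.Agent.P150 Vale.Agent.P150.F

variable {n : ℕ}

/-- increasing family of orthogonal projections -/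
structure Flag (P : ℕ → Mat n) : Prop where
  symm : ∀ k, (P k).IsSymm
  idem : ∀ k, P k * P k = P k
  nest : ∀ k, P k * P (k + 1) = P k

theorem Flag.nest' {P : ℕ → Mat n} (hP : Flag P) (k : ℕ) : P (k + 1) * P k = P k := by
  have h := congrArg Matrix.transpose (hP.nest k)
  rwa [Matrix.transpose_mul, (hP.symm k).eq, (hP.symm (k + 1)).eq] at h

theorem Flag.mem_succ {P : ℕ → Mat n} (hP : Flag P) {k : ℕ} {v : Vec n} (h : P k *ᵥ v = v) :
    P (k + 1) *ᵥ v = v := by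
  calc P (k + 1) *ᵥ v = P (k + 1) *ᵥ (P k *ᵥ v) := by rw [h]
    _ = P k *ᵥ v := by rw [Matrix.mulVec_mulVec, hP.nest']
    _ = v := h

theorem Flag.mem_le {P : ℕ → Mat n} (hP : Flag P) {k l : ℕ} (hkl : k ≤ l) {v : Vec n}
    (h : P k *ᵥ v = v) : P l *ᵥ v = v := by
  induction l, hkl using Nat.le_induction with
  | base => exact h
  | succ l _ ih => exact hP.mem_succ ih

theorem Flag.mem_proj {P : ℕ → Mat n} (hP : Flag P) (k : ℕ) (v : Vec n) :
    P k *ᵥ (P k *ᵥ v) = P k *ᵥ v := by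
  rw [Matrix.mulVec_mulVec, hP.idem]

theorem Flag.ip_proj {P : ℕ → Mat n} (hP : Flag P) {k : ℕ} {u : Vec n} (h : P k *ᵥ u = u)
    (v : Vec n) : ip u (P k *ᵥ v) = ip u v := by
  rw [ip_mulVec_comm (hP.symm k), h]

theorem Flag.nv_le {P : ℕ → Mat n} (hP : Flag P) (k : ℕ) (v : Vec n) :
    nv (P k *ᵥ v) ≤ nv v := by
  have h1 : nv (P k *ᵥ v) ^ 2 ≤ nv (P k *ᵥ v) * nv v := by
    rw [nv_sq, ← ipN_self, hP.ip_proj (hP.mem_proj k v)]
    exact ip_le _ _
  rcases (nv_nonneg (P k *ᵥ v)).eq_or_lt with h | h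
  · rw [← h]; exact nv_nonneg v
  · rw [pow_two] at h1
    exact le_of_mul_le_mul_left h1 h

theorem Flag.nv_le_succ {P : ℕ → Mat n} (hP : Flag P) (k : ℕ) (v : Vec n) :
    nv (P k *ᵥ v) ≤ nv (P (k + 1) *ᵥ v) := by
  have h : P k *ᵥ v = P k *ᵥ (P (k + 1) *ᵥ v) := by rw [Matrix.mulVec_mulVec, hP.nest]
  rw [h]
  exact hP.nv_le k _

theorem Flag.abs_ip_le {P : ℕ → Mat n} (hP : Flag P) {k : ℕ} {u : Vec n} (h : P k *ᵥ u = u)
    (v : Vec n) : |ip u v| ≤ nv u * nv (P k *ᵥ v) := by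
  rw [← hP.ip_proj h v]
  exact F.abs_ip_le _ _

/-- the norm of the projection is attained by pairing -/
theorem Flag.nv_le_of_ip {P : ℕ → Mat n} (hP : Flag P) {k : ℕ} {W : Vec n} {B : ℝ} (hB : 0 ≤ B)
    (h : ∀ v, P k *ᵥ v = v → ip v W ≤ B * nv v) : nv (P k *ᵥ W) ≤ B := by
  have h1 := h _ (hP.mem_proj k W)
  rw [← hP.ip_proj (hP.mem_proj k W), ipN_self, ← nv_sq, pow_two] at h1
  rcases (nv_nonneg (P k *ᵥ W)).eq_or_lt with h2 | h2
  · rw [← h2]; exact hB
  · exact le_of_mul_le_mul_right h1 h2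

/-! ### crude Gronwall -/

theorem crude_step {P : ℕ → Mat n} (hP : Flag P) {k : ℕ} {d x : ℝ} {G : Mat n}
    {W W' src : Vec n} (hrec : W - d • (G *ᵥ (P k *ᵥ W)) = W' + src)
    (hG : ∀ u, P k *ᵥ u = u → d * ip u (G *ᵥ u) ≤ x * F.sq u) :
    (1 - x) * nv (P k *ᵥ W) ≤ nv (P (k + 1) *ᵥ W') + nv (P k *ᵥ src) := by
  set w := P k *ᵥ W with hw
  have hm : P k *ᵥ w = w := hP.mem_proj k W
  have h1 : ip w (W - d • (G *ᵥ w)) = ip w W' + ip w src := by rw [hrec, ip_add_right]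
  rw [ip_sub_right, ip_smul_right, ← hP.ip_proj hm W, ← hw, ipN_self] at h1
  have h2 := hG w hm
  have h3 : ip w W' ≤ nv w * nv (P (k + 1) *ᵥ W') :=
    (le_abs_self _).trans (hP.abs_ip_le (hP.mem_succ hm) W')
  have h4 : ip w src ≤ nv w * nv (P k *ᵥ src) := (le_abs_self _).trans (hP.abs_ip_le hm src)
  have h5 : nv w * ((1 - x) * nv w) ≤ nv w * (nv (P (k + 1) *ᵥ W') + nv (P k *ᵥ src)) := by
    have h7 : nv w * ((1 - x) * nv w) = F.sq w - x * F.sq w := by rw [← nv_sq w]; ring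
    rw [h7, mul_add]
    linarith
  rcases (nv_nonneg w).eq_or_lt with h6 | h6
  · rw [← h6, mul_zero]
    exact add_nonneg (nv_nonneg _) (nv_nonneg _)
  · exact le_of_mul_le_mul_left h5 h6

theorem rpow_step {s s' L Lam : ℝ} (hs : 0 < s) (hss : s ≤ s') (hL : 1 ≤ L)
    (hx : Lam * L * (s' - s) ≤ (L - Lam) * s) :
    s ^ L ≤ s' ^ L * (1 - Lam * ((s' - s) / s)) := by
  set x := (s' - s) / s with hxd
  have hx0 : 0 ≤ x := div_nonneg (by linarith) hs.le
  have hs' : s' = s * (1 + x) := by rw [hxd]; field_simp; ring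
  have h1 : Lam * L * x ≤ L - Lam := by
    rw [hxd, ← mul_div_assoc, div_le_iff₀ hs]; exact hx
  have h2 : 1 ≤ (1 + L * x) * (1 - Lam * x) := by nlinarith
  have h3 : 0 < 1 + L * x := by nlinarith
  have h4 : 0 ≤ 1 - Lam * x := by
    by_contra h
    push Not at h
    nlinarith
  have h5 : 1 + L * x ≤ (1 + x) ^ L := one_add_mul_self_le_rpow_one_add (by linarith) hL
  have h6 : 0 < s ^ L := Real.rpow_pos_of_pos hs L
  rw [hs', Real.mul_rpow hs.le (by linarith), mul_assoc]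
  have h7 : 1 ≤ (1 + x) ^ L * (1 - Lam * x) := h2.trans (mul_le_mul_of_nonneg_right h5 h4)
  nlinarith

/-- crude backward Gronwall bound from a one sided form bound -/
theorem crude {P : ℕ → Mat n} (hP : Flag P) {t : ℕ → ℝ} {G : ℕ → Mat n} {W src : ℕ → Vec n}
    {a b : ℕ} (hab : a ≤ b) {L Lam : ℝ} (hL : 1 ≤ L) (ht : ∀ k, a ≤ k → 0 < t k)
    (hmono : ∀ k, t k ≤ t (k + 1))
    (hx : ∀ k, a ≤ k → k < b → Lam * L * (t (k + 1) - t k) ≤ (L - Lam) * t k)
    (hrec : ∀ k, a ≤ k → k < b →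
      W k - (t (k + 1) - t k) • (G k *ᵥ (P k *ᵥ W k)) = W (k + 1) + src k)
    (hG : ∀ k, a ≤ k → k < b → ∀ u, P k *ᵥ u = u → t k * ip u (G k *ᵥ u) ≤ Lam * F.sq u) :
    t a ^ L * nv (P a *ᵥ W a) ≤ t b ^ L * nv (P b *ᵥ W b) +
      ∑ k ∈ Ico a b, t (k + 1) ^ L * nv (P k *ᵥ src k) := by
  induction b, hab using Nat.le_induction with
  | base => simp
  | succ b hab ih =>
    have ih' := ih (fun k h1 h2 => hx k h1 (by omega)) (fun k h1 h2 => hrec k h1 (by omega))
      (fun k h1 h2 => hG k h1 (by omega))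
    rw [Finset.sum_Ico_succ_top hab]
    have htb := ht b hab
    have h1 := crude_step hP (x := Lam * ((t (b + 1) - t b) / t b)) (hrec b hab (by omega))
      (fun u hu => by
        have h2 := hG b hab (by omega) u hu
        have h3 : 0 ≤ (t (b + 1) - t b) / t b := div_nonneg (by linarith [hmono b]) htb.le
        have h4 := mul_le_mul_of_nonneg_left h2 h3
        have h5 : (t (b + 1) - t b) / t b * (t b * ip u (G b *ᵥ u)) =
            (t (b + 1) - t b) * ip u (G b *ᵥ u) := by field_simp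
        rw [h5] at h4
        linarith)
    have h2 := rpow_step htb (hmono b) hL (hx b hab (by omega))
    have h3 : 0 ≤ t (b + 1) ^ L := Real.rpow_nonneg (by linarith [hmono b]) L
    have h4 := mul_le_mul_of_nonneg_right h2 (nv_nonneg (P b *ᵥ W b))
    have h5 := mul_le_mul_of_nonneg_left h1 h3
    nlinarith

theorem mono_le {t : ℕ → ℝ} (hmono : ∀ k, t k ≤ t (k + 1)) {k l : ℕ} (h : k ≤ l) : t k ≤ t l :=
  monotone_nat_of_le_succ hmono h

/-- the sum of the relative steps is logarithmic -/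
theorem sum_rel_le {t : ℕ → ℝ} {a b : ℕ} (hab : a ≤ b) (ht : ∀ k, a ≤ k → 0 < t k)
    (hmono : ∀ k, t k ≤ t (k + 1)) (hx : ∀ k, a ≤ k → k < b → t (k + 1) - t k ≤ t k) :
    ∑ k ∈ Ico a b, (t (k + 1) - t k) / t k ≤ 2 * Real.log (t b / t a) := by
  induction b, hab using Nat.le_induction with
  | base => simp [(ht a le_rfl).ne']
  | succ b hab ih =>
    have ih' := ih (fun k h1 h2 => hx k h1 (by omega))
    rw [Finset.sum_Ico_succ_top hab]
    have ha := ht a le_rfl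
    have hb := ht b hab
    have hb1 := ht (b + 1) (by omega)
    have h1 : Real.log (t (b + 1) / t a) = Real.log (t b / t a) + Real.log (t (b + 1) / t b) := by
      rw [← Real.log_mul (by positivity) (by positivity)]
      congr 1
      field_simp
    have h2 := Real.one_sub_inv_le_log_of_pos (x := t (b + 1) / t b) (by positivity)
    have h3 : (t (b + 1) - t b) / t b ≤ 2 * (1 - (t (b + 1) / t b)⁻¹) := by
      have h4 := hx b hab (by omega)
      have h5 := hmono b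
      rw [inv_div, div_le_iff₀ hb]
      have h6 : 2 * (1 - t b / t (b + 1)) * t b = (t (b + 1) - t b) * (2 * t b / t (b + 1)) := by
        field_simp
      have h7 : 1 ≤ 2 * t b / t (b + 1) := by rw [le_div_iff₀ hb1]; linarith
      rw [h6]
      nlinarith
    linarith

/-- crude bound on a whole window, in the scale invariant form -/
theorem crude_win {P : ℕ → Mat n} (hP : Flag P) {t : ℕ → ℝ} {G : ℕ → Mat n}
    {W src : ℕ → Vec n} {a b : ℕ} {L Lam R η : ℝ} (hL : 1 ≤ L) (hη : 0 ≤ η)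
    (ht : ∀ k, a ≤ k → 0 < t k) (hmono : ∀ k, t k ≤ t (k + 1)) (hR : t b ≤ R * t a)
    (hx1 : ∀ k, a ≤ k → k < b → t (k + 1) - t k ≤ t k)
    (hx : ∀ k, a ≤ k → k < b → Lam * L * (t (k + 1) - t k) ≤ (L - Lam) * t k)
    (hrec : ∀ k, a ≤ k → k < b →
      W k - (t (k + 1) - t k) • (G k *ᵥ (P k *ᵥ W k)) = W (k + 1) + src k)
    (hG : ∀ k, a ≤ k → k < b → ∀ u, P k *ᵥ u = u → t k * ip u (G k *ᵥ u) ≤ Lam * F.sq u)
    (hsrc : ∀ k, a ≤ k → k < b →
      √(t k) * nv (P k *ᵥ src k) ≤ η * ((t (k + 1) - t k) / t k))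
    {k : ℕ} (hak : a ≤ k) (hkb : k ≤ b) :
    √(t k) * nv (P k *ᵥ W k) ≤ R ^ L * (√(t b) * nv (P b *ᵥ W b) + η * (2 * Real.log R)) := by
  have ha := ht a le_rfl
  have hk := ht k hak
  have hb := ht b (by omega)
  have h1 := crude hP hkb hL (fun j hj => ht j (by omega)) hmono
    (fun j h1 h2 => hx j (by omega) h2) (fun j h1 h2 => hrec j (by omega) h2)
    (fun j h1 h2 => hG j (by omega) h2)
  have hkb' : t k ≤ t b := mono_le hmono hkb
  have hak' : t a ≤ t k := mono_le hmono hak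
  have hR1 : 1 ≤ R := by
    by_contra h
    push Not at h
    nlinarith
  have hL0 : 0 ≤ L := by linarith
  have hbR : t b ^ L ≤ R ^ L * t k ^ L := by
    rw [← Real.mul_rpow (by linarith) hk.le]
    exact Real.rpow_le_rpow hb.le (by nlinarith) hL0
  have hkL : 0 < t k ^ L := Real.rpow_pos_of_pos hk L
  have hsk : 0 ≤ √(t k) := Real.sqrt_nonneg _
  have h2 : √(t k) * ∑ j ∈ Ico k b, t (j + 1) ^ L * nv (P j *ᵥ src j) ≤
      t b ^ L * (η * (2 * Real.log R)) := by
    have h3 : ∑ j ∈ Ico k b, (t (j + 1) - t j) / t j ≤ 2 * Real.log R := by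
      refine (sum_rel_le hkb (fun j hj => ht j (by omega)) hmono
        (fun j h1 h2 => hx1 j (by omega) h2)).trans ?_
      refine mul_le_mul_of_nonneg_left (Real.log_le_log (by positivity) ?_) (by norm_num)
      rw [div_le_iff₀ hk]; nlinarith
    calc √(t k) * ∑ j ∈ Ico k b, t (j + 1) ^ L * nv (P j *ᵥ src j)
        = ∑ j ∈ Ico k b, t (j + 1) ^ L * (√(t k) * nv (P j *ᵥ src j)) := by
          rw [Finset.mul_sum]; exact Finset.sum_congr rfl fun j _ => by ring
      _ ≤ ∑ j ∈ Ico k b, t b ^ L * (η * ((t (j + 1) - t j) / t j)) := by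
          refine Finset.sum_le_sum fun j hj => ?_
          rw [Finset.mem_Ico] at hj
          have h4 : √(t k) ≤ √(t j) := Real.sqrt_le_sqrt (mono_le hmono hj.1)
          have h5 := hsrc j (by omega) hj.2
          have h6 : √(t k) * nv (P j *ᵥ src j) ≤ η * ((t (j + 1) - t j) / t j) :=
            (mul_le_mul_of_nonneg_right h4 (nv_nonneg _)).trans h5
          have h7 : t (j + 1) ^ L ≤ t b ^ L :=
            Real.rpow_le_rpow (ht (j + 1) (by omega)).le (mono_le hmono hj.2) hL0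
          exact mul_le_mul h7 h6 (mul_nonneg hsk (nv_nonneg _)) (Real.rpow_nonneg hb.le L)
      _ = t b ^ L * (η * ∑ j ∈ Ico k b, (t (j + 1) - t j) / t j) := by
          rw [Finset.mul_sum, Finset.mul_sum]
      _ ≤ t b ^ L * (η * (2 * Real.log R)) :=
          mul_le_mul_of_nonneg_left (mul_le_mul_of_nonneg_left h3 hη) (Real.rpow_nonneg hb.le L)
  have h3 : √(t k) ≤ √(t b) := Real.sqrt_le_sqrt hkb'
  have hlog : 0 ≤ Real.log R := Real.log_nonneg hR1
  have hS : 0 ≤ √(t b) * nv (P b *ᵥ W b) + η * (2 * Real.log R) :=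
    add_nonneg (mul_nonneg (Real.sqrt_nonneg _) (nv_nonneg _)) (by positivity)
  have h4 : t k ^ L * (√(t k) * nv (P k *ᵥ W k)) ≤
      t b ^ L * (√(t b) * nv (P b *ᵥ W b) + η * (2 * Real.log R)) := by
    have h5 := mul_le_mul_of_nonneg_left h1 hsk
    have h6 : √(t k) * (t b ^ L * nv (P b *ᵥ W b)) ≤ √(t b) * (t b ^ L * nv (P b *ᵥ W b)) :=
      mul_le_mul_of_nonneg_right h3 (mul_nonneg (Real.rpow_nonneg hb.le L) (nv_nonneg _))
    nlinarith
  have h5 := h4.trans (mul_le_mul_of_nonneg_right hbR hS)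
  rw [mul_comm (R ^ L), mul_assoc] at h5
  exact le_of_mul_le_mul_left h5 hkL

/-! ### the explicit adjoint propagator -/

/-- radial damping coefficient of one step -/
noncomputable def cf (t : ℕ → ℝ) (k : ℕ) : ℝ := 1 - √(t k / t (k + 1))

/-- one step of the normalised adjoint flow -/
noncomputable def stp (c : ℝ) (y : Vec n) : Mat n := 1 - (c / F.sq y) • Matrix.vecMulVec y y

/-- normalised adjoint propagator: `j` steps from the index `a` -/
noncomputable def prop (t : ℕ → ℝ) (y : ℕ → Vec n) (a : ℕ) : ℕ → Mat n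
  | 0 => 1
  | j + 1 => stp (cf t (a + j)) (y (a + j)) * prop t y a j

theorem stp_mulVec (c : ℝ) (y v : Vec n) :
    stp c y *ᵥ v = v - (c / F.sq y * ip y v) • y := by
  rw [stp, Matrix.sub_mulVec, Matrix.one_mulVec, Matrix.smul_mulVec, F.vecMulVec_mulVec,
    smul_smul]

theorem eq_zero_of_sq {y : Vec n} (h : F.sq y = 0) : y = 0 := by
  funext i
  have h1 := abs_le_nv y i
  have h2 : nv y = 0 := by rw [nv_eq_sqrt, h, Real.sqrt_zero]
  rw [h2] at h1
  exact abs_nonpos_iff.1 h1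

theorem ip_zero_left (v : Vec n) : ip (0 : Vec n) v = 0 := by simp [ip]

theorem ip_self_stp (c : ℝ) (y v : Vec n) : ip y (stp c y *ᵥ v) = (1 - c) * ip y v := by
  rw [stp_mulVec, ip_sub_right, ip_smul_right, ipN_self]
  by_cases h : F.sq y = 0
  · rw [eq_zero_of_sq h, ip_zero_left]; simp
  · field_simp

theorem nv_stp_le {c : ℝ} (hc0 : 0 ≤ c) (hc1 : c ≤ 1) (y v : Vec n) :
    nv (stp c y *ᵥ v) ≤ nv v := by
  refine nv_le_of_sq_le (nv_nonneg v) ?_
  rw [nv_sq, ← ipN_self, ← ipN_self v]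
  have h1 : ip (stp c y *ᵥ v) (stp c y *ᵥ v) =
      ip v (stp c y *ᵥ v) - (c / F.sq y * ip y v) * ((1 - c) * ip y v) := by
    conv_lhs => rw [stp_mulVec c y v, ip_sub_left, ip_smul_left, ← stp_mulVec, ip_self_stp]
  have h2 : ip v (stp c y *ᵥ v) = ip v v - c / F.sq y * ip y v * ip y v := by
    rw [stp_mulVec, ip_sub_right, ip_smul_right, ipN_comm v y]
  have h3 : 0 ≤ c / F.sq y := div_nonneg hc0 (sqN_nonneg y)
  have h4 : 0 ≤ c / F.sq y * (ip y v * ip y v) := mul_nonneg h3 (mul_self_nonneg _)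
  have h5 : 0 ≤ (1 - c) * (c / F.sq y * (ip y v * ip y v)) := mul_nonneg (by linarith) h4
  rw [h1, h2]
  nlinarith

theorem stp_mem {P : Mat n} {c : ℝ} {y v : Vec n} (hy : P *ᵥ y = y) (hv : P *ᵥ v = v) :
    P *ᵥ (stp c y *ᵥ v) = stp c y *ᵥ v := by
  rw [stp_mulVec, Matrix.mulVec_sub, Matrix.mulVec_smul, hy, hv]

theorem cf_bounds {s s' : ℝ} (hs : 0 < s) (hss : s ≤ s') (hx : s' - s ≤ s) :
    0 ≤ 1 - √(s / s') ∧ 1 - √(s / s') ≤ (s' - s) / s / 2 ∧
      (s' - s) / s / 2 - (1 - √(s / s')) ≤ ((s' - s) / s) ^ 2 / 2 := by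
  set x := (s' - s) / s with hxd
  have hx0 : 0 ≤ x := div_nonneg (by linarith) hs.le
  have hx1 : x ≤ 1 := by rw [hxd, div_le_one hs]; exact hx
  have hs' : 0 < s' := by linarith
  have hq : s / s' = 1 / (1 + x) := by
    have h1 : 1 + x = s' / s := by rw [hxd]; field_simp; ring
    rw [h1, one_div, inv_div]
  have hp : 0 < 1 + x := by linarith
  refine ⟨?_, ?_, ?_⟩
  · have : √(s / s') ≤ 1 := Real.sqrt_le_one.2 (by rw [div_le_one hs']; exact hss)
    linarith
  · have : 1 - x / 2 ≤ √(s / s') := by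
      refine Real.le_sqrt_of_sq_le ?_
      rw [hq, le_div_iff₀ hp]
      nlinarith [mul_nonneg hx0 hx0, mul_nonneg (mul_nonneg hx0 hx0) hx0]
    linarith
  · have : √(s / s') ≤ 1 - x / 2 + x ^ 2 / 2 := by
      refine Real.sqrt_le_iff.2 ⟨by nlinarith, ?_⟩
      rw [hq, div_le_iff₀ hp]
      have h2 : 0 ≤ x ^ 2 := by positivity
      have h3 : 0 ≤ x ^ 3 := by positivity
      have h4 : x ^ 4 ≤ x ^ 3 := by nlinarith
      have h5 : 0 ≤ x ^ 5 := by positivity
      nlinarith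
    linarith

theorem cf_mem {t : ℕ → ℝ} {k : ℕ} (ht : 0 < t k) (hm : t k ≤ t (k + 1)) :
    0 ≤ cf t k ∧ cf t k ≤ 1 := by
  have h1 : √(t k / t (k + 1)) ≤ 1 :=
    Real.sqrt_le_one.2 (by rw [div_le_one (by linarith)]; exact hm)
  have h2 := Real.sqrt_nonneg (t k / t (k + 1))
  constructor <;> (unfold cf; linarith)

theorem prop_succ_mulVec (t : ℕ → ℝ) (y : ℕ → Vec n) (a j : ℕ) (v : Vec n) :
    prop t y a (j + 1) *ᵥ v = stp (cf t (a + j)) (y (a + j)) *ᵥ (prop t y a j *ᵥ v) := by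
  rw [prop, Matrix.mulVec_mulVec]

theorem nv_prop_le {t : ℕ → ℝ} (y : ℕ → Vec n) {a : ℕ} (ht : ∀ k, a ≤ k → 0 < t k)
    (hmono : ∀ k, t k ≤ t (k + 1)) (j : ℕ) (v : Vec n) : nv (prop t y a j *ᵥ v) ≤ nv v := by
  induction j with
  | zero => rw [prop, Matrix.one_mulVec]
  | succ j ih =>
    rw [prop_succ_mulVec]
    have h := cf_mem (ht (a + j) (by omega)) (hmono (a + j))
    exact (nv_stp_le h.1 h.2 _ _).trans ih

theorem prop_mem {P : ℕ → Mat n} (hP : Flag P) (t : ℕ → ℝ) {y : ℕ → Vec n} {a : ℕ} {v : Vec n}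
    (hv : P a *ᵥ v = v) (j : ℕ) (hy : ∀ k, a ≤ k → k < a + j → P k *ᵥ y k = y k) :
    P (a + j) *ᵥ (prop t y a j *ᵥ v) = prop t y a j *ᵥ v := by
  induction j with
  | zero => rw [prop, Matrix.one_mulVec]; exact hv
  | succ j ih =>
    rw [prop_succ_mulVec]
    exact hP.mem_succ (stp_mem (hy (a + j) (by omega) (by omega))
      (ih fun k h1 h2 => hy k h1 (by omega)))

theorem abs_ip_ip_div_le (y u v : Vec n) : |ip y u * ip y v / F.sq y| ≤ nv u * nv v := by
  by_cases h : F.sq y = 0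
  · rw [h, div_zero, abs_zero]; exact mul_nonneg (nv_nonneg _) (nv_nonneg _)
  · have hp : 0 < F.sq y := lt_of_le_of_ne (sqN_nonneg y) (Ne.symm h)
    rw [abs_div, abs_of_pos hp, div_le_iff₀ hp, abs_mul, ← nv_sq]
    have h1 := F.abs_ip_le y u
    have h2 := F.abs_ip_le y v
    calc |ip y u| * |ip y v| ≤ (nv y * nv u) * (nv y * nv v) :=
          mul_le_mul h1 h2 (abs_nonneg _) (mul_nonneg (nv_nonneg _) (nv_nonneg _))
      _ = nv u * nv v * nv y ^ 2 := by ring

theorem sharp_scal {x η c I Q E S A B D : ℝ} (hx0 : 0 ≤ x) (hxη : x ≤ η) (hc0 : 0 ≤ c)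
    (hc1 : c ≤ x / 2) (hc2 : x / 2 - c ≤ x ^ 2 / 2) (hA : 0 ≤ A) (hB : 0 ≤ B)
    (hI : |I| ≤ A * B) (hQb : |Q| ≤ A * B) (hE' : |E| ≤ η * (A * B)) (hsrc : |S| ≤ A * D) :
    |x ^ 2 * I + (1 + x) * ((c - x / 2 - x * c / 2) * Q + x * E + S)| ≤
      (1 + x) * (3 * η * x * B + D) * A := by
  have hη : 0 ≤ η := hx0.trans hxη
  have hcc : |c - x / 2 - x * c / 2| ≤ x ^ 2 := by
    rw [abs_le]
    constructor <;> nlinarith [mul_nonneg hx0 hc0]
  have hN0 : 0 ≤ A * B := mul_nonneg hA hB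
  have hxx : x ^ 2 ≤ η * x := by nlinarith
  have b1 : |x ^ 2 * I| ≤ (1 + x) * (η * x * (A * B)) := by
    rw [abs_mul, abs_of_nonneg (by positivity : (0:ℝ) ≤ x ^ 2)]
    have h1 : x ^ 2 * |I| ≤ η * x * (A * B) :=
      mul_le_mul hxx hI (abs_nonneg _) (mul_nonneg hη hx0)
    have h2 : 0 ≤ x * (η * x * (A * B)) := by positivity
    linarith
  have b2 : |(c - x / 2 - x * c / 2) * Q| ≤ η * x * (A * B) := by
    rw [abs_mul]
    exact mul_le_mul (hcc.trans hxx) hQb (abs_nonneg _) (mul_nonneg hη hx0)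
  have b3 : |x * E| ≤ η * x * (A * B) := by
    rw [abs_mul, abs_of_nonneg hx0]
    have := mul_le_mul_of_nonneg_left hE' hx0
    linarith
  have b4 : |(c - x / 2 - x * c / 2) * Q + x * E + S| ≤
      η * x * (A * B) + η * x * (A * B) + A * D :=
    (abs_add_le _ _).trans (add_le_add ((abs_add_le _ _).trans (add_le_add b2 b3)) hsrc)
  refine (abs_add_le _ _).trans ?_
  rw [abs_mul (1 + x), abs_of_nonneg (by linarith : (0:ℝ) ≤ 1 + x)]
  have b5 := mul_le_mul_of_nonneg_left b4 (by linarith : (0:ℝ) ≤ 1 + x)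
  have b6 : (1 + x) * (3 * η * x * B + D) * A =
      (1 + x) * (η * x * (A * B)) +
        (1 + x) * (η * x * (A * B) + η * x * (A * B) + A * D) := by ring
  rw [b6]
  linarith

/-- one sharp step, paired with the adjoint flow -/
theorem sharp_step {P : ℕ → Mat n} (hP : Flag P) {k : ℕ} {s s' η : ℝ} {G : Mat n}
    {y W W' src ξ : Vec n} (hs : 0 < s) (hss : s ≤ s') (hη1 : η ≤ 1) (hx : s' - s ≤ η * s)
    (hy : P k *ᵥ y = y) (hξ : P k *ᵥ ξ = ξ)
    (hrec : W - (s' - s) • (G *ᵥ (P k *ᵥ W)) = W' + src)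
    (hG : ∀ u v, P k *ᵥ u = u → P k *ᵥ v = v →
      |s * ip u (G *ᵥ v) - (ip u v - ip y u * ip y v / (2 * F.sq y))| ≤ η * nv u * nv v) :
    |ip ξ W - s' / s * ip (stp (1 - √(s / s')) y *ᵥ ξ) W'| ≤
      s' / s * (3 * η * ((s' - s) / s) * nv (P k *ᵥ W) + nv (P k *ᵥ src)) * nv ξ := by
  have hη : 0 ≤ η := by
    by_contra h
    push Not at h
    nlinarith
  obtain ⟨hc0, hc1, hc2⟩ := cf_bounds hs hss (by nlinarith)
  set c := 1 - √(s / s') with hc
  set x := (s' - s) / s with hxd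
  have hx0 : 0 ≤ x := div_nonneg (by linarith) hs.le
  have hxη : x ≤ η := by rw [hxd, div_le_iff₀ hs]; exact hx
  have hτ : s' / s = 1 + x := by rw [hxd]; field_simp; ring
  have hδ : s' - s = x * s := by rw [hxd]; field_simp
  set w := P k *ᵥ W with hw
  have hm : P k *ᵥ w = w := hP.mem_proj k W
  set ξ' := stp c y *ᵥ ξ with hξ'
  have hm' : P k *ᵥ ξ' = ξ' := stp_mem hy hξ
  have hn' : nv ξ' ≤ nv ξ := nv_stp_le hc0 (by linarith) y ξ
  set Q := ip y ξ * ip y w / F.sq y with hQ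
  have hQb : |Q| ≤ nv ξ * nv w := abs_ip_ip_div_le y ξ w
  have hI : |ip ξ w| ≤ nv ξ * nv w := F.abs_ip_le ξ w
  have e1 : ip ξ W = ip ξ w := (hP.ip_proj hξ W).symm
  have e2 : ip ξ' w = ip ξ w - c * Q := by
    rw [hξ', stp_mulVec, ip_sub_left, ip_smul_left, hQ]; ring
  have e3 : ip y ξ' * ip y w / (2 * F.sq y) = (1 - c) * Q / 2 := by
    rw [hξ', ip_self_stp, hQ]; ring
  have e4 : ip ξ' W' = ip ξ' w - x * (s * ip ξ' (G *ᵥ w)) - ip ξ' src := by
    have h1 : ip ξ' (W - (s' - s) • (G *ᵥ w)) = ip ξ' W' + ip ξ' src := by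
      rw [hrec, ip_add_right]
    rw [ip_sub_right, ip_smul_right, ← hP.ip_proj hm' W, ← hw, hδ] at h1
    linarith
  have hE := hG ξ' w hm' hm
  rw [e3, e2] at hE
  set E := s * ip ξ' (G *ᵥ w) - (ip ξ w - c * Q - (1 - c) * Q / 2) with hEd
  have hsrc : |ip ξ' src| ≤ nv ξ * nv (P k *ᵥ src) :=
    (hP.abs_ip_le hm' src).trans (mul_le_mul_of_nonneg_right hn' (nv_nonneg _))
  have hE' : |E| ≤ η * (nv ξ * nv w) := by
    refine hE.trans ?_
    rw [mul_assoc]
    exact mul_le_mul_of_nonneg_left (mul_le_mul_of_nonneg_right hn' (nv_nonneg _)) hη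
  have key : ip ξ W - s' / s * ip ξ' W' = x ^ 2 * ip ξ w +
      (1 + x) * ((c - x / 2 - x * c / 2) * Q + x * E + ip ξ' src) := by
    rw [e1, hτ, e4, e2, hEd]; ring
  rw [key, hτ]
  exact sharp_scal hx0 hxη hc0 hc1 hc2 (nv_nonneg _) (nv_nonneg _) hI hQb hE' hsrc

/-- the hypotheses of the sharp tier on the index range `[a, b]` -/
structure Sharp (t : ℕ → ℝ) (P G : ℕ → Mat n) (y W src : ℕ → Vec n) (η : ℝ) (a b : ℕ) :
    Prop where
  mem : ∀ k, a ≤ k → k ≤ b → P k *ᵥ y k = y k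
  rc : ∀ k, a ≤ k → k < b →
    W k - (t (k + 1) - t k) • (G k *ᵥ (P k *ᵥ W k)) = W (k + 1) + src k
  t1 : ∀ k, a ≤ k → k < b → ∀ u v, P k *ᵥ u = u → P k *ᵥ v = v →
    |t k * ip u (G k *ᵥ v) - (ip u v - ip (y k) u * ip (y k) v / (2 * F.sq (y k)))| ≤
      η * nv u * nv v
  t2 : ∀ k, a ≤ k → k < b → √(t k) * nv (P k *ᵥ src k) ≤ η * ((t (k + 1) - t k) / t k)

theorem Sharp.mono {t : ℕ → ℝ} {P G : ℕ → Mat n} {y W src : ℕ → Vec n} {η : ℝ} {a b a' b' : ℕ}
    (h : Sharp t P G y W src η a b) (ha : a ≤ a') (hb : b' ≤ b) : Sharp t P G y W src η a' b' :=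
  ⟨fun k h1 h2 => h.mem k (by omega) (by omega), fun k h1 h2 => h.rc k (by omega) (by omega),
    fun k h1 h2 => h.t1 k (by omega) (by omega), fun k h1 h2 => h.t2 k (by omega) (by omega)⟩

theorem Sharp.form {t : ℕ → ℝ} {P G : ℕ → Mat n} {y W src : ℕ → Vec n} {η : ℝ} {a b : ℕ}
    (h : Sharp t P G y W src η a b) {k : ℕ} (h1 : a ≤ k) (h2 : k < b) (u : Vec n)
    (hu : P k *ᵥ u = u) : t k * ip u (G k *ᵥ u) ≤ (1 + η) * F.sq u := by
  have h3 := (abs_le.1 (h.t1 k h1 h2 u u hu hu)).2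
  have h4 : 0 ≤ ip (y k) u * ip (y k) u / (2 * F.sq (y k)) :=
    div_nonneg (mul_self_nonneg _) (mul_nonneg (by norm_num) (sqN_nonneg _))
  have h5 : η * nv u * nv u = η * F.sq u := by rw [← nv_sq]; ring
  rw [ipN_self, h5] at h3
  linarith

/-- the sharp window, paired with the adjoint flow -/
theorem sharp_pair {P : ℕ → Mat n} (hP : Flag P) {t : ℕ → ℝ} {G : ℕ → Mat n}
    {y W src : ℕ → Vec n} {η : ℝ} {a : ℕ} (hη1 : η ≤ 1) (ht : ∀ k, a ≤ k → 0 < t k)
    (hmono : ∀ k, t k ≤ t (k + 1)) {v : Vec n} (hv : P a *ᵥ v = v) (j : ℕ)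
    (hx : ∀ k, a ≤ k → k < a + j → t (k + 1) - t k ≤ η * t k)
    (hS : Sharp t P G y W src η a (a + j)) :
    |ip v (W a) - t (a + j) / t a * ip (prop t y a j *ᵥ v) (W (a + j))| ≤
      (∑ k ∈ Ico a (a + j), t (k + 1) / t a *
        (3 * η * ((t (k + 1) - t k) / t k) * nv (P k *ᵥ W k) + nv (P k *ᵥ src k))) * nv v := by
  induction j with
  | zero => simp [prop, (ht a le_rfl).ne']
  | succ j ih =>
    have ih' := ih (fun k h1 h2 => hx k h1 (by omega)) (hS.mono le_rfl (by omega))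
    have ha := ht a le_rfl
    have hk := ht (a + j) (by omega)
    have hmem := prop_mem hP t hv j (fun k h1 h2 => hS.mem k h1 (by omega))
    have h1 := sharp_step hP hk (hmono (a + j)) hη1 (hx (a + j) (by omega) (by omega))
      (hS.mem (a + j) (by omega) (by omega)) hmem (hS.rc (a + j) (by omega) (by omega))
      (hS.t1 (a + j) (by omega) (by omega))
    have hn := nv_prop_le y ht hmono j v
    rw [← add_assoc, Finset.sum_Ico_succ_top (by omega), add_mul, prop_succ_mulVec]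
    set ξ := prop t y a j *ᵥ v
    set B := 3 * η * ((t (a + j + 1) - t (a + j)) / t (a + j)) * nv (P (a + j) *ᵥ W (a + j)) +
      nv (P (a + j) *ᵥ src (a + j)) with hB
    have hη : 0 ≤ η := by
      have h2 := hx (a + j) (by omega) (by omega)
      have h3 := hmono (a + j)
      by_contra h
      push Not at h
      nlinarith
    have hB0 : 0 ≤ B := by
      have h2 : 0 ≤ (t (a + j + 1) - t (a + j)) / t (a + j) :=
        div_nonneg (by linarith [hmono (a + j)]) hk.le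
      have h3 := nv_nonneg (P (a + j) *ᵥ W (a + j))
      have h4 := nv_nonneg (P (a + j) *ᵥ src (a + j))
      positivity
    have hk1 : 0 < t (a + j + 1) := ht _ (by omega)
    have h2 : |t (a + j) / t a * (ip ξ (W (a + j)) - t (a + j + 1) / t (a + j) *
        ip (stp (cf t (a + j)) (y (a + j)) *ᵥ ξ) (W (a + j + 1)))| ≤
        t (a + j + 1) / t a * B * nv v := by
      rw [abs_mul, abs_of_pos (by positivity : 0 < t (a + j) / t a)]
      calc _ ≤ t (a + j) / t a * (t (a + j + 1) / t (a + j) * B * nv ξ) :=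
            mul_le_mul_of_nonneg_left h1 (by positivity)
        _ = t (a + j + 1) / t a * B * nv ξ := by field_simp
        _ ≤ _ := mul_le_mul_of_nonneg_left hn (by positivity)
    have h3 : ip v (W a) - t (a + j + 1) / t a *
        ip (stp (cf t (a + j)) (y (a + j)) *ᵥ ξ) (W (a + j + 1)) =
        (ip v (W a) - t (a + j) / t a * ip ξ (W (a + j))) +
        t (a + j) / t a * (ip ξ (W (a + j)) - t (a + j + 1) / t (a + j) *
        ip (stp (cf t (a + j)) (y (a + j)) *ᵥ ξ) (W (a + j + 1))) := by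
      field_simp; ring
    rw [h3]
    exact (abs_add_le _ _).trans (add_le_add ih' h2)

/-! ### the radial lemma -/

theorem abel (p e : ℕ → ℝ) {k b : ℕ} (h : k ≤ b) :
    ∑ i ∈ Ico k b, p (i + 1) * (e (i + 1) - e i) =
      p b * e b - p k * e k - ∑ i ∈ Ico k b, (p (i + 1) - p i) * e i := by
  induction b, h using Nat.le_induction with
  | base => simp
  | succ b h ih => rw [Finset.sum_Ico_succ_top h, Finset.sum_Ico_succ_top h, ih]; ring

theorem sum_Ico_tele (p : ℕ → ℝ) {k b : ℕ} (h : k ≤ b) :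
    ∑ i ∈ Ico k b, (p (i + 1) - p i) = p b - p k := by
  induction b, h using Nat.le_induction with
  | base => simp
  | succ b h ih => rw [Finset.sum_Ico_succ_top h, ih]; ring

/-- the path events used by the radial lemma on the window `[a, b]` -/
structure Rad (t : ℕ → ℝ) (P : ℕ → Mat n) (y : ℕ → Vec n) (κ η₁ : ℝ) (a b : ℕ) : Prop where
  h1 : ∀ j k, a ≤ j → j ≤ k → k ≤ b →
    |t j * ip (y j) (y k) - t k * F.sq (y j)| ≤ η₁ * (t k * F.sq (y j))
  h3 : ∃ z : Vec n, ∀ k, a ≤ k → k ≤ b →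
    F.sq (P a *ᵥ (y k - t k • z)) / t k ≤ κ ^ 2 * (F.sq (y b) / t b)
  h4 : F.sq (y a) / t a ≤ κ ^ 2 * (F.sq (y b) / t b)

/-- the weighted sum of the future increments of `y / t` -/
noncomputable def fut (t : ℕ → ℝ) (y : ℕ → Vec n) (b k : ℕ) : Vec n :=
  ∑ i ∈ Ico k b, √(t (i + 1)) • ((t (i + 1))⁻¹ • y (i + 1) - (t i)⁻¹ • y i)

theorem ip_fut (t : ℕ → ℝ) (y : ℕ → Vec n) (b k : ℕ) (u : Vec n) (c : ℝ) :
    ip u (fut t y b k) = ∑ i ∈ Ico k b, √(t (i + 1)) *
      ((ip u (y (i + 1)) / t (i + 1) - c) - (ip u (y i) / t i - c)) := by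
  rw [fut, ip_sum_right]
  refine Finset.sum_congr rfl fun i _ => ?_
  rw [ip_smul_right, ip_sub_right, ip_smul_right, ip_smul_right]
  ring

theorem fut_succ (t : ℕ → ℝ) (y : ℕ → Vec n) {b k : ℕ} (h : k < b) :
    fut t y b k = √(t (k + 1)) • ((t (k + 1))⁻¹ • y (k + 1) - (t k)⁻¹ • y k) +
      fut t y b (k + 1) := by
  rw [fut, fut, Finset.sum_eq_sum_Ico_succ_bot h]

theorem nv_div_le {u v : Vec n} {s r κ : ℝ} (hs : 0 < s) (hr : 0 < r) (hκ : 0 ≤ κ)
    (h : F.sq u / s ≤ κ ^ 2 * (F.sq v / r)) : nv u ≤ κ * (nv v / √r) * √s := by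
  refine nv_le_of_sq_le (by have := nv_nonneg v; positivity) ?_
  rw [div_le_iff₀ hs] at h
  rw [mul_pow, mul_pow, div_pow, nv_sq, Real.sq_sqrt hr.le, Real.sq_sqrt hs.le]
  exact h

theorem sqrt_inc_le {s s' : ℝ} (hs : 0 < s) (hss : s ≤ s') :
    √s' - √s ≤ (s' - s) / s / 2 * √s := by
  have h1 : 0 < √s := Real.sqrt_pos.2 hs
  have h2 : √s * √s = s := Real.mul_self_sqrt hs.le
  have h3 : √s' * √s' = s' := Real.mul_self_sqrt (by linarith)
  have h4 : (s' - s) / s / 2 * √s = (s' - s) / (2 * √s) := by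
    rw [div_div, div_mul_eq_mul_div, div_eq_div_iff (by positivity) (by positivity)]
    calc (s' - s) * √s * (2 * √s) = (s' - s) * 2 * (√s * √s) := by ring
      _ = _ := by rw [h2]; ring
  rw [h4, le_div_iff₀ (by positivity)]
  nlinarith [sq_nonneg (√s' - √s)]

theorem ip_self_fut {t : ℕ → ℝ} {P : ℕ → Mat n} {y : ℕ → Vec n} {κ η₁ : ℝ} {a b : ℕ}
    (ht : ∀ k, a ≤ k → 0 < t k) (hmono : ∀ k, t k ≤ t (k + 1)) (hη : 0 ≤ η₁)
    (hR : Rad t P y κ η₁ a b) {k : ℕ} (hak : a ≤ k) (hkb : k ≤ b) :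
    |ip (y k) (fut t y b k)| ≤ 2 * √(t b) * (η₁ * (F.sq (y k) / t k)) := by
  have hk := ht k hak
  set B := η₁ * (F.sq (y k) / t k) with hB
  have hB0 : 0 ≤ B := mul_nonneg hη (div_nonneg (sqN_nonneg _) hk.le)
  have he : ∀ i, k ≤ i → i ≤ b → |ip (y k) (y i) / t i - F.sq (y k) / t k| ≤ B := by
    intro i h1 h2
    have hi := ht i (by omega)
    have h3 := hR.h1 k i hak h1 h2
    have h4 : ip (y k) (y i) / t i - F.sq (y k) / t k =
        (t k * ip (y k) (y i) - t i * F.sq (y k)) / (t i * t k) := by field_simp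
    rw [h4, abs_div, abs_of_pos (mul_pos hi hk), div_le_iff₀ (mul_pos hi hk), hB]
    refine h3.trans (le_of_eq ?_)
    field_simp
  rw [ip_fut t y b k (y k) (F.sq (y k) / t k),
    abel (fun i => √(t i)) (fun i => ip (y k) (y i) / t i - F.sq (y k) / t k) hkb, ipN_self,
    sub_self, mul_zero, sub_zero]
  have h1 : |√(t b) * (ip (y k) (y b) / t b - F.sq (y k) / t k)| ≤ √(t b) * B := by
    rw [abs_mul, abs_of_nonneg (Real.sqrt_nonneg _)]
    exact mul_le_mul_of_nonneg_left (he b hkb le_rfl) (Real.sqrt_nonneg _)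
  have h2 : |∑ i ∈ Ico k b, (√(t (i + 1)) - √(t i)) *
      (ip (y k) (y i) / t i - F.sq (y k) / t k)| ≤ √(t b) * B := by
    refine (Finset.abs_sum_le_sum_abs _ _).trans ?_
    calc _ ≤ ∑ i ∈ Ico k b, (√(t (i + 1)) - √(t i)) * B := by
          refine Finset.sum_le_sum fun i hi => ?_
          rw [Finset.mem_Ico] at hi
          have h3 : 0 ≤ √(t (i + 1)) - √(t i) := sub_nonneg.2 (Real.sqrt_le_sqrt (hmono i))
          rw [abs_mul, abs_of_nonneg h3]
          exact mul_le_mul_of_nonneg_left (he i hi.1 hi.2.le) h3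
      _ = (√(t b) - √(t k)) * B := by
          rw [← Finset.sum_mul, sum_Ico_tele (fun i => √(t i)) hkb]
      _ ≤ √(t b) * B := mul_le_mul_of_nonneg_right (by linarith [Real.sqrt_nonneg (t k)]) hB0
  refine (abs_sub _ _).trans ?_
  linarith

theorem ip_start_fut {t : ℕ → ℝ} {P : ℕ → Mat n} (hP : Flag P) {y : ℕ → Vec n} {κ η₁ : ℝ}
    {a b : ℕ} (hab : a ≤ b) (ht : ∀ k, a ≤ k → 0 < t k) (hmono : ∀ k, t k ≤ t (k + 1))
    (hκ : 0 ≤ κ) (hR : Rad t P y κ η₁ a b) {v : Vec n} (hv : P a *ᵥ v = v) :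
    |ip v (fut t y b a)| ≤ κ * (nv (y b) / √(t b)) * nv v *
      (2 + (∑ i ∈ Ico a b, (t (i + 1) - t i) / t i) / 2) := by
  obtain ⟨z, hz⟩ := hR.h3
  set B := κ * (nv (y b) / √(t b)) * nv v with hB
  have hB0 : 0 ≤ B := by
    have := nv_nonneg (y b)
    have := nv_nonneg v
    positivity
  have he : ∀ i, a ≤ i → i ≤ b → √(t i) * |ip v (y i) / t i - ip v z| ≤ B := by
    intro i h1 h2
    have hi := ht i h1
    have h3 := nv_div_le hi (ht b hab) hκ (hz i h1 h2)
    have h4 := hP.abs_ip_le hv (y i - t i • z)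
    have h5 : ip v (y i) / t i - ip v z = ip v (y i - t i • z) / t i := by
      rw [ip_sub_right, ip_smul_right]; field_simp
    have h6 : √(t i) * √(t i) = t i := Real.mul_self_sqrt hi.le
    have h7 : 0 < √(t i) := Real.sqrt_pos.2 hi
    rw [h5, abs_div, abs_of_pos hi, ← mul_div_assoc, div_le_iff₀ hi]
    calc √(t i) * |ip v (y i - t i • z)|
        ≤ √(t i) * (nv v * (κ * (nv (y b) / √(t b)) * √(t i))) :=
          mul_le_mul_of_nonneg_left (h4.trans (mul_le_mul_of_nonneg_left h3 (nv_nonneg v))) h7.le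
      _ = B * (√(t i) * √(t i)) := by rw [hB]; ring
      _ = B * t i := by rw [h6]
  rw [ip_fut t y b a v (ip v z),
    abel (fun i => √(t i)) (fun i => ip v (y i) / t i - ip v z) hab]
  have h1 : |√(t b) * (ip v (y b) / t b - ip v z)| ≤ B := by
    rw [abs_mul, abs_of_nonneg (Real.sqrt_nonneg _)]; exact he b hab le_rfl
  have h2 : |√(t a) * (ip v (y a) / t a - ip v z)| ≤ B := by
    rw [abs_mul, abs_of_nonneg (Real.sqrt_nonneg _)]; exact he a le_rfl hab
  have h3 : |∑ i ∈ Ico a b, (√(t (i + 1)) - √(t i)) * (ip v (y i) / t i - ip v z)| ≤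
      B * ((∑ i ∈ Ico a b, (t (i + 1) - t i) / t i) / 2) := by
    refine (Finset.abs_sum_le_sum_abs _ _).trans ?_
    rw [Finset.sum_div, Finset.mul_sum]
    refine Finset.sum_le_sum fun i hi => ?_
    rw [Finset.mem_Ico] at hi
    have h4 : 0 ≤ √(t (i + 1)) - √(t i) := sub_nonneg.2 (Real.sqrt_le_sqrt (hmono i))
    have h5 := sqrt_inc_le (ht i hi.1) (hmono i)
    have h6 := he i hi.1 hi.2.le
    have h7 : 0 ≤ (t (i + 1) - t i) / t i / 2 :=
      div_nonneg (div_nonneg (by linarith [hmono i]) (ht i hi.1).le) (by norm_num)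
    rw [abs_mul, abs_of_nonneg h4]
    calc _ ≤ (t (i + 1) - t i) / t i / 2 * √(t i) * |ip v (y i) / t i - ip v z| :=
          mul_le_mul_of_nonneg_right h5 (abs_nonneg _)
      _ = (t (i + 1) - t i) / t i / 2 * (√(t i) * |ip v (y i) / t i - ip v z|) := by ring
      _ ≤ (t (i + 1) - t i) / t i / 2 * B := mul_le_mul_of_nonneg_left h6 h7
      _ = _ := by ring
  have h4 := (abs_sub _ _).trans (add_le_add ((abs_sub _ _).trans (add_le_add h1 h2)) h3)
  linarith

theorem Rad.nv_le {t : ℕ → ℝ} {P : ℕ → Mat n} {y : ℕ → Vec n} {κ η₁ : ℝ} {a b : ℕ}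
    (hR : Rad t P y κ η₁ a b) (ht : ∀ k, a ≤ k → 0 < t k) (hη1 : η₁ ≤ 1 / 2) {k : ℕ}
    (hak : a ≤ k) (hkb : k ≤ b) : nv (y k) / t k ≤ 2 * (nv (y b) / t b) := by
  have hk := ht k hak
  have hb := ht b (by omega)
  have h1 := (abs_le.1 (hR.h1 k b hak hkb le_rfl)).1
  have h2 := ip_le (y k) (y b)
  have h3 : 0 ≤ t b * F.sq (y k) := mul_nonneg hb.le (sqN_nonneg _)
  have h4 : t b * F.sq (y k) ≤ 2 * (t k * (nv (y k) * nv (y b))) := by
    have h5 := mul_le_mul_of_nonneg_left h2 hk.le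
    have h6 := mul_le_mul_of_nonneg_right hη1 h3
    linarith
  rw [← nv_sq] at h4
  rw [← mul_div_assoc, div_le_div_iff₀ hk hb]
  rcases (nv_nonneg (y k)).eq_or_lt with h5 | h5
  · rw [← h5, zero_mul]
    have := nv_nonneg (y b)
    positivity
  · refine le_of_mul_le_mul_left ?_ h5
    nlinarith

/-- the radial component of the adjoint flow is small -/
theorem radial {t : ℕ → ℝ} {P : ℕ → Mat n} (hP : Flag P) {y : ℕ → Vec n} {κ η₁ : ℝ}
    {a m : ℕ} (ht : ∀ k, a ≤ k → 0 < t k) (hmono : ∀ k, t k ≤ t (k + 1))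
    (hx : ∀ k, a ≤ k → k < a + m → t (k + 1) - t k ≤ t k)
    (hκ : 0 ≤ κ) (hη : 0 ≤ η₁) (hη1 : η₁ ≤ 1 / 2) (hR : Rad t P y κ η₁ a (a + m)) {v : Vec n}
    (hv : P a *ᵥ v = v) :
    |ip (y (a + m)) (prop t y a m *ᵥ v)| ≤
      (κ * (3 + (∑ i ∈ Ico a (a + m), (t (i + 1) - t i) / t i) / 2) +
        2 * η₁ * ∑ i ∈ Ico a (a + m), (t (i + 1) - t i) / t i) * nv (y (a + m)) * nv v := by
  set b := a + m with hb
  have htb := ht b (by omega)
  have hsb : 0 < √(t b) := Real.sqrt_pos.2 htb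
  set D := nv (y b) / √(t b) with hD
  have hD0 : 0 ≤ D := div_nonneg (nv_nonneg _) hsb.le
  let Φ : ℕ → ℝ := fun j => √(t (a + j)) * (ip (y (a + j)) (prop t y a j *ᵥ v) / t (a + j)) +
    ip (prop t y a j *ᵥ v) (fut t y b (a + j))
  have step : ∀ j, j < m → |Φ (j + 1) - Φ j| ≤
      2 * η₁ * D * nv v * ((t (a + j + 1) - t (a + j)) / t (a + j)) := by
    intro j hj
    have hk := ht (a + j) (by omega)
    have hk1 := ht (a + j + 1) (by omega)
    set ξ := prop t y a j *ᵥ v with hξ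
    set c := cf t (a + j) with hc
    have hn : nv ξ ≤ nv v := nv_prop_le y ht hmono j v
    have e0 : √(t (a + j + 1)) * (1 - c) = √(t (a + j)) := by
      rw [hc, cf, sub_sub_cancel, ← Real.sqrt_mul hk1.le]
      congr 1
      field_simp
    have e1 : Φ (j + 1) - Φ j = -(c / F.sq (y (a + j)) * ip (y (a + j)) ξ *
        ip (y (a + j)) (fut t y b (a + j))) := by
      have e2 : ip (stp c (y (a + j)) *ᵥ ξ) (fut t y b (a + j)) = ip ξ (fut t y b (a + j)) -
          c / F.sq (y (a + j)) * ip (y (a + j)) ξ * ip (y (a + j)) (fut t y b (a + j)) := by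
        rw [stp_mulVec, ip_sub_left, ip_smul_left]
      have e3 : ip (stp c (y (a + j)) *ᵥ ξ) (fut t y b (a + j)) =
          √(t (a + j + 1)) * (ip (y (a + j + 1)) (stp c (y (a + j)) *ᵥ ξ) / t (a + j + 1) -
            (1 - c) * ip (y (a + j)) ξ / t (a + j)) +
          ip (stp c (y (a + j)) *ᵥ ξ) (fut t y b (a + j + 1)) := by
        rw [fut_succ t y (by omega : a + j < b), ip_add_right, ip_smul_right, ip_sub_right,
          ip_smul_right, ip_smul_right, ipN_comm _ (y (a + j)), ip_self_stp,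
          ipN_comm _ (y (a + j + 1))]
        ring
      show √(t (a + (j + 1))) * (ip (y (a + (j + 1))) (prop t y a (j + 1) *ᵥ v) /
          t (a + (j + 1))) + ip (prop t y a (j + 1) *ᵥ v) (fut t y b (a + (j + 1))) -
        (√(t (a + j)) * (ip (y (a + j)) ξ / t (a + j)) + ip ξ (fut t y b (a + j))) = _
      rw [prop_succ_mulVec, ← add_assoc, ← hξ, ← hc, ← e0]
      linear_combination e2 - e3
    have hc' := cf_bounds hk (hmono (a + j)) (hx (a + j) (by omega) (by omega))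
    have hc0 : 0 ≤ c := hc'.1
    have hc1 : c ≤ (t (a + j + 1) - t (a + j)) / t (a + j) / 2 := hc'.2.1
    have h1 := ip_self_fut ht hmono hη hR (k := a + j) (by omega) (by omega)
    have h2 := hR.nv_le ht hη1 (k := a + j) (by omega) (by omega)
    have h3 : |ip (y (a + j)) ξ| ≤ nv (y (a + j)) * nv v :=
      (F.abs_ip_le _ _).trans (mul_le_mul_of_nonneg_left hn (nv_nonneg _))
    rw [e1, abs_neg]
    by_cases h0 : F.sq (y (a + j)) = 0
    · rw [h0, div_zero, zero_mul, zero_mul, abs_zero]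
      have := nv_nonneg v
      have : 0 ≤ (t (a + j + 1) - t (a + j)) / t (a + j) := by linarith
      positivity
    · have hp : 0 < F.sq (y (a + j)) := lt_of_le_of_ne (sqN_nonneg _) (Ne.symm h0)
      rw [abs_mul, abs_mul, abs_of_nonneg (div_nonneg hc0 hp.le)]
      have h4 : √(t b) * (nv (y b) / t b) = D := by
        rw [hD, eq_div_iff hsb.ne']
        field_simp
        rw [Real.sq_sqrt htb.le, mul_comm]
      have hv0 := nv_nonneg v
      calc c / F.sq (y (a + j)) * |ip (y (a + j)) ξ| * |ip (y (a + j)) (fut t y b (a + j))|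
          ≤ c / F.sq (y (a + j)) * (nv (y (a + j)) * nv v) *
              (2 * √(t b) * (η₁ * (F.sq (y (a + j)) / t (a + j)))) :=
            mul_le_mul (mul_le_mul_of_nonneg_left h3 (div_nonneg hc0 hp.le)) h1 (abs_nonneg _)
              (mul_nonneg (div_nonneg hc0 hp.le) (mul_nonneg (nv_nonneg _) hv0))
        _ = c * (2 * η₁ * nv v * √(t b) * (nv (y (a + j)) / t (a + j))) := by field_simp
        _ ≤ (t (a + j + 1) - t (a + j)) / t (a + j) / 2 *
              (2 * η₁ * nv v * √(t b) * (2 * (nv (y b) / t b))) :=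
            mul_le_mul hc1 (mul_le_mul_of_nonneg_left h2 (by positivity))
              (by have := nv_nonneg (y (a + j)); positivity) (by linarith)
        _ = 2 * η₁ * (√(t b) * (nv (y b) / t b)) * nv v *
              ((t (a + j + 1) - t (a + j)) / t (a + j)) := by ring
        _ = _ := by rw [h4]
  have tele : ∀ j, j ≤ m → |Φ j - Φ 0| ≤
      2 * η₁ * D * nv v * ∑ i ∈ Ico a (a + j), (t (i + 1) - t i) / t i := by
    intro j hj
    induction j with
    | zero => simp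
    | succ j ih =>
      rw [← add_assoc, Finset.sum_Ico_succ_top (by omega), mul_add]
      have h1 := ih (by omega)
      have h2 := step j (by omega)
      have h3 : Φ (j + 1) - Φ 0 = (Φ j - Φ 0) + (Φ (j + 1) - Φ j) := by ring
      rw [h3]
      exact (abs_add_le _ _).trans (add_le_add h1 h2)
  have h1 := tele m le_rfl
  have ha := ht a le_rfl
  have h2 : Φ m = ip (y b) (prop t y a m *ᵥ v) / √(t b) := by
    show √(t b) * (ip (y b) (prop t y a m *ᵥ v) / t b) + ip (prop t y a m *ᵥ v) (fut t y b b) = _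
    rw [fut, Finset.Ico_self, Finset.sum_empty, ipN_comm _ 0, ip_zero_left, add_zero,
      eq_div_iff hsb.ne']
    field_simp
    rw [Real.sq_sqrt htb.le, mul_comm]
  have h3 : |Φ 0| ≤ κ * D * nv v * (3 + (∑ i ∈ Ico a b, (t (i + 1) - t i) / t i) / 2) := by
    have h4 : Φ 0 = √(t a) * (ip (y a) v / t a) + ip v (fut t y b a) := by
      show √(t a) * (ip (y a) (prop t y a 0 *ᵥ v) / t a) +
        ip (prop t y a 0 *ᵥ v) (fut t y b a) = _
      rw [prop, Matrix.one_mulVec]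
    have h5 := ip_start_fut hP (by omega : a ≤ b) ht hmono hκ hR hv
    have h6 := nv_div_le ha htb hκ hR.h4
    have h7 : |√(t a) * (ip (y a) v / t a)| ≤ κ * D * nv v := by
      have h8 : 0 < √(t a) := Real.sqrt_pos.2 ha
      have h9 := Real.mul_self_sqrt ha.le
      rw [abs_mul, abs_of_pos h8, abs_div, abs_of_pos ha, ← mul_div_assoc, div_le_iff₀ ha]
      calc √(t a) * |ip (y a) v| ≤ √(t a) * (κ * D * √(t a) * nv v) :=
            mul_le_mul_of_nonneg_left ((F.abs_ip_le _ _).trans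
              (mul_le_mul_of_nonneg_right h6 (nv_nonneg v))) h8.le
        _ = κ * D * nv v * (√(t a) * √(t a)) := by ring
        _ = _ := by rw [h9]
    rw [h4]
    refine (abs_add_le _ _).trans ?_
    rw [← hD] at h5
    linarith
  have h4 : |Φ m| ≤ |Φ m - Φ 0| + |Φ 0| := by
    have := abs_add_le (Φ m - Φ 0) (Φ 0)
    rwa [sub_add_cancel] at this
  rw [h2, abs_div, abs_of_pos hsb, div_le_iff₀ hsb] at h4
  refine h4.trans ?_
  have h5 : nv (y b) = D * √(t b) := by rw [hD]; field_simp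
  rw [h5]
  rw [h2] at h1
  have h6 := mul_le_mul_of_nonneg_right (add_le_add h1 h3) hsb.le
  refine h6.trans (le_of_eq ?_)
  ring

/-! ### one window, all windows -/

/-- the part of `w` orthogonal to `y` -/
noncomputable def perp (y w : Vec n) : Vec n := w - (ip y w / F.sq y) • y

/-- the compression event on the window `[a, b]` -/
def Comp (t : ℕ → ℝ) (P : ℕ → Mat n) (y W : ℕ → Vec n) (κ : ℝ) (a b : ℕ) : Prop :=
  nv (P a *ᵥ ((prop t y a (b - a))ᵀ *ᵥ perp (y b) (P b *ᵥ W b))) ≤ κ * nv (P b *ᵥ W b)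

theorem ip_mulVec_tr (A : Mat n) (u v : Vec n) : ip (A *ᵥ u) v = ip u (Aᵀ *ᵥ v) := by
  have h1 : ip (A *ᵥ u) v = (A *ᵥ u) ⬝ᵥ v := rfl
  have h2 : ip u (Aᵀ *ᵥ v) = u ⬝ᵥ (Aᵀ *ᵥ v) := rfl
  rw [h1, h2, Matrix.mulVec_transpose, dotProduct_comm u, ← Matrix.dotProduct_mulVec,
    dotProduct_comm]

theorem abs_coef_le {y ξ w : Vec n} {B : ℝ} (hB : 0 ≤ B) (h : |ip y ξ| ≤ B * nv y) :
    |ip y w / F.sq y * ip ξ y| ≤ B * nv w := by
  by_cases h0 : F.sq y = 0
  · rw [h0, div_zero, zero_mul, abs_zero]; exact mul_nonneg hB (nv_nonneg _)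
  · have hp : 0 < F.sq y := lt_of_le_of_ne (sqN_nonneg y) (Ne.symm h0)
    rw [ipN_comm ξ y, div_mul_eq_mul_div, abs_div, abs_of_pos hp, div_le_iff₀ hp, abs_mul,
      ← nv_sq]
    calc |ip y w| * |ip y ξ| ≤ (nv y * nv w) * (B * nv y) :=
          mul_le_mul (F.abs_ip_le y w) h (abs_nonneg _) (mul_nonneg (nv_nonneg _) (nv_nonneg _))
      _ = _ := by ring

theorem window_scal {M0 M1 R ℓ η θ q : ℝ} (hR : 1 ≤ R) (hℓ : 0 ≤ ℓ) (hη : 0 ≤ η) (hM : 0 ≤ M1)
    (hθ : θ ≤ 1 / 4) (hq : 3 * R ^ 4 * η * ℓ ≤ 1 / 4)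
    (h : M0 ≤ θ * M1 + R * (η * ℓ) * (3 * (R ^ 3 * (M1 + η * ℓ)) + 1)) :
    M0 ≤ M1 / 2 + 2 * R * (η * ℓ) := by
  have h1 : θ * M1 ≤ M1 / 4 := by nlinarith
  have h2 : 0 ≤ η * ℓ := mul_nonneg hη hℓ
  have h3 : R * (η * ℓ) * (3 * (R ^ 3 * (M1 + η * ℓ))) = (3 * R ^ 4 * η * ℓ) * (M1 + η * ℓ) := by
    ring
  have h4 : (3 * R ^ 4 * η * ℓ) * (M1 + η * ℓ) ≤ 1 / 4 * (M1 + η * ℓ) :=
    mul_le_mul_of_nonneg_right hq (by linarith)
  have h5 : η * ℓ ≤ R * (η * ℓ) := by nlinarith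
  nlinarith

/-- crude bound inside a sharp window -/
theorem sharp_crude {P : ℕ → Mat n} (hP : Flag P) {t : ℕ → ℝ} {G : ℕ → Mat n}
    {y W src : ℕ → Vec n} {η R : ℝ} {a b : ℕ} (hη : 0 ≤ η) (hη1 : η ≤ 1 / 6)
    (ht : ∀ k, a ≤ k → 0 < t k) (hmono : ∀ k, t k ≤ t (k + 1)) (hR : t b ≤ R * t a)
    (hx : ∀ k, a ≤ k → k < b → t (k + 1) - t k ≤ η * t k)
    (hS : Sharp t P G y W src η a b) {k : ℕ} (hak : a ≤ k) (hkb : k ≤ b) :
    √(t k) * nv (P k *ᵥ W k) ≤ R ^ 3 * (√(t b) * nv (P b *ᵥ W b) + η * (2 * Real.log R)) := by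
  have h := crude_win hP (L := 3) (Lam := 2) (by norm_num) hη ht hmono hR
    (fun j h1 h2 => by have := hx j h1 h2; have := ht j h1; nlinarith)
    (fun j h1 h2 => by have := hx j h1 h2; have := ht j h1; nlinarith) hS.rc
    (fun j h1 h2 u hu => by
      have h3 := hS.form h1 h2 u hu
      have h4 := sqN_nonneg u
      nlinarith) hS.t2 hak hkb
  rwa [show (3:ℝ) = ((3:ℕ):ℝ) by norm_num, Real.rpow_natCast] at h

/-- contraction over one sharp window -/
theorem window {P : ℕ → Mat n} (hP : Flag P) {t : ℕ → ℝ} {G : ℕ → Mat n}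
    {y W src : ℕ → Vec n} {η η₁ κ R : ℝ} {a b : ℕ} (hab : a ≤ b) (hη : 0 ≤ η) (hη1 : η ≤ 1 / 6)
    (hκ : 0 ≤ κ) (hη₁ : 0 ≤ η₁) (hη₁' : η₁ ≤ 1 / 2)
    (ht : ∀ k, a ≤ k → 0 < t k) (hmono : ∀ k, t k ≤ t (k + 1)) (hR : t b ≤ R * t a)
    (hx : ∀ k, a ≤ k → k < b → t (k + 1) - t k ≤ η * t k)
    (hθ : √R * (κ * (4 + Real.log R) + 4 * η₁ * Real.log R) ≤ 1 / 4)
    (hq : 6 * R ^ 4 * η * Real.log R ≤ 1 / 4)
    (hS : Sharp t P G y W src η a b) (hRad : Rad t P y κ η₁ a b) (hC : Comp t P y W κ a b) :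
    √(t a) * nv (P a *ᵥ W a) ≤ √(t b) * nv (P b *ᵥ W b) / 2 + 2 * R * (η * (2 * Real.log R)) := by
  obtain ⟨m, rfl⟩ := Nat.exists_eq_add_of_le hab
  have ha := ht a le_rfl
  have hb := ht (a + m) hab
  have hab' : t a ≤ t (a + m) := mono_le hmono hab
  have hR1 : 1 ≤ R := by
    by_contra h
    push Not at h
    nlinarith
  have hlog : 0 ≤ Real.log R := Real.log_nonneg hR1
  have hx1 : ∀ k, a ≤ k → k < a + m → t (k + 1) - t k ≤ t k := fun j h1 h2 => by
    have := hx j h1 h2; have := ht j h1; nlinarith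
  set Lg := ∑ i ∈ Ico a (a + m), (t (i + 1) - t i) / t i with hLg
  have hLg1 : Lg ≤ 2 * Real.log R := by
    refine (sum_rel_le hab ht hmono hx1).trans ?_
    refine mul_le_mul_of_nonneg_left (Real.log_le_log (by positivity) ?_) (by norm_num)
    rw [div_le_iff₀ ha]; exact hR
  set w := P (a + m) *ᵥ W (a + m) with hw
  set Mb := √(t (a + m)) * nv w with hMb
  have hMb0 : 0 ≤ Mb := mul_nonneg (Real.sqrt_nonneg _) (nv_nonneg _)
  set Mw := R ^ 3 * (Mb + η * (2 * Real.log R)) with hMw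
  have hMw0 : 0 ≤ Mw := by positivity
  have hsa : 0 < √(t a) := Real.sqrt_pos.2 ha
  set th := κ * (4 + Real.log R) + 4 * η₁ * Real.log R with hth
  have hth0 : 0 ≤ th := by positivity
  set Er := ∑ k ∈ Ico a (a + m), t (k + 1) / t a *
    (3 * η * ((t (k + 1) - t k) / t k) * nv (P k *ᵥ W k) + nv (P k *ᵥ src k)) with hEr
  have hEr1 : √(t a) * Er ≤ R * (η * (2 * Real.log R)) * (3 * Mw + 1) := by
    calc √(t a) * Er = ∑ k ∈ Ico a (a + m), t (k + 1) / t a *
          (3 * η * ((t (k + 1) - t k) / t k) * (√(t a) * nv (P k *ᵥ W k)) +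
            √(t a) * nv (P k *ᵥ src k)) := by
          rw [hEr, Finset.mul_sum]; exact Finset.sum_congr rfl fun k _ => by ring
      _ ≤ ∑ k ∈ Ico a (a + m), R * (η * (3 * Mw + 1) * ((t (k + 1) - t k) / t k)) := by
          refine Finset.sum_le_sum fun k hk => ?_
          rw [Finset.mem_Ico] at hk
          have h1 : t (k + 1) / t a ≤ R := by
            rw [div_le_iff₀ ha]; exact (mono_le hmono hk.2).trans hR
          have h2 : √(t a) ≤ √(t k) := Real.sqrt_le_sqrt (mono_le hmono hk.1)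
          have h3 : √(t a) * nv (P k *ᵥ W k) ≤ Mw :=
            (mul_le_mul_of_nonneg_right h2 (nv_nonneg _)).trans
              (sharp_crude hP hη hη1 ht hmono hR hx hS hk.1 hk.2.le)
          have h4 : √(t a) * nv (P k *ᵥ src k) ≤ η * ((t (k + 1) - t k) / t k) :=
            (mul_le_mul_of_nonneg_right h2 (nv_nonneg _)).trans (hS.t2 k hk.1 hk.2)
          have h5 : 0 ≤ (t (k + 1) - t k) / t k :=
            div_nonneg (by linarith [hmono k]) (ht k hk.1).le
          have h6 := mul_le_mul_of_nonneg_left h3 (by positivity :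
            0 ≤ 3 * η * ((t (k + 1) - t k) / t k))
          refine mul_le_mul h1 (by linarith) ?_ (by linarith)
          have := nv_nonneg (P k *ᵥ W k)
          have := nv_nonneg (P k *ᵥ src k)
          positivity
      _ = R * (η * (3 * Mw + 1) * Lg) := by rw [hLg, Finset.mul_sum, Finset.mul_sum]
      _ ≤ R * (η * (3 * Mw + 1) * (2 * Real.log R)) :=
          mul_le_mul_of_nonneg_left (mul_le_mul_of_nonneg_left hLg1 (by positivity))
            (by linarith)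
      _ = _ := by ring
  have hEr0 : 0 ≤ Er := Finset.sum_nonneg fun k hk => by
    rw [Finset.mem_Ico] at hk
    have h5 : 0 ≤ (t (k + 1) - t k) / t k := div_nonneg (by linarith [hmono k]) (ht k hk.1).le
    have := nv_nonneg (P k *ᵥ W k)
    have := nv_nonneg (P k *ᵥ src k)
    have := ht (k + 1) (by omega)
    positivity
  have hmain : nv (P a *ᵥ W a) ≤ t (a + m) / t a * (th * nv w) + Er := by
    refine hP.nv_le_of_ip (by have := nv_nonneg w; positivity) fun v hv => ?_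
    have h1 := (abs_le.1 (sharp_pair hP (by linarith) ht hmono hv m hx hS)).2
    rw [← hEr] at h1
    set ξ := prop t y a m *ᵥ v with hξ
    have hmem : P (a + m) *ᵥ ξ = ξ := prop_mem hP t hv m fun k h1 h2 => hS.mem k h1 h2.le
    have h2 := radial hP ht hmono hx1 hκ hη₁ hη₁' hRad hv
    rw [← hLg, ← hξ] at h2
    have h3 : ip ξ (W (a + m)) = ip ξ (perp (y (a + m)) w) +
        ip (y (a + m)) w / F.sq (y (a + m)) * ip ξ (y (a + m)) := by
      rw [← hP.ip_proj hmem, ← hw, perp, ip_sub_right, ip_smul_right]; ring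
    have h4 : ip ξ (perp (y (a + m)) w) ≤ nv v * (κ * nv w) := by
      rw [hξ, ip_mulVec_tr]
      refine (le_abs_self _).trans ((hP.abs_ip_le hv _).trans ?_)
      refine mul_le_mul_of_nonneg_left ?_ (nv_nonneg v)
      have h5 := hC
      rw [Comp, Nat.add_sub_cancel_left] at h5
      exact h5
    have hv0 := nv_nonneg v
    have hLg0 : 0 ≤ Lg := Finset.sum_nonneg fun k hk => by
      rw [Finset.mem_Ico] at hk
      exact div_nonneg (by linarith [hmono k]) (ht k hk.1).le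
    have h5 : |ip (y (a + m)) ξ| ≤ ((κ * (3 + Real.log R) + 4 * η₁ * Real.log R) * nv v) *
        nv (y (a + m)) := by
      refine h2.trans ?_
      rw [mul_right_comm]
      refine mul_le_mul_of_nonneg_right (mul_le_mul_of_nonneg_right ?_ hv0) (nv_nonneg _)
      have h6 := mul_le_mul_of_nonneg_left hLg1 hκ
      have h7 := mul_le_mul_of_nonneg_left hLg1 hη₁
      linarith
    have h6 := (le_abs_self _).trans (abs_coef_le (w := w) (by positivity) h5)
    have h7 : ip ξ (W (a + m)) ≤ th * nv w * nv v := by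
      rw [h3, hth]; linarith
    have h8 := mul_le_mul_of_nonneg_left h7 (by positivity : 0 ≤ t (a + m) / t a)
    linarith
  have h9 : √(t a) * (t (a + m) / t a * (th * nv w)) ≤ √R * th * Mb := by
    have h1 : √(t a) * (t (a + m) / t a) ≤ √R * √(t (a + m)) := by
      rw [← Real.sqrt_mul (by linarith)]
      refine Real.le_sqrt_of_sq_le ?_
      rw [mul_pow, Real.sq_sqrt ha.le]
      have h2 : t a * (t (a + m) / t a) ^ 2 = t (a + m) / t a * t (a + m) := by field_simp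
      rw [h2]
      refine mul_le_mul_of_nonneg_right ?_ hb.le
      rw [div_le_iff₀ ha]; exact hR
    have h2 := mul_le_mul_of_nonneg_right h1 (mul_nonneg hth0 (nv_nonneg w))
    rw [hMb]
    linarith
  have h10 := mul_le_mul_of_nonneg_left hmain hsa.le
  refine window_scal (q := 0) hR1 (by positivity : 0 ≤ 2 * Real.log R) hη hMb0 hθ
    (by linarith) ?_
  rw [← hMw]
  linarith

/-- the hypotheses of the crude tier on the index range `[a, b]` -/
structure Crude (t : ℕ → ℝ) (P G : ℕ → Mat n) (W src : ℕ → Vec n) (Lam η : ℝ) (a b : ℕ) :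
    Prop where
  rc : ∀ k, a ≤ k → k < b →
    W k - (t (k + 1) - t k) • (G k *ᵥ (P k *ᵥ W k)) = W (k + 1) + src k
  form : ∀ k, a ≤ k → k < b → ∀ u, P k *ᵥ u = u → t k * ip u (G k *ᵥ u) ≤ Lam * F.sq u
  t2 : ∀ k, a ≤ k → k < b → √(t k) * nv (P k *ᵥ src k) ≤ η * ((t (k + 1) - t k) / t k)

theorem exists_window {a : ℕ → ℕ} {J k : ℕ} (h1 : a J ≤ k) (h2 : k < a 0) :
    ∃ j, j < J ∧ a (j + 1) ≤ k ∧ k < a j := by
  induction J with
  | zero => omega
  | succ J ih =>
    by_cases h : a J ≤ k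
    · obtain ⟨j, hj, h3⟩ := ih h
      exact ⟨j, by omega, h3⟩
    · exact ⟨J, by omega, h1, by omega⟩

theorem anti_le {a : ℕ → ℕ} {J : ℕ} (ha : ∀ j, j < J → a (j + 1) ≤ a j) {i j : ℕ} (hij : i ≤ j)
    (hj : j ≤ J) : a j ≤ a i := by
  induction j, hij using Nat.le_induction with
  | base => exact le_rfl
  | succ j _ ih => exact (ha j (by omega)).trans (ih (by omega))

/-- the bound at the window ends -/
theorem ends {P : ℕ → Mat n} (hP : Flag P) {t : ℕ → ℝ} {G : ℕ → Mat n}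
    {y W src : ℕ → Vec n} {η η₁ κ R M0 : ℝ} {a : ℕ → ℕ} {J : ℕ}
    (ha : ∀ j, j < J → a (j + 1) ≤ a j) (hη : 0 ≤ η) (hη1 : η ≤ 1 / 6)
    (hκ : 0 ≤ κ) (hη₁ : 0 ≤ η₁) (hη₁' : η₁ ≤ 1 / 2) (hR1 : 1 ≤ R)
    (ht : ∀ k, a J ≤ k → 0 < t k) (hmono : ∀ k, t k ≤ t (k + 1))
    (hR : ∀ j, j < J → t (a j) ≤ R * t (a (j + 1)))
    (hx : ∀ k, a J ≤ k → k < a 0 → t (k + 1) - t k ≤ η * t k)
    (hθ : √R * (κ * (4 + Real.log R) + 4 * η₁ * Real.log R) ≤ 1 / 4)
    (hq : 6 * R ^ 4 * η * Real.log R ≤ 1 / 4)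
    (hS : Sharp t P G y W src η (a J) (a 0))
    (hW : ∀ j, j < J → Rad t P y κ η₁ (a (j + 1)) (a j) ∧ Comp t P y W κ (a (j + 1)) (a j))
    (h0 : √(t (a 0)) * nv (P (a 0) *ᵥ W (a 0)) ≤ M0) {j : ℕ} (hj : j ≤ J) :
    √(t (a j)) * nv (P (a j) *ᵥ W (a j)) ≤
      (1 / 2) ^ j * M0 + 4 * R * (η * (2 * Real.log R)) := by
  have hlog : 0 ≤ Real.log R := Real.log_nonneg hR1
  induction j with
  | zero =>
    have : 0 ≤ 4 * R * (η * (2 * Real.log R)) := by positivity
    rw [pow_zero, one_mul]; linarith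
  | succ j ih =>
    have h1 := ih (by omega)
    have h2 : a J ≤ a (j + 1) := anti_le ha hj le_rfl
    have h3 : a j ≤ a 0 := anti_le ha (Nat.zero_le j) (by omega)
    have h4 := window hP (ha j (by omega)) hη hη1 hκ hη₁ hη₁' (fun k hk => ht k (by omega)) hmono
      (hR j (by omega)) (fun k h5 h6 => hx k (by omega) (by omega)) hθ hq (hS.mono h2 h3)
      (hW j (by omega)).1 (hW j (by omega)).2
    rw [pow_succ]
    linarith

/-- total of the squared bounds of the sharp windows -/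
noncomputable def tot1 (R η M0 : ℝ) (J : ℕ) : ℝ :=
  R ^ 6 * (4 * M0 ^ 2 + 50 * J * (R * (η * (2 * Real.log R))) ^ 2)

/-- squared bound of the crude tier -/
noncomputable def tot2 (R η M0 R₂ L : ℝ) : ℝ :=
  (R₂ ^ L * (M0 + 4 * R * (η * (2 * Real.log R)) + η * (2 * Real.log R₂))) ^ 2

theorem sum_win_le (R e M0 : ℝ) (J : ℕ) :
    ∑ j ∈ range J, (R ^ 3 * ((1 / 2) ^ j * M0 + 5 * e)) ^ 2 ≤
      R ^ 6 * (4 * M0 ^ 2 + 50 * J * e ^ 2) := by
  have h : ∀ J : ℕ, ∑ j ∈ range J, (R ^ 3 * ((1 / 2) ^ j * M0 + 5 * e)) ^ 2 ≤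
      R ^ 6 * (4 * (1 - (1 / 2) ^ J) * M0 ^ 2 + 50 * J * e ^ 2) := by
    intro J
    induction J with
    | zero => simp
    | succ J ih =>
      rw [Finset.sum_range_succ]
      have h1 : (0:ℝ) ≤ (1 / 2) ^ J := by positivity
      have h2 : ((1:ℝ) / 2) ^ J ≤ 1 := pow_le_one₀ (by norm_num) (by norm_num)
      have h3 : ((1 / 2) ^ J * M0 + 5 * e) ^ 2 ≤ 2 * (1 / 2) ^ J * M0 ^ 2 + 50 * e ^ 2 := by
        have h4 : ((1 / 2) ^ J * M0) ^ 2 ≤ (1 / 2) ^ J * M0 ^ 2 := by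
          rw [mul_pow]
          exact mul_le_mul_of_nonneg_right (by nlinarith) (sq_nonneg _)
        nlinarith [sq_nonneg ((1 / 2) ^ J * M0 - 5 * e)]
      have h5 : (R ^ 3 * ((1 / 2) ^ J * M0 + 5 * e)) ^ 2 =
          R ^ 6 * ((1 / 2) ^ J * M0 + 5 * e) ^ 2 := by ring
      have h6 := mul_le_mul_of_nonneg_left h3 (by positivity : 0 ≤ R ^ 6)
      rw [h5, pow_succ (1 / 2 : ℝ) J]
      push_cast
      linarith
  refine (h J).trans (mul_le_mul_of_nonneg_left ?_ (by positivity))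
  have h1 : (0:ℝ) ≤ (1 / 2) ^ J * M0 ^ 2 := by positivity
  linarith

theorem sq_le_of {s s' B : ℝ} {w : Vec n} (hs : 0 < s) (hss : s ≤ s') (h : √s * nv w ≤ B) :
    (s' - s) * F.sq w ≤ (s' - s) / s * B ^ 2 := by
  have h1 : (√s * nv w) ^ 2 ≤ B ^ 2 :=
    pow_le_pow_left₀ (mul_nonneg (Real.sqrt_nonneg _) (nv_nonneg _)) h 2
  rw [mul_pow, Real.sq_sqrt hs.le, nv_sq] at h1
  have h2 := mul_le_mul_of_nonneg_left h1 (div_nonneg (sub_nonneg.2 hss) hs.le)
  have h3 : (s' - s) / s * (s * F.sq w) = (s' - s) * F.sq w := by field_simp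
  rwa [h3] at h2

/-- MAIN: deterministic bounds `m k` for the tracking functional, sharp windows
`[a (j+1), a j]`, `j < J`, followed by a crude tier `[k₀, a J]` -/
theorem rec_main {t : ℕ → ℝ} {η η₁ κ R M0 R₂ L Lam : ℝ} {a : ℕ → ℕ} {J k₀ : ℕ}
    (ha : ∀ j, j < J → a (j + 1) ≤ a j) (hk₀ : k₀ ≤ a J) (hη : 0 ≤ η) (hη1 : η ≤ 1 / 6)
    (hκ : 0 ≤ κ) (hη₁ : 0 ≤ η₁) (hη₁' : η₁ ≤ 1 / 2) (hR1 : 1 ≤ R) (hM : 0 ≤ M0) (hL : 1 ≤ L)
    (ht : ∀ k, k₀ ≤ k → 0 < t k) (hmono : ∀ k, t k ≤ t (k + 1))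
    (hR : ∀ j, j < J → t (a j) ≤ R * t (a (j + 1))) (hR₂ : t (a J) ≤ R₂ * t k₀)
    (hx : ∀ k, k₀ ≤ k → k < a 0 → t (k + 1) - t k ≤ η * t k)
    (hx₂ : ∀ k, k₀ ≤ k → k < a J → Lam * L * (t (k + 1) - t k) ≤ (L - Lam) * t k)
    (hθ : √R * (κ * (4 + Real.log R) + 4 * η₁ * Real.log R) ≤ 1 / 4)
    (hq : 6 * R ^ 4 * η * Real.log R ≤ 1 / 4) :
    ∃ m : ℕ → ℝ, (∀ k, k₀ ≤ k → 0 ≤ m k ∧
        m k ≤ (t (k + 1) - t k) / t k * (tot1 R η M0 J + tot2 R η M0 R₂ L)) ∧
      ∑ k ∈ Ico k₀ (a 0), m k ≤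
        2 * Real.log R * tot1 R η M0 J + 2 * Real.log R₂ * tot2 R η M0 R₂ L ∧
      ∀ {n : ℕ} {P G : ℕ → Mat n} {y W src : ℕ → Vec n}, Flag P →
        Sharp t P G y W src η (a J) (a 0) →
        (∀ j, j < J → Rad t P y κ η₁ (a (j + 1)) (a j) ∧ Comp t P y W κ (a (j + 1)) (a j)) →
        Crude t P G W src Lam η k₀ (a J) →
        √(t (a 0)) * nv (P (a 0) *ᵥ W (a 0)) ≤ M0 →
        ∀ k, k₀ ≤ k → k < a 0 → (t (k + 1) - t k) * F.sq (P k *ᵥ W k) ≤ m k := by
  classical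
  have hlog : 0 ≤ Real.log R := Real.log_nonneg hR1
  have hk0 := ht k₀ le_rfl
  have hR21 : 1 ≤ R₂ := by
    have h1 : t k₀ ≤ t (a J) := mono_le hmono hk₀
    by_contra h
    push Not at h
    nlinarith
  have hlog2 : 0 ≤ Real.log R₂ := Real.log_nonneg hR21
  set e := R * (η * (2 * Real.log R)) with he
  have he0 : 0 ≤ e := by positivity
  set B : ℕ → ℝ := fun j => (R ^ 3 * ((1 / 2) ^ j * M0 + 5 * e)) ^ 2 with hB
  have hB0 : ∀ j, 0 ≤ B j := fun j => sq_nonneg _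
  have hBs : ∑ j ∈ range J, B j ≤ tot1 R η M0 J := sum_win_le R e M0 J
  have hT0 : 0 ≤ tot2 R η M0 R₂ L := sq_nonneg _
  have hx0 : ∀ k, k₀ ≤ k → 0 ≤ (t (k + 1) - t k) / t k := fun k hk =>
    div_nonneg (by linarith [hmono k]) (ht k hk).le
  have hx1 : ∀ k, k₀ ≤ k → k < a 0 → t (k + 1) - t k ≤ t k := fun j h1 h2 => by
    have := hx j h1 h2; have := ht j h1; nlinarith
  have haJ : a J ≤ a 0 := anti_le ha (Nat.zero_le J) le_rfl
  let β : ℕ → ℝ := fun k => (∑ j ∈ range J, if k ∈ Ico (a (j + 1)) (a j) then B j else 0) +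
    if k ∈ Ico k₀ (a J) then tot2 R η M0 R₂ L else 0
  have hβ1 : ∀ k, 0 ≤ ∑ j ∈ range J, if k ∈ Ico (a (j + 1)) (a j) then B j else 0 := fun k =>
    Finset.sum_nonneg fun j _ => by split_ifs; exacts [hB0 j, le_rfl]
  have hβ2 : ∀ k, 0 ≤ if k ∈ Ico k₀ (a J) then tot2 R η M0 R₂ L else 0 := fun k => by
    split_ifs; exacts [hT0, le_rfl]
  refine ⟨fun k => (t (k + 1) - t k) / t k * β k, fun k hk => ⟨?_, ?_⟩, ?_, ?_⟩
  · exact mul_nonneg (hx0 k hk) (add_nonneg (hβ1 k) (hβ2 k))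
  · refine mul_le_mul_of_nonneg_left (add_le_add ?_ ?_) (hx0 k hk)
    · refine le_trans (Finset.sum_le_sum fun j _ => ?_) hBs
      split_ifs; exacts [le_rfl, hB0 j]
    · split_ifs; exacts [le_rfl, hT0]
  · have key : ∀ (c d : ℕ) (X Rr : ℝ), k₀ ≤ c → c ≤ d → d ≤ a 0 → 0 ≤ X → t d ≤ Rr * t c →
        ∑ k ∈ Ico k₀ (a 0), (t (k + 1) - t k) / t k * (if k ∈ Ico c d then X else 0) ≤
          2 * Real.log Rr * X := by
      intro c d X Rr h1 h2 h3 hX h4
      have hc := ht c h1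
      have hd := ht d (by omega)
      have h5 : ∑ k ∈ Ico k₀ (a 0), (t (k + 1) - t k) / t k * (if k ∈ Ico c d then X else 0) =
          (∑ k ∈ Ico c d, (t (k + 1) - t k) / t k) * X := by
        simp only [mul_ite, mul_zero]
        rw [Finset.sum_ite_mem, Finset.sum_mul]
        refine Finset.sum_congr ?_ fun _ _ => rfl
        ext k
        simp only [Finset.mem_inter, Finset.mem_Ico]
        omega
      rw [h5]
      refine mul_le_mul_of_nonneg_right ?_ hX
      refine (sum_rel_le h2 (fun k hk => ht k (by omega)) hmono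
        (fun k h6 h7 => hx1 k (by omega) (by omega))).trans ?_
      refine mul_le_mul_of_nonneg_left (Real.log_le_log (by positivity) ?_) (by norm_num)
      rw [div_le_iff₀ hc]; exact h4
    calc ∑ k ∈ Ico k₀ (a 0), (t (k + 1) - t k) / t k * β k
        = (∑ j ∈ range J, ∑ k ∈ Ico k₀ (a 0), (t (k + 1) - t k) / t k *
            (if k ∈ Ico (a (j + 1)) (a j) then B j else 0)) +
          ∑ k ∈ Ico k₀ (a 0), (t (k + 1) - t k) / t k *
            (if k ∈ Ico k₀ (a J) then tot2 R η M0 R₂ L else 0) := by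
          rw [Finset.sum_comm, ← Finset.sum_add_distrib]
          refine Finset.sum_congr rfl fun k _ => ?_
          rw [← Finset.mul_sum, ← mul_add]
      _ ≤ (∑ j ∈ range J, 2 * Real.log R * B j) + 2 * Real.log R₂ * tot2 R η M0 R₂ L := by
          refine add_le_add (Finset.sum_le_sum fun j hj => ?_)
            (key k₀ (a J) _ R₂ le_rfl hk₀ haJ hT0 hR₂)
          rw [Finset.mem_range] at hj
          exact key _ _ _ R (hk₀.trans (anti_le ha hj le_rfl)) (ha j hj)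
            (anti_le ha (Nat.zero_le j) hj.le) (hB0 j) (hR j hj)
      _ ≤ _ := by
          rw [← Finset.mul_sum]
          have := mul_le_mul_of_nonneg_left hBs (by positivity : 0 ≤ 2 * Real.log R)
          linarith
  · intro n P G y W src hP hS hW hC h0 k hk1 hk2
    have hend := fun j (hj : j ≤ J) => ends hP ha hη hη1 hκ hη₁ hη₁' hR1
      (fun k hk => ht k (by omega)) hmono hR (fun k h1 h2 => hx k (by omega) h2) hθ hq hS hW h0 hj
    by_cases hk : a J ≤ k
    · obtain ⟨j, hj, h1, h2⟩ := exists_window hk hk2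
      have h3 : a J ≤ a (j + 1) := anti_le ha hj le_rfl
      have h4 : a j ≤ a 0 := anti_le ha (Nat.zero_le j) hj.le
      have h5 := sharp_crude hP hη hη1 (fun k hk => ht k (by omega)) hmono (hR j hj)
        (fun k h5 h6 => hx k (by omega) (by omega)) (hS.mono h3 h4) h1 h2.le
      have h6 : √(t k) * nv (P k *ᵥ W k) ≤ R ^ 3 * ((1 / 2) ^ j * M0 + 5 * e) := by
        refine h5.trans (mul_le_mul_of_nonneg_left ?_ (by positivity))
        have h7 := hend j hj.le
        have h8 : η * (2 * Real.log R) ≤ e := by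
          rw [he]; exact le_mul_of_one_le_left (by positivity) hR1
        linarith
      refine (sq_le_of (ht k hk1) (hmono k) h6).trans
        (mul_le_mul_of_nonneg_left ?_ (hx0 k hk1))
      refine le_add_of_le_of_nonneg ?_ (hβ2 k)
      refine le_trans ?_ (Finset.single_le_sum (f := fun j =>
        if k ∈ Ico (a (j + 1)) (a j) then B j else 0)
        (fun j _ => by split_ifs; exacts [hB0 j, le_rfl]) (Finset.mem_range.2 hj))
      rw [if_pos (Finset.mem_Ico.2 ⟨h1, h2⟩)]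
    · have h5 := crude_win hP hL hη ht hmono hR₂ (fun k h1 h2 => hx1 k h1 (by omega)) hx₂ hC.rc
        hC.form hC.t2 hk1 (by omega : k ≤ a J)
      have h6 : √(t k) * nv (P k *ᵥ W k) ≤
          R₂ ^ L * (M0 + 4 * R * (η * (2 * Real.log R)) + η * (2 * Real.log R₂)) := by
        refine h5.trans (mul_le_mul_of_nonneg_left ?_ (Real.rpow_nonneg (by linarith) L))
        have h7 := hend J le_rfl
        have h8 : ((1:ℝ) / 2) ^ J * M0 ≤ M0 :=
          mul_le_of_le_one_left hM (pow_le_one₀ (by norm_num) (by norm_num))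
        linarith
      refine (sq_le_of (ht k hk1) (hmono k) h6).trans
        (mul_le_mul_of_nonneg_left ?_ (hx0 k hk1))
      refine le_add_of_nonneg_of_le (hβ1 k) ?_
      rw [if_pos (Finset.mem_Ico.2 ⟨hk1, by omega⟩)]
      exact le_rfl

theorem sum_inv_sq_le {t : ℕ → ℝ} {c N : ℕ} (h : c ≤ N) (ht : ∀ k, c ≤ k → 0 < t k)
    (hmono : ∀ k, t k ≤ t (k + 1)) (hx : ∀ k, c ≤ k → k < N → t (k + 1) - t k ≤ t k) :
    ∑ k ∈ Ico c N, (t (k + 1) - t k) / t k ^ 2 ≤ 2 / t c - 2 / t N := by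
  induction N, h using Nat.le_induction with
  | base => simp
  | succ N h ih =>
    rw [Finset.sum_Ico_succ_top h]
    have h1 := ih fun k h1 h2 => hx k h1 (by omega)
    have h2 := ht N h
    have h3 := ht (N + 1) (by omega)
    have h4 := hx N h (by omega)
    have h5 := hmono N
    have h6 : (t (N + 1) - t N) / t N ^ 2 ≤ 2 / t N - 2 / t (N + 1) := by
      rw [div_sub_div _ _ h2.ne' h3.ne', div_le_div_iff₀ (by positivity) (by positivity)]
      have h7 : 0 ≤ (t (N + 1) - t N) * t N * (2 * t N - t (N + 1)) :=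
        mul_nonneg (mul_nonneg (by linarith) h2.le) (by linarith)
      nlinarith
    linarith

/-- MAIN, source free part: deterministic bounds `l k` for the propagator, exponent `L₁` on
`[c, N]` and a crude tier `[k₀, c]` -/
theorem lin_main {t : ℕ → ℝ} {R₂ L Lam L₁ Lam₁ : ℝ} {k₀ c N : ℕ} (hk₀ : k₀ ≤ c) (hc : c ≤ N)
    (hL : 1 ≤ L) (hL₁ : 1 ≤ L₁) (ht : ∀ k, k₀ ≤ k → 0 < t k) (hmono : ∀ k, t k ≤ t (k + 1))
    (hR₂ : t c ≤ R₂ * t k₀) (hx : ∀ k, c ≤ k → k < N → t (k + 1) - t k ≤ t k)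
    (hx₁ : ∀ k, c ≤ k → k < N → Lam₁ * L₁ * (t (k + 1) - t k) ≤ (L₁ - Lam₁) * t k)
    (hx₂ : ∀ k, k₀ ≤ k → k < c → Lam * L * (t (k + 1) - t k) ≤ (L - Lam) * t k) :
    ∃ l : ℕ → ℝ, (∀ k, k₀ ≤ k → k ≤ N → 0 ≤ l k ∧
        l k ≤ (t (k + 1) - t k) * (R₂ ^ L * (t N / t c) ^ L₁) ^ 2) ∧
      ∑ k ∈ Ico k₀ N, l k ≤ (2 + (R₂ ^ L) ^ 2) * t c * ((t N / t c) ^ L₁) ^ 2 ∧
      ∀ {n : ℕ} {P G : ℕ → Mat n} {W : ℕ → Vec n}, Flag P →
        (∀ k, k₀ ≤ k → k < N → W k - (t (k + 1) - t k) • (G k *ᵥ (P k *ᵥ W k)) = W (k + 1)) →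
        (∀ k, c ≤ k → k < N → ∀ u, P k *ᵥ u = u → t k * ip u (G k *ᵥ u) ≤ Lam₁ * F.sq u) →
        (∀ k, k₀ ≤ k → k < c → ∀ u, P k *ᵥ u = u → t k * ip u (G k *ᵥ u) ≤ Lam * F.sq u) →
        ∀ k, k₀ ≤ k → k ≤ N →
          (t (k + 1) - t k) * F.sq (P k *ᵥ W k) ≤ l k * F.sq (P N *ᵥ W N) := by
  classical
  have hk0 := ht k₀ le_rfl
  have htc := ht c hk₀
  have htN := ht N (by omega)
  have hR21 : 1 ≤ R₂ := by
    have h1 : t k₀ ≤ t c := mono_le hmono hk₀
    by_contra h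
    push Not at h
    nlinarith
  have hRL : 1 ≤ R₂ ^ L := Real.one_le_rpow hR21 (by linarith)
  have hX0 : 0 ≤ (t N / t c) ^ L₁ := Real.rpow_nonneg (by positivity) _
  let lam : ℕ → ℝ := fun k => if c ≤ k then (t N / t k) ^ L₁ else R₂ ^ L * (t N / t c) ^ L₁
  have hlam : ∀ k, k₀ ≤ k → 0 ≤ lam k ∧ lam k ≤ R₂ ^ L * (t N / t c) ^ L₁ := by
    intro k hk
    have hk' := ht k hk
    by_cases h : c ≤ k
    · simp only [lam, if_pos h]
      refine ⟨Real.rpow_nonneg (by positivity) _, ?_⟩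
      refine le_trans ?_ (le_mul_of_one_le_left hX0 hRL)
      exact Real.rpow_le_rpow (by positivity)
        (div_le_div_of_nonneg_left htN.le htc (mono_le hmono h)) (by linarith)
    · simp only [lam, if_neg h]
      exact ⟨by positivity, le_rfl⟩
  refine ⟨fun k => (t (k + 1) - t k) * lam k ^ 2, fun k h1 _ => ⟨?_, ?_⟩, ?_, ?_⟩
  · exact mul_nonneg (by linarith [hmono k]) (sq_nonneg _)
  · exact mul_le_mul_of_nonneg_left (pow_le_pow_left₀ (hlam k h1).1 (hlam k h1).2 2)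
      (by linarith [hmono k])
  · rw [← Finset.sum_Ico_consecutive _ hk₀ hc]
    have h1 : ∑ k ∈ Ico k₀ c, (t (k + 1) - t k) * lam k ^ 2 ≤
        t c * (R₂ ^ L * (t N / t c) ^ L₁) ^ 2 := by
      calc _ = ∑ k ∈ Ico k₀ c, (t (k + 1) - t k) * (R₂ ^ L * (t N / t c) ^ L₁) ^ 2 := by
            refine Finset.sum_congr rfl fun k hk => ?_
            rw [Finset.mem_Ico] at hk
            simp only [lam, if_neg (not_le.2 hk.2)]
        _ = (t c - t k₀) * (R₂ ^ L * (t N / t c) ^ L₁) ^ 2 := by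
            rw [← Finset.sum_mul, sum_Ico_tele t hk₀]
        _ ≤ _ := mul_le_mul_of_nonneg_right (by linarith) (sq_nonneg _)
    have h2 : ∑ k ∈ Ico c N, (t (k + 1) - t k) * lam k ^ 2 ≤
        2 * t c * ((t N / t c) ^ L₁) ^ 2 := by
      calc _ ≤ ∑ k ∈ Ico c N, (t (k + 1) - t k) / t k ^ 2 *
            (t c ^ 2 * ((t N / t c) ^ L₁) ^ 2) := by
            refine Finset.sum_le_sum fun k hk => ?_
            rw [Finset.mem_Ico] at hk
            have hk' := ht k (by omega)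
            have h3 : t c ≤ t k := mono_le hmono hk.1
            have h4 : (t N / t k) ^ L₁ ≤ t c / t k * (t N / t c) ^ L₁ := by
              have h5 : t N / t k = t c / t k * (t N / t c) := by field_simp
              rw [h5, Real.mul_rpow (by positivity) (by positivity)]
              refine mul_le_mul_of_nonneg_right ?_ hX0
              exact Real.rpow_le_self_of_le_one (by positivity) ((div_le_one hk').2 h3) hL₁
            simp only [lam, if_pos hk.1]
            have h6 := pow_le_pow_left₀ (Real.rpow_nonneg (by positivity) _) h4 2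
            refine (mul_le_mul_of_nonneg_left h6 (by linarith [hmono k])).trans (le_of_eq ?_)
            field_simp
        _ = (∑ k ∈ Ico c N, (t (k + 1) - t k) / t k ^ 2) *
            (t c ^ 2 * ((t N / t c) ^ L₁) ^ 2) := by rw [Finset.sum_mul]
        _ ≤ 2 / t c * (t c ^ 2 * ((t N / t c) ^ L₁) ^ 2) := by
            refine mul_le_mul_of_nonneg_right ?_ (by positivity)
            have h3 := sum_inv_sq_le hc (fun k hk => ht k (by omega)) hmono hx
            have h4 : 0 ≤ 2 / t N := by positivity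
            linarith
        _ = _ := by field_simp
    nlinarith
  · intro n P G W hP hrec hG₁ hG k hk1 hk2
    have hk' := ht k hk1
    have hz : ∀ j, nv (P j *ᵥ (0 : Vec n)) = 0 := fun j => by rw [Matrix.mulVec_zero, nv_zero]
    have hup : ∀ j, c ≤ j → j ≤ N → nv (P j *ᵥ W j) ≤ (t N / t j) ^ L₁ * nv (P N *ᵥ W N) := by
      intro j h1 h2
      have hj := ht j (by omega)
      have h3 := crude hP (src := fun _ => 0) h2 hL₁ (fun i hi => ht i (by omega)) hmono
        (fun i h4 h5 => hx₁ i (by omega) h5)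
        (fun i h4 h5 => by rw [add_zero]; exact hrec i (by omega) h5)
        (fun i h4 h5 => hG₁ i (by omega) h5)
      simp only [hz, mul_zero, Finset.sum_const_zero, add_zero] at h3
      rw [Real.div_rpow htN.le hj.le, div_mul_eq_mul_div,
        le_div_iff₀ (Real.rpow_pos_of_pos hj _)]
      linarith
    have hl : nv (P k *ᵥ W k) ≤ lam k * nv (P N *ᵥ W N) := by
      by_cases h : c ≤ k
      · simp only [lam, if_pos h]; exact hup k h hk2
      · simp only [lam, if_neg h]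
        have h3 := crude hP (src := fun _ => 0) (by omega : k ≤ c) hL
          (fun i hi => ht i (by omega)) hmono (fun i h4 h5 => hx₂ i (by omega) h5)
          (fun i h4 h5 => by rw [add_zero]; exact hrec i (by omega) (by omega))
          (fun i h4 h5 => hG i (by omega) h5)
        simp only [hz, mul_zero, Finset.sum_const_zero, add_zero] at h3
        have h4 : t c ^ L ≤ R₂ ^ L * t k ^ L := by
          rw [← Real.mul_rpow (by linarith) hk'.le]
          refine Real.rpow_le_rpow htc.le (hR₂.trans ?_) (by linarith)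
          exact mul_le_mul_of_nonneg_left (mono_le hmono hk1) (by linarith)
        have h5 := h3.trans (mul_le_mul_of_nonneg_right h4 (nv_nonneg _))
        rw [mul_comm (R₂ ^ L), mul_assoc] at h5
        have h6 := le_of_mul_le_mul_left h5 (Real.rpow_pos_of_pos hk' L)
        refine h6.trans ?_
        rw [mul_assoc]
        exact mul_le_mul_of_nonneg_left (hup c le_rfl hc) (by linarith)
    have h7 := pow_le_pow_left₀ (nv_nonneg _) hl 2
    rw [mul_pow, nv_sq, nv_sq] at h7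
    have h8 := mul_le_mul_of_nonneg_left h7 (sub_nonneg.2 (hmono k))
    show _ ≤ (t (k + 1) - t k) * lam k ^ 2 * F.sq (P N *ᵥ W N)
    linarith

end Vale.Agent.N150.Rec
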