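import Vale.Agent.N150.PathN
import Vale.Agent.N150.CapDef
import Vale.Agent.N150.Rec

/-! The events of the observation path in the frame. -/

open MeasureTheory ProbabilityTheory Matrix Real
open scoped ENNReal

namespace Vale.Agent.N150.Path

open Vale.Agent.P150 Vale.Agent.P150.F Vale.Agent.N150.Plant Vale.Agent.N150.Edge

variable {n : ℕ}

/-- `n t ^ (3/2)` -/
noncomputable def uu (n : ℕ) (t : ℝ) : ℝ := n * (t * √t)

theorem uu_mono (n : ℕ) {s t : ℝ} (hs : 0 ≤ s) (h : s ≤ t) : uu n s ≤ uu n t := by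
  unfold uu
  have := sqrt_le_sqrt h
  gcongr
  linarith

/-- the precision is `(t - e)₊` up to a shift `τ` -/
def Sand (e : Vec n) (τ t : ℝ) (A : Vec n) : Prop :=
  ∀ a, max (t - τ - e a) 0 ≤ A a ∧ A a ≤ max (t + τ - e a) 0

/-- parameters at one time -/
structure Par (e : Vec n) (ε τ t z : ℝ) : Prop where
  npos : 0 < n
  epos : ∀ a, 0 < e a
  t0 : 0 < t
  ε0 : 0 ≤ ε
  ε1 : ε ≤ 1 / 1000
  τ0 : 0 ≤ τ
  τ1 : τ ≤ ε * t
  z0 : 0 ≤ z
  z1 : z ≤ ε ^ 2 * uu n t
  sp : Spec e ε (t + τ)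
  sm : Spec e ε (t - τ)

/-- elementary events at one time -/
structure G1 (e : Vec n) (τ t z : ℝ) (A x b : Vec n) : Prop where
  xp : XG e (t + τ) (Dv (3 * uu n t) z) x
  xm : XG e (t - τ) (Dv (3 * uu n t) z) x
  n1 : |F.sq b - ∑ a, A a| < (t + τ) * Dv (3 * uu n t) z
  n2 : |ip (fun a => A a * x a) b| ≤ √(2 * z * ∑ a, A a * (A a * x a) ^ 2)
  n3 : |ip x b| ≤ √(2 * z * ∑ a, A a * x a ^ 2)

/-- conclusions at one time -/
structure O1 (e : Vec n) (ε τ t : ℝ) (x y : Vec n) : Prop where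
  sq : |F.sq y - 2 * c0 * (t * uu n t)| ≤ 21 * ε * (t * uu n t)
  ip : |ip y x - 2 * c0 * uu n t| ≤ 8 * ε * uu n t
  tm : t * Tm e (t + τ) x ≤ 3 * uu n t

namespace Par

variable {e : Vec n} {ε τ t z : ℝ} (h : Par e ε τ t z)
include h

theorem upos : 0 < uu n t := by
  have := h.t0
  have : (0 : ℝ) < n := by exact_mod_cast h.npos
  unfold uu
  positivity

theorem τ2 : τ ≤ t / 1000 := by nlinarith [h.τ1, h.ε1, h.t0]

theorem mpos : 0 < t - τ := by linarith [h.τ2, h.t0]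

theorem ppos : 0 < t + τ := by linarith [h.τ0, h.t0]

theorem Dv_le : Dv (3 * uu n t) z ≤ 5 * ε * uu n t := by
  have u0 := h.upos
  have := h.ε0
  have a1 : √(2 * (3 * uu n t) * z) ≤ 49 / 20 * (ε * uu n t) := by
    rw [sqrt_le_left (by positivity)]
    have := mul_le_mul_of_nonneg_left h.z1 u0.le
    nlinarith [sq_nonneg (ε * uu n t)]
  have a2 : ε * (ε * uu n t) ≤ 1 / 1000 * (ε * uu n t) :=
    mul_le_mul_of_nonneg_right h.ε1 (by positivity)
  have a3 : 0 ≤ ε * uu n t := by positivity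
  unfold Dv
  linarith [h.z1]

theorem up_le : uu n (t + τ) ≤ (1 + 201 / 100 * ε) * uu n t := by
  have t0 := h.t0
  have e0 := h.ε0
  have a1 : t + τ ≤ (1 + ε) * t := by linarith [h.τ1]
  have a2 : √(t + τ) ≤ (1 + ε) * √t := by
    rw [sqrt_le_left (by positivity), mul_pow, sq_sqrt t0.le]
    nlinarith [mul_nonneg e0 t0.le]
  have a3 : (1 + ε) ^ 2 ≤ 1 + 201 / 100 * ε := by nlinarith [h.ε1]
  calc uu n (t + τ) ≤ n * ((1 + ε) * t * ((1 + ε) * √t)) := by unfold uu; gcongr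
    _ = (1 + ε) ^ 2 * uu n t := by unfold uu; ring
    _ ≤ _ := mul_le_mul_of_nonneg_right a3 h.upos.le

theorem le_um : (1 - 2 * ε) * uu n t ≤ uu n (t - τ) := by
  have t0 := h.t0
  have e0 := h.ε0
  have e1 : 0 ≤ 1 - ε := by linarith [h.ε1]
  have a1 : (1 - ε) * t ≤ t - τ := by linarith [h.τ1]
  have a2 : (1 - ε) * √t ≤ √(t - τ) := by
    apply le_sqrt_of_sq_le
    rw [mul_pow, sq_sqrt t0.le]
    nlinarith [mul_nonneg (mul_nonneg e0 e1) t0.le]
  have a3 : 1 - 2 * ε ≤ (1 - ε) ^ 2 := by nlinarith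
  have := h.mpos
  calc _ ≤ (1 - ε) ^ 2 * uu n t := mul_le_mul_of_nonneg_right a3 h.upos.le
    _ = n * ((1 - ε) * t * ((1 - ε) * √t)) := by unfold uu; ring
    _ ≤ _ := by unfold uu; gcongr

theorem Tp : (t + τ) ^ 2 * T2s e (t + τ) ≤ 201 / 100 * uu n t := by
  have a1 : (t + τ) ^ 2 * T2s e (t + τ) ≤ 2 * uu n (t + τ) := h.sp.t
  have a2 := mul_le_mul_of_nonneg_right h.ε1 h.upos.le
  linarith [h.up_le, h.upos]

theorem Tp' : (t + τ) ^ 2 * T2s e (t + τ) ≤ 3 * uu n t := by linarith [h.Tp, h.upos]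

theorem Tm' : (t - τ) ^ 2 * T2s e (t - τ) ≤ 3 * uu n t := by
  have a1 : (t - τ) ^ 2 * T2s e (t - τ) ≤ 2 * uu n (t - τ) := h.sm.t
  linarith [uu_mono n h.mpos.le (sub_le_self t h.τ0), h.upos]

theorem Wp : (t + τ) * Ws e (t + τ) ≤ (2 * c0 + 2 * ε) * uu n t := by
  have a1 := mul_le_mul_of_nonneg_left (abs_le.1 h.sp.w).2 h.ppos.le
  have a2 : (t + τ) * Ws e (t + τ) ≤ (2 * c0 + ε) * uu n (t + τ) := by unfold uu; linarith
  have e0 := h.ε0
  have hc := c0_pos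
  have a3 : (2 * c0 + ε) * (1 + 201 / 100 * ε) ≤ 2 * c0 + 2 * ε := by
    nlinarith [mul_le_mul_of_nonneg_right c0_le e0, mul_le_mul_of_nonneg_right h.ε1 e0]
  calc _ ≤ (2 * c0 + ε) * ((1 + 201 / 100 * ε) * uu n t) :=
        a2.trans (mul_le_mul_of_nonneg_left h.up_le (by positivity))
    _ ≤ _ := by rw [← mul_assoc]; exact mul_le_mul_of_nonneg_right a3 h.upos.le

theorem Wm : (2 * c0 - 2 * ε) * uu n t ≤ (t - τ) * Ws e (t - τ) := by
  have a1 := mul_le_mul_of_nonneg_left (abs_le.1 h.sm.w).1 h.mpos.le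
  have a2 : (2 * c0 - ε) * uu n (t - τ) ≤ (t - τ) * Ws e (t - τ) := by unfold uu; linarith
  have e0 := h.ε0
  have a3 : 2 * c0 - 2 * ε ≤ (2 * c0 - ε) * (1 - 2 * ε) := by
    nlinarith [mul_le_mul_of_nonneg_right c0_le e0]
  calc _ ≤ (2 * c0 - ε) * ((1 - 2 * ε) * uu n t) := by
        rw [← mul_assoc]; exact mul_le_mul_of_nonneg_right a3 h.upos.le
    _ ≤ _ := (mul_le_mul_of_nonneg_left h.le_um (by linarith [le_c0, h.ε1])).trans a2

theorem A_le {A : Vec n} (hA : Sand e τ t A) (a : Fin n) : A a ≤ t + τ :=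
  (hA a).2.trans (max_le (by linarith [h.epos a]) h.ppos.le)

theorem sum_sq_le {A : Vec n} (hA : Sand e τ t A) :
    ∑ a, A a ^ 2 ≤ (t + τ) ^ 2 * (3 * uu n t) := by
  refine le_trans ?_ (mul_le_mul_of_nonneg_left h.Tp' (sq_nonneg _))
  rw [T2s, Finset.mul_sum, Finset.mul_sum]
  refine Finset.sum_le_sum fun a _ => ?_
  have a0 : 0 ≤ A a := (le_max_right _ _).trans (hA a).1
  have p0 := h.ppos
  rcases le_total (e a) (t + τ) with h1 | h1
  · rw [max_eq_right h1, mul_inv_cancel₀ (by positivity), mul_one]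
    exact pow_le_pow_left₀ a0 (h.A_le hA a) 2
  · have a1 : A a = 0 := le_antisymm ((hA a).2.trans (max_le (by linarith) le_rfl)) a0
    rw [a1, zero_pow two_ne_zero]
    positivity

theorem o1 {A x b : Vec n} (hA : Sand e τ t A) (g : G1 e τ t z A x b) :
    O1 e ε τ t x (fun a => A a * x a + b a) := by
  have u0 := h.upos
  have t0 := h.t0
  have e0 := h.ε0
  have hD := h.Dv_le
  have D0 := Dv_nonneg (3 * uu n t) h.z0
  have a0 : ∀ a, 0 ≤ A a := fun a => (le_max_right _ _).trans (hA a).1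
  have eu : ε * uu n t ≤ 1 / 1000 * uu n t := mul_le_mul_of_nonneg_right h.ε1 u0.le
  have eu0 : 0 ≤ ε * uu n t := by positivity
  have cu := mul_le_mul_of_nonneg_right c0_le u0.le
  have b1 : ∑ a, A a * x a ^ 2 ≤ (2 * c0 + 7 * ε) * uu n t := by
    have : ∑ a, A a * x a ^ 2 ≤ F1 e (t + τ) x := Finset.sum_le_sum fun a _ =>
      mul_le_mul_of_nonneg_right (hA a).2 (sq_nonneg _)
    linarith [(abs_lt.1 g.xp.f1).2, h.Wp]
  have b2 : (2 * c0 - 7 * ε) * uu n t ≤ ∑ a, A a * x a ^ 2 := by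
    have : F1 e (t - τ) x ≤ ∑ a, A a * x a ^ 2 := Finset.sum_le_sum fun a _ =>
      mul_le_mul_of_nonneg_right (hA a).1 (sq_nonneg _)
    linarith [(abs_lt.1 g.xm.f1).1, h.Wm]
  have b3 : 2 * z * ∑ a, A a * x a ^ 2 ≤ (ε * uu n t) ^ 2 := by
    have c1 : 2 * ∑ a, A a * x a ^ 2 ≤ uu n t := by linarith
    have c2 : 0 ≤ 2 * ∑ a, A a * x a ^ 2 :=
      mul_nonneg zero_le_two (Finset.sum_nonneg fun a _ => mul_nonneg (a0 a) (sq_nonneg _))
    have c3 := mul_le_mul h.z1 c1 c2 (by positivity)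
    linarith
  have b4 : |ip x b| ≤ ε * uu n t := g.n3.trans ((sqrt_le_left eu0).2 b3)
  have b5 : |ip (fun a => A a * x a) b| ≤ (t + τ) * (ε * uu n t) := by
    refine g.n2.trans ((sqrt_le_left (mul_nonneg h.ppos.le eu0)).2 ?_)
    have c1 : ∑ a, A a * (A a * x a) ^ 2 ≤ (t + τ) ^ 2 * ∑ a, A a * x a ^ 2 := by
      rw [Finset.mul_sum]
      refine Finset.sum_le_sum fun a _ => ?_
      have := mul_le_mul_of_nonneg_right (pow_le_pow_left₀ (a0 a) (h.A_le hA a) 2)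
        (mul_nonneg (a0 a) (sq_nonneg (x a)))
      linarith
    have c2 := mul_le_mul_of_nonneg_left c1 (mul_nonneg zero_le_two h.z0)
    have c3 := mul_le_mul_of_nonneg_left b3 (sq_nonneg (t + τ))
    linarith
  have p1 : t + τ ≤ 1001 / 1000 * t := by linarith [h.τ2]
  have tu0 : 0 ≤ ε * (t * uu n t) := by positivity
  have p2 : (t + τ) * (ε * uu n t) ≤ 1001 / 1000 * (ε * (t * uu n t)) := by
    have := mul_le_mul_of_nonneg_right p1 eu0
    linarith
  have p3 : (t + τ) * Dv (3 * uu n t) z ≤ 1001 / 200 * (ε * (t * uu n t)) := by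
    have := mul_le_mul_of_nonneg_left hD h.ppos.le
    linarith
  have p4 : (t - τ) * Dv (3 * uu n t) z ≤ 5 * (ε * (t * uu n t)) := by
    have := mul_le_mul (sub_le_self t h.τ0) hD D0 t0.le
    linarith
  have ctu : c0 * (ε * (t * uu n t)) ≤ 0.2123 * (ε * (t * uu n t)) :=
    mul_le_mul_of_nonneg_right c0_le tu0
  have etu : ε * (ε * (t * uu n t)) ≤ 1 / 1000 * (ε * (t * uu n t)) :=
    mul_le_mul_of_nonneg_right h.ε1 tu0
  have q1 : (t + τ) ^ 2 * Ws e (t + τ) ≤ (2 * c0 + 3 * ε) * (t * uu n t) := by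
    have c1 := mul_le_mul_of_nonneg_left h.Wp h.ppos.le
    have c2 : (t + τ) * ((2 * c0 + 2 * ε) * uu n t) ≤ (1 + ε) * t * ((2 * c0 + 2 * ε) * uu n t) :=
      mul_le_mul_of_nonneg_right (by linarith [h.τ1]) (by have := c0_pos; positivity)
    linarith
  have q2 : (2 * c0 - 3 * ε) * (t * uu n t) ≤ (t - τ) ^ 2 * Ws e (t - τ) := by
    have c1 := mul_le_mul_of_nonneg_left h.Wm h.mpos.le
    have c2 : (1 - ε) * t * ((2 * c0 - 2 * ε) * uu n t) ≤ (t - τ) * ((2 * c0 - 2 * ε) * uu n t) :=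
      mul_le_mul_of_nonneg_right (by linarith [h.τ1])
        (mul_nonneg (by linarith [le_c0, h.ε1]) u0.le)
    have c3 : 0 ≤ ε * (ε * (t * uu n t)) := by positivity
    linarith
  have q3 : ∑ a, A a ^ 2 * x a ^ 2 ≤ F2 e (t + τ) x := Finset.sum_le_sum fun a _ =>
    mul_le_mul_of_nonneg_right (pow_le_pow_left₀ (a0 a) (hA a).2 2) (sq_nonneg _)
  have q4 : F2 e (t - τ) x ≤ ∑ a, A a ^ 2 * x a ^ 2 := Finset.sum_le_sum fun a _ =>
    mul_le_mul_of_nonneg_right (pow_le_pow_left₀ (le_max_right _ _) (hA a).1 2) (sq_nonneg _)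
  have q5 : ∑ a, A a ≤ F0 e (t + τ) := Finset.sum_le_sum fun a _ => (hA a).2
  have q6 : F0 e (t - τ) ≤ ∑ a, A a := Finset.sum_le_sum fun a _ => (hA a).1
  have r1 : F.sq (fun a => A a * x a + b a) =
      ∑ a, A a ^ 2 * x a ^ 2 + 2 * ip (fun a => A a * x a) b + F.sq b := by
    simp only [F.sq, ip, Finset.mul_sum, ← Finset.sum_add_distrib]
    exact Finset.sum_congr rfl fun a _ => by ring
  have r2 : ip (fun a => A a * x a + b a) x = ∑ a, A a * x a ^ 2 + ip x b := by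
    simp only [ip, ← Finset.sum_add_distrib]
    exact Finset.sum_congr rfl fun a _ => by ring
  obtain ⟨s1, s2⟩ := abs_le.1 b4
  obtain ⟨s3, s4⟩ := abs_le.1 b5
  obtain ⟨s5, s6⟩ := abs_lt.1 g.n1
  refine ⟨?_, ?_, ?_⟩
  · rw [r1, abs_le]
    constructor
    · linarith [(abs_lt.1 g.xm.f2).1]
    · linarith [(abs_lt.1 g.xp.f2).2]
  · rw [r2, abs_le]
    constructor <;> linarith
  · have c1 := mul_le_mul_of_nonneg_right (le_add_of_nonneg_right h.τ0 : t ≤ t + τ)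
      (Tm_nonneg e h.ppos x)
    linarith [(abs_lt.1 g.xp.tm).2, h.Wp, h.Tp]

theorem sq_ge {x y : Vec n} (o : O1 e ε τ t x y) : t * uu n t ≤ 5 / 2 * F.sq y := by
  have a0 : 0 ≤ t * uu n t := (mul_pos h.t0 h.upos).le
  have a1 := mul_le_mul_of_nonneg_right h.ε1 a0
  have a2 := mul_le_mul_of_nonneg_right le_c0 a0
  linarith [(abs_le.1 o.sq).1]

theorem sq_le {x y : Vec n} (o : O1 e ε τ t x y) : F.sq y ≤ 1 / 2 * (t * uu n t) := by
  have a0 : 0 ≤ t * uu n t := (mul_pos h.t0 h.upos).le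
  have a1 := mul_le_mul_of_nonneg_right h.ε1 a0
  have a2 := mul_le_mul_of_nonneg_right c0_le a0
  linarith [(abs_le.1 o.sq).2]

theorem h1 {t' : ℝ} {A A' x b b' : Vec n} (htt : t ≤ t') (hA : Sand e τ t A)
    (hA' : Sand e τ t' A') (hb : ∀ a, A a = 0 → b a = 0)
    (o : O1 e ε τ t x (fun a => A a * x a + b a))
    (g : |ip (fun a => A a * x a + b a) (b' - b)| ≤
      √(2 * z * ((t' + τ) * F.sq (fun a => A a * x a + b a)))) :
    |t * ip (fun a => A a * x a + b a) (fun a => A' a * x a + b' a) -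
      t' * F.sq (fun a => A a * x a + b a)| ≤
      81 * ε * (t' * F.sq (fun a => A a * x a + b a)) := by
  have u0 := h.upos
  have t0 := h.t0
  have e0 := h.ε0
  have τ0 := h.τ0
  have hR := h.sq_ge o
  have o1 := o.sq
  have o2 := o.ip
  have o3 := o.tm
  set v : Vec n := fun a => if A a = 0 then 0 else (A' a - A a - (t' - t)) * x a with hv
  have r1 : ip (fun a => A a * x a + b a) (fun a => A' a * x a + b' a) =
      F.sq (fun a => A a * x a + b a) + (t' - t) * ip (fun a => A a * x a + b a) x +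
        ip (fun a => A a * x a + b a) v + ip (fun a => A a * x a + b a) (b' - b) := by
    simp only [F.sq, ip, Finset.mul_sum, ← Finset.sum_add_distrib, hv, Pi.sub_apply]
    refine Finset.sum_congr rfl fun a _ => ?_
    split_ifs with h0
    · rw [h0, hb a h0]; ring
    · ring
  have r2 : F.sq v ≤ (2 * τ) ^ 2 * Tm e (t + τ) x := by
    rw [F.sq, Tm, Finset.mul_sum]
    refine Finset.sum_le_sum fun a _ => ?_
    have p0 := h.ppos
    have m0 : 0 < max (e a) (t + τ) := lt_max_of_lt_right p0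
    simp only [hv]
    split_ifs with h0
    · rw [zero_pow two_ne_zero]; positivity
    · have a0 : 0 ≤ A a := (le_max_right _ _).trans (hA a).1
      have a1 : e a ≤ t + τ := by
        by_contra hc
        exact h0 (le_antisymm ((hA a).2.trans (max_le (by linarith) le_rfl)) a0)
      have a2 := (hA a).2
      have a3 := (hA' a).2
      rw [max_eq_left (by linarith)] at a2 a3
      have a4 := (le_max_left _ _).trans (hA a).1
      have a5 := (le_max_left _ _).trans (hA' a).1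
      rw [max_eq_right a1, div_self p0.ne', one_mul, mul_pow]
      exact mul_le_mul_of_nonneg_right (sq_le_sq' (by linarith) (by linarith)) (sq_nonneg _)
  have r3 : ip (fun a => A a * x a + b a) v ^ 2 ≤ F.sq (fun a => A a * x a + b a) * F.sq v :=
    Finset.sum_mul_sq_le_sq_mul_sq _ _ _
  have R0 := sq_nonneg' (fun a => A a * x a + b a)
  generalize ip (fun a => A a * x a + b a) v = I1 at *
  generalize ip (fun a => A a * x a + b a) (b' - b) = I2 at *
  generalize ip (fun a => A a * x a + b a) x = I3 at *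
  generalize F.sq (fun a => A a * x a + b a) = R at *
  have eR : 0 ≤ ε * R := by positivity
  have s1 : |I1| ≤ 11 / 2 * (ε * R) := by
    refine abs_le_of_sq_le_sq' ?_ (by positivity) |> abs_le.2
    have c1 : (2 * τ) ^ 2 ≤ (2 * (ε * t)) ^ 2 :=
      pow_le_pow_left₀ (by positivity) (by linarith [h.τ1]) 2
    have c2 := mul_le_mul_of_nonneg_right c1 (Tm_nonneg e h.ppos x)
    have c3 := mul_le_mul_of_nonneg_left o3 (by positivity : 0 ≤ 4 * ε ^ 2 * t)
    have c4 := mul_le_mul_of_nonneg_left hR (by positivity : 0 ≤ 12 * ε ^ 2)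
    have c5 : F.sq v ≤ 30 * ε ^ 2 * R := by linarith
    have c6 := mul_le_mul_of_nonneg_left c5 R0
    nlinarith [sq_nonneg (ε * R)]
  have t1 : 0 < t' := by linarith
  have s2 : t * |I2| ≤ 23 / 10 * (ε * (t' * R)) := by
    refine abs_le_of_sq_le_sq' ?_ (by positivity) |>.2
    have c0 : 0 ≤ 2 * z * ((t' + τ) * R) := by have := h.z0; positivity
    have c1 : |I2| ^ 2 ≤ 2 * z * ((t' + τ) * R) := by
      rw [← sq_sqrt c0]; exact pow_le_pow_left₀ (abs_nonneg _) g 2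
    have c2 : 2 * z * ((t' + τ) * R) ≤ 2 * (ε ^ 2 * uu n t) * ((1001 / 1000 * t') * R) := by
      have := h.z1
      have : t' + τ ≤ 1001 / 1000 * t' := by linarith [h.τ2]
      gcongr
    have c3 := mul_le_mul_of_nonneg_left (c1.trans c2) (sq_nonneg t)
    have c4 := mul_le_mul htt hR (by positivity) t1.le
    have c5 := mul_le_mul_of_nonneg_left c4 (by positivity : 0 ≤ 1001 / 500 * ε ^ 2 * t' * R)
    nlinarith [sq_nonneg (ε * (t' * R))]
  have s3 : |t * I3 - R| ≤ 145 / 2 * (ε * R) := by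
    have c1 := mul_le_mul_of_nonneg_left (abs_le.1 o2).1 t0.le
    have c2 := mul_le_mul_of_nonneg_left (abs_le.1 o2).2 t0.le
    have c3 := mul_le_mul_of_nonneg_left hR e0
    rw [abs_le] at o1 ⊢
    constructor <;> linarith [o1.1, o1.2]
  have r4 : t * (R + (t' - t) * I3 + I1 + I2) - t' * R =
      (t' - t) * (t * I3 - R) + t * I1 + t * I2 := by ring
  rw [r1, r4]
  have s4 : |(t' - t) * (t * I3 - R)| ≤ t' * (145 / 2 * (ε * R)) := by
    rw [abs_mul, abs_of_nonneg (by linarith)]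
    exact mul_le_mul (by linarith) s3 (abs_nonneg _) t1.le
  have s5 : |t * I1| ≤ t' * (11 / 2 * (ε * R)) := by
    rw [abs_mul, abs_of_pos t0]
    exact mul_le_mul htt s1 (abs_nonneg _) t1.le
  have s6 : |t * I2| = t * |I2| := by rw [abs_mul, abs_of_pos t0]
  have s7 : 0 ≤ ε * (t' * R) := by positivity
  linarith [abs_add_three ((t' - t) * (t * I3 - R)) (t * I1) (t * I2)]

theorem h3 {t' : ℝ} {A' x y b' : Vec n} (htt : t ≤ t') (hA' : Sand e τ t' A')
    (o : O1 e ε τ t x y) (S : Finset (Fin n)) (hS : ∀ a ∈ S, e a ≤ t + τ)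
    (g : ∑ a ∈ S, b' a ^ 2 ≤ (t' + τ) * (2 * S.card + 4 * z)) :
    ∑ a ∈ S, (A' a * x a + b' a - t' * x a) ^ 2 ≤ 15 * (t' * uu n t) := by
  have u0 := h.upos
  have t0 := h.t0
  have τ0 := h.τ0
  have τ2 := h.τ2
  have a1 : ∑ a ∈ S, (A' a * x a + b' a - t' * x a) ^ 2 ≤
      2 * (501 / 500 * t) ^ 2 * ∑ a ∈ S, x a ^ 2 + 2 * ∑ a ∈ S, b' a ^ 2 := by
    rw [Finset.mul_sum, Finset.mul_sum, ← Finset.sum_add_distrib]
    refine Finset.sum_le_sum fun a ha => ?_
    have c1 := (le_max_left _ _).trans (hA' a).1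
    have c2 := (hA' a).2.trans (max_le (by linarith [h.epos a]) (by linarith : 0 ≤ t' + τ))
    have c3 : (A' a - t') ^ 2 ≤ (501 / 500 * t) ^ 2 :=
      sq_le_sq' (by linarith [hS a ha]) (by linarith)
    have c4 := mul_le_mul_of_nonneg_right c3 (sq_nonneg (x a))
    nlinarith [sq_nonneg ((A' a - t') * x a - b' a)]
  have a2 := mul_le_mul_of_nonneg_left (mass_le_Tm e h.ppos x S hS) t0.le
  have a3 := mul_le_mul_of_nonneg_left (a2.trans o.tm) t0.le
  have a4 := (card_le_T2s e h.ppos S hS).trans h.Tp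
  have a5 : z ≤ 1 / 1000 * uu n t := by
    refine h.z1.trans (mul_le_mul_of_nonneg_right ?_ u0.le)
    nlinarith [h.ε0, h.ε1]
  have a6 : (t' + τ) * (2 * S.card + 4 * z) ≤ (1001 / 1000 * t') * (503 / 125 * uu n t) :=
    mul_le_mul (by linarith) (by linarith) (by have := h.z0; positivity) (by linarith)
  have a7 := mul_le_mul_of_nonneg_right htt u0.le
  have a8 : 0 ≤ t * uu n t := by positivity
  linarith

end Par

/-- the good event of the path on the steps `k₀ ≤ k ≤ N` -/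
structure Good (e : Vec n) (ε τ : ℝ) (t : ℕ → ℝ) (k₀ N : ℕ) (x : Vec n) (y : ℕ → Vec n) :
    Prop where
  sqx : F.sq x = n
  o1 : ∀ k, k₀ ≤ k → k ≤ N → O1 e ε τ (t k) x (y k)
  h1 : ∀ j k, k₀ ≤ j → j ≤ k → k ≤ N →
    |t j * ip (y j) (y k) - t k * F.sq (y j)| ≤ 81 * ε * (t k * F.sq (y j))
  h3 : ∀ j k, k₀ ≤ j → j ≤ k → k ≤ N → ∀ S : Finset (Fin n), (∀ a ∈ S, e a ≤ t j + τ) →
    ∑ a ∈ S, (y k a - t k * x a) ^ 2 ≤ 15 * (t k * uu n (t j))

theorem tail_G1 {lam : Vec n} {γ C ε τ t z : ℝ} (hs : Sad lam γ C) (h : Par (gp lam γ) ε τ t z)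
    (r : ℕ → Vec n) (k : ℕ) (hA : Sand (gp lam γ) τ t (An r k)) :
    (spN n (diagonal lam) 0).real {q | ¬ G1 (gp lam γ) τ t z (An r k) q.1 (Bn r k q.2)} ≤
      18 * (C * exp (-z)) := by
  have u3 : 0 < 3 * uu n t := by linarith [h.upos]
  have a1 := (fst_real_le (sG lam) (PN n) _).trans_le (hs.tail_XG h.ppos u3 h.z0 h.Tp')
  have a2 := (fst_real_le (sG lam) (PN n) _).trans_le (hs.tail_XG h.mpos u3 h.z0 h.Tm')
  have a3 := (snd_real_le (sG lam) (PN n) _).trans_le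
    (tail_sq r k h.ppos u3 h.z0 (h.A_le hA) (h.sum_sq_le hA))
  have a4 := prod_real_le (sG lam) (PN n) (E := {q | √(2 * z * ∑ a, An r k a *
      (An r k a * q.1 a) ^ 2) < |ip (fun a => An r k a * q.1 a) (Bn r k q.2)|})
    (measurableSet_lt (by fun_prop) (by unfold ip Bn; fun_prop))
    fun x => tail_ip r k (fun a => An r k a * x a) h.z0 le_rfl
  have a5 := prod_real_le (sG lam) (PN n) (E := {q | √(2 * z * ∑ a, An r k a * q.1 a ^ 2) <
      |ip q.1 (Bn r k q.2)|}) (measurableSet_lt (by fun_prop) (by unfold ip Bn; fun_prop))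
    fun x => tail_ip r k x h.z0 le_rfl
  have a6 := mul_le_mul_of_nonneg_right hs.one_le (exp_pos (-z)).le
  refine (Tail.real_or_le _ (q := fun x => _) (r := fun x => _ ∨ _ ∨ _ ∨ _) fun x hx => ?_).trans
    ((add_le_add a1 ((Tail.real_or_le _ (q := fun x => _) (r := fun x => _ ∨ _ ∨ _)
      fun x hx => hx).trans (add_le_add a2 ((Tail.real_or_le _ (q := fun x => _)
        (r := fun x => _ ∨ _) fun x hx => hx).trans (add_le_add a3
          ((Tail.real_or_le _ (q := fun x => _) (r := fun x => _) fun x hx => hx).trans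
            (add_le_add a4 a5))))))).trans (by linarith))
  by_contra hc
  push Not at hc
  exact hx ⟨hc.1, hc.2.1, hc.2.2.1, hc.2.2.2.1, hc.2.2.2.2⟩

/-- one time marginal -/
theorem tail_O1 {lam : Vec n} {γ C ε τ t z : ℝ} (hs : Sad lam γ C) (h : Par (gp lam γ) ε τ t z)
    (r : ℕ → Vec n) (k : ℕ) (hA : Sand (gp lam γ) τ t (An r k)) :
    (spN n (diagonal lam) 0).real {q | ¬ O1 (gp lam γ) ε τ t q.1 (yp r q.1 q.2 k)} ≤
      18 * (C * exp (-z)) :=
  (Tail.real_imp_le _ fun _ hq hg => hq (h.o1 hA hg)).trans (tail_G1 hs h r k hA)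

open Classical in
theorem tail_G2 (M : Mat n) (y : Vec n) {e : Vec n} {s s' z : ℝ} (hz : 0 ≤ z) (hs' : 0 ≤ s')
    (r : ℕ → Vec n) {j k : ℕ} (hjk : j ≤ k) (hA : ∀ a, An r k a ≤ s') :
    (spN n M y).real {q | √(2 * z * (s' * F.sq (yp r q.1 q.2 j))) <
        |ip (yp r q.1 q.2 j) (Bn r k q.2 - Bn r j q.2)| ∨
      s' * (2 * (Finset.univ.filter fun a => e a ≤ s).card + 4 * z) <
        ∑ a ∈ Finset.univ.filter fun a => e a ≤ s, Bn r k q.2 a ^ 2} ≤ 3 * exp (-z) := by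
  have a1 := prod_real_le (spM M y) (PN n) (E := {q | √(2 * z * (s' * F.sq (yp r q.1 q.2 j))) <
      |ip (yp r q.1 q.2 j) (Bn r k q.2 - Bn r j q.2)|})
    (measurableSet_lt (by unfold yp Bn; fun_prop) (by unfold ip yp Bn; fun_prop))
    fun x => tail_incr r x hjk hz hA
  have a2 := (snd_real_le (spM M y) (PN n) _).trans_le
    (tail_set r k (Finset.univ.filter fun a => e a ≤ s) z hs' hA)
  exact (Tail.real_or_le _ (q := fun x => _) (r := fun x => _) fun x hx => hx).trans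
    ((add_le_add a1 a2).trans (le_of_eq (by ring)))

open Classical in
/-- **path events**, general form -/
theorem path_tail {lam : Vec n} {γ C ε τ z : ℝ} (hs : Sad lam γ C) {t : ℕ → ℝ} (ht : Monotone t)
    (r : ℕ → Vec n) {k₀ N : ℕ} (h : ∀ k, k₀ ≤ k → k ≤ N → Par (gp lam γ) ε τ (t k) z)
    (hA : ∀ k, k₀ ≤ k → k ≤ N → Sand (gp lam γ) τ (t k) (An r k)) :
    (spN n (diagonal lam) 0).real {q | ¬ Good (gp lam γ) ε τ t k₀ N q.1 (yp r q.1 q.2)} ≤
      21 * C * (N + 1) ^ 2 * exp (-z) := by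
  have hC := hs.one_le
  have hcard : ((Finset.Icc k₀ N).card : ℝ) ≤ N + 1 := by
    rw [Nat.card_Icc]
    exact_mod_cast Nat.sub_le _ _
  have a0 : (spN n (diagonal lam) 0).real {q | F.sq q.1 ≠ n} = 0 := by
    refine (fst_real_le (sG lam) (PN n) fun x => F.sq x ≠ n).trans ?_
    rw [measureReal_def, ae_iff.1 (ae_spM hs.npos _ _), ENNReal.toReal_zero]
  have a1 := Tail.real_exists_le (spN n (diagonal lam) 0) (Finset.Icc k₀ N) _
    (fun _ => 18 * (C * exp (-z))) fun k hk => tail_G1 hs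
      (h k (Finset.mem_Icc.1 hk).1 (Finset.mem_Icc.1 hk).2) r k
      (hA k (Finset.mem_Icc.1 hk).1 (Finset.mem_Icc.1 hk).2)
  have a2 := Tail.real_exists_le (spN n (diagonal lam) 0)
    ((Finset.Icc k₀ N ×ˢ Finset.Icc k₀ N).filter fun p => p.1 ≤ p.2) _
    (fun _ => 3 * exp (-z)) fun p hp => by
      have h1 := Finset.mem_filter.1 hp
      have h2 := Finset.mem_Icc.1 (Finset.mem_product.1 h1.1).2
      have h3 := h p.2 h2.1 h2.2
      exact tail_G2 (diagonal lam) 0 (e := gp lam γ) (s := t p.1 + τ) h3.z0 h3.ppos.le r h1.2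
        (h3.A_le (hA p.2 h2.1 h2.2))
  rw [Finset.sum_const, nsmul_eq_mul] at a1 a2
  have a3 : (((Finset.Icc k₀ N ×ˢ Finset.Icc k₀ N).filter fun p => p.1 ≤ p.2).card : ℝ) ≤
      (N + 1) ^ 2 := by
    have b1 : (((Finset.Icc k₀ N ×ˢ Finset.Icc k₀ N).filter fun p => p.1 ≤ p.2).card : ℝ) ≤
        (Finset.Icc k₀ N ×ˢ Finset.Icc k₀ N).card := by exact_mod_cast Finset.card_filter_le _ _
    rw [Finset.card_product, Nat.cast_mul] at b1
    nlinarith [(Nat.cast_nonneg (Finset.Icc k₀ N).card : (0 : ℝ) ≤ _)]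
  have x0 := exp_pos (-z)
  have N0 : (0 : ℝ) ≤ N := Nat.cast_nonneg N
  have a4 : ((Finset.Icc k₀ N).card : ℝ) * (18 * (C * exp (-z))) ≤
      (N + 1) ^ 2 * (18 * (C * exp (-z))) :=
    mul_le_mul_of_nonneg_right (by nlinarith) (by positivity)
  have a5 := mul_le_mul a3 (mul_le_mul_of_nonneg_left
    (le_mul_of_one_le_left x0.le hC) (by norm_num : (0 : ℝ) ≤ 3)) (by positivity) (by positivity)
  refine (Tail.real_or_le _ (q := fun x => _) (r := fun x => _ ∨ _) fun q hq => ?_).trans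
    ((add_le_add a0.le ((Tail.real_or_le _ (q := fun x => _) (r := fun x => _)
      fun x hx => hx).trans (add_le_add a1 a2))).trans (by linarith))
  by_contra hc
  push Not at hc
  obtain ⟨c0, c1, c2⟩ := hc
  have o : ∀ k, k₀ ≤ k → k ≤ N → O1 (gp lam γ) ε τ (t k) q.1 (yp r q.1 q.2 k) := fun k k1 k2 =>
    (h k k1 k2).o1 (hA k k1 k2) (c1 k (Finset.mem_Icc.2 ⟨k1, k2⟩))
  have c3 := fun j k (j1 : k₀ ≤ j) (jk : j ≤ k) (k2 : k ≤ N) => c2 (j, k) (Finset.mem_filter.2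
    ⟨Finset.mem_product.2 ⟨Finset.mem_Icc.2 ⟨j1, jk.trans k2⟩, Finset.mem_Icc.2 ⟨j1.trans jk, k2⟩⟩,
      jk⟩)
  refine hq ⟨c0, o, fun j k j1 jk k2 => ?_, fun j k j1 jk k2 S hS => ?_⟩
  · exact (h j j1 (jk.trans k2)).h1 (ht jk) (hA j j1 (jk.trans k2)) (hA k (j1.trans jk) k2)
      (fun a ha => Bn_zero ha _) (o j j1 (jk.trans k2)) (c3 j k j1 jk k2).1
  · refine le_trans (Finset.sum_le_sum_of_subset_of_nonneg
      (t := Finset.univ.filter fun a => gp lam γ a ≤ t j + τ)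
      (fun a ha => Finset.mem_filter.2 ⟨Finset.mem_univ a, hS a ha⟩) fun a _ _ => sq_nonneg _) ?_
    exact (h j j1 (jk.trans k2)).h3 (ht jk) (hA k (j1.trans jk) k2) (o j j1 (jk.trans k2)) _
      (fun a ha => (Finset.mem_filter.1 ha).2) (c3 j k j1 jk k2).2

/-! ### the cap flow -/

open Cap

/-- the coefficients of the cap flow -/
noncomputable def rC (lam : Vec n) (t : ℕ → ℝ) : ℕ → Vec n :=
  fun i a => dI lam (t i) a * √(t (i + 1) - t i)

theorem An_rC {lam : Vec n} {t : ℕ → ℝ} {dl : ℝ} (h : Grid lam t dl) (k : ℕ) :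
    An (rC lam t) k = pr lam (t k) := by
  funext a
  rw [h.pr_eq]
  refine Finset.sum_congr rfl fun i _ => ?_
  rw [rC, mul_pow, sq_sqrt (h.step_pos i).le, pow_two, dI_mul_self, mul_comm]

theorem yp_rC {lam : Vec n} {t : ℕ → ℝ} {dl : ℝ} (h : Grid lam t dl) (x : Vec n)
    (ω : ℕ → Vec n) : yp (rC lam t) x ω = yF lam t x ω := by
  funext k a
  rw [h.yF_eq, yp, An_rC h]
  rfl

/-- event `E1` of the cap flow -/
structure CapGood (lam : Vec n) (ε : ℝ) (t : ℕ → ℝ) (k₀ N : ℕ) (x : Vec n) (y : ℕ → Vec n) :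
    Prop where
  sqx : F.sq x = n
  sq : ∀ k, k₀ ≤ k → k ≤ N →
    |F.sq (y k) - 2 * c0 * (t k * uu n (t k))| ≤ 21 * ε * (t k * uu n (t k))
  ip : ∀ k, k₀ ≤ k → k ≤ N → |ip (y k) x - 2 * c0 * uu n (t k)| ≤ 8 * ε * uu n (t k)
  tm : ∀ k, k₀ ≤ k → k ≤ N → ∑ a, x a ^ 2 / max (2 - lam a) (t k) ≤ 3 * (n / √(t k))
  h1 : ∀ j k, k₀ ≤ j → j ≤ k → k ≤ N →
    |t j * F.ip (y j) (y k) - t k * F.sq (y j)| ≤ 81 * ε * (t k * F.sq (y j))
  h3 : ∀ j k, k₀ ≤ j → j ≤ k → k ≤ N →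
    F.sq (fun a => dI lam (t j) a * (y k a - t k * x a)) ≤ 15 * (t k * uu n (t j))

open Classical in
theorem Good.cap {lam : Vec n} {η ε τ : ℝ} {t : ℕ → ℝ} {k₀ N : ℕ} {x : Vec n} {y : ℕ → Vec n}
    (h : Good (gp lam (2 + η)) ε τ t k₀ N x y) (hη : η ≤ τ) (hτ : 0 ≤ τ)
    (ht : ∀ k, k₀ ≤ k → 0 < t k) : CapGood lam ε t k₀ N x y := by
  refine ⟨h.sqx, fun k a b => (h.o1 k a b).sq, fun k a b => (h.o1 k a b).ip, fun k k1 k2 => ?_,
    h.h1, fun j k j1 jk k2 => ?_⟩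
  · have t0 := ht k k1
    have a1 : t k * ∑ a, x a ^ 2 / max (2 - lam a) (t k) ≤ Tm (gp lam (2 + η)) (t k + τ) x := by
      rw [Finset.mul_sum]
      refine Finset.sum_le_sum fun a _ => ?_
      rw [mul_div_assoc', mul_div_right_comm]
      refine mul_le_mul_of_nonneg_right ?_ (sq_nonneg _)
      have b1 : t k ≤ max (2 - lam a) (t k) := le_max_right _ _
      have b2 : max (gp lam (2 + η) a) (t k + τ) ≤ max (2 - lam a) (t k) + τ :=
        max_le (by unfold gp; linarith [le_max_left (2 - lam a) (t k)]) (by linarith)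
      rw [div_le_div_iff₀ (by linarith) (lt_max_of_lt_right (by linarith))]
      nlinarith [mul_le_mul_of_nonneg_left b2 t0.le, mul_le_mul_of_nonneg_left b1 hτ]
    have a2 := (mul_le_mul_of_nonneg_left a1 t0.le).trans (h.o1 k k1 k2).tm
    have a3 : 3 * uu n (t k) = t k * (t k * (3 * (n / √(t k)))) := by
      rw [div_sqrt_eq _ t0]; unfold uu; field_simp
    rw [a3] at a2
    exact le_of_mul_le_mul_left (le_of_mul_le_mul_left a2 t0) t0
  · refine le_trans (le_of_eq ?_) (h.h3 j k j1 jk k2 (Finset.univ.filter fun a => 2 - lam a ≤ t j)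
      fun a ha => by have := (Finset.mem_filter.1 ha).2; unfold gp; linarith)
    rw [F.sq, Finset.sum_filter]
    refine Finset.sum_congr rfl fun a _ => ?_
    unfold dI
    split_ifs <;> simp

/-- **path events of the cap flow** (event `E1`) -/
theorem cap_tail {w : ℝ} {lam : Vec n} (h : Rigid w lam) (hn : 0 < n) (hw : 0 < w)
    {t : ℕ → ℝ} {dl : ℝ} (hG : Grid lam t dl) {ε z : ℝ} {k₀ N : ℕ} (hε : ε ≤ 1 / 1000)
    (hk : 20 * Edge.kap w ≤ ε) (h0 : 30 * sc0 n w ≤ ε * t k₀) (hN : t N ≤ ε) (hz : 0 ≤ z)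
    (hz1 : z ≤ ε ^ 2 * uu n (t k₀)) :
    (spN n (diagonal lam) 0).real {q | ¬ CapGood lam ε t k₀ N q.1 (yF lam t q.1 q.2)} ≤
      31500 * n ^ 8 * (N + 1) ^ 2 * exp (-z) := by
  have s0 := sc0_pos hn hw
  have k0 := kap_pos hw
  have e0 : 0 < ε := by linarith
  have t0 : 0 < t k₀ := by
    by_contra hc
    push Not at hc
    nlinarith
  have tk : ∀ k, k₀ ≤ k → 0 < t k := fun k hk => t0.trans_le (hG.mono hk)
  rcases lt_or_ge N k₀ with hlt | hle
  · obtain ⟨a0⟩ : Nonempty (Fin n) := ⟨⟨0, hn⟩⟩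
    have a1 : (spN n (diagonal lam) 0).real {q | F.sq q.1 ≠ n} = 0 := by
      refine (fst_real_le (sG lam) (PN n) fun x => F.sq x ≠ n).trans ?_
      rw [measureReal_def, ae_iff.1 (ae_spM hn _ _), ENNReal.toReal_zero]
    refine (Tail.real_imp_le _ fun q hq hc => hq ?_).trans (a1.le.trans (by positivity))
    exact ⟨hc, fun k _ _ => by omega, fun k _ _ => by omega, fun k _ _ => by omega,
      fun j k _ _ _ => by omega, fun j k _ _ _ => by omega⟩
  have t1 : ε * t k₀ ≤ 1 / 1000 * ε := by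
    have := mul_le_mul_of_nonneg_left ((hG.mono hle).trans (hN.trans hε)) e0.le
    linarith
  obtain ⟨η, h1, h2, h3⟩ := exists_sad h hn hw (by linarith) (by linarith)
  obtain ⟨h4, h5⟩ := abs_le.1 h1
  have key := path_tail (ε := ε) (τ := 2 * sc0 n w) (z := z) h2 hG.mono (rC lam t) (k₀ := k₀)
    (N := N) (fun k k1 k2 => ?_) (fun k _ _ a => ?_)
  · refine (Tail.real_imp_le _ fun q hq hc => hq ?_).trans (key.trans (le_of_eq (by ring)))
    rw [yp_rC hG] at hc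
    exact hc.cap h5 (by linarith) tk
  · have b1 : 30 * sc0 n w ≤ ε * t k := h0.trans (mul_le_mul_of_nonneg_left (hG.mono k1) e0.le)
    have b2 : t k ≤ ε := (hG.mono k2).trans hN
    have b3 := tk k k1
    have b4 : ε * t k ≤ 1 / 1000 * t k := mul_le_mul_of_nonneg_right hε b3.le
    have b5 : ∀ s, t k - 2 * sc0 n w ≤ s → s ≤ t k + 2 * sc0 n w →
        Spec (gp lam (2 + η)) ε s := by
      intro s c1 c2
      refine (h3 s (by linarith) (by linarith)).mono ?_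
      have c3 : sc0 n w / s ≤ ε / 29 := by
        rw [div_le_div_iff₀ (by linarith) (by norm_num)]
        have c4 := mul_le_mul_of_nonneg_left c1 e0.le
        have c5 := mul_le_mul_of_nonneg_right hε s0.le
        linarith
      linarith
    exact ⟨hn, h2.pos, b3, e0.le, hε, by linarith, by linarith, hz,
      hz1.trans (mul_le_mul_of_nonneg_left (uu_mono n t0.le (hG.mono k1)) (sq_nonneg ε)),
      b5 _ (by linarith) le_rfl, b5 _ le_rfl (by linarith)⟩
  · rw [An_rC hG]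
    unfold pr gp
    exact ⟨max_le_max (by linarith) le_rfl, max_le_max (by linarith) le_rfl⟩

namespace CapGood

variable {lam : Vec n} {ε : ℝ} {t : ℕ → ℝ} {k₀ N : ℕ} {x : Vec n} {y : ℕ → Vec n}

theorem sq_ge (h : CapGood lam ε t k₀ N x y) (hε : ε ≤ 1 / 1000) {k : ℕ} (h1 : k₀ ≤ k)
    (h2 : k ≤ N) (ht : 0 < t k) : 2 / 5 * (t k * uu n (t k)) ≤ F.sq (y k) := by
  have a0 : 0 ≤ t k * uu n (t k) := by unfold uu; positivity
  have a1 := mul_le_mul_of_nonneg_right hε a0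
  have a2 := mul_le_mul_of_nonneg_right le_c0 a0
  linarith [(abs_le.1 (h.sq k h1 h2)).1]

theorem sq_le (h : CapGood lam ε t k₀ N x y) (hε : ε ≤ 1 / 1000) {k : ℕ} (h1 : k₀ ≤ k)
    (h2 : k ≤ N) (ht : 0 < t k) : F.sq (y k) ≤ 1 / 2 * (t k * uu n (t k)) := by
  have a0 : 0 ≤ t k * uu n (t k) := by unfold uu; positivity
  have a1 := mul_le_mul_of_nonneg_right hε a0
  have a2 := mul_le_mul_of_nonneg_right c0_le a0
  linarith [(abs_le.1 (h.sq k h1 h2)).2]

/-- the radial hypotheses of the recursion, in site coordinates -/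
theorem rad (h : CapGood lam ε t k₀ N x y) (hε : ε ≤ 1 / 1000) (ht : ∀ k, k₀ ≤ k → 0 < t k)
    (O : OG n) {κ : ℝ} {a b : ℕ} (ha : k₀ ≤ a) (hab : a ≤ b) (hb : b ≤ N)
    (hκ : 40 * (t a * √(t a)) ≤ κ ^ 2 * (t b * √(t b))) :
    Rec.Rad t (fun k => PC lam O (t k)) (fun k => O.1ᵀ *ᵥ y k) κ (81 * ε) a b := by
  have hO : O.1ᵀᵀ * O.1ᵀ = 1 := by rw [Matrix.transpose_transpose]; exact OG.mul_transpose O
  have ta := ht a ha
  have tb := ht b (ha.trans hab)
  have u0 : 0 ≤ uu n (t a) := by unfold uu; positivity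
  have key : 16 * uu n (t a) ≤ κ ^ 2 * (F.sq (y b) / t b) := by
    have c1 : 2 / 5 * uu n (t b) ≤ F.sq (y b) / t b := by
      rw [le_div_iff₀ tb]; linarith [h.sq_ge hε (ha.trans hab) hb tb]
    have c2 := mul_le_mul_of_nonneg_left c1 (sq_nonneg κ)
    have c3 := mul_le_mul_of_nonneg_left hκ (Nat.cast_nonneg n : (0 : ℝ) ≤ n)
    unfold uu at *
    linarith
  refine ⟨fun j k j1 jk k2 => ?_, ⟨O.1ᵀ *ᵥ x, fun k k1 k2 => ?_⟩, ?_⟩
  · rw [ip_mulVec_orth hO, sq_mulVec_orth hO]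
    exact h.h1 j k (ha.trans j1) jk (k2.trans hb)
  · have e : PC lam O (t a) *ᵥ (O.1ᵀ *ᵥ y k - t k • O.1ᵀ *ᵥ x) =
        O.1ᵀ *ᵥ fun i => dI lam (t a) i * (y k i - t k * x i) := by
      rw [← Matrix.mulVec_smul, ← Matrix.mulVec_sub, PC, JO_mulVec, OG.mulVec_tr_mulVec]
      rfl
    rw [e, sq_mulVec_orth hO, sq_mulVec_orth hO]
    refine le_trans ?_ key
    rw [div_le_iff₀ (ht k (ha.trans k1))]
    have := mul_nonneg (ht k (ha.trans k1)).le u0
    linarith [h.h3 a k ha k1 (k2.trans hb)]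
  · rw [sq_mulVec_orth hO, sq_mulVec_orth hO]
    refine le_trans ?_ key
    rw [div_le_iff₀ ta]
    have := mul_nonneg ta.le u0
    linarith [h.sq_le hε ha (hab.trans hb) ta]

end CapGood

end Vale.Agent.N150.Path
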