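import Mathlib
import Vale.Agent.N150.SphDef

/-! Symmetric projections, removal of a direction, Householder reflections and a measurable
orthonormal frame for every measurable family of projections. -/

open MeasureTheory Matrix

namespace Vale.Agent.N150.Fib

open Vale.Agent.P150 Vale.Agent.P150.F

variable {n : ℕ}

/-- symmetric projection -/
structure IsProj (P : Mat n) : Prop where
  symm : Pᵀ = P
  idem : P * P = P

/-- the projection on the line spanned by `u` (zero for `u = 0`) -/
noncomputable def pj (u : Vec n) : Mat n := (F.sq u)⁻¹ • vecMulVec u u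

/-- remove the direction `P v` from the range of `P` -/
noncomputable def rm (P : Mat n) (v : Vec n) : Mat n := P - pj (P *ᵥ v)

/-- the Householder reflection in the hyperplane orthogonal to `w` -/
noncomputable def hh (w : Vec n) : Mat n := 1 - (2 : ℝ) • pj w

theorem isProj_one : IsProj (1 : Mat n) := ⟨transpose_one, mul_one _⟩

theorem isProj_zero : IsProj (0 : Mat n) := ⟨transpose_zero, mul_zero _⟩

theorem IsProj.compl {P : Mat n} (hP : IsProj P) : IsProj (1 - P) :=
  ⟨by rw [transpose_sub, transpose_one, hP.symm],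
    by rw [sub_mul, one_mul, mul_sub, mul_one, hP.idem, sub_self, sub_zero]⟩

theorem IsProj.mul_compl {P : Mat n} (hP : IsProj P) : P * (1 - P) = 0 := by
  rw [mul_sub, mul_one, hP.idem, sub_self]

theorem IsProj.compl_mul {P : Mat n} (hP : IsProj P) : (1 - P) * P = 0 := by
  rw [sub_mul, one_mul, hP.idem, sub_self]

theorem IsProj.mulVec_mulVec {P : Mat n} (hP : IsProj P) (v : Vec n) : P *ᵥ P *ᵥ v = P *ᵥ v := by
  rw [Matrix.mulVec_mulVec, hP.idem]

theorem IsProj.dot {P : Mat n} (hP : IsProj P) (u v : Vec n) : (P *ᵥ u) ⬝ᵥ v = u ⬝ᵥ (P *ᵥ v) := by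
  rw [dotProduct_mulVec, ← mulVec_transpose, hP.symm]

theorem IsProj.sq_eq {P : Mat n} (hP : IsProj P) (v : Vec n) :
    F.sq (P *ᵥ v) = (P *ᵥ v) ⬝ᵥ v := by
  rw [sq_eq_dot, ← hP.dot, hP.mulVec_mulVec]

/-- Pythagoras -/
theorem IsProj.sq_add {P : Mat n} (hP : IsProj P) (v : Vec n) :
    F.sq (P *ᵥ v) + F.sq ((1 - P) *ᵥ v) = F.sq v := by
  rw [hP.sq_eq, hP.compl.sq_eq, ← add_dotProduct, ← add_mulVec, add_sub_cancel, one_mulVec,
    sq_eq_dot]

theorem IsProj.sq_le {P : Mat n} (hP : IsProj P) (v : Vec n) : F.sq (P *ᵥ v) ≤ F.sq v := by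
  have h := hP.sq_add v
  have h2 := sq_nonneg' ((1 - P) *ᵥ v)
  linarith

theorem IsProj.conj {P R : Mat n} (hP : IsProj P) (hR : Rᵀ * R = 1) : IsProj (R * P * Rᵀ) :=
  ⟨by rw [transpose_mul, transpose_mul, transpose_transpose, hP.symm, Matrix.mul_assoc], by
    calc R * P * Rᵀ * (R * P * Rᵀ) = R * (P * (Rᵀ * R) * P) * Rᵀ := by
          simp only [Matrix.mul_assoc]
      _ = R * P * Rᵀ := by rw [hR, Matrix.mul_one, hP.idem]⟩

theorem IsProj.le_comm {P Q : Mat n} (hP : IsProj P) (hQ : IsProj Q) (h : P * Q = Q) :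
    Q * P = Q := by
  have h1 := congrArg transpose h
  rwa [transpose_mul, hP.symm, hQ.symm] at h1

theorem IsProj.trace_nonneg {P : Mat n} (hP : IsProj P) : 0 ≤ P.trace := by
  have h : P.trace = ∑ i, ∑ j, P i j ^ 2 := by
    conv_lhs => rw [← hP.idem]
    simp only [Matrix.trace, diag_apply, mul_apply, pow_two]
    refine Finset.sum_congr rfl fun i _ => Finset.sum_congr rfl fun j _ => ?_
    have h1 : P j i = P i j := by
      conv_lhs => rw [← hP.symm]
      rfl
    rw [h1]
  rw [h]
  positivity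

/-! ### rank one projections -/

theorem pj_zero : pj (0 : Vec n) = 0 := by
  unfold pj
  simp

theorem pj_mulVec (u w : Vec n) : pj u *ᵥ w = ((u ⬝ᵥ w) / F.sq u) • u := by
  unfold pj
  ext i
  simp only [Matrix.mulVec, dotProduct, Matrix.smul_apply, vecMulVec_apply, Pi.smul_apply,
    smul_eq_mul, div_eq_mul_inv, Finset.sum_mul]
  exact Finset.sum_congr rfl fun j _ => by ring

theorem pj_mulVec_self (u : Vec n) : pj u *ᵥ u = u := by
  by_cases hu : u = 0
  · subst hu
    simp
  · rw [pj_mulVec, ← sq_eq_dot, div_self (sq_pos' hu).ne', one_smul]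

theorem pj_transpose (u : Vec n) : (pj u)ᵀ = pj u := by
  unfold pj
  rw [transpose_smul, transpose_vecMulVec]

theorem mul_pj {A : Mat n} {u : Vec n} (h : A *ᵥ u = u) : A * pj u = pj u := by
  unfold pj
  rw [Matrix.mul_smul, mul_vecMulVec, h]

theorem mul_pj_zero {A : Mat n} {u : Vec n} (h : A *ᵥ u = 0) : A * pj u = 0 := by
  unfold pj
  rw [Matrix.mul_smul, mul_vecMulVec, h]
  simp

theorem isProj_pj (u : Vec n) : IsProj (pj u) := ⟨pj_transpose u, mul_pj (pj_mulVec_self u)⟩

theorem pj_conj {R : Mat n} (hR : Rᵀ * R = 1) (u : Vec n) : R * pj u * Rᵀ = pj (R *ᵥ u) := by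
  unfold pj
  rw [sq_mulVec_orth hR, Matrix.mul_smul, Matrix.smul_mul, mul_vecMulVec, vecMulVec_mul,
    vecMul_transpose]

theorem pj_smul {c : ℝ} (hc : c ≠ 0) (u : Vec n) : pj (c • u) = pj u := by
  unfold pj
  rw [sq_smul', smul_vecMulVec, vecMulVec_smul, smul_smul, smul_smul]
  congr 1
  by_cases h : F.sq u = 0
  · simp [h]
  · field_simp

theorem pj_rp {ρ : ℝ} (hρ : 0 < ρ) (u : Vec n) : pj (rp ρ u) = pj u := by
  by_cases hu : u = 0
  · subst hu
    unfold rp
    rw [smul_zero]
  · unfold rp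
    exact pj_smul (div_pos (Real.sqrt_pos.2 hρ) (Real.sqrt_pos.2 (sq_pos' hu))).ne' u

theorem trace_pj {u : Vec n} (hu : u ≠ 0) : (pj u).trace = 1 := by
  unfold pj
  rw [trace_smul, trace_vecMulVec, ← sq_eq_dot, smul_eq_mul, inv_mul_cancel₀ (sq_pos' hu).ne']

theorem trace_pj_le (u : Vec n) : (pj u).trace ≤ 1 := by
  by_cases hu : u = 0
  · subst hu
    rw [pj_zero, trace_zero]
    exact zero_le_one
  · exact (trace_pj hu).le

/-! ### removing a direction -/

theorem IsProj.mul_pj {P : Mat n} (hP : IsProj P) (v : Vec n) : P * pj (P *ᵥ v) = pj (P *ᵥ v) :=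
  Fib.mul_pj (hP.mulVec_mulVec v)

theorem IsProj.pj_mul {P : Mat n} (hP : IsProj P) (v : Vec n) : pj (P *ᵥ v) * P = pj (P *ᵥ v) :=
  hP.le_comm (isProj_pj _) (hP.mul_pj v)

theorem IsProj.mul_rm {P : Mat n} (hP : IsProj P) (v : Vec n) : P * rm P v = rm P v := by
  unfold rm
  rw [mul_sub, hP.idem, hP.mul_pj]

theorem IsProj.rm_mul {P : Mat n} (hP : IsProj P) (v : Vec n) : rm P v * P = rm P v := by
  unfold rm
  rw [sub_mul, hP.idem, hP.pj_mul]

theorem IsProj.rm {P : Mat n} (hP : IsProj P) (v : Vec n) : IsProj (rm P v) := by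
  refine ⟨?_, ?_⟩
  · unfold Fib.rm
    rw [transpose_sub, hP.symm, pj_transpose]
  · unfold Fib.rm
    rw [sub_mul, mul_sub, mul_sub, hP.idem, hP.mul_pj, hP.pj_mul, (isProj_pj _).idem, sub_self,
      sub_zero]

theorem IsProj.rm_mulVec_of {P : Mat n} (hP : IsProj P) (v : Vec n) {w : Vec n}
    (hw : P *ᵥ w = 0) : Fib.rm P v *ᵥ w = 0 := by
  rw [← hP.rm_mul, ← Matrix.mulVec_mulVec, hw, mulVec_zero]

theorem IsProj.rm_mulVec_self {P : Mat n} (hP : IsProj P) (v : Vec n) : Fib.rm P v *ᵥ v = 0 := by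
  rw [← hP.rm_mul, ← Matrix.mulVec_mulVec]
  unfold Fib.rm
  rw [sub_mulVec, hP.mulVec_mulVec, pj_mulVec_self, sub_self]

theorem rm_conj {P R : Mat n} (hR : Rᵀ * R = 1) (v : Vec n) :
    R * rm P v * Rᵀ = rm (R * P * Rᵀ) (R *ᵥ v) := by
  unfold rm
  rw [Matrix.mul_sub, Matrix.sub_mul, pj_conj hR, Matrix.mulVec_mulVec, Matrix.mulVec_mulVec,
    Matrix.mul_assoc (R * P), hR, Matrix.mul_one]

theorem trace_rm_ge (P : Mat n) (v : Vec n) : P.trace - 1 ≤ (rm P v).trace := by
  unfold rm
  rw [trace_sub]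
  linarith [trace_pj_le (P *ᵥ v)]

theorem trace_rm_le (P : Mat n) (v : Vec n) : (rm P v).trace ≤ P.trace := by
  unfold rm
  rw [trace_sub]
  linarith [(isProj_pj (P *ᵥ v)).trace_nonneg]

theorem trace_conj {R : Mat n} (hR : Rᵀ * R = 1) (P : Mat n) : (R * P * Rᵀ).trace = P.trace := by
  rw [trace_mul_comm, ← Matrix.mul_assoc, hR, Matrix.one_mul]

/-- a projection below `P` which kills `v` is below `rm P v` -/
theorem IsProj.rm_mul_of {P Q : Mat n} (hP : IsProj P) (hQ : IsProj Q) (h : P * Q = Q)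
    {v : Vec n} (hv : Q *ᵥ v = 0) : Fib.rm P v * Q = Q := by
  have h1 : Q * pj (P *ᵥ v) = 0 :=
    mul_pj_zero (by rw [Matrix.mulVec_mulVec, hP.le_comm hQ h, hv])
  have h2 : pj (P *ᵥ v) * Q = 0 := by
    have h3 := congrArg transpose h1
    rwa [transpose_mul, pj_transpose, hQ.symm, transpose_zero] at h3
  unfold Fib.rm
  rw [sub_mul, h, h2, sub_zero]

/-! ### reflections -/

theorem hh_zero : hh (0 : Vec n) = 1 := by
  unfold hh
  rw [pj_zero, smul_zero, sub_zero]

theorem hh_transpose (w : Vec n) : (hh w)ᵀ = hh w := by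
  unfold hh
  rw [transpose_sub, transpose_one, transpose_smul, pj_transpose]

theorem hh_mul_self (w : Vec n) : hh w * hh w = 1 := by
  unfold hh
  rw [sub_mul, one_mul, mul_sub, mul_one, Matrix.smul_mul, Matrix.mul_smul, (isProj_pj w).idem,
    smul_smul]
  have h : ((2 : ℝ) * 2) • pj w = (2 : ℝ) • pj w + (2 : ℝ) • pj w := by
    rw [← add_smul]
    norm_num
  rw [h]
  abel

theorem hh_orth (w : Vec n) : (hh w)ᵀ * hh w = 1 := by rw [hh_transpose, hh_mul_self]

theorem hh_mulVec (w x : Vec n) : hh w *ᵥ x = x - (2 * (w ⬝ᵥ x) / F.sq w) • w := by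
  unfold hh
  rw [sub_mulVec, one_mulVec, Matrix.smul_mulVec, pj_mulVec, smul_smul, mul_div_assoc]

theorem hh_mulVec_of_orth {w x : Vec n} (h : w ⬝ᵥ x = 0) : hh w *ᵥ x = x := by
  rw [hh_mulVec, h]
  simp

/-- the reflection exchanging two vectors of the same length -/
theorem hh_sub {a b : Vec n} (h : F.sq a = F.sq b) : hh (a - b) *ᵥ a = b := by
  by_cases hab : a - b = 0
  · rw [hab, hh_zero, one_mulVec]
    exact sub_eq_zero.1 hab
  · have h0 := (sq_pos' hab).ne'
    have h1 : 2 * ((a - b) ⬝ᵥ a) = F.sq (a - b) := by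
      rw [sq_eq_dot, sq_eq_dot] at h
      rw [sq_eq_dot, dotProduct_sub, sub_dotProduct, sub_dotProduct, dotProduct_comm b a, ← h]
      ring
    rw [hh_mulVec, h1, div_self h0, one_smul, sub_sub_cancel]

theorem hh_mul_compl {P : Mat n} (hP : IsProj P) {w : Vec n} (hw : P *ᵥ w = w) :
    hh w * (1 - P) = 1 - P := by
  have h : pj w * P = pj w := hP.le_comm (isProj_pj w) (mul_pj hw)
  unfold hh
  rw [sub_mul, one_mul, Matrix.smul_mul, mul_sub, mul_one, h, sub_self, smul_zero, sub_zero]

theorem hh_conj_proj {P : Mat n} (hP : IsProj P) {w : Vec n} (hw : P *ᵥ w = w) :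
    hh w * P * (hh w)ᵀ = P := by
  have h1 := hh_mul_compl hP hw
  have h2 : (1 - P) * hh w = 1 - P := by
    have h3 := congrArg transpose h1
    rwa [transpose_mul, hP.compl.symm, hh_transpose] at h3
  have h4 : hh w * P = hh w - (1 - P) := by
    rw [← h1, mul_sub, mul_one, sub_sub_cancel]
  rw [h4, hh_transpose, sub_mul, hh_mul_self, h2, sub_sub_cancel]

theorem det_hh {w : Vec n} (hw : w ≠ 0) : (hh w).det = -1 := by
  have h : hh w = 1 + replicateCol Unit (-(2 * (F.sq w)⁻¹) • w) * replicateRow Unit w := by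
    rw [← vecMulVec_eq]
    unfold hh pj
    rw [smul_vecMulVec, smul_smul, neg_smul, sub_eq_add_neg]
  rw [h, det_one_add_replicateCol_mul_replicateRow, dotProduct_smul, ← sq_eq_dot, smul_eq_mul]
  have h0 := (sq_pos' hw).ne'
  field_simp
  norm_num

/-- Two vectors of the same length in the range of `P` are related by an orthogonal matrix which
fixes the kernel of `P`. -/
theorem exists_orth {P : Mat n} (hP : IsProj P) {a b : Vec n} (ha : P *ᵥ a = a) (hb : P *ᵥ b = b)
    (h : F.sq a = F.sq b) : ∃ R : Mat n, Rᵀ * R = 1 ∧ R * (1 - P) = 1 - P ∧ R *ᵥ a = b :=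
  ⟨hh (a - b), hh_orth _, hh_mul_compl hP (by rw [mulVec_sub, ha, hb]), hh_sub h⟩

/-- the same with determinant one if the rank is at least two -/
theorem exists_orth_det {P : Mat n} (hP : IsProj P) (h2 : 1 < P.trace) {a b : Vec n}
    (ha : P *ᵥ a = a) (hb : P *ᵥ b = b) (h : F.sq a = F.sq b) :
    ∃ R : Mat n, Rᵀ * R = 1 ∧ R * (1 - P) = 1 - P ∧ R.det = 1 ∧ R *ᵥ a = b := by
  by_cases hab : a - b = 0
  · exact ⟨1, by simp, by simp, det_one, by rw [one_mulVec]; exact sub_eq_zero.1 hab⟩
  have h3 : rm P b ≠ 0 := by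
    intro h0
    have h4 := trace_rm_ge P b
    rw [h0, trace_zero] at h4
    linarith
  obtain ⟨v, hv⟩ : ∃ v : Vec n, rm P b *ᵥ v ≠ 0 := by
    by_contra hc
    push Not at hc
    exact h3 (Matrix.ext_of_mulVec_single fun j => by rw [hc, zero_mulVec])
  set c := rm P b *ᵥ v with hc
  have hPc : P *ᵥ c = c := by rw [hc, Matrix.mulVec_mulVec, hP.mul_rm]
  have hcb : c ⬝ᵥ b = 0 := by rw [hc, (hP.rm b).dot, hP.rm_mulVec_self, dotProduct_zero]
  refine ⟨hh c * hh (a - b), ?_, ?_, ?_, ?_⟩
  · rw [transpose_mul, Matrix.mul_assoc, ← Matrix.mul_assoc (hh c)ᵀ, hh_orth, Matrix.one_mul,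
      hh_orth]
  · rw [Matrix.mul_assoc, hh_mul_compl hP (by rw [mulVec_sub, ha, hb]), hh_mul_compl hP hPc]
  · rw [det_mul, det_hh hv, det_hh hab]
    norm_num
  · rw [← Matrix.mulVec_mulVec, hh_sub h, hh_mulVec_of_orth hcb]

/-! ### entrywise measurable matrix families -/

section Meas

variable {X : Type*} [MeasurableSpace X]

/-- entrywise measurability -/
def MM (A : X → Mat n) : Prop := ∀ i j, Measurable fun x => A x i j

theorem MM.const (A : Mat n) : MM (fun _ : X => A) := fun _ _ => measurable_const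

theorem MM.comp {Y : Type*} [MeasurableSpace Y] {A : X → Mat n} (hA : MM A) {f : Y → X}
    (hf : Measurable f) : MM (fun y => A (f y)) := fun i j => (hA i j).comp hf

theorem MM.add {A B : X → Mat n} (hA : MM A) (hB : MM B) : MM (fun x => A x + B x) :=
  fun i j => (hA i j).add (hB i j)

theorem MM.sub {A B : X → Mat n} (hA : MM A) (hB : MM B) : MM (fun x => A x - B x) :=
  fun i j => (hA i j).sub (hB i j)

theorem MM.smul {A : X → Mat n} {c : X → ℝ} (hc : Measurable c) (hA : MM A) :
    MM (fun x => c x • A x) := fun i j => hc.mul (hA i j)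

theorem MM.transpose {A : X → Mat n} (hA : MM A) : MM (fun x => (A x)ᵀ) := fun i j => hA j i

theorem MM.mul {A B : X → Mat n} (hA : MM A) (hB : MM B) : MM (fun x => A x * B x) := by
  intro i j
  simp only [Matrix.mul_apply]
  exact Finset.measurable_sum _ fun k _ => (hA i k).mul (hB k j)

theorem MM.mulVec {A : X → Mat n} {v : X → Vec n} (hA : MM A) (hv : Measurable v) :
    Measurable (fun x => A x *ᵥ v x) := by
  refine measurable_pi_iff.2 fun i => ?_
  simp only [Matrix.mulVec, dotProduct]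
  exact Finset.measurable_sum _ fun k _ => (hA i k).mul ((measurable_pi_apply k).comp hv)

theorem MM.vecMulVec {u v : X → Vec n} (hu : Measurable u) (hv : Measurable v) :
    MM (fun x => vecMulVec (u x) (v x)) :=
  fun i j => ((measurable_pi_apply i).comp hu).mul ((measurable_pi_apply j).comp hv)

theorem MM.diagonal {d : X → Vec n} (hd : Measurable d) : MM (fun x => diagonal (d x)) := by
  intro i j
  simp only [diagonal_apply]
  split_ifs
  · exact (measurable_pi_apply i).comp hd
  · exact measurable_const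

theorem MM.ite {p : X → Prop} [DecidablePred p] (hp : MeasurableSet {x | p x}) {A B : X → Mat n}
    (hA : MM A) (hB : MM B) : MM (fun x => if p x then A x else B x) := by
  intro i j
  have h : (fun x => (if p x then A x else B x) i j) = fun x => if p x then A x i j else B x i j := by
    funext x
    split_ifs <;> rfl
  rw [h]
  exact Measurable.ite hp (hA i j) (hB i j)

theorem MM.trace {A : X → Mat n} (hA : MM A) : Measurable (fun x => (A x).trace) :=
  Finset.measurable_sum _ fun i _ => hA i i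

theorem MM.pj {u : X → Vec n} (hu : Measurable u) : MM (fun x => pj (u x)) :=
  MM.smul (measurable_sq.comp hu).inv (MM.vecMulVec hu hu)

theorem MM.rm {P : X → Mat n} {v : X → Vec n} (hP : MM P) (hv : Measurable v) :
    MM (fun x => rm (P x) (v x)) := hP.sub (MM.pj (hP.mulVec hv))

theorem MM.hh {w : X → Vec n} (hw : Measurable w) : MM (fun x => hh (w x)) :=
  (MM.const 1).sub (MM.smul measurable_const (MM.pj hw))

/-- coordinate projections -/
def ED (s : Fin n → Bool) : Mat n := diagonal fun i => if s i then 1 else 0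

theorem isProj_ED (s : Fin n → Bool) : IsProj (ED s) := by
  refine ⟨diagonal_transpose _, ?_⟩
  unfold ED
  rw [diagonal_mul_diagonal]
  congr 1
  funext i
  split_ifs <;> simp

theorem ED_true : ED (fun _ : Fin n => true) = 1 := by
  unfold ED
  simp

open Classical in
/-- a basis vector in the range of a coordinate projection -/
noncomputable def pick (s : Fin n → Bool) : Vec n :=
  if h : ∃ i, s i = true then Pi.single h.choose 1 else 0

open Classical in
/-- the coordinate set without the picked coordinate -/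
noncomputable def er (s : Fin n → Bool) : Fin n → Bool :=
  if h : ∃ i, s i = true then Function.update s h.choose false else s

theorem pick_spec {s : Fin n → Bool} (h : ∃ i, s i = true) :
    F.sq (pick s) = 1 ∧ ED s *ᵥ pick s = pick s ∧ ED (er s) = ED s - pj (pick s) := by
  have hs := h.choose_spec
  have h1 : pick s = Pi.single h.choose 1 := by
    unfold pick
    rw [dif_pos h]
  have h2 : er s = Function.update s h.choose false := by
    unfold er
    rw [dif_pos h]
  generalize h.choose = k at hs h1 h2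
  have h3 : F.sq (pick s) = 1 := by
    rw [h1, sq_eq_dot]
    simp
  refine ⟨h3, ?_, ?_⟩
  · rw [h1]
    unfold ED
    ext i
    rw [mulVec_diagonal]
    by_cases hi : i = k
    · subst hi
      simp [hs]
    · simp [hi]
  · unfold pj
    rw [h3, h1, h2]
    unfold ED
    ext i j
    simp only [inv_one, one_smul, Matrix.sub_apply, diagonal_apply, vecMulVec_apply,
      Pi.single_apply, Function.update_apply]
    by_cases hij : i = j
    · subst hij
      by_cases hi : i = k
      · subst hi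
        simp [hs]
      · simp [hi]
    · by_cases hi : i = k
      · subst hi
        simp [hij, Ne.symm hij]
      · simp [hij, hi]

/-- `P x = R x * E * (R x)ᵀ` with measurable orthogonal `R` and coordinate projection `E` -/
def HasFrame (P : X → Mat n) : Prop :=
  ∃ (R : X → Mat n) (s : X → Fin n → Bool), MM R ∧ Measurable s ∧
    ∀ x, (R x)ᵀ * R x = 1 ∧ P x = R x * ED (s x) * (R x)ᵀ

theorem hasFrame_one : HasFrame (fun _ : X => (1 : Mat n)) :=
  ⟨fun _ => 1, fun _ _ => true, MM.const 1, measurable_const, fun _ => by simp [ED_true]⟩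

theorem HasFrame.mm {P : X → Mat n} (h : HasFrame P) : MM P := by
  obtain ⟨R, s, hR, hs, h⟩ := h
  have h1 : P = fun x => R x * ED (s x) * (R x)ᵀ := funext fun x => (h x).2
  have h2 : MM (fun x => ED (s x)) := fun i j =>
    (Measurable.of_discrete (f := fun t : Fin n → Bool => ED t i j)).comp hs
  rw [h1]
  exact (hR.mul h2).mul hR.transpose

theorem HasFrame.rm {P : X → Mat n} (h : HasFrame P) {v : X → Vec n} (hv : Measurable v) :
    HasFrame (fun x => rm (P x) (v x)) := by
  classical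
  have hP := h.mm
  obtain ⟨R, s, hR, hs, h⟩ := h
  have hu : Measurable fun x => P x *ᵥ v x := hP.mulVec hv
  have h0 : MeasurableSet {x | P x *ᵥ v x = 0} := measurableSet_eq_fun hu measurable_const
  refine ⟨fun x => R x * hh (if P x *ᵥ v x = 0 then 0
      else pick (s x) - rp 1 ((R x)ᵀ *ᵥ (P x *ᵥ v x))),
    fun x => if P x *ᵥ v x = 0 then s x else er (s x), hR.mul (MM.hh ?_), ?_, fun x => ⟨?_, ?_⟩⟩
  · exact Measurable.ite h0 measurable_const
      (((Measurable.of_discrete (f := (pick : (Fin n → Bool) → Vec n))).comp hs).sub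
        ((measurable_rp 1).comp (hR.transpose.mulVec hu)))
  · exact Measurable.ite h0 hs
      ((Measurable.of_discrete (f := (er : (Fin n → Bool) → Fin n → Bool))).comp hs)
  · rw [transpose_mul, Matrix.mul_assoc, ← Matrix.mul_assoc (R x)ᵀ, (h x).1, Matrix.one_mul,
      hh_orth]
  · obtain ⟨hR1, hPx⟩ := h x
    by_cases hz : P x *ᵥ v x = 0
    · simp only [hz, if_true, hh_zero, Matrix.mul_one]
      unfold Fib.rm
      rw [hz, pj_zero, sub_zero]
      exact hPx
    simp only [hz, if_false]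
    have hR2 : R x * (R x)ᵀ = 1 := mul_eq_one_comm.1 hR1
    set b := (R x)ᵀ *ᵥ (P x *ᵥ v x) with hb
    have hRb : R x *ᵥ b = P x *ᵥ v x := by rw [hb, Matrix.mulVec_mulVec, hR2, one_mulVec]
    have hb0 : b ≠ 0 := fun h0 => hz (by rw [← hRb, h0, mulVec_zero])
    have hb1 : b = ED (s x) *ᵥ ((R x)ᵀ *ᵥ v x) := by
      rw [hb, hPx, Matrix.mulVec_mulVec, Matrix.mulVec_mulVec, ← Matrix.mul_assoc,
        ← Matrix.mul_assoc, hR1, Matrix.one_mul]
    have hEb : ED (s x) *ᵥ b = b := by
      rw [hb1, (isProj_ED _).mulVec_mulVec]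
    have hex : ∃ i, s x i = true := by
      by_contra hc
      push Not at hc
      apply hb0
      rw [hb1]
      have hE : ED (s x) = 0 := by
        unfold ED
        ext i j
        simp [diagonal_apply, hc]
      rw [hE, zero_mulVec]
    obtain ⟨hp1, hp2, hp3⟩ := pick_spec hex
    have hEr : ED (s x) *ᵥ rp 1 b = rp 1 b := by
      unfold rp
      rw [mulVec_smul, hEb]
    have hw : ED (s x) *ᵥ (pick (s x) - rp 1 b) = pick (s x) - rp 1 b := by
      rw [mulVec_sub, hp2, hEr]
    have hh1 : hh (pick (s x) - rp 1 b) *ᵥ pick (s x) = rp 1 b :=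
      hh_sub (by rw [hp1, sq_rp zero_le_one hb0])
    set H := hh (pick (s x) - rp 1 b) with hH
    have e1 : H * ED (er (s x)) * Hᵀ = ED (s x) - pj b := by
      rw [hp3, Matrix.mul_sub, Matrix.sub_mul, hh_conj_proj (isProj_ED _) hw,
        pj_conj (hh_orth _), hh1, pj_rp one_pos]
    calc Fib.rm (P x) (v x) = R x * (ED (s x) - pj b) * (R x)ᵀ := by
          unfold Fib.rm
          rw [Matrix.mul_sub, Matrix.sub_mul, ← hPx, pj_conj hR1, hRb]
      _ = R x * H * ED (er (s x)) * (R x * H)ᵀ := by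
          rw [← e1, transpose_mul]
          simp only [Matrix.mul_assoc]

/-- Every measurable family of projections has a measurable frame. -/
theorem hasFrame_of_mm {P : X → Mat n} (hP : MM P) (hp : ∀ x, IsProj (P x)) : HasFrame P := by
  classical
  have key : ∀ T : Finset (Fin n), ∃ Q : X → Mat n, HasFrame Q ∧ ∀ x, IsProj (Q x) ∧
      Q x * P x = P x ∧ ∀ j ∈ T, Q x *ᵥ ((1 - P x) *ᵥ Pi.single j 1) = 0 := by
    intro T
    induction T using Finset.induction_on with
    | empty => exact ⟨fun _ => 1, hasFrame_one, fun x => ⟨isProj_one, one_mul _, by simp⟩⟩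
    | insert k T _ ih =>
      obtain ⟨Q, hQ, h⟩ := ih
      refine ⟨fun x => rm (Q x) ((1 - P x) *ᵥ Pi.single k 1),
        hQ.rm (((MM.const 1).sub hP).mulVec measurable_const), fun x => ?_⟩
      obtain ⟨h1, h2, h3⟩ := h x
      refine ⟨h1.rm _, h1.rm_mul_of (hp x) h2 ?_, fun j hj => ?_⟩
      · rw [Matrix.mulVec_mulVec, (hp x).mul_compl, zero_mulVec]
      · rcases Finset.mem_insert.1 hj with rfl | hj
        · exact h1.rm_mulVec_self _
        · exact h1.rm_mulVec_of _ (h3 j hj)
  obtain ⟨Q, hQ, h⟩ := key Finset.univ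
  have e : P = Q := by
    funext x
    obtain ⟨_, h2, h3⟩ := h x
    have h4 : Q x * (1 - P x) = 0 :=
      Matrix.ext_of_mulVec_single fun j => by
        rw [← Matrix.mulVec_mulVec, h3 j (Finset.mem_univ j), zero_mulVec]
    rw [mul_sub, mul_one, h2] at h4
    exact (sub_eq_zero.1 h4).symm
  rw [e]
  exact hQ

end Meas

end Vale.Agent.N150.Fib
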