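import Mathlib
import Vale.Agent.N150.Haar0
import Vale.Agent.N150.Fib0

/-! Adaptive explorations of a Haar distributed orthogonal matrix and the fibre formula. -/

open MeasureTheory ProbabilityTheory Matrix
open scoped ENNReal

namespace Vale.Agent.N150.Fib

open Vale.Agent.P150 Vale.Agent.P150.F

variable {n : ℕ}

theorem MM.val {X : Type*} [MeasurableSpace X] {O : X → OG n} (hO : Measurable O) :
    MM (fun x => (O x).1) := fun i j => (measurable_entry i j).comp hO

theorem mm_val : MM (fun O : OG n => O.1) := MM.val measurable_id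

theorem HG_mono {P Q : Mat n} (h : Q * P = Q) : HG Q ≤ HG P := by
  intro U hU
  have e : (1 - Q) * (1 - P) = 1 - P := by
    rw [sub_mul, one_mul, mul_sub, mul_one, h, sub_self, sub_zero]
  rw [mem_HG] at hU ⊢
  rw [← e, ← Matrix.mul_assoc, hU]

theorem SG_mono {P Q : Mat n} (h : Q * P = Q) : SG Q ≤ SG P := fun _ hU => ⟨HG_mono h hU.1, hU.2⟩

theorem HG_conj {P : Mat n} (hP : Pᵀ = P) {U : OG n} (hU : U ∈ HG P) : U.1 * P * U.1ᵀ = P := by
  rw [HG_comm hP hU, Matrix.mul_assoc, OG.mul_transpose, Matrix.mul_one]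

theorem HG_conj' {P : Mat n} (hP : Pᵀ = P) {U : OG n} (hU : U ∈ HG P) : U.1ᵀ * P * U.1 = P := by
  rw [Matrix.mul_assoc, ← HG_comm hP hU, ← Matrix.mul_assoc, OG.transpose_mul, Matrix.one_mul]

theorem HG_compl {P : Mat n} {U : OG n} (hU : U ∈ HG P) (v : Vec n) :
    U.1 *ᵥ ((1 - P) *ᵥ v) = (1 - P) *ᵥ v := by
  rw [Matrix.mulVec_mulVec, mem_HG.1 hU]

theorem HG_tr_mulVec {P : Mat n} {U : OG n} (hU : U ∈ HG P) {v : Vec n} (hv : P *ᵥ v = 0) :
    U.1ᵀ *ᵥ v = v := by
  have h := HG_mulVec ((HG P).inv_mem hU) hv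
  rwa [OG.coe_inv] at h

/-! ### covariant families of invariant measures -/

/-- a conjugation covariant family of invariant measures on subgroups of the stabilisers -/
structure IsFam (S : Mat n → Subgroup (OG n)) (ν : Mat n → Measure (OG n)) : Prop where
  inv : ∀ P, InvOn (S P) (ν P)
  le : ∀ P, S P ≤ HG P
  conj : ∀ (g : OG n) (P : Mat n), ν (g.1 * P * g.1ᵀ) = (ν P).map fun U => g * U * g⁻¹

theorem famH : IsFam (HG (n := n)) haarH := ⟨invOn_haarH, fun _ => le_rfl, haarH_conj⟩

theorem famP : IsFam (SG (n := n)) haarP := ⟨invOn_haarP, fun _ => SG_le_HG, haarP_conj⟩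

namespace IsFam

variable {S : Mat n → Subgroup (OG n)} {ν : Mat n → Measure (OG n)}

theorem prob (h : IsFam S ν) (P : Mat n) : IsProbabilityMeasure (ν P) := (h.inv P).prob

theorem ae_HG (h : IsFam S ν) (P : Mat n) : ∀ᵐ U ∂ν P, U ∈ HG P := by
  filter_upwards [(h.inv P).ae] with U hU using h.le P hU

theorem lint_conj (h : IsFam S ν) (g : OG n) (P : Mat n) {F : OG n → ℝ≥0∞} (hF : Measurable F) :
    ∫⁻ U, F U ∂ν (g.1 * P * g.1ᵀ) = ∫⁻ U, F (g * U * g⁻¹) ∂ν P := by
  rw [h.conj, lintegral_map hF ((measurable_const_mul g).mul_const _)]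

/-- the fibre through `O` seen from the left -/
theorem lint_left (h : IsFam S ν) (O : OG n) (P : Mat n) {F : OG n → ℝ≥0∞} (hF : Measurable F) :
    ∫⁻ W, F (W * O) ∂ν (O.1 * P * O.1ᵀ) = ∫⁻ U, F (O * U) ∂ν P := by
  rw [h.lint_conj O P (F := fun W => F (W * O)) (hF.comp (measurable_mul_const O))]
  simp only [inv_mul_cancel_right]

theorem map_left (h : IsFam S ν) (O : OG n) (P : Mat n) :
    (ν (O.1 * P * O.1ᵀ)).map (fun W => W * O) = (ν P).map (fun U => O * U) := by
  rw [h.conj, Measure.map_map (measurable_mul_const O) ((measurable_const_mul O).mul_const _)]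
  congr 1
  funext U
  simp only [Function.comp_apply, inv_mul_cancel_right]

variable {X : Type*} [MeasurableSpace X] {P : X → Mat n}

theorem measurable (h : IsFam S ν) (hP : MM P) (hp : ∀ x, IsProj (P x)) :
    Measurable fun x => ν (P x) := by
  obtain ⟨R, s, hR, hs, hx⟩ := hasFrame_of_mm hP hp
  let g : X → OG n := fun x => OG.mk' (R x) (mul_eq_one_comm.1 (hx x).1)
  have hg : Measurable g := measurable_OG hR
  refine Measure.measurable_of_measurable_coe _ fun A hA => ?_
  have hc : Measurable fun p : X × OG n => g p.1 * p.2 * (g p.1)⁻¹ :=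
    ((hg.comp measurable_fst).mul measurable_snd).mul (hg.comp measurable_fst).inv
  have h1 : Measurable fun p : X × (Fin n → Bool) =>
      ν (ED p.2) (Prod.mk p.1 ⁻¹' ((fun p : X × OG n => g p.1 * p.2 * (g p.1)⁻¹) ⁻¹' A)) := by
    refine measurable_from_prod_countable_left fun t => ?_
    have := h.prob (ED t)
    exact measurable_measure_prodMk_left (ν := ν (ED t)) (hc hA)
  have h2 := h1.comp (measurable_id.prodMk hs)
  have e : (fun x => ν (P x) A) = fun x => ν (ED (s x))
      (Prod.mk x ⁻¹' ((fun p : X × OG n => g p.1 * p.2 * (g p.1)⁻¹) ⁻¹' A)) := by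
    funext x
    have e1 : P x = (g x).1 * ED (s x) * (g x).1ᵀ := (hx x).2
    rw [e1, h.conj, Measure.map_apply ((measurable_const_mul _).mul_const _) hA]
    rfl
  rw [e]
  exact h2

/-- the family along a measurable family of projections, as a kernel -/
def ker (h : IsFam S ν) (hP : MM P) (hp : ∀ x, IsProj (P x)) : Kernel X (OG n) :=
  ⟨fun x => ν (P x), h.measurable hP hp⟩

theorem ker_apply (h : IsFam S ν) (hP : MM P) (hp : ∀ x, IsProj (P x)) (x : X) :
    h.ker hP hp x = ν (P x) := rfl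

instance (h : IsFam S ν) (hP : MM P) (hp : ∀ x, IsProj (P x)) : IsMarkovKernel (h.ker hP hp) :=
  ⟨fun x => h.prob (P x)⟩

theorem measurable_lint (h : IsFam S ν) (hP : MM P) (hp : ∀ x, IsProj (P x))
    {F : X → OG n → ℝ≥0∞} (hF : Measurable (Function.uncurry F)) :
    Measurable fun x => ∫⁻ U, F x U ∂ν (P x) :=
  hF.lintegral_kernel_prod_right (κ := h.ker hP hp)

theorem measurable_meas (h : IsFam S ν) (hP : MM P) (hp : ∀ x, IsProj (P x))
    {B : X → OG n → Prop} (hB : MeasurableSet {p : X × OG n | B p.1 p.2}) :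
    Measurable fun x => ν (P x) {U | B x U} :=
  Kernel.measurable_kernel_prodMk_left (κ := h.ker hP hp) hB

theorem stronglyMeasurable_int {E : Type*} [NormedAddCommGroup E] [NormedSpace ℝ E]
    (h : IsFam S ν) (hP : MM P) (hp : ∀ x, IsProj (P x)) {f : X → OG n → E}
    (hf : StronglyMeasurable (Function.uncurry f)) :
    StronglyMeasurable fun x => ∫ U, f x U ∂ν (P x) :=
  hf.integral_kernel_prod_right (κ := h.ker hP hp)

theorem measurable_int (h : IsFam S ν) (hP : MM P) (hp : ∀ x, IsProj (P x)) {f : X → OG n → ℝ}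
    (hf : Measurable (Function.uncurry f)) : Measurable fun x => ∫ U, f x U ∂ν (P x) :=
  (h.stronglyMeasurable_int hP hp hf.stronglyMeasurable).measurable

end IsFam

/-! ### adapted functions -/

/-- `D` is constant on the fibres `O * HG (P O)`: a function of the explored data -/
def Adapted {α : Sort*} (P : OG n → Mat n) (D : OG n → α) : Prop :=
  ∀ O U : OG n, U ∈ HG (P O) → D (O * U) = D O

namespace Adapted

variable {α β γ : Sort*} {P Q : OG n → Mat n}

theorem const (c : α) : Adapted P (fun _ => c) := fun _ _ _ => rfl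

theorem comp {D : OG n → α} (h : Adapted P D) (f : α → β) : Adapted P (fun O => f (D O)) :=
  fun O U hU => congrArg f (h O U hU)

theorem comp₂ {D : OG n → α} {D' : OG n → β} (h : Adapted P D) (h' : Adapted P D')
    (f : α → β → γ) : Adapted P (fun O => f (D O) (D' O)) :=
  fun O U hU => by
    simp only
    rw [h O U hU, h' O U hU]

theorem pi {ι : Sort*} {D : OG n → ι → α} (h : ∀ i, Adapted P (fun O => D O i)) : Adapted P D :=
  fun O U hU => funext fun i => h i O U hU

theorem mono {D : OG n → α} (h : Adapted P D) (hQ : ∀ O, Q O * P O = Q O) : Adapted Q D :=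
  fun O U hU => h O U (HG_mono (hQ O) hU)

/-- the image of an explored site vector is known -/
theorem site {v : OG n → Vec n} (hv : Adapted P v) (h0 : ∀ O, P O *ᵥ v O = 0) :
    Adapted P (fun O => O.1 *ᵥ v O) := fun O U hU => by
  simp only
  rw [hv O U hU, OG.coe_mul, ← Matrix.mulVec_mulVec, HG_mulVec hU (h0 O)]

/-- the preimage of an explored frame vector is known -/
theorem frame {w : OG n → Vec n} (hw : Adapted P w) (h0 : ∀ O, P O *ᵥ (O.1ᵀ *ᵥ w O) = 0) :
    Adapted P (fun O => O.1ᵀ *ᵥ w O) := fun O U hU => by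
  simp only
  rw [hw O U hU, OG.coe_mul, transpose_mul, ← Matrix.mulVec_mulVec, HG_tr_mulVec hU (h0 O)]

end Adapted

/-- the unexplored projection on the frame side -/
def Pt (P : OG n → Mat n) (O : OG n) : Mat n := O.1 * P O * O.1ᵀ

/-- the explored part of the matrix -/
def Ex (P : OG n → Mat n) (O : OG n) : Mat n := O.1 * (1 - P O)

/-! ### explorations -/

/-- `P O` is the projection on the unexplored site space; resampling `O` uniformly on its fibre
`O * HG (P O)` preserves `μ`. -/
structure Explo (μ : Measure (OG n)) (P : OG n → Mat n) : Prop where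
  proj : ∀ O, IsProj (P O)
  mm : MM P
  adapted : Adapted P P
  fib : ∀ F : OG n → ℝ≥0∞, Measurable F →
    ∫⁻ O, ∫⁻ U, F (O * U) ∂haarH (P O) ∂μ = ∫⁻ O, F O ∂μ

theorem measurable_uncurry_mul {F : OG n → ℝ≥0∞} (hF : Measurable F) :
    Measurable (Function.uncurry fun O U : OG n => F (O * U)) :=
  hF.comp (measurable_fst.mul measurable_snd)

namespace Explo

variable {μ : Measure (OG n)} {P Q : OG n → Mat n}
  {S : Mat n → Subgroup (OG n)} {ν : Mat n → Measure (OG n)}

/-- a fixed projection -/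
theorem const_of {H : Subgroup (OG n)} (hμ : InvOn H μ) {P : Mat n} (hP : IsProj P)
    (hH : HG P ≤ H) : Explo μ (fun _ => P) :=
  ⟨fun _ => hP, MM.const P, Adapted.const P, fun _ hF => hμ.lint_fibre (invOn_haarH P) hH hF⟩

theorem const {P : Mat n} (hP : IsProj P) : Explo (haar n) (fun _ => P) :=
  const_of invOn_haar hP le_top

/-- nothing explored -/
theorem start : Explo (haar n) (fun _ => (1 : Mat n)) := const isProj_one

theorem adapted_Pt (h : Explo μ P) : Adapted P (Pt P) := fun O U hU => by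
  unfold Pt
  rw [h.adapted O U hU, OG.coe_mul, transpose_mul]
  calc O.1 * U.1 * P O * (U.1ᵀ * O.1ᵀ) = O.1 * (U.1 * P O * U.1ᵀ) * O.1ᵀ := by
        simp only [Matrix.mul_assoc]
    _ = _ := by rw [HG_conj (h.proj O).symm hU]

theorem adapted_Ex (h : Explo μ P) : Adapted P (Ex P) := fun O U hU => by
  unfold Ex
  rw [h.adapted O U hU, OG.coe_mul, Matrix.mul_assoc, mem_HG.1 hU]

theorem proj_Pt (h : Explo μ P) (O : OG n) : IsProj (Pt P O) :=
  (h.proj O).conj (OG.transpose_mul O)

theorem mm_Pt (h : Explo μ P) : MM (Pt P) := (mm_val.mul h.mm).mul mm_val.transpose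

theorem mm_Ex (h : Explo μ P) : MM (Ex P) := mm_val.mul ((MM.const 1).sub h.mm)

theorem trace_Pt (O : OG n) : (Pt P O).trace = (P O).trace := trace_conj (OG.transpose_mul O) _

/-- The key step: resampling on smaller fibres. On each fibre of `P` the new projection is either
constant (site type) or conjugation covariant (frame type). -/
theorem fib_of (h : Explo μ P) (hν : IsFam S ν) (hq : ∀ O, IsProj (Q O)) (hm : MM Q)
    (hle : ∀ O, Q O * P O = Q O)
    (hty : ∀ O, (∀ U ∈ HG (P O), Q (O * U) = Q O) ∨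
      (∀ U ∈ HG (P O), Q (O * U) = U.1ᵀ * Q O * U.1))
    {F : OG n → ℝ≥0∞} (hF : Measurable F) :
    ∫⁻ O, ∫⁻ U, F (O * U) ∂ν (Q O) ∂μ = ∫⁻ O, F O ∂μ := by
  rw [← h.fib _ (hν.measurable_lint hm hq (measurable_uncurry_mul hF)), ← h.fib F hF]
  refine lintegral_congr fun O => ?_
  have hFO : Measurable fun U => F (O * U) := hF.comp (measurable_const_mul O)
  have hK : S (Q O) ≤ HG (P O) := (hν.le _).trans (HG_mono (hle O))
  rcases hty O with ht | ht
  · rw [← (invOn_haarH (P O)).lint_fibre (hν.inv (Q O)) hK hFO]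
    refine lintegral_congr_ae ?_
    filter_upwards [(invOn_haarH (P O)).ae] with U hU
    rw [ht U hU]
    simp only [mul_assoc]
  · rw [← (invOn_haarH (P O)).lint_fibre_left (hν.inv (Q O)) hK hFO]
    refine lintegral_congr_ae ?_
    filter_upwards [(invOn_haarH (P O)).ae] with U hU
    have e : Q (O * U) = (U⁻¹).1 * Q O * (U⁻¹).1ᵀ := by
      rw [ht U hU, OG.coe_inv, transpose_transpose]
    rw [e, hν.lint_conj U⁻¹ (Q O) (F := fun V => F (O * U * V))
      (hF.comp (measurable_const_mul _))]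
    refine lintegral_congr fun V => ?_
    congr 1
    group

/-- the general refinement rule -/
theorem refine (h : Explo μ P) (hq : ∀ O, IsProj (Q O)) (hm : MM Q)
    (hle : ∀ O, Q O * P O = Q O)
    (hty : ∀ O, (∀ U ∈ HG (P O), Q (O * U) = Q O) ∨
      (∀ U ∈ HG (P O), Q (O * U) = U.1ᵀ * Q O * U.1)) : Explo μ Q := by
  refine ⟨hq, hm, fun O U hU => ?_, fun F hF => h.fib_of famH hq hm hle hty hF⟩
  rcases hty O with ht | ht
  · exact ht U (HG_mono (hle O) hU)
  · rw [ht U (HG_mono (hle O) hU), HG_conj' (hq O).symm hU]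

/-- exploring an adapted site subspace -/
theorem refine_site (h : Explo μ P) (hq : ∀ O, IsProj (Q O)) (hm : MM Q)
    (hle : ∀ O, Q O * P O = Q O) (ha : Adapted P Q) : Explo μ Q :=
  h.refine hq hm hle fun O => Or.inl (ha O)

/-- exploring an adapted frame subspace: `T O` is the new unexplored frame projection -/
theorem refine_frame (h : Explo μ P) {T : OG n → Mat n} (hq : ∀ O, IsProj (T O)) (hm : MM T)
    (hle : ∀ O, T O * Pt P O = T O) (ha : Adapted P T) :
    Explo μ (fun O => O.1ᵀ * T O * O.1) := by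
  refine h.refine (fun O => ?_) ((mm_val.transpose.mul hm).mul mm_val) (fun O => ?_)
    fun O => Or.inr fun U hU => ?_
  · have h1 := (hq O).conj (R := O.1ᵀ) (by rw [transpose_transpose, OG.mul_transpose])
    rwa [transpose_transpose] at h1
  · conv_rhs => rw [← hle O]
    unfold Pt
    simp only [Matrix.mul_assoc, OG.transpose_mul, Matrix.mul_one]
  · rw [ha O U hU, OG.coe_mul, transpose_mul]
    simp only [Matrix.mul_assoc]

/-- query `O v` for an adapted site vector `v` -/
theorem site (h : Explo μ P) {v : OG n → Vec n} (hv : Measurable v) (ha : Adapted P v) :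
    Explo μ (fun O => rm (P O) (v O)) :=
  h.refine_site (fun O => (h.proj O).rm _) (h.mm.rm hv) (fun O => (h.proj O).rm_mul _)
    (h.adapted.comp₂ ha rm)

/-- query `Oᵀ w` for an adapted frame vector `w` -/
theorem frame (h : Explo μ P) {w : OG n → Vec n} (hw : Measurable w) (ha : Adapted P w) :
    Explo μ (fun O => rm (P O) (O.1ᵀ *ᵥ w O)) := by
  refine h.refine (fun O => (h.proj O).rm _) (h.mm.rm (mm_val.transpose.mulVec hw))
    (fun O => (h.proj O).rm_mul _) fun O => Or.inr fun U hU => ?_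
  have h1 := rm_conj (P := P O) (R := U.1ᵀ) (by rw [transpose_transpose, OG.mul_transpose])
    (O.1ᵀ *ᵥ w O)
  rw [transpose_transpose, HG_conj' (h.proj O).symm hU] at h1
  rw [h1, h.adapted O U hU, ha O U hU, OG.coe_mul, transpose_mul, ← Matrix.mulVec_mulVec]

/-- old data stay known after a query -/
theorem adapted_rm (h : Explo μ P) {α : Sort*} {D : OG n → α} (hD : Adapted P D)
    (v : OG n → Vec n) : Adapted (fun O => rm (P O) (v O)) D :=
  hD.mono fun O => (h.proj O).rm_mul _

theorem adapted_site (h : Explo μ P) {v : OG n → Vec n} (ha : Adapted P v) :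
    Adapted (fun O => rm (P O) (v O)) (fun O => O.1 *ᵥ v O) :=
  (h.adapted_rm ha v).site fun O => (h.proj O).rm_mulVec_self _

theorem adapted_frame (h : Explo μ P) {w : OG n → Vec n} (ha : Adapted P w) :
    Adapted (fun O => rm (P O) (O.1ᵀ *ᵥ w O)) (fun O => O.1ᵀ *ᵥ w O) :=
  (h.adapted_rm ha _).frame fun O => (h.proj O).rm_mulVec_self _

/-- data dependent choice between two refinements -/
theorem ite (h : Explo μ P) {Q₁ Q₂ : OG n → Mat n} {p : OG n → Prop} [DecidablePred p]
    (hp : MeasurableSet {O | p O}) (ha : Adapted P p) (h₁ : ∀ O, IsProj (Q₁ O))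
    (h₂ : ∀ O, IsProj (Q₂ O)) (m₁ : MM Q₁) (m₂ : MM Q₂) (l₁ : ∀ O, Q₁ O * P O = Q₁ O)
    (l₂ : ∀ O, Q₂ O * P O = Q₂ O)
    (t₁ : ∀ O, (∀ U ∈ HG (P O), Q₁ (O * U) = Q₁ O) ∨
      (∀ U ∈ HG (P O), Q₁ (O * U) = U.1ᵀ * Q₁ O * U.1))
    (t₂ : ∀ O, (∀ U ∈ HG (P O), Q₂ (O * U) = Q₂ O) ∨
      (∀ U ∈ HG (P O), Q₂ (O * U) = U.1ᵀ * Q₂ O * U.1)) :
    Explo μ (fun O => if p O then Q₁ O else Q₂ O) := by
  refine h.refine (fun O => ?_) (MM.ite hp m₁ m₂) (fun O => ?_) fun O => ?_
  · split_ifs
    · exact h₁ O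
    · exact h₂ O
  · split_ifs
    · exact l₁ O
    · exact l₂ O
  · by_cases hO : p O
    · have e : ∀ U ∈ HG (P O), p (O * U) := fun U hU => by rw [ha O U hU]; exact hO
      rcases t₁ O with t | t
      · exact Or.inl fun U hU => by rw [if_pos (e U hU), if_pos hO, t U hU]
      · exact Or.inr fun U hU => by rw [if_pos (e U hU), if_pos hO, t U hU]
    · have e : ∀ U ∈ HG (P O), ¬ p (O * U) := fun U hU => by rw [ha O U hU]; exact hO
      rcases t₂ O with t | t
      · exact Or.inl fun U hU => by rw [if_neg (e U hU), if_neg hO, t U hU]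
      · exact Or.inr fun U hU => by rw [if_neg (e U hU), if_neg hO, t U hU]

/-! ### the fibre formula in several forms (`ν = haarH` with `famH`, `ν = haarP` with `famP`) -/

theorem lint (h : Explo μ P) (hν : IsFam S ν) {F : OG n → ℝ≥0∞} (hF : Measurable F) :
    ∫⁻ O, ∫⁻ U, F (O * U) ∂ν (P O) ∂μ = ∫⁻ O, F O ∂μ :=
  h.fib_of hν h.proj h.mm (fun O => (h.proj O).idem) (fun O => Or.inl (h.adapted O)) hF

/-- with a parameter which is a function of the data -/
theorem lint₂ (h : Explo μ P) (hν : IsFam S ν) {G : OG n → OG n → ℝ≥0∞}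
    (hG : Measurable fun O => G O O) (ha : Adapted P G) :
    ∫⁻ O, ∫⁻ U, G O (O * U) ∂ν (P O) ∂μ = ∫⁻ O, G O O ∂μ := by
  rw [← h.lint hν hG]
  refine lintegral_congr fun O => lintegral_congr_ae ?_
  filter_upwards [hν.ae_HG (P O)] with U hU
  rw [ha O U hU]

theorem measurable_fibre (h : Explo μ P) (hν : IsFam S ν) {B : Set (OG n)} (hB : MeasurableSet B) :
    Measurable fun O => ν (P O) {U | O * U ∈ B} :=
  hν.measurable_meas h.mm h.proj (B := fun O U => O * U ∈ B)
    ((measurable_fst.mul measurable_snd) hB)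

theorem meas_eq (h : Explo μ P) (hν : IsFam S ν) {B : Set (OG n)} (hB : MeasurableSet B) :
    μ B = ∫⁻ O, ν (P O) {U | O * U ∈ B} ∂μ := by
  rw [← lintegral_indicator_one hB, ← h.lint hν (measurable_one.indicator hB)]
  refine lintegral_congr fun O => ?_
  exact lintegral_indicator_one (measurable_const_mul O hB)

/-- bounds on the fibres over a set of good data give a global bound -/
theorem meas_inter_le (h : Explo μ P) (hν : IsFam S ν) {A B : Set (OG n)} (hA : MeasurableSet A)
    (ha : Adapted P (fun O => O ∈ A)) (hB : MeasurableSet B) {p : ℝ≥0∞}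
    (hp : ∀ O ∈ A, ν (P O) {U | O * U ∈ B} ≤ p) : μ (A ∩ B) ≤ p * μ A := by
  rw [h.meas_eq hν (hA.inter hB), ← lintegral_indicator_one hA,
    ← lintegral_const_mul _ (measurable_one.indicator hA)]
  refine lintegral_mono fun O => ?_
  by_cases hO : O ∈ A
  · rw [Set.indicator_of_mem hO, Pi.one_apply, mul_one]
    exact (measure_mono fun U hU => hU.2).trans (hp O hO)
  · rw [Set.indicator_of_notMem hO, mul_zero, nonpos_iff_eq_zero, measure_eq_zero_iff_ae_notMem]
    filter_upwards [hν.ae_HG (P O)] with U hU hc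
    have h1 : O * U ∈ A := hc.1
    exact hO ((ha O U hU).mp h1)

theorem meas_le (h : Explo μ P) [IsProbabilityMeasure μ] (hν : IsFam S ν) {B : Set (OG n)}
    (hB : MeasurableSet B) {p : ℝ≥0∞} (hp : ∀ O, ν (P O) {U | O * U ∈ B} ≤ p) : μ B ≤ p := by
  rw [h.meas_eq hν hB]
  exact (lintegral_mono hp).trans (by simp)

/-- `μ B ≤ μ (bad data) + bound on the good fibres` -/
theorem meas_le_add (h : Explo μ P) [IsProbabilityMeasure μ] (hν : IsFam S ν) {A B : Set (OG n)}
    (hB : MeasurableSet B) {p : ℝ≥0∞} (hp : ∀ O, O ∉ A → ν (P O) {U | O * U ∈ B} ≤ p) :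
    μ B ≤ μ A + p := by
  rw [h.meas_eq hν hB]
  have hT := measurableSet_toMeasurable μ A
  calc ∫⁻ O, ν (P O) {U | O * U ∈ B} ∂μ
      ≤ ∫⁻ O, (toMeasurable μ A).indicator 1 O + p ∂μ := by
        refine lintegral_mono fun O => ?_
        by_cases hO : O ∈ toMeasurable μ A
        · have := hν.prob (P O)
          rw [Set.indicator_of_mem hO, Pi.one_apply]
          exact prob_le_one.trans le_self_add
        · exact (hp O fun hA => hO (subset_toMeasurable μ A hA)).trans le_add_self
    _ = μ A + p := by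
        rw [lintegral_add_right _ measurable_const, lintegral_indicator_one hT,
          measure_toMeasurable]
        simp

theorem real_le_add (h : Explo μ P) [IsProbabilityMeasure μ] (hν : IsFam S ν) {A B : Set (OG n)}
    (hB : MeasurableSet B) {p : ℝ} (h0 : 0 ≤ p)
    (hp : ∀ O, O ∉ A → (ν (P O)).real {U | O * U ∈ B} ≤ p) : μ.real B ≤ μ.real A + p := by
  have h1 := h.meas_le_add hν (A := A) hB (p := ENNReal.ofReal p) fun O hO => by
    have := hν.prob (P O)
    rw [← ofReal_measureReal (measure_ne_top _ _)]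
    exact ENNReal.ofReal_le_ofReal (hp O hO)
  have h2 := ENNReal.toReal_mono
    (ENNReal.add_ne_top.2 ⟨measure_ne_top μ A, ENNReal.ofReal_ne_top⟩) h1
  rwa [ENNReal.toReal_add (measure_ne_top μ A) ENNReal.ofReal_ne_top, ENNReal.toReal_ofReal h0]
    at h2

theorem real_le (h : Explo μ P) [IsProbabilityMeasure μ] (hν : IsFam S ν) {B : Set (OG n)}
    (hB : MeasurableSet B) {p : ℝ} (h0 : 0 ≤ p)
    (hp : ∀ O, (ν (P O)).real {U | O * U ∈ B} ≤ p) : μ.real B ≤ p := by
  have h1 := h.real_le_add hν (A := ∅) hB h0 fun O _ => hp O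
  simpa using h1

/-- typical fibres (Markov) -/
theorem markov (h : Explo μ P) (hν : IsFam S ν) {B : Set (OG n)} (hB : MeasurableSet B)
    (d : ℝ≥0∞) : d * μ {O | d ≤ ν (P O) {U | O * U ∈ B}} ≤ μ B := by
  rw [h.meas_eq hν hB]
  exact mul_meas_ge_le_lintegral (h.measurable_fibre hν hB) d

theorem markov_real (h : Explo μ P) [IsProbabilityMeasure μ] (hν : IsFam S ν) {B : Set (OG n)}
    (hB : MeasurableSet B) {d : ℝ} (hd : 0 < d) :
    μ.real {O | d ≤ (ν (P O)).real {U | O * U ∈ B}} ≤ μ.real B / d := by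
  have h1 := h.markov hν hB (ENNReal.ofReal d)
  have e : {O | d ≤ (ν (P O)).real {U | O * U ∈ B}} =
      {O | ENNReal.ofReal d ≤ ν (P O) {U | O * U ∈ B}} := by
    ext O
    have := hν.prob (P O)
    simp only [Set.mem_ofPred_eq, measureReal_def]
    exact (ENNReal.ofReal_le_iff_le_toReal (measure_ne_top _ _)).symm
  have h2 := ENNReal.toReal_mono (measure_ne_top μ B) h1
  rw [ENNReal.toReal_mul, ENNReal.toReal_ofReal hd.le] at h2
  rw [e, le_div_iff₀ hd, mul_comm]
  exact h2

/-- fibre averages are functions of the data -/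
theorem adapted_fibre (h : Explo μ P) (B : Set (OG n)) :
    Adapted P (fun O => haarH (P O) {U | O * U ∈ B}) := fun O V hV => by
  simp only
  rw [h.adapted O V hV, ← (invOn_haarH (P O)).meas_left hV {U | O * U ∈ B}]
  simp only [Set.mem_ofPred_eq, mul_assoc]

theorem mp (h : Explo μ P) [SFinite μ] (hν : IsFam S ν) :
    MeasurePreserving (fun p : OG n × OG n => p.1 * p.2) (μ ⊗ₘ hν.ker h.mm h.proj) μ := by
  have hm : Measurable fun p : OG n × OG n => p.1 * p.2 := measurable_fst.mul measurable_snd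
  refine ⟨hm, ?_⟩
  ext B hB
  rw [Measure.map_apply hm hB, Measure.compProd_apply (hm hB), h.meas_eq hν hB]
  rfl

theorem ae (h : Explo μ P) [SFinite μ] (hν : IsFam S ν) {p : OG n → Prop} (hp : ∀ᵐ O ∂μ, p O) :
    ∀ᵐ O ∂μ, ∀ᵐ U ∂ν (P O), p (O * U) :=
  Measure.ae_ae_of_ae_compProd ((h.mp hν).quasiMeasurePreserving.ae hp)

theorem int {E : Type*} [NormedAddCommGroup E] [NormedSpace ℝ E] (h : Explo μ P) [SFinite μ]
    (hν : IsFam S ν) {f : OG n → E} (hf : Integrable f μ) :
    ∫ O, ∫ U, f (O * U) ∂ν (P O) ∂μ = ∫ O, f O ∂μ := by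
  have h1 := (h.mp hν).integrable_comp_of_integrable hf
  have h2 := Measure.integral_compProd h1
  have h3 := integral_map (μ := μ ⊗ₘ hν.ker h.mm h.proj) (h.mp hν).measurable.aemeasurable
    (f := f) (by rw [(h.mp hν).map_eq]; exact hf.1)
  rw [(h.mp hν).map_eq] at h3
  rw [h3]
  exact h2.symm

theorem ae_integrable {E : Type*} [NormedAddCommGroup E] (h : Explo μ P) [SFinite μ]
    (hν : IsFam S ν) {f : OG n → E} (hf : Integrable f μ) :
    ∀ᵐ O ∂μ, Integrable (fun U => f (O * U)) (ν (P O)) := by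
  have h1 := (h.mp hν).integrable_comp_of_integrable hf
  exact ((Measure.integrable_compProd_iff h1.1).1 h1).1

end Explo

end Vale.Agent.N150.Fib
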