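import Mathlib
import Vale.Agent.N150.Fib1

/-! The law of the next answer of an exploration, base measures, several queries at once and
query programs. -/

open MeasureTheory ProbabilityTheory Matrix
open scoped ENNReal

namespace Vale.Agent.N150.Fib

open Vale.Agent.P150 Vale.Agent.P150.F

variable {n : ℕ}

/-! ### the image of one vector under the stabiliser -/

/-- `S` acts transitively on the spheres of the range of `P` -/
def Trans (S : Subgroup (OG n)) (P : Mat n) : Prop :=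
  ∀ a b : Vec n, P *ᵥ a = a → P *ᵥ b = b → F.sq a = F.sq b → ∃ R ∈ S, R.1 *ᵥ a = b

theorem trans_HG {P : Mat n} (hP : IsProj P) : Trans (HG P) P := by
  intro a b ha hb h
  obtain ⟨R, h1, h2, h3⟩ := exists_orth hP ha hb h
  exact ⟨OG.mk' R (mul_eq_one_comm.1 h1), h2, h3⟩

theorem trans_SG {P : Mat n} (hP : IsProj P) (h2 : 1 < P.trace) : Trans (SG P) P := by
  intro a b ha hb h
  obtain ⟨R, h1, h3, h4, h5⟩ := exists_orth_det hP h2 ha hb h
  exact ⟨OG.mk' R (mul_eq_one_comm.1 h1), ⟨h3, h4⟩, h5⟩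

theorem ae_dot_ne_zero {a : Vec n} (ha : a ≠ 0) : ∀ᵐ g ∂(gpi (Fin n)), a ⬝ᵥ g ≠ 0 := by
  obtain ⟨k, hk⟩ : ∃ k, a k ≠ 0 := by
    by_contra hc
    push Not at hc
    exact ha (funext hc)
  have hs := sq_pos' ha
  set e : Vec n := √(F.sq a) • Pi.single k 1 with he
  have h1 : F.sq e = F.sq a := by
    rw [he, sq_smul', Real.sq_sqrt hs.le, sq_eq_dot (Pi.single k 1)]
    simp
  have h2 : hh (e - a) *ᵥ e = a := hh_sub h1
  have hmp : MeasurePreserving (Function.eval k) (gpi (Fin n)) (gaussianReal 0 1) :=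
    measurePreserving_eval _ _
  have : NullSingletonClass (gaussianReal 0 1) := nullSingletonClass_gaussianReal one_ne_zero
  have h3 : ∀ᵐ x ∂(gaussianReal 0 1), x ≠ (0 : ℝ) := by
    rw [ae_iff]
    simp
  have h4 := (hmp.comp (mp_mulVec (A := hh (e - a))
    (by rw [hh_transpose, hh_mul_self]))).quasiMeasurePreserving.ae h3
  filter_upwards [h4] with g hg h0
  apply hg
  have h5 : a ⬝ᵥ g = √(F.sq a) * (hh (e - a) *ᵥ g) k := by
    conv_lhs => rw [← h2]
    rw [dotProduct_comm, dotProduct_mulVec, ← mulVec_transpose, hh_transpose, he, dotProduct_smul]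
    simp
  rw [h5] at h0
  exact (mul_eq_zero.1 h0).resolve_left (Real.sqrt_pos.2 hs).ne'

theorem ae_mulVec_ne_zero {A : Mat n} (hA : A ≠ 0) : ∀ᵐ g ∂(gpi (Fin n)), A *ᵥ g ≠ 0 := by
  obtain ⟨i, hi⟩ : ∃ i, A i ≠ 0 := by
    by_contra hc
    push Not at hc
    exact hA (funext hc)
  filter_upwards [ae_dot_ne_zero hi] with g hg h0
  exact hg (congrFun h0 i)

/-- the resampled vector: known part `c`, uniform on the sphere of squared radius `ρ` in the range
of `P` -/
noncomputable def rs (c : Vec n) (ρ : ℝ) (P : Mat n) (g : Vec n) : Vec n := c + rp ρ (P *ᵥ g)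

theorem measurable_rs {X : Type*} [MeasurableSpace X] {c g : X → Vec n} {ρ : X → ℝ}
    {P : X → Mat n} (hc : Measurable c) (hρ : Measurable ρ) (hP : MM P) (hg : Measurable g) :
    Measurable fun x => rs (c x) (ρ x) (P x) (g x) :=
  hc.add (measurable_rp2.comp (hρ.prodMk (hP.mulVec hg)))

theorem measurable_rs' (c : Vec n) (ρ : ℝ) (P : Mat n) : Measurable (rs c ρ P) :=
  measurable_rs measurable_const measurable_const (MM.const P) measurable_id

theorem mulVec_rp {P : Mat n} (hP : IsProj P) (ρ : ℝ) (g : Vec n) :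
    P *ᵥ rp ρ (P *ᵥ g) = rp ρ (P *ᵥ g) := by
  unfold rp
  rw [mulVec_smul, hP.mulVec_mulVec]

theorem rs_conj (O : OG n) (c : Vec n) (ρ : ℝ) (P : Mat n) (g : Vec n) :
    rs (O.1 *ᵥ c) ρ (O.1 * P * O.1ᵀ) (O.1 *ᵥ g) = O.1 *ᵥ rs c ρ P g := by
  unfold rs
  rw [mulVec_add, ← rp_mulVec (OG.transpose_mul O), Matrix.mulVec_mulVec, Matrix.mulVec_mulVec,
    Matrix.mul_assoc (O.1 * P), OG.transpose_mul, Matrix.mul_one]

section Law

variable {S : Subgroup (OG n)} {ν : Measure (OG n)} {P : Mat n}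

/-- (c) For `U` uniform on the stabiliser, `U v` has the law of
`(1 - P) v + |P v| * P g / |P g|`, `g` standard Gaussian. -/
theorem lint_vec (hν : InvOn S ν) (hS : S ≤ HG P) (hP : IsProj P) (hT : Trans S P) (v : Vec n)
    {G : Vec n → ℝ≥0∞} (hG : Measurable G) :
    ∫⁻ U, G (U.1 *ᵥ v) ∂ν = ∫⁻ g, G (rs ((1 - P) *ᵥ v) (F.sq (P *ᵥ v)) P g) ∂(gpi (Fin n)) := by
  have := hν.prob
  set b := rs ((1 - P) *ᵥ v) (F.sq (P *ᵥ v)) P with hb
  have hbm : Measurable b := measurable_rs' _ _ _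
  have hv : (1 - P) *ᵥ v + P *ᵥ v = v := by rw [← add_mulVec, sub_add_cancel, one_mulVec]
  have h1 : ∀ U ∈ S, ∫⁻ g, G (U.1 *ᵥ b g) ∂(gpi (Fin n)) = ∫⁻ g, G (b g) ∂(gpi (Fin n)) := by
    intro U hU
    rw [← (mp_mulVec (A := U.1) (OG.mul_transpose U)).lintegral_comp (f := fun g => G (b g))
      (hG.comp hbm)]
    refine lintegral_congr fun g => ?_
    have e := rs_conj U ((1 - P) *ᵥ v) (F.sq (P *ᵥ v)) P g
    rw [HG_compl (hS hU), HG_conj hP.symm (hS hU)] at e
    exact congrArg G e.symm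
  have h2 : ∀ᵐ g ∂(gpi (Fin n)), ∃ R ∈ S, R.1 *ᵥ v = b g := by
    have h3 : ∀ᵐ g ∂(gpi (Fin n)), F.sq (P *ᵥ v) = F.sq (rp (F.sq (P *ᵥ v)) (P *ᵥ g)) := by
      by_cases h0 : P = 0
      · refine ae_of_all _ fun g => ?_
        rw [h0, zero_mulVec, zero_mulVec, rp_self]
      · filter_upwards [ae_mulVec_ne_zero h0] with g hg
        exact (sq_rp (sq_nonneg' _) hg).symm
    filter_upwards [h3] with g hg
    obtain ⟨R, hR, h4⟩ := hT _ _ (hP.mulVec_mulVec v) (mulVec_rp hP _ g) hg
    refine ⟨R, hR, ?_⟩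
    conv_lhs => rw [← hv]
    rw [mulVec_add, HG_compl (hS hR), h4]
    rfl
  have hm : Measurable (Function.uncurry fun (U : OG n) (g : Vec n) => G (U.1 *ᵥ b g)) :=
    hG.comp ((MM.val measurable_fst).mulVec (hbm.comp measurable_snd))
  calc ∫⁻ U, G (U.1 *ᵥ v) ∂ν = ∫⁻ _g, ∫⁻ U, G (U.1 *ᵥ v) ∂ν ∂(gpi (Fin n)) := by simp
    _ = ∫⁻ g, ∫⁻ U, G (U.1 *ᵥ b g) ∂ν ∂(gpi (Fin n)) := by
        refine lintegral_congr_ae ?_
        filter_upwards [h2] with g ⟨R, hR, h4⟩
        rw [← hν.lint_right hR (f := fun U => G (U.1 *ᵥ v))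
          (hG.comp (mm_val.mulVec measurable_const)), ← h4]
        simp only [OG.coe_mul, Matrix.mulVec_mulVec]
    _ = ∫⁻ U, ∫⁻ g, G (U.1 *ᵥ b g) ∂(gpi (Fin n)) ∂ν :=
        (lintegral_lintegral_swap hm.aemeasurable).symm
    _ = ∫⁻ _U, ∫⁻ g, G (b g) ∂(gpi (Fin n)) ∂ν := by
        refine lintegral_congr_ae ?_
        filter_upwards [hν.ae] with U hU using h1 U hU
    _ = _ := by simp

theorem lint_tr_vec (hν : InvOn S ν) (hS : S ≤ HG P) (hP : IsProj P) (hT : Trans S P) (v : Vec n)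
    {G : Vec n → ℝ≥0∞} (hG : Measurable G) :
    ∫⁻ U, G (U.1ᵀ *ᵥ v) ∂ν = ∫⁻ g, G (rs ((1 - P) *ᵥ v) (F.sq (P *ᵥ v)) P g) ∂(gpi (Fin n)) := by
  rw [← lint_vec hν hS hP hT v hG, ← hν.lint_inv (f := fun U => G (U.1 *ᵥ v))
    (hG.comp (mm_val.mulVec measurable_const))]
  simp only [OG.coe_inv]

/-- site query on the fibre through `O` -/
theorem lint_site (hν : InvOn S ν) (hS : S ≤ HG P) (hP : IsProj P) (hT : Trans S P) (O : OG n)
    (v : Vec n) {G : Vec n → ℝ≥0∞} (hG : Measurable G) :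
    ∫⁻ U, G ((O * U).1 *ᵥ v) ∂ν = ∫⁻ g, G (rs ((O.1 * (1 - P)) *ᵥ v) (F.sq (P *ᵥ v))
      (O.1 * P * O.1ᵀ) g) ∂(gpi (Fin n)) := by
  have h1 := lint_vec hν hS hP hT v (G := fun u => G (O.1 *ᵥ u))
    (hG.comp ((MM.const O.1).mulVec measurable_id))
  rw [← (mp_mulVec (A := O.1) (OG.mul_transpose O)).lintegral_comp
    (f := fun g => G (rs ((O.1 * (1 - P)) *ᵥ v) (F.sq (P *ᵥ v)) (O.1 * P * O.1ᵀ) g))
    (hG.comp (measurable_rs' _ _ _))]
  simp only [OG.coe_mul, ← Matrix.mulVec_mulVec v, rs_conj]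
  exact h1

/-- frame query on the fibre through `O` -/
theorem lint_frame (hν : InvOn S ν) (hS : S ≤ HG P) (hP : IsProj P) (hT : Trans S P) (O : OG n)
    (w : Vec n) {G : Vec n → ℝ≥0∞} (hG : Measurable G) :
    ∫⁻ U, G ((O * U).1ᵀ *ᵥ w) ∂ν = ∫⁻ g, G (rs ((1 - P) *ᵥ (O.1ᵀ *ᵥ w))
      (F.sq (P *ᵥ (O.1ᵀ *ᵥ w))) P g) ∂(gpi (Fin n)) := by
  rw [← lint_tr_vec hν hS hP hT _ hG]
  simp only [OG.coe_mul, transpose_mul, Matrix.mulVec_mulVec]

theorem map_of_lint {α β γ : Type*} [MeasurableSpace α] [MeasurableSpace β] [MeasurableSpace γ]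
    {μ : Measure α} {μ' : Measure β} {f : α → γ} {f' : β → γ} (hf : Measurable f)
    (hf' : Measurable f')
    (h : ∀ G : γ → ℝ≥0∞, Measurable G → ∫⁻ a, G (f a) ∂μ = ∫⁻ b, G (f' b) ∂μ') :
    μ.map f = μ'.map f' := by
  ext B hB
  rw [← lintegral_indicator_one hB, ← lintegral_indicator_one hB,
    lintegral_map (measurable_one.indicator hB) hf, lintegral_map (measurable_one.indicator hB) hf']
  exact h _ (measurable_one.indicator hB)

theorem map_vec (hν : InvOn S ν) (hS : S ≤ HG P) (hP : IsProj P) (hT : Trans S P) (v : Vec n) :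
    ν.map (fun U => U.1 *ᵥ v) = (gpi (Fin n)).map (rs ((1 - P) *ᵥ v) (F.sq (P *ᵥ v)) P) :=
  map_of_lint (mm_val.mulVec measurable_const) (measurable_rs' _ _ _)
    fun _ hG => lint_vec hν hS hP hT v hG

theorem map_site (hν : InvOn S ν) (hS : S ≤ HG P) (hP : IsProj P) (hT : Trans S P) (O : OG n)
    (v : Vec n) : ν.map (fun U => (O * U).1 *ᵥ v) =
      (gpi (Fin n)).map (rs ((O.1 * (1 - P)) *ᵥ v) (F.sq (P *ᵥ v)) (O.1 * P * O.1ᵀ)) :=
  map_of_lint ((MM.val (measurable_const_mul O)).mulVec measurable_const) (measurable_rs' _ _ _)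
    fun _ hG => lint_site hν hS hP hT O v hG

theorem map_frame (hν : InvOn S ν) (hS : S ≤ HG P) (hP : IsProj P) (hT : Trans S P) (O : OG n)
    (w : Vec n) : ν.map (fun U => (O * U).1ᵀ *ᵥ w) =
      (gpi (Fin n)).map (rs ((1 - P) *ᵥ (O.1ᵀ *ᵥ w)) (F.sq (P *ᵥ (O.1ᵀ *ᵥ w))) P) :=
  map_of_lint ((MM.val (measurable_const_mul O)).transpose.mulVec measurable_const)
    (measurable_rs' _ _ _) fun _ hG => lint_frame hν hS hP hT O w hG

theorem meas_site (hν : InvOn S ν) (hS : S ≤ HG P) (hP : IsProj P) (hT : Trans S P) (O : OG n)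
    (v : Vec n) {B : Set (Vec n)} (hB : MeasurableSet B) : ν {U | (O * U).1 *ᵥ v ∈ B} =
      gpi (Fin n) {g | rs ((O.1 * (1 - P)) *ᵥ v) (F.sq (P *ᵥ v)) (O.1 * P * O.1ᵀ) g ∈ B} := by
  have h := congrArg (fun m : Measure (Vec n) => m B) (map_site hν hS hP hT O v)
  rwa [Measure.map_apply ((MM.val (measurable_const_mul O)).mulVec measurable_const) hB,
    Measure.map_apply (measurable_rs' _ _ _) hB] at h

theorem meas_frame (hν : InvOn S ν) (hS : S ≤ HG P) (hP : IsProj P) (hT : Trans S P) (O : OG n)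
    (w : Vec n) {B : Set (Vec n)} (hB : MeasurableSet B) : ν {U | (O * U).1ᵀ *ᵥ w ∈ B} =
      gpi (Fin n) {g | rs ((1 - P) *ᵥ (O.1ᵀ *ᵥ w)) (F.sq (P *ᵥ (O.1ᵀ *ᵥ w))) P g ∈ B} := by
  have h := congrArg (fun m : Measure (Vec n) => m B) (map_frame hν hS hP hT O w)
  rwa [Measure.map_apply ((MM.val (measurable_const_mul O)).transpose.mulVec measurable_const) hB,
    Measure.map_apply (measurable_rs' _ _ _) hB] at h

end Law

/-- the resampled answer of the site query `O v` -/
noncomputable def nxS (P : OG n → Mat n) (v : OG n → Vec n) (O : OG n) (g : Vec n) : Vec n :=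
  rs (Ex P O *ᵥ v O) (F.sq (P O *ᵥ v O)) (Pt P O) g

/-- the resampled answer of the frame query `Oᵀ w` -/
noncomputable def nxF (P : OG n → Mat n) (w : OG n → Vec n) (O : OG n) (g : Vec n) : Vec n :=
  rs ((Ex P O)ᵀ *ᵥ w O) (F.sq (Pt P O *ᵥ w O)) (P O) g

theorem Ex_tr_mulVec {P : OG n → Mat n} {O : OG n} (h : IsProj (P O)) (w : Vec n) :
    (Ex P O)ᵀ *ᵥ w = (1 - P O) *ᵥ (O.1ᵀ *ᵥ w) := by
  unfold Ex
  rw [transpose_mul, h.compl.symm, Matrix.mulVec_mulVec]

theorem sq_Pt (P : OG n → Mat n) (O : OG n) (w : Vec n) :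
    F.sq (Pt P O *ᵥ w) = F.sq (P O *ᵥ (O.1ᵀ *ᵥ w)) := by
  unfold Pt
  rw [← Matrix.mulVec_mulVec, ← Matrix.mulVec_mulVec, sq_mulVec_orth (OG.transpose_mul O)]

namespace Explo

variable {μ : Measure (OG n)} {P : OG n → Mat n}

theorem measurable_nxS (h : Explo μ P) {v : OG n → Vec n} (hv : Measurable v) :
    Measurable fun p : OG n × Vec n => nxS P v p.1 p.2 :=
  measurable_rs ((h.mm_Ex.mulVec hv).comp measurable_fst)
    ((measurable_sq.comp (h.mm.mulVec hv)).comp measurable_fst) (h.mm_Pt.comp measurable_fst)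
    measurable_snd

theorem measurable_nxF (h : Explo μ P) {w : OG n → Vec n} (hw : Measurable w) :
    Measurable fun p : OG n × Vec n => nxF P w p.1 p.2 :=
  measurable_rs ((h.mm_Ex.transpose.mulVec hw).comp measurable_fst)
    ((measurable_sq.comp (h.mm_Pt.mulVec hw)).comp measurable_fst) (h.mm.comp measurable_fst)
    measurable_snd

theorem adapted_nxS (h : Explo μ P) {v : OG n → Vec n} (ha : Adapted P v) :
    Adapted P (nxS P v) := fun O U hU => by
  unfold nxS
  rw [h.adapted_Ex O U hU, h.adapted_Pt O U hU, h.adapted O U hU, ha O U hU]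

theorem adapted_nxF (h : Explo μ P) {w : OG n → Vec n} (ha : Adapted P w) :
    Adapted P (nxF P w) := fun O U hU => by
  unfold nxF
  rw [h.adapted_Ex O U hU, h.adapted_Pt O U hU, h.adapted O U hU, ha O U hU]

/-- (c), site query: the joint law of the data and the next answer -/
theorem next_site (h : Explo μ P) {v : OG n → Vec n} (hv : Measurable v) (ha : Adapted P v)
    {G : OG n → Vec n → ℝ≥0∞} (hG : Measurable (Function.uncurry G)) (hGa : Adapted P G) :
    ∫⁻ O, G O (O.1 *ᵥ v O) ∂μ = ∫⁻ O, ∫⁻ g, G O (nxS P v O g) ∂(gpi (Fin n)) ∂μ := by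
  rw [← h.lint₂ famH (G := fun O O' => G O (O'.1 *ᵥ v O))
    (hG.comp (measurable_id.prodMk (mm_val.mulVec hv)))
    (hGa.comp₂ ha fun G v (O' : OG n) => G (O'.1 *ᵥ v))]
  exact lintegral_congr fun O => lint_site (invOn_haarH _) le_rfl (h.proj O) (trans_HG (h.proj O))
    O (v O) (hG.comp measurable_prodMk_left)

/-- (c), frame query -/
theorem next_frame (h : Explo μ P) {w : OG n → Vec n} (hw : Measurable w) (ha : Adapted P w)
    {G : OG n → Vec n → ℝ≥0∞} (hG : Measurable (Function.uncurry G)) (hGa : Adapted P G) :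
    ∫⁻ O, G O (O.1ᵀ *ᵥ w O) ∂μ = ∫⁻ O, ∫⁻ g, G O (nxF P w O g) ∂(gpi (Fin n)) ∂μ := by
  rw [← h.lint₂ famH (G := fun O O' => G O (O'.1ᵀ *ᵥ w O))
    (hG.comp (measurable_id.prodMk (mm_val.transpose.mulVec hw)))
    (hGa.comp₂ ha fun G w (O' : OG n) => G (O'.1ᵀ *ᵥ w))]
  refine lintegral_congr fun O => ?_
  unfold nxF
  rw [Ex_tr_mulVec (h.proj O), sq_Pt]
  exact lint_frame (invOn_haarH _) le_rfl (h.proj O) (trans_HG (h.proj O))
    O (w O) (hG.comp measurable_prodMk_left)

theorem meas_next_site (h : Explo μ P) {v : OG n → Vec n} (hv : Measurable v) (ha : Adapted P v)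
    {B : OG n → Vec n → Prop} (hB : MeasurableSet {p : OG n × Vec n | B p.1 p.2})
    (hBa : Adapted P B) :
    μ {O | B O (O.1 *ᵥ v O)} = ∫⁻ O, gpi (Fin n) {g | B O (nxS P v O g)} ∂μ := by
  have h1 := h.next_site hv ha
    (G := fun O a => {p : OG n × Vec n | B p.1 p.2}.indicator 1 (O, a))
    (measurable_one.indicator hB)
    (hBa.comp fun (b : Vec n → Prop) (a : Vec n) => {a | b a}.indicator (1 : Vec n → ℝ≥0∞) a)
  have hm : MeasurableSet {O : OG n | B O (O.1 *ᵥ v O)} :=
    (measurable_id.prodMk (mm_val.mulVec hv)) hB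
  rw [← lintegral_indicator_one hm]
  refine h1.trans (lintegral_congr fun O => ?_)
  have hm2 : MeasurableSet {g : Vec n | B O (nxS P v O g)} :=
    (measurable_const.prodMk ((h.measurable_nxS hv).comp measurable_prodMk_left)) hB
  exact lintegral_indicator_one hm2

theorem meas_next_frame (h : Explo μ P) {w : OG n → Vec n} (hw : Measurable w) (ha : Adapted P w)
    {B : OG n → Vec n → Prop} (hB : MeasurableSet {p : OG n × Vec n | B p.1 p.2})
    (hBa : Adapted P B) :
    μ {O | B O (O.1ᵀ *ᵥ w O)} = ∫⁻ O, gpi (Fin n) {g | B O (nxF P w O g)} ∂μ := by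
  have h1 := h.next_frame hw ha
    (G := fun O a => {p : OG n × Vec n | B p.1 p.2}.indicator 1 (O, a))
    (measurable_one.indicator hB)
    (hBa.comp fun (b : Vec n → Prop) (a : Vec n) => {a | b a}.indicator (1 : Vec n → ℝ≥0∞) a)
  have hm : MeasurableSet {O : OG n | B O (O.1ᵀ *ᵥ w O)} :=
    (measurable_id.prodMk (mm_val.transpose.mulVec hw)) hB
  rw [← lintegral_indicator_one hm]
  refine h1.trans (lintegral_congr fun O => ?_)
  have hm2 : MeasurableSet {g : Vec n | B O (nxF P w O g)} :=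
    (measurable_const.prodMk ((h.measurable_nxF hw).comp measurable_prodMk_left)) hB
  exact lintegral_indicator_one hm2

theorem lint_le_real {α : Type*} [MeasurableSpace α] {μ : Measure α} [IsProbabilityMeasure μ]
    {m : ℝ≥0∞} {f : α → ℝ≥0∞} (hm : m = ∫⁻ a, f a ∂μ) {A : Set α} (h1 : ∀ a, f a ≤ 1) {p : ℝ}
    (h0 : 0 ≤ p) (hp : ∀ a, a ∉ A → (f a).toReal ≤ p) : m.toReal ≤ μ.real A + p := by
  have hT := measurableSet_toMeasurable μ A
  have h2 : m ≤ μ A + ENNReal.ofReal p := by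
    calc m ≤ ∫⁻ a, (toMeasurable μ A).indicator 1 a + ENNReal.ofReal p ∂μ := by
          rw [hm]
          refine lintegral_mono fun a => ?_
          by_cases ha : a ∈ toMeasurable μ A
          · rw [Set.indicator_of_mem ha, Pi.one_apply]
            exact (h1 a).trans le_self_add
          · refine le_trans ?_ le_add_self
            rw [← ENNReal.ofReal_toReal (ne_top_of_le_ne_top ENNReal.one_ne_top (h1 a))]
            exact ENNReal.ofReal_le_ofReal (hp a fun hA => ha (subset_toMeasurable μ A hA))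
      _ = μ A + ENNReal.ofReal p := by
          rw [lintegral_add_right _ measurable_const, lintegral_indicator_one hT,
            measure_toMeasurable]
          simp
  have h3 := ENNReal.toReal_mono
    (ENNReal.add_ne_top.2 ⟨measure_ne_top μ A, ENNReal.ofReal_ne_top⟩) h2
  rwa [ENNReal.toReal_add (measure_ne_top μ A) ENNReal.ofReal_ne_top, ENNReal.toReal_ofReal h0]
    at h3

/-- a Gaussian bound for good data gives a bound for the next answer of a site query -/
theorem real_next_site (h : Explo μ P) [IsProbabilityMeasure μ] {v : OG n → Vec n}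
    (hv : Measurable v) (ha : Adapted P v) {B : OG n → Vec n → Prop}
    (hB : MeasurableSet {p : OG n × Vec n | B p.1 p.2}) (hBa : Adapted P B) {A : Set (OG n)}
    {p : ℝ} (h0 : 0 ≤ p) (hp : ∀ O, O ∉ A → (gpi (Fin n)).real {g | B O (nxS P v O g)} ≤ p) :
    μ.real {O | B O (O.1 *ᵥ v O)} ≤ μ.real A + p :=
  lint_le_real (h.meas_next_site hv ha hB hBa) (fun _ => prob_le_one) h0 hp

/-- the same for a frame query -/
theorem real_next_frame (h : Explo μ P) [IsProbabilityMeasure μ] {w : OG n → Vec n}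
    (hw : Measurable w) (ha : Adapted P w) {B : OG n → Vec n → Prop}
    (hB : MeasurableSet {p : OG n × Vec n | B p.1 p.2}) (hBa : Adapted P B) {A : Set (OG n)}
    {p : ℝ} (h0 : 0 ≤ p) (hp : ∀ O, O ∉ A → (gpi (Fin n)).real {g | B O (nxF P w O g)} ≤ p) :
    μ.real {O | B O (O.1ᵀ *ᵥ w O)} ≤ μ.real A + p :=
  lint_le_real (h.meas_next_frame hw ha hB hBa) (fun _ => prob_le_one) h0 hp

/-! ### other base measures -/

/-- the uniform measure on a coset of a stabiliser -/
theorem coset (O₀ : OG n) {P : Mat n} (hP : IsProj P) :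
    Explo ((haarH P).map fun U => O₀ * U) (fun _ => P) := by
  refine ⟨fun _ => hP, MM.const P, Adapted.const P, fun F hF => ?_⟩
  rw [lintegral_map (measurable_uncurry_mul hF).lintegral_prod_right (measurable_const_mul O₀),
    lintegral_map hF (measurable_const_mul O₀),
    ← (invOn_haarH P).lint_fibre (invOn_haarH P) le_rfl (F := fun U => F (O₀ * U))
      (hF.comp (measurable_const_mul O₀))]
  simp only [mul_assoc]

/-- tilting by a function of the data -/
theorem withDensity (h : Explo μ P) {ρ : OG n → ℝ≥0∞} (hρ : Measurable ρ) (ha : Adapted P ρ) :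
    Explo (μ.withDensity ρ) P := by
  refine ⟨h.proj, h.mm, h.adapted, fun F hF => ?_⟩
  rw [lintegral_withDensity_eq_lintegral_mul _ hρ
    (famH.measurable_lint h.mm h.proj (measurable_uncurry_mul hF)),
    lintegral_withDensity_eq_lintegral_mul _ hρ hF]
  simp only [Pi.mul_apply]
  rw [← h.lint₂ famH (G := fun O O' => ρ O * F O') (hρ.mul hF)
      (ha.comp fun r (O' : OG n) => r * F O')]
  refine lintegral_congr fun O => ?_
  rw [lintegral_const_mul _ (f := fun U => F (O * U)) (hF.comp (measurable_const_mul O))]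

theorem restrict (h : Explo μ P) {A : Set (OG n)} (hA : MeasurableSet A)
    (ha : Adapted P (fun O => O ∈ A)) : Explo (μ.restrict A) P := by
  classical
  rw [← withDensity_indicator_one hA]
  refine h.withDensity (measurable_one.indicator hA) fun O U hU => ?_
  have e : (O * U ∈ A) = (O ∈ A) := ha O U hU
  simp only [Set.indicator_apply, e, Pi.one_apply]

theorem smul (h : Explo μ P) (c : ℝ≥0∞) : Explo (c • μ) P :=
  ⟨h.proj, h.mm, h.adapted, fun F hF => by simp only [lintegral_smul_measure, h.fib F hF]⟩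

/-! ### several queries -/

/-- `Oᵀ D O v` is known after two queries -/
theorem apply (h : Explo μ P) {v : OG n → Vec n} (hv : Measurable v) (ha : Adapted P v)
    {D : OG n → Mat n} (hD : MM D) (hDa : Adapted P D) :
    ∃ Q : OG n → Mat n, Explo μ Q ∧ (∀ O, Q O * P O = Q O) ∧
      (∀ O, (P O).trace - 2 ≤ (Q O).trace) ∧ Adapted Q (fun O => O.1 *ᵥ v O) ∧
      Adapted Q (fun O => (O.1ᵀ * D O * O.1) *ᵥ v O) := by
  have h1 := h.site hv ha
  have a1 := h.adapted_site ha
  have a2 := (h.adapted_rm hDa v).comp₂ a1 fun D u => D *ᵥ u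
  have h2 := h1.frame (hD.mulVec (mm_val.mulVec hv)) a2
  refine ⟨_, h2, fun O => ?_, fun O => ?_, h1.adapted_rm a1 _, ?_⟩
  · rw [← (h1.proj O).rm_mul, Matrix.mul_assoc, (h.proj O).rm_mul]
  · linarith [trace_rm_ge (P O) (v O), trace_rm_ge (rm (P O) (v O)) (O.1ᵀ *ᵥ (D O *ᵥ O.1 *ᵥ v O))]
  · have a3 := h1.adapted_frame a2
    simpa only [Matrix.mulVec_mulVec, Matrix.mul_assoc] using a3

/-- finitely many site and frame queries at once; `Q` is the largest projection below `P` which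
kills the explored vectors -/
theorem many (h : Explo μ P) {ι κ : Type*} (I : Finset ι) (K : Finset κ)
    {v : ι → OG n → Vec n} {w : κ → OG n → Vec n} (hv : ∀ i, Measurable (v i))
    (hva : ∀ i, Adapted P (v i)) (hw : ∀ j, Measurable (w j)) (hwa : ∀ j, Adapted P (w j)) :
    ∃ Q : OG n → Mat n, Explo μ Q ∧ (∀ O, Q O * P O = Q O) ∧
      (∀ O, (P O).trace - (I.card + K.card) ≤ (Q O).trace) ∧
      (∀ i ∈ I, ∀ O, Q O *ᵥ v i O = 0) ∧ (∀ j ∈ K, ∀ O, Q O *ᵥ (O.1ᵀ *ᵥ w j O) = 0) ∧
      ∀ O T, IsProj T → P O * T = T → (∀ i ∈ I, T *ᵥ v i O = 0) →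
        (∀ j ∈ K, T *ᵥ (O.1ᵀ *ᵥ w j O) = 0) → Q O * T = T := by
  classical
  induction K using Finset.induction_on with
  | empty =>
    induction I using Finset.induction_on with
    | empty =>
      exact ⟨P, h, fun O => (h.proj O).idem, fun O => by simp, by simp, by simp,
        fun O T _ hT _ _ => hT⟩
    | insert k I hk ih =>
      obtain ⟨Q, hQ, h1, h2, h3, -, h5⟩ := ih
      refine ⟨_, hQ.site (hv k) ((hva k).mono h1), fun O => ?_, fun O => ?_, fun i hi O => ?_,
        by simp, fun O T hT hPT hTv _ => ?_⟩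
      · rw [← (hQ.proj O).rm_mul, Matrix.mul_assoc, h1]
      · have h6 := h2 O
        rw [Finset.card_insert_of_notMem hk]
        push_cast at h6 ⊢
        linarith [trace_rm_ge (Q O) (v k O)]
      · rcases Finset.mem_insert.1 hi with rfl | hi
        · exact (hQ.proj O).rm_mulVec_self _
        · exact (hQ.proj O).rm_mulVec_of _ (h3 i hi O)
      · exact (hQ.proj O).rm_mul_of hT
          (h5 O T hT hPT (fun i hi => hTv i (Finset.mem_insert_of_mem hi)) (by simp))
          (hTv k (Finset.mem_insert_self _ _))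
  | insert k K hk ih =>
    obtain ⟨Q, hQ, h1, h2, h3, h4, h5⟩ := ih
    refine ⟨_, hQ.frame (hw k) ((hwa k).mono h1), fun O => ?_, fun O => ?_,
      fun i hi O => (hQ.proj O).rm_mulVec_of _ (h3 i hi O), fun j hj O => ?_,
      fun O T hT hPT hTv hTw => ?_⟩
    · rw [← (hQ.proj O).rm_mul, Matrix.mul_assoc, h1]
    · have h6 := h2 O
      rw [Finset.card_insert_of_notMem hk]
      push_cast at h6 ⊢
      linarith [trace_rm_ge (Q O) (O.1ᵀ *ᵥ w k O)]
    · rcases Finset.mem_insert.1 hj with rfl | hj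
      · exact (hQ.proj O).rm_mulVec_self _
      · exact (hQ.proj O).rm_mulVec_of _ (h4 j hj O)
    · exact (hQ.proj O).rm_mul_of hT
        (h5 O T hT hPT hTv fun j hj => hTw j (Finset.mem_insert_of_mem hj))
        (hTw k (Finset.mem_insert_self _ _))

end Explo

/-! ### query programs -/

/-- the answer to a query (`true`: site vector, `false`: frame vector) -/
def ans (b : Bool) (O : OG n) (v : Vec n) : Vec n := if b then O.1 *ᵥ v else O.1ᵀ *ᵥ v

/-- the explored site direction of a query -/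
def dirQ (b : Bool) (O : OG n) (v : Vec n) : Vec n := if b then v else O.1ᵀ *ᵥ v

theorem measurable_ans {X : Type*} [MeasurableSpace X] {b : X → Bool} {O : X → OG n}
    {v : X → Vec n} (hb : Measurable b) (hO : Measurable O) (hv : Measurable v) :
    Measurable fun x => ans (b x) (O x) (v x) :=
  Measurable.ite (hb (MeasurableSet.singleton true)) ((MM.val hO).mulVec hv)
    ((MM.val hO).transpose.mulVec hv)

theorem measurable_dirQ {X : Type*} [MeasurableSpace X] {b : X → Bool} {O : X → OG n}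
    {v : X → Vec n} (hb : Measurable b) (hO : Measurable O) (hv : Measurable v) :
    Measurable fun x => dirQ (b x) (O x) (v x) :=
  Measurable.ite (hb (MeasurableSet.singleton true)) hv ((MM.val hO).transpose.mulVec hv)

/-- one query whose type depends on the data -/
theorem Explo.query {μ : Measure (OG n)} {P : OG n → Mat n} (h : Explo μ P) {b : OG n → Bool}
    {v : OG n → Vec n} (hb : Measurable b) (hba : Adapted P b) (hv : Measurable v)
    (ha : Adapted P v) : Explo μ (fun O => rm (P O) (dirQ (b O) O (v O))) ∧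
      Adapted (fun O => rm (P O) (dirQ (b O) O (v O))) (fun O => ans (b O) O (v O)) := by
  constructor
  · refine h.refine (fun O => (h.proj O).rm _) (h.mm.rm (measurable_dirQ hb measurable_id hv))
      (fun O => (h.proj O).rm_mul _) fun O => ?_
    cases hO : b O
    · refine Or.inr fun U hU => ?_
      have h1 := rm_conj (P := P O) (R := U.1ᵀ) (by rw [transpose_transpose, OG.mul_transpose])
        (O.1ᵀ *ᵥ v O)
      rw [transpose_transpose, HG_conj' (h.proj O).symm hU] at h1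
      rw [h.adapted O U hU, ha O U hU, hba O U hU, hO]
      simp only [dirQ, Bool.false_eq_true, if_false]
      rw [h1, OG.coe_mul, transpose_mul, ← Matrix.mulVec_mulVec]
    · refine Or.inl fun U hU => ?_
      rw [h.adapted O U hU, ha O U hU, hba O U hU, hO]
      simp only [dirQ, if_true]
  · intro O U hU
    have hU' := HG_mono ((h.proj O).rm_mul _) hU
    have h0 := (h.proj O).rm_mulVec_self (dirQ (b O) O (v O))
    simp only
    rw [ha O U hU', hba O U hU']
    cases hO : b O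
    · simp only [hO, dirQ, Bool.false_eq_true, if_false] at h0 hU
      simp only [ans, Bool.false_eq_true, if_false]
      rw [OG.coe_mul, transpose_mul, ← Matrix.mulVec_mulVec, HG_tr_mulVec hU h0]
    · simp only [hO, dirQ, if_true] at h0 hU
      simp only [ans, if_true]
      rw [OG.coe_mul, ← Matrix.mulVec_mulVec, HG_mulVec hU h0]

/-- a query program on a state space `σ` -/
structure Prog (n : ℕ) (σ : Type*) [MeasurableSpace σ] where
  typ : ℕ → σ → Bool
  vec : ℕ → σ → Vec n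
  upd : ℕ → σ → Vec n → σ
  m_typ : ∀ j, Measurable (typ j)
  m_vec : ∀ j, Measurable (vec j)
  m_upd : ∀ j, Measurable (Function.uncurry (upd j))

namespace Prog

variable {σ : Type*} [MeasurableSpace σ] (π : Prog n σ)

/-- the state after `j` queries -/
def st (s₀ : OG n → σ) : ℕ → OG n → σ
  | 0 => s₀
  | j + 1 => fun O =>
    π.upd j (st s₀ j O) (ans (π.typ j (st s₀ j O)) O (π.vec j (st s₀ j O)))

/-- the unexplored projection after `j` queries -/
noncomputable def pr (s₀ : OG n → σ) (P₀ : OG n → Mat n) : ℕ → OG n → Mat n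
  | 0 => P₀
  | j + 1 => fun O =>
    rm (pr s₀ P₀ j O) (dirQ (π.typ j (π.st s₀ j O)) O (π.vec j (π.st s₀ j O)))

variable {s₀ : OG n → σ} {P₀ : OG n → Mat n} {μ : Measure (OG n)}

theorem measurable_st (hs : Measurable s₀) (j : ℕ) : Measurable (π.st s₀ j) := by
  induction j with
  | zero => exact hs
  | succ j ih =>
    exact (π.m_upd j).comp (ih.prodMk
      (measurable_ans ((π.m_typ j).comp ih) measurable_id ((π.m_vec j).comp ih)))

/-- (b) every query program is an exploration and its state is a function of the data -/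
theorem explo (h : Explo μ P₀) (hs : Measurable s₀) (ha : Adapted P₀ s₀) (j : ℕ) :
    Explo μ (π.pr s₀ P₀ j) ∧ Adapted (π.pr s₀ P₀ j) (π.st s₀ j) := by
  induction j with
  | zero => exact ⟨h, ha⟩
  | succ j ih =>
    obtain ⟨h1, h2⟩ := ih
    have hm := π.measurable_st hs j
    obtain ⟨h3, h4⟩ := h1.query ((π.m_typ j).comp hm) (h2.comp (π.typ j)) ((π.m_vec j).comp hm)
      (h2.comp (π.vec j))
    exact ⟨h3, (h1.adapted_rm h2 _).comp₂ h4 (π.upd j)⟩

theorem trace_pr (j : ℕ) (O : OG n) : (P₀ O).trace - j ≤ (π.pr s₀ P₀ j O).trace := by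
  induction j with
  | zero => simp [pr]
  | succ j ih =>
    have h := trace_rm_ge (π.pr s₀ P₀ j O) (dirQ (π.typ j (π.st s₀ j O)) O (π.vec j (π.st s₀ j O)))
    push_cast
    simp only [pr]
    linarith

theorem proj_pr {O : OG n} (h : IsProj (P₀ O)) (j : ℕ) : IsProj (π.pr s₀ P₀ j O) := by
  induction j with
  | zero => exact h
  | succ j ih => exact ih.rm _

theorem pr_mul_pr {O : OG n} (h : IsProj (P₀ O)) {i j : ℕ} (hij : i ≤ j) :
    π.pr s₀ P₀ j O * π.pr s₀ P₀ i O = π.pr s₀ P₀ j O := by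
  induction j, hij using Nat.le_induction with
  | base => exact (π.proj_pr h i).idem
  | succ j _ ih =>
    simp only [pr]
    rw [← (π.proj_pr h j).rm_mul, Matrix.mul_assoc, ih]

theorem adapted_st (h : Explo μ P₀) (hs : Measurable s₀) (ha : Adapted P₀ s₀) {i j : ℕ}
    (hij : i ≤ j) : Adapted (π.pr s₀ P₀ j) (π.st s₀ i) :=
  (π.explo h hs ha i).2.mono fun O => π.pr_mul_pr (h.proj O) hij

end Prog

end Vale.Agent.N150.Fib
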