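import Mathlib
import Vale.Agent.P150.Bdl.B1

/-! Nets of subsets of subspaces, and the reduction of seminorm, bilinear and quadratic bounds
to a net; union bounds over nets. -/

open MeasureTheory ProbabilityTheory Matrix Module Metric
open scoped ENNReal

namespace Vale.Agent.N150.Rip

open Vale.Agent.P150 Vale.Agent.P150.F

/-! ### volume bound -/

theorem card_le_of_sep {E : Type*} [NormedAddCommGroup E] [NormedSpace ℝ E]
    [FiniteDimensional ℝ E] (s : Finset E) {R ε : ℝ} (hR : 0 ≤ R) (hε : 0 < ε)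
    (hs : ∀ c ∈ s, ‖c‖ ≤ R) (h : ∀ c ∈ s, ∀ d ∈ s, c ≠ d → ε ≤ ‖c - d‖) :
    (s.card : ℝ) ≤ (1 + 2 * R / ε) ^ finrank ℝ E := by
  borelize E
  let μ : Measure E := Measure.addHaar
  set δ : ℝ := ε / 2 with hδ
  set ρ : ℝ := ε / 2 + R with hρ
  have δpos : 0 < δ := by positivity
  have ρpos : 0 < ρ := by positivity
  set A := ⋃ c ∈ s, ball (c : E) δ with hA
  have D : Set.Pairwise (s : Set E) (Function.onFun Disjoint fun c => ball (c : E) δ) := by
    rintro c hc d hd hcd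
    apply ball_disjoint_ball
    rw [dist_eq_norm]
    have := h c hc d hd hcd
    linarith
  have A_subset : A ⊆ ball (0 : E) ρ := by
    refine Set.iUnion₂_subset fun x hx => ?_
    apply ball_subset_ball'
    rw [dist_zero_right]
    have := hs x hx
    linarith
  have I :
    (s.card : ℝ≥0∞) * ENNReal.ofReal (δ ^ finrank ℝ E) * μ (ball 0 1) ≤
      ENNReal.ofReal (ρ ^ finrank ℝ E) * μ (ball 0 1) :=
    calc
      (s.card : ℝ≥0∞) * ENNReal.ofReal (δ ^ finrank ℝ E) * μ (ball 0 1) = μ A := by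
        rw [hA, measure_biUnion_finset D fun c _ => measurableSet_ball]
        simp only [μ.addHaar_ball_of_pos _ δpos]
        simp only [Finset.sum_const, nsmul_eq_mul, mul_assoc]
      _ ≤ μ (ball (0 : E) ρ) := measure_mono A_subset
      _ = ENNReal.ofReal (ρ ^ finrank ℝ E) * μ (ball 0 1) := by
        simp only [μ.addHaar_ball_of_pos _ ρpos]
  have J : (s.card : ℝ≥0∞) * ENNReal.ofReal (δ ^ finrank ℝ E) ≤
      ENNReal.ofReal (ρ ^ finrank ℝ E) :=
    (ENNReal.mul_le_mul_iff_left (measure_ball_pos _ _ zero_lt_one).ne' measure_ball_lt_top.ne).1 I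
  have K : (s.card : ℝ) * δ ^ finrank ℝ E ≤ ρ ^ finrank ℝ E := by
    have := ENNReal.toReal_le_of_le_ofReal (pow_nonneg ρpos.le _) J
    rwa [ENNReal.toReal_mul, ENNReal.toReal_natCast,
      ENNReal.toReal_ofReal (pow_nonneg δpos.le _)] at this
  have e : 1 + 2 * R / ε = ρ / δ := by
    rw [hρ, hδ]
    field_simp
  rw [e, div_pow, le_div_iff₀ (pow_pos δpos _)]
  exact K

variable {n : ℕ}

theorem card_le_of_sep_sub (W : Submodule ℝ (Vec n)) (s : Finset (Vec n)) {R ε : ℝ} (hR : 0 ≤ R)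
    (hε : 0 < ε) (hW : ∀ c ∈ s, c ∈ W) (hs : ∀ c ∈ s, nv c ≤ R)
    (h : ∀ c ∈ s, ∀ d ∈ s, c ≠ d → ε ≤ nv (c - d)) :
    (s.card : ℝ) ≤ (1 + 2 * R / ε) ^ finrank ℝ W := by
  classical
  let e : (Fin n → ℝ) ≃ₗ[ℝ] EuclideanSpace ℝ (Fin n) := (WithLp.linearEquiv 2 ℝ (Fin n → ℝ)).symm
  have he : ∀ v, ‖e v‖ = nv v := fun v => rfl
  let W' : Submodule ℝ (EuclideanSpace ℝ (Fin n)) := W.map (e : (Fin n → ℝ) →ₗ[ℝ] _)
  have hfr : finrank ℝ W' = finrank ℝ W := LinearEquiv.finrank_map_eq e W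
  let f : s → W' := fun c => ⟨e c.1, Submodule.mem_map_of_mem (hW c.1 c.2)⟩
  have hf : Function.Injective f := by
    intro c d hcd
    have h1 : e c.1 = e d.1 := congrArg Subtype.val hcd
    exact Subtype.ext (e.injective h1)
  have hc : (Finset.univ.image f).card = s.card := by
    rw [Finset.card_image_of_injective _ hf]
    simp
  rw [← hc, ← hfr]
  refine card_le_of_sep _ hR hε ?_ ?_
  · intro c hc
    obtain ⟨x, -, rfl⟩ := Finset.mem_image.1 hc
    exact (he x.1).le.trans (hs x.1 x.2)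
  · intro c hc d hd hcd
    obtain ⟨x, -, rfl⟩ := Finset.mem_image.1 hc
    obtain ⟨y, -, rfl⟩ := Finset.mem_image.1 hd
    have hxy : x.1 ≠ y.1 := fun h1 => hcd (by rw [Subtype.ext h1])
    have h2 : ‖f x - f y‖ = nv (x.1 - y.1) := by
      rw [← he, map_sub]
      rfl
    rw [h2]
    exact h x.1 x.2 y.1 y.2 hxy

/-- Every subset `A` of the ball of radius `R` of a subspace `W` has an `ε`-net inside `A` with
at most `(1 + 2R/ε)^dim W` points. -/
theorem exists_net_sub (W : Submodule ℝ (Vec n)) (A : Set (Vec n)) {R ε : ℝ} (hR : 0 ≤ R)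
    (hε : 0 < ε) (hA : ∀ v ∈ A, v ∈ W ∧ nv v ≤ R) :
    ∃ N : Finset (Vec n), (∀ v ∈ N, v ∈ A) ∧ (N.card : ℝ) ≤ (1 + 2 * R / ε) ^ finrank ℝ W ∧
      ∀ u ∈ A, ∃ v ∈ N, nv (u - v) ≤ ε := by
  classical
  let P : Finset (Vec n) → Prop := fun s =>
    (∀ v ∈ s, v ∈ A) ∧ ∀ c ∈ s, ∀ d ∈ s, c ≠ d → ε ≤ nv (c - d)
  have hb : ∀ s, P s → (s.card : ℝ) ≤ (1 + 2 * R / ε) ^ finrank ℝ W := fun s hs =>
    card_le_of_sep_sub W s hR hε (fun c hc => (hA c (hs.1 c hc)).1)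
      (fun c hc => (hA c (hs.1 c hc)).2) hs.2
  let Q : ℕ → Prop := fun k => ∃ s, P s ∧ s.card = k
  let B : ℕ := ⌈(1 + 2 * R / ε) ^ finrank ℝ W⌉₊
  have hQ0 : Q 0 := ⟨∅, ⟨by simp, by simp⟩, rfl⟩
  have hQB : ∀ k, Q k → k ≤ B := by
    rintro k ⟨s, hs, rfl⟩
    exact_mod_cast (hb s hs).trans (Nat.le_ceil _)
  obtain ⟨s, hs, hsc⟩ : Q (Nat.findGreatest Q B) := Nat.findGreatest_spec (Nat.zero_le B) hQ0
  refine ⟨s, hs.1, hb s hs, fun u hu => ?_⟩
  by_contra hne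
  push Not at hne
  have hus : u ∉ s := fun h => by
    have := hne u h
    rw [sub_self, nv_zero] at this
    linarith
  have hP : P (insert u s) := by
    refine ⟨fun v hv => ?_, fun c hc d hd hcd => ?_⟩
    · rcases Finset.mem_insert.1 hv with rfl | hv
      · exact hu
      · exact hs.1 v hv
    · rcases Finset.mem_insert.1 hc with rfl | hc'
      · rcases Finset.mem_insert.1 hd with rfl | hd'
        · exact absurd rfl hcd
        · exact (hne d hd').le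
      · rcases Finset.mem_insert.1 hd with rfl | hd'
        · rw [nv_sub_comm]
          exact (hne c hc').le
        · exact hs.2 c hc' d hd' hcd
  have hQ : Q (s.card + 1) := ⟨_, hP, Finset.card_insert_of_notMem hus⟩
  have := Nat.le_findGreatest (hQB _ hQ) hQ
  omega

/-- `N` is an `ε`-net of the unit ball of `W` -/
structure IsNet (W : Submodule ℝ (Vec n)) (ε : ℝ) (N : Finset (Vec n)) : Prop where
  mem : ∀ v ∈ N, v ∈ W
  le_one : ∀ v ∈ N, nv v ≤ 1
  near : ∀ u ∈ W, nv u ≤ 1 → ∃ v ∈ N, nv (u - v) ≤ ε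

theorem exists_net (W : Submodule ℝ (Vec n)) {ε : ℝ} (hε : 0 < ε) :
    ∃ N, IsNet W ε N ∧ (N.card : ℝ) ≤ (1 + 2 / ε) ^ finrank ℝ W := by
  obtain ⟨N, h1, h2, h3⟩ := exists_net_sub W {v | v ∈ W ∧ nv v ≤ 1} zero_le_one hε
    (fun v hv => hv)
  refine ⟨N, ⟨fun v hv => (h1 v hv).1, fun v hv => (h1 v hv).2, fun u hu hu1 => h3 u ⟨hu, hu1⟩⟩,
    ?_⟩
  simpa using h2

/-- `N` is an `ε`-net of the unit sphere of `W`, made of unit vectors -/
structure IsSNet (W : Submodule ℝ (Vec n)) (ε : ℝ) (N : Finset (Vec n)) : Prop where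
  mem : ∀ v ∈ N, v ∈ W
  eq_one : ∀ v ∈ N, nv v = 1
  near : ∀ u ∈ W, nv u = 1 → ∃ v ∈ N, nv (u - v) ≤ ε

theorem exists_snet (W : Submodule ℝ (Vec n)) {ε : ℝ} (hε : 0 < ε) :
    ∃ N, IsSNet W ε N ∧ (N.card : ℝ) ≤ (1 + 2 / ε) ^ finrank ℝ W := by
  obtain ⟨N, h1, h2, h3⟩ := exists_net_sub W {v | v ∈ W ∧ nv v = 1} zero_le_one hε
    (fun v hv => ⟨hv.1, hv.2.le⟩)
  refine ⟨N, ⟨fun v hv => (h1 v hv).1, fun v hv => (h1 v hv).2, fun u hu hu1 => h3 u ⟨hu, hu1⟩⟩,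
    ?_⟩
  simpa using h2

theorem one_add_pow_le_exp {x : ℝ} (hx : 0 ≤ x) (k : ℕ) : (1 + x) ^ k ≤ Real.exp (x * k) := by
  rw [mul_comm, Real.exp_nat_mul]
  exact pow_le_pow_left₀ (by positivity) (by linarith [Real.add_one_le_exp x]) k

theorem five_pow_le (k : ℕ) : (1 + 2 / (1 / 2 : ℝ)) ^ k ≤ Real.exp (2 * k) := by
  rw [mul_comm, Real.exp_nat_mul]
  refine pow_le_pow_left₀ (by norm_num) ?_ k
  have h := Real.quadratic_le_exp_of_nonneg (x := 2) (by norm_num)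
  norm_num at h ⊢
  linarith

theorem nine_pow_le (k : ℕ) : (1 + 2 / (1 / 4 : ℝ)) ^ k ≤ Real.exp (3 * k) := by
  rw [mul_comm, Real.exp_nat_mul]
  refine pow_le_pow_left₀ (by norm_num) ?_ k
  have h := Real.sum_le_exp_of_nonneg (x := 3) (by norm_num) 4
  norm_num [Finset.sum_range_succ, Nat.factorial] at h ⊢
  linarith

/-- a `1/2`-net of the sphere with at most `exp (2 dim W)` points -/
theorem exists_snet_half (W : Submodule ℝ (Vec n)) :
    ∃ N, IsSNet W (1 / 2) N ∧ (N.card : ℝ) ≤ Real.exp (2 * finrank ℝ W) := by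
  obtain ⟨N, h1, h2⟩ := exists_snet W (ε := 1 / 2) (by norm_num)
  exact ⟨N, h1, h2.trans (five_pow_le _)⟩

/-- a `1/4`-net of the sphere with at most `exp (3 dim W)` points -/
theorem exists_snet_quarter (W : Submodule ℝ (Vec n)) :
    ∃ N, IsSNet W (1 / 4) N ∧ (N.card : ℝ) ≤ Real.exp (3 * finrank ℝ W) := by
  obtain ⟨N, h1, h2⟩ := exists_snet W (ε := 1 / 4) (by norm_num)
  exact ⟨N, h1, h2.trans (nine_pow_le _)⟩

/-! ### reductions -/

theorem nv_eq_zero {v : Vec n} (h : nv v = 0) : v = 0 := by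
  funext i
  have := abs_le_nv v i
  rw [h] at this
  exact abs_nonpos_iff.1 this

theorem ip_dot (u v : Vec n) : ip u v = u ⬝ᵥ v := rfl

theorem ip_mulVec_tr (A : Mat n) (u v : Vec n) : ip u (A.mulVec v) = ip v (Aᵀ.mulVec u) := by
  rw [ip_dot, ip_dot, Matrix.dotProduct_mulVec, ← Matrix.mulVec_transpose, dotProduct_comm]

theorem nv_pos {v : Vec n} (h : v ≠ 0) : 0 < nv v :=
  lt_of_le_of_ne (nv_nonneg v) fun h1 => h (nv_eq_zero h1.symm)

theorem nv_normalize {v : Vec n} (h : v ≠ 0) : nv ((nv v)⁻¹ • v) = 1 := by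
  have := nv_pos h
  rw [nv_smul, abs_of_pos (inv_pos.2 this), inv_mul_cancel₀ this.ne']

/-- A positively homogeneous function which is bounded by `a` on the unit sphere of `W` is
bounded by `a * nv u` on `W`. -/
theorem le_mul_nv_of_unit {W : Submodule ℝ (Vec n)} {p : Vec n → ℝ} {a : ℝ}
    (hsm : ∀ c : ℝ, 0 ≤ c → ∀ u ∈ W, p (c • u) = c * p u)
    (h : ∀ u ∈ W, nv u = 1 → p u ≤ a) : ∀ u ∈ W, p u ≤ a * nv u := by
  intro u hu
  by_cases h0 : u = 0
  · have h1 := hsm 0 le_rfl u hu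
    rw [zero_smul, zero_mul] at h1
    rw [h0, h1, nv_zero, mul_zero]
  · have hp := nv_pos h0
    have h1 := h _ (W.smul_mem (nv u)⁻¹ hu) (nv_normalize h0)
    rw [hsm _ (inv_pos.2 hp).le u hu, inv_mul_le_iff₀ hp] at h1
    linarith

/-- Sublinear functionals are controlled by their values on a net of the sphere. -/
theorem IsSNet.sublinear {W : Submodule ℝ (Vec n)} {ε : ℝ} {N : Finset (Vec n)}
    (hN : IsSNet W ε N) (hε0 : 0 ≤ ε) (hε : ε < 1) {p : Vec n → ℝ} {a B : ℝ} (ha : 0 ≤ a)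
    (hadd : ∀ u ∈ W, ∀ v ∈ W, p (u + v) ≤ p u + p v)
    (hsm : ∀ c : ℝ, 0 ≤ c → ∀ u ∈ W, p (c • u) = c * p u)
    (hB : ∀ u ∈ W, p u ≤ B * nv u) (h : ∀ v ∈ N, p v ≤ a) :
    ∀ u ∈ W, p u ≤ a / (1 - ε) * nv u := by
  let T : Set ℝ := {b | 0 ≤ b ∧ ∀ u ∈ W, p u ≤ b * nv u}
  have hT : T.Nonempty := ⟨max B 0, le_max_right _ _, fun u hu =>
    (hB u hu).trans (mul_le_mul_of_nonneg_right (le_max_left _ _) (nv_nonneg u))⟩
  have hbd : BddBelow T := ⟨0, fun b hb => hb.1⟩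
  set M := sInf T with hM
  have hM0 : 0 ≤ M := le_csInf hT fun b hb => hb.1
  have hMT : ∀ u ∈ W, p u ≤ M * nv u := by
    refine le_mul_nv_of_unit hsm fun u hu hu1 => le_csInf hT fun b hb => ?_
    have := hb.2 u hu
    rwa [hu1, mul_one] at this
  have hstep : a + ε * M ∈ T := by
    refine ⟨by positivity, le_mul_nv_of_unit hsm fun u hu hu1 => ?_⟩
    obtain ⟨v, hv, huv⟩ := hN.near u hu hu1
    have hvW := hN.mem v hv
    have h1 := hadd v hvW (u - v) (W.sub_mem hu hvW)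
    rw [add_sub_cancel] at h1
    have h2 := hMT (u - v) (W.sub_mem hu hvW)
    have h3 := mul_le_mul_of_nonneg_left huv hM0
    have h4 := h v hv
    linarith
  have h5 : M ≤ a + ε * M := csInf_le hbd hstep
  have h6 : M ≤ a / (1 - ε) := by
    rw [le_div_iff₀ (by linarith)]
    linarith
  intro u hu
  exact (hMT u hu).trans (mul_le_mul_of_nonneg_right h6 (nv_nonneg u))

theorem exists_opLe (A : Mat n) : ∃ B, 0 ≤ B ∧ ∀ v, nv (A.mulVec v) ≤ B * nv v := by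
  refine ⟨√(hsq A), Real.sqrt_nonneg _, fun v => ?_⟩
  have h0 : 0 ≤ hsq A := Finset.sum_nonneg fun i _ => Finset.sum_nonneg fun j _ => sq_nonneg _
  refine nv_le_of_sq_le (mul_nonneg (Real.sqrt_nonneg _) (nv_nonneg v)) ?_
  rw [mul_pow, Real.sq_sqrt h0, nv_sq]
  unfold hsq F.sq
  rw [Finset.sum_mul]
  refine Finset.sum_le_sum fun i _ => ?_
  exact Finset.sum_mul_sq_le_sq_mul_sq Finset.univ (fun j => A i j) v

/-- the norm of a linear map on `W` -/
theorem IsSNet.norm {W : Submodule ℝ (Vec n)} {ε : ℝ} {N : Finset (Vec n)}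
    (hN : IsSNet W ε N) (hε0 : 0 ≤ ε) (hε : ε < 1) (A : Mat n) {a : ℝ} (ha : 0 ≤ a)
    (h : ∀ v ∈ N, nv (A.mulVec v) ≤ a) : ∀ u ∈ W, nv (A.mulVec u) ≤ a / (1 - ε) * nv u := by
  obtain ⟨B, -, hB⟩ := exists_opLe A
  refine hN.sublinear hε0 hε (p := fun u => nv (A.mulVec u)) ha (fun u _ v _ => ?_)
    (fun c hc u _ => ?_) (fun u _ => hB u) h
  · rw [Matrix.mulVec_add]
    exact nv_add_le _ _
  · rw [Matrix.mulVec_smul, nv_smul, abs_of_nonneg hc]

/-- linear functionals on `W` -/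
theorem IsSNet.linear {W : Submodule ℝ (Vec n)} {ε : ℝ} {N : Finset (Vec n)}
    (hN : IsSNet W ε N) (hε0 : 0 ≤ ε) (hε : ε < 1) (w : Vec n) {a : ℝ} (ha : 0 ≤ a)
    (h : ∀ v ∈ N, ip v w ≤ a) : ∀ u ∈ W, |ip u w| ≤ a / (1 - ε) * nv u := by
  have h1 : ∀ u ∈ W, ip u w ≤ a / (1 - ε) * nv u := by
    refine hN.sublinear hε0 hε (p := fun u => ip u w) (B := nv w) ha (fun u _ v _ => ?_)
      (fun c _ u _ => ip_smul_left c u w) (fun u _ => ?_) h
    · exact (ip_add_left u v w).le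
    · rw [mul_comm]
      exact ip_le u w
  intro u hu
  rw [abs_le]
  refine ⟨?_, h1 u hu⟩
  have h2 := h1 (-u) (W.neg_mem hu)
  have h3 : ip (-u) w = - ip u w := by
    rw [← neg_one_smul ℝ u, ip_smul_left]
    ring
  rw [h3, nv_neg] at h2
  linarith

/-- bilinear forms on `W₁ × W₂` -/
theorem IsSNet.bilinear {W₁ W₂ : Submodule ℝ (Vec n)} {ε : ℝ} {N₁ N₂ : Finset (Vec n)}
    (h₁ : IsSNet W₁ ε N₁) (h₂ : IsSNet W₂ ε N₂) (hε0 : 0 ≤ ε) (hε : ε < 1) (A : Mat n) {a : ℝ}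
    (ha : 0 ≤ a) (h : ∀ u ∈ N₁, ∀ v ∈ N₂, ip u (A.mulVec v) ≤ a) :
    ∀ u ∈ W₁, ∀ v ∈ W₂, |ip u (A.mulVec v)| ≤ a / (1 - ε) ^ 2 * (nv u * nv v) := by
  have he : 0 < 1 - ε := by linarith
  have htr := ip_mulVec_tr A
  have h1 : ∀ u ∈ N₁, ∀ v ∈ W₂, ip u (A.mulVec v) ≤ a / (1 - ε) * nv v := by
    intro u hu v hv
    rw [htr]
    refine (le_abs_self _).trans (h₂.linear hε0 hε (Aᵀ.mulVec u) ha (fun v hv => ?_) v hv)
    rw [← htr]
    exact h u hu v hv
  intro u hu v hv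
  have h2 := h₁.linear hε0 hε (A.mulVec v)
    (mul_nonneg (div_nonneg ha he.le) (nv_nonneg v)) (fun u hu => h1 u hu v hv) u hu
  refine h2.trans (le_of_eq ?_)
  field_simp

theorem qf_smul (A : Mat n) (c : ℝ) (u : Vec n) : qf A (c • u) = c ^ 2 * qf A u := by
  unfold qf
  rw [Matrix.mulVec_smul, ip_smul_left, ip_smul_right]
  ring

theorem qf_add {A : Mat n} (hA : A.IsSymm) (u v : Vec n) :
    qf A (u + v) = qf A u + 2 * ip u (A.mulVec v) + qf A v := by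
  unfold qf
  rw [Matrix.mulVec_add, ip_add_left, ip_add_right, ip_add_right, ip_mulVec_comm hA v u,
    ipN_comm (A.mulVec v) u]
  ring

theorem qf_sub {A : Mat n} (hA : A.IsSymm) (u v : Vec n) :
    qf A (u - v) = qf A u - 2 * ip u (A.mulVec v) + qf A v := by
  unfold qf
  rw [Matrix.mulVec_sub, ip_sub_left, ip_sub_right, ip_sub_right, ip_mulVec_comm hA v u,
    ipN_comm (A.mulVec v) u]
  ring

theorem sq_add_add_sq_sub (u v : Vec n) :
    F.sq (u + v) + F.sq (u - v) = 2 * F.sq u + 2 * F.sq v := by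
  unfold F.sq
  rw [Finset.mul_sum, Finset.mul_sum, ← Finset.sum_add_distrib, ← Finset.sum_add_distrib]
  refine Finset.sum_congr rfl fun i _ => ?_
  simp only [Pi.add_apply, Pi.sub_apply]
  ring

/-- polarisation on a subspace -/
theorem abs_ip_le_of_qf {W : Submodule ℝ (Vec n)} {A : Mat n} (hA : A.IsSymm) {M : ℝ}
    (h : ∀ u ∈ W, |qf A u| ≤ M * F.sq u) :
    ∀ u ∈ W, ∀ v ∈ W, |ip u (A.mulVec v)| ≤ M * (nv u * nv v) := by
  have h1 : ∀ u ∈ W, ∀ v ∈ W, nv u = 1 → nv v = 1 → |ip u (A.mulVec v)| ≤ M := by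
    intro u hu v hv hu1 hv1
    have e1 := qf_add hA u v
    have e2 := qf_sub hA u v
    have e3 := sq_add_add_sq_sub u v
    have b1 := abs_le.1 (h _ (W.add_mem hu hv))
    have b2 := abs_le.1 (h _ (W.sub_mem hu hv))
    have s1 : F.sq u = 1 := by rw [← nv_sq, hu1]; ring
    have s2 : F.sq v = 1 := by rw [← nv_sq, hv1]; ring
    have e4 : M * F.sq (u + v) + M * F.sq (u - v) = 4 * M := by
      rw [← mul_add, e3, s1, s2]; ring
    rw [abs_le]
    constructor <;> linarith [b1.1, b1.2, b2.1, b2.2]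
  intro u hu v hv
  by_cases hu0 : u = 0
  · subst hu0
    simp [ip, nv_zero]
  by_cases hv0 : v = 0
  · subst hv0
    simp [ip, nv_zero]
  have hu' := nv_pos hu0
  have hv' := nv_pos hv0
  have h2 := h1 _ (W.smul_mem (nv u)⁻¹ hu) _ (W.smul_mem (nv v)⁻¹ hv) (nv_normalize hu0)
    (nv_normalize hv0)
  rw [Matrix.mulVec_smul, ip_smul_left, ip_smul_right, abs_mul, abs_mul,
    abs_of_pos (inv_pos.2 hu'), abs_of_pos (inv_pos.2 hv'), inv_mul_le_iff₀ hu',
    inv_mul_le_iff₀ hv'] at h2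
  linarith

theorem le_mul_sq_of_unit {W : Submodule ℝ (Vec n)} {p : Vec n → ℝ} {a : ℝ}
    (hsm : ∀ c : ℝ, 0 ≤ c → ∀ u ∈ W, p (c • u) = c ^ 2 * p u)
    (h : ∀ u ∈ W, nv u = 1 → p u ≤ a) : ∀ u ∈ W, p u ≤ a * F.sq u := by
  intro u hu
  by_cases h0 : u = 0
  · have h1 := hsm 0 le_rfl u hu
    rw [zero_smul] at h1
    rw [h0, h1, ← nv_sq, nv_zero]
    simp
  · have hp := nv_pos h0
    have h1 := h _ (W.smul_mem (nv u)⁻¹ hu) (nv_normalize h0)
    rw [hsm _ (inv_pos.2 hp).le u hu, inv_pow, inv_mul_le_iff₀ (pow_pos hp 2), nv_sq] at h1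
    linarith

/-- one-sided bound for a quadratic form from a net and a crude two-sided bound -/
theorem IsSNet.qf_le {W : Submodule ℝ (Vec n)} {ε : ℝ} {N : Finset (Vec n)}
    (hN : IsSNet W ε N) {A : Mat n} (hA : A.IsSymm) {a M : ℝ} (hM0 : 0 ≤ M)
    (hM : ∀ u ∈ W, |qf A u| ≤ M * F.sq u) (h : ∀ v ∈ N, qf A v ≤ a) :
    ∀ u ∈ W, qf A u ≤ (a + 2 * ε * M) * F.sq u := by
  refine le_mul_sq_of_unit (fun c _ u _ => qf_smul A c u) fun u hu hu1 => ?_
  obtain ⟨v, hv, huv⟩ := hN.near u hu hu1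
  have hvW := hN.mem v hv
  have hb := abs_ip_le_of_qf hA hM
  have e : qf A u = qf A v + ip (u - v) (A.mulVec u) + ip v (A.mulVec (u - v)) := by
    unfold qf
    rw [Matrix.mulVec_sub, ip_sub_left, ip_sub_right]
    ring
  have b1 := (abs_le.1 (hb _ (W.sub_mem hu hvW) _ hu)).2
  have b2 := (abs_le.1 (hb _ hvW _ (W.sub_mem hu hvW))).2
  rw [hu1, mul_one] at b1
  rw [hN.eq_one v hv, one_mul] at b2
  have b3 := mul_le_mul_of_nonneg_left huv hM0
  have := h v hv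
  linarith

/-- two-sided bound for a quadratic form from a net -/
theorem IsSNet.abs_qf_le {W : Submodule ℝ (Vec n)} {ε : ℝ} {N : Finset (Vec n)}
    (hN : IsSNet W ε N) (hε0 : 0 ≤ ε) (hε : 2 * ε < 1) {A : Mat n} (hA : A.IsSymm) {a : ℝ}
    (ha : 0 ≤ a) (h : ∀ v ∈ N, |qf A v| ≤ a) :
    ∀ u ∈ W, |qf A u| ≤ a / (1 - 2 * ε) * F.sq u := by
  let T : Set ℝ := {b | 0 ≤ b ∧ ∀ u ∈ W, |qf A u| ≤ b * F.sq u}
  have hsm : ∀ c : ℝ, 0 ≤ c → ∀ u ∈ W, |qf A (c • u)| = c ^ 2 * |qf A u| := by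
    intro c _ u _
    rw [qf_smul, abs_mul, abs_of_nonneg (sq_nonneg c)]
  have hT : T.Nonempty := by
    obtain ⟨B, hB0, hB⟩ := exists_opLe A
    refine ⟨B, hB0, fun u _ => (abs_ip_le _ _).trans ?_⟩
    have := mul_le_mul_of_nonneg_left (hB u) (nv_nonneg u)
    rw [← nv_sq]
    linarith
  have hbd : BddBelow T := ⟨0, fun b hb => hb.1⟩
  set M := sInf T with hM
  have hM0 : 0 ≤ M := le_csInf hT fun b hb => hb.1
  have hMT : ∀ u ∈ W, |qf A u| ≤ M * F.sq u := by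
    refine le_mul_sq_of_unit hsm fun u hu hu1 => le_csInf hT fun b hb => ?_
    have := hb.2 u hu
    rwa [← nv_sq, hu1, one_pow, mul_one] at this
  have hneg : ∀ u, qf (-A) u = - qf A u := by
    intro u
    unfold qf
    rw [Matrix.neg_mulVec, ← neg_one_smul ℝ (A.mulVec u), ip_smul_right]
    ring
  have hstep : a + 2 * ε * M ∈ T := by
    refine ⟨by positivity, fun u hu => abs_le.2 ⟨?_, ?_⟩⟩
    · have h1 := hN.qf_le (A := -A) hA.neg (a := a) hM0
        (fun u hu => by rw [hneg, abs_neg]; exact hMT u hu)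
        (fun v hv => by rw [hneg]; linarith [(abs_le.1 (h v hv)).1]) u hu
      rw [hneg] at h1
      linarith
    · exact hN.qf_le hA hM0 hMT (fun v hv => (abs_le.1 (h v hv)).2) u hu
  have h5 : M ≤ a + 2 * ε * M := csInf_le hbd hstep
  have h6 : M ≤ a / (1 - 2 * ε) := by
    rw [le_div_iff₀ (by linarith)]
    linarith
  intro u hu
  exact (hMT u hu).trans (mul_le_mul_of_nonneg_right h6 (sqN_nonneg u))

/-! ### union bounds -/

section Union

variable {Ω : Type*} [MeasurableSpace Ω] (μ : Measure Ω) [IsFiniteMeasure μ]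

omit [IsFiniteMeasure μ] in
theorem real_exists_le_sum {α : Type*} (N : Finset α) (E : α → Ω → Prop) :
    μ.real {ω | ∃ v ∈ N, E v ω} ≤ ∑ v ∈ N, μ.real {ω | E v ω} := by
  have e : {ω | ∃ v ∈ N, E v ω} = ⋃ v ∈ N, {ω | E v ω} := by
    ext ω
    simp
  rw [e]
  exact measureReal_biUnion_finset_le N _

omit [IsFiniteMeasure μ] in
theorem real_exists_le {α : Type*} (N : Finset α) (E : α → Ω → Prop) {p : ℝ}
    (h : ∀ v ∈ N, μ.real {ω | E v ω} ≤ p) : μ.real {ω | ∃ v ∈ N, E v ω} ≤ N.card * p := by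
  refine (real_exists_le_sum μ N E).trans ?_
  rw [← nsmul_eq_mul]
  exact Finset.sum_le_card_nsmul _ _ _ h

theorem real_exists_nat_le (E : ℕ → Ω → Prop) {p : ℕ → ℝ} {q : ℝ}
    (h : ∀ l, μ.real {ω | E l ω} ≤ p l) (hq : ∀ L, ∑ l ∈ Finset.range L, p l ≤ q) :
    μ.real {ω | ∃ l, E l ω} ≤ q := by
  have e : {ω | ∃ l, E l ω} = ⋃ l, {ω | E l ω} := by
    ext ω
    simp
  have hq0 : 0 ≤ q := by simpa using hq 0
  rw [e]
  refine ENNReal.toReal_le_of_le_ofReal hq0 ((measure_iUnion_le _).trans ?_)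
  refine ENNReal.tsum_le_of_sum_range_le fun L => ?_
  calc ∑ l ∈ Finset.range L, μ {ω | E l ω}
      = ENNReal.ofReal (∑ l ∈ Finset.range L, μ.real {ω | E l ω}) := by
        rw [ENNReal.ofReal_sum_of_nonneg fun l _ => measureReal_nonneg]
        exact Finset.sum_congr rfl fun l _ => (ofReal_measureReal (measure_ne_top _ _)).symm
    _ ≤ ENNReal.ofReal q :=
        ENNReal.ofReal_le_ofReal ((Finset.sum_le_sum fun l _ => h l).trans (hq L))

/-- linear functionals: the projection of a random vector on a fixed subspace -/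
theorem net_linear (W : Submodule ℝ (Vec n)) (w : Ω → Vec n) {a p : ℝ} (ha : 0 ≤ a) (hp : 0 ≤ p)
    (h : ∀ u ∈ W, nv u = 1 → μ.real {ω | a < ip u (w ω)} ≤ p) :
    μ.real {ω | ¬ ∀ u ∈ W, |ip u (w ω)| ≤ 2 * a * nv u} ≤ Real.exp (2 * finrank ℝ W) * p := by
  obtain ⟨N, hN, hc⟩ := exists_snet_half W
  have h1 := real_exists_le μ N (fun v ω => a < ip v (w ω))
    (fun v hv => h v (hN.mem v hv) (hN.eq_one v hv))
  refine le_trans (measureReal_mono ?_ (measure_ne_top _ _))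
    (h1.trans (mul_le_mul_of_nonneg_right hc hp))
  intro ω hω
  by_contra hne
  simp only [Set.mem_ofPred_eq, not_exists, not_and, not_lt] at hne
  refine hω fun u hu => (hN.linear (by norm_num) (by norm_num) (w ω) ha hne u hu).trans
    (le_of_eq ?_)
  ring

/-- norms of random matrices on a fixed subspace -/
theorem net_norm (W : Submodule ℝ (Vec n)) (A : Ω → Mat n) {a p : ℝ} (ha : 0 ≤ a) (hp : 0 ≤ p)
    (h : ∀ u ∈ W, nv u = 1 → μ.real {ω | a < nv ((A ω).mulVec u)} ≤ p) :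
    μ.real {ω | ¬ ∀ u ∈ W, nv ((A ω).mulVec u) ≤ 2 * a * nv u} ≤
      Real.exp (2 * finrank ℝ W) * p := by
  obtain ⟨N, hN, hc⟩ := exists_snet_half W
  have h1 := real_exists_le μ N (fun v ω => a < nv ((A ω).mulVec v))
    (fun v hv => h v (hN.mem v hv) (hN.eq_one v hv))
  refine le_trans (measureReal_mono ?_ (measure_ne_top _ _))
    (h1.trans (mul_le_mul_of_nonneg_right hc hp))
  intro ω hω
  by_contra hne
  simp only [Set.mem_ofPred_eq, not_exists, not_and, not_lt] at hne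
  refine hω fun u hu => (hN.norm (by norm_num) (by norm_num) (A ω) ha hne u hu).trans
    (le_of_eq ?_)
  ring

/-- bilinear forms of random matrices on a pair of fixed subspaces -/
theorem net_bilinear (W₁ W₂ : Submodule ℝ (Vec n)) (A : Ω → Mat n) {a p : ℝ} (ha : 0 ≤ a)
    (hp : 0 ≤ p)
    (h : ∀ u ∈ W₁, ∀ v ∈ W₂, nv u = 1 → nv v = 1 →
      μ.real {ω | a < ip u ((A ω).mulVec v)} ≤ p) :
    μ.real {ω | ¬ ∀ u ∈ W₁, ∀ v ∈ W₂, |ip u ((A ω).mulVec v)| ≤ 4 * a * (nv u * nv v)} ≤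
      Real.exp (2 * (finrank ℝ W₁ + finrank ℝ W₂)) * p := by
  obtain ⟨N₁, hN₁, hc₁⟩ := exists_snet_half W₁
  obtain ⟨N₂, hN₂, hc₂⟩ := exists_snet_half W₂
  have h1 := real_exists_le μ (N₁ ×ˢ N₂) (fun x ω => a < ip x.1 ((A ω).mulVec x.2))
    (fun x hx => h x.1 (hN₁.mem _ (Finset.mem_product.1 hx).1) x.2
      (hN₂.mem _ (Finset.mem_product.1 hx).2) (hN₁.eq_one _ (Finset.mem_product.1 hx).1)
      (hN₂.eq_one _ (Finset.mem_product.1 hx).2))
  have hc : ((N₁ ×ˢ N₂).card : ℝ) ≤ Real.exp (2 * (finrank ℝ W₁ + finrank ℝ W₂)) := by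
    rw [Finset.card_product, Nat.cast_mul, mul_add, Real.exp_add]
    exact mul_le_mul hc₁ hc₂ (Nat.cast_nonneg _) (Real.exp_pos _).le
  refine le_trans (measureReal_mono ?_ (measure_ne_top _ _))
    (h1.trans (mul_le_mul_of_nonneg_right hc hp))
  intro ω hω
  by_contra hne
  simp only [Set.mem_ofPred_eq, not_exists, not_and, not_lt] at hne
  refine hω fun u hu v hv => (hN₁.bilinear hN₂ (by norm_num) (by norm_num) (A ω) ha
    (fun u hu v hv => hne (u, v) (Finset.mem_product.2 ⟨hu, hv⟩)) u hu v hv).trans (le_of_eq ?_)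
  ring

/-- quadratic forms of random symmetric matrices on a fixed subspace -/
theorem net_qf (W : Submodule ℝ (Vec n)) (A : Ω → Mat n) (hA : ∀ ω, (A ω).IsSymm) {a p : ℝ}
    (ha : 0 ≤ a) (hp : 0 ≤ p)
    (h : ∀ u ∈ W, nv u = 1 → μ.real {ω | a < |qf (A ω) u|} ≤ p) :
    μ.real {ω | ¬ ∀ u ∈ W, |qf (A ω) u| ≤ 2 * a * F.sq u} ≤ Real.exp (3 * finrank ℝ W) * p := by
  obtain ⟨N, hN, hc⟩ := exists_snet_quarter W
  have h1 := real_exists_le μ N (fun v ω => a < |qf (A ω) v|)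
    (fun v hv => h v (hN.mem v hv) (hN.eq_one v hv))
  refine le_trans (measureReal_mono ?_ (measure_ne_top _ _))
    (h1.trans (mul_le_mul_of_nonneg_right hc hp))
  intro ω hω
  by_contra hne
  simp only [Set.mem_ofPred_eq, not_exists, not_and, not_lt] at hne
  refine hω fun u hu => (hN.abs_qf_le (by norm_num) (by norm_num) (hA ω) ha hne u hu).trans
    (le_of_eq ?_)
  ring

/-- Generic form: an event for unit vectors `u` of `W` which is stable under `ε`-perturbations. -/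
theorem net_generic (W : Submodule ℝ (Vec n)) {ε : ℝ} (hε : 0 < ε) (E E' : Vec n → Ω → Prop)
    (G : Set Ω) {p : ℝ} (hp : 0 ≤ p)
    (h : ∀ u ∈ W, nv u = 1 → μ.real {ω | ¬ E u ω} ≤ p)
    (hst : ∀ ω ∈ G, ∀ u ∈ W, ∀ v ∈ W, nv u = 1 → nv v = 1 → nv (u - v) ≤ ε → E v ω → E' u ω) :
    μ.real {ω | ω ∈ G ∧ ¬ ∀ u ∈ W, nv u = 1 → E' u ω} ≤ (1 + 2 / ε) ^ finrank ℝ W * p := by
  obtain ⟨N, hN, hc⟩ := exists_snet W hε
  have h1 := real_exists_le μ N (fun v ω => ¬ E v ω)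
    (fun v hv => h v (hN.mem v hv) (hN.eq_one v hv))
  refine le_trans (measureReal_mono ?_ (measure_ne_top _ _))
    (h1.trans (mul_le_mul_of_nonneg_right hc hp))
  intro ω hω
  by_contra hne
  simp only [Set.mem_ofPred_eq, not_exists, not_and, not_not] at hne
  refine hω.2 fun u hu hu1 => ?_
  obtain ⟨v, hv, huv⟩ := hN.near u hu hu1
  exact hst ω hω.1 u hu v (hN.mem v hv) hu1 (hN.eq_one v hv) huv (hne v hv)

end Union

/-! ### coordinate subspaces and ranges -/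

/-- vectors supported in `T` -/
def supp (T : Finset (Fin n)) : Submodule ℝ (Vec n) where
  carrier := {v | ∀ i, i ∉ T → v i = 0}
  add_mem' := fun {u v} hu hv i hi => by
    simp only [Pi.add_apply]
    rw [hu i hi, hv i hi, add_zero]
  zero_mem' := fun _ _ => rfl
  smul_mem' := fun c v hv i hi => by
    simp only [Pi.smul_apply]
    rw [hv i hi, smul_zero]

theorem mem_supp {T : Finset (Fin n)} {v : Vec n} : v ∈ supp T ↔ ∀ i, i ∉ T → v i = 0 := Iff.rfl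

theorem finrank_supp (T : Finset (Fin n)) : finrank ℝ (supp T) = T.card := by
  let f : supp T →ₗ[ℝ] (T → ℝ) :=
    { toFun := fun v i => v.1 i.1
      map_add' := fun _ _ => rfl
      map_smul' := fun _ _ => rfl }
  have hf : Function.Bijective f := by
    constructor
    · intro u v huv
      refine Subtype.ext (funext fun i => ?_)
      by_cases hi : i ∈ T
      · exact congrFun huv ⟨i, hi⟩
      · rw [u.2 i hi, v.2 i hi]
    · intro w
      refine ⟨⟨fun i => if h : i ∈ T then w ⟨i, h⟩ else 0, fun i hi => dif_neg hi⟩, ?_⟩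
      funext i
      exact dif_pos i.2
  rw [(LinearEquiv.ofBijective f hf).finrank_eq]
  simp

theorem finrank_sup_le (W₁ W₂ : Submodule ℝ (Vec n)) :
    finrank ℝ (W₁ ⊔ W₂ : Submodule ℝ (Vec n)) ≤ finrank ℝ W₁ + finrank ℝ W₂ := by
  have := Submodule.finrank_sup_add_finrank_inf_eq W₁ W₂
  omega

end Vale.Agent.N150.Rip
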