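import Mathlib
import Vale.Agent.N150.Net
import Vale.Agent.N150.Tail
import Vale.Agent.N150.Haar0

/-! Restricted isometry at all sparsities for Haar images of a fixed subspace, the Abel lemma,
and compressions of fixed diagonal matrices. -/

open MeasureTheory ProbabilityTheory Matrix Module Real
open scoped ENNReal

namespace Vale.Agent.N150.Rip

open Vale.Agent.P150 Vale.Agent.P150.F

variable {n : ℕ}

/-! ### one vector -/

/-- the right hand side at level `l` -/
noncomputable def lev (n : ℕ) (K : ℝ) (l : ℕ) (m : ℝ) : ℝ :=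
  K + (l + 1) + n * exp (-(l : ℝ)) + (l + 1) * m

theorem lev_nonneg {K : ℝ} (hK : 0 ≤ K) (l : ℕ) {m : ℝ} (hm : 0 ≤ m) : 0 ≤ lev n K l m := by
  unfold lev
  positivity

theorem lev_mono {K K' : ℝ} (hK : K ≤ K') (l : ℕ) {m m' : ℝ} (hm : m ≤ m') :
    lev n K l m ≤ lev n K' l m' := by
  unfold lev
  have : ((l : ℝ) + 1) * m ≤ (l + 1) * m' := mul_le_mul_of_nonneg_left hm (by positivity)
  linarith

/-- the vector `v` is spread: all partial sums of squares are small, at all levels -/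
def Spread (c K : ℝ) (v : Vec n) : Prop :=
  ∀ (l : ℕ) (S : Finset (Fin n)), n * ∑ i ∈ S, v i ^ 2 ≤ c * lev n K l S.card

theorem Spread.mono {c c' K K' : ℝ} {v : Vec n} (h : Spread c K v) (hc0 : 0 ≤ c) (hc : c ≤ c')
    (hK0 : 0 ≤ K) (hK : K ≤ K') : Spread c' K' v := fun l S =>
  (h l S).trans (mul_le_mul hc (lev_mono hK l le_rfl) (lev_nonneg hK0 l (Nat.cast_nonneg _))
    (hc0.trans hc))

/-- one-vector cone tail, the only probabilistic input -/
def Cone {Ω : Type*} [MeasurableSpace Ω] (μ : Measure Ω) (w : Ω → Vec n) : Prop :=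
  ∀ (S : Finset (Fin n)) (t : ℝ), 0 ≤ t →
    μ.real {ω | t < ∑ i ∈ S, w ω i ^ 2} ≤ exp (S.card - n * t / 6)

theorem sum_exp_card (x : ℝ) (hx : 0 ≤ x) :
    ∑ S : Finset (Fin n), x ^ S.card ≤ exp (n * x) := by
  have h := Finset.prod_one_add (s := (Finset.univ : Finset (Fin n))) (f := fun _ => x)
  simp only [Finset.prod_const, Finset.card_univ, Fintype.card_fin, Finset.powerset_univ] at h
  rw [← h, mul_comm]
  exact one_add_pow_le_exp hx n

theorem sum_exp_neg_succ (L : ℕ) : ∑ l ∈ Finset.range L, exp (-((l : ℝ) + 1)) ≤ 1 := by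
  have h2 : exp (-1 : ℝ) ≤ 1 / 2 := by
    rw [exp_neg, one_div]
    exact inv_anti₀ (by norm_num) (by linarith [add_one_le_exp (1 : ℝ)])
  have h : ∀ L : ℕ, ∑ l ∈ Finset.range L, exp (-((l : ℝ) + 1)) ≤ 1 - exp (-(L : ℝ)) := by
    intro L
    induction L with
    | zero => simp
    | succ L ih =>
      rw [Finset.sum_range_succ]
      have e : exp (-((L : ℝ) + 1)) = exp (-(L : ℝ)) * exp (-1) := by
        rw [← exp_add]; congr 1; ring
      have h3 : exp (-(L : ℝ)) * exp (-1) ≤ exp (-(L : ℝ)) * (1 / 2) :=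
        mul_le_mul_of_nonneg_left h2 (exp_pos _).le
      push_cast
      rw [e]
      linarith
  linarith [h L, exp_pos (-(L : ℝ))]

section Prob

variable {Ω : Type*} [MeasurableSpace Ω] {μ : Measure Ω} [IsFiniteMeasure μ]

theorem Cone.spread {w : Ω → Vec n} (h : Cone μ w) {K : ℝ} (hK : 0 ≤ K) :
    μ.real {ω | ¬ Spread 6 K (w ω)} ≤ exp (-K) := by
  rcases Nat.eq_zero_or_pos n with hn | hn
  · have : {ω | ¬ Spread 6 K (w ω)} = ∅ := by
      ext ω
      simp only [Set.mem_ofPred_eq, Set.mem_empty_iff_false, iff_false, not_not]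
      intro l S
      have h1 := lev_nonneg (n := n) hK l (Nat.cast_nonneg S.card)
      have h2 : (n : ℝ) = 0 := by exact_mod_cast hn
      rw [h2, zero_mul]
      positivity
    rw [this, measureReal_empty]
    exact (exp_pos _).le
  have hn' : (0 : ℝ) < n := by exact_mod_cast hn
  have h1 : ∀ l : ℕ, μ.real {ω | ∃ S ∈ (Finset.univ : Finset (Finset (Fin n))),
      6 * lev n K l S.card / n < ∑ i ∈ S, w ω i ^ 2} ≤ exp (-K) * exp (-((l : ℝ) + 1)) := by
    intro l
    refine (real_exists_le_sum μ _ _).trans ?_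
    have h2 : ∀ S : Finset (Fin n), μ.real {ω | 6 * lev n K l S.card / n < ∑ i ∈ S, w ω i ^ 2} ≤
        exp (-K) * exp (-((l : ℝ) + 1)) * exp (-(n * exp (-(l : ℝ)))) *
          exp (-(l : ℝ)) ^ S.card := by
      intro S
      refine (h S _ (div_nonneg (mul_nonneg (by norm_num)
        (lev_nonneg hK l (Nat.cast_nonneg _))) hn'.le)).trans (le_of_eq ?_)
      rw [← exp_nat_mul, ← exp_add, ← exp_add, ← exp_add]
      congr 1
      unfold lev
      field_simp
      ring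
    refine (Finset.sum_le_sum fun S _ => h2 S).trans ?_
    rw [← Finset.mul_sum]
    have h3 := sum_exp_card (n := n) (exp (-(l : ℝ))) (exp_pos _).le
    refine (mul_le_mul_of_nonneg_left h3 (by positivity)).trans (le_of_eq ?_)
    rw [mul_assoc, ← exp_add (-(n * exp (-(l : ℝ)))), neg_add_cancel, exp_zero, mul_one]
  have h4 := real_exists_nat_le μ _ h1 (q := exp (-K)) fun L => by
    rw [← Finset.mul_sum]
    exact mul_le_of_le_one_right (exp_pos _).le (sum_exp_neg_succ L)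
  refine le_trans (measureReal_mono ?_ (measure_ne_top _ _)) h4
  intro ω hω
  simp only [Spread, Set.mem_ofPred_eq, not_forall, not_le] at hω
  obtain ⟨l, S, hlS⟩ := hω
  refine ⟨l, S, Finset.mem_univ _, ?_⟩
  rw [div_lt_iff₀ hn']
  linarith

end Prob

/-! ### deterministic consequences -/

/-- Abel lemma for one vector -/
theorem Spread.abel {c K : ℝ} {v : Vec n} (h : Spread c K v) (l : ℕ) {w : Vec n} {M : ℝ}
    (hM : ∀ i, |w i| ≤ M) (hM0 : 0 ≤ M) :
    n * ∑ i, |w i| * v i ^ 2 ≤ c * (lev n K l 0 * M + (l + 1) * ∑ i, |w i|) := by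
  classical
  set b : ℝ := c * (l + 1) with hb
  set S := Finset.univ.filter fun i => b < n * v i ^ 2 with hS
  have h1 := h l S
  have h2 : ∑ i ∈ S, (n * v i ^ 2 - b) ≤ c * lev n K l 0 := by
    rw [Finset.sum_sub_distrib, ← Finset.mul_sum, Finset.sum_const, nsmul_eq_mul]
    have e : c * lev n K l S.card = c * lev n K l 0 + S.card * b := by
      unfold lev
      rw [hb]
      ring
    linarith
  have h3 : ∑ i, |w i| * (n * v i ^ 2 - b) ≤ M * ∑ i ∈ S, (n * v i ^ 2 - b) := by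
    rw [Finset.mul_sum, hS, Finset.sum_filter]
    refine Finset.sum_le_sum fun i _ => ?_
    split_ifs with hi
    · exact mul_le_mul_of_nonneg_right (hM i) (by linarith)
    · exact mul_nonpos_of_nonneg_of_nonpos (abs_nonneg _) (by linarith)
  have h4 : ∑ i, |w i| * (n * v i ^ 2 - b) = n * ∑ i, |w i| * v i ^ 2 - b * ∑ i, |w i| := by
    rw [Finset.mul_sum, Finset.mul_sum, ← Finset.sum_sub_distrib]
    exact Finset.sum_congr rfl fun i _ => by ring
  have h5 := mul_le_mul_of_nonneg_left h2 hM0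
  rw [h4] at h3
  have e : c * (lev n K l 0 * M + (l + 1) * ∑ i, |w i|) =
      M * (c * lev n K l 0) + b * ∑ i, |w i| := by
    rw [hb]
    ring
  linarith

/-- a level `l` with `n e^{-l} ≤ k` and `l + 1 ≤ log (n / k) + 2` -/
theorem exists_level {k : ℝ} (hk : 0 < k) (hkn : k ≤ n) :
    ∃ l : ℕ, n * exp (-(l : ℝ)) ≤ k ∧ (l : ℝ) + 1 ≤ log (n / k) + 2 := by
  have hn : (0 : ℝ) < n := hk.trans_le hkn
  have h0 : 0 ≤ log (n / k) := log_nonneg ((one_le_div hk).2 hkn)
  refine ⟨⌈log (n / k)⌉₊, ?_, ?_⟩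
  · have h1 : exp (-(⌈log (n / k)⌉₊ : ℝ)) ≤ exp (-log (n / k)) :=
      exp_le_exp.2 (neg_le_neg (Nat.le_ceil _))
    rw [exp_neg (log _), exp_log (div_pos hn hk), inv_div] at h1
    have h2 := mul_le_mul_of_nonneg_left h1 hn.le
    rwa [mul_div_cancel₀ _ hn.ne'] at h2
  · linarith [Nat.ceil_lt_add_one h0]

/-- sparsity form -/
theorem Spread.sparse {c K : ℝ} {v : Vec n} (h : Spread c K v) (hc : 0 ≤ c) {k : ℝ} (hk : 0 < k)
    (hkn : k ≤ n) (S : Finset (Fin n)) :
    n * ∑ i ∈ S, v i ^ 2 ≤ c * (K + k + (log (n / k) + 2) * (S.card + 1)) := by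
  obtain ⟨l, h1, h2⟩ := exists_level hk hkn
  refine (h l S).trans (mul_le_mul_of_nonneg_left ?_ hc)
  have h3 := mul_le_mul_of_nonneg_right h2 (by positivity : (0 : ℝ) ≤ S.card + 1)
  unfold lev
  linarith

/-- Abel lemma, logarithmic form -/
theorem Spread.abel_log {c K : ℝ} {v : Vec n} (h : Spread c K v) (hc : 0 ≤ c) {k : ℝ}
    (hk : 0 < k) (hkn : k ≤ n) {w : Vec n} {M : ℝ} (hM : ∀ i, |w i| ≤ M) (hM0 : 0 ≤ M) :
    n * ∑ i, |w i| * v i ^ 2 ≤
      c * ((K + k) * M + (log (n / k) + 2) * (M + ∑ i, |w i|)) := by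
  obtain ⟨l, h1, h2⟩ := exists_level hk hkn
  refine (h.abel l hM hM0).trans (mul_le_mul_of_nonneg_left ?_ hc)
  have h0 : 0 ≤ ∑ i, |w i| := Finset.sum_nonneg fun i _ => abs_nonneg _
  have h3 := mul_le_mul_of_nonneg_right h2 (add_nonneg hM0 h0)
  have h4 := mul_le_mul_of_nonneg_right h1 hM0
  unfold lev
  linarith

/-- coordinates -/
theorem Spread.coord {c K : ℝ} {v : Vec n} (h : Spread c K v) (hc : 0 ≤ c) (i : Fin n) :
    n * v i ^ 2 ≤ c * (K + 2 * log n + 5) := by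
  have hn : (1 : ℝ) ≤ n := by exact_mod_cast i.pos
  have h1 := h.sparse hc one_pos hn {i}
  simp only [Finset.sum_singleton, Finset.card_singleton, Nat.cast_one, div_one] at h1
  refine h1.trans (le_of_eq ?_)
  ring

/-- the number of large coordinates -/
theorem Spread.count {c K : ℝ} {v : Vec n} (h : Spread c K v) (l : ℕ) {t : ℝ}
    (S : Finset (Fin n)) (hS : ∀ i ∈ S, t ≤ n * v i ^ 2) :
    (t - c * (l + 1)) * S.card ≤ c * lev n K l 0 := by
  have h1 := h l S
  have h2 : (S.card : ℝ) * t ≤ n * ∑ i ∈ S, v i ^ 2 := by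
    rw [Finset.mul_sum, ← nsmul_eq_mul]
    exact Finset.card_nsmul_le_sum _ _ _ hS
  have e : c * lev n K l S.card = c * lev n K l 0 + c * (l + 1) * S.card := by
    unfold lev
    ring
  linarith

/-- weighted bilinear sums -/
theorem abs_sum_le_sqrt (w u v : Vec n) :
    |∑ i, w i * u i * v i| ≤ √(∑ i, |w i| * u i ^ 2) * √(∑ i, |w i| * v i ^ 2) := by
  refine (Finset.abs_sum_le_sum_abs _ _).trans ?_
  have h := Real.sum_mul_le_sqrt_mul_sqrt Finset.univ (fun i => √|w i| * |u i|)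
    (fun i => √|w i| * |v i|)
  have e1 : ∀ i, √|w i| * |u i| * (√|w i| * |v i|) = |w i * u i * v i| := by
    intro i
    rw [abs_mul, abs_mul]
    calc √|w i| * |u i| * (√|w i| * |v i|) = (√|w i| * √|w i|) * |u i| * |v i| := by ring
      _ = _ := by rw [Real.mul_self_sqrt (abs_nonneg _)]
  have e2 : ∀ (x : Vec n) i, (√|w i| * |x i|) ^ 2 = |w i| * x i ^ 2 := by
    intro x i
    rw [mul_pow, Real.sq_sqrt (abs_nonneg _), sq_abs]
  simp only [e1, e2] at h
  exact h

/-! ### subspaces -/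

/-- restricted isometry at all sparsities for the image of `W` under `A` -/
def RIP (W : Submodule ℝ (Vec n)) (K : ℝ) (A : Mat n) : Prop :=
  ∀ u ∈ W, Spread (24 * F.sq u) K (A *ᵥ u)

theorem RIP.mono {W W' : Submodule ℝ (Vec n)} {K K' : ℝ} {A : Mat n} (h : RIP W K A)
    (hW : W' ≤ W) (hK0 : 0 ≤ K) (hK : K ≤ K') : RIP W' K' A := fun u hu =>
  (h u (hW hu)).mono (mul_nonneg (by norm_num) (sqN_nonneg u)) le_rfl hK0 hK

/-- restriction to a set of coordinates -/
def res (S : Finset (Fin n)) : Mat n := Matrix.diagonal fun i => if i ∈ S then 1 else 0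

theorem res_mulVec (S : Finset (Fin n)) (v : Vec n) (i : Fin n) :
    (res S *ᵥ v) i = if i ∈ S then v i else 0 := by
  unfold res
  rw [Matrix.mulVec_diagonal]
  split_ifs <;> simp

theorem sq_res (S : Finset (Fin n)) (v : Vec n) : F.sq (res S *ᵥ v) = ∑ i ∈ S, v i ^ 2 := by
  unfold F.sq
  simp only [res_mulVec, ite_pow, ne_eq, OfNat.ofNat_ne_zero, not_false_eq_true, zero_pow]
  rw [Finset.sum_ite_mem, Finset.univ_inter]

theorem rip_of_net {W : Submodule ℝ (Vec n)} {N : Finset (Vec n)} (hN : IsSNet W (1 / 2) N)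
    {K : ℝ} (hK : 0 ≤ K) {A : Mat n} (h : ∀ v ∈ N, Spread 6 K (A *ᵥ v)) : RIP W K A := by
  intro u hu l S
  have hl := lev_nonneg (n := n) hK l (Nat.cast_nonneg S.card)
  have hs := sqN_nonneg u
  rcases Nat.eq_zero_or_pos n with hn | hn
  · have h2 : (n : ℝ) = 0 := by exact_mod_cast hn
    rw [h2, zero_mul]
    positivity
  have hn' : (0 : ℝ) < n := by exact_mod_cast hn
  set a := √(6 * lev n K l S.card / n) with ha
  have ha2 : a ^ 2 = 6 * lev n K l S.card / n := Real.sq_sqrt (by positivity)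
  have h1 := hN.norm (by norm_num) (by norm_num) (res S * A) (a := a) (sqrt_nonneg _)
    (fun v hv => by
      refine nv_le_of_sq_le (sqrt_nonneg _) ?_
      rw [← Matrix.mulVec_mulVec, sq_res, ha2, le_div_iff₀ hn', mul_comm]
      exact h v hv l S) u hu
  have h2 := sq_le_of_nv_le h1
  rw [← Matrix.mulVec_mulVec, sq_res, mul_pow, div_pow, ha2, nv_sq] at h2
  have h3 := mul_le_mul_of_nonneg_left h2 hn'.le
  refine h3.trans (le_of_eq ?_)
  field_simp
  ring

/-- RIP from the one-vector cone tail, for any random matrix -/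
theorem rip_tail {Ω : Type*} [MeasurableSpace Ω] (μ : Measure Ω) [IsFiniteMeasure μ]
    (W : Submodule ℝ (Vec n)) (A : Ω → Mat n)
    (h : ∀ u ∈ W, nv u = 1 → Cone μ fun ω => A ω *ᵥ u) {K : ℝ} (hK : 0 ≤ K) :
    μ.real {ω | ¬ RIP W K (A ω)} ≤ exp (2 * finrank ℝ W - K) := by
  obtain ⟨N, hN, hc⟩ := exists_snet_half W
  have h1 := real_exists_le μ N (fun v ω => ¬ Spread 6 K (A ω *ᵥ v))
    (fun v hv => (h v (hN.mem v hv) (hN.eq_one v hv)).spread hK)
  rw [sub_eq_add_neg, exp_add]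
  refine le_trans (measureReal_mono ?_ (measure_ne_top _ _))
    (h1.trans (mul_le_mul_of_nonneg_right hc (exp_pos _).le))
  intro ω hω
  by_contra hne
  simp only [Set.mem_ofPred_eq, not_exists, not_and, not_not] at hne
  exact hω (rip_of_net hN hK hne)

theorem RIP.abel {W : Submodule ℝ (Vec n)} {K : ℝ} {A : Mat n} (h : RIP W K A) {k : ℝ}
    (hk : 0 < k) (hkn : k ≤ n) {w : Vec n} {M : ℝ} (hM : ∀ i, |w i| ≤ M) (hM0 : 0 ≤ M)
    {u : Vec n} (hu : u ∈ W) :
    n * ∑ i, |w i| * (A *ᵥ u) i ^ 2 ≤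
      24 * ((K + k) * M + (log (n / k) + 2) * (M + ∑ i, |w i|)) * F.sq u := by
  refine ((h u hu).abel_log (mul_nonneg (by norm_num) (sqN_nonneg u)) hk hkn hM hM0).trans
    (le_of_eq ?_)
  ring

theorem RIP.sparse {W : Submodule ℝ (Vec n)} {K : ℝ} {A : Mat n} (h : RIP W K A) {k : ℝ}
    (hk : 0 < k) (hkn : k ≤ n) (S : Finset (Fin n)) {u : Vec n} (hu : u ∈ W) :
    n * ∑ i ∈ S, (A *ᵥ u) i ^ 2 ≤
      24 * (K + k + (log (n / k) + 2) * (S.card + 1)) * F.sq u := by
  refine ((h u hu).sparse (mul_nonneg (by norm_num) (sqN_nonneg u)) hk hkn S).trans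
    (le_of_eq ?_)
  ring

/-! ### Haar measure -/

theorem sq_dot (v : Vec n) : F.sq v = v ⬝ᵥ v := by
  simp only [F.sq, dotProduct, pow_two]

theorem gpi_zero (hn : 0 < n) : ∀ᵐ g ∂(gpi (Fin n)), g ≠ 0 := by
  have hmp : MeasurePreserving (Function.eval (⟨0, hn⟩ : Fin n)) (gpi (Fin n))
      (gaussianReal 0 1) := measurePreserving_eval _ _
  have : NullSingletonClass (gaussianReal 0 1) := nullSingletonClass_gaussianReal one_ne_zero
  have h1 : ∀ᵐ x ∂(gaussianReal 0 1), x ≠ (0 : ℝ) := by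
    rw [ae_iff]
    simp
  filter_upwards [hmp.quasiMeasurePreserving.ae h1] with g hg h0
  exact hg (by rw [h0]; rfl)

/-- The Haar image of a fixed nonzero vector hits a measurable cone with its Gaussian
probability. -/
theorem haar_cone {C : Set (Vec n)} (hC : MeasurableSet C)
    (hcone : ∀ c : ℝ, 0 < c → ∀ v, c • v ∈ C ↔ v ∈ C) {u : Vec n} (hu : u ≠ 0) :
    haar n {O | O.1 *ᵥ u ∈ C} = gpi (Fin n) C := by
  have hn : 0 < n := by
    rcases Nat.eq_zero_or_pos n with h | h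
    · subst h
      exact absurd (Subsingleton.elim _ _) hu
    · exact h
  have hm : MeasurableSet {p : OG n × Vec n | p.1.1 *ᵥ p.2 ∈ C} :=
    continuous_mulVec.measurable hC
  have h1 := Measure.prod_apply (μ := haar n) (ν := gpi (Fin n)) hm
  have h2 := Measure.prod_apply_symm (μ := haar n) (ν := gpi (Fin n)) hm
  have h3 : ∀ O : OG n, gpi (Fin n) (Prod.mk O ⁻¹' {p : OG n × Vec n | p.1.1 *ᵥ p.2 ∈ C}) =
      gpi (Fin n) C := fun O =>
    (Tail.rot_mp O.1 (OG.mul_transpose O)).measure_preimage hC.nullMeasurableSet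
  have h4 : ∀ᵐ g ∂(gpi (Fin n)),
      haar n ((fun O => (O, g)) ⁻¹' {p : OG n × Vec n | p.1.1 *ᵥ p.2 ∈ C}) =
        haar n {O | O.1 *ᵥ u ∈ C} := by
    filter_upwards [gpi_zero hn] with g hg
    have hu' := nv_pos hu
    have hg' := nv_pos hg
    set c := nv g / nv u with hc
    have hc0 : 0 < c := div_pos hg' hu'
    have hd : (c • u) ⬝ᵥ (c • u) = g ⬝ᵥ g := by
      rw [← sq_dot, ← sq_dot, ← nv_sq, ← nv_sq, nv_smul, abs_of_pos hc0, hc,
        div_mul_cancel₀ _ hu'.ne']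
    have h5 := invOn_haar.meas_right (Subgroup.mem_top (rflG (c • u - g)))
      {O : OG n | O.1 *ᵥ (c • u) ∈ C}
    have e1 : {U : OG n | U * rflG (c • u - g) ∈ {O : OG n | O.1 *ᵥ (c • u) ∈ C}} =
        (fun O => (O, g)) ⁻¹' {p : OG n × Vec n | p.1.1 *ᵥ p.2 ∈ C} := by
      ext U
      simp only [Set.mem_ofPred_eq, Set.mem_preimage, OG.coe_mul, rflG_val]
      rw [← Matrix.mulVec_mulVec, rfl'_swap hd]
    have e2 : {O : OG n | O.1 *ᵥ (c • u) ∈ C} = {O | O.1 *ᵥ u ∈ C} := by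
      ext O
      simp only [Set.mem_ofPred_eq]
      rw [Matrix.mulVec_smul]
      exact hcone c hc0 _
    rw [← e1, h5, e2]
  rw [lintegral_congr h3, lintegral_const, measure_univ, mul_one] at h1
  rw [lintegral_congr_ae h4, lintegral_const, measure_univ, mul_one] at h2
  rw [← h1, h2]

theorem haar_tr (S : Set (Mat n)) : haar n {O | O.1ᵀ ∈ S} = haar n {O | O.1 ∈ S} := by
  have h := invOn_haar.meas_inv {O : OG n | O.1 ∈ S}
  simp only [Set.mem_ofPred_eq, OG.coe_inv] at h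
  exact h

theorem haar_real_tr (p : Mat n → Prop) :
    (haar n).real {O | p O.1ᵀ} = (haar n).real {O | p O.1} :=
  congrArg ENNReal.toReal (haar_tr {A | p A})

theorem sq_orth (O : OG n) (u : Vec n) : F.sq (O.1 *ᵥ u) = F.sq u := OG.sum_sq_mulVec O u

theorem sq_smul (c : ℝ) (v : Vec n) : F.sq (c • v) = c ^ 2 * F.sq v := by
  rw [← nv_sq, ← nv_sq, nv_smul, mul_pow, sq_abs]

/-- diagonal quadratic cones -/
theorem haar_diag_cone (a : Vec n) {u : Vec n} (hu : u ≠ 0) :
    (haar n).real {O | 0 < ∑ i, a i * (O.1 *ᵥ u) i ^ 2} =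
      (gpi (Fin n)).real {g | 0 < ∑ i, a i * g i ^ 2} := by
  refine congrArg ENNReal.toReal (haar_cone (C := {g | 0 < ∑ i, a i * g i ^ 2})
    (measurableSet_lt measurable_const (by fun_prop)) (fun c hc v => ?_) hu)
  have e : ∑ i, a i * (c • v) i ^ 2 = c ^ 2 * ∑ i, a i * v i ^ 2 := by
    rw [Finset.mul_sum]
    exact Finset.sum_congr rfl fun i _ => by simp only [Pi.smul_apply, smul_eq_mul]; ring
  simp only [Set.mem_ofPred_eq]
  rw [e]
  exact mul_pos_iff_of_pos_left (pow_pos hc 2)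

theorem cone_haar {u : Vec n} (hu : nv u = 1) : Cone (haar n) fun O => O.1 *ᵥ u := by
  classical
  intro S t ht
  have hu0 : u ≠ 0 := fun h => by
    rw [h, nv_zero] at hu
    exact zero_ne_one hu
  have hs : F.sq u = 1 := by rw [← nv_sq, hu, one_pow]
  have e : ∀ g : Vec n, ∑ i, ((if i ∈ S then 1 else 0) - t) * g i ^ 2 =
      ∑ i ∈ S, g i ^ 2 - t * ∑ i, g i ^ 2 := by
    intro g
    simp only [sub_mul, ite_mul, one_mul, zero_mul, Finset.sum_sub_distrib, Finset.mul_sum]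
    rw [Finset.sum_ite_mem, Finset.univ_inter]
  have h1 := haar_diag_cone (fun i => (if i ∈ S then 1 else 0) - t) hu0
  simp only [e, sub_pos] at h1
  have h2 := Tail.cone_tail (ι := Fin n) S ht
  rw [Fintype.card_fin, ← h1] at h2
  refine le_trans (le_of_eq ?_) h2
  congr 1
  ext O
  simp only [Set.mem_ofPred_eq]
  have h3 : ∑ i, (O.1 *ᵥ u) i ^ 2 = 1 := (sq_orth O u).trans hs
  rw [h3, mul_one]

/-- RIP for `O` -/
theorem rip_haar (W : Submodule ℝ (Vec n)) {K : ℝ} (hK : 0 ≤ K) :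
    (haar n).real {O | ¬ RIP W K O.1} ≤ exp (2 * finrank ℝ W - K) :=
  rip_tail (haar n) W (fun O => O.1) (fun _ _ hu => cone_haar hu) hK

/-- RIP for `Oᵀ` -/
theorem rip_haar_tr (W : Submodule ℝ (Vec n)) {K : ℝ} (hK : 0 ≤ K) :
    (haar n).real {O | ¬ RIP W K O.1ᵀ} ≤ exp (2 * finrank ℝ W - K) := by
  rw [haar_real_tr fun A => ¬ RIP W K A]
  exact rip_haar W hK

/-! ### compressions of a fixed diagonal matrix -/

/-- one vector, upper tail -/
theorem haar_diag_tail (w : Vec n) (hw : ∑ i, w i = 0) {V M x : ℝ} (hV0 : 0 ≤ V) (hM0 : 0 ≤ M)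
    (hV : ∑ i, w i ^ 2 ≤ V ^ 2) (hM : ∀ i, w i ≤ M) (hx : 0 ≤ x) {u : Vec n} (hu : nv u = 1) :
    (haar n).real {O | 6 * V * √x + 32 * M * x < n * ∑ i, w i * (O.1 *ᵥ u) i ^ 2} ≤ exp (-x) := by
  have hu0 : u ≠ 0 := fun h => by
    rw [h, nv_zero] at hu
    exact zero_ne_one hu
  have hn : 0 < n := by
    rcases Nat.eq_zero_or_pos n with h | h
    · subst h
      exact absurd (Subsingleton.elim _ _) hu0
    · exact h
  have hn' : (0 : ℝ) < n := by exact_mod_cast hn
  have hs : F.sq u = 1 := by rw [← nv_sq, hu, one_pow]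
  have h3 : ∀ O : OG n, ∑ i, (O.1 *ᵥ u) i ^ 2 = 1 := fun O => (sq_orth O u).trans hs
  have hsx := sqrt_nonneg x
  have hsx2 : √x ^ 2 = x := sq_sqrt hx
  by_cases hbig : (n : ℝ) ≤ 32 * x
  · have : {O : OG n | 6 * V * √x + 32 * M * x < n * ∑ i, w i * (O.1 *ᵥ u) i ^ 2} = ∅ := by
      ext O
      simp only [Set.mem_ofPred_eq, Set.mem_empty_iff_false, iff_false, not_lt]
      have h4 : ∑ i, w i * (O.1 *ᵥ u) i ^ 2 ≤ M := by
        calc ∑ i, w i * (O.1 *ᵥ u) i ^ 2 ≤ ∑ i, M * (O.1 *ᵥ u) i ^ 2 :=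
              Finset.sum_le_sum fun i _ => mul_le_mul_of_nonneg_right (hM i) (sq_nonneg _)
          _ = M := by rw [← Finset.mul_sum, h3, mul_one]
      have h5 := mul_le_mul_of_nonneg_left h4 hn'.le
      have h6 := mul_le_mul_of_nonneg_right hbig hM0
      have h7 : 0 ≤ 6 * V * √x := by positivity
      linarith
    rw [this, measureReal_empty]
    exact (exp_pos _).le
  push Not at hbig
  set t := (6 * V * √x + 32 * M * x) / n with ht
  have ht0 : 0 ≤ t := by positivity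
  have hnt : n * t = 6 * V * √x + 32 * M * x := by rw [ht]; field_simp
  have e : ∀ g : Vec n, ∑ i, (w i - t) * g i ^ 2 = ∑ i, w i * g i ^ 2 - t * ∑ i, g i ^ 2 := by
    intro g
    simp only [sub_mul, Finset.sum_sub_distrib, Finset.mul_sum]
  have h1 := haar_diag_cone (fun i => w i - t) hu0
  have e1 : {O : OG n | 6 * V * √x + 32 * M * x < n * ∑ i, w i * (O.1 *ᵥ u) i ^ 2} =
      {O | 0 < ∑ i, (w i - t) * (O.1 *ᵥ u) i ^ 2} := by
    ext O
    simp only [Set.mem_ofPred_eq]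
    rw [e, h3, mul_one, sub_pos, ← hnt]
    exact mul_lt_mul_iff_right₀ hn'
  rw [e1, h1]
  by_cases hz : V ^ 2 + n * t ^ 2 = 0
  · have hV2 : V ^ 2 = 0 := by nlinarith [sq_nonneg V, mul_nonneg hn'.le (sq_nonneg t)]
    have hw0 : ∀ i, w i = 0 := by
      intro i
      have h4 : w i ^ 2 ≤ ∑ j, w j ^ 2 :=
        Finset.single_le_sum (f := fun j => w j ^ 2) (fun j _ => sq_nonneg _) (Finset.mem_univ i)
      exact pow_eq_zero_iff (two_ne_zero) |>.1 (le_antisymm (by linarith) (sq_nonneg _))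
    have : {g : Vec n | 0 < ∑ i, (w i - t) * g i ^ 2} = ∅ := by
      ext g
      simp only [Set.mem_ofPred_eq, Set.mem_empty_iff_false, iff_false, not_lt]
      exact Finset.sum_nonpos fun i _ =>
        mul_nonpos_of_nonpos_of_nonneg (by rw [hw0 i]; linarith) (sq_nonneg _)
    rw [this, measureReal_empty]
    exact (exp_pos _).le
  have hpos : 0 < V ^ 2 + n * t ^ 2 := lt_of_le_of_ne (by positivity) (Ne.symm hz)
  have hsum : ∑ i, (w i - t) = -(n * t) := by
    rw [Finset.sum_sub_distrib, hw]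
    simp
  have hsq : ∑ i, (w i - t) ^ 2 ≤ V ^ 2 + n * t ^ 2 := by
    have : ∑ i, (w i - t) ^ 2 = ∑ i, w i ^ 2 - 2 * t * ∑ i, w i + n * t ^ 2 := by
      simp only [sub_sq, Finset.sum_add_distrib, Finset.sum_sub_distrib, Finset.mul_sum]
      simp only [Finset.sum_const, Finset.card_univ, Fintype.card_fin, nsmul_eq_mul]
      congr 2
      exact Finset.sum_congr rfl fun i _ => by ring
    rw [this, hw]
    linarith
  have h2 := Tail.chi_tail (fun i => w i - t) hpos hM0 hx hsq (fun i => by linarith [hM i])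
  refine (Tail.real_imp_le _ fun g hg => ?_).trans h2
  rw [hsum]
  have h5 : √(2 * (V ^ 2 + n * t ^ 2) * x) ≤ 3 / 2 * V * √x + n * t / 4 := by
    refine sqrt_le_iff.2 ⟨by positivity, ?_⟩
    have h6 : 2 * (n * t ^ 2) * x ≤ (n * t / 4) ^ 2 := by
      have : n * t ^ 2 * (32 * x) ≤ n * t ^ 2 * n :=
        mul_le_mul_of_nonneg_left hbig.le (by positivity)
      nlinarith
    have h7 : 2 * V ^ 2 * x ≤ (3 / 2 * V * √x) ^ 2 := by
      rw [mul_pow, hsx2]
      nlinarith [mul_nonneg (sq_nonneg V) hx]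
    have h8 : 0 ≤ 3 / 2 * V * √x * (n * t / 4) := by positivity
    nlinarith
  have h9 : 0 ≤ M * x := mul_nonneg hM0 hx
  linarith

theorem qf_conj_diag (A : Mat n) (w u : Vec n) :
    qf (Aᵀ * Matrix.diagonal w * A) u = ∑ i, w i * (A *ᵥ u) i ^ 2 := by
  unfold qf
  rw [← Matrix.mulVec_mulVec, ← Matrix.mulVec_mulVec, ip_mulVec_tr, Matrix.transpose_transpose]
  unfold ip
  refine Finset.sum_congr rfl fun i _ => ?_
  rw [Matrix.mulVec_diagonal]
  ring

theorem isSymm_conj_diag (A : Mat n) (w : Vec n) : (Aᵀ * Matrix.diagonal w * A).IsSymm := by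
  unfold Matrix.IsSymm
  rw [Matrix.transpose_mul, Matrix.transpose_mul, Matrix.diagonal_transpose,
    Matrix.transpose_transpose, Matrix.mul_assoc]

/-- compression of a fixed centred diagonal matrix to the Haar image of a fixed subspace -/
theorem haar_diag_comp (W : Submodule ℝ (Vec n)) (w : Vec n) (hw : ∑ i, w i = 0) {V M x : ℝ}
    (hV0 : 0 ≤ V) (hM0 : 0 ≤ M) (hV : ∑ i, w i ^ 2 ≤ V ^ 2) (hM : ∀ i, |w i| ≤ M) (hx : 0 ≤ x) :
    (haar n).real {O | ¬ ∀ u ∈ W, n * |∑ i, w i * (O.1 *ᵥ u) i ^ 2| ≤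
      (12 * V * √x + 64 * M * x) * F.sq u} ≤ 2 * exp (3 * finrank ℝ W - x) := by
  have h := net_qf (haar n) W (fun O => (n : ℝ) • (O.1ᵀ * Matrix.diagonal w * O.1))
    (fun O => (isSymm_conj_diag O.1 w).smul _) (a := 6 * V * √x + 32 * M * x)
    (p := 2 * exp (-x)) (by positivity) (by positivity) ?_
  rotate_left
  · intro u _ hu
    have h1 := haar_diag_tail w hw hV0 hM0 hV (fun i => (le_abs_self _).trans (hM i)) hx hu
    have h2 := haar_diag_tail (fun i => -w i) (by simp [hw]) hV0 hM0 (by simpa using hV)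
      (fun i => (neg_le_abs _).trans (hM i)) hx hu
    refine (Tail.real_or_le _ fun O hO => ?_).trans ((add_le_add h1 h2).trans (le_of_eq (by ring)))
    have e : qf ((n : ℝ) • (O.1ᵀ * Matrix.diagonal w * O.1)) u =
        n * ∑ i, w i * (O.1 *ᵥ u) i ^ 2 := by
      rw [← qf_conj_diag]
      unfold qf
      rw [Matrix.smul_mulVec, ip_smul_right]
    rw [e, lt_abs] at hO
    simpa only [neg_mul, Finset.sum_neg_distrib, mul_neg] using hO
  refine le_trans (le_of_eq ?_) (h.trans (le_of_eq ?_))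
  · congr 1
    ext O
    simp only [Set.mem_ofPred_eq]
    refine not_congr (forall₂_congr fun u _ => ?_)
    have e : qf ((n : ℝ) • (O.1ᵀ * Matrix.diagonal w * O.1)) u =
        n * ∑ i, w i * (O.1 *ᵥ u) i ^ 2 := by
      rw [← qf_conj_diag]
      unfold qf
      rw [Matrix.smul_mulVec, ip_smul_right]
    rw [e, abs_mul, Nat.abs_cast]
    constructor <;> intro h <;> linarith
  · rw [sub_eq_add_neg, exp_add]
    ring

end Vale.Agent.N150.Rip
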