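import Vale.Agent.N150.ECDef
import Vale.Agent.N150.Rip
import Vale.Agent.N150.SphAnn
import Vale.Agent.N150.Fib2

/-! Block T1 (notes/P150/T1.md): definitions and statements.

Unit `t`: `s = t ^ 288000`, `√s = t ^ 144000`, `σ₁ = t ^ 198400`, `σ₂ = t ^ 139200`,
clip level `θ = t ^ 71999`, ball radius `ρ = √n t ^ 252000`, sparse sets of size `n t ^ 360000`,
level `K₀ = n t ^ 431998`.  All statements read: for every `L ≥ 2`, for all small `t > 0`. -/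

open Matrix MeasureTheory Filter Topology

namespace Vale.Agent.N150.T1

open Vale.Agent.P150 Vale.Agent.P150.F Vale.Agent.N150.EC Vale.Agent.N150.Sp Vale.Agent.N150.Fib

variable {n : ℕ}

/-! ### functions of `(J, y)` in site coordinates -/

/-- the root of `tr (z - J)⁻¹ = τ` above the spectrum -/
noncomputable def zr (J : Mat n) (τ : ℝ) : ℝ :=
  sInf {z | (Nm J z).PosDef ∧ (G0 J z).trace ≤ τ}
/-- the spherical saddle: `tr G + |G y| ^ 2 = n` -/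
noncomputable def zs (J : Mat n) (y : Vec n) : ℝ :=
  sInf {z | (Nm J z).PosDef ∧ (G0 J z).trace + F.sq (G0 J z *ᵥ y) ≤ n}
/-- `z(h)`, the root of `res2 = 0` -/
noncomputable def zh (J : Mat n) (h : Vec n) : ℝ := zr J (∑ i, dv h i)
/-- `χ = m / w - h` -/
noncomputable def chi (h : Vec n) : Vec n := (wb h)⁻¹ • tm h - h
/-- the residual at `z(h)` -/
noncomputable def rs1 (J : Mat n) (y h : Vec n) : Vec n := res1 J y h (zh J h)
/-- the preconditioned residual `Ψ = G0 res1 = m - G0 (χ + y)` -/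
noncomputable def Psi (J : Mat n) (y h : Vec n) : Vec n := G0 J (zh J h) *ᵥ rs1 J y h
noncomputable def G00 (J : Mat n) (y : Vec n) : Mat n := G0 J (zs J y)
noncomputable def h0 (J : Mat n) (y : Vec n) : Vec n := G00 J y *ᵥ y
noncomputable def w0 (J : Mat n) (y : Vec n) : ℝ := (G00 J y).trace / n
noncomputable def T20 (J : Mat n) (y : Vec n) : ℝ := T2 J (zs J y)
/-- the fixed preconditioner -/
noncomputable def AA (J : Mat n) (y : Vec n) : Mat n :=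
  w0 J y • (1 : Mat n) + (2 / T20 J y) • vecMulVec (G00 J y *ᵥ h0 J y) (h0 J y)
/-- the Picard map -/
noncomputable def Pic (J : Mat n) (y h : Vec n) : Vec n := h - (AA J y)⁻¹ *ᵥ Psi J y h
/-- the Picard iterates `h ^ j`, `h ^ 0 = h0` -/
noncomputable def it (J : Mat n) (y : Vec n) (j : ℕ) : Vec n := (Pic J y)^[j] (h0 J y)
/-- the response of the spherical reference -/
noncomputable def Gs (J : Mat n) (y : Vec n) : Mat n :=
  G00 J y - (2 / (T20 J y + 2 * ip (h0 J y) (G00 J y *ᵥ h0 J y))) •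
    vecMulVec (G00 J y *ᵥ h0 J y) (G00 J y *ᵥ h0 J y)

/-- divided difference of `tanh` -/
noncomputable def ddt (a b : ℝ) : ℝ :=
  if a = b then 1 - Real.tanh a ^ 2 else (Real.tanh a - Real.tanh b) / (a - b)
noncomputable def Db (h h' : Vec n) : Vec n := fun i => ddt (h i) (h' i)
noncomputable def mu (h h' : Vec n) : Vec n := fun i => (tm h i + tm h' i) * Db h h' i / 2
/-- `χ h - χ h' = (wb h)⁻¹ • VW h h' *ᵥ (h - h')` -/
noncomputable def VW (h h' : Vec n) : Mat n :=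
  diagonal (fun i => Db h h' i - wb h) + (2 / (n * wb h')) • vecMulVec (tm h') (mu h h')
/-- `1 - G0 / w`, of trace zero at `z = z(h)` -/
noncomputable def Kt (J : Mat n) (h : Vec n) (z : ℝ) : Mat n := 1 - (wb h)⁻¹ • G0 J z
noncomputable def T2b (J : Mat n) (z z' : ℝ) : ℝ := (G0 J z * G0 J z').trace
/-- the increment matrix with a free vector `p` (`p = Ψ h'` or `p = 0`), `z, z'` as data -/
noncomputable def Mp (J : Mat n) (h h' : Vec n) (z z' : ℝ) (p : Vec n) : Mat n :=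
  wb h • (1 : Mat n) + Kt J h z * VW h h' +
    vecMulVec ((2 / T2b J z z') • (G0 J z *ᵥ (tm h' - p)) - (2 / (n * wb h')) • tm h') (mu h h')
noncomputable def MM (J : Mat n) (h h' p : Vec n) : Mat n := Mp J h h' (zh J h) (zh J h') p
noncomputable def TT (J : Mat n) (y h h' p : Vec n) : Mat n := 1 - (AA J y)⁻¹ * MM J h h' p
noncomputable def EE (J : Mat n) (y h h' p : Vec n) : Mat n :=
  MM J h h' p - AA J y - Kt J h (zh J h) * VW h h'
/-- `EE = (w - w0) - (2 / (n w')) m' μᵀ + G00 * RR` -/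
noncomputable def RR (J : Mat n) (y h h' p : Vec n) : Mat n :=
  (2 / T2b J (zh J h) (zh J h')) •
      vecMulVec ((Nm J (zs J y) * G0 J (zh J h)) *ᵥ (tm h' - p)) (mu h h') -
    (2 / T20 J y) • vecMulVec (h0 J y) (h0 J y)

/-- coordinatewise clipping -/
noncomputable def clip (θ : ℝ) (v : Vec n) : Vec n := fun i => max (-θ) (min θ (v i))
/-- the spike set of a pair of points -/
noncomputable def spk (θ : ℝ) (h h' : Vec n) : Finset (Fin n) :=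
  Finset.univ.filter fun i => 2 * θ < |h i| ∨ 2 * θ < |h' i|

/-! ### frame data -/

/-- upper bound `gam` of the spectrum `lam`, saddle `z0`, field `yt` in the eigenframe -/
structure Dat (n : ℕ) where
  gam : ℝ
  z0 : ℝ
  lam : Vec n
  yt : Vec n

namespace Dat

variable (S : Dat n)

noncomputable def J (O : OG n) : Mat n := JO S.lam O
noncomputable def y (O : OG n) : Vec n := O.1ᵀ *ᵥ S.yt
/-- the spectrum of `G00` -/
noncomputable def g : Vec n := fun a => (S.z0 - S.lam a)⁻¹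
noncomputable def w : ℝ := (∑ a, S.g a) / n
/-- the modes below the level `σ` -/
noncomputable def low (σ : ℝ) : Finset (Fin n) := Finset.univ.filter fun a => S.gam - S.lam a ≤ σ
noncomputable def P (σ : ℝ) (O : OG n) : Mat n := O.1ᵀ * Rip.res (S.low σ) * O.1
noncomputable def Nsq (O : OG n) : Mat n := JO (fun a => √(S.z0 - S.lam a)) O
noncomputable def Nis (O : OG n) : Mat n := JO (fun a => (√(S.z0 - S.lam a))⁻¹) O
noncomputable def Y (O : OG n) : Mat n := JO (fun a => S.z0 - S.lam a - S.w⁻¹) O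
noncomputable def K0 (O : OG n) : Mat n := JO (fun a => 1 - S.g a / S.w) O
noncomputable def X0 (O : OG n) (hc : Vec n) : Mat n := S.Nis O * VW hc hc * S.Nis O
noncomputable def IA (O : OG n) (A : Finset (Fin n)) : Mat n := S.Nis O * Rip.res A
/-- the Picard iterates as functions of the frame -/
noncomputable def h (O : OG n) (j : ℕ) : Vec n := it (S.J O) (S.y O) j
/-- the reference point -/
noncomputable def hc (t : ℝ) (O : OG n) : Vec n := clip (t ^ 71999) (S.h O 3)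
/-- block diagonal version of `(N0 ^ (1/2) AA N0 ^ (-1/2))⁻¹` -/
noncomputable def Abi (σ : ℝ) (O : OG n) : Mat n :=
  (S.w • (1 : Mat n) + (2 / T20 (S.J O) (S.y O)) •
    vecMulVec ((S.P σ O * S.Nis O) *ᵥ h0 (S.J O) (S.y O))
      ((S.P σ O * S.Nis O) *ᵥ h0 (S.J O) (S.y O)))⁻¹

end Dat

/-- admissible spectrum and field at scale `s = t ^ 288000` -/
structure Adm (L t : ℝ) (S : Dat n) : Prop where
  big : 1 ≤ n * t ^ 431998
  lo : S.gam + 2 * t ^ 288000 / L ≤ S.z0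
  hi : S.z0 ≤ S.gam + L * t ^ 288000
  sad : ∑ a, S.g a + ∑ a, (S.g a * S.yt a) ^ 2 = n
  top : ∀ a, S.lam a ≤ S.gam
  bot : ∀ a, S.gam - S.lam a ≤ 6
  c1 : ((S.low (t ^ 198400)).card : ℝ) ≤ L * n * t ^ 297600
  c2 : ((S.low (t ^ 139200)).card : ℝ) ≤ L * n * t ^ 208800
  t2lo : (n : ℝ) ≤ L * t ^ 144000 * ∑ a, S.g a ^ 2
  t2hi : t ^ 144000 * ∑ a, S.g a ^ 2 ≤ L * n
  trlo : ∑ a ∈ S.low (t ^ 139200), S.g a ≤ L * n * t ^ 69600
  trhi : t ^ 69600 * ∑ a ∈ (S.low (t ^ 139200))ᶜ, S.g a ^ 2 ≤ L * n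
  y2 : ∑ a, (S.g a * S.yt a) ^ 2 ≤ L * n * t ^ 144000
  y1 : ∑ a, S.g a * S.yt a ^ 2 ≤ L * n * t ^ 288000

/-- admissible image `xt = O x` of the planted configuration -/
structure AdmX (L t : ℝ) (S : Dat n) (xt : Vec n) : Prop where
  nrm : F.sq xt = n
  x1 : t ^ 144000 * ∑ a, S.g a * xt a ^ 2 ≤ L * n
  x2 : t ^ 432000 * ∑ a, (S.g a * xt a) ^ 2 ≤ L * n
  xy : |∑ a, xt a * (S.g a * S.yt a)| ≤ L * n * t ^ 144000

/-- the structure predicate, operator part (E1, E3 to E7) -/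
structure StrA (t η B : ℝ) (S : Dat n) (O : OG n) (hc : Vec n) : Prop where
  clp : ∀ i, |hc i| ≤ t ^ 71999
  nrm : F.sq hc ≤ n * t ^ 143999
  e1 : OpLe (S.P (t ^ 139200) O * S.X0 O hc * S.P (t ^ 139200) O) η
  e3 : OpLe (S.P (t ^ 139200) O * S.X0 O hc * (1 - S.P (t ^ 139200) O)) B
  e3' : OpLe ((1 - S.P (t ^ 139200) O) * S.X0 O hc * S.P (t ^ 139200) O) B
  e4 : OpLe (S.P (t ^ 139200) O * S.X0 O hc * (1 - S.P (t ^ 139200) O) * S.Y O * S.X0 O hc *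
    S.P (t ^ 139200) O) η
  e5 : ∀ A : Finset (Fin n), (A.card : ℝ) ≤ n * t ^ 360000 →
    OpLe ((1 - S.P (t ^ 139200) O) * S.IA O A) B
  e6 : ∀ A : Finset (Fin n), (A.card : ℝ) ≤ n * t ^ 360000 →
    OpLe ((S.IA O A)ᵀ * S.Y O * (1 - S.P (t ^ 139200) O) * S.IA O A) η
  e7 : ∀ A : Finset (Fin n), (A.card : ℝ) ≤ n * t ^ 360000 →
    OpLe (S.P (t ^ 139200) O * S.X0 O hc * (1 - S.P (t ^ 139200) O) * S.Y O * S.IA O A) η
  e7' : ∀ A : Finset (Fin n), (A.card : ℝ) ≤ n * t ^ 360000 →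
    OpLe ((S.IA O A)ᵀ * S.Y O * (1 - S.P (t ^ 139200) O) * S.X0 O hc * S.P (t ^ 139200) O) η

/-- the structure predicate, spreading of the low modes (replaces E8 and the low part of E5) -/
structure Spr (t c : ℝ) (S : Dat n) (O : OG n) : Prop where
  s1 : ∀ v, Rip.Spread (c * F.sq v) (n * t ^ 297599) (S.P (t ^ 198400) O *ᵥ v)
  s2 : ∀ v, Rip.Spread (c * F.sq v) (n * t ^ 208799) (S.P (t ^ 139200) O *ᵥ v)

/-- the region `R` -/
structure Reg (t : ℝ) (J : Mat n) (y h : Vec n) : Prop where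
  near : nv (h - h0 J y) ≤ √n * t ^ 143000
  cub : nv (h - tm h) ≤ √n * t ^ 214000

/-- output of the base induction -/
structure Base (t : ℝ) (S : Dat n) (O : OG n) : Prop where
  reg : ∀ j ≤ 2, Reg t (S.J O) (S.y O) (S.h O j)
  near : nv (S.h O 3 - h0 (S.J O) (S.y O)) ≤ √n * t ^ 143001
  clp : nv (S.h O 3 - S.hc t O) ≤ √n * t ^ 280000
  step : nv (S.Nsq O *ᵥ (S.h O 4 - S.h O 3)) ≤ √n * t ^ 410000

/-- the event of THEOREM T1 -/
structure Good (t : ℝ) (S : Dat n) (O : OG n) : Prop where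
  base : Base t S O
  str : StrA t (t ^ 4000) (t⁻¹ ^ 10) S O (S.hc t O)
  spr : Spr t t⁻¹ S O

/-- the weaker structure predicate used by D4, D5, D6 (stable version, D7) -/
structure StrW (t : ℝ) (S : Dat n) (O : OG n) (hc : Vec n) : Prop where
  str : StrA t (t ^ 3900) (t⁻¹ ^ 11) S O hc
  spr : Spr t (t⁻¹ ^ 2) S O

/-- the good set as a predicate of `(J, y)` -/
def TG (L t : ℝ) (J : Mat n) (y : Vec n) : Prop :=
  ∃ (S : Dat n) (O : OG n), Adm L t S ∧ Good t S O ∧ J = S.J O ∧ y = S.y O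

/-- what the base exploration exports: `E + F = 1 - P`, `E` spanned by `x` and the answers to frame
queries, `F` by the site queries -/
structure BS (t : ℝ) (S : Dat n) (O : OG n) (x : Vec n) (E F' : Mat n) (hc : Vec n) : Prop where
  pE : IsProj E
  pF : IsProj F'
  EF : E * F' = 0
  Ex : E *ᵥ x = x
  tr : E.trace + F'.trace ≤ 12
  clp : ∀ i, |hc i| ≤ t ^ 71999
  nrm : F.sq hc ≤ n * t ^ 143999
  b1 : ∀ v v', |ip (E *ᵥ v) (VW hc hc *ᵥ (E *ᵥ v'))| ≤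
    t ^ 350000 * (nv v * nv v') + t ^ 287000 * (|ip x v| * |ip x v'| / n)
  b21 : OpLe (S.P (t ^ 198400) O * F') (t ^ 148700)
  b22 : OpLe (S.P (t ^ 139200) O * F') (t ^ 104300)
  b3 : OpLe (S.Nis O * F') (t⁻¹ ^ 3)
  b4 : OpLe (S.K0 O * (1 - S.P (t ^ 139200) O) * F') (t⁻¹ ^ 35000)
  b5 : OpLe (F' * S.K0 O * (1 - S.P (t ^ 139200) O) * F') (t ^ 60000)
  b6 : ∀ v, Rip.Spread (t⁻¹ ^ 10 * F.sq v) (n * t ^ 431000) (E *ᵥ v)

/-- the ball of radius `ρ` around `h ^ 3` -/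
def Ball (t : ℝ) (J : Mat n) (y h : Vec n) : Prop := nv (h - it J y 3) ≤ √n * t ^ 252000

/-- deterministic consequences (D6) -/
structure Out (t : ℝ) (S : Dat n) (O : OG n) : Prop where
  reg : ∀ h, Ball t (S.J O) (S.y O) h → Reg t (S.J O) (S.y O) h
  psi : ∀ h, Ball t (S.J O) (S.y O) h → nv (Psi (S.J O) (S.y O) h) ≤ √n * t ^ 107000
  unit : ∀ h, Ball t (S.J O) (S.y O) h → IsUnit (Lm (S.J O) h (zh (S.J O) h)).det
  gam : ∀ h, Ball t (S.J O) (S.y O) h →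
    OpLe (S.Nsq O * Gam (S.J O) h (zh (S.J O) h) * S.Nsq O) (t⁻¹ ^ 100)
  gm : ∀ h, Ball t (S.J O) (S.y O) h →
    OpLe (S.Nsq O * Gm (S.J O) h (zh (S.J O) h) * S.Nsq O) (t⁻¹ ^ 200)
  gamP : ∀ h, Ball t (S.J O) (S.y O) h →
    OpLe (S.P (t ^ 139200) O * S.Nsq O * (Gam (S.J O) h (zh (S.J O) h) - Gs (S.J O) (S.y O)) *
      S.Nsq O * S.P (t ^ 139200) O) (t ^ 3000)
  gmP : ∀ h, Ball t (S.J O) (S.y O) h →
    OpLe (S.P (t ^ 139200) O * S.Nsq O * (Gm (S.J O) h (zh (S.J O) h) - Gs (S.J O) (S.y O)) *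
      S.Nsq O * S.P (t ^ 139200) O) (t ^ 3000)
  stay : ∀ j, nv (S.h O (j + 3) - S.h O 3) ≤ √n * t ^ 260000
  step : ∀ j, nv (S.Nsq O *ᵥ (S.h O (j + 4) - S.h O (j + 3))) ≤ √n * t ^ (400000 + 1000 * j)
  res : ∀ j, nv (rs1 (S.J O) (S.y O) (S.h O (j + 3))) ≤ √n * t ^ (399000 + 1000 * j)
  close : ∀ h h', Ball t (S.J O) (S.y O) h → Ball t (S.J O) (S.y O) h' →
    nv (S.Nsq O *ᵥ (h - h')) ≤
      t⁻¹ ^ 100 * nv (S.Nis O *ᵥ (rs1 (S.J O) (S.y O) h - rs1 (S.J O) (S.y O) h'))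

/-! ### deterministic statements -/

/-- for every `L ≥ 2` and all small `t > 0` -/
def Ev (p : ℝ → ℝ → Prop) : Prop := ∀ L : ℝ, 2 ≤ L → ∀ᶠ t in 𝓝[>] (0 : ℝ), p L t

/-- (Z) identification of the saddle and location of `z(h)` -/
def ZStmt : Prop := Ev fun L t => ∀ (n : ℕ) (S : Dat n) (O : OG n), Adm L t S →
  zs (S.J O) (S.y O) = S.z0 ∧ G00 (S.J O) (S.y O) = JO S.g O ∧ w0 (S.J O) (S.y O) = S.w ∧
  T20 (S.J O) (S.y O) = ∑ a, S.g a ^ 2 ∧ 1 - L * t ^ 144000 ≤ S.w ∧ S.w ≤ 1 ∧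
  ∀ h : Vec n, |wb h - S.w| ≤ t ^ 144010 →
    (Nm (S.J O) (zh (S.J O) h)).PosDef ∧ res2 (S.J O) h (zh (S.J O) h) = 0 ∧
    |zh (S.J O) h - S.z0| ≤ t ^ 143999 * |wb h - S.w|

/-- (D1) exact increments -/
def D1Stmt : Prop := ∀ (n : ℕ) (J : Mat n) (y h h' : Vec n) (z z' : ℝ), 0 < n →
  (Nm J z).PosDef → (Nm J z').PosDef → res2 J h z = 0 → res2 J h' z' = 0 →
  chi h - chi h' = (wb h)⁻¹ • (VW h h' *ᵥ (h - h')) ∧
  wb h' - wb h = 2 / n * ip (mu h h') (h - h') ∧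
  z - z' = 2 / T2b J z z' * ip (mu h h') (h - h') ∧
  G0 J z *ᵥ res1 J y h z = wb h • h + (wb h • (1 : Mat n) - G0 J z) *ᵥ chi h - G0 J z *ᵥ y ∧
  G0 J z *ᵥ res1 J y h z - G0 J z' *ᵥ res1 J y h' z' =
    Mp J h h' z z' (G0 J z' *ᵥ res1 J y h' z') *ᵥ (h - h') ∧
  G0 J z *ᵥ (res1 J y h z - res1 J y h' z') = Mp J h h' z z' 0 *ᵥ (h - h') ∧
  Mp J h h z z 0 = G0 J z * Lm J h z

/-- (D2) bounds in the region `R`, with a free bound `r √n` of `p` -/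
def D2Stmt : Prop := Ev fun L t => ∀ (n : ℕ) (S : Dat n) (O : OG n) (h h' p : Vec n) (r : ℝ),
  Adm L t S → Reg t (S.J O) (S.y O) h → Reg t (S.J O) (S.y O) h' → 0 ≤ r → nv p ≤ √n * r →
  |wb h - S.w| ≤ t ^ 214900 ∧ |zh (S.J O) h - S.z0| ≤ t ^ 358800 ∧
  nv (tm h') ≤ √n * t ^ 71999 ∧ nv (mu h h') ≤ √n * t ^ 71999 ∧
  nv (S.Nsq O *ᵥ tm h') ≤ √n * t ^ 142900 ∧
  EE (S.J O) (S.y O) h h' p = (wb h - S.w) • (1 : Mat n) -
    (2 / (n * wb h')) • vecMulVec (tm h') (mu h h') +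
      G00 (S.J O) (S.y O) * RR (S.J O) (S.y O) h h' p ∧
  OpLe (RR (S.J O) (S.y O) h h' p) (t ^ 358000 + r * t ^ 215900) ∧
  OpLe (S.Nsq O * EE (S.J O) (S.y O) h h' p * S.Nis O) (t ^ 69000 + r * t⁻¹ ^ 72200) ∧
  OpLe (S.Nsq O * (Kt (S.J O) h (zh (S.J O) h) - S.K0 O) * S.Nsq O) (t ^ 70000) ∧
  OpLe (S.Nsq O * G0 (S.J O) (zh (S.J O) h) * S.Nsq O - 1) (t ^ 70000) ∧
  OpLe (S.Nsq O * ((2 / (n * wb h')) • vecMulVec (tm h') (mu h h')) * S.Nis O) (t ^ 70000)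

/-- (D2, preconditioner) -/
def AStmt : Prop := Ev fun L t => ∀ (n : ℕ) (S : Dat n) (O : OG n), Adm L t S →
  IsUnit (AA (S.J O) (S.y O)).det ∧ OpLe (AA (S.J O) (S.y O)) t⁻¹ ∧
  OpLe (AA (S.J O) (S.y O))⁻¹ t⁻¹ ∧ OpLe (S.Nsq O * AA (S.J O) (S.y O) * S.Nis O) t⁻¹ ∧
  OpLe (S.Nsq O * (AA (S.J O) (S.y O))⁻¹ * S.Nis O) 2 ∧
  OpLe (S.Nsq O * (AA (S.J O) (S.y O))⁻¹ * S.Nis O - S.Abi (t ^ 139200) O) (t ^ 74000) ∧
  OpLe (S.Abi (t ^ 139200) O) 2 ∧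
  S.Abi (t ^ 139200) O * S.P (t ^ 139200) O = S.P (t ^ 139200) O * S.Abi (t ^ 139200) O ∧
  (1 - S.P (t ^ 139200) O) * S.Abi (t ^ 139200) O = S.w⁻¹ • (1 - S.P (t ^ 139200) O) ∧
  OpLe (S.Nsq O * (AA (S.J O) (S.y O))⁻¹ * S.Nis O - S.Nsq O * Gs (S.J O) (S.y O) * S.Nsq O)
    (t ^ 143000) ∧ OpLe (S.Y O) 8

/-- (D4) perturbation of the reference point; E2 and the low part of E5 -/
def D4Stmt : Prop := Ev fun L t => ∀ (n : ℕ) (S : Dat n) (O : OG n) (hc : Vec n),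
  Adm L t S → StrW t S O hc →
  OpLe ((1 - S.P (t ^ 139200) O) * S.X0 O hc * (1 - S.P (t ^ 139200) O)) (t ^ 4000) ∧
  (∀ A : Finset (Fin n), (A.card : ℝ) ≤ n * t ^ 360000 →
    OpLe (S.P (t ^ 139200) O * S.IA O A) (t ^ 4000)) ∧
  ∀ h h' : Vec n, nv (h - hc) ≤ 2 * (√n * t ^ 252000) → nv (h' - hc) ≤ 2 * (√n * t ^ 252000) →
    ((spk (t ^ 71999) h h').card : ℝ) ≤ n * t ^ 360001 ∧
    ∃ d : Vec n, (∀ i, |d i| ≤ 1) ∧ (∀ i ∉ spk (t ^ 71999) h h', d i = 0) ∧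
      OpLe (S.Nis O * (VW h h' - VW hc hc - diagonal d) * S.Nis O) (t ^ 4000)

/-- (D5, D6) -/
def D6Stmt : Prop := Ev fun L t => ∀ (n : ℕ) (S : Dat n) (O : OG n),
  Adm L t S → Good t S O → Out t S O

/-- (D6 e) continuity of the centre in `(J, y)` -/
def CeStmt : Prop := ∃ q : ℕ, Ev fun L t => ∀ (n : ℕ) (S : Dat n) (O : OG n) (J' : Mat n)
  (y' : Vec n) (ε : ℝ), Adm L t S → Base t S O → J'ᵀ = J' → 0 ≤ ε → ε ≤ t ^ (2 * q) →
  OpLe (J' - S.J O) ε → nv (y' - S.y O) ≤ √n * ε →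
  nv (it J' y' 3 - S.h O 3) ≤ √n * (ε * t⁻¹ ^ q) ∧ |zs J' y' - S.z0| ≤ ε * t⁻¹ ^ q

/-- (D7) stability under a small rotation -/
def D7Stmt : Prop := Ev fun L t => ∀ (n : ℕ) (S : Dat n) (O U : OG n) (hc : Vec n),
  Adm L t S → StrA t (t ^ 4000) (t⁻¹ ^ 10) S O hc → Spr t t⁻¹ S O →
  OpLe (U.1 - 1) (t ^ 216000) → StrW t S (O * U) hc

/-! ### probabilistic statements -/

/-- a fibre law: only the sign vector `x` is explored and `O x = xt` -/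
structure FibL (μ : Measure (OG n)) (x xt : Vec n) : Prop where
  sgn : ∀ i, x i = 1 ∨ x i = -1
  prob : IsProbabilityMeasure μ
  explo : Explo μ (fun _ => rm 1 x)
  ae : ∀ᵐ O ∂μ, O.1 *ᵥ x = xt

/-- an exploration which contains the base program -/
structure BExp (t : ℝ) (S : Dat n) (μ : Measure (OG n)) (P E F' : OG n → Mat n) : Prop where
  explo : Explo μ P
  mE : Fib.MM E
  mF : Fib.MM F'
  aE : Adapted P E
  aF : Adapted P F'
  sum : ∀ O, E O + F' O = 1 - P O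
  mh : Measurable (S.hc t)
  ah : Adapted P (S.hc t)

/-- (X3) base program -/
def X3Stmt : Prop := ∃ C : ℕ, Ev fun L t => ∀ (n : ℕ) (S : Dat n) (x xt : Vec n)
  (μ : Measure (OG n)), Adm L t S → AdmX L t S xt → FibL μ x xt →
  ∃ P E F' : OG n → Mat n, BExp t S μ P E F' ∧
    μ.real {O | ¬(Base t S O ∧ BS t S O x (E O) (F' O) (S.hc t O))} ≤
      (n : ℝ) ^ C * Real.exp (-(n * t ^ 431998))

/-- (X4) compressions on the fibre of the base program -/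
def X4Stmt : Prop := ∃ C : ℕ, Ev fun L t => ∀ (n : ℕ) (S : Dat n) (x xt : Vec n)
  (μ : Measure (OG n)) (P E F' : OG n → Mat n), Adm L t S → AdmX L t S xt → FibL μ x xt →
  BExp t S μ P E F' →
    μ.real {O | BS t S O x (E O) (F' O) (S.hc t O) ∧
      ¬StrA t (t ^ 4000) (t⁻¹ ^ 10) S O (S.hc t O)} ≤ (n : ℝ) ^ C * Real.exp (-(n * t ^ 431998))

/-- (E8) spreading of the low modes -/
def SprStmt : Prop := ∃ C : ℕ, Ev fun L t => ∀ (n : ℕ) (S : Dat n) (x xt : Vec n)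
  (μ : Measure (OG n)), Adm L t S → FibL μ x xt →
    μ.real {O | ¬Spr t t⁻¹ S O} ≤ (n : ℝ) ^ C * Real.exp (-(n * t ^ 431998))

/-- THEOREM T1 -/
def T1Stmt : Prop := ∃ C : ℕ, Ev fun L t => ∀ (n : ℕ) (S : Dat n) (x xt : Vec n)
  (μ : Measure (OG n)), Adm L t S → AdmX L t S xt → FibL μ x xt →
    μ.real {O | ¬Good t S O} ≤ (n : ℝ) ^ C * Real.exp (-(n * t ^ 431998))

end Vale.Agent.N150.T1
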