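import Vale.Agent.N150.Adm1
import Vale.Agent.N150.T1Def
import Vale.Agent.N150.Path

/-! Admissible data: from bounds at the saddle, and along the cap flow. -/

open Real Finset Matrix

namespace Vale.Agent.N150.Adm

open Vale.Agent.N150.Edge Vale.Agent.P150
open Vale.Agent.P150.F (Mat Vec ip qf hsq OpLe)

variable {n : ℕ} {w s Z C L t z0 : ℝ} {lam mu yt xt : Fin n → ℝ}

/-- bounds at the saddle `z0`, at the scale `s` -/
structure Raw (C s : ℝ) (mu yt xt : Vec n) (z0 : ℝ) : Prop where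
  lo : 2 - s / 2 ≤ z0
  hi : z0 ≤ 2 + C * s
  sad : sadF mu yt z0 = n
  y2 : ∑ a, yt a ^ 2 / (z0 - mu a) ^ 2 ≤ C * (n * √s)
  y1 : ∑ a, yt a ^ 2 / (z0 - mu a) ≤ C * (n * s)
  nrm : F.sq xt = n
  x1 : ∑ a, xt a ^ 2 / (z0 - mu a) ≤ C * (n / √s)
  xy : |∑ a, xt a * yt a / (z0 - mu a)| ≤ C * (n * √s)

/-- the unit `t` fits the scale `s` up to a factor two -/
structure Fit (n : ℕ) (s t : ℝ) : Prop where
  pos : 0 < t
  half : t ≤ 1 / 2
  lo : t ^ 288000 ≤ 2 * s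
  hi : s ≤ 2 * t ^ 288000
  big : 1 ≤ n * t ^ 431998

lemma sqrt_pow_even (ht : 0 < t) (k : ℕ) : √(t ^ (2 * k)) = t ^ k := by
  rw [mul_comm, pow_mul, Real.sqrt_sq (pow_pos ht k).le]

lemma Fit.sq_eq (t : ℝ) : t ^ 288000 = (t ^ 144000) ^ 2 := by rw [← pow_mul]

lemma Fit.sqrt_hi (h : Fit n s t) : √s ≤ 3 / 2 * t ^ 144000 := by
  have h0 := pow_pos h.pos 144000
  have h1 := h.hi
  rw [Fit.sq_eq] at h1
  generalize t ^ 144000 = u at h0 h1 ⊢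
  rw [Real.sqrt_le_left (by positivity)]
  nlinarith

lemma Fit.sqrt_lo (h : Fit n s t) : t ^ 144000 ≤ 3 / 2 * √s := by
  have h0 := pow_pos h.pos 144000
  have h1 := h.lo
  rw [Fit.sq_eq] at h1
  generalize t ^ 144000 = u at h0 h1 ⊢
  have hs : 0 ≤ s := by nlinarith
  refine (pow_le_pow_iff_left₀ h0.le (by positivity) two_ne_zero).1 ?_
  rw [mul_pow, Real.sq_sqrt hs]
  linarith

lemma Fit.le_pow (h : Fit n s t) {k : ℕ} (hk : k + 1 ≤ 288000) : s ≤ t ^ k := by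
  have h1 : t ^ 288000 ≤ t ^ (k + 1) := pow_le_pow_of_le_one h.pos.le (by linarith [h.half]) hk
  have h2 := pow_pos h.pos k
  have h3 := h.hi
  rw [pow_succ t k] at h1
  generalize t ^ 288000 = u at h1 h3
  nlinarith [h.half]

lemma Fit.pow_le_one (h : Fit n s t) (k : ℕ) : t ^ k ≤ 1 :=
  pow_le_one₀ h.pos.le (by linarith [h.half])

/-- the data attached to a sandwiched spectrum -/
def dat (s z0 : ℝ) (mu yt : Vec n) : T1.Dat n := ⟨2 - s, z0, mu, yt⟩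

/-- all hypotheses of the passage from `Raw` to `Adm`; `u` is comparable with `√s` -/
structure Pre (C s Z L u w : ℝ) (lam mu yt xt : Vec n) (z0 : ℝ) : Prop where
  raw : Raw C s mu yt xt z0
  sand : Sand s Z lam mu
  std : Std n w s lam
  Z0 : 0 ≤ Z
  ZC : Z ≤ C
  C1 : 1 ≤ C
  hL : 12 * (1 + C) ^ 2 ≤ L
  u0 : 0 < u
  a1 : √s ≤ 3 / 2 * u
  a2 : u ≤ 3 / 2 * √s
  b1 : s ≤ 2 * u ^ 2
  b2 : u ^ 2 ≤ 2 * s

namespace Pre

variable {u : ℝ} (h : Pre C s Z L u w lam mu yt xt z0)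
include h

lemma L1 : 12 + 24 * C ≤ L := by nlinarith [h.hL, sq_nonneg C]

lemma gap (a : Fin n) : s / 2 ≤ z0 - mu a := by linarith [h.raw.lo, h.sand.le_top a]

lemma gap0 (a : Fin n) : 0 < z0 - mu a := by linarith [h.gap a, h.std.pos]

lemma k1 : u * (n / √s) ≤ 3 / 2 * n := by
  rw [← mul_div_assoc, div_le_iff₀ (Real.sqrt_pos.2 h.std.pos)]
  nlinarith [h.a2, Nat.cast_nonneg (α := ℝ) n]

lemma k3 : C * (n * √s) ≤ L * n * u := by
  have hn : (0 : ℝ) ≤ n := Nat.cast_nonneg n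
  have k2 : n * √s ≤ 3 / 2 * (n * u) := by nlinarith [h.a1]
  have : 0 ≤ n * u := mul_nonneg hn h.u0.le
  nlinarith [h.L1, h.C1]

lemma lo : (dat s z0 mu yt).gam + 2 * u ^ 2 / L ≤ (dat s z0 mu yt).z0 := by
  show 2 - s + 2 * u ^ 2 / L ≤ z0
  have : 2 * u ^ 2 / L ≤ s / 2 := by
    rw [div_le_iff₀ (by linarith [h.L1, h.C1])]
    nlinarith [h.b2, h.L1, h.C1, h.std.pos]
  linarith [h.raw.lo]

lemma hi : (dat s z0 mu yt).z0 ≤ (dat s z0 mu yt).gam + L * u ^ 2 := by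
  show z0 ≤ 2 - s + L * u ^ 2
  nlinarith [h.raw.hi, h.b1, h.L1, h.C1, sq_nonneg u]

omit h in
lemma ey : ∑ a, ((dat s z0 mu yt).g a * (dat s z0 mu yt).yt a) ^ 2
    = ∑ a, yt a ^ 2 / (z0 - mu a) ^ 2 := sum_congr rfl fun a _ => by
  show ((z0 - mu a)⁻¹ * yt a) ^ 2 = _
  rw [mul_pow, inv_pow]; ring

omit h in
lemma e2 : ∑ a, (dat s z0 mu yt).g a ^ 2 = tr 2 mu z0 := sum_congr rfl fun _ _ => inv_pow _ _

omit h in
lemma ex (v : Vec n) : ∑ a, (dat s z0 mu yt).g a * v a ^ 2 = ∑ a, v a ^ 2 / (z0 - mu a) :=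
  sum_congr rfl fun a _ => by
    show (z0 - mu a)⁻¹ * v a ^ 2 = _
    ring

lemma sad : ∑ a, (dat s z0 mu yt).g a + ∑ a, ((dat s z0 mu yt).g a * (dat s z0 mu yt).yt a) ^ 2
    = n := by
  rw [ey, ← h.raw.sad, sadF_eq]
  congr 1
  exact sum_congr rfl fun a _ => by rw [pow_one]; rfl

lemma card {σ ρ : ℝ} (hσ : s ≤ σ) (hρ : σ * √σ = ρ) :
    (((dat s z0 mu yt).low σ).card : ℝ) ≤ L * n * ρ := by
  refine (h.sand.card_le h.std hσ).trans ?_
  have h0 := h.std.pos.trans_le hσ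
  have : 0 ≤ n * (σ * √σ) := by positivity
  rw [← hρ]
  nlinarith [h.L1, h.C1]

lemma t2lo : (n : ℝ) ≤ L * u * ∑ a, (dat s z0 mu yt).g a ^ 2 := by
  rw [e2]
  have h0 := h.std.pos
  have hsq := Real.sqrt_pos.2 h0
  have hC := h.C1
  have hZ := h.Z0
  have h1 := h.sand.le_tr_two h.std (z := z0) (Y := C) (by linarith [h.raw.lo]) (by linarith) hZ
    h.raw.hi
  rw [div_le_iff₀ (by positivity), ← mul_div_assoc, div_le_iff₀ hsq] at h1
  have h2 : 0 ≤ tr 2 mu z0 := sum_nonneg fun a _ => by positivity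
  have h3 : (1 + (C + Z)) ^ 2 ≤ 4 * (1 + C) ^ 2 := by nlinarith [h.ZC]
  have h4 : (1 + (C + Z)) ^ 2 * √s ≤ 4 * (1 + C) ^ 2 * (3 / 2 * u) :=
    mul_le_mul h3 h.a1 hsq.le (by positivity)
  have h5 : 4 * (1 + C) ^ 2 * (3 / 2 * u) ≤ 7 / 10 * (L * u) := by
    nlinarith [sq_nonneg (1 + C), h.hL, h.u0]
  nlinarith [mul_le_mul_of_nonneg_left (h4.trans h5) h2]

lemma t2hi : u * ∑ a, (dat s z0 mu yt).g a ^ 2 ≤ L * n := by
  rw [e2]
  nlinarith [mul_le_mul_of_nonneg_left (h.sand.tr_two_le h.std h.raw.lo) h.u0.le, h.k1, h.L1, h.C1,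
    Nat.cast_nonneg (α := ℝ) n]

lemma trlo {σ v : ℝ} (hσ : s ≤ σ) (h1 : σ ≤ 1) (hv : √σ = v) :
    ∑ a ∈ (dat s z0 mu yt).low σ, (dat s z0 mu yt).g a ≤ L * n * v := by
  have h2 := h.sand.tr_low h.std h.raw.lo hσ h1
  unfold T1.Dat.low
  rw [sum_filter, ← hv]
  refine le_trans h2 ?_
  have : 0 ≤ n * √σ := by positivity
  nlinarith [h.L1, h.C1]

lemma trhi {σ v : ℝ} (hσ : s ≤ σ) (h1 : σ ≤ 1) (hv : √σ = v) :
    v * ∑ a ∈ ((dat s z0 mu yt).low σ)ᶜ, (dat s z0 mu yt).g a ^ 2 ≤ L * n := by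
  have h2 := h.sand.tr_high h.std h.raw.lo hσ (by linarith)
  have v0 := Real.sqrt_pos.2 (h.std.pos.trans_le hσ)
  have e : ∑ a ∈ ((dat s z0 mu yt).low σ)ᶜ, (dat s z0 mu yt).g a ^ 2
      = ∑ a, (if 2 - s - mu a ≤ σ then 0 else ((z0 - mu a) ^ 2)⁻¹) := by
    unfold T1.Dat.low
    rw [compl_filter, sum_filter]
    refine sum_congr rfl fun a _ => ?_
    show (if ¬ (2 - s - mu a ≤ σ) then ((z0 - mu a)⁻¹) ^ 2 else 0) = _
    rw [ite_not, inv_pow]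
  rw [e, ← hv]
  have h3 := mul_le_mul_of_nonneg_left h2 v0.le
  have h4 : √σ * (12 * (n / √σ)) = 12 * n := by field_simp
  nlinarith [h.L1, h.C1, Nat.cast_nonneg (α := ℝ) n]

lemma y2 : ∑ a, ((dat s z0 mu yt).g a * (dat s z0 mu yt).yt a) ^ 2 ≤ L * n * u := by
  rw [ey]
  exact h.raw.y2.trans h.k3

lemma y1 : ∑ a, (dat s z0 mu yt).g a * (dat s z0 mu yt).yt a ^ 2 ≤ L * n * u ^ 2 := by
  rw [ex]
  refine h.raw.y1.trans ?_
  have hn : (0 : ℝ) ≤ n := Nat.cast_nonneg n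
  have h1 : n * s ≤ 2 * (n * u ^ 2) := by nlinarith [h.b1]
  have : 0 ≤ n * u ^ 2 := by positivity
  nlinarith [h.L1, h.C1]

lemma x1 : u * ∑ a, (dat s z0 mu yt).g a * xt a ^ 2 ≤ L * n := by
  rw [ex]
  nlinarith [mul_le_mul_of_nonneg_left h.raw.x1 h.u0.le, h.k1, h.L1, h.C1,
    Nat.cast_nonneg (α := ℝ) n]

lemma x2 : u ^ 3 * ∑ a, ((dat s z0 mu yt).g a * xt a) ^ 2 ≤ L * n := by
  have h1 : s * ∑ a, ((dat s z0 mu yt).g a * xt a) ^ 2 ≤ 2 * ∑ a, xt a ^ 2 / (z0 - mu a) := by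
    rw [mul_sum, mul_sum]
    refine sum_le_sum fun a _ => ?_
    show s * ((z0 - mu a)⁻¹ * xt a) ^ 2 ≤ _
    have a1 := h.gap0 a
    have a2 : s * (z0 - mu a)⁻¹ ≤ 2 := by
      rw [← div_eq_mul_inv, div_le_iff₀ a1]; linarith [h.gap a]
    have a3 : 0 ≤ xt a ^ 2 / (z0 - mu a) := by positivity
    calc _ = s * (z0 - mu a)⁻¹ * (xt a ^ 2 / (z0 - mu a)) := by rw [div_eq_mul_inv]; ring
      _ ≤ _ := mul_le_mul_of_nonneg_right a2 a3
  have h2 : 0 ≤ ∑ a, ((dat s z0 mu yt).g a * xt a) ^ 2 := sum_nonneg fun a _ => sq_nonneg _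
  have h3 := mul_le_mul_of_nonneg_right h.b2 h2
  have h4 : u ^ 2 * ∑ a, ((dat s z0 mu yt).g a * xt a) ^ 2 ≤ 4 * (C * (n / √s)) := by
    nlinarith [h.raw.x1]
  nlinarith [mul_le_mul_of_nonneg_left h4 h.u0.le, h.k1, h.L1, h.C1, Nat.cast_nonneg (α := ℝ) n]

lemma xy : |∑ a, xt a * ((dat s z0 mu yt).g a * (dat s z0 mu yt).yt a)| ≤ L * n * u := by
  have e : ∑ a, xt a * ((dat s z0 mu yt).g a * (dat s z0 mu yt).yt a)
      = ∑ a, xt a * yt a / (z0 - mu a) := sum_congr rfl fun a _ => by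
    show xt a * ((z0 - mu a)⁻¹ * yt a) = _
    ring
  rw [e]
  exact h.raw.xy.trans h.k3

end Pre

theorem Raw.adm (h : Raw C s mu yt xt z0) (hS : Sand s Z lam mu) (H : Std n w s lam)
    (hZ0 : 0 ≤ Z) (hZ : Z ≤ C) (hZs : Z * s ≤ 1) (hC : 1 ≤ C) (hL : 12 * (1 + C) ^ 2 ≤ L)
    (f : Fit n s t) :
    T1.Adm L t (dat s z0 mu yt) ∧ T1.AdmX L t (dat s z0 mu yt) xt := by
  have e := Fit.sq_eq t
  have p : Pre C s Z L (t ^ 144000) w lam mu yt xt z0 :=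
    ⟨h, hS, H, hZ0, hZ, hC, hL, pow_pos f.pos _, f.sqrt_hi, f.sqrt_lo, e ▸ f.hi, e ▸ f.lo⟩
  have r1 : √(t ^ 139200) = t ^ 69600 := sqrt_pow_even f.pos 69600
  have r2 : √(t ^ 198400) = t ^ 99200 := sqrt_pow_even f.pos 99200
  have s1 := f.le_pow (k := 139200) (by norm_num)
  have s2 := f.le_pow (k := 198400) (by norm_num)
  refine ⟨⟨f.big, ?_, ?_, p.sad, hS.le_top, fun a => hS.eps_le H hZs a,
    p.card s2 (by rw [r2, ← pow_add]), p.card s1 (by rw [r1, ← pow_add]), p.t2lo, p.t2hi,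
    p.trlo s1 (f.pow_le_one _) r1, p.trhi s1 (f.pow_le_one _) r1, p.y2, ?_⟩,
    ⟨h.nrm, p.x1, ?_, p.xy⟩⟩
  · rw [e]; exact p.lo
  · rw [e]; exact p.hi
  · rw [e]; exact p.y1
  · rw [show t ^ 432000 = (t ^ 144000) ^ 3 by rw [← pow_mul]]; exact p.x2

lemma div_pow_anti {z z' : ℝ} (j : ℕ) (v : Vec n) (hz : ∀ a, mu a < z) (h : z ≤ z') :
    ∑ a, v a ^ 2 / (z' - mu a) ^ j ≤ ∑ a, v a ^ 2 / (z - mu a) ^ j :=
  sum_le_sum fun a _ => div_le_div_of_nonneg_left (sq_nonneg _) (pow_pos (sub_pos.2 (hz a)) _)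
    (pow_le_pow_left₀ (sub_pos.2 (hz a)).le (by linarith) j)

lemma sadF_anti {z z' : ℝ} (hz : ∀ a, mu a < z) (h : z ≤ z') : sadF mu yt z' ≤ sadF mu yt z := by
  rw [sadF_eq, sadF_eq]
  exact add_le_add (tr_anti 1 hz h) (div_pow_anti 2 yt hz h)

/-- a saddle between a strict subsolution and a supersolution -/
lemma exists_root (hn : 0 < n) {z1 z2 : ℝ} (h2 : ∀ a, mu a < z2) (k1 : (n : ℝ) < sadF mu yt z1)
    (k2 : sadF mu yt z2 ≤ n) : ∃ z, z1 ≤ z ∧ z ≤ z2 ∧ sadF mu yt z = n := by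
  have hn0 : (0 : ℝ) < n := by exact_mod_cast hn
  obtain ⟨z, a1, a2, a3⟩ := exists_saddle hn hn0 h2 k2
  refine ⟨z, ?_, a2, a3⟩
  by_contra hc
  have : (0 : ℝ) < 1 / n := by positivity
  linarith [sadF_anti (yt := yt) (fun a => by linarith [a1 a] : ∀ a, mu a < z) (not_le.1 hc).le]

lemma abs_sum_div_le (u v d : Vec n) (hd : ∀ a, 0 < d a) :
    |∑ a, u a * v a / d a| ≤ √((∑ a, u a ^ 2 / d a) * ∑ a, v a ^ 2 / d a) := by
  refine Real.abs_le_sqrt ?_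
  have h := sum_mul_sq_le_sq_mul_sq univ (fun a => u a / √(d a)) fun a => v a / √(d a)
  simp only [div_pow, Real.sq_sqrt (hd _).le, div_mul_div_comm, Real.mul_self_sqrt (hd _).le] at h
  exact h

/-- the clipped spectrum -/
theorem raw_cap (H : Std n w s lam) (hy : F.sq yt ≤ 1 / 2 * (s * (n * (s * √s))))
    (hx : F.sq xt = n) (hm : ∑ a, xt a ^ 2 / max (2 - lam a) s ≤ 3 * (n / √s)) :
    ∃ z0, Raw 8 s (Cap.lamC lam s) yt xt z0 := by
  have h0 := H.pos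
  have hn : (0 : ℝ) ≤ n := Nat.cast_nonneg n
  have hsq := Real.sqrt_pos.2 h0
  have hS : Sand s 2 lam (Cap.lamC lam s) := sand_clip H
  have hd : ∀ (j : ℕ) (z : ℝ), 2 - s / 2 ≤ z →
      ∑ a, yt a ^ 2 / (z - Cap.lamC lam s a) ^ j ≤ F.sq yt / (z - (2 - s)) ^ j := fun j z hz => by
    unfold F.sq
    rw [sum_div]
    exact sum_le_sum fun a _ => div_le_div_of_nonneg_left (sq_nonneg _)
      (pow_pos (by linarith) _) (pow_le_pow_left₀ (by linarith) (by linarith [hS.le_top a]) j)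
  have hu : 0 < n * √s := mul_pos (by exact_mod_cast H.hn) hsq
  obtain ⟨z, a1, a2, a3⟩ := exists_root (mu := Cap.lamC lam s) (yt := yt) H.hn
    (z1 := 2 - s / 2) (z2 := 2 + 2 * (4 * s)) (fun a => by linarith [hS.le_top a])
    (by
      rw [sadF_eq]
      have b1 : n + 1 / 50 * (n * √s) ≤ tr 1 (Cap.lamC lam s) (2 - s / 2) := H.clip_half
      have b2 : 0 ≤ ∑ a, yt a ^ 2 / (2 - s / 2 - Cap.lamC lam s a) ^ 2 :=
        sum_nonneg fun a _ => by positivity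
      linarith)
    (by
      rw [sadF_eq]
      have b1 := hS.tr_one_le H (r := 4 * s) (by linarith) (by linarith [H.hi])
      rw [Real.sqrt_mul (by norm_num), show √(4 : ℝ) = 2 by
        rw [show (4 : ℝ) = 2 ^ 2 by norm_num, Real.sqrt_sq (by norm_num)]] at b1
      have b2 := hd 2 (2 + 2 * (4 * s)) (by linarith)
      have b3 : F.sq yt / (2 + 2 * (4 * s) - (2 - s)) ^ 2 ≤ 1 / 2 * (n * √s) := by
        rw [div_le_iff₀ (pow_pos (by linarith) _)]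
        nlinarith [mul_pos hu (mul_pos h0 h0)]
      linarith)
  have hg : ∀ a, 0 < z - Cap.lamC lam s a := fun a => by linarith [hS.le_top a]
  have y1 : ∑ a, yt a ^ 2 / (z - Cap.lamC lam s a) ≤ n * (s * √s) := by
    have b := hd 1 z a1
    simp only [pow_one] at b
    refine b.trans ?_
    rw [div_le_iff₀ (by linarith)]
    nlinarith [mul_pos hu h0]
  have x1 : ∑ a, xt a ^ 2 / (z - Cap.lamC lam s a) ≤ 6 * (n / √s) := by
    refine le_trans ?_ (by linarith : 2 * ∑ a, xt a ^ 2 / max (2 - lam a) s ≤ _)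
    rw [mul_sum]
    refine sum_le_sum fun a _ => ?_
    have b1 := Cap.two_sub_lamC lam s a
    have b2 := le_max_right (2 - lam a) s
    rw [← mul_div_assoc, div_le_div_iff₀ (hg a) (by linarith)]
    nlinarith [sq_nonneg (xt a)]
  refine ⟨z, a1, by linarith, a3, (hd 2 z a1).trans ?_, y1.trans ?_, hx, x1.trans ?_,
    (abs_sum_div_le _ _ _ hg).trans ?_⟩
  · rw [div_le_iff₀ (pow_pos (by linarith) _)]
    have b : (s / 2) ^ 2 ≤ (z - (2 - s)) ^ 2 := pow_le_pow_left₀ (by linarith) (by linarith) 2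
    nlinarith [mul_le_mul_of_nonneg_left b hu.le, mul_pos hu (mul_pos h0 h0)]
  · nlinarith [mul_le_mul_of_nonneg_left H.sqrt_le (mul_nonneg hn h0.le), mul_nonneg hn h0.le]
  · have : 0 ≤ n / √s := by positivity
    linarith
  · rw [Real.sqrt_le_left (by positivity)]
    refine (mul_le_mul x1 y1 (sum_nonneg fun a _ => div_nonneg (sq_nonneg _) (hg a).le)
      (by positivity)).trans ?_
    have e : 6 * (n / √s) * (n * (s * √s)) = 6 * (n ^ 2 * s) := by field_simp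
    rw [e, mul_pow, mul_pow, Real.sq_sqrt h0.le]
    nlinarith [mul_nonneg (sq_nonneg (n : ℝ)) h0.le]

/-- **admissibility along the cap flow** -/
theorem adm_cap {ε : ℝ} {tt : ℕ → ℝ} {k0 N k : ℕ} {x : Vec n} {y : ℕ → Vec n}
    (h : Path.CapGood lam ε tt k0 N x y) (hε : ε ≤ 1 / 1000) (h1 : k0 ≤ k) (h2 : k ≤ N)
    (H : Std n w (tt k) lam) (f : Fit n (tt k) t) (hL : 1000 ≤ L) :
    ∃ z0, Raw 8 (tt k) (Cap.lamC lam (tt k)) (y k) x z0 ∧
      T1.Adm L t (dat (tt k) z0 (Cap.lamC lam (tt k)) (y k)) ∧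
      T1.AdmX L t (dat (tt k) z0 (Cap.lamC lam (tt k)) (y k)) x := by
  obtain ⟨z0, hz⟩ := raw_cap H (h.sq_le hε h1 h2 H.pos) h.sqx (h.tm k h1 h2)
  exact ⟨z0, hz, hz.adm (sand_clip H) H (by norm_num) (by norm_num) (by linarith [H.hi])
    (by norm_num) (by linarith) f⟩

/-- the exact unit of a scale -/
lemma fit_rpow (hs : 0 < s) (h1 : s ^ (288000 : ℝ)⁻¹ ≤ 1 / 2)
    (h2 : 1 ≤ n * (s ^ (288000 : ℝ)⁻¹) ^ 431998) :
    Fit n s (s ^ (288000 : ℝ)⁻¹) ∧ (s ^ (288000 : ℝ)⁻¹) ^ 288000 = s := by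
  have e : (s ^ (288000 : ℝ)⁻¹) ^ 288000 = s := by
    have := Real.rpow_inv_natCast_pow hs.le (n := 288000) (by norm_num)
    simpa using this
  exact ⟨⟨Real.rpow_pos_of_pos hs _, h1, by rw [e]; linarith, by rw [e]; linarith, h2⟩, e⟩

end Vale.Agent.N150.Adm
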