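import Mathlib
import Vale.Agent.P150.Bdl.B21
import Vale.Agent.N150.Haar0
import Vale.Agent.N150.SphTilt

/-! The planted law of a Haar rotation and cube spins, the spherical Gibbs law of the frame
variables, and the quenched, transfer and symmetry inequalities at one state. -/

open MeasureTheory ProbabilityTheory Matrix
open scoped ENNReal

namespace Vale.Agent.N150.Plant

open Vale.Agent.P150 Vale.Agent.P150.F

variable {n m : ℕ}

/-- energy in frame coordinates -/
noncomputable def HM (M : Mat n) (y u : Vec n) : ℝ := qf M u / 2 + ip y u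

/-- spherical integral for a general frame matrix -/
noncomputable def ISM (M : Mat n) (y : Vec n) : ℝ := ∫ u, Real.exp (HM M y u) ∂(sph n n)

/-- frame coordinates of the spins -/
def xt (O : OG n) (x : Cfg n) : Vec n := O.1 *ᵥ sv x

/-- site form of a frame matrix -/
def Jr (O : OG n) (M : Mat n) : Mat n := O.1ᵀ * M * O.1

/-- partition function of the cube -/
noncomputable def Zc (M : Mat n) (y : Vec n) (O : OG n) : ℝ := ∑ x, Real.exp (HM M y (xt O x))

/-- likelihood ratio `Z / E Z` -/
noncomputable def LR (M : Mat n) (y : Vec n) (O : OG n) : ℝ := Zc M y O / (2 ^ n * ISM M y)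

/-- the planted law of the rotation and the spins -/
noncomputable def plM (M : Mat n) (y : Vec n) : Measure (OG n × Cfg n) :=
  ((haar n).prod Measure.count).withDensity fun p =>
    ENNReal.ofReal (Real.exp (HM M y (xt p.1 p.2)) / (2 ^ n * ISM M y))

/-- the spherical Gibbs law -/
noncomputable def spM (M : Mat n) (y : Vec n) : Measure (Vec n) :=
  (sph n n).withDensity fun u => ENNReal.ofReal (Real.exp (HM M y u) / ISM M y)

/-! ### dictionary -/

theorem HM_diag (lam y u : Vec n) : HM (diagonal lam) y u = HE lam y u := by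
  unfold HM HE qf ip
  congr 2
  refine Finset.sum_congr rfl fun a _ => ?_
  rw [Matrix.mulVec_diagonal]
  ring

theorem ISM_diag (lam y : Vec n) : ISM (diagonal lam) y = IS lam y := by
  unfold ISM IS
  simp only [HM_diag]

theorem sq_sv (x : Cfg n) : F.sq (sv x) = n := by
  unfold F.sq sv
  simp only [pow_two, sp_sq]
  simp

theorem sq_xt (O : OG n) (x : Cfg n) : F.sq (xt O x) = n := by
  unfold xt
  rw [sq_mulVec_orth (OG.transpose_mul O), sq_sv]

theorem tr_xt (O : OG n) (x : Cfg n) : O.1ᵀ *ᵥ xt O x = sv x := OG.tr_mulVec_mulVec O _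

theorem xt_mul (R O : OG n) (x : Cfg n) : xt (R * O) x = R.1 *ᵥ xt O x := by
  unfold xt
  rw [OG.coe_mul, Matrix.mulVec_mulVec]

theorem ip_tr (A : Mat n) (y v : Vec n) : ip (Aᵀ *ᵥ y) v = ip y (A *ᵥ v) := by
  rw [ip_eq_dot, ip_eq_dot, Matrix.dotProduct_mulVec, Matrix.mulVec_transpose]

theorem qf_conj (A M : Mat n) (v : Vec n) : qf (Aᵀ * M * A) v = qf M (A *ᵥ v) := by
  unfold qf
  rw [← Matrix.mulVec_mulVec, ← Matrix.mulVec_mulVec, ip_comm', ip_tr, ip_comm']

theorem HM_site (M : Mat n) (y : Vec n) (O : OG n) (x : Cfg n) :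
    qf (Jr O M) (sv x) / 2 + ip (O.1ᵀ *ᵥ y) (sv x) = HM M y (xt O x) := by
  unfold Jr HM xt
  rw [qf_conj, ip_tr]

theorem gM_rot (M : Mat n) (y : Vec n) (O : OG n) (x : Cfg n) :
    gM (Jr O M) (O.1ᵀ *ᵥ y) x = Real.exp (HM M y (xt O x)) / Zc M y O := by
  unfold gM Zc
  simp only [HM_site]

theorem Jr_mul (R O : OG n) (M : Mat n) : Jr (R * O) M = Jr O (Jr R M) := by
  unfold Jr
  rw [OG.coe_mul, Matrix.transpose_mul]
  simp only [Matrix.mul_assoc]

theorem HM_mulVec (R : OG n) (M : Mat n) (y u : Vec n) :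
    HM M y (R.1 *ᵥ u) = HM (Jr R M) (R.1ᵀ *ᵥ y) u := by
  unfold HM Jr
  rw [qf_conj, ip_tr]

@[fun_prop] theorem continuous_HM (M : Mat n) (y : Vec n) : Continuous (HM M y) := by
  unfold HM qf ip Matrix.mulVec dotProduct
  fun_prop

theorem measurable_HM3 {α : Type*} [MeasurableSpace α] {M : α → Mat n} {y u : α → Vec n}
    (hM : ∀ i j, Measurable fun a => M a i j) (hy : ∀ i, Measurable fun a => y a i)
    (hu : Measurable u) : Measurable fun a => HM (M a) (y a) (u a) := by
  have hu' : ∀ i, Measurable fun a => u a i := fun i => (measurable_pi_apply i).comp hu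
  unfold HM qf ip Matrix.mulVec dotProduct
  refine Measurable.add (Measurable.div_const ?_ _) ?_
  · refine Finset.measurable_fun_sum _ fun i _ => (hu' i).mul ?_
    exact Finset.measurable_fun_sum _ fun j _ => (hM i j).mul (hu' j)
  · exact Finset.measurable_fun_sum _ fun i _ => (hy i).mul (hu' i)

theorem measurable_xt : Measurable fun p : OG n × Cfg n => xt p.1 p.2 :=
  measurable_mulVecG measurable_fst ((measurable_of_countable sv).comp measurable_snd)

theorem measurable_xt_left (x : Cfg n) : Measurable fun O : OG n => xt O x :=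
  measurable_mulVecG measurable_id measurable_const

theorem continuous_xt (x : Cfg n) : Continuous fun O : OG n => xt O x :=
  continuous_val.matrix_mulVec continuous_const

theorem integrable_exp_HM (M : Mat n) (y : Vec n) :
    Integrable (fun u => Real.exp (HM M y u)) (sph n n) :=
  integrable_sph (Nat.cast_nonneg n) (by fun_prop)

theorem ISM_pos (M : Mat n) (y : Vec n) : 0 < ISM M y := integral_exp_pos (integrable_exp_HM M y)

theorem ofReal_ISM (M : Mat n) (y : Vec n) :
    ENNReal.ofReal (ISM M y) = ∫⁻ u, ENNReal.ofReal (Real.exp (HM M y u)) ∂(sph n n) :=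
  ofReal_integral_eq_lintegral_ofReal (integrable_exp_HM M y)
    (ae_of_all _ fun _ => (Real.exp_pos _).le)

theorem measurable_ISM {α : Type*} [MeasurableSpace α] {M : α → Mat n} {y : α → Vec n}
    (hM : ∀ i j, Measurable fun a => M a i j) (hy : ∀ i, Measurable fun a => y a i) :
    Measurable fun a => ISM (M a) (y a) := by
  have h : Measurable fun p : α × Vec n => Real.exp (HM (M p.1) (y p.1) p.2) :=
    Real.measurable_exp.comp (measurable_HM3 (fun i j => (hM i j).comp measurable_fst)
      (fun i => (hy i).comp measurable_fst) measurable_snd)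
  exact (h.stronglyMeasurable.integral_prod_right').measurable

theorem Zc_pos (M : Mat n) (y : Vec n) (O : OG n) : 0 < Zc M y O :=
  Finset.sum_pos (fun _ _ => Real.exp_pos _) Finset.univ_nonempty

theorem nrm_pos (M : Mat n) (y : Vec n) : 0 < 2 ^ n * ISM M y :=
  mul_pos (by positivity) (ISM_pos M y)

theorem LR_pos (M : Mat n) (y : Vec n) (O : OG n) : 0 < LR M y O :=
  div_pos (Zc_pos M y O) (nrm_pos M y)

theorem continuous_Zc (M : Mat n) (y : Vec n) : Continuous (Zc M y) := by
  unfold Zc
  exact continuous_finsetSum _ fun x _ =>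
    Real.continuous_exp.comp ((continuous_HM M y).comp (continuous_xt x))

theorem continuous_LR (M : Mat n) (y : Vec n) : Continuous (LR M y) :=
  (continuous_Zc M y).div_const _

theorem dens_eq (M : Mat n) (y : Vec n) (O : OG n) (x : Cfg n) :
    Real.exp (HM M y (xt O x)) / (2 ^ n * ISM M y) = LR M y O * gM (Jr O M) (O.1ᵀ *ᵥ y) x := by
  rw [gM_rot]
  unfold LR
  have h1 := (Zc_pos M y O).ne'
  have h2 := (nrm_pos M y).ne'
  field_simp

/-! ### a Haar rotation of a fixed vector is uniform on its sphere -/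

theorem lint_haar_sph (v : Vec n) {G : Vec n → ℝ≥0∞} (hG : Measurable G) :
    ∫⁻ O, G (O.1 *ᵥ v) ∂haar n = ∫⁻ u, G u ∂sph n (F.sq v) := by
  rcases Nat.eq_zero_or_pos n with rfl | hn
  · have e : ∀ a : Vec 0, G a = G v := fun a => congrArg G (Subsingleton.elim _ _)
    simp only [e, lintegral_const, measure_univ]
  have hm : Measurable fun p : Vec n × OG n => G (p.2.1 *ᵥ p.1) :=
    hG.comp (measurable_mulVecG measurable_snd measurable_fst)
  have h1 : ∫⁻ u, ∫⁻ O, G (O.1 *ᵥ u) ∂haar n ∂sph n (F.sq v) = ∫⁻ O, G (O.1 *ᵥ v) ∂haar n := by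
    rw [lintegral_congr_ae (g := fun _ => ∫⁻ O, G (O.1 *ᵥ v) ∂haar n)]
    · simp only [lintegral_const, measure_univ, mul_one]
    filter_upwards [ae_sph hn (sq_nonneg' v)] with u hu
    obtain ⟨U, hU, hUv⟩ := exists_orth_one hu.symm
    have h := invOn_haar.lint_right (g := OG.mk' U (mul_eq_one_comm.1 hU)) (Subgroup.mem_top _)
      (f := fun O => G (O.1 *ᵥ v)) (hG.comp (measurable_mulVecG measurable_id measurable_const))
    rw [← h]
    refine lintegral_congr fun O => ?_
    rw [OG.coe_mul, OG.mk'_val, ← Matrix.mulVec_mulVec, hUv]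
  rw [← h1, lintegral_lintegral_swap hm.aemeasurable]
  rw [lintegral_congr (g := fun _ => ∫⁻ u, G u ∂sph n (F.sq v))]
  · simp only [lintegral_const, measure_univ, mul_one]
  intro O
  exact (mp_sph (OG.transpose_mul O) _).lintegral_comp hG

theorem lint_haar_xt (x : Cfg n) {G : Vec n → ℝ≥0∞} (hG : Measurable G) :
    ∫⁻ O, G (xt O x) ∂haar n = ∫⁻ u, G u ∂sph n n := by
  have h := lint_haar_sph (sv x) hG
  rwa [sq_sv] at h

/-! ### integrals against the planted and the spherical law -/

theorem measurable_dens (M : Mat n) (y : Vec n) : Measurable fun p : OG n × Cfg n =>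
    ENNReal.ofReal (Real.exp (HM M y (xt p.1 p.2)) / (2 ^ n * ISM M y)) :=
  ENNReal.measurable_ofReal.comp
    ((Real.measurable_exp.comp ((continuous_HM M y).measurable.comp measurable_xt)).div_const _)

theorem measurable_sdens (M : Mat n) (y : Vec n) : Measurable fun u : Vec n =>
    ENNReal.ofReal (Real.exp (HM M y u) / ISM M y) :=
  ENNReal.measurable_ofReal.comp
    ((Real.measurable_exp.comp (continuous_HM M y).measurable).div_const _)

theorem lint_plM (M : Mat n) (y : Vec n) {G : OG n × Cfg n → ℝ≥0∞} (hG : Measurable G) :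
    ∫⁻ p, G p ∂plM M y = ∫⁻ O, ∑ x,
      ENNReal.ofReal (Real.exp (HM M y (xt O x)) / (2 ^ n * ISM M y)) * G (O, x) ∂haar n := by
  unfold plM
  rw [lintegral_withDensity_eq_lintegral_mul _ (measurable_dens M y) hG,
    lintegral_prod _ ((measurable_dens M y).mul hG).aemeasurable]
  refine lintegral_congr fun O => ?_
  rw [lintegral_count, tsum_fintype]
  rfl

/-- the planted law is the Haar law with density `LR`, followed by the Gibbs law of the spins -/
theorem lint_plM' (M : Mat n) (y : Vec n) {G : OG n × Cfg n → ℝ≥0∞} (hG : Measurable G) :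
    ∫⁻ p, G p ∂plM M y = ∫⁻ O, ENNReal.ofReal (LR M y O) *
      ∑ x, ENNReal.ofReal (gM (Jr O M) (O.1ᵀ *ᵥ y) x) * G (O, x) ∂haar n := by
  rw [lint_plM M y hG]
  refine lintegral_congr fun O => ?_
  rw [Finset.mul_sum]
  refine Finset.sum_congr rfl fun x _ => ?_
  rw [dens_eq, ENNReal.ofReal_mul (LR_pos M y O).le, mul_assoc]

theorem sum_ofReal_gM (J : Mat n) (y : Vec n) : ∑ x, ENNReal.ofReal (gM J y x) = 1 := by
  rw [← ENNReal.ofReal_sum_of_nonneg fun x _ => (gM_pos J y x).le, gM_sum, ENNReal.ofReal_one]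

theorem lint_plM_fst (M : Mat n) (y : Vec n) {G : OG n → ℝ≥0∞} (hG : Measurable G) :
    ∫⁻ p, G p.1 ∂plM M y = ∫⁻ O, ENNReal.ofReal (LR M y O) * G O ∂haar n := by
  rw [lint_plM' M y (G := fun p => G p.1) (hG.comp measurable_fst)]
  refine lintegral_congr fun O => ?_
  dsimp only
  rw [← Finset.sum_mul, sum_ofReal_gM, one_mul]

theorem lint_spM (M : Mat n) (y : Vec n) {G : Vec n → ℝ≥0∞} (hG : Measurable G) :
    ∫⁻ u, G u ∂spM M y =
      ∫⁻ u, ENNReal.ofReal (Real.exp (HM M y u) / ISM M y) * G u ∂sph n n := by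
  unfold spM
  rw [lintegral_withDensity_eq_lintegral_mul _ (measurable_sdens M y) hG]
  rfl

theorem card_Cfg : Fintype.card (Cfg n) = 2 ^ n := by simp

/-- under the planted law the frame spins have the spherical Gibbs law -/
theorem lint_plM_xt (M : Mat n) (y : Vec n) {G : Vec n → ℝ≥0∞} (hG : Measurable G) :
    ∫⁻ p, G (xt p.1 p.2) ∂plM M y = ∫⁻ u, G u ∂spM M y := by
  have hm : Measurable fun u : Vec n =>
      ENNReal.ofReal (Real.exp (HM M y u) / (2 ^ n * ISM M y)) * G u :=
    (ENNReal.measurable_ofReal.comp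
      ((Real.measurable_exp.comp (continuous_HM M y).measurable).div_const _)).mul hG
  rw [lint_plM M y (G := fun p => G (xt p.1 p.2)) (hG.comp measurable_xt), lint_spM M y hG,
    lintegral_finsetSum (f := fun x O =>
      ENNReal.ofReal (Real.exp (HM M y (xt O x)) / (2 ^ n * ISM M y)) * G (xt O x)) _
      fun x _ => hm.comp (measurable_xt_left x)]
  have e : ∀ x : Cfg n, ∫⁻ O, ENNReal.ofReal (Real.exp (HM M y (xt O x)) / (2 ^ n * ISM M y)) *
      G (xt O x) ∂haar n = _ := fun x => lint_haar_xt x hm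
  simp only [e]
  rw [Finset.sum_const, Finset.card_univ, card_Cfg, nsmul_eq_mul, ← lintegral_const_mul _ hm]
  refine lintegral_congr fun u => ?_
  rw [← mul_assoc]
  congr 1
  rw [← ENNReal.ofReal_natCast, ← ENNReal.ofReal_mul (Nat.cast_nonneg _)]
  congr 1
  have h1 := (ISM_pos M y).ne'
  push_cast
  field_simp

instance (M : Mat n) (y : Vec n) : IsProbabilityMeasure (spM M y) := by
  refine ⟨?_⟩
  have h := lint_spM M y (G := fun _ => 1) measurable_const
  simp only [lintegral_const, one_mul, mul_one] at h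
  rw [h]
  simp only [ENNReal.ofReal_div_of_pos (ISM_pos M y), ENNReal.div_eq_inv_mul]
  rw [lintegral_const_mul (f := fun u => ENNReal.ofReal (Real.exp (HM M y u))) _
    (ENNReal.measurable_ofReal.comp
    (Real.measurable_exp.comp (continuous_HM M y).measurable)), ← ofReal_ISM]
  exact ENNReal.inv_mul_cancel (ENNReal.ofReal_pos.2 (ISM_pos M y)).ne' ENNReal.ofReal_ne_top

instance (M : Mat n) (y : Vec n) : IsProbabilityMeasure (plM M y) := by
  refine ⟨?_⟩
  have h := lint_plM_xt M y (G := fun _ => 1) measurable_const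
  simpa only [lintegral_const, one_mul, measure_univ] using h

theorem mp_xt (M : Mat n) (y : Vec n) :
    MeasurePreserving (fun p : OG n × Cfg n => xt p.1 p.2) (plM M y) (spM M y) := by
  refine ⟨measurable_xt, ?_⟩
  ext s hs
  rw [← lintegral_indicator_one hs, ← lintegral_indicator_one hs,
    lintegral_map (measurable_one.indicator hs) measurable_xt]
  exact lint_plM_xt M y (measurable_one.indicator hs)

/-- annealing: the mean of the likelihood ratio is one -/
theorem lint_LR (M : Mat n) (y : Vec n) : ∫⁻ O, ENNReal.ofReal (LR M y O) ∂haar n = 1 := by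
  have h := lint_plM_fst M y (G := fun _ => 1) measurable_const
  simpa only [lintegral_const, one_mul, mul_one, measure_univ] using h.symm

theorem integrable_cont {f : OG n → ℝ} (hf : Continuous f) : Integrable f (haar n) :=
  hf.integrable_of_hasCompactSupport (HasCompactSupport.of_compactSpace f)

theorem integral_LR (M : Mat n) (y : Vec n) : ∫ O, LR M y O ∂haar n = 1 := by
  rw [integral_eq_lintegral_of_nonneg_ae (ae_of_all _ fun O => (LR_pos M y O).le)
    (continuous_LR M y).aestronglyMeasurable, lint_LR, ENNReal.toReal_one]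

theorem integral_Zc (M : Mat n) (y : Vec n) : ∫ O, Zc M y O ∂haar n = 2 ^ n * ISM M y := by
  have h := integral_LR M y
  unfold LR at h
  rw [integral_div, div_eq_one_iff_eq (nrm_pos M y).ne'] at h
  exact h

/-! ### the planted law with a noise path -/

/-- planted law of rotation, spins and noise path -/
noncomputable def plN (m : ℕ) (M : Mat n) (y : Vec n) :
    Measure ((OG n × Cfg n) × (ℕ → Vec m)) := (plM M y).prod (PN m)

/-- law of the frame spins and the noise path -/
noncomputable def spN (m : ℕ) (M : Mat n) (y : Vec n) : Measure (Vec n × (ℕ → Vec m)) :=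
  (spM M y).prod (PN m)

instance (M : Mat n) (y : Vec n) : IsProbabilityMeasure (plN m M y) := by
  unfold plN; infer_instance

instance (M : Mat n) (y : Vec n) : IsProbabilityMeasure (spN m M y) := by
  unfold spN; infer_instance

theorem mp_xtN (M : Mat n) (y : Vec n) :
    MeasurePreserving (fun q : (OG n × Cfg n) × (ℕ → Vec m) => (xt q.1.1 q.1.2, q.2))
      (plN m M y) (spN m M y) :=
  (mp_xt M y).prod (MeasurePreserving.id (PN m))

/-- (P1) events of the frame variables: any set -/
theorem plN_frame_le (M : Mat n) (y : Vec n) (E : Set (Vec n × (ℕ → Vec m))) :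
    plN m M y {q | (xt q.1.1 q.1.2, q.2) ∈ E} ≤ spN m M y E := by
  have h := Measure.le_map_apply (μ := plN m M y) (mp_xtN (m := m) M y).measurable.aemeasurable E
  rwa [(mp_xtN M y).map_eq] at h

theorem plN_frame_eq (M : Mat n) (y : Vec n) {E : Set (Vec n × (ℕ → Vec m))}
    (hE : MeasurableSet E) : plN m M y {q | (xt q.1.1 q.1.2, q.2) ∈ E} = spN m M y E :=
  (mp_xtN M y).measure_preimage hE.nullMeasurableSet

theorem lint_plN (M : Mat n) (y : Vec n) {G : (OG n × Cfg n) × (ℕ → Vec m) → ℝ≥0∞}
    (hG : Measurable G) : ∫⁻ q, G q ∂plN m M y = ∫⁻ O, ENNReal.ofReal (LR M y O) *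
      ∑ x, ENNReal.ofReal (gM (Jr O M) (O.1ᵀ *ᵥ y) x) * ∫⁻ ω, G ((O, x), ω) ∂PN m ∂haar n := by
  unfold plN
  rw [lintegral_prod _ hG.aemeasurable, lint_plM' M y hG.lintegral_prod_right']

/-! ### (P2) quenched probabilities are dominated by planted probabilities -/

theorem ofReal_PE (J : Mat n) (y : Vec n) (E : Cfg n → (ℕ → Vec m) → Prop) :
    ENNReal.ofReal (PE (gM J y) E) = ∑ x, ENNReal.ofReal (gM J y x) * PN m {ω | E x ω} := by
  unfold PE
  rw [ENNReal.ofReal_sum_of_nonneg fun x _ => mul_nonneg (gM_pos J y x).le measureReal_nonneg]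
  refine Finset.sum_congr rfl fun x _ => ?_
  rw [ENNReal.ofReal_mul (gM_pos J y x).le, ofReal_measureReal (measure_ne_top _ _)]

/-- the quenched probability of a measurable event, as a function of the rotation -/
theorem measurable_PE (M : Mat n) (y : Vec n) {B : Set ((OG n × Cfg n) × (ℕ → Vec m))}
    (hB : MeasurableSet B) :
    Measurable fun O : OG n => PE (gM (Jr O M) (O.1ᵀ *ᵥ y)) fun x ω => ((O, x), ω) ∈ B := by
  unfold PE
  refine Finset.measurable_fun_sum _ fun x _ => Measurable.mul ?_ ?_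
  · simp only [gM_rot]
    exact (Real.measurable_exp.comp ((continuous_HM M y).measurable.comp
      (measurable_xt_left x))).div (continuous_Zc M y).measurable
  · have h := measurable_measure_prodMk_left (ν := PN m) hB
    exact (h.comp (measurable_id.prodMk measurable_const)).ennreal_toReal

theorem plN_eq (M : Mat n) (y : Vec n) {B : Set ((OG n × Cfg n) × (ℕ → Vec m))}
    (hB : MeasurableSet B) : plN m M y B = ∫⁻ O, ENNReal.ofReal (LR M y O *
      PE (gM (Jr O M) (O.1ᵀ *ᵥ y)) fun x ω => ((O, x), ω) ∈ B) ∂haar n := by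
  rw [← lintegral_indicator_one hB, lint_plN M y (measurable_one.indicator hB)]
  refine lintegral_congr fun O => ?_
  rw [ENNReal.ofReal_mul (LR_pos M y O).le, ofReal_PE]
  congr 1
  refine Finset.sum_congr rfl fun x _ => ?_
  congr 1
  have hx : MeasurableSet {ω : ℕ → Vec m | ((O, x), ω) ∈ B} := measurable_prodMk_left hB
  rw [← lintegral_indicator_one hx]
  rfl

/-- Markov inequality: on `{LR ≥ ε}` a large quenched probability is rare (any event `B`) -/
theorem quenched_le (M : Mat n) (y : Vec n) (B : Set ((OG n × Cfg n) × (ℕ → Vec m))) {ε d : ℝ}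
    (hε : 0 < ε) (hd : 0 < d) :
    (haar n).real {O | ε ≤ LR M y O ∧
      d ≤ PE (gM (Jr O M) (O.1ᵀ *ᵥ y)) fun x ω => ((O, x), ω) ∈ B}
      ≤ (plN m M y).real B / (ε * d) := by
  set B' := toMeasurable (plN m M y) B with hB'
  have hm : MeasurableSet B' := measurableSet_toMeasurable _ _
  set f : OG n → ℝ≥0∞ := fun O => ENNReal.ofReal (LR M y O *
      PE (gM (Jr O M) (O.1ᵀ *ᵥ y)) fun x ω => ((O, x), ω) ∈ B') with hf
  have hfm : Measurable f :=
    ENNReal.measurable_ofReal.comp ((continuous_LR M y).measurable.mul (measurable_PE M y hm))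
  have hεd : 0 < ε * d := mul_pos hε hd
  have h1 := meas_ge_le_lintegral_div (μ := haar n) hfm.aemeasurable
    (ε := ENNReal.ofReal (ε * d)) (ENNReal.ofReal_pos.2 hεd).ne' ENNReal.ofReal_ne_top
  rw [← plN_eq M y hm, hB', measure_toMeasurable] at h1
  have h2 : {O : OG n | ε ≤ LR M y O ∧
      d ≤ PE (gM (Jr O M) (O.1ᵀ *ᵥ y)) fun x ω => ((O, x), ω) ∈ B} ⊆
      {O | ENNReal.ofReal (ε * d) ≤ f O} := by
    intro O hO
    refine ENNReal.ofReal_le_ofReal (mul_le_mul hO.1 (hO.2.trans ?_) hd.le (LR_pos M y O).le)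
    exact PE_mono (fun x => (gM_pos _ _ x).le) fun x ω h => subset_toMeasurable _ _ h
  have h3 := (measure_mono h2).trans h1
  have h4 := ENNReal.toReal_mono (ENNReal.div_ne_top (measure_ne_top _ _)
    (ENNReal.ofReal_pos.2 hεd).ne') h3
  rwa [ENNReal.toReal_div, ENNReal.toReal_ofReal hεd.le] at h4

/-- the same for a finite family of events (levels) -/
theorem quenched_family (M : Mat n) (y : Vec n) {ι : Type*} (T : Finset ι)
    (B : ι → Set ((OG n × Cfg n) × (ℕ → Vec m))) {ε : ℝ} (hε : 0 < ε) {d : ι → ℝ}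
    (hd : ∀ j ∈ T, 0 < d j) :
    (haar n).real {O | ∃ j ∈ T,
      d j ≤ PE (gM (Jr O M) (O.1ᵀ *ᵥ y)) fun x ω => ((O, x), ω) ∈ B j}
      ≤ (haar n).real {O | LR M y O < ε} + ∑ j ∈ T, (plN m M y).real (B j) / (ε * d j) := by
  have h1 : {O : OG n | ∃ j ∈ T,
      d j ≤ PE (gM (Jr O M) (O.1ᵀ *ᵥ y)) fun x ω => ((O, x), ω) ∈ B j} ⊆
      {O | LR M y O < ε} ∪ ⋃ j ∈ T, {O | ε ≤ LR M y O ∧
        d j ≤ PE (gM (Jr O M) (O.1ᵀ *ᵥ y)) fun x ω => ((O, x), ω) ∈ B j} := by
    rintro O ⟨j, hj, hO⟩
    by_cases h : LR M y O < ε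
    · exact Or.inl h
    · exact Or.inr (Set.mem_biUnion hj ⟨not_lt.1 h, hO⟩)
  refine (measureReal_mono h1).trans ((measureReal_union_le _ _).trans ?_)
  gcongr
  refine (measureReal_biUnion_finset_le _ _).trans (Finset.sum_le_sum fun j hj => ?_)
  exact quenched_le M y (B j) hε (hd j hj)

/-! ### (P3) transfer to the free Haar measure -/

theorem lint_cs {α : Type*} [MeasurableSpace α] (μ : Measure α) {f : α → ℝ≥0∞}
    (hf : Measurable f) {B : Set α} (hB : MeasurableSet B) :
    ∫⁻ a, f a * B.indicator 1 a ∂μ ≤ (∫⁻ a, f a ^ 2 ∂μ) ^ (1 / 2 : ℝ) * μ B ^ (1 / 2 : ℝ) := by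
  have h := ENNReal.lintegral_mul_le_Lp_mul_Lq μ Real.HolderConjugate.two_two hf.aemeasurable
    (measurable_one.indicator hB).aemeasurable
  have e : ∀ a, (B.indicator (1 : α → ℝ≥0∞) a) ^ (2 : ℝ) = B.indicator 1 a := by
    intro a
    by_cases ha : a ∈ B <;> simp [ha]
  simp only [Pi.mul_apply, e, lintegral_indicator_one hB] at h
  simpa only [ENNReal.rpow_two] using h

theorem lint_LR_sq (M : Mat n) (y : Vec n) :
    ∫⁻ O, ENNReal.ofReal (LR M y O) ^ 2 ∂haar n = ENNReal.ofReal (∫ O, LR M y O ^ 2 ∂haar n) := by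
  rw [ofReal_integral_eq_lintegral_ofReal (f := fun O => LR M y O ^ 2)
    (integrable_cont ((continuous_LR M y).pow 2)) (ae_of_all _ fun O => sq_nonneg _)]
  refine lintegral_congr fun O => ?_
  rw [ENNReal.ofReal_pow (LR_pos M y O).le]

/-- events of the rotation and of an independent variable (any set) -/
theorem transfer_prod (M : Mat n) (y : Vec n) {Ω : Type*} [MeasurableSpace Ω] (ν : Measure Ω)
    [IsProbabilityMeasure ν] (B : Set (OG n × Ω)) {C : ℝ}
    (hC : ∫ O, LR M y O ^ 2 ∂haar n ≤ C) :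
    ((plM M y).prod ν).real {q | (q.1.1, q.2) ∈ B} ≤ √(C * ((haar n).prod ν).real B) := by
  set B' := toMeasurable ((haar n).prod ν) B with hB'
  have hm : MeasurableSet B' := measurableSet_toMeasurable _ _
  have hC0 : 0 ≤ C := (integral_nonneg fun O => sq_nonneg _).trans hC
  have hpr : Measurable fun q : (OG n × Cfg n) × Ω => (q.1.1, q.2) :=
    (measurable_fst.comp measurable_fst).prodMk measurable_snd
  have hL : Measurable fun O : OG n => ENNReal.ofReal (LR M y O) :=
    ENNReal.measurable_ofReal.comp (continuous_LR M y).measurable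
  have hI : Measurable (B'.indicator (1 : OG n × Ω → ℝ≥0∞)) := measurable_one.indicator hm
  have h1 : ((plM M y).prod ν) {q | (q.1.1, q.2) ∈ B'} =
      ∫⁻ r, ENNReal.ofReal (LR M y r.1) * B'.indicator 1 r ∂(haar n).prod ν := by
    have hq : MeasurableSet {q : (OG n × Cfg n) × Ω | (q.1.1, q.2) ∈ B'} := hpr hm
    have hLI : Measurable fun r : OG n × Ω => ENNReal.ofReal (LR M y r.1) * B'.indicator 1 r :=
      (hL.comp measurable_fst).mul hI
    rw [← lintegral_indicator_one hq, lintegral_prod _
      (measurable_one.indicator hq).aemeasurable, lintegral_prod _ hLI.aemeasurable]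
    have h := lint_plM_fst M y (G := fun O => ∫⁻ ω, B'.indicator 1 (O, ω) ∂ν)
      hI.lintegral_prod_right'
    refine Eq.trans ?_ (h.trans ?_)
    · rfl
    · refine lintegral_congr fun O => ?_
      exact (lintegral_const_mul (f := fun ω => B'.indicator 1 (O, ω)) _
        (hI.comp measurable_prodMk_left)).symm
  have h2 := lint_cs ((haar n).prod ν) (f := fun r => ENNReal.ofReal (LR M y r.1))
    (hL.comp measurable_fst) hm
  have h3 : ∫⁻ r : OG n × Ω, ENNReal.ofReal (LR M y r.1) ^ 2 ∂(haar n).prod ν ≤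
      ENNReal.ofReal C := by
    have hL2 : Measurable fun r : OG n × Ω => ENNReal.ofReal (LR M y r.1) ^ 2 :=
      (hL.comp measurable_fst).pow_const 2
    rw [lintegral_prod _ hL2.aemeasurable]
    simp only [lintegral_const, measure_univ, mul_one]
    rw [lint_LR_sq]
    exact ENNReal.ofReal_le_ofReal hC
  have h4 : ((plM M y).prod ν) {q | (q.1.1, q.2) ∈ B} ≤
      ENNReal.ofReal (√(C * ((haar n).prod ν).real B)) := by
    calc _ ≤ ((plM M y).prod ν) {q | (q.1.1, q.2) ∈ B'} :=
          measure_mono fun q hq => subset_toMeasurable _ _ hq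
      _ ≤ ENNReal.ofReal C ^ (1 / 2 : ℝ) * ((haar n).prod ν) B ^ (1 / 2 : ℝ) := by
          rw [h1]
          refine h2.trans ?_
          rw [hB', measure_toMeasurable]
          gcongr
      _ = _ := by
          rw [← ENNReal.mul_rpow_of_nonneg _ _ (by norm_num),
            ← ofReal_measureReal (measure_ne_top _ B), ← ENNReal.ofReal_mul hC0,
            ENNReal.ofReal_rpow_of_nonneg (mul_nonneg hC0 measureReal_nonneg) (by norm_num),
            Real.sqrt_eq_rpow]
  exact ENNReal.toReal_le_of_le_ofReal (Real.sqrt_nonneg _) h4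

/-- events of the rotation only (any set) -/
theorem transfer (M : Mat n) (y : Vec n) (B : Set (OG n)) {C : ℝ}
    (hC : ∫ O, LR M y O ^ 2 ∂haar n ≤ C) :
    (plN m M y).real {q | q.1.1 ∈ B} ≤ √(C * (haar n).real B) := by
  have h := transfer_prod M y (PN m) (B ×ˢ Set.univ) hC
  have e : ((haar n).prod (PN m)).real (B ×ˢ Set.univ) = (haar n).real B := by
    rw [measureReal_prod_prod, probReal_univ, mul_one]
  rw [e] at h
  unfold plN
  simpa only [Set.mem_prod, Set.mem_univ, and_true] using h

/-! ### (P4) symmetry -/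

/-- rotation of every noise vector -/
def rotN (T : OG m) (ω : ℕ → Vec m) : ℕ → Vec m := fun k => T.1 *ᵥ ω k

theorem measurable_rotN2 : Measurable fun p : OG m × (ℕ → Vec m) => rotN p.1 p.2 :=
  measurable_pi_lambda _ fun k =>
    measurable_mulVecG measurable_fst ((measurable_pi_apply k).comp measurable_snd)

theorem mp_rotN (T : OG m) : MeasurePreserving (rotN T) (PN m) (PN m) := by
  have h : ∀ _ : ℕ, MeasurePreserving (fun w : Vec m => T.1 *ᵥ w) (gpi (Fin m)) (gpi (Fin m)) :=
    fun _ => mp_mulVec (OG.mul_transpose T)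
  have hm : Measurable (rotN T) := measurable_rotN2.comp measurable_prodMk_left
  refine ⟨hm, ?_⟩
  refine Measure.eq_infinitePi _ fun s t ht => ?_
  rw [Measure.map_apply hm (MeasurableSet.pi s.countable_toSet fun i _ => ht i)]
  have hpre : rotN T ⁻¹' (Set.pi s t)
      = Set.pi s fun j => (fun w : Vec m => T.1 *ᵥ w) ⁻¹' t j := rfl
  rw [hpre, PN, Measure.infinitePi_pi _ fun i _ => (h i).measurable (ht i)]
  exact Finset.prod_congr rfl fun j _ => (h j).measure_preimage (ht j).nullMeasurableSet

theorem ISM_conj (R : OG n) (M : Mat n) (y : Vec n) : ISM (Jr R M) (R.1ᵀ *ᵥ y) = ISM M y := by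
  unfold ISM
  simp only [← HM_mulVec]
  have h := mp_sph (n := n) (OG.transpose_mul R) (n : ℝ)
  rw [← h.map_eq, integral_map h.measurable.aemeasurable
    (by fun_prop : Continuous fun u => Real.exp (HM M y u)).aestronglyMeasurable, h.map_eq]

theorem lint_frame (R : OG n) (M : Mat n) (y : Vec n) {G : OG n × Cfg n → ℝ≥0∞}
    (hG : Measurable G) :
    ∫⁻ p, G (R * p.1, p.2) ∂plM (Jr R M) (R.1ᵀ *ᵥ y) = ∫⁻ p, G p ∂plM M y := by
  have hm : Measurable fun p : OG n × Cfg n => (R * p.1, p.2) :=
    ((measurable_const_mul R).comp measurable_fst).prodMk measurable_snd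
  have h0 : Measurable fun p : OG n × Cfg n =>
      ENNReal.ofReal (Real.exp (HM M y (xt p.1 p.2)) / (2 ^ n * ISM M y)) * G p :=
    (measurable_dens M y).mul hG
  have h1 : Measurable fun O : OG n => ∑ x,
      ENNReal.ofReal (Real.exp (HM M y (xt O x)) / (2 ^ n * ISM M y)) * G (O, x) := by
    refine Finset.measurable_fun_sum _ fun x _ => ?_
    have h2 : Measurable fun O : OG n => (O, x) := measurable_prodMk_right
    have h3 := h0.comp h2
    exact h3
  have h4 := lint_plM (Jr R M) (R.1ᵀ *ᵥ y) (G := fun p => G (R * p.1, p.2)) (hG.comp hm)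
  have h5 := invOn_haar.lint_left (g := R) (Subgroup.mem_top _) h1
  rw [h4, lint_plM M y hG, ← h5]
  refine lintegral_congr fun O => Finset.sum_congr rfl fun x _ => ?_
  rw [xt_mul, HM_mulVec, ISM_conj]

/-- change of frame -/
theorem mp_frame (R : OG n) (M : Mat n) (y : Vec n) :
    MeasurePreserving (fun p : OG n × Cfg n => (R * p.1, p.2))
      (plM (Jr R M) (R.1ᵀ *ᵥ y)) (plM M y) := by
  have hm : Measurable fun p : OG n × Cfg n => (R * p.1, p.2) :=
    ((measurable_const_mul R).comp measurable_fst).prodMk measurable_snd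
  refine ⟨hm, ?_⟩
  ext s hs
  have hI : Measurable (s.indicator (1 : OG n × Cfg n → ℝ≥0∞)) := measurable_one.indicator hs
  rw [← lintegral_indicator_one hs, ← lintegral_indicator_one hs, lintegral_map hI hm]
  exact lint_frame R M y hI

/-- the symmetries of a state -/
def Sym (M : Mat n) (y : Vec n) (R : OG n) : Prop := Jr R M = M ∧ R.1ᵀ *ᵥ y = y

theorem mp_sym {M : Mat n} {y : Vec n} {R : OG n} (h : Sym M y R) (T : OG m) :
    MeasurePreserving (fun q : (OG n × Cfg n) × (ℕ → Vec m) => ((R * q.1.1, q.1.2), rotN T q.2))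
      (plN m M y) (plN m M y) := by
  have h1 := mp_frame R M y
  rw [h.1, h.2] at h1
  exact h1.prod (mp_rotN T)

/-- averaging over symmetries: if from every point the random symmetry lands in `B` with
probability at most `p`, the planted probability of `B` is at most `p` -/
theorem sym_le {M : Mat n} {y : Vec n} (ν : Measure (OG n)) [IsProbabilityMeasure ν]
    (hν : ∀ᵐ R ∂ν, Sym M y R) {T : OG n → OG m} (hT : Measurable T)
    {B : Set ((OG n × Cfg n) × (ℕ → Vec m))} (hB : MeasurableSet B) {p : ℝ≥0∞}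
    (hp : ∀ q : (OG n × Cfg n) × (ℕ → Vec m),
      ν {R | ((R * q.1.1, q.1.2), rotN (T R) q.2) ∈ B} ≤ p) : plN m M y B ≤ p := by
  have hm : Measurable fun r : OG n × ((OG n × Cfg n) × (ℕ → Vec m)) =>
      ((r.1 * r.2.1.1, r.2.1.2), rotN (T r.1) r.2.2) :=
    ((measurable_fst.mul (measurable_fst.comp (measurable_fst.comp measurable_snd))).prodMk
      (measurable_snd.comp (measurable_fst.comp measurable_snd))).prodMk
      (measurable_rotN2.comp ((hT.comp measurable_fst).prodMk (measurable_snd.comp measurable_snd)))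
  have hI : Measurable fun r : OG n × ((OG n × Cfg n) × (ℕ → Vec m)) =>
      B.indicator (1 : (OG n × Cfg n) × (ℕ → Vec m) → ℝ≥0∞)
        ((r.1 * r.2.1.1, r.2.1.2), rotN (T r.1) r.2.2) :=
    (measurable_one.indicator hB).comp hm
  have h1 : ∫⁻ R, ∫⁻ q, B.indicator 1 ((R * q.1.1, q.1.2), rotN (T R) q.2) ∂plN m M y ∂ν
      = plN m M y B := by
    rw [lintegral_congr_ae (g := fun _ => plN m M y B)]
    · simp only [lintegral_const, measure_univ, mul_one]
    filter_upwards [hν] with R hR
    rw [← lintegral_indicator_one hB]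
    exact (mp_sym hR (T R)).lintegral_comp (measurable_one.indicator hB)
  rw [← h1, lintegral_lintegral_swap hI.aemeasurable]
  calc _ ≤ ∫⁻ _, p ∂plN m M y := by
        refine lintegral_mono fun q => le_trans (le_of_eq ?_) (hp q)
        have hq : MeasurableSet {R : OG n | ((R * q.1.1, q.1.2), rotN (T R) q.2) ∈ B} :=
          (hm.comp (measurable_id.prodMk measurable_const)) hB
        rw [← lintegral_indicator_one hq]
        rfl
    _ = p := by simp only [lintegral_const, measure_univ, mul_one]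

/-- elements of the stabiliser `HG P` are symmetries when `M` is scalar on the range of `P` and
`P y = 0` -/
theorem sym_of_HG {M P : Mat n} {y : Vec n} {c : ℝ} (hP : Pᵀ = P) (hMP : M * P = c • P)
    (hPM : P * M = c • P) (hy : P *ᵥ y = 0) {R : OG n} (hR : R ∈ HG P) : Sym M y R := by
  have h1 := mem_HG.1 hR
  have h2 := mem_HG.1 ((HG P).inv_mem hR)
  rw [OG.coe_inv] at h2
  have h3 := HG_comm hP hR
  refine ⟨?_, ?_⟩
  · unfold Jr
    have e1 : R.1 = R.1 * P + (1 - P) := by rw [← h1, ← mul_add, add_sub_cancel, mul_one]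
    have e2 : M * R.1 = c • (P * R.1) + M * (1 - P) := by
      conv_lhs => rw [e1]
      rw [mul_add, h3, ← mul_assoc, hMP, Matrix.smul_mul]
    have e3 : M * (1 - P) = (1 - P) * M := by
      rw [mul_sub, sub_mul, mul_one, one_mul, hMP, hPM]
    rw [mul_assoc, e2, mul_add, e3, ← mul_assoc, h2, Matrix.mul_smul, ← h3, ← mul_assoc,
      OG.transpose_mul, one_mul, sub_mul, one_mul, hPM, add_sub_cancel]
  · have h := HG_mulVec ((HG P).inv_mem hR) hy
    rwa [OG.coe_inv] at h

end Vale.Agent.N150.Plant
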