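import Mathlib
import Vale.Agent.N150.SphUp
import Vale.Agent.N150.Plant
import Vale.Agent.N150.EndGauss
import Vale.Agent.N150.Tail

/-! Quadratic functionals of the frame spins and of the field under the spherical Gibbs law:
concentration at exponential rate, for a general (non commuting) precision matrix. -/

open MeasureTheory ProbabilityTheory Matrix
open scoped ENNReal

namespace Vale.Agent.N150.AdmP

open Vale.Agent.P150 Vale.Agent.P150.F Vale.Agent.N150.Plant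

variable {n : ℕ} {ι : Type} [Fintype ι]

/-- the law of a linear image of two independent Gaussian vectors -/
theorem pair_real (B1 : Mat n) (B2 : Matrix (Fin n) ι ℝ) {κ : Type} [Fintype κ]
    {A : Matrix (Fin n) κ ℝ} (hA : A * Aᵀ = B1 * B1ᵀ + B2 * B2ᵀ) {E : Set (Vec n)}
    (hE : MeasurableSet E) :
    ((gpi (Fin n)).prod (gpi ι)).real {p | B1 *ᵥ p.1 + B2 *ᵥ p.2 ∈ E}
      = (gpi κ).real {w | A *ᵥ w ∈ E} := by
  set B : Matrix (Fin n) (Fin n ⊕ ι) ℝ := Matrix.fromCols B1 B2 with hB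
  have e1 : A * Aᵀ = B * Bᵀ := by
    rw [hA, hB, Matrix.transpose_fromCols, Matrix.fromCols_mul_fromRows]
  have e2 : (gpi κ).real {w | A *ᵥ w ∈ E} = (gpi (Fin n ⊕ ι)).real {w | B *ᵥ w ∈ E} := by
    have h := Law.map_mulVec_eq e1
    have k1 := map_measureReal_apply (μ := gpi κ) (measurable_matVec A) hE
    have k2 := map_measureReal_apply (μ := gpi (Fin n ⊕ ι)) (measurable_matVec B) hE
    rw [h, k2] at k1
    exact k1.symm
  have hp := measurePreserving_sumPiEquivProdPi_symm (X := fun _ : Fin n ⊕ ι => ℝ)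
    (fun _ => gaussianReal 0 1)
  have hm : MeasurableSet {w : Fin n ⊕ ι → ℝ | B *ᵥ w ∈ E} := measurable_matVec B hE
  have e := hp.measureReal_preimage hm.nullMeasurableSet
  rw [e2]
  unfold gpi
  rw [← e]
  congr 1
  ext p
  have : ((MeasurableEquiv.sumPiEquivProdPi fun _ : Fin n ⊕ ι => ℝ).symm p)
      = Sum.elim p.1 p.2 := by
    funext i
    cases i <;> rfl
  simp only [Set.mem_ofPred_eq, Set.mem_preimage, this, hB, Matrix.fromCols_mulVec_sumElim]

theorem ms_dev (d S : ℝ) : MeasurableSet {v : Vec n | d ≤ |F.sq v - S|} :=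
  measurableSet_le measurable_const (measurable_sq.sub_const _).abs

/-- concentration of the squared norm, general covariance -/
theorem pair_conc {B1 C : Mat n} {B2 : Matrix (Fin n) ι ℝ} {K V x : ℝ} (hK : 0 < K) (hx : 1 ≤ x)
    (hC : B1 * B1ᵀ + B2 * B2ᵀ = C) (h : ∀ u, qf C u ≤ K * F.sq u) (hV0 : 0 ≤ V)
    (hV : C.trace ≤ V) :
    ((gpi (Fin n)).prod (gpi ι)).real {p | 4 * √(K * V * x) + 8 * K * x ≤
      |F.sq (B1 *ᵥ p.1 + B2 *ᵥ p.2) - C.trace|} ≤ 2 * Real.exp (-x) := by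
  set B : Matrix (Fin n) (Fin n ⊕ ι) ℝ := Matrix.fromCols B1 B2 with hB
  have e1 : B * Bᵀ = B1 * B1ᵀ + B2 * B2ᵀ := by
    rw [hB, Matrix.transpose_fromCols, Matrix.fromCols_mul_fromRows]
  have hL : 0 < √K := Real.sqrt_pos.2 hK
  have hs : √K ^ 2 = K := Real.sq_sqrt hK.le
  have hx0 : 0 ≤ x := by linarith
  have key := Law.norm_conc (B := B) (L := √K) (M := √V) (t := 2 * √K * √x) hL
    (by positivity) (fun u => by rw [e1, hs, hC]; exact h u) 0 (by positivity) (by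
      rw [e1, hC, Real.sq_sqrt hV0]
      simpa [F.sq] using hV)
  have e2 : (2 * √K * √x) ^ 2 / (4 * √K ^ 2) = x := by
    rw [mul_pow, mul_pow, Real.sq_sqrt hx0, hs]; field_simp; ring
  have e3 : 2 * √K * √x * (2 * √V + 2 * √K * √x) + 4 * √K ^ 2
      = 4 * √(K * V * x) + 4 * K * x + 4 * K := by
    rw [Real.sqrt_mul (mul_nonneg hK.le hV0), Real.sqrt_mul hK.le]
    have h1 : √x * √x = x := Real.mul_self_sqrt hx0
    have h2 : √K * √K = K := Real.mul_self_sqrt hK.le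
    calc _ = 4 * (√K * √V * √x) + 4 * (√K * √K) * (√x * √x) + 4 * √K ^ 2 := by ring
      _ = _ := by rw [h1, h2, hs]
  have z0 : F.sq (0 : Vec n) = 0 := by simp [F.sq]
  rw [e2, e3, e1, hC] at key
  simp only [zero_add, z0] at key
  have e := pair_real B1 B2 e1 (ms_dev (4 * √(K * V * x) + 8 * K * x) C.trace)
  refine (le_of_eq e).trans ((Tail.real_imp_le _ fun w hw => ?_).trans key)
  have hw' : 4 * √(K * V * x) + 8 * K * x ≤ |F.sq (B *ᵥ w) - C.trace| := hw
  nlinarith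

theorem sq_diag (f u : Vec n) : F.sq (diagonal f *ᵥ u) = ∑ a, f a ^ 2 * u a ^ 2 := by
  unfold F.sq
  refine Finset.sum_congr rfl fun a _ => ?_
  rw [Matrix.mulVec_diagonal]; ring

/-- concentration of the squared norm, diagonal covariance -/
theorem pair_hw {B1 : Mat n} {B2 : Matrix (Fin n) ι ℝ} {a : Vec n} {M V x : ℝ} (hV0 : 0 < V)
    (hM : 0 ≤ M) (hx : 0 ≤ x) (hC : B1 * B1ᵀ + B2 * B2ᵀ = diagonal a) (h0 : ∀ i, 0 ≤ a i)
    (h1 : ∀ i, a i ≤ M) (hV : ∑ i, a i ^ 2 ≤ V) :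
    ((gpi (Fin n)).prod (gpi ι)).real {p | 2 * √(2 * V * x) + 4 * M * x ≤
      |F.sq (B1 *ᵥ p.1 + B2 *ᵥ p.2) - ∑ i, a i|} ≤ 2 * Real.exp (-x) := by
  have e1 : diagonal (fun i => √(a i)) * (diagonal fun i => √(a i))ᵀ = B1 * B1ᵀ + B2 * B2ᵀ := by
    rw [hC, Matrix.diagonal_transpose, Matrix.diagonal_mul_diagonal]
    congr 1
    funext i
    exact Real.mul_self_sqrt (h0 i)
  have e := pair_real B1 B2 e1 (ms_dev (2 * √(2 * V * x) + 4 * M * x) (∑ i, a i))
  have k1 := Tail.chi_tail a hV0 hM hx hV h1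
  have k2 := Tail.chi_tail_low a hV0 hM hx hV fun i => by linarith [h0 i]
  refine (le_of_eq e).trans ((Tail.real_or_le _ fun w hw => ?_).trans
    ((add_le_add k1 k2).trans (by linarith)))
  have hw' : 2 * √(2 * V * x) + 4 * M * x ≤
    |F.sq (diagonal (fun i => √(a i)) *ᵥ w) - ∑ i, a i| := hw
  rw [sq_diag] at hw'
  simp only [Real.sq_sqrt (h0 _)] at hw'
  rcases le_abs.1 hw' with h | h
  · exact Or.inl (by linarith)
  · exact Or.inr (by linarith)

theorem aff_zero (E g : Vec n) : aff E 0 g = diagonal (fun a => (√(E a))⁻¹) *ᵥ g := by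
  funext a
  simp only [aff, Pi.zero_apply, zero_div, zero_add, Matrix.mulVec_diagonal]
  rw [div_eq_inv_mul]

theorem nv_rp_sub (hn : 0 < n) {w : Vec n} (h1 : (n : ℝ) - 1 < F.sq w) (h2 : F.sq w ≤ n + 1) :
    nv (rp n w - w) * √n ≤ 1 := by
  have hn1 : (1 : ℝ) ≤ n := by exact_mod_cast hn
  have hw : 0 < F.sq w := by linarith
  have hs : 0 < √(F.sq w) := Real.sqrt_pos.2 hw
  have e : rp n w - w = (√n / √(F.sq w) - 1) • w := by
    unfold rp; rw [sub_smul, one_smul]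
  rw [e, nv_smul, nv_eq_sqrt]
  have e2 : |√n / √(F.sq w) - 1| * √(F.sq w) = |√n - √(F.sq w)| := by
    rw [← abs_of_pos hs, ← abs_mul, abs_of_pos hs]
    congr 1
    field_simp
  rw [e2]
  have a1 : √(n : ℝ) * √n = n := Real.mul_self_sqrt (by linarith)
  have a2 : √(F.sq w) * √(F.sq w) = F.sq w := Real.mul_self_sqrt hw.le
  have a3 : 0 ≤ √(n : ℝ) := Real.sqrt_nonneg _
  rcases le_total (√(F.sq w)) (√n) with h | h
  · rw [abs_of_nonneg (by linarith)]; nlinarith
  · rw [abs_of_nonpos (by linarith)]; nlinarith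

theorem dev_arith {T W r a b S d : ℝ} (hT : 0 ≤ T) (hW : 0 ≤ W) (hr : 1 ≤ r) (hb : 0 ≤ b)
    (hab : |a - b| * r ≤ T) (hS : S + d ≤ W ^ 2 * r ^ 2) (h : |b ^ 2 - S| < d) :
    |a ^ 2 - S| < d + (2 * T * W + T ^ 2) := by
  have h1 := (abs_lt.1 h).2
  have hb2 : b ^ 2 ≤ (W * r) ^ 2 := by rw [mul_pow]; linarith
  have hb3 : b ≤ W * r := abs_le_of_sq_le_sq' hb2 (by positivity) |>.2
  set c := |a - b| with hc
  have hc0 : 0 ≤ c := abs_nonneg _
  have hc1 : c ≤ T := by nlinarith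
  have e : a ^ 2 - b ^ 2 = (a - b) * (2 * b + (a - b)) := by ring
  have k1 : |a ^ 2 - b ^ 2| ≤ c * (2 * b + c) := by
    rw [e, abs_mul]
    refine mul_le_mul_of_nonneg_left ?_ hc0
    refine (abs_add_le _ _).trans ?_
    rw [abs_of_nonneg (by linarith)]
  have k2 : c * (2 * b + c) ≤ 2 * T * W + T ^ 2 := by
    have k3 : c * b ≤ W * (c * r) := by nlinarith
    have k4 : W * (c * r) ≤ W * T := mul_le_mul_of_nonneg_left hab hW
    nlinarith
  have k3 : |a ^ 2 - S| ≤ |a ^ 2 - b ^ 2| + |b ^ 2 - S| := abs_sub_le _ _ _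
  linarith

/-- on a thin shell the first vector can be normalised -/
theorem shell_conc (hn : 0 < n) {T1 D : Mat n} {T2 : Matrix (Fin n) ι ℝ} {T W S d δ : ℝ}
    (hT0 : 0 ≤ T) (hW : 0 ≤ W) (hT : OpLe T1 T) (hS : S + d ≤ W ^ 2 * n)
    (h : ((gpi (Fin n)).prod (gpi ι)).real
      {p | d ≤ |F.sq ((T1 * D) *ᵥ p.1 + T2 *ᵥ p.2) - S|} ≤ δ) :
    ((gpi (Fin n)).prod (gpi ι)).real {p | ((n : ℝ) - 1 < F.sq (D *ᵥ p.1) ∧
      F.sq (D *ᵥ p.1) ≤ n + 1) ∧ d + (2 * T * W + T ^ 2) ≤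
        |F.sq (T1 *ᵥ rp n (D *ᵥ p.1) + T2 *ᵥ p.2) - S|} ≤ δ := by
  refine (Tail.real_imp_le _ fun p hp => ?_).trans h
  obtain ⟨⟨h1, h2⟩, h3⟩ := hp
  by_contra hc
  have hc' := not_le.1 hc
  have hn1 : (1 : ℝ) ≤ n := by exact_mod_cast hn
  have k1 := nv_rp_sub hn h1 h2
  set w := D *ᵥ p.1 with hw
  have k2 : |nv (T1 *ᵥ rp n w + T2 *ᵥ p.2) - nv (T1 *ᵥ w + T2 *ᵥ p.2)| * √n ≤ T := by
    have a1 : nv (T1 *ᵥ rp n w + T2 *ᵥ p.2 - (T1 *ᵥ w + T2 *ᵥ p.2)) ≤ T * nv (rp n w - w) := by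
      rw [add_sub_add_right_eq_sub, ← Matrix.mulVec_sub]
      exact hT.nv_le hT0 _
    have a2 := nv_sub_triangle (T1 *ᵥ rp n w + T2 *ᵥ p.2) (T1 *ᵥ w + T2 *ᵥ p.2) 0
    have a3 := nv_sub_triangle (T1 *ᵥ w + T2 *ᵥ p.2) (T1 *ᵥ rp n w + T2 *ᵥ p.2) 0
    rw [sub_zero, sub_zero] at a2 a3
    rw [nv_sub_comm] at a3
    have a4 : |nv (T1 *ᵥ rp n w + T2 *ᵥ p.2) - nv (T1 *ᵥ w + T2 *ᵥ p.2)|
        ≤ T * nv (rp n w - w) := abs_le.2 ⟨by linarith, by linarith⟩
    calc _ ≤ T * nv (rp n w - w) * √n := mul_le_mul_of_nonneg_right a4 (Real.sqrt_nonneg _)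
      _ = T * (nv (rp n w - w) * √n) := by ring
      _ ≤ T * 1 := mul_le_mul_of_nonneg_left k1 hT0
      _ = T := mul_one T
  rw [← Matrix.mulVec_mulVec, ← nv_sq] at hc'
  have k3 := dev_arith hT0 hW (Real.one_le_sqrt.2 hn1) (nv_nonneg _) k2
    (by rw [Real.sq_sqrt (by linarith)]; exact hS) hc'
  rw [nv_sq] at k3
  linarith

/-- the comparison constant between the spherical Gibbs law and the Gaussian law on the shell -/
def Cmp (Lam : Vec n) (g B A : ℝ) : Prop :=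
  72 * n ^ 8 * Real.exp (PhiS Lam 0 g + (|g - 1| + B + 1) / 2) ≤ A * IS Lam 0

theorem spM_le (hn : 0 < n) {Lam : Vec n} {g B A : ℝ} (hg : ∀ a, Lam a < g)
    (hB : ∀ a, |Lam a| ≤ B) (hA : Cmp Lam g B A) {S : Set (Vec n × (ι → ℝ))}
    (hS : MeasurableSet S) :
    ((spM (diagonal Lam) 0).prod (gpi ι)).real S ≤ A * ((gpi (Fin n)).prod (gpi ι)).real
      {p | ((n : ℝ) - 1 < F.sq (aff (fun a => g - Lam a) 0 p.1) ∧
        F.sq (aff (fun a => g - Lam a) 0 p.1) ≤ n + 1) ∧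
        (rp n (aff (fun a => g - Lam a) 0 p.1), p.2) ∈ S} := by
  have hI := IS_pos Lam (0 : Vec n)
  have hn' : (0 : ℝ) < n := by exact_mod_cast hn
  have hA0 : 0 < A := by
    have : 0 < A * IS Lam 0 := lt_of_lt_of_le (by positivity) hA
    exact (mul_pos_iff_of_pos_right hI).1 this
  set G : Vec n → ℝ≥0∞ := fun u => gpi ι (Prod.mk u ⁻¹' S) with hG
  have hGm : Measurable G := measurable_measure_prodMk_left hS
  have h1 := Sp.sph_le_shell hn (0 : Vec n) hg hB hGm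
  have z0 : F.sq (0 : Vec n) = 0 := by simp [F.sq]
  rw [z0, zero_div, add_zero] at h1
  set S' : Set (Vec n × (ι → ℝ)) := {p | ((n : ℝ) - 1 < F.sq (aff (fun a => g - Lam a) 0 p.1) ∧
        F.sq (aff (fun a => g - Lam a) 0 p.1) ≤ n + 1) ∧
        (rp n (aff (fun a => g - Lam a) 0 p.1), p.2) ∈ S} with hS'
  have hma : Measurable fun p : Vec n × (ι → ℝ) => aff (fun a => g - Lam a) 0 p.1 :=
    (measurable_aff _ _).comp measurable_fst
  have hS'm : MeasurableSet S' :=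
    ((measurableSet_lt measurable_const (measurable_sq.comp hma)).inter
      (measurableSet_le (measurable_sq.comp hma) measurable_const)).inter
      ((((measurable_rp n).comp hma).prodMk measurable_snd) hS)
  have e1 : ((gpi (Fin n)).prod (gpi ι)) S' = ∫⁻ z, {x : Vec n | n - 1 < F.sq x ∧
      F.sq x ≤ n + 1}.indicator (fun x => G (rp n x)) (aff (fun a => g - Lam a) 0 z)
        ∂(gpi (Fin n)) := by
    rw [Measure.prod_apply hS'm]
    refine lintegral_congr fun z => ?_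
    by_cases hz : (n : ℝ) - 1 < F.sq (aff (fun a => g - Lam a) 0 z) ∧
        F.sq (aff (fun a => g - Lam a) 0 z) ≤ n + 1
    · rw [Set.indicator_of_mem (by exact hz)]
      congr 1
      ext ξ
      simp only [hS', Set.mem_preimage, Set.mem_ofPred_eq, hz, true_and]
    · rw [Set.indicator_of_notMem (by exact hz)]
      have : Prod.mk z ⁻¹' S' = ∅ := by
        ext ξ
        simp only [hS', Set.mem_preimage, Set.mem_ofPred_eq, hz, false_and, Set.mem_empty_iff_false]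
      rw [this, measure_empty]
  have e2 : ((spM (diagonal Lam) 0).prod (gpi ι)) S = ENNReal.ofReal (IS Lam 0)⁻¹ *
      ∫⁻ u, ENNReal.ofReal (Real.exp (HE Lam 0 u)) * G u ∂(sph n n) := by
    rw [Measure.prod_apply hS, lint_spM _ _ hGm, ← lintegral_const_mul' _ _ ENNReal.ofReal_ne_top]
    refine lintegral_congr fun u => ?_
    rw [HM_diag, ISM_diag, ← mul_assoc, ← ENNReal.ofReal_mul (inv_nonneg.2 hI.le), div_eq_inv_mul]
  have h2 : ((spM (diagonal Lam) 0).prod (gpi ι)) S ≤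
      ENNReal.ofReal A * ((gpi (Fin n)).prod (gpi ι)) S' := by
    rw [e2, e1]
    refine (mul_le_mul_right h1 _).trans ?_
    rw [← mul_assoc, ← ENNReal.ofReal_mul (inv_nonneg.2 hI.le)]
    refine mul_le_mul_left (ENNReal.ofReal_le_ofReal ?_) _
    rw [inv_mul_le_iff₀ hI, mul_comm (IS Lam 0)]
    exact hA
  have h3 := ENNReal.toReal_mono (ENNReal.mul_ne_top ENNReal.ofReal_ne_top (measure_ne_top _ _)) h2
  rwa [ENNReal.toReal_mul, ENNReal.toReal_ofReal hA0.le] at h3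

/-- `E ^ (-1/2)` -/
noncomputable def rt (E : Vec n) : Mat n := diagonal fun a => (√(E a))⁻¹

theorem Cmp.pos (hn : 0 < n) {Lam : Vec n} {g B A : ℝ} (hA : Cmp Lam g B A) : 0 < A := by
  have hn' : (0 : ℝ) < n := by exact_mod_cast hn
  have : 0 < A * IS Lam 0 := lt_of_lt_of_le (by positivity) hA
  exact (mul_pos_iff_of_pos_right (IS_pos Lam 0)).1 this

/-- **one quadratic functional** under the spherical Gibbs law -/
theorem one_conc (hn : 0 < n) {Lam : Vec n} {g B A : ℝ} (hg : ∀ a, Lam a < g)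
    (hB : ∀ a, |Lam a| ≤ B) (hA : Cmp Lam g B A) {T1 : Mat n} {T2 : Matrix (Fin n) ι ℝ}
    {T W S d δ D : ℝ} (hT0 : 0 ≤ T) (hW : 0 ≤ W) (hT : OpLe T1 T) (hS : S + d ≤ W ^ 2 * n)
    (hD : d + (2 * T * W + T ^ 2) ≤ D)
    (h : ((gpi (Fin n)).prod (gpi ι)).real
      {p | d ≤ |F.sq ((T1 * rt fun a => g - Lam a) *ᵥ p.1 + T2 *ᵥ p.2) - S|} ≤ δ) :
    ((spM (diagonal Lam) 0).prod (gpi ι)).real
      {p | D ≤ |F.sq (T1 *ᵥ p.1 + T2 *ᵥ p.2) - S|} ≤ A * δ := by
  have hm : MeasurableSet {p : Vec n × (ι → ℝ) | D ≤ |F.sq (T1 *ᵥ p.1 + T2 *ᵥ p.2) - S|} :=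
    measurableSet_le measurable_const ((measurable_sq.comp
      (((measurable_matVec T1).comp measurable_fst).add
        ((measurable_matVec T2).comp measurable_snd))).sub_const _).abs
  refine (spM_le hn hg hB hA hm).trans (mul_le_mul_of_nonneg_left ?_ (hA.pos hn).le)
  refine (Tail.real_imp_le _ fun p hp => ?_).trans (shell_conc hn hT0 hW hT hS h)
  simp only [aff_zero, Set.mem_ofPred_eq] at hp
  exact ⟨hp.1, hD.trans hp.2⟩

theorem ae_sq (hn : 0 < n) (M : Mat n) (y : Vec n) :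
    ((spM M y).prod (gpi ι)).real {p | F.sq p.1 ≠ n} = 0 := by
  have h1 : ∀ᵐ u ∂(spM M y), F.sq u = n :=
    (withDensity_absolutelyContinuous _ _).ae_le (ae_sph hn (Nat.cast_nonneg n))
  have h2 := (Measure.quasiMeasurePreserving_fst (μ := spM M y) (ν := gpi ι)).ae h1
  rw [Measure.real, (ae_iff.1 h2 : _), ENNReal.toReal_zero]

/-- the comparison constant: polynomial factor times the cost of the tilt -/
theorem cmp_of (hn : 0 < n) {Lam : Vec n} {g B r : ℝ} (hg : ∀ a, Lam a < g)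
    (hB : ∀ a, |Lam a| ≤ B) (hs : ∑ a, 1 / (g - Lam a) ≤ n) (a0 : Fin n) (hr : g - Lam a0 ≤ r) :
    Cmp Lam g B ((72 * n ^ 8) ^ 2 *
      Real.exp ((|g - 1| + 3 * B + 3) / 2 + r * (n - ∑ a, 1 / (g - Lam a)) / 2)) := by
  have hn' : (0 : ℝ) < n := by exact_mod_cast hn
  have e0 : ∀ γ, sadF Lam 0 γ = ∑ a, 1 / (γ - Lam a) := fun γ => by simp [sadF]
  obtain ⟨γ, h1, h2, -, h4, h5⟩ := IS_ge hn (yt := 0) (Y := 0) hB (by simp [F.sq]) hg
    (by rw [e0]; exact hs)
  have h6 : ∀ a, Lam a < γ := fun a => by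
    have := h1 a
    have : 0 < 1 / (n : ℝ) := by positivity
    linarith
  have h7 := PhiS_tangent (yt := 0) hg h6
  rw [e0] at h7
  have h8 : (g - γ) * (n - ∑ a, 1 / (g - Lam a)) ≤ r * (n - ∑ a, 1 / (g - Lam a)) :=
    mul_le_mul_of_nonneg_right (by linarith [h6 a0]) (by linarith)
  unfold Cmp
  rw [div_le_iff₀ (by positivity)] at h5
  have h9 : Real.exp (PhiS Lam 0 g + (|g - 1| + B + 1) / 2) ≤
      Real.exp ((|g - 1| + 3 * B + 3) / 2 + r * (n - ∑ a, 1 / (g - Lam a)) / 2) *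
        Real.exp (PhiS Lam 0 γ - (B + 0 + 1)) := by
    rw [← Real.exp_add]
    exact Real.exp_le_exp.2 (by linarith)
  calc _ ≤ 72 * n ^ 8 * (Real.exp ((|g - 1| + 3 * B + 3) / 2
          + r * (n - ∑ a, 1 / (g - Lam a)) / 2) * (IS Lam 0 * (72 * n ^ 8))) :=
        mul_le_mul_of_nonneg_left (h9.trans (mul_le_mul_of_nonneg_left h5 (Real.exp_pos _).le))
          (by positivity)
    _ = _ := by ring

theorem cmp_of_cost {Lam : Vec n} {g A0 : ℝ} (B : ℝ)
    (h : Real.exp (PhiS Lam 0 g) ≤ A0 * IS Lam 0) :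
    Cmp Lam g B (72 * n ^ 8 * Real.exp ((|g - 1| + B + 1) / 2) * A0) := by
  unfold Cmp
  rw [Real.exp_add]
  calc _ = 72 * n ^ 8 * Real.exp ((|g - 1| + B + 1) / 2) * Real.exp (PhiS Lam 0 g) := by ring
    _ ≤ 72 * n ^ 8 * Real.exp ((|g - 1| + B + 1) / 2) * (A0 * IS Lam 0) :=
        mul_le_mul_of_nonneg_left h (by positivity)
    _ = _ := by ring

/-! ### frame data -/

/-- base spectrum `Lam`, precision `Q = R Rᵀ`, and the eigenframe `U` of `Lam - Q` -/
structure Dat (g : ℝ) (Lam mu : Vec n) (U Q : Mat n) (R : Matrix (Fin n) ι ℝ) : Prop where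
  orth : Uᵀ * U = 1
  diag : U * (diagonal Lam - Q) * Uᵀ = diagonal mu
  sqrt : R * Rᵀ = Q
  epos : ∀ a, Lam a < g
  npos : ∀ a, mu a < g

/-- the covariance of the frame spins in the eigenframe -/
noncomputable def Sm (g : ℝ) (Lam : Vec n) (U : Mat n) : Mat n :=
  U * diagonal (fun a => 1 / (g - Lam a)) * Uᵀ

/-- its inverse -/
noncomputable def Em (g : ℝ) (Lam : Vec n) (U : Mat n) : Mat n :=
  U * diagonal (fun a => g - Lam a) * Uᵀ

section

variable {g : ℝ} {Lam mu : Vec n} {U Q : Mat n} {R : Matrix (Fin n) ι ℝ}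

theorem Dat.of_eq (h1 : Uᵀ * U = 1) (h2 : diagonal Lam - Q = Uᵀ * diagonal mu * U)
    (h3 : R * Rᵀ = Q) (h4 : ∀ a, Lam a < g) (h5 : ∀ a, mu a < g) : Dat g Lam mu U Q R := by
  refine ⟨h1, ?_, h3, h4, h5⟩
  have h6 : U * Uᵀ = 1 := mul_eq_one_comm.1 h1
  rw [h2, ← Matrix.mul_assoc, ← Matrix.mul_assoc, h6, Matrix.one_mul, Matrix.mul_assoc, h6,
    Matrix.mul_one]

theorem Dat.ep (h : Dat g Lam mu U Q R) (a : Fin n) : 0 < g - Lam a := sub_pos.2 (h.epos a)

theorem Dat.np (h : Dat g Lam mu U Q R) (a : Fin n) : 0 < g - mu a := sub_pos.2 (h.npos a)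

theorem Dat.orth' (h : Dat g Lam mu U Q R) : U * Uᵀ = 1 := mul_eq_one_comm.1 h.orth

theorem Dat.symm (h : Dat g Lam mu U Q R) : Qᵀ = Q := by
  rw [← h.sqrt, Matrix.transpose_mul, Matrix.transpose_transpose]

theorem Dat.rt_sq (h : Dat g Lam mu U Q R) :
    rt (fun a => g - Lam a) * (rt fun a => g - Lam a)ᵀ = diagonal fun a => 1 / (g - Lam a) := by
  unfold rt
  rw [Matrix.diagonal_transpose, Matrix.diagonal_mul_diagonal]
  congr 1
  funext a
  rw [← mul_inv, Real.mul_self_sqrt (h.ep a).le, one_div]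

theorem Dat.conj (h : Dat g Lam mu U Q R) :
    U * Q * Uᵀ = diagonal (fun a => g - mu a) - Em g Lam U := by
  have e1 : diagonal (fun a => g - mu a) = g • (1 : Mat n) - diagonal mu := by
    rw [Matrix.smul_one_eq_diagonal, Matrix.diagonal_sub]
  have e2 : diagonal (fun a => g - Lam a) = g • (1 : Mat n) - diagonal Lam := by
    rw [Matrix.smul_one_eq_diagonal, Matrix.diagonal_sub]
  unfold Em
  rw [e1, e2, ← h.diag]
  simp only [Matrix.mul_sub, Matrix.sub_mul, Matrix.mul_smul, Matrix.smul_mul, Matrix.mul_one,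
    h.orth']
  abel

theorem Dat.SE (h : Dat g Lam mu U Q R) : Sm g Lam U * Em g Lam U = 1 := by
  unfold Sm Em
  calc _ = U * (diagonal (fun a => 1 / (g - Lam a)) * (Uᵀ * U) * diagonal fun a => g - Lam a) * Uᵀ := by
        simp only [Matrix.mul_assoc]
    _ = 1 := by
        rw [h.orth, Matrix.mul_one, Matrix.diagonal_mul_diagonal]
        have : (fun a => 1 / (g - Lam a) * (g - Lam a)) = fun _ => (1 : ℝ) :=
          funext fun a => one_div_mul_cancel (h.ep a).ne'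
        rw [this, Matrix.diagonal_one, Matrix.mul_one, h.orth']

theorem Dat.ES (h : Dat g Lam mu U Q R) : Em g Lam U * Sm g Lam U = 1 := mul_eq_one_comm.1 h.SE

theorem Dat.covX (h : Dat g Lam mu U Q R) (T : Mat n) :
    T * U * rt (fun a => g - Lam a) * (T * U * rt fun a => g - Lam a)ᵀ = T * Sm g Lam U * Tᵀ := by
  unfold Sm
  rw [← h.rt_sq]
  simp only [Matrix.transpose_mul, Matrix.mul_assoc]

theorem Dat.UQ (h : Dat g Lam mu U Q R) : U * Q = U * Q * Uᵀ * U := by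
  rw [Matrix.mul_assoc (U * Q), h.orth, Matrix.mul_one]

theorem Dat.covR (h : Dat g Lam mu U Q R) (T : Mat n) :
    T * U * R * (T * U * R)ᵀ = T * (U * Q * Uᵀ) * Tᵀ := by
  rw [← h.sqrt]
  simp only [Matrix.transpose_mul, Matrix.mul_assoc]

theorem Em_tr (g : ℝ) (Lam : Vec n) (U : Mat n) : (Em g Lam U)ᵀ = Em g Lam U := by
  unfold Em
  simp only [Matrix.transpose_mul, Matrix.transpose_transpose, Matrix.diagonal_transpose,
    Matrix.mul_assoc]

/-- the covariance of the field -/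
theorem Dat.covY (h : Dat g Lam mu U Q R) (f : Vec n) :
    diagonal f * U * Q * rt (fun a => g - Lam a) * (diagonal f * U * Q * rt fun a => g - Lam a)ᵀ
      + diagonal f * U * R * (diagonal f * U * R)ᵀ
      = diagonal (fun a => f a * (g - mu a)) * Sm g Lam U * diagonal (fun a => f a * (g - mu a))
        - diagonal fun a => f a ^ 2 * (g - mu a) := by
  set N : Mat n := diagonal fun a => g - mu a with hN
  have e1 : diagonal f * U * Q = diagonal f * (N - Em g Lam U) * U := by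
    rw [Matrix.mul_assoc, h.UQ, h.conj, Matrix.mul_assoc]
  have e2 : (diagonal f * (N - Em g Lam U))ᵀ = (N - Em g Lam U) * diagonal f := by
    rw [Matrix.transpose_mul, Matrix.transpose_sub, Em_tr, hN, Matrix.diagonal_transpose,
      Matrix.diagonal_transpose]
  have e3 : (N - Em g Lam U) * Sm g Lam U * (N - Em g Lam U) + (N - Em g Lam U)
      = N * Sm g Lam U * N - N := by
    rw [Matrix.sub_mul N, h.ES, Matrix.mul_sub, Matrix.sub_mul, Matrix.sub_mul, Matrix.one_mul,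
      Matrix.one_mul, Matrix.mul_assoc N _ (Em g Lam U), h.SE, Matrix.mul_one]
    abel
  have e4 : diagonal (fun a => f a * (g - mu a)) = diagonal f * N := by
    rw [hN, Matrix.diagonal_mul_diagonal]
  have e5 : diagonal (fun a => f a * (g - mu a)) = N * diagonal f := by
    rw [hN, Matrix.diagonal_mul_diagonal]
    congr 1; funext a; ring
  have e6 : diagonal (fun a => f a ^ 2 * (g - mu a)) = diagonal f * N * diagonal f := by
    rw [hN, Matrix.diagonal_mul_diagonal, Matrix.diagonal_mul_diagonal]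
    congr 1; funext a; ring
  rw [e1, h.covX, h.covR, h.conj, ← hN, e2, Matrix.diagonal_transpose, e6]
  nth_rewrite 2 [e5]
  rw [e4]
  calc _ = diagonal f * ((N - Em g Lam U) * Sm g Lam U * (N - Em g Lam U) + (N - Em g Lam U))
        * diagonal f := by simp only [Matrix.mul_add, Matrix.add_mul, Matrix.mul_assoc]
    _ = _ := by rw [e3]; simp only [Matrix.mul_sub, Matrix.sub_mul, Matrix.mul_assoc]

/-- the posterior covariance -/
theorem Dat.covZ (h : Dat g Lam mu U Q R) :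
    (U - diagonal (fun a => 1 / (g - mu a)) * U * Q) * rt (fun a => g - Lam a) *
        ((U - diagonal (fun a => 1 / (g - mu a)) * U * Q) * rt fun a => g - Lam a)ᵀ
      + -(diagonal (fun a => 1 / (g - mu a)) * U * R) *
        (-(diagonal (fun a => 1 / (g - mu a)) * U * R))ᵀ
      = diagonal fun a => 1 / (g - mu a) := by
  set N : Mat n := diagonal fun a => g - mu a with hN
  set G : Mat n := diagonal fun a => 1 / (g - mu a) with hG
  have e0 : G * N = 1 := by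
    rw [hG, hN, Matrix.diagonal_mul_diagonal]
    have : (fun a => 1 / (g - mu a) * (g - mu a)) = fun _ => (1 : ℝ) :=
      funext fun a => one_div_mul_cancel (h.np a).ne'
    rw [this, Matrix.diagonal_one]
  have eG : Gᵀ = G := Matrix.diagonal_transpose _
  have e1 : U - G * U * Q = G * Em g Lam U * U := by
    rw [Matrix.mul_assoc G, h.UQ, h.conj, ← Matrix.mul_assoc, Matrix.mul_sub, e0, Matrix.sub_mul,
      Matrix.one_mul]
    abel
  rw [e1, h.covX, Matrix.transpose_neg, Matrix.neg_mul, Matrix.mul_neg, neg_neg, h.covR, h.conj,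
    Matrix.transpose_mul, Em_tr, eG, Matrix.mul_assoc G (Em g Lam U), h.ES, Matrix.mul_one,
    Matrix.mul_sub, e0, Matrix.sub_mul, Matrix.one_mul, Matrix.mul_assoc]
  abel

theorem qf_diag (f u : Vec n) : qf (diagonal f) u = ∑ a, f a * u a ^ 2 := by
  unfold qf ip
  refine Finset.sum_congr rfl fun a _ => ?_
  rw [Matrix.mulVec_diagonal]; ring

theorem sum_le_sq {f : Vec n} {c : ℝ} (h : ∀ a, f a ≤ c) (u : Vec n) :
    ∑ a, f a * u a ^ 2 ≤ c * F.sq u := Sp.quad_le h u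

theorem opLe_diag {f : Vec n} {c : ℝ} (h : ∀ a, f a ^ 2 ≤ c ^ 2) : OpLe (diagonal f) c :=
  fun u => by rw [sq_diag]; exact sum_le_sq h u

theorem opLe_orth (h : Uᵀ * U = 1) : OpLe U 1 := fun u => by
  rw [sq_mulVec_orth h]; simp

theorem Dat.qf_Sm (h : Dat g Lam mu U Q R) {K : ℝ} (hK : ∀ a, 1 / (g - Lam a) ≤ K) (u : Vec n) :
    qf (Sm g Lam U) u ≤ K * F.sq u := by
  have e : Sm g Lam U = Uᵀᵀ * diagonal (fun a => 1 / (g - Lam a)) * Uᵀ := rfl
  rw [e, Plant.qf_conj, qf_diag,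
    ← sq_mulVec_orth (O := Uᵀ) (by rw [Matrix.transpose_transpose, h.orth']) u]
  exact sum_le_sq hK _

theorem qf_sub (A B : Mat n) (u : Vec n) : qf (A - B) u = qf A u - qf B u := by
  unfold qf
  rw [Matrix.sub_mulVec, ip_eq_dot, ip_eq_dot, ip_eq_dot, dotProduct_sub]

theorem trace_conj_diag (f : Vec n) (S : Mat n) :
    (diagonal f * S * diagonal f).trace = ∑ a, f a ^ 2 * S a a := by
  unfold Matrix.trace
  refine Finset.sum_congr rfl fun a _ => ?_
  rw [Matrix.diag_apply, Matrix.mul_diagonal, Matrix.diagonal_mul]; ring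

theorem Dat.sum_Sm (h : Dat g Lam mu U Q R) :
    ∑ a, Sm g Lam U a a = ∑ a, 1 / (g - Lam a) := by
  have : (Sm g Lam U).trace = ∑ a, 1 / (g - Lam a) := by
    unfold Sm
    rw [Matrix.trace_mul_comm, ← Matrix.mul_assoc, h.orth, Matrix.one_mul, Matrix.trace_diagonal]
  exact this

/-- the prior variance exceeds the posterior variance -/
theorem Dat.del_nonneg (h : Dat g Lam mu U Q R) (a : Fin n) :
    1 / (g - mu a) ≤ Sm g Lam U a a := by
  have h1 := congrFun (congrFun (h.covY fun a => 1 / (g - mu a)) a) a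
  have h2 : ∀ {κ : Type} [Fintype κ] (B : Matrix (Fin n) κ ℝ), 0 ≤ (B * Bᵀ) a a := fun B => by
    rw [Matrix.mul_apply]
    exact Finset.sum_nonneg fun j _ => mul_self_nonneg _
  rw [Matrix.add_apply, Matrix.sub_apply, Matrix.mul_diagonal, Matrix.diagonal_mul,
    Matrix.diagonal_apply_eq, one_div_mul_cancel (h.np a).ne'] at h1
  have h3 : (1 / (g - mu a)) ^ 2 * (g - mu a) = 1 / (g - mu a) := by
    rw [pow_two, mul_assoc, one_div_mul_cancel (h.np a).ne', mul_one]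
  have h4 := add_nonneg (h2 _) (h2 _) |>.trans h1.le
  linarith

theorem Dat.diag_Q (h : Dat g Lam mu U Q R) {q : ℝ} (hq : ∀ v, qf Q v ≤ q * F.sq v) (u : Vec n) :
    qf (U * Q * Uᵀ) u ≤ q * F.sq u := by
  have e : U * Q * Uᵀ = Uᵀᵀ * Q * Uᵀ := rfl
  rw [e, Plant.qf_conj,
    ← sq_mulVec_orth (O := Uᵀ) (by rw [Matrix.transpose_transpose, h.orth']) u]
  exact hq _

end

theorem qf_conj_le {S : Mat n} {f : Vec n} {K c : ℝ} (hK : 0 ≤ K) (h : ∀ u, qf S u ≤ K * F.sq u)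
    (hf : ∀ a, f a ^ 2 ≤ c) (u : Vec n) : qf (diagonal f * S * diagonal f) u ≤ K * c * F.sq u := by
  have e : diagonal f * S * diagonal f = (diagonal f)ᵀ * S * diagonal f := by
    rw [Matrix.diagonal_transpose]
  rw [e, Plant.qf_conj, mul_assoc]
  refine (h _).trans (mul_le_mul_of_nonneg_left ?_ hK)
  rw [sq_diag]
  exact sum_le_sq hf u

theorem entry_le {A : Mat n} {K : ℝ} (h : ∀ u, qf A u ≤ K * F.sq u) (a : Fin n) : A a a ≤ K := by
  have := h (Pi.single a 1)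
  simpa [qf, ip, F.sq, Pi.single_apply, Finset.sum_ite_eq'] using this

theorem qf_le_of_op {Q : Mat n} {q : ℝ} (h : OpLe Q q) (hq : 0 ≤ q) (v : Vec n) :
    qf Q v ≤ q * F.sq v := by
  have h1 := (le_abs_self _).trans (abs_ip_le v (Q *ᵥ v))
  have h2 := mul_le_mul_of_nonneg_left (h.nv_le hq v) (nv_nonneg v)
  rw [← nv_sq]
  unfold qf
  nlinarith

theorem four_sqrt {K V x : ℝ} (hK : 0 ≤ K) (hV : 0 ≤ V) (hx : 0 ≤ x) :
    4 * √(K * V * x) + 8 * K * x ≤ 2 * V + 10 * (K * x) := by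
  have h : √(K * V * x) ≤ (V + K * x) / 2 := by
    rw [Real.sqrt_le_left (by positivity)]
    nlinarith [sq_nonneg (V - K * x)]
  linarith

/-! ### the event -/

/-- the mean of the squared length of the spherical point -/
noncomputable def trD (g : ℝ) (Lam mu : Vec n) : ℝ := ∑ a, 1 / (g - Lam a) - ∑ a, 1 / (g - mu a)

/-- bounds of four quadratic functionals at the scale `u ^ 2`; `X` are the spins and `Y` is the
field, in the eigenframe -/
structure Ev (L u g : ℝ) (Lam mu X Y : Vec n) : Prop where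
  sx : F.sq X = n
  v0 : |∑ a, Y a ^ 2 / (g - mu a) ^ 2 - trD g Lam mu| ≤ n * u / (8 * L ^ 2)
  v1 : ∑ a, Y a ^ 2 / (g - mu a) ≤ 28 * L ^ 3 * (n * u ^ 2)
  v2 : ∑ a, (X a - Y a / (g - mu a)) ^ 2 / (g - mu a) ≤ 14 * L ^ 2 * (n / u)
  v3 : |∑ a, (X a - Y a / (g - mu a)) ^ 2 - ∑ a, 1 / (g - mu a)| ≤ 8 * L * (n * u)

section

variable {g : ℝ} {Lam mu : Vec n} {U Q : Mat n} {R : Matrix (Fin n) ι ℝ}

theorem Dat.trD_eq (h : Dat g Lam mu U Q R) :
    trD g Lam mu = ∑ a, (Sm g Lam U a a - 1 / (g - mu a)) := by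
  rw [Finset.sum_sub_distrib, h.sum_Sm]; rfl

theorem Dat.trD_nonneg (h : Dat g Lam mu U Q R) : 0 ≤ trD g Lam mu := by
  rw [h.trD_eq]
  exact Finset.sum_nonneg fun a _ => sub_nonneg.2 (h.del_nonneg a)

theorem field_eq (f : Vec n) (U Q : Mat n) (R : Matrix (Fin n) ι ℝ) (x : Vec n) (ξ : ι → ℝ) :
    (diagonal f * U * Q) *ᵥ x + (diagonal f * U * R) *ᵥ ξ
      = diagonal f *ᵥ (U *ᵥ (Q *ᵥ x + R *ᵥ ξ)) := by
  simp only [Matrix.mulVec_add, Matrix.mulVec_mulVec, Matrix.mul_assoc]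

theorem resid_eq (g : ℝ) (mu : Vec n) (U Q : Mat n) (R : Matrix (Fin n) ι ℝ) (x : Vec n)
    (ξ : ι → ℝ) : (U - diagonal (fun a => 1 / (g - mu a)) * U * Q) *ᵥ x +
      (-(diagonal (fun a => 1 / (g - mu a)) * U * R)) *ᵥ ξ
      = fun a => (U *ᵥ x) a - (U *ᵥ (Q *ᵥ x + R *ᵥ ξ)) a / (g - mu a) := by
  rw [Matrix.sub_mulVec, Matrix.neg_mulVec, ← sub_eq_add_neg, sub_sub, field_eq]
  funext a
  rw [Pi.sub_apply, Matrix.mulVec_diagonal, one_div_mul_eq_div]

theorem Dat.isq (h : Dat g Lam mu U Q R) (a : Fin n) :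
    (√(g - mu a))⁻¹ ^ 2 = 1 / (g - mu a) := by
  rw [inv_pow, Real.sq_sqrt (h.np a).le, one_div]

/-- the hypotheses on the scale `u ^ 2`, the gap `e` of the base spectrum and the rate `x` -/
structure Par (L u e x g B A : ℝ) (Lam mu : Vec n) (Q : Mat n) : Prop where
  hn : 0 < n
  L1 : 1 ≤ L
  u0 : 0 < u
  u1 : u ≤ 1
  e0 : 0 < e
  bd : ∀ a, |Lam a| ≤ B
  cmp : Cmp Lam g B A
  op : OpLe Q (L * u ^ 2)
  gap : ∀ a, e ≤ g - Lam a
  nu : ∀ a, u ^ 2 / L ≤ g - mu a
  tau : ∑ a, 1 / (g - Lam a) ≤ n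
  trd : n - ∑ a, 1 / (g - mu a) ≤ L * (n * u)
  t2 : u * ∑ a, 1 / (g - mu a) ^ 2 ≤ L * n
  x1 : 1 ≤ x
  xe : 40000 * L ^ 5 * x ≤ n * u * e
  xu : x ≤ n * u ^ 3
  big : 80 * L ^ 6 ≤ n * u

variable {L u e x B A : ℝ}

theorem Par.ninv (p : Par L u e x g B A Lam mu Q) (a : Fin n) : 1 / (g - mu a) ≤ L / u ^ 2 := by
  have h0 := p.u0
  have h1 : 0 < L := lt_of_lt_of_le one_pos p.L1
  have := one_div_le_one_div_of_le (by positivity) (p.nu a)
  rwa [one_div_div] at this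

theorem Par.opG (p : Par L u e x g B A Lam mu Q) (h : Dat g Lam mu U Q R) :
    OpLe (diagonal (fun a => 1 / (g - mu a)) * U * Q) (L ^ 2) := by
  have h0 := p.u0
  have h1 : 0 < L := lt_of_lt_of_le one_pos p.L1
  have := ((opLe_diag fun a => pow_le_pow_left₀ (one_div_pos.2 (h.np a)).le (p.ninv a) 2).mulN
    (opLe_orth h.orth) (by positivity) zero_le_one).mulN p.op (by positivity) (by positivity)
  have e : L / u ^ 2 * 1 * (L * u ^ 2) = L ^ 2 := by field_simp
  rwa [e] at this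

theorem Par.opZ (p : Par L u e x g B A Lam mu Q) (h : Dat g Lam mu U Q R) :
    OpLe (U - diagonal (fun a => 1 / (g - mu a)) * U * Q) (2 * L ^ 2) :=
  ((opLe_orth h.orth).sub (p.opG h) zero_le_one (by positivity)).monoN (by positivity)
    (by nlinarith [p.L1])

theorem Par.trD_le (p : Par L u e x g B A Lam mu Q) : trD g Lam mu ≤ L * (n * u) := by
  unfold trD
  linarith [p.tau, p.trd]

theorem Par.tr_le (p : Par L u e x g B A Lam mu Q) (h : Dat g Lam mu U Q R) :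
    ∑ a, 1 / (g - mu a) ≤ n := by
  have := h.trD_nonneg
  unfold trD at this
  linarith [p.tau]

theorem Par.t2' (p : Par L u e x g B A Lam mu Q) : ∑ a, 1 / (g - mu a) ^ 2 ≤ L * (n / u) := by
  rw [← mul_div_assoc, le_div_iff₀ p.u0, mul_comm]
  exact p.t2

theorem Par.E0 (p : Par L u e x g B A Lam mu Q) (h : Dat g Lam mu U Q R) :
    ((spM (diagonal Lam) 0).prod (gpi ι)).real {q | n * u / (8 * L ^ 2) ≤
      |∑ a, (U *ᵥ (Q *ᵥ q.1 + R *ᵥ q.2)) a ^ 2 / (g - mu a) ^ 2 - trD g Lam mu|}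
      ≤ A * (2 * Real.exp (-x)) := by
  have h0 := p.u0
  have h1 := p.L1
  have he := p.e0
  have hx := p.x1
  have hn : (0 : ℝ) ≤ n := Nat.cast_nonneg n
  have hC := h.covY fun a => 1 / (g - mu a)
  have c1 : (fun a => 1 / (g - mu a) * (g - mu a)) = fun _ => (1 : ℝ) :=
    funext fun a => one_div_mul_cancel (h.np a).ne'
  have c2 : (fun a => (1 / (g - mu a)) ^ 2 * (g - mu a)) = fun a => 1 / (g - mu a) :=
    funext fun a => by rw [pow_two, mul_assoc, one_div_mul_cancel (h.np a).ne', mul_one]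
  rw [c1, c2, Matrix.diagonal_one, Matrix.one_mul, Matrix.mul_one] at hC
  have tr : (Sm g Lam U - diagonal fun a => 1 / (g - mu a)).trace = trD g Lam mu := by
    rw [Matrix.trace_sub, Matrix.trace_diagonal, trD, ← h.sum_Sm]; rfl
  have k := pair_conc (K := 1 / e) (V := L * (n * u)) (by positivity) hx hC (fun v => by
    rw [qf_sub, qf_diag]
    have a1 := h.qf_Sm (fun a => one_div_le_one_div_of_le he (p.gap a)) v
    have a2 : 0 ≤ ∑ a, 1 / (g - mu a) * v a ^ 2 := Finset.sum_nonneg fun a _ =>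
      mul_nonneg (one_div_pos.2 (h.np a)).le (sq_nonneg _)
    linarith) (by positivity) (by rw [tr]; exact p.trD_le)
  rw [tr] at k
  have b1 : 1 / e * x ≤ n * u / (40000 * L ^ 5) := by
    rw [one_div_mul_eq_div, div_le_div_iff₀ he (by positivity)]
    linarith [p.xe]
  have b2 : √(1 / e * (L * (n * u)) * x) ≤ n * u / (200 * L ^ 2) := by
    rw [Real.sqrt_le_left (by positivity)]
    calc _ = L * (n * u) * (1 / e * x) := by ring
      _ ≤ L * (n * u) * (n * u / (40000 * L ^ 5)) := mul_le_mul_of_nonneg_left b1 (by positivity)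
      _ = _ := by field_simp; ring
  have b3 : n * u / (40000 * L ^ 5) ≤ n * u / (40000 * L ^ 2) :=
    div_le_div_of_nonneg_left (by positivity) (by positivity)
      (mul_le_mul_of_nonneg_left (pow_le_pow_right₀ h1 (by norm_num)) (by norm_num))
  set m := n * u / L ^ 2 with hm
  have m0 : 0 ≤ m := by positivity
  have m1 : n * u / (200 * L ^ 2) = m / 200 := by rw [hm]; field_simp
  have m2 : n * u / (40000 * L ^ 2) = m / 40000 := by rw [hm]; field_simp
  have m3 : n * u / (8 * L ^ 2) = m / 8 := by rw [hm]; field_simp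
  have m4 : 80 * L ^ 4 ≤ m := by
    rw [hm, le_div_iff₀ (by positivity)]
    linarith [p.big]
  have m5 : m ≤ n * u := div_le_self (by positivity) (one_le_pow₀ h1)
  have m6 : (n : ℝ) * u ≤ n := mul_le_of_le_one_right hn p.u1
  have m7 : L * (n * u) ≤ L ^ 2 * n :=
    mul_le_mul (by nlinarith) m6 (by positivity) (by positivity)
  have m8 : (n : ℝ) ≤ L ^ 2 * n := le_mul_of_one_le_left hn (one_le_pow₀ h1)
  have m9 : L ^ 3 ≤ L ^ 4 := pow_le_pow_right₀ h1 (by norm_num)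
  have key := one_conc p.hn h.epos p.bd p.cmp (W := 2 * L) (D := n * u / (8 * L ^ 2))
    (by positivity) (by positivity) (p.opG h) (by linarith [p.trD_le]) (by linarith) k
  refine (Tail.real_imp_le _ fun q hq => ?_).trans key
  rw [field_eq, sq_diag]
  refine hq.trans (le_of_eq ?_)
  congr 2
  exact Finset.sum_congr rfl fun a _ => by rw [_root_.one_div_pow, one_div_mul_eq_div]

theorem Par.E1 (p : Par L u e x g B A Lam mu Q) (h : Dat g Lam mu U Q R) :
    ((spM (diagonal Lam) 0).prod (gpi ι)).real {q | F.sq q.1 = n ∧ 28 * L ^ 3 * (n * u ^ 2) <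
      ∑ a, (U *ᵥ (Q *ᵥ q.1 + R *ᵥ q.2)) a ^ 2 / (g - mu a)} ≤ A * (2 * Real.exp (-x)) := by
  have h0 := p.u0
  have h1 := p.L1
  have hx := p.x1
  have hn : (0 : ℝ) ≤ n := Nat.cast_nonneg n
  set f : Vec n := fun a => (√(g - mu a))⁻¹ with hf
  have hq := h.diag_Q (qf_le_of_op p.op (by positivity))
  have hC : (0 : Mat n) * rt (fun a => g - Lam a) * ((0 : Mat n) * rt fun a => g - Lam a)ᵀ +
      diagonal f * U * R * (diagonal f * U * R)ᵀ = diagonal f * (U * Q * Uᵀ) * diagonal f := by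
    rw [h.covR, Matrix.zero_mul, Matrix.zero_mul, zero_add, Matrix.diagonal_transpose]
  have tr : (diagonal f * (U * Q * Uᵀ) * diagonal f).trace ≤ L * (n * u ^ 2) := by
    rw [trace_conj_diag]
    calc _ ≤ ∑ a, 1 / (g - mu a) * (L * u ^ 2) := Finset.sum_le_sum fun a _ => by
          rw [hf, h.isq]
          exact mul_le_mul_of_nonneg_left (entry_le hq a) (one_div_pos.2 (h.np a)).le
      _ ≤ n * (L * u ^ 2) := by
          rw [← Finset.sum_mul]
          exact mul_le_mul_of_nonneg_right (p.tr_le h) (by positivity)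
      _ = _ := by ring
  have k := pair_conc (K := L ^ 2) (V := L * (n * u ^ 2)) (by positivity) hx hC (fun v => by
    have a1 := qf_conj_le (by positivity) hq (f := f) (c := L / u ^ 2)
      (fun a => by rw [hf, h.isq]; exact p.ninv a) v
    have e : L * u ^ 2 * (L / u ^ 2) = L ^ 2 := by field_simp
    rwa [e] at a1) (by positivity) tr
  have b1 := four_sqrt (K := L ^ 2) (V := L * (n * u ^ 2)) (x := x) (by positivity) (by positivity)
    (by linarith)
  set m := n * u ^ 2 with hm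
  have m0 : 0 ≤ m := by positivity
  have m1 : x ≤ m := p.xu.trans (mul_le_mul_of_nonneg_left
    (pow_le_pow_of_le_one h0.le p.u1 (by norm_num)) hn)
  have m2 : L ^ 2 * x ≤ L ^ 2 * m := mul_le_mul_of_nonneg_left m1 (by positivity)
  have m3 : L * m ≤ L ^ 2 * m := mul_le_mul_of_nonneg_right (by nlinarith) m0
  have m4 : L ^ 2 * m ≤ L ^ 2 * n :=
    mul_le_mul_of_nonneg_left (mul_le_of_le_one_right hn (pow_le_one₀ h0.le p.u1)) (by positivity)
  have m5 : L ^ 2 * m ≤ L ^ 3 * m :=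
    mul_le_mul_of_nonneg_right (pow_le_pow_right₀ h1 (by norm_num)) m0
  have m6 : 0 ≤ L ^ 2 * (n : ℝ) := by positivity
  have key := one_conc p.hn h.epos p.bd p.cmp (T1 := 0) (T := 0) (W := 4 * L) (D := 12 * L ^ 2 * m)
    le_rfl (by positivity) (fun v => by simp [F.sq]) (by linarith) (by linarith) k
  refine (Tail.real_imp_le _ fun q hq => ?_).trans key
  obtain ⟨q1, q2⟩ := hq
  rw [Matrix.zero_mulVec, zero_add, ← Matrix.mulVec_mulVec, ← Matrix.mulVec_mulVec, sq_diag]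
  have c1 : ∑ a, (U *ᵥ (Q *ᵥ q.1 + R *ᵥ q.2)) a ^ 2 / (g - mu a) ≤
      2 * ∑ a, 1 / (g - mu a) * (U *ᵥ (Q *ᵥ q.1)) a ^ 2 +
        2 * ∑ a, f a ^ 2 * (U *ᵥ (R *ᵥ q.2)) a ^ 2 := by
    rw [Finset.mul_sum, Finset.mul_sum, ← Finset.sum_add_distrib]
    refine Finset.sum_le_sum fun a _ => ?_
    rw [hf, h.isq, Matrix.mulVec_add, Pi.add_apply, ← one_div_mul_eq_div]
    have := mul_nonneg (one_div_pos.2 (h.np a)).le
      (sq_nonneg ((U *ᵥ (Q *ᵥ q.1)) a - (U *ᵥ (R *ᵥ q.2)) a))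
    nlinarith
  have c2 : ∑ a, 1 / (g - mu a) * (U *ᵥ (Q *ᵥ q.1)) a ^ 2 ≤ L ^ 3 * m := by
    refine (sum_le_sq p.ninv _).trans ?_
    rw [sq_mulVec_orth h.orth]
    calc _ ≤ L / u ^ 2 * ((L * u ^ 2) ^ 2 * F.sq q.1) :=
          mul_le_mul_of_nonneg_left (p.op _) (by positivity)
      _ = _ := by rw [q1, hm]; field_simp
  exact le_trans (by linarith) (le_abs_self _)

theorem Par.E2 (p : Par L u e x g B A Lam mu Q) (h : Dat g Lam mu U Q R) :
    ((spM (diagonal Lam) 0).prod (gpi ι)).real {q | 14 * L ^ 2 * (n / u) <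
      ∑ a, ((U *ᵥ q.1) a - (U *ᵥ (Q *ᵥ q.1 + R *ᵥ q.2)) a / (g - mu a)) ^ 2 / (g - mu a)}
      ≤ A * (2 * Real.exp (-x)) := by
  have h0 := p.u0
  have h1 := p.L1
  have hx := p.x1
  have hn : (0 : ℝ) ≤ n := Nat.cast_nonneg n
  set f : Vec n := fun a => (√(g - mu a))⁻¹ with hf
  set Z1 := U - diagonal (fun a => 1 / (g - mu a)) * U * Q with hZ1
  set Z2 := -(diagonal (fun a => 1 / (g - mu a)) * U * R) with hZ2
  have hC : diagonal f * Z1 * rt (fun a => g - Lam a) *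
      (diagonal f * Z1 * rt fun a => g - Lam a)ᵀ + diagonal f * Z2 * (diagonal f * Z2)ᵀ
      = diagonal fun a => 1 / (g - mu a) ^ 2 := by
    have e1 := h.covZ
    rw [← hZ1, ← hZ2] at e1
    calc _ = diagonal f * (Z1 * rt (fun a => g - Lam a) * (Z1 * rt fun a => g - Lam a)ᵀ
          + Z2 * Z2ᵀ) * diagonal f := by
          simp only [Matrix.transpose_mul, Matrix.diagonal_transpose, Matrix.mul_add,
            Matrix.add_mul, Matrix.mul_assoc]
      _ = _ := by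
          rw [e1, Matrix.diagonal_mul_diagonal, Matrix.diagonal_mul_diagonal]
          congr 1
          funext a
          rw [← _root_.one_div_pow, pow_two, mul_right_comm, ← pow_two (f a), hf, h.isq]
  have k := pair_conc (K := L ^ 2 / u ^ 4) (V := L * (n / u)) (by positivity) hx hC (fun v => by
    rw [qf_diag]
    refine sum_le_sq (fun a => ?_) v
    rw [← _root_.one_div_pow, show L ^ 2 / u ^ 4 = (L / u ^ 2) ^ 2 by ring]
    exact pow_le_pow_left₀ (one_div_pos.2 (h.np a)).le (p.ninv a) 2) (by positivity)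
    (by rw [Matrix.trace_diagonal]; exact p.t2')
  rw [Matrix.trace_diagonal] at k
  have b1 := four_sqrt (K := L ^ 2 / u ^ 4) (V := L * (n / u)) (x := x) (by positivity)
    (by positivity) (by linarith)
  set m := n / u with hm
  have m0 : 0 ≤ m := by positivity
  have m2 : L ^ 2 / u ^ 4 * x ≤ L ^ 2 * m := by
    calc _ ≤ L ^ 2 / u ^ 4 * (n * u ^ 3) := mul_le_mul_of_nonneg_left p.xu (by positivity)
      _ = _ := by rw [hm]; field_simp
  have m3 : L * m ≤ L ^ 2 * m := mul_le_mul_of_nonneg_right (by nlinarith) m0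
  have m4 : 16 * (L ^ 2 * m) ≤ (4 * L / u) ^ 2 * n := by
    have : m ≤ n / u ^ 2 := div_le_div_of_nonneg_left hn (by positivity) (by nlinarith [p.u1])
    calc _ ≤ 16 * (L ^ 2 * (n / u ^ 2)) := by gcongr
      _ = _ := by field_simp; ring
  have m5 : 2 * (L / u * (2 * L ^ 2)) * (4 * L / u) + (L / u * (2 * L ^ 2)) ^ 2 ≤ L ^ 2 * m := by
    have a1 : L ^ 4 ≤ L ^ 6 := pow_le_pow_right₀ h1 (by norm_num)
    have a2 : 0 ≤ L ^ 6 := by positivity
    calc _ = (16 * L ^ 4 + 4 * L ^ 6) / u ^ 2 := by field_simp; ring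
      _ ≤ n * u / u ^ 2 := div_le_div_of_nonneg_right (by linarith [p.big]) (by positivity)
      _ = 1 * m := by rw [hm]; field_simp
      _ ≤ _ := mul_le_mul_of_nonneg_right (one_le_pow₀ h1) m0
  have o : OpLe (diagonal f * Z1) (L / u * (2 * L ^ 2)) :=
    (opLe_diag fun a => by
      rw [hf, h.isq, div_pow]
      exact (p.ninv a).trans (div_le_div_of_nonneg_right (by nlinarith) (by positivity))).mulN
      (p.opZ h) (by positivity) (by positivity)
  have m6 : 0 ≤ L ^ 2 * m := by positivity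
  have t2 := p.t2'
  have key := one_conc p.hn h.epos p.bd p.cmp (W := 4 * L / u) (D := 13 * L ^ 2 * m)
    (by positivity) (by positivity) o (by linarith) (by linarith) k
  refine (Tail.real_imp_le _ fun q hq => ?_).trans key
  rw [← Matrix.mulVec_mulVec, ← Matrix.mulVec_mulVec, ← Matrix.mulVec_add, hZ1, hZ2, resid_eq,
    sq_diag]
  have c1 : ∑ a, ((U *ᵥ q.1) a - (U *ᵥ (Q *ᵥ q.1 + R *ᵥ q.2)) a / (g - mu a)) ^ 2 / (g - mu a)
      = ∑ a, f a ^ 2 * ((U *ᵥ q.1) a - (U *ᵥ (Q *ᵥ q.1 + R *ᵥ q.2)) a / (g - mu a)) ^ 2 :=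
    Finset.sum_congr rfl fun a _ => by rw [hf, h.isq, one_div_mul_eq_div]
  rw [c1] at hq
  exact le_trans (by linarith) (le_abs_self _)

theorem Par.E3 (p : Par L u e x g B A Lam mu Q) (h : Dat g Lam mu U Q R) :
    ((spM (diagonal Lam) 0).prod (gpi ι)).real {q | 8 * L * (n * u) ≤
      |∑ a, ((U *ᵥ q.1) a - (U *ᵥ (Q *ᵥ q.1 + R *ᵥ q.2)) a / (g - mu a)) ^ 2
        - ∑ a, 1 / (g - mu a)|} ≤ A * (2 * Real.exp (-x)) := by
  have h0 := p.u0
  have h1 := p.L1
  have hx := p.x1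
  have hn : (0 : ℝ) < n := by exact_mod_cast p.hn
  have k := pair_hw (M := L / u ^ 2) (V := L * (n / u)) (x := x) (by positivity) (by positivity)
    (by linarith) h.covZ (fun a => (one_div_pos.2 (h.np a)).le) p.ninv
    (by simpa only [_root_.one_div_pow] using p.t2')
  set m := n * u with hm
  have m0 : 0 ≤ m := by positivity
  have b1 : √(2 * (L * (n / u)) * x) ≤ 3 / 2 * L * m := by
    rw [Real.sqrt_le_left (by positivity)]
    calc _ ≤ 2 * (L * (n / u)) * (n * u ^ 3) := mul_le_mul_of_nonneg_left p.xu (by positivity)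
      _ = 2 * L * m ^ 2 := by rw [hm]; field_simp
      _ ≤ 9 / 4 * L ^ 2 * m ^ 2 := mul_le_mul_of_nonneg_right (by nlinarith) (by positivity)
      _ = _ := by ring
  have b2 : L / u ^ 2 * x ≤ L * m := by
    calc _ ≤ L / u ^ 2 * (n * u ^ 3) := mul_le_mul_of_nonneg_left p.xu (by positivity)
      _ = _ := by rw [hm]; field_simp
  have m1 : L * m ≤ L ^ 2 * n := by
    exact mul_le_mul (by nlinarith) (mul_le_of_le_one_right hn.le p.u1) m0 (by positivity)
  have m2 : (n : ℝ) ≤ L ^ 2 * n := le_mul_of_one_le_left hn.le (one_le_pow₀ h1)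
  have m3 : L ^ 3 ≤ L ^ 6 := pow_le_pow_right₀ h1 (by norm_num)
  have m4 : L ^ 4 ≤ L ^ 6 := pow_le_pow_right₀ h1 (by norm_num)
  have m5 : m ≤ L * m := le_mul_of_one_le_left m0 h1
  have m6 : 0 ≤ L ^ 6 := by positivity
  have tr := p.tr_le h
  have big := p.big
  have key := one_conc p.hn h.epos p.bd p.cmp (W := 3 * L) (D := 8 * L * m)
    (by positivity) (by positivity) (p.opZ h) (by linarith) (by linarith) k
  refine (Tail.real_imp_le _ fun q hq => ?_).trans key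
  rw [resid_eq]
  exact hq

/-- **concentration of the four functionals** -/
theorem Par.ev (p : Par L u e x g B A Lam mu Q) (h : Dat g Lam mu U Q R) :
    ((spM (diagonal Lam) 0).prod (gpi ι)).real {q | ¬ Ev L u g Lam mu
      (U *ᵥ q.1) (U *ᵥ (Q *ᵥ q.1 + R *ᵥ q.2))} ≤ A * (8 * Real.exp (-x)) := by
  have E4 := ae_sq (ι := ι) p.hn (diagonal Lam) 0
  set μ := (spM (diagonal Lam) 0).prod (gpi ι) with hμ
  refine le_trans (Tail.real_or_le μ (q := fun q => F.sq q.1 ≠ n) (r := fun q => (_ ∨ _) ∨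
    (_ ∨ _)) fun q hq => ?_) (le_trans (add_le_add E4.le ((Tail.real_or_le μ
      fun q hq => hq).trans (add_le_add ((Tail.real_or_le μ fun q hq => hq).trans
        (add_le_add (p.E0 h) (p.E1 h))) ((Tail.real_or_le μ fun q hq => hq).trans
          (add_le_add (p.E2 h) (p.E3 h)))))) (le_of_eq (by ring)))
  by_contra hc
  simp only [not_or, not_le, ne_eq, not_not, not_and, not_lt] at hc
  obtain ⟨c0, ⟨c1, c2⟩, c3, c4⟩ := hc
  exact hq ⟨by rw [sq_mulVec_orth h.orth, c0], c1.le, c2 c0, c3, c4.le⟩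

end

end Vale.Agent.N150.AdmP
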