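import Vale.Agent.N150.CapDef
import Vale.Agent.N150.Plant
import Vale.Agent.N150.A1Base

/-! P150: one universal channel process. The state carries the coupling matrix, the future driving
matrices and the field, so that all data are jointly measurable in the matrices and every
deterministic schedule (cap flow, bridge) is a choice of the starting state. -/

open Matrix MeasureTheory Finset

namespace Vale.Agent.N150.Cap

open Vale.Agent.P150 Vale.Agent.P150.F Vale.Agent.P150.F.Ms Vale.Agent.N150.Sp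

variable {n : ℕ}

/-- states: time index, coupling matrix, future driving matrices, field -/
abbrev St (n : ℕ) := ℕ × (Fin n → Fin n → ℝ) × (ℕ → Fin n → Fin n → ℝ) × Vec n

/-- time index -/
def sk (s : St n) : ℕ := s.1
/-- coupling matrix -/
def sJ (s : St n) : Mat n := Matrix.of s.2.1
/-- the driving matrix `j` steps ahead -/
def sR (s : St n) (j : ℕ) : Mat n := Matrix.of (s.2.2.1 j)
/-- field -/
def sy (s : St n) : Vec n := s.2.2.2
/-- constructor -/
def mkS (k : ℕ) (J : Mat n) (R : ℕ → Mat n) (y : Vec n) : St n :=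
  (k, fun i j => J i j, fun l i j => R l i j, y)

@[simp] theorem sk_mkS (k : ℕ) (J : Mat n) (R : ℕ → Mat n) (y : Vec n) : sk (mkS k J R y) = k := rfl
@[simp] theorem sJ_mkS (k : ℕ) (J : Mat n) (R : ℕ → Mat n) (y : Vec n) : sJ (mkS k J R y) = J := rfl
@[simp] theorem sR_mkS (k : ℕ) (J : Mat n) (R : ℕ → Mat n) (y : Vec n) (j : ℕ) :
    sR (mkS k J R y) j = R j := rfl
@[simp] theorem sy_mkS (k : ℕ) (J : Mat n) (R : ℕ → Mat n) (y : Vec n) : sy (mkS k J R y) = y := rfl

theorem meas_sk : Measurable (sk : St n → ℕ) := measurable_fst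

theorem mm_sJ : MMat (sJ : St n → Mat n) := fun i j =>
  (measurable_pi_apply j).comp ((measurable_pi_apply i).comp (measurable_fst.comp measurable_snd))

theorem mm_sR (l : ℕ) : MMat fun s : St n => sR s l := fun i j =>
  (measurable_pi_apply j).comp ((measurable_pi_apply i).comp ((measurable_pi_apply l).comp
    (measurable_fst.comp (measurable_snd.comp measurable_snd))))

theorem meas_sy : Measurable (sy : St n → Vec n) :=
  measurable_snd.comp (measurable_snd.comp measurable_snd)

theorem mv_sy : MVec (sy : St n → Vec n) := mvec_of meas_sy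

theorem meas_mkS {α : Type} [MeasurableSpace α] {k : α → ℕ} {J : α → Mat n} {R : α → ℕ → Mat n}
    {y : α → Vec n} (hk : Measurable k) (hJ : MMat J) (hR : ∀ l, MMat fun a => R a l)
    (hy : Measurable y) : Measurable fun a => mkS (k a) (J a) (R a) (y a) :=
  hk.prodMk ((measurable_pi_lambda _ fun i => measurable_pi_lambda _ fun j => hJ i j).prodMk
    ((measurable_pi_lambda _ fun l => measurable_pi_lambda _ fun i =>
      measurable_pi_lambda _ fun j => hR l i j).prodMk hy))

/-- a function of the time index and of the state -/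
theorem meas_idx {α β : Type} [MeasurableSpace α] [MeasurableSpace β] {k : α → ℕ}
    (hk : Measurable k) {f : ℕ → α → β} (hf : ∀ l, Measurable (f l)) :
    Measurable fun a => f (k a) a := by
  have h : Measurable fun p : α × ℕ => f p.2 p.1 :=
    measurable_from_prod_countable_left fun l => hf l
  exact h.comp (measurable_id.prodMk hk)

/-- admissible step sizes -/
def Steps (dl : ℕ → ℝ) : Prop := ∀ k, 0 < dl k ∧ dl k ≤ 1

theorem Grid.steps {lam : Vec n} {t : ℕ → ℝ} {d : ℝ} (h : Grid lam t d) :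
    Steps fun k => t (k + 1) - t k := fun k => ⟨h.step_pos k, (h.le k).trans h.one⟩

variable {dl : ℕ → ℝ}

/-- the universal process with step sizes `dl` -/
noncomputable def up (n : ℕ) (h : Steps dl) : Proc n n (St n) where
  δ s := dl (sk s)
  hδ s := (h _).1
  hδ1 s := (h _).2
  M := sJ
  y := sy
  R s := sR s 0
  nxt s z := mkS (sk s + 1) (sJ s - dl (sk s) • (sR s 0 * (sR s 0)ᵀ)) (fun j => sR s (j + 1))
    (sy s + z)
  measδ := (measurable_from_nat (f := dl)).comp meas_sk
  measM := mm_sJ
  measy := mv_sy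
  measR := mm_sR 0
  measnxt := by
    refine meas_mkS ((measurable_from_nat (f := fun k => k + 1)).comp
      (meas_sk.comp measurable_fst)) (fun i j => ?_)
      (fun l i j => (mm_sR (l + 1) i j).comp measurable_fst)
      ((meas_sy.comp measurable_fst).add measurable_snd)
    simp only [Matrix.sub_apply, Matrix.smul_apply, Matrix.mul_apply, Matrix.transpose_apply,
      smul_eq_mul]
    refine ((mm_sJ i j).comp measurable_fst).sub (Measurable.mul
      ((measurable_from_nat (f := dl)).comp (meas_sk.comp measurable_fst)) ?_)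
    exact Finset.measurable_fun_sum _ fun l _ =>
      ((mm_sR 0 i l).comp measurable_fst).mul ((mm_sR 0 j l).comp measurable_fst)
  hM _ _ := rfl
  hy _ _ := rfl

variable (h : Steps dl)

@[simp] theorem up_δ (s : St n) : (up n h).δ s = dl (sk s) := rfl
@[simp] theorem up_M (s : St n) : (up n h).M s = sJ s := rfl
@[simp] theorem up_y (s : St n) : (up n h).y s = sy s := rfl
@[simp] theorem up_R (s : St n) : (up n h).R s = sR s 0 := rfl
theorem up_Q (s : St n) : (up n h).Q s = sR s 0 * (sR s 0)ᵀ := rfl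
theorem up_law (s : St n) : (up n h).law s = gM (sJ s) (sy s) := rfl

/-- a deterministic schedule: coupling matrices and driving matrices -/
def Sched (dl : ℕ → ℝ) (J R : ℕ → Mat n) : Prop :=
  ∀ k, J (k + 1) = J k - dl k • (R k * (R k)ᵀ)

/-- the state at time `k` of a schedule, with field `y` -/
def stS (J R : ℕ → Mat n) (k : ℕ) (y : Vec n) : St n := mkS k (J k) (fun j => R (k + j)) y

@[simp] theorem sk_stS (J R : ℕ → Mat n) (k : ℕ) (y : Vec n) : sk (stS J R k y) = k := rfl
@[simp] theorem sJ_stS (J R : ℕ → Mat n) (k : ℕ) (y : Vec n) : sJ (stS J R k y) = J k := rfl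
@[simp] theorem sR_stS (J R : ℕ → Mat n) (k : ℕ) (y : Vec n) (j : ℕ) :
    sR (stS J R k y) j = R (k + j) := rfl
@[simp] theorem sy_stS (J R : ℕ → Mat n) (k : ℕ) (y : Vec n) : sy (stS J R k y) = y := rfl

/-- the layers of a schedule -/
def LayS (J R : ℕ → Mat n) (k : ℕ) : Set (St n) := {s | ∃ y, s = stS J R k y}

/-- the field after `j` steps from the field `y0` at time `k0` -/
noncomputable def pathY (dl : ℕ → ℝ) (R : ℕ → Mat n) (k0 : ℕ) (y0 : Vec n) (x : Cfg n)
    (ω : ℕ → Vec n) : ℕ → Vec n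
  | 0 => y0
  | j + 1 => pathY dl R k0 y0 x ω j + obs (R (k0 + j)) (dl (k0 + j)) x (ω j)

theorem obs_eq {m : ℕ} (R : Matrix (Fin n) (Fin m) ℝ) (δ : ℝ) (x : Cfg n) (ξ : Fin m → ℝ) :
    obs R δ x ξ = δ • ((R * Rᵀ) *ᵥ sv x) + √δ • (R *ᵥ ξ) := rfl

variable {J R : ℕ → Mat n}

theorem Sched.nxt (hS : Sched dl J R) (k : ℕ) (y z : Vec n) :
    (up n h).nxt (stS J R k y) z = stS J R (k + 1) (y + z) := by
  have e : (up n h).nxt (stS J R k y) z = mkS (k + 1) (J k - dl k • (R k * (R k)ᵀ))
      (fun j => R (k + (j + 1))) (y + z) := rfl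
  rw [e, ← hS k]
  unfold stS
  congr 1
  funext j
  rw [show k + (j + 1) = k + 1 + j by omega]

theorem Sched.nx (hS : Sched dl J R) (k : ℕ) (y : Vec n) (x : Cfg n) (ξ : Vec n) :
    (up n h).nx (stS J R k y) x ξ = stS J R (k + 1) (y + obs (R k) (dl k) x ξ) :=
  hS.nxt h k y _

theorem Sched.lay (hS : Sched dl J R) (k : ℕ) (s : St n) (z : Vec n) (hs : s ∈ LayS J R k) :
    (up n h).nxt s z ∈ LayS J R (k + 1) := by
  obtain ⟨y, rfl⟩ := hs
  exact ⟨y + z, hS.nxt h k y z⟩

theorem stS_mem (J R : ℕ → Mat n) (k : ℕ) (y : Vec n) : stS J R k y ∈ LayS J R k := ⟨y, rfl⟩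

theorem Sched.traj (hS : Sched dl J R) (k0 : ℕ) (y0 : Vec n) (x : Cfg n) (ω : ℕ → Vec n) (j : ℕ) :
    (up n h).traj (stS J R k0 y0) x ω j = stS J R (k0 + j) (pathY dl R k0 y0 x ω j) := by
  induction j with
  | zero => rfl
  | succ j ih => rw [Proc.traj_succ, ih, hS.nx]; rfl

theorem Sched.traj0 (hS : Sched dl J R) (x : Cfg n) (ω : ℕ → Vec n) (k : ℕ) :
    (up n h).traj (stS J R 0 0) x ω k = stS J R k (pathY dl R 0 0 x ω k) := by
  rw [hS.traj, Nat.zero_add]

theorem Sched.J_eq (hS : Sched dl J R) (k : ℕ) :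
    J k = J 0 - ∑ j ∈ range k, dl j • (R j * (R j)ᵀ) := by
  induction k with
  | zero => simp
  | succ k ih => rw [hS k, ih, Finset.sum_range_succ, sub_sub]

theorem pathY_congr {R R' : ℕ → Mat n} {k0 : ℕ} (y0 : Vec n) (x : Cfg n) (ω : ℕ → Vec n) {j : ℕ}
    (hR : ∀ i < j, R (k0 + i) = R' (k0 + i)) :
    pathY dl R k0 y0 x ω j = pathY dl R' k0 y0 x ω j := by
  induction j with
  | zero => rfl
  | succ j ih =>
    simp only [pathY]
    rw [ih fun i hi => hR i (by omega), hR j (by omega)]

theorem pathY_add (R : ℕ → Mat n) (k0 : ℕ) (y0 : Vec n) (x : Cfg n) (ω : ℕ → Vec n) (k j : ℕ) :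
    pathY dl R k0 y0 x ω (k + j) = pathY dl R (k0 + k) (pathY dl R k0 y0 x ω k) x (shS k ω) j := by
  induction j with
  | zero => rfl
  | succ j ih =>
    have e : pathY dl R k0 y0 x ω (k + (j + 1)) = pathY dl R k0 y0 x ω (k + j)
        + obs (R (k0 + (k + j))) (dl (k0 + (k + j))) x (ω (k + j)) := rfl
    rw [e, ih, ← Nat.add_assoc]
    rfl

theorem meas_pathY {α : Type} [MeasurableSpace α] {R : α → ℕ → Mat n}
    (hR : ∀ l, MMat fun a => R a l) (k0 : ℕ) {y0 : α → Vec n} (hy : Measurable y0) (x : Cfg n)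
    {ω : α → ℕ → Vec n} (hω : Measurable ω) (j : ℕ) :
    Measurable fun a => pathY dl (R a) k0 (y0 a) x (ω a) j := by
  induction j with
  | zero => exact hy
  | succ j ih =>
    refine ih.add (MVec.measurable fun i => ?_)
    have h1 : MVec fun a => ω a j := mvec_of ((measurable_pi_apply j).comp hω)
    have h2 : MMat fun a => R a (k0 + j) * (R a (k0 + j))ᵀ := fun i l => by
      simp only [Matrix.mul_apply, Matrix.transpose_apply]
      exact Finset.measurable_fun_sum _ fun b _ => (hR _ i b).mul (hR _ l b)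
    exact ((h2.mulVec (MVec.const (sv x)) i).const_mul _).add
      (((hR _).mulVec h1 i).const_mul _)

/-- two schedules which agree up to time `N` give the same averages at time `N` -/
theorem it_switch {J' R' : ℕ → Mat n} (hS : Sched dl J R) (hS' : Sched dl J' R') {N : ℕ}
    (hJ : J 0 = J' 0) (hR : ∀ i < N, R i = R' i) {Φ Φ' : St n → ℝ} (hΦ : BM Φ) (hΦ' : BM Φ')
    (he : ∀ y, Φ (stS J R N y) = Φ' (stS J' R' N y)) :
    (up n h).U^[N] Φ (stS J R 0 0) = (up n h).U^[N] Φ' (stS J' R' 0 0) := by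
  rw [A1.it_eq_ET _ hΦ, A1.it_eq_ET _ hΦ']
  refine Finset.sum_congr rfl fun x _ => ?_
  rw [up_law, up_law, sJ_stS, sJ_stS, hJ]
  simp only [hS.traj0, hS'.traj0, he]
  congr 2
  funext ω
  rw [pathY_congr (R' := R') 0 x ω fun i hi => by rw [Nat.zero_add]; exact hR i hi]

theorem Sched.J_congr {J' R' : ℕ → Mat n} (hS : Sched dl J R) (hS' : Sched dl J' R') {N : ℕ}
    (hJ : J 0 = J' 0) (hR : ∀ i < N, R i = R' i) : J N = J' N := by
  rw [hS.J_eq, hS'.J_eq, hJ]
  congr 1
  exact Finset.sum_congr rfl fun i hi => by rw [hR i (Finset.mem_range.1 hi)]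

/-! ### the cap schedule, with noise in site coordinates -/

/-- coupling matrices of the cap flow -/
noncomputable def capJ (lam : Vec n) (t : ℕ → ℝ) (O : OG n) (k : ℕ) : Mat n := JC lam O (t k)

/-- projections of the cap flow -/
noncomputable def capP (lam : Vec n) (t : ℕ → ℝ) (O : OG n) (k : ℕ) : Mat n := PC lam O (t k)

/-- the state of the cap flow at time `k` with field `y` -/
noncomputable def capS (lam : Vec n) (t : ℕ → ℝ) (O : OG n) (k : ℕ) (y : Vec n) : St n :=
  stS (capJ lam t O) (capP lam t O) k y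

theorem PC_mul_tr (lam : Vec n) (O : OG n) (s : ℝ) : PC lam O s * (PC lam O s)ᵀ = PC lam O s := by
  rw [PC_transpose, PC_mul_self]

theorem abs_JO_le {u : Vec n} {c : ℝ} (hu : ∀ a, |u a| ≤ c) (O : OG n) (i j : Fin n) :
    |JO u O i j| ≤ c := by
  have hc : 0 ≤ c := (abs_nonneg _).trans (hu i)
  have e : JO u O i j = ∑ a, O.1 a i * u a * O.1 a j := by
    unfold JO
    rw [Matrix.mul_apply]
    refine Finset.sum_congr rfl fun a _ => ?_
    rw [Matrix.mul_diagonal, Matrix.transpose_apply]
  rw [e]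
  refine (Finset.abs_sum_le_sum_abs _ _).trans ?_
  calc ∑ a, |O.1 a i * u a * O.1 a j| ≤ ∑ a, c * ((O.1 a i ^ 2 + O.1 a j ^ 2) / 2) := by
        refine Finset.sum_le_sum fun a _ => ?_
        rw [abs_mul, abs_mul, mul_right_comm, mul_comm]
        refine mul_le_mul (hu a) ?_ (by positivity) hc
        nlinarith [sq_nonneg (|O.1 a i| - |O.1 a j|), sq_abs (O.1 a i), sq_abs (O.1 a j)]
    _ = c := by
        rw [← Finset.mul_sum, ← Finset.sum_div, Finset.sum_add_distrib, OG.col_sq, OG.col_sq]
        ring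

theorem abs_PC_le (lam : Vec n) (O : OG n) (s : ℝ) (i j : Fin n) : |PC lam O s i j| ≤ 1 :=
  abs_JO_le (fun a => by rw [abs_of_nonneg (dI_nonneg lam s a)]; exact dI_le_one lam s a) O i j

theorem mm_JO (u : Vec n) : MMat fun O : OG n => JO u O := fun i j => by
  have h : Continuous fun O : OG n => JO u O :=
    (continuous_val.matrix_transpose.matrix_mul continuous_const).matrix_mul continuous_val
  exact ((continuous_apply j).comp ((continuous_apply i).comp h)).measurable

theorem meas_capS (lam : Vec n) (t : ℕ → ℝ) (k : ℕ) {α : Type} [MeasurableSpace α] {O : α → OG n}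
    {y : α → Vec n} (hO : Measurable O) (hy : Measurable y) :
    Measurable fun a => capS lam t (O a) k (y a) :=
  meas_mkS measurable_const (fun i j => (mm_JO _ i j).comp hO)
    (fun _ i j => (mm_JO _ i j).comp hO) hy

theorem obs_PC (lam : Vec n) (O : OG n) (s δ : ℝ) (x : Cfg n) (ξ : Vec n) :
    obs (PC lam O s) δ x ξ = obs (RC lam O s) δ x (O.1 *ᵥ ξ) := by
  rw [obs_eq, obs_eq, PC_mul_tr, RC_mul, RC_mulVec]
  unfold PC
  rw [JO_mulVec _ O ξ]

namespace Grid

variable {lam : Vec n} {t : ℕ → ℝ} {d : ℝ} (hG : Grid lam t d) (O : OG n)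

include hG

theorem sched : Sched (fun k => t (k + 1) - t k) (capJ lam t O) (capP lam t O) := fun k => by
  unfold capJ capP
  rw [PC_mul_tr]
  exact hG.JC_succ O k

omit hG in
/-- **path formula** for any schedule whose first `k` driving matrices are those of the cap flow -/
theorem pathY_cap {R : ℕ → Mat n} {k : ℕ} (hR : ∀ i < k, R i = capP lam t O i) (x : Cfg n)
    (ω : ℕ → Vec n) : pathY (fun k => t (k + 1) - t k) R 0 0 x ω k
      = O.1ᵀ *ᵥ yF lam t (Plant.xt O x) (Plant.rotN O ω) k := by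
  induction k with
  | zero => simp [pathY, yF]
  | succ k ih =>
    simp only [pathY]
    rw [ih fun i hi => hR i (by omega), Nat.zero_add, hR k (by omega)]
    unfold capP
    rw [obs_PC, Grid.obs_RC, ← Matrix.mulVec_add]
    rfl

theorem traj_cap (x : Cfg n) (ω : ℕ → Vec n) (k : ℕ) :
    (up n hG.steps).traj (capS lam t O 0 0) x ω k
      = capS lam t O k (O.1ᵀ *ᵥ yF lam t (Plant.xt O x) (Plant.rotN O ω) k) := by
  unfold capS
  rw [(hG.sched O).traj0, pathY_cap O fun _ _ => rfl]

theorem law_cap : (up n hG.steps).law (capS lam t O 0 0) = gM (JO lam O) 0 := by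
  have e : (up n hG.steps).law (capS lam t O 0 0) = gM (JC lam O (t 0)) 0 := rfl
  rw [e, hG.JC_zero]

theorem law_cap' : (up n hG.steps).law (capS lam t O 0 0)
    = gM (Plant.Jr O (Matrix.diagonal lam)) (O.1ᵀ *ᵥ 0) := by
  rw [hG.law_cap, Matrix.mulVec_zero]; rfl

theorem Q_cap (k : ℕ) (y : Vec n) : (up n hG.steps).Q (capS lam t O k y) = capP lam t O k :=
  PC_mul_tr lam O _

end Grid

/-! ### symmetry: rotations of the capped space do not change the later states -/

theorem JO_rot {u : Vec n} {U : OG n} (hU : Plant.Jr U (Matrix.diagonal u) = Matrix.diagonal u)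
    (O : OG n) : JO u (U * O) = JO u O := by
  have e : JO u (U * O) = Plant.Jr (U * O) (Matrix.diagonal u) := rfl
  rw [e, Plant.Jr_mul, hU]
  rfl

/-- a rotation which fixes the orthogonal complement of `range P`, where `P` lives on the modes
capped at time `s`, commutes with every diagonal matrix which is constant on these modes -/
theorem Jr_diag_of_HG {lam u : Vec n} {s c : ℝ} (hu : ∀ a, dI lam s a * u a = c * dI lam s a)
    {P : Mat n} (hP : Pᵀ = P) (hPD : Matrix.diagonal (dI lam s) * P = P) {U : OG n}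
    (hU : U ∈ HG P) : Plant.Jr U (Matrix.diagonal u) = Matrix.diagonal u := by
  have h1 : Matrix.diagonal u * P = c • P := by
    conv_lhs => rw [← hPD, ← Matrix.mul_assoc, Matrix.diagonal_mul_diagonal]
    conv_rhs => rw [← hPD, ← Matrix.smul_mul]
    congr 1
    ext i j
    simp only [Matrix.diagonal_apply, Matrix.smul_apply, smul_eq_mul]
    split_ifs with hij
    · rw [mul_comm, hu]
    · rw [mul_zero]
  have h2 : P * Matrix.diagonal u = c • P := by
    have h3 := congrArg Matrix.transpose h1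
    rwa [Matrix.transpose_mul, Matrix.transpose_smul, hP, Matrix.diagonal_transpose] at h3
  exact (Plant.sym_of_HG (y := 0) hP h1 h2 (Matrix.mulVec_zero _) hU).1

theorem capS_rot {lam : Vec n} {t : ℕ → ℝ} (ht : Monotone t) {b : ℕ} {P : Mat n} (hP : Pᵀ = P)
    (hPD : Matrix.diagonal (dI lam (t b)) * P = P) {U : OG n} (hU : U ∈ HG P) (O : OG n) {k : ℕ}
    (hk : b ≤ k) (y : Vec n) : capS lam t (U * O) k y = capS lam t O k y := by
  have h1 : capJ lam t (U * O) k = capJ lam t O k := by
    refine JO_rot (Jr_diag_of_HG (c := 2 - t k) (fun a => ?_) hP hPD hU) O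
    rw [← dI_mul_of_le lam (ht hk) a, mul_assoc, dI_mul_lamC]
    ring
  have h2 : ∀ j, capP lam t (U * O) (k + j) = capP lam t O (k + j) := fun j =>
    JO_rot (Jr_diag_of_HG (c := 1) (fun a => by
      rw [dI_mul_of_le lam (ht (by omega : b ≤ k + j)) a, one_mul]) hP hPD hU) O
  unfold capS stS
  rw [h1]
  simp only [h2]

/-! ### the noise seen from the frame -/

theorem mp_rot_noise (M : Mat n) (y : Vec n) :
    MeasurePreserving
      (fun q : (OG n × Cfg n) × (ℕ → Vec n) => (q.1, Plant.rotN q.1.1 q.2))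
      (Plant.plN n M y) (Plant.plN n M y) := by
  unfold Plant.plN
  refine MeasurePreserving.skew_product (MeasurePreserving.id _)
    (g := fun p : OG n × Cfg n => Plant.rotN p.1) ?_ ?_
  · exact Plant.measurable_rotN2.comp
      ((measurable_fst.comp measurable_fst).prodMk measurable_snd)
  · exact ae_of_all _ fun p => (Plant.mp_rotN p.1).map_eq

/-- events of the frame variables `(O x, O ω)`: any set -/
theorem plN_frame_le (M : Mat n) (y : Vec n) (E : Set (Vec n × (ℕ → Vec n))) :
    Plant.plN n M y {q | (Plant.xt q.1.1 q.1.2, Plant.rotN q.1.1 q.2) ∈ E} ≤ Plant.spN n M y E := by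
  have h0 := (Plant.mp_xtN (m := n) M y).comp (mp_rot_noise M y)
  have h1 := Measure.le_map_apply (μ := Plant.plN n M y) h0.measurable.aemeasurable E
  rwa [h0.map_eq] at h1

/-- events written with the frame noise have the same planted probability: any set -/
theorem plN_rot_le (M : Mat n) (y : Vec n) (B : Set ((OG n × Cfg n) × (ℕ → Vec n))) :
    Plant.plN n M y {q | (q.1, Plant.rotN q.1.1 q.2) ∈ B} ≤ Plant.plN n M y B := by
  have h0 := mp_rot_noise M y
  have h1 := Measure.le_map_apply (μ := Plant.plN n M y) h0.measurable.aemeasurable B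
  rwa [h0.map_eq] at h1

end Vale.Agent.N150.Cap
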