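import Vale.Agent.N150.EdgeSc

/-! Deterministic consequences of rigidity: summation by parts. -/

open Real Set intervalIntegral MeasureTheory

namespace Vale.Agent.N150.Edge

variable {n : ℕ}

/-- the edge scale -/
noncomputable def sc0 (n : ℕ) (w : ℝ) : ℝ := w * (n : ℝ) ^ (-(2 / 3 : ℝ))

/-- the relative error -/
noncomputable def kap (w : ℝ) : ℝ := w ^ (-(3 / 5 : ℝ))

lemma kap_pos {w : ℝ} (hw : 0 < w) : 0 < kap w := rpow_pos_of_pos hw _

lemma kap_le_one {w : ℝ} (hw : 1 ≤ w) : kap w ≤ 1 :=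
  rpow_le_one_of_one_le_of_nonpos hw (by norm_num)

lemma sc0_pos (hn : 0 < n) {w : ℝ} (hw : 0 < w) : 0 < sc0 n w := by
  have : (0 : ℝ) < n := by exact_mod_cast hn
  unfold sc0
  positivity

lemma cnt_eq (lam : Fin n → ℝ) (s : ℝ) :
    cnt lam s = ∑ a, (if 2 - lam a ≤ s then (1 : ℝ) else 0) := by
  unfold cnt
  rw [Finset.card_filter]
  push_cast
  refine Finset.sum_congr rfl fun a _ => ?_
  by_cases h : 2 - s ≤ lam a
  · rw [if_pos h, if_pos (by linarith)]
  · rw [if_neg h, if_neg (fun h' => h (by linarith))]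

lemma cnt_nonneg (lam : Fin n → ℝ) (s : ℝ) : 0 ≤ cnt lam s := by unfold cnt; positivity

lemma cnt_le (lam : Fin n → ℝ) (s : ℝ) : cnt lam s ≤ n := by
  unfold cnt
  have := Finset.card_filter_le (Finset.univ : Finset (Fin n)) (fun a => 2 - s ≤ lam a)
  rw [Finset.card_univ, Fintype.card_fin] at this
  exact_mod_cast this

lemma cnt_mono (lam : Fin n → ℝ) : Monotone (cnt lam) := by
  intro s t hst
  rw [cnt_eq, cnt_eq]
  refine Finset.sum_le_sum fun a _ => ?_
  by_cases h : 2 - lam a ≤ s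
  · rw [if_pos h, if_pos (h.trans hst)]
  · rw [if_neg h]; split_ifs <;> norm_num

lemma rpow_three_half {s : ℝ} (hs : 0 ≤ s) : s ^ (3 / 2 : ℝ) = s * √s := by
  rw [sqrt_eq_rpow, show (3 / 2 : ℝ) = 1 + 1 / 2 by norm_num,
    rpow_add_of_nonneg hs (by norm_num) (by norm_num), rpow_one]

/-- `n s₀ ^ (3/2) = w ^ (3/2)` -/
lemma n_sc0 (hn : 0 < n) {w : ℝ} (hw : 0 ≤ w) : n * (sc0 n w * √(sc0 n w)) = w * √w := by
  have hn' : (0 : ℝ) < n := by exact_mod_cast hn
  have h0 : 0 ≤ sc0 n w := by unfold sc0; positivity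
  rw [← rpow_three_half h0, ← rpow_three_half hw]
  unfold sc0
  rw [mul_rpow hw (by positivity), ← rpow_mul hn'.le]
  norm_num
  rw [rpow_neg_one]
  field_simp

lemma err_eq (hn : 0 < n) {w r u : ℝ} (hw : 0 < w) (hr : sc0 n w ≤ r) (hu : 0 ≤ u) :
    (n * u ^ (3 / 2 : ℝ)) ^ (3 / 5 : ℝ) ≤ kap w * (n * (r * √r)) * (u / r) ^ (9 / 10 : ℝ) := by
  have hn' : (0 : ℝ) < n := by exact_mod_cast hn
  have hs := sc0_pos hn hw
  have hr0 : 0 < r := hs.trans_le hr
  set X : ℝ := n * r ^ (3 / 2 : ℝ) with hX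
  have hX0 : 0 < X := by positivity
  have e1 : (n : ℝ) * u ^ (3 / 2 : ℝ) = X * (u / r) ^ (3 / 2 : ℝ) := by
    rw [hX, div_rpow hu hr0.le]
    have : 0 < r ^ (3 / 2 : ℝ) := by positivity
    field_simp
  rw [e1, mul_rpow hX0.le (by positivity), ← rpow_mul (by positivity), ← rpow_three_half hr0.le,
    ← hX]
  norm_num
  refine mul_le_mul_of_nonneg_right ?_ (by positivity)
  have h1 : w ^ (3 / 2 : ℝ) ≤ X := by
    rw [rpow_three_half hw.le, ← n_sc0 hn hw.le, hX, rpow_three_half hr0.le]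
    gcongr
  have h2 : w ^ (3 / 5 : ℝ) ≤ X ^ (2 / 5 : ℝ) := by
    have := rpow_le_rpow (by positivity) h1 (show (0 : ℝ) ≤ 2 / 5 by norm_num)
    rw [← rpow_mul hw.le] at this
    norm_num at this
    exact this
  have h3 : X = X ^ (3 / 5 : ℝ) * X ^ (2 / 5 : ℝ) := by
    rw [← rpow_add hX0]; norm_num
  have h4 : kap w * w ^ (3 / 5 : ℝ) = 1 := by
    unfold kap
    rw [← rpow_add hw]; norm_num
  have h5 := kap_pos hw
  have h6 : 0 < X ^ (3 / 5 : ℝ) := by positivity
  calc X ^ (3 / 5 : ℝ) = X ^ (3 / 5 : ℝ) * (kap w * w ^ (3 / 5 : ℝ)) := by rw [h4, mul_one]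
    _ ≤ X ^ (3 / 5 : ℝ) * (kap w * X ^ (2 / 5 : ℝ)) := by gcongr
    _ = kap w * X := by conv_rhs => rw [h3]
                        ring

variable {w : ℝ} {lam : Fin n → ℝ}

lemma Rigid.eps_le (h : Rigid w lam) (a : Fin n) : 2 - lam a ≤ 5 := by linarith [(h.1 a).1]

lemma Rigid.le_eps (h : Rigid w lam) (a : Fin n) : -sc0 n w ≤ 2 - lam a := by
  have := (h.1 a).2
  unfold sc0
  linarith

/-- the counting error on `[r, 5]` -/
lemma Rigid.cnt_err (h : Rigid w lam) (hn : 0 < n) (hw : 0 < w) {r u : ℝ} (hr : sc0 n w ≤ r)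
    (hr4 : r ≤ 4) (hru : r ≤ u) :
    |cnt lam u - n * scF u| ≤ kap w * (n * (r * √r)) * (u / r) ^ (9 / 10 : ℝ) := by
  have hs := sc0_pos hn hw
  have hr0 : 0 < r := hs.trans_le hr
  rcases le_total u 4 with h4 | h4
  · exact (h.2 u (hr.trans hru) h4).trans (err_eq hn hw hr (by linarith))
  · have h1 := (h.2 4 (hr.trans hr4) le_rfl).trans (err_eq hn hw hr (by norm_num))
    rw [scF_four] at h1
    rw [scF_ge_four h4]
    have h2 := cnt_mono lam h4
    have h3 := cnt_le lam u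
    have h5 : (4 / r) ^ (9 / 10 : ℝ) ≤ (u / r) ^ (9 / 10 : ℝ) := by gcongr
    have h6 : kap w * (n * (r * √r)) * (4 / r) ^ (9 / 10 : ℝ) ≤
        kap w * (n * (r * √r)) * (u / r) ^ (9 / 10 : ℝ) := by
      have := kap_pos hw
      gcongr
    rw [abs_le] at h1 ⊢
    have h7 : 0 ≤ kap w * (n * (r * √r)) * (u / r) ^ (9 / 10 : ℝ) := by
      have := kap_pos hw
      positivity
    constructor <;> linarith [h1.1]

/-- the counting error at one scale -/
lemma Rigid.cnt_err' (h : Rigid w lam) (hn : 0 < n) (hw : 0 < w) {s : ℝ} (hs : sc0 n w ≤ s)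
    (hs4 : sc0 n w ≤ 4) : |cnt lam s - n * scF s| ≤ kap w * (n * (s * √s)) := by
  have h0 := sc0_pos hn hw
  have hs0 : 0 < s := h0.trans_le hs
  rcases le_total s 4 with h4 | h4
  · have := h.cnt_err hn hw hs h4 le_rfl
    rwa [div_self hs0.ne', one_rpow, mul_one] at this
  · have h1 := h.cnt_err hn hw hs4 le_rfl le_rfl
    rw [div_self (by norm_num), one_rpow, mul_one, scF_four] at h1
    rw [scF_ge_four h4]
    have h2 := cnt_mono lam h4
    have h3 := cnt_le lam s
    have h6 : kap w * (n * (4 * √4)) ≤ kap w * (n * (s * √s)) := by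
      have := kap_pos hw
      gcongr
    have h7 : 0 ≤ kap w * (n * (s * √s)) := by
      have := kap_pos hw
      positivity
    rw [abs_le] at h1 ⊢
    constructor <;> linarith [h1.1]

/-- upper bound of the counting function -/
lemma Rigid.cnt_upper (h : Rigid w lam) (hn : 0 < n) (hw : 0 < w) {s : ℝ} (hs : sc0 n w ≤ s)
    (hs4 : sc0 n w ≤ 4) : cnt lam s ≤ (c0 + kap w) * (n * (s * √s)) := by
  have h1 := (abs_le.1 (h.cnt_err' hn hw hs hs4)).2
  have hs0 : 0 < s := (sc0_pos hn hw).trans_le hs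
  have h2 : (n : ℝ) * scF s ≤ n * (c0 * (s * √s)) := by
    have := scF_le hs0.le
    gcongr
  linarith

/-- lower bound of the counting function -/
lemma Rigid.cnt_lower (h : Rigid w lam) (hn : 0 < n) (hw : 0 < w) {s : ℝ} (hs : sc0 n w ≤ s)
    (hs4 : sc0 n w ≤ 4) (hs5 : s ≤ 5) :
    (c0 * (1 - 3 / 20 * s) - kap w) * (n * (s * √s)) ≤ cnt lam s := by
  have h1 := (abs_le.1 (h.cnt_err' hn hw hs hs4)).1
  have hs0 : 0 < s := (sc0_pos hn hw).trans_le hs
  have h2 : (n : ℝ) * (c0 * (s * √s) - 3 / 20 * c0 * (s * (s * √s))) ≤ n * scF s := by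
    have := le_scF hs0.le hs5
    gcongr
  linarith

/-! ### summation by parts -/

lemma intInt_ite {g : ℝ → ℝ} {r b c d : ℝ} (e : ℝ) (hc : ContinuousOn g (Icc r b))
    (h1 : c ∈ Icc r b) (h2 : d ∈ Icc r b) :
    IntervalIntegrable (fun u => g u * (if e ≤ u then (1 : ℝ) else 0)) volume c d := by
  have h3 : IntervalIntegrable g volume c d :=
    (hc.mono (uIcc_subset_Icc h1 h2)).intervalIntegrable
  have e1 : (fun u => g u * (if e ≤ u then (1 : ℝ) else 0)) = (Ici e).indicator g := by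
    funext u
    by_cases hu : e ≤ u
    · simp [hu]
    · simp [hu]
  rw [e1]
  exact ⟨h3.1.indicator measurableSet_Ici, h3.2.indicator measurableSet_Ici⟩

lemma single {f f' : ℝ → ℝ} {r b : ℝ} (hrb : r ≤ b) (hf : ∀ u ∈ Icc r b, HasDerivAt f (f' u) u)
    (hc : ContinuousOn f' (Icc r b)) (e : ℝ) :
    ∫ u in r..b, f' u * (if e ≤ u then (1 : ℝ) else 0) = f b - f (min (max e r) b) := by
  set m := min (max e r) b with hm
  have hm1 : m ∈ Icc r b := ⟨le_min (le_max_right _ _) hrb, min_le_right _ _⟩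
  rw [← integral_add_adjacent_intervals (intInt_ite e hc (left_mem_Icc.2 hrb) hm1)
    (intInt_ite e hc hm1 (right_mem_Icc.2 hrb))]
  have h1 : ∫ u in r..m, f' u * (if e ≤ u then (1 : ℝ) else 0) = 0 := by
    rw [integral_of_le hm1.1, integral_Ioc_eq_integral_Ioo]
    refine setIntegral_eq_zero_of_forall_eq_zero fun x hx => ?_
    have : ¬ e ≤ x := by
      intro hex
      have h3 : x < max e r := hx.2.trans_le (min_le_left _ _)
      rcases lt_max_iff.1 h3 with h4 | h4
      · linarith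
      · linarith [hx.1]
    simp [this]
  have h2 : ∫ u in m..b, f' u * (if e ≤ u then (1 : ℝ) else 0) = ∫ u in m..b, f' u := by
    rw [integral_of_le hm1.2, integral_of_le hm1.2]
    refine setIntegral_congr_fun measurableSet_Ioc fun x hx => ?_
    have : e ≤ x := by
      have h3 : min (max e r) b < x := hx.1
      rcases min_lt_iff.1 h3 with h4 | h4
      · exact (le_max_left _ _).trans h4.le
      · linarith [hx.2]
    simp [this]
  rw [h1, h2, zero_add]
  have hsub : uIcc m b ⊆ Icc r b := uIcc_subset_Icc hm1 (right_mem_Icc.2 hrb)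
  exact integral_eq_sub_of_hasDerivAt (fun x hx => hf x (hsub hx))
    (hc.mono hsub).intervalIntegrable

lemma intInt_cnt (lam : Fin n → ℝ) {g : ℝ → ℝ} {r b : ℝ} (hrb : r ≤ b)
    (hc : ContinuousOn g (Icc r b)) :
    IntervalIntegrable (fun u => g u * cnt lam u) volume r b := by
  have e : (fun u => g u * cnt lam u) =
      fun u => ∑ a, g u * (if 2 - lam a ≤ u then (1 : ℝ) else 0) := by
    funext u; rw [cnt_eq, Finset.mul_sum]
  rw [e]
  have := IntervalIntegrable.sum (μ := volume) (a := r) (b := b) (Finset.univ : Finset (Fin n))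
    (f := fun a u => g u * (if 2 - lam a ≤ u then (1 : ℝ) else 0))
    (fun a _ => intInt_ite _ hc (left_mem_Icc.2 hrb) (right_mem_Icc.2 hrb))
  rw [Finset.sum_fn] at this
  exact this

/-- summation by parts -/
theorem sbp (lam : Fin n → ℝ) {f f' : ℝ → ℝ} {r b : ℝ} (hrb : r ≤ b)
    (hf : ∀ u ∈ Icc r b, HasDerivAt f (f' u) u) (hc : ContinuousOn f' (Icc r b)) :
    ∑ a, f (min (max (2 - lam a) r) b) = n * f b - ∫ u in r..b, f' u * cnt lam u := by
  have e : (fun u => f' u * cnt lam u) =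
      fun u => ∑ a, f' u * (if 2 - lam a ≤ u then (1 : ℝ) else 0) := by
    funext u; rw [cnt_eq, Finset.mul_sum]
  rw [e, integral_finsetSum fun a _ => intInt_ite _ hc (left_mem_Icc.2 hrb) (right_mem_Icc.2 hrb)]
  simp only [single hrb hf hc, Finset.sum_sub_distrib, Finset.sum_const, Finset.card_univ,
    Fintype.card_fin, nsmul_eq_mul]
  ring

lemma integral_tail {r b : ℝ} (hr : 0 < r) (hrb : r ≤ b) :
    ∫ u in r..b, (r / u) ^ 2 * (u / r) ^ (9 / 10 : ℝ) ≤ 10 * r := by
  have h1 : ∫ u in r..b, (r / u) ^ 2 * (u / r) ^ (9 / 10 : ℝ) =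
      (-10 * r * (b / r) ^ (-(1 / 10) : ℝ)) - (-10 * r * (r / r) ^ (-(1 / 10) : ℝ)) := by
    refine integral_eq_sub_of_hasDerivAt (f := fun u => -10 * r * (u / r) ^ (-(1 / 10) : ℝ))
      (fun x hx => ?_) ?_
    · rw [uIcc_of_le hrb] at hx
      have hx0 : 0 < x := hr.trans_le hx.1
      have hq : 0 < x / r := by positivity
      have h2 := (((hasDerivAt_id x).div_const r).rpow_const (p := -(1 / 10))
        (Or.inl hq.ne')).const_mul (-10 * r)
      refine h2.congr_deriv ?_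
      simp only [id]
      have e1 : (x / r) ^ (-(1 / 10) - 1 : ℝ) = (x / r) ^ (9 / 10 : ℝ) * (r / x) ^ 2 := by
        rw [show (-(1 / 10) - 1 : ℝ) = 9 / 10 + -(2 : ℕ) by norm_num, rpow_add hq, rpow_neg hq.le,
          rpow_natCast, ← inv_pow, inv_div]
      rw [e1]
      field_simp
    · refine ContinuousOn.intervalIntegrable ?_
      rw [uIcc_of_le hrb]
      refine ContinuousOn.mul (ContinuousOn.pow (continuousOn_const.div continuousOn_id ?_) 2)
        (ContinuousOn.rpow_const (by fun_prop) fun x _ => Or.inr (by norm_num))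
      intro x hx
      exact (hr.trans_le hx.1).ne'
  rw [h1, div_self hr.ne', one_rpow]
  have : 0 ≤ r * (b / r) ^ (-(1 / 10) : ℝ) := by
    have : 0 < b := hr.trans_le hrb
    positivity
  linarith

/-- the semicircle value of `f (min (max e r) b)` -/
noncomputable def scV (f f' : ℝ → ℝ) (r b : ℝ) : ℝ := f b - ∫ u in r..b, f' u * scF u

/-- summation by parts against the semicircle law -/
theorem Rigid.sbp_abs (h : Rigid w lam) (hn : 0 < n) (hw : 0 < w) {f f' G : ℝ → ℝ} {r b : ℝ}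
    (hr : sc0 n w ≤ r) (hr4 : r ≤ 4) (hrb : r ≤ b)
    (hf : ∀ u ∈ Icc r b, HasDerivAt f (f' u) u) (hc : ContinuousOn f' (Icc r b))
    (hG : ContinuousOn G (Icc r b))
    (hB : ∀ u ∈ Icc r b, |f' u| * (u / r) ^ (9 / 10 : ℝ) ≤ G u) :
    |∑ a, f (min (max (2 - lam a) r) b) - n * scV f f' r b| ≤
      kap w * (n * (r * √r)) * ∫ u in r..b, G u := by
  have hr0 : 0 < r := (sc0_pos hn hw).trans_le hr
  have hk := kap_pos hw
  have i1 := intInt_cnt lam hrb hc
  have i2 : IntervalIntegrable (fun u => f' u * scF u) volume r b :=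
    ((hc.mul continuous_scF.continuousOn).mono (uIcc_of_le hrb).le).intervalIntegrable
  have e : ∑ a, f (min (max (2 - lam a) r) b) - n * scV f f' r b =
      -∫ u in r..b, (f' u * cnt lam u - n * (f' u * scF u)) := by
    rw [sbp lam hrb hf hc, integral_sub i1 (i2.const_mul _), intervalIntegral.integral_const_mul]
    unfold scV
    ring
  rw [e, abs_neg, ← intervalIntegral.integral_const_mul]
  refine (abs_integral_le_integral_abs hrb).trans ?_
  refine integral_mono_on hrb (i1.sub (i2.const_mul _)).abs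
    (((hG.mono (uIcc_of_le hrb).le).intervalIntegrable).const_mul _) fun u hu => ?_
  have e2 : f' u * cnt lam u - n * (f' u * scF u) = f' u * (cnt lam u - n * scF u) := by ring
  rw [e2, abs_mul]
  have h1 := h.cnt_err hn hw hr hr4 hu.1
  calc |f' u| * |cnt lam u - n * scF u|
      ≤ |f' u| * (kap w * (n * (r * √r)) * (u / r) ^ (9 / 10 : ℝ)) := by gcongr
    _ = kap w * (n * (r * √r)) * (|f' u| * (u / r) ^ (9 / 10 : ℝ)) := by ring
    _ ≤ _ := by
      have := hB u hu
      gcongr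

/-- summation by parts for functions whose derivative decays like `u ^ (-2)` -/
theorem Rigid.sbp_tail (h : Rigid w lam) (hn : 0 < n) (hw : 0 < w) {f f' : ℝ → ℝ} {r B : ℝ}
    (hr : sc0 n w ≤ r) (hr4 : r ≤ 4)
    (hf : ∀ u ∈ Icc r 5, HasDerivAt f (f' u) u) (hc : ContinuousOn f' (Icc r 5))
    (hB : ∀ u ∈ Icc r 5, |f' u| ≤ B * (r / u) ^ 2) :
    |∑ a, f (max (2 - lam a) r) - n * scV f f' r 5| ≤ 10 * kap w * B * (n * (r * (r * √r))) := by
  have hr0 : 0 < r := (sc0_pos hn hw).trans_le hr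
  have hk := kap_pos hw
  have hr5 : r ≤ 5 := by linarith
  have hB0 : 0 ≤ B := by
    have := (abs_nonneg _).trans (hB r (left_mem_Icc.2 hr5))
    rwa [div_self hr0.ne', one_pow, mul_one] at this
  have h1 := h.sbp_abs hn hw (G := fun u => B * ((r / u) ^ 2 * (u / r) ^ (9 / 10 : ℝ))) hr hr4 hr5
    hf hc ?_ ?_
  · have e : ∀ a, min (max (2 - lam a) r) 5 = max (2 - lam a) r := fun a =>
      min_eq_left (max_le (h.eps_le a) hr5)
    simp only [e] at h1
    refine h1.trans ?_
    rw [intervalIntegral.integral_const_mul]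
    have h2 := integral_tail hr0 hr5
    calc kap w * (n * (r * √r)) * (B * ∫ u in r..5, (r / u) ^ 2 * (u / r) ^ (9 / 10 : ℝ))
        ≤ kap w * (n * (r * √r)) * (B * (10 * r)) := by gcongr
      _ = _ := by ring
  · refine continuousOn_const.mul (ContinuousOn.mul (ContinuousOn.pow
      (continuousOn_const.div continuousOn_id ?_) 2)
      (ContinuousOn.rpow_const (by fun_prop) fun x _ => Or.inr (by norm_num)))
    intro x hx
    exact (hr0.trans_le hx.1).ne'
  · intro u hu
    have hu0 : 0 < u := hr0.trans_le hu.1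
    rw [← mul_assoc]
    have := hB u hu
    gcongr

end Vale.Agent.N150.Edge
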