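import Vale.Agent.N150.T1Def
import Vale.Agent.N150.CapU
import Vale.Agent.N150.A1Br
import Vale.Agent.N150.EdgeDet

/-! P150 at `β = 1`, the bridge from the end of the cap flow to the terminal state: definitions and
statements. -/

open Matrix MeasureTheory Filter Topology

namespace Vale.Agent.N150.Br

open Vale.Agent.P150 Vale.Agent.P150.F Vale.Agent.P150.F.Ms Vale.Agent.N150.EC
open Vale.Agent.N150.T1 Vale.Agent.N150.Cap Vale.Agent.N150.Plant Vale.Agent.N150.Sp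

variable {n : ℕ}

/-- the reference mean at depth `r` -/
noncomputable def mT (r : ℕ) (J : Mat n) (y : Vec n) : Vec n := tm (it J y r)

/-- families of reference means -/
abbrev Sel : Type := ∀ n : ℕ, ℕ → Mat n → Vec n → Vec n

/-- measurable reference means which are close to the Picard point on the good set -/
def SelOK (sel : Sel) : Prop :=
  (∀ (n i : ℕ) (α : Type) [MeasurableSpace α] (J : α → Mat n) (y : α → Vec n), MMat J → MVec y →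
    MVec fun a => sel n i (J a) (y a)) ∧
  Ev fun L t => ∀ᶠ n : ℕ in atTop, ∀ (i : ℕ) (S : Dat n) (O : OG n), Adm L t S → Good t S O →
    nv (sel n i (S.J O) (S.y O) - mT (n + 3) (S.J O) (S.y O)) ≤ 1

/-- terminal information for the label of precision `Q` under the Gibbs measure of `J` -/
def EndAt (C θ : ℝ) (cen : Mat n → Vec n → Vec n) (J Q : Mat n) : Prop :=
  ∃ (Rt : Mat n) (B : Set (Vec n)), Rt * Rtᵀ = Q ∧ MeasurableSet B ∧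
    End.PY (gM J 0) Rt 1 Bᶜ ≤ θ ∧
    ∀ y ∈ B, nv (mean (gM (J - Q) y) - cen (J - Q) y) ≤ C ∧ End.Term C θ (gM (J - Q) y)

/-- the tracking error at a state -/
noncomputable def eS (sel : Mat n → Vec n → Vec n) (s : St n) : Vec n :=
  mean (gM (sJ s) (sy s)) - sel (sJ s) (sy s)

/-- terminal information at the index `N` of the cap flow -/
def TA {lam : Vec n} {t : ℕ → ℝ} {d : ℝ} (hG : Grid lam t d) (N : ℕ)
    (sel : Mat n → Vec n → Vec n) (CT M θ : ℝ) (O : OG n) : Prop :=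
  A1.TermAt (up n hG.steps) (capS lam t O 0 0) N CT θ θ ∧
  PE (gM (JO lam O) 0)
    (fun x ω => M < F.sq (eS sel ((up n hG.steps).traj (capS lam t O 0 0) x ω N))) ≤ θ

/-- **[BRIDGE]** -/
def BrStmt (sel cen : Sel) : Prop :=
  ∃ T0 > (0 : ℝ), ∀ T : ℝ, 0 < T → T ≤ T0 → ∀ C c : ℝ, 0 < C → 0 < c →
  ∃ CT > (0 : ℝ), ∃ c' > (0 : ℝ), ∀ᶠ n : ℕ in atTop, ∀ (w : ℝ) (lam : Vec n), Edge.Rigid w lam →
    1 ≤ w → Edge.kap w ≤ c' → Edge.sc0 n w ≤ c' →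
    ∀ (t : ℕ → ℝ) (d : ℝ) (hG : Grid lam t d) (N : ℕ), T ≤ t N → t N ≤ 2 * T →
    ∀ Q : Mat n, Qᵀ = Q → (∀ v, 3 * T * F.sq v ≤ qf Q v) → (∀ v, qf Q v ≤ 100 * T * F.sq v) →
    ∀ (i i' : ℕ) (ε : ℝ), 0 < ε →
      (haar n).real {O | ε ≤ LR (diagonal lam) 0 O ∧
        EndAt C (Real.exp (-(c * n))) (cen n i') (JO lam O) (Jr O Q) ∧
        ¬TA hG N (sel n i) CT CT (Real.exp (-(c' * n))) O} ≤ Real.exp (-(c' * n)) / ε

/-! ### inputs -/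

/-- one good step of the TAP reference, from `h` at `(J, y)` to `h'` at `(J', y')` -/
structure GS (K Λ δ : ℝ) (J J' : Mat n) (y y' h h' : Vec n) : Prop where
  loc : Loc K J h (zh J h)
  loc' : Loc K J' h' (zh J' h')
  dh : ∀ i, |h' i - h i| ≤ K ^ 4 * √δ
  dz : |zh J' h' - zh J h| ≤ K ^ 4 * √δ
  r1 : ∀ i, |rs1 J y h i| ≤ δ ^ 2
  r2 : res2 J h (zh J h) = 0
  r1' : ∀ i, |rs1 J' y' h' i| ≤ δ ^ 2
  r2' : res2 J' h' (zh J' h') = 0
  gm : OpLe (Gm J h (zh J h)) Λ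

/-- (DET) two consecutive good points give a good step -/
def DetStmt : Prop := ∃ a : ℕ, Ev fun L t => ∃ Λ : ℝ, 1 ≤ Λ ∧ ∀ᶠ n : ℕ in atTop,
  ∀ (S S' : Dat n) (O O' : OG n) (R : Mat n) (x ξ : Vec n) (δ : ℝ),
    Adm L t S → Good t S O → Adm L t S' → Good t S' O' → Rᵀ = R → OpLe R 1 →
    (∀ i, |x i| ≤ 1) → nv ξ ≤ n → Real.exp (-(n : ℝ)) ≤ δ → ((n : ℝ) ^ a) ^ 8 * δ ≤ 1 →
    S'.J O' = S.J O - δ • (R * Rᵀ) → S'.y O' = S.y O + δ • ((R * Rᵀ) *ᵥ x) + √δ • (R *ᵥ ξ) →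
    GS ((n : ℝ) ^ a) Λ δ (S.J O) (S'.J O') (S.y O) (S'.y O') (S.h O (n + 3)) (S'.h O' (n + 3))

/-- (ADM) admissible data along the bridge -/
def AdmB : Prop := ∃ L : ℝ, 2 ≤ L ∧ ∀ᶠ t in 𝓝[>] (0 : ℝ), ∃ c > (0 : ℝ), ∀ᶠ n : ℕ in atTop,
  ∀ (w s : ℝ) (lam : Vec n), Edge.Rigid w lam → 1 ≤ w → Edge.kap w ≤ c → Edge.sc0 n w ≤ c →
    t ^ 288000 ≤ s → s ≤ 2 * t ^ 288000 →
    ∀ (ι : Type) [Fintype ι] (R : Matrix (Fin n) ι ℝ) (U : OG n) (mu : Vec n),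
      diagonal lam - R * Rᵀ = JO mu U →
      (∀ v, qf (diagonal (pr lam s)) v ≤ qf (R * Rᵀ) v) →
      (∀ v, qf (R * Rᵀ) v ≤ 100 * s * F.sq v) →
      ((spM (diagonal lam) 0).prod (gpi ι)).real {q | ¬∃ gam z0 : ℝ,
        Adm L t ⟨gam, z0, mu, U.1 *ᵥ ((R * Rᵀ) *ᵥ q.1 + R *ᵥ q.2)⟩ ∧
        AdmX L t ⟨gam, z0, mu, U.1 *ᵥ ((R * Rᵀ) *ᵥ q.1 + R *ᵥ q.2)⟩ (U.1 *ᵥ q.1)}
        ≤ Real.exp (-(c * n))

/-- (KB) the source is bounded at the reference point -/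
def KBB : Prop := Ev fun L t => ∃ κ > (0 : ℝ), ∃ c > (0 : ℝ), ∀ᶠ n : ℕ in atTop,
  ∀ (S : Dat n) (x xt : Vec n) (μ : Measure (OG n)) (Q : Mat n),
    Adm L t S → AdmX L t S xt → FibL μ x xt → Qᵀ = Q → OpLe Q 1 →
    μ.real {O | Good t S O ∧ κ < nv (k0 (S.J O) (S.h O (n + 3)) (zh (S.J O) (S.h O (n + 3)))
      (Jr O Q))} ≤ Real.exp (-(c * n))

/-- (MEAS) joint measurability of the reference point -/
def MeasStmt : Prop := ∀ (n : ℕ) (α : Type) [MeasurableSpace α] (J : α → Mat n) (y : α → Vec n),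
  MMat J → MVec y → (∀ r, MVec fun a => it (J a) (y a) r) ∧ Measurable fun a => zh (J a) (y a)

end Vale.Agent.N150.Br
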