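import Vale.Agent.N150.Adm2
import Vale.Agent.N150.Adm3
import Vale.Agent.N150.AdmP
import Vale.Agent.N150.BrDef

/-! Admissible data for every precision matrix `Q` with `(s - E)₊ ≤ Q ≤ Z s`. -/

open Real Finset Matrix MeasureTheory ProbabilityTheory Filter Topology
open scoped ENNReal

namespace Vale.Agent.N150.Adm

open Vale.Agent.N150.Edge Vale.Agent.P150
open Vale.Agent.P150.F (Mat Vec ip qf hsq OpLe nv)

variable {n : ℕ} {ι : Type} [Fintype ι] {lam lam' mu X Y : Vec n} {U : Mat n}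
  {R : Matrix (Fin n) ι ℝ} {w s Z m g θ ω : ℝ}

/-- bounds at the tilt `g` -/
structure Core (m s g : ℝ) (mu X Y : Vec n) : Prop where
  nrm : F.sq X = n
  c1 : ∑ a, Y a ^ 2 / (g - mu a) ^ 2 ≤ 3 * m ^ 2 * (n * √s)
  c2 : n - n * √s / (5 * m ^ 2) ≤ tr 1 mu g + ∑ a, Y a ^ 2 / (g - mu a) ^ 2
  c3 : ∑ a, X a ^ 2 / (g - mu a) ≤ 6 * m ^ 2 * (n / √s)
  c4 : |∑ a, X a * Y a / (g - mu a)| ≤ 2 * m ^ 2 * (n * √s)
  c5 : ∑ a, Y a ^ 2 / (g - mu a) ≤ 28 * m ^ 2 * (n * s)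

lemma div_pow_cmp {z κ : ℝ} (j : ℕ) (v : Vec n) (hz : ∀ a, 0 < z - mu a) (hg : ∀ a, 0 < g - mu a)
    (h : ∀ a, g - mu a ≤ κ * (z - mu a)) :
    ∑ a, v a ^ 2 / (z - mu a) ^ j ≤ κ ^ j * ∑ a, v a ^ 2 / (g - mu a) ^ j := by
  rw [mul_sum]
  refine sum_le_sum fun a _ => ?_
  rw [← mul_div_assoc, div_le_div_iff₀ (pow_pos (hz a) _) (pow_pos (hg a) _)]
  have h1 := pow_le_pow_left₀ (hg a).le (h a) j
  rw [mul_pow] at h1
  nlinarith [sq_nonneg (v a)]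

lemma Core.root (h : Core m s g mu X Y) (hS : Sand s Z lam mu) (H : Std n w s lam) (hZ : 1 ≤ Z)
    (hm : m = Z + 3) (g1 : 2 ≤ g) (g2 : g ≤ 2 + 2 * s) (hs : 576 * m ^ 4 * s ≤ 1) :
    ∃ z, 2 - s / 2 ≤ z ∧ z ≤ 2 + 288 * m ^ 4 * s ∧ sadF mu Y z = n := by
  have h0 := H.pos
  have hsq := Real.sqrt_pos.2 h0
  have hP : 0 < n * √s := mul_pos (by exact_mod_cast H.hn) hsq
  have m4 : 4 ≤ m := by linarith
  have m2 : 16 ≤ m ^ 2 := by nlinarith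
  have m44 : 1 ≤ m ^ 4 := one_le_pow₀ (by linarith)
  have top := hS.le_top
  have k : s ≤ 144 * m ^ 4 * s := by nlinarith
  obtain ⟨z, a1, a2, a3⟩ := exists_root (mu := mu) (yt := Y) H.hn (z1 := 2 - s / 2)
    (z2 := 2 + 2 * (144 * m ^ 4 * s)) (fun a => by linarith [top a])
    (by
      rw [sadF_eq]
      have b1 := tr_sub_ge (mu := mu) (z := 2 - s / 2) (z' := g) (fun a => by linarith [top a])
        (by linarith)
      have b2 := hS.le_tr_two H (z := g) (Y := 2) (by linarith) (by linarith) (by linarith) g2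
      rw [show 1 + (2 + Z) = m by linarith] at b2
      have b3 := div_pow_anti (mu := mu) (z := 2 - s / 2) (z' := g) 2 Y
        (fun a => by linarith [top a]) (by linarith)
      have b4 : s / 2 * (7 / 10 * (n / √s) / m ^ 2) ≤ (g - (2 - s / 2)) * tr 2 mu g :=
        mul_le_mul (by linarith) b2 (by positivity) (by linarith)
      have b5 : s / 2 * (7 / 10 * (n / √s) / m ^ 2) = 7 / 4 * (n * √s / (5 * m ^ 2)) := by
        rw [Path.div_sqrt_eq _ h0]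
        field_simp
        ring
      have b6 : 0 < n * √s / (5 * m ^ 2) := by positivity
      linarith [h.c2])
    (by
      rw [sadF_eq]
      have b1 := hS.tr_one_le H k (by linarith)
      rw [Real.sqrt_mul (by positivity), show 144 * m ^ 4 = (12 * m ^ 2) ^ 2 by ring,
        Real.sqrt_sq (by positivity)] at b1
      have b3 := div_pow_anti (mu := mu) (z := g) (z' := 2 + 2 * (144 * m ^ 4 * s)) 2 Y
        (fun a => by linarith [top a]) (by linarith)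
      rw [show 144 * m ^ 4 = (12 * m ^ 2) ^ 2 by ring] at b3 ⊢
      linarith [h.c1])
  exact ⟨z, a1, by linarith, a3⟩

theorem Core.raw (h : Core m s g mu X Y) (hS : Sand s Z lam mu) (H : Std n w s lam) (hZ : 1 ≤ Z)
    (hm : m = Z + 3) (g1 : 2 ≤ g) (g2 : g ≤ 2 + 2 * s) (hs : 576 * m ^ 4 * s ≤ 1) :
    ∃ z0, Raw (12000 * m ^ 6) s mu Y X z0 := by
  obtain ⟨z, a1, a2, a3⟩ := h.root hS H hZ hm g1 g2 hs
  have h0 := H.pos
  have hsq := Real.sqrt_pos.2 h0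
  have hn : (0 : ℝ) < n := by exact_mod_cast H.hn
  have hP : 0 < n * √s := mul_pos hn hsq
  have m4 : 4 ≤ m := by linarith
  have m1 : 1 ≤ m := by linarith
  have m26 : m ^ 2 ≤ m ^ 6 := pow_le_pow_right₀ m1 (by norm_num)
  have m46 : m ^ 4 ≤ m ^ 6 := pow_le_pow_right₀ m1 (by norm_num)
  have m44 : 1 ≤ m ^ 4 := one_le_pow₀ m1
  have m0 : 0 < m ^ 2 := by positivity
  have top := hS.le_top
  have hz : ∀ a, 0 < z - mu a := fun a => by linarith [top a]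
  have hg : ∀ a, 0 < g - mu a := fun a => by linarith [top a]
  have cmp : ∀ a, g - mu a ≤ 6 * (z - mu a) := fun a => by linarith [top a]
  have x1 : ∑ a, X a ^ 2 / (z - mu a) ≤ 36 * m ^ 2 * (n / √s) := by
    have b := div_pow_cmp 1 X hz hg cmp
    simp only [pow_one] at b
    linarith [h.c3]
  have q0 : 0 < n / √s := by positivity
  refine ⟨z, a1, by nlinarith, a3, ?_, ?_, h.nrm, by nlinarith, ?_⟩
  · have b := div_pow_cmp 2 Y hz hg cmp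
    nlinarith [h.c1]
  · have b := div_pow_cmp 1 Y hz hg cmp
    simp only [pow_one] at b
    nlinarith [h.c5, mul_pos hn h0]
  · have e : ∑ a, X a * Y a / (z - mu a) = ∑ a, X a * Y a / (g - mu a)
        + (g - z) * ∑ a, X a / (z - mu a) * (Y a / (g - mu a)) := by
      rw [mul_sum, ← sum_add_distrib]
      refine sum_congr rfl fun a _ => ?_
      have := (hz a).ne'
      have := (hg a).ne'
      field_simp
      ring
    have b1 : s * |∑ a, X a / (z - mu a) * (Y a / (g - mu a))|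
        ≤ s * ∑ a, X a ^ 2 / (z - mu a) + 1 / 2 * ∑ a, Y a ^ 2 / (g - mu a) ^ 2 := by
      refine (mul_le_mul_of_nonneg_left (abs_sum_le_sum_abs _ _) h0.le).trans ?_
      rw [mul_sum, mul_sum, mul_sum, ← sum_add_distrib]
      refine sum_le_sum fun a _ => ?_
      have c1 : s * (X a / (z - mu a)) ^ 2 ≤ 2 * (X a ^ 2 / (z - mu a)) := by
        have c2 : s / (z - mu a) ≤ 2 := by rw [div_le_iff₀ (hz a)]; linarith [top a]
        have c3 : 0 ≤ X a ^ 2 / (z - mu a) := div_nonneg (sq_nonneg _) (hz a).le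
        calc _ = s / (z - mu a) * (X a ^ 2 / (z - mu a)) := by
              have := (hz a).ne'
              field_simp
          _ ≤ _ := mul_le_mul_of_nonneg_right c2 c3
      rw [abs_mul, ← div_pow]
      have c4 := sq_nonneg (s * |X a / (z - mu a)| - |Y a / (g - mu a)|)
      have c5 := mul_le_mul_of_nonneg_left c1 h0.le
      rw [← sq_abs (X a / (z - mu a))] at c5
      rw [← sq_abs (Y a / (g - mu a))]
      nlinarith
    have b2 : s * (n / √s) = n * √s := by rw [Path.div_sqrt_eq _ h0]; field_simp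
    have b3 : s * |∑ a, X a / (z - mu a) * (Y a / (g - mu a))| ≤ 38 * m ^ 2 * (n * √s) := by
      nlinarith [mul_le_mul_of_nonneg_left x1 h0.le, h.c1]
    have b4 : |g - z| ≤ 288 * m ^ 4 * s := abs_le.2 ⟨by linarith, by nlinarith⟩
    rw [e]
    refine (abs_add_le _ _).trans ?_
    rw [abs_mul]
    have b5 := mul_le_mul_of_nonneg_right b4
      (abs_nonneg (∑ a, X a / (z - mu a) * (Y a / (g - mu a))))
    have b6 := mul_le_mul_of_nonneg_left b3 (by positivity : 0 ≤ 288 * m ^ 4)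
    nlinarith [h.c4]

/-! ### the Gaussian events -/

/-- the parameters -/
structure Bx (w s Z m θ ω : ℝ) (lam lam' mu : Vec n) (U : Mat n) (R : Matrix (Fin n) ι ℝ) :
    Prop where
  stdr : Std n w (θ ^ 2 * s) lam
  std : Std n w s lam'
  sand : Sand s Z lam' mu
  fr : Fr lam mu U R (2 + 2 * (θ ^ 2 * s)) (θ ^ 2 * s) s (Z * s)
  tr1 : tr 1 mu (2 + 2 * (θ ^ 2 * s)) ≤ n
  Z1 : 1 ≤ Z
  hm : m = Z + 3
  θ0 : 0 < θ
  ω0 : 0 < ω
  θω : θ ≤ ω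
  mω : 20 * m ^ 4 * ω ≤ 1
  big : 4 * Z ^ 2 ≤ θ ^ 2 * ω ^ 2 * (s * (n * √s))

/-- the Gaussian events -/
structure GE (s Z m ω g : ℝ) (lam mu : Vec n) (U : Mat n) (R : Matrix (Fin n) ι ℝ)
    (v : Fin n ⊕ ι → ℝ) : Prop where
  a : |F.sq (Av lam mu U R g *ᵥ v) - (tr 1 lam g - tr 1 mu g)| ≤ 6 * m * ω * (n * √s)
  b : |∑ a, (g - mu a)⁻¹ * (Az lam mu U R g *ᵥ v) a ^ 2 - tr 1 mu g| ≤ 10 * (n * √s)
  c : ∑ a, ((g - mu a) ^ 2)⁻¹ * (Az lam mu U R g *ᵥ v) a ^ 2 ≤ 14 * (n / √s)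
  d : F.sq (Ar mu U R g *ᵥ v) ≤ 13 * Z * (n * s)

namespace Bx

variable (h : Bx w s Z m θ ω lam lam' mu U R)
include h

lemma s0 : 0 < s := h.std.pos

lemma m4 : 4 ≤ m := by linarith [h.hm, h.Z1]

lemma P0 : 0 < n * √s := mul_pos (by exact_mod_cast h.std.hn) (Real.sqrt_pos.2 h.s0)

lemma ω1 : 20 * m ^ 2 * ω ≤ 1 := by
  have : m ^ 2 ≤ m ^ 4 := pow_le_pow_right₀ (by linarith [h.m4]) (by norm_num)
  nlinarith [h.mω, h.ω0]

lemma ω2 : ω ≤ 1 / 100 := by nlinarith [h.ω1, h.m4, h.ω0]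

lemma θ1 : θ ^ 2 ≤ 1 := pow_le_one₀ h.θ0.le (by linarith [h.θω, h.ω2])

lemma x1 : θ ^ 2 * ω ^ 2 ≤ 1 :=
  mul_le_one₀ h.θ1 (sq_nonneg _) (pow_le_one₀ h.ω0.le (by linarith [h.ω2]))

lemma big1 : 4 * Z ^ 2 ≤ s * (n * √s) :=
  h.big.trans (mul_le_of_le_one_left (mul_pos h.s0 h.P0).le h.x1)

lemma sP : s * (n * √s) ≤ n * √s := mul_le_of_le_one_left h.P0.le (by linarith [h.std.hi])

lemma trD : n - tr 1 mu (2 + 2 * (θ ^ 2 * s)) ≤ m ^ 2 * (n * √s) := by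
  have h1 := h.sand.trD_le h.std (by linarith [h.Z1]) (r := θ ^ 2 * s) h.stdr.pos.le
    (mul_le_of_le_one_left h.s0.le h.θ1)
  have h2 : √(4 + Z) ≤ m := by
    rw [Real.sqrt_le_left (by linarith [h.m4])]
    nlinarith [h.hm, h.Z1]
  have h3 : 4 * √(4 + Z) ≤ m ^ 2 := by nlinarith [h.m4]
  nlinarith [h.P0]

lemma trL : tr 1 lam (2 + 2 * (θ ^ 2 * s)) ≤ n := by
  have h1 := h.stdr.tr_le
  have : 0 ≤ n * √(θ ^ 2 * s) := by positivity
  linarith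

lemma tr2 : tr 2 mu (2 + 2 * (θ ^ 2 * s)) ≤ 4 * (n / √s) :=
  h.sand.tr_two_le h.std (by linarith [h.stdr.pos, h.s0])

lemma tail_a : (gpi (Fin n ⊕ ι)).real {v | 6 * m * ω * (n * √s) <
    |F.sq (Av lam mu U R (2 + 2 * (θ ^ 2 * s)) *ᵥ v)
      - (tr 1 lam (2 + 2 * (θ ^ 2 * s)) - tr 1 mu (2 + 2 * (θ ^ 2 * s)))|}
    ≤ 2 * exp (-(θ ^ 2 * ω ^ 2 * (s * (n * √s)))) := by
  have r0 := h.stdr.pos
  have hP := h.P0
  have hω := h.ω0
  have m4 := h.m4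
  have e : √(n * √s) ^ 2 = n * √s := Real.sq_sqrt hP.le
  have k := Law.norm_conc (B := Av lam mu U R (2 + 2 * (θ ^ 2 * s))) (L := (√(θ ^ 2 * s))⁻¹)
    (M := m * √(n * √s)) (t := 2 * ω * √(n * √s)) (by positivity) (by positivity) h.fr.Av_qf 0
    (by positivity) (by
      rw [h.fr.Av_trace, mul_pow, e]
      simp only [F.sq, Pi.zero_apply, ne_eq, OfNat.ofNat_ne_zero, not_false_eq_true, zero_pow,
        sum_const_zero, zero_add]
      linarith [h.trD, h.trL])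
  have e0 : F.sq (0 : Vec n) = 0 := by simp [F.sq]
  rw [h.fr.Av_trace, inv_pow, Real.sq_sqrt r0.le, mul_pow, e, e0] at k
  simp only [zero_add] at k
  have e1 : (2 * ω) ^ 2 * (n * √s) / (4 * (θ ^ 2 * s)⁻¹) = θ ^ 2 * ω ^ 2 * (s * (n * √s)) := by
    field_simp
    ring
  rw [e1] at k
  refine le_trans (Tail.real_imp_le _ fun v hv => le_trans ?_ (le_of_lt hv)) k
  have e2 : 2 * ω * √(n * √s) * (2 * (m * √(n * √s)) + 2 * ω * √(n * √s))
      = (4 * m * ω + 4 * ω ^ 2) * (n * √s) := by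
    generalize √(n * √s) = p at e ⊢
    rw [← e]; ring
  have e3 : 4 * (θ ^ 2 * s)⁻¹ ≤ ω ^ 2 * (n * √s) := by
    rw [← div_eq_mul_inv, div_le_iff₀ r0]
    nlinarith [h.big, h.Z1]
  rw [e2]
  have e4 : 5 * ω ^ 2 ≤ 2 * m * ω := by nlinarith [h.ω2]
  nlinarith

omit h in
lemma two_sqrt {V x B : ℝ} (hB : 0 ≤ B) (k : 2 * V * x ≤ 9 * B ^ 2) : 2 * √(2 * V * x) ≤ 6 * B := by
  have : √(2 * V * x) ≤ 3 * B := by
    rw [Real.sqrt_le_left (by positivity)]; linarith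
  linarith

lemma pull (S : Set (Vec n)) :
    (gpi (Fin n ⊕ ι)).real {v | Az lam mu U R (2 + 2 * (θ ^ 2 * s)) *ᵥ v ∈ S}
      ≤ (gpi (Fin n)).real S := real_pre_le (mp_mulVec h.fr.Az_Az) S

lemma xP : θ ^ 2 * ω ^ 2 * (s * (n * √s)) ≤ s * (n * √s) :=
  mul_le_of_le_one_left (mul_pos h.s0 h.P0).le h.x1

lemma VP : n / √s * (s * (n * √s)) = (n * √s) ^ 2 := by
  have := (Real.sqrt_pos.2 h.s0).ne'
  rw [mul_pow, Real.sq_sqrt h.s0.le]
  field_simp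

lemma tail_b : (gpi (Fin n ⊕ ι)).real {v | 10 * (n * √s) <
    |∑ a, (2 + 2 * (θ ^ 2 * s) - mu a)⁻¹ * (Az lam mu U R (2 + 2 * (θ ^ 2 * s)) *ᵥ v) a ^ 2
      - tr 1 mu (2 + 2 * (θ ^ 2 * s))|} ≤ 2 * exp (-(θ ^ 2 * ω ^ 2 * (s * (n * √s)))) := by
  have s0 := h.s0
  have hP := h.P0
  have hn : (0 : ℝ) < n := by exact_mod_cast h.std.hn
  set x := θ ^ 2 * ω ^ 2 * (s * (n * √s)) with hx
  set g := 2 + 2 * (θ ^ 2 * s) with hg
  have x0 : 0 ≤ x := by positivity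
  have V0 : 0 < 4 * (n / √s) := by positivity
  have hV : ∑ a, (g - mu a)⁻¹ ^ 2 ≤ 4 * (n / √s) := by
    simp only [inv_pow]; exact h.tr2
  have e : ∑ a, (g - mu a)⁻¹ = tr 1 mu g := by simp only [tr, pow_one]
  have k1 := Tail.chi_tail (fun a => (g - mu a)⁻¹) V0 (inv_nonneg.2 s0.le) x0 hV
    fun a => inv_anti₀ s0 (h.fr.hN a)
  have k2 := Tail.chi_tail_low (fun a => (g - mu a)⁻¹) V0 (inv_nonneg.2 s0.le) x0 hV
    fun a => (neg_nonpos.2 (inv_nonneg.2 s0.le)).trans (inv_nonneg.2 (h.fr.pN a).le)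
  rw [e] at k1 k2
  have b1 := two_sqrt (V := 4 * (n / √s)) (x := x) hP.le (by
    nlinarith [mul_le_mul_of_nonneg_left h.xP V0.le, h.VP])
  have b2 : 4 * s⁻¹ * x ≤ 4 * (n * √s) := by
    rw [mul_assoc, ← div_eq_inv_mul]
    exact mul_le_mul_of_nonneg_left ((div_le_iff₀ s0).2 (by linarith [h.xP])) (by norm_num)
  refine le_trans (h.pull {u | 10 * (n * √s) < |∑ a, (g - mu a)⁻¹ * u a ^ 2 - tr 1 mu g|}) ?_
  refine le_trans (Tail.real_or_le _ fun u hu => ?_) ((add_le_add k1 k2).trans (by linarith))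
  rcases lt_abs.1 (show 10 * (n * √s) < _ from hu) with c | c
  · left; linarith
  · right; linarith

lemma tail_c : (gpi (Fin n ⊕ ι)).real {v | 14 * (n / √s) <
    ∑ a, ((2 + 2 * (θ ^ 2 * s) - mu a) ^ 2)⁻¹ * (Az lam mu U R (2 + 2 * (θ ^ 2 * s)) *ᵥ v) a ^ 2}
    ≤ exp (-(θ ^ 2 * ω ^ 2 * (s * (n * √s)))) := by
  have s0 := h.s0
  have hP := h.P0
  have hn : (0 : ℝ) < n := by exact_mod_cast h.std.hn
  set x := θ ^ 2 * ω ^ 2 * (s * (n * √s)) with hx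
  set g := 2 + 2 * (θ ^ 2 * s) with hg
  have x0 : 0 ≤ x := by positivity
  have V0 : 0 < (s ^ 2)⁻¹ * (4 * (n / √s)) := by positivity
  have hb : ∀ a, ((g - mu a) ^ 2)⁻¹ ≤ (s ^ 2)⁻¹ := fun a =>
    inv_anti₀ (by positivity) (pow_le_pow_left₀ s0.le (h.fr.hN a) 2)
  have hV : ∑ a, ((g - mu a) ^ 2)⁻¹ ^ 2 ≤ (s ^ 2)⁻¹ * (4 * (n / √s)) := by
    refine le_trans ?_ (mul_le_mul_of_nonneg_left h.tr2 (by positivity))
    unfold tr
    rw [mul_sum]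
    refine sum_le_sum fun a _ => ?_
    rw [pow_two (((g - mu a) ^ 2)⁻¹)]
    exact mul_le_mul_of_nonneg_right (hb a) (by positivity)
  have k1 := Tail.chi_tail (fun a => ((g - mu a) ^ 2)⁻¹) V0 (by positivity) x0 hV hb
  have e1 : n / √s = s⁻¹ * (n * √s) := by rw [Path.div_sqrt_eq _ s0]; ring
  have b1 := two_sqrt (V := (s ^ 2)⁻¹ * (4 * (n / √s))) (x := x) (B := n / √s) (by positivity) (by
    have c1 : (n / √s) ^ 2 = (s ^ 2)⁻¹ * (n / √s * (s * (n * √s))) := by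
      rw [h.VP, e1]; ring
    nlinarith [mul_le_mul_of_nonneg_left h.xP V0.le])
  have b2 : 4 * (s ^ 2)⁻¹ * x ≤ 4 * (n / √s) := by
    have c1 := mul_le_mul_of_nonneg_left h.xP (by positivity : 0 ≤ (s ^ 2)⁻¹)
    have c2 : (s ^ 2)⁻¹ * (s * (n * √s)) = n / √s := by rw [e1]; field_simp
    linarith
  refine le_trans (h.pull {u | 14 * (n / √s) < ∑ a, ((g - mu a) ^ 2)⁻¹ * u a ^ 2}) ?_
  refine le_trans (Tail.real_imp_le _ fun u hu => ?_) k1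
  have c1 : ∑ a, ((g - mu a) ^ 2)⁻¹ ≤ 4 * (n / √s) := h.tr2
  have c2 : 14 * (n / √s) < _ := hu
  linarith

lemma tail_d : (gpi (Fin n ⊕ ι)).real {v | 13 * Z * (n * s) <
    F.sq (Ar mu U R (2 + 2 * (θ ^ 2 * s)) *ᵥ v)}
    ≤ 2 * exp (-(θ ^ 2 * ω ^ 2 * (s * (n * √s)))) := by
  have s0 := h.s0
  have Z0 : 0 < Z := by linarith [h.Z1]
  have hn : (0 : ℝ) < n := by exact_mod_cast h.std.hn
  have e : √(Z * (n * s)) ^ 2 = Z * (n * s) := Real.sq_sqrt (by positivity)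
  have e0 : F.sq (0 : Vec n) = 0 := by simp [F.sq]
  have t1 : (Ar mu U R (2 + 2 * (θ ^ 2 * s)) * (Ar mu U R (2 + 2 * (θ ^ 2 * s)))ᵀ).trace
      ≤ Z * (n * s) := h.fr.Ar_trace.trans (by nlinarith [h.tr1, mul_pos Z0 s0])
  have k := Law.norm_conc (B := Ar mu U R (2 + 2 * (θ ^ 2 * s))) (L := √Z)
    (M := √(Z * (n * s))) (t := 2 * √(Z * (n * s))) (by positivity) (by positivity) (fun u => by
      refine (h.fr.Ar_qf u).trans ?_
      rw [Real.sq_sqrt Z0.le]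
      refine (mul_le_mul_of_nonneg_left (h.fr.div_le u) (by positivity)).trans (le_of_eq ?_)
      field_simp) 0 (by positivity) (by rw [e, e0]; linarith)
  rw [Real.sq_sqrt Z0.le, mul_pow, e, e0] at k
  simp only [zero_add] at k
  have c0 : s * (n * √s) ≤ n * s := by nlinarith [h.std.sqrt_le, mul_pos hn s0]
  have c1 : exp (-(2 ^ 2 * (Z * (n * s)) / (4 * Z))) ≤ exp (-(θ ^ 2 * ω ^ 2 * (s * (n * √s)))) := by
    refine exp_le_exp.2 (neg_le_neg ?_)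
    rw [show 2 ^ 2 * (Z * (n * s)) / (4 * Z) = n * s by field_simp; ring]
    linarith [h.xP]
  refine le_trans (Tail.real_imp_le _ fun v hv => ?_) (k.trans (by linarith))
  have c2 : 1 ≤ n * s := by nlinarith [h.big1, h.Z1]
  refine le_trans ?_ (le_abs_self _)
  have c3 : 13 * Z * (n * s) < _ := hv
  nlinarith

theorem tail_GE : (gpi (Fin n ⊕ ι)).real {v | ¬ GE s Z m ω (2 + 2 * (θ ^ 2 * s)) lam mu U R v}
    ≤ 7 * exp (-(θ ^ 2 * ω ^ 2 * (s * (n * √s)))) := by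
  refine le_trans (Tail.real_or_le _ fun v hv => ?_) ((add_le_add h.tail_a
    ((Tail.real_or_le _ fun _ => id).trans (add_le_add h.tail_b
      ((Tail.real_or_le _ fun _ => id).trans (add_le_add h.tail_c h.tail_d))))).trans
        (by linarith))
  by_contra hc
  simp only [not_or, not_lt] at hc
  exact hv ⟨hc.1, hc.2.1, hc.2.2.1, hc.2.2.2⟩

omit h in
lemma two_ip (u v : Vec n) {κ : ℝ} (hκ : 0 < κ) : 2 * |ip u v| ≤ κ * F.sq u + F.sq v / κ := by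
  unfold ip F.sq
  rw [mul_sum, sum_div, ← sum_add_distrib]
  refine (mul_le_mul_of_nonneg_left (abs_sum_le_sum_abs _ _) (by norm_num)).trans ?_
  rw [mul_sum]
  refine sum_le_sum fun a _ => ?_
  rw [abs_mul, ← sq_abs (u a), ← sq_abs (v a)]
  have e : κ * |u a| ^ 2 + |v a| ^ 2 / κ - 2 * (|u a| * |v a|) = (κ * |u a| - |v a|) ^ 2 / κ := by
    field_simp
    ring
  have : 0 ≤ (κ * |u a| - |v a|) ^ 2 / κ := by positivity
  linarith

omit h in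
lemma sum_two (u v d : Vec n) (hd : ∀ a, 0 < d a) :
    ∑ a, (u + v) a ^ 2 / d a ≤ 2 * (∑ a, u a ^ 2 / d a + ∑ a, v a ^ 2 / d a) := by
  rw [← sum_add_distrib, mul_sum]
  refine sum_le_sum fun a _ => ?_
  rw [← add_div, ← mul_div_assoc, Pi.add_apply]
  exact div_le_div_of_nonneg_right (by nlinarith [sq_nonneg (u a - v a)]) (hd a).le

omit h in
lemma sum_three (u v z d : Vec n) (hd : ∀ a, 0 < d a) : ∑ a, (u + v + z) a ^ 2 / d a
    ≤ 3 * (∑ a, u a ^ 2 / d a + ∑ a, v a ^ 2 / d a + ∑ a, z a ^ 2 / d a) := by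
  rw [← sum_add_distrib, ← sum_add_distrib, mul_sum]
  refine sum_le_sum fun a _ => ?_
  rw [← add_div, ← add_div, ← mul_div_assoc, Pi.add_apply, Pi.add_apply]
  exact div_le_div_of_nonneg_right (by
    nlinarith [sq_nonneg (u a - v a), sq_nonneg (u a - z a), sq_nonneg (v a - z a)]) (hd a).le

omit h in
lemma two_ip_eq (v e : Vec n) : 2 * ip (v + e) v = F.sq (v + e) + F.sq v - F.sq e := by
  unfold ip F.sq
  rw [mul_sum, ← sum_add_distrib, ← sum_sub_distrib]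
  exact sum_congr rfl fun a _ => by rw [Pi.add_apply]; ring

lemma core_det {v e d φ p ρ : Vec n} (hX : X = v + e + d)
    (hY : ∀ a, Y a / (2 + 2 * (θ ^ 2 * s) - mu a) = (v + φ) a) (hY2 : Y = p + ρ)
    (nrm : F.sq X = n) (sh : |F.sq (v + e) - n| ≤ 1) (hd : n * F.sq d ≤ 1)
    (hφ : n * F.sq φ ≤ Z ^ 2) (hp : F.sq p ≤ (Z * s) ^ 2 * n)
    (ga : |F.sq v - (tr 1 lam (2 + 2 * (θ ^ 2 * s)) - tr 1 mu (2 + 2 * (θ ^ 2 * s)))|
      ≤ 6 * m * ω * (n * √s))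
    (gb : |F.sq e - tr 1 mu (2 + 2 * (θ ^ 2 * s))| ≤ 10 * (n * √s))
    (gc : ∑ a, e a ^ 2 / (2 + 2 * (θ ^ 2 * s) - mu a) ≤ 14 * (n / √s))
    (gd : ∑ a, ρ a ^ 2 / (2 + 2 * (θ ^ 2 * s) - mu a) ≤ 13 * Z * (n * s)) :
    Core m s (2 + 2 * (θ ^ 2 * s)) mu X Y := by
  have s0 := h.s0
  have hP := h.P0
  have hω := h.ω0
  have m4 := h.m4
  have Z1 := h.Z1
  have hn : (1 : ℝ) ≤ n := by exact_mod_cast h.std.hn
  have t1 := h.trD
  have t2 := h.trL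
  have t3 := h.tr1
  have t4 : n - 6 * θ * (n * √s) ≤ tr 1 lam (2 + 2 * (θ ^ 2 * s)) := by
    have k := h.stdr.le_tr
    rw [Real.sqrt_mul (sq_nonneg _), Real.sqrt_sq h.θ0.le] at k
    linarith
  have e1 : n / √s = n * √s / s := Path.div_sqrt_eq _ s0
  have big := h.big1.trans h.sP
  have big2 : Z ^ 2 ≤ ω ^ 2 * (n * √s) := by
    have k1 : θ ^ 2 * (s * (n * √s)) ≤ n * √s :=
      (mul_le_of_le_one_left (mul_pos s0 hP).le h.θ1).trans h.sP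
    nlinarith [h.big, mul_le_mul_of_nonneg_left k1 (sq_nonneg ω)]
  have pN := h.fr.pN
  have dl := h.fr.div_le
  have m2 : 16 ≤ m ^ 2 := by nlinarith
  have Z2 : 1 ≤ Z ^ 2 := by nlinarith
  have ω3 : 6 * m * ω ≤ 1 := by nlinarith [h.ω1]
  have mω := h.mω
  have k4 : 6 * θ + 6 * m * ω + ω * (m ^ 2 + 1) + ω ≤ 4 * m ^ 2 * ω := by
    have c : 8 + 6 * m ≤ 3 * m ^ 2 := by nlinarith
    linarith [mul_le_mul_of_nonneg_right c hω.le, h.θω]
  have k5 : 2 * Z ^ 2 + 26 * Z ≤ 28 * m ^ 2 := by rw [h.hm]; nlinarith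
  generalize 2 + 2 * (θ ^ 2 * s) = g at *
  generalize hPe : n * √s = P at *
  have d0 := sq_nonneg' d
  have φ0 := sq_nonneg' φ
  have v0 := sq_nonneg' v
  have d1 : F.sq d ≤ 1 := (le_mul_of_one_le_left d0 hn).trans hd
  have φ1 : F.sq φ ≤ Z ^ 2 := (le_mul_of_one_le_left φ0 hn).trans hφ
  have a1 := abs_le.1 ga
  have v1 : F.sq v ≤ (m ^ 2 + 1) * P := by
    linarith [mul_le_mul_of_nonneg_right ω3 hP.le]
  have eY : ∑ a, Y a ^ 2 / (g - mu a) ^ 2 = F.sq (v + φ) :=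
    sum_congr rfl fun a _ => by rw [← div_pow, hY]
  have mP : 16 * P ≤ m ^ 2 * P := mul_le_mul_of_nonneg_right m2 hP.le
  refine ⟨nrm, ?_, ?_, ?_, ?_, ?_⟩
  · have k := two_ip v φ one_pos
    rw [eY, Sp.sq_add', hPe]
    linarith [le_abs_self (ip v φ)]
  · have k := two_ip v φ hω
    have k1 : F.sq φ / ω ≤ ω * P := by rw [div_le_iff₀ hω]; linarith
    have k2 := mul_le_mul_of_nonneg_left v1 hω.le
    have k3 : 4 * m ^ 2 * ω * P ≤ P / (5 * m ^ 2) := by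
      rw [le_div_iff₀ (by positivity)]
      linarith [mul_le_mul_of_nonneg_right mω hP.le]
    rw [eY, Sp.sq_add', hPe]
    linarith [neg_abs_le (ip v φ), mul_le_mul_of_nonneg_right k4 hP.le]
  · have k := sum_three v e d (fun a => g - mu a) pN
    rw [← hX] at k
    have k1 : F.sq v / s ≤ (m ^ 2 + 1) * (P / s) := by
      rw [← mul_div_assoc]; exact div_le_div_of_nonneg_right v1 s0.le
    have k2 : F.sq d / s ≤ P / s := div_le_div_of_nonneg_right (by linarith) s0.le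
    have k3 := mul_le_mul_of_nonneg_right m2 (div_pos hP s0).le
    rw [e1] at gc ⊢
    linarith [dl v, dl d]
  · have e2 : ∑ a, X a * Y a / (g - mu a) = ip (v + e) v + ip d v + ip X φ := by
      rw [← F.ip_add_left, ← hX, ← F.ip_add_right]
      exact sum_congr rfl fun a _ => by rw [mul_div_assoc, hY]
    have e3 := two_ip_eq v e
    have k1 := two_ip d v one_pos
    have k2 := two_ip φ X (by linarith : (0 : ℝ) < n)
    rw [nrm, div_self (by linarith), F.ipN_comm] at k2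
    have a2 := abs_le.1 gb
    have a3 := abs_le.1 sh
    rw [e2, hPe]
    exact abs_le.2 ⟨by linarith [neg_abs_le (ip d v), neg_abs_le (ip X φ)],
      by linarith [le_abs_self (ip d v), le_abs_self (ip X φ)]⟩
  · have k := sum_two p ρ (fun a => g - mu a) pN
    rw [← hY2] at k
    have k1 : F.sq p / s ≤ Z ^ 2 * (n * s) := by rw [div_le_iff₀ s0]; linarith
    have k3 : 0 ≤ n * s := by positivity
    linarith [dl p, mul_le_mul_of_nonneg_right k5 k3]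

lemma core_of {η : Vec n} {ξ : ι → ℝ}
    (G : GE s Z m ω (2 + 2 * (θ ^ 2 * s)) lam mu U R (Sum.elim η ξ))
    (h1 : (n : ℝ) - 1 < F.sq (dm lam (2 + 2 * (θ ^ 2 * s)) *ᵥ η))
    (h2 : F.sq (dm lam (2 + 2 * (θ ^ 2 * s)) *ᵥ η) ≤ n + 1) :
    Core m s (2 + 2 * (θ ^ 2 * s)) mu (U *ᵥ rp n (dm lam (2 + 2 * (θ ^ 2 * s)) *ᵥ η))
      (U *ᵥ ((R * Rᵀ) *ᵥ rp n (dm lam (2 + 2 * (θ ^ 2 * s)) *ᵥ η) + R *ᵥ ξ)) := by
  have f := h.fr
  have s0 := h.s0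
  have hn : (1 : ℝ) ≤ n := by exact_mod_cast h.std.hn
  have k := AdmP.nv_rp_sub h.std.hn h1 h2
  have fe := f.field_eq η ξ
  obtain ⟨ga, gb, gc, gd⟩ := G
  set g := 2 + 2 * (θ ^ 2 * s) with hg
  set x' := dm lam g *ᵥ η with hx'
  have nx : F.sq (rp n x') = n := sq_rp (by linarith) fun c => by
    rw [c] at h1
    simp only [F.sq, Pi.zero_apply, ne_eq, OfNat.ofNat_ne_zero, not_false_eq_true, zero_pow,
      sum_const_zero] at h1
    linarith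
  have k1 : n * F.sq (rp n x' - x') ≤ 1 := by
    have := pow_le_pow_left₀ (mul_nonneg (F.nv_nonneg _) (Real.sqrt_nonneg _)) k 2
    rwa [mul_pow, F.nv_sq, Real.sq_sqrt (by linarith), one_pow, mul_comm] at this
  have ev : Av lam mu U R g *ᵥ Sum.elim η ξ + dm mu g *ᵥ (Az lam mu U R g *ᵥ Sum.elim η ξ)
      = U *ᵥ x' := by
    unfold Av Ax
    rw [Matrix.sub_mulVec, ← Matrix.mulVec_mulVec, sub_add_cancel, Matrix.fromCols_mulVec_sumElim,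
      Matrix.zero_mulVec, add_zero, Matrix.mulVec_mulVec]
  refine h.core_det (v := Av lam mu U R g *ᵥ Sum.elim η ξ)
    (e := dm mu g *ᵥ (Az lam mu U R g *ᵥ Sum.elim η ξ)) (d := U *ᵥ (rp n x' - x'))
    (φ := fun a => (U *ᵥ ((R * Rᵀ) *ᵥ (rp n x' - x'))) a / (g - mu a))
    (p := U *ᵥ ((R * Rᵀ) *ᵥ rp n x')) (ρ := U *ᵥ (R *ᵥ ξ)) ?_ (fun a => ?_)
    (Matrix.mulVec_add _ _ _) (by rw [f.sq_U, nx]) ?_ (by rwa [f.sq_U]) ?_ ?_ ga ?_ ?_ ?_
  · rw [ev, ← Matrix.mulVec_add, add_sub_cancel]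
  · rw [Pi.add_apply, ← fe, ← add_div, ← Pi.add_apply, ← Matrix.mulVec_add, Matrix.mulVec_sub]
    rw [show (R * Rᵀ) *ᵥ x' + R *ᵥ ξ + ((R * Rᵀ) *ᵥ rp n x' - (R * Rᵀ) *ᵥ x')
      = (R * Rᵀ) *ᵥ rp n x' + R *ᵥ ξ by abel]
  · rw [ev, f.sq_U]
    exact abs_le.2 ⟨by linarith, by linarith⟩
  · have c1 : F.sq (fun a => (U *ᵥ ((R * Rᵀ) *ᵥ (rp n x' - x'))) a / (g - mu a))
        ≤ F.sq (U *ᵥ ((R * Rᵀ) *ᵥ (rp n x' - x'))) / s ^ 2 := by
      unfold F.sq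
      rw [sum_div]
      refine sum_le_sum fun a _ => ?_
      rw [div_pow]
      exact div_le_div_of_nonneg_left (sq_nonneg _) (by positivity)
        (pow_le_pow_left₀ s0.le (f.hN a) 2)
    have c2 : F.sq (U *ᵥ ((R * Rᵀ) *ᵥ (rp n x' - x'))) / s ^ 2 ≤ Z ^ 2 * F.sq (rp n x' - x') := by
      rw [div_le_iff₀ (by positivity), f.sq_U]
      linarith [f.sq_Q (rp n x' - x')]
    nlinarith [mul_le_mul_of_nonneg_left (c1.trans c2) (by linarith : (0 : ℝ) ≤ n),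
      mul_le_mul_of_nonneg_left k1 (sq_nonneg Z)]
  · have c := f.sq_Q (rp n x')
    rwa [nx, ← f.sq_U] at c
  · rw [f.sq_dm]
    simpa only [div_eq_inv_mul] using gb
  · refine le_trans (le_of_eq (sum_congr rfl fun a _ => ?_)) gc
    unfold dm
    rw [Matrix.mulVec_diagonal, mul_pow, inv_pow, Real.sq_sqrt (f.pN a).le]
    rw [pow_two (g - mu a), mul_inv, div_eq_inv_mul, mul_assoc]
  · rw [← f.sq_dm]
    unfold Ar at gd
    rwa [← Matrix.mulVec_mulVec, ← Matrix.mulVec_mulVec, Matrix.fromCols_mulVec_sumElim,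
      Matrix.zero_mulVec, zero_add] at gd

omit h in
lemma ms_core (m s g : ℝ) (mu : Vec n) (U : Mat n) (R : Matrix (Fin n) ι ℝ) :
    MeasurableSet {q : Vec n × (ι → ℝ) |
      ¬ Core m s g mu (U *ᵥ q.1) (U *ᵥ ((R * Rᵀ) *ᵥ q.1 + R *ᵥ q.2))} := by
  have hX : Measurable fun q : Vec n × (ι → ℝ) => U *ᵥ q.1 :=
    (measurable_matVec U).comp measurable_fst
  have hY : Measurable fun q : Vec n × (ι → ℝ) => U *ᵥ ((R * Rᵀ) *ᵥ q.1 + R *ᵥ q.2) :=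
    (measurable_matVec U).comp (((measurable_matVec (R * Rᵀ)).comp measurable_fst).add
      ((measurable_matVec R).comp measurable_snd))
  have e : ∀ X Y : Vec n, Core m s g mu X Y ↔ (∑ a, X a ^ 2 = n ∧
      ∑ a, Y a ^ 2 / (g - mu a) ^ 2 ≤ 3 * m ^ 2 * (n * √s) ∧
      n - n * √s / (5 * m ^ 2) ≤ tr 1 mu g + ∑ a, Y a ^ 2 / (g - mu a) ^ 2 ∧
      ∑ a, X a ^ 2 / (g - mu a) ≤ 6 * m ^ 2 * (n / √s) ∧
      |∑ a, X a * Y a / (g - mu a)| ≤ 2 * m ^ 2 * (n * √s) ∧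
      ∑ a, Y a ^ 2 / (g - mu a) ≤ 28 * m ^ 2 * (n * s)) := fun X Y =>
    ⟨fun c => ⟨c.1, c.2, c.3, c.4, c.5, c.6⟩, fun c => ⟨c.1, c.2.1, c.2.2.1, c.2.2.2.1,
      c.2.2.2.2.1, c.2.2.2.2.2⟩⟩
  have k : MeasurableSet {p : Vec n × Vec n | Core m s g mu p.1 p.2} := by
    simp only [e, Set.ofPred_and]
    refine (measurableSet_eq_fun ?_ ?_).inter ((measurableSet_le ?_ ?_).inter
      ((measurableSet_le ?_ ?_).inter ((measurableSet_le ?_ ?_).inter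
      ((measurableSet_le ?_ ?_).inter (measurableSet_le ?_ ?_))))) <;> fun_prop
  exact ((hX.prodMk hY) k).compl

/-- the bounds at the tilt hold with high probability -/
theorem tail_core (hθ : 24 * θ ≤ ω ^ 2) :
    ((Plant.spM (Matrix.diagonal lam) 0).prod (gpi ι)).real {q | ¬ Core m s (2 + 2 * (θ ^ 2 * s)) mu
      (U *ᵥ q.1) (U *ᵥ ((R * Rᵀ) *ᵥ q.1 + R *ᵥ q.2))}
      ≤ 10 ^ 8 * n ^ 16 * exp (-(θ ^ 2 * ω ^ 2 / 2 * (s * (n * √s)))) := by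
  have r0 := h.stdr.pos
  have r1 := h.stdr.hi
  have hn : (0 : ℝ) < n := by exact_mod_cast h.std.hn
  have x0 := mul_pos h.s0 h.P0
  have e3 : exp 3 ≤ 21 := by
    have := exp_one_lt_d9
    have e : exp 3 = exp 1 ^ 3 := by rw [← exp_nat_mul]; norm_num
    rw [e]
    calc exp 1 ^ 3 ≤ 2.7182818286 ^ 3 := by gcongr
      _ ≤ _ := by norm_num
  have hA : AdmP.Cmp lam (2 + 2 * (θ ^ 2 * s)) 3
      (72 * n ^ 8 * 21 * (1500 * n ^ 8 * exp (θ ^ 2 * ω ^ 2 / 2 * (s * (n * √s))))) := by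
    unfold AdmP.Cmp
    have c1 := h.stdr.cost
    have c2 : 12 * (n * (θ ^ 2 * s * √(θ ^ 2 * s))) ≤ θ ^ 2 * ω ^ 2 / 2 * (s * (n * √s)) := by
      rw [Real.sqrt_mul (sq_nonneg _), Real.sqrt_sq h.θ0.le]
      linarith [mul_le_mul_of_nonneg_right hθ (mul_nonneg (sq_nonneg θ) x0.le)]
    have c3 : exp ((|2 + 2 * (θ ^ 2 * s) - 1| + 3 + 1) / 2) ≤ 21 := by
      refine le_trans (exp_le_exp.2 ?_) e3
      rw [abs_of_pos (by linarith)]
      linarith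
    have c4 := c1.trans (mul_le_mul_of_nonneg_right (mul_le_mul_of_nonneg_left (exp_le_exp.2 c2)
      (by positivity)) (IS_pos lam 0).le)
    rw [exp_add]
    calc _ ≤ 72 * n ^ 8 * (1500 * n ^ 8 * exp (θ ^ 2 * ω ^ 2 / 2 * (s * (n * √s))) * IS lam 0 * 21) :=
          mul_le_mul_of_nonneg_left (mul_le_mul c4 c3 (exp_pos _).le
            (mul_nonneg (by positivity) (IS_pos lam 0).le)) (by positivity)
      _ = _ := by ring
  refine (AdmP.spM_le h.std.hn (fun a => sub_pos.1 (h.fr.pE a)) (fun a => abs_le.2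
    ⟨(h.stdr.rig.1 a).1, by linarith [h.stdr.rig.le_eps a, h.stdr.lo]⟩) hA
      (ms_core _ _ _ _ _ _)).trans ?_
  have mp := measurePreserving_sumPiEquivProdPi_symm (X := fun _ : Fin n ⊕ ι => ℝ)
    fun _ => gaussianReal 0 1
  have k := (real_pre_le mp {v | ¬ GE s Z m ω (2 + 2 * (θ ^ 2 * s)) lam mu U R v}).trans h.tail_GE
  refine (mul_le_mul_of_nonneg_left (le_trans (Tail.real_imp_le _ fun p hp G => ?_) k)
    (by positivity)).trans ?_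
  · rw [AdmP.aff_zero] at hp
    exact hp.2 (h.core_of G hp.1.1 hp.1.2)
  · have e : exp (θ ^ 2 * ω ^ 2 / 2 * (s * (n * √s))) * exp (-(θ ^ 2 * ω ^ 2 * (s * (n * √s))))
        = exp (-(θ ^ 2 * ω ^ 2 / 2 * (s * (n * √s)))) := by
      rw [← exp_add]; congr 1; ring
    rw [← e]
    have : 0 ≤ n ^ 16 * (exp (θ ^ 2 * ω ^ 2 / 2 * (s * (n * √s)))
      * exp (-(θ ^ 2 * ω ^ 2 * (s * (n * √s))))) := by positivity
    linarith

end Bx

/-- **admissibility for every precision matrix** between `(s - E)₊` and `Z s` -/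
theorem adm_Q {L t : ℝ} (U : OG n) (H : Std n w (θ ^ 2 * s) lam) (hZ : 1 ≤ Z) (hm : m = Z + 3)
    (hθ0 : 0 < θ) (hω : 0 < ω) (hω1 : 20 * m ^ 4 * ω ≤ 1) (hθ : 24 * θ ≤ ω ^ 2)
    (hs : 576 * m ^ 4 * s ≤ 1) (big : 4 * Z ^ 2 ≤ θ ^ 2 * ω ^ 2 * (s * (n * √s)))
    (hM : Matrix.diagonal lam - R * Rᵀ = Sp.JO mu U)
    (h1 : ∀ v, qf (Matrix.diagonal (Cap.pr lam s)) v ≤ qf (R * Rᵀ) v)
    (h2 : ∀ v, qf (R * Rᵀ) v ≤ Z * s * F.sq v) (f : Fit n s t)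
    (hL : 12 * (1 + 12000 * m ^ 6) ^ 2 ≤ L) :
    ((Plant.spM (Matrix.diagonal lam) 0).prod (gpi ι)).real {q | ¬ ∃ z0,
      Raw (12000 * m ^ 6) s mu (U.1 *ᵥ ((R * Rᵀ) *ᵥ q.1 + R *ᵥ q.2)) (U.1 *ᵥ q.1) z0 ∧
      T1.Adm L t (dat s z0 mu (U.1 *ᵥ ((R * Rᵀ) *ᵥ q.1 + R *ᵥ q.2))) ∧
      T1.AdmX L t (dat s z0 mu (U.1 *ᵥ ((R * Rᵀ) *ᵥ q.1 + R *ᵥ q.2))) (U.1 *ᵥ q.1)}
      ≤ 10 ^ 8 * n ^ 16 * exp (-(θ ^ 2 * ω ^ 2 / 2 * (s * (n * √s)))) := by
  have r0 := H.pos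
  have s0 : 0 < s := (mul_pos_iff_of_pos_left (by positivity)).1 r0
  have m1 : 1 ≤ m := by linarith
  have m4 : m ≤ m ^ 4 := le_self_pow₀ m1 (by norm_num)
  have m6 : m ≤ m ^ 6 := le_self_pow₀ m1 (by norm_num)
  have ω1 : ω ≤ 1 := by nlinarith
  have θω : θ ≤ ω := by nlinarith
  have θ1 : θ ^ 2 * s ≤ s :=
    mul_le_of_le_one_left s0.le (pow_le_one₀ hθ0.le (θω.trans ω1))
  have ms : m * s ≤ m ^ 4 * s := mul_le_mul_of_nonneg_right m4 s0.le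
  have H1 : Std n w s lam := H.mono θ1 (by nlinarith)
  obtain ⟨σ, hS⟩ := sand_of_Q (OG.transpose_mul U) hM h1 h2
  have t1 : tr 1 mu (2 + 2 * (θ ^ 2 * s)) ≤ n := by
    have a1 : tr 1 mu (2 + 2 * (θ ^ 2 * s)) ≤ tr 1 (lam ∘ σ) (2 + 2 * (θ ^ 2 * s)) :=
      sum_le_sum fun a _ => by
        rw [pow_one, pow_one]
        exact inv_anti₀ (r0.trans_le ((H.perm σ).lt a))
          (by linarith [(hS a).2, min_le_left ((lam ∘ σ) a) (2 - s)])
    have a2 := (H.perm σ).tr_le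
    have : 0 ≤ n * √(θ ^ 2 * s) := by positivity
    linarith
  have b : Bx w s Z m θ ω lam (lam ∘ σ) mu U.1 R :=
    ⟨H, H1.perm σ, hS, ⟨OG.transpose_mul U, hM, r0, s0, by positivity, H.lt,
      fun a => by linarith [hS.le_top a], h2⟩, t1, hZ, hm, hθ0, hω, θω, hω1, big⟩
  refine le_trans (Tail.real_imp_le _ fun q hq => ?_) (b.tail_core hθ)
  intro c
  refine hq ?_
  obtain ⟨z0, hz⟩ := c.raw hS (H1.perm σ) hZ hm (by linarith) (by linarith) hs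
  exact ⟨z0, hz, hz.adm hS (H1.perm σ) (by linarith) (by linarith) (by nlinarith) (by linarith)
    hL f⟩

lemma ev_poly (A : ℕ) (N : ℝ) {c : ℝ} (hc : 0 < c) :
    ∀ᶠ n : ℕ in atTop, N * (n : ℝ) ^ A * exp (-(c * n)) ≤ 1 := by
  have h1 := ((tendsto_pow_mul_exp_neg_atTop_nhds_zero A).comp
    (tendsto_natCast_atTop_atTop.const_mul_atTop hc)).const_mul (N / c ^ A)
  rw [mul_zero] at h1
  filter_upwards [h1.eventually (ge_mem_nhds one_pos)] with n hn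
  refine le_trans (le_of_eq ?_) hn
  simp only [Function.comp, mul_pow]
  field_simp

lemma ev_ge (C : ℝ) {c : ℝ} (hc : 0 < c) : ∀ᶠ n : ℕ in atTop, C ≤ n * c :=
  (tendsto_natCast_atTop_atTop.atTop_mul_const hc).eventually_ge_atTop C

lemma admB_aux {t s0 : ℝ} (m θ ω : ℝ) (hm : m = 100 + 3) (hθ0 : 0 < θ) (hω : 0 < ω)
    (hω1 : 20 * m ^ 4 * ω ≤ 1) (hθ : 24 * θ ≤ ω ^ 2) (ht : 0 < t) (ht1 : t ≤ 1 / 2)
    (hs0 : s0 = t ^ 288000) (hs : 576 * m ^ 4 * (2 * s0) ≤ 1) :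
    ∃ c > (0 : ℝ), ∀ᶠ n : ℕ in atTop,
    ∀ (w s : ℝ) (lam : Vec n), Edge.Rigid w lam → 1 ≤ w → Edge.kap w ≤ c → Edge.sc0 n w ≤ c →
    s0 ≤ s → s ≤ 2 * s0 →
    ∀ (ι : Type) [Fintype ι] (R : Matrix (Fin n) ι ℝ) (U : OG n) (mu : Vec n),
      Matrix.diagonal lam - R * Rᵀ = Sp.JO mu U →
      (∀ v, qf (Matrix.diagonal (Cap.pr lam s)) v ≤ qf (R * Rᵀ) v) →
      (∀ v, qf (R * Rᵀ) v ≤ 100 * s * F.sq v) →
      ((Plant.spM (Matrix.diagonal lam) 0).prod (gpi ι)).real {q | ¬∃ gam z0 : ℝ,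
        T1.Adm (12 * (1 + 12000 * m ^ 6) ^ 2) t
          ⟨gam, z0, mu, U.1 *ᵥ ((R * Rᵀ) *ᵥ q.1 + R *ᵥ q.2)⟩ ∧
        T1.AdmX (12 * (1 + 12000 * m ^ 6) ^ 2) t
          ⟨gam, z0, mu, U.1 *ᵥ ((R * Rᵀ) *ᵥ q.1 + R *ᵥ q.2)⟩ (U.1 *ᵥ q.1)}
        ≤ exp (-(c * n)) := by
  have s1 : 0 < s0 := hs0 ▸ pow_pos ht _
  have c1 : 0 < θ ^ 2 * ω ^ 2 / 4 * (s0 * √s0) := by positivity
  refine ⟨min (θ ^ 2 * ω ^ 2 / 4 * (s0 * √s0)) (min (1 / 1000) (θ ^ 2 * s0)), by positivity, ?_⟩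
  filter_upwards [ev_poly 16 (10 ^ 8) c1, ev_ge (10 ^ 4) c1, ev_ge 1 (pow_pos ht 431998),
    eventually_gt_atTop 0] with n e1 e2 e3 hn w s lam hR hw hk hsc a1 a2 ι _ R U mu hM h1 h2
  have hn0 : (0 : ℝ) ≤ n := Nat.cast_nonneg n
  have m1 : 1 ≤ m ^ 4 := one_le_pow₀ (by linarith)
  have ω1 : ω ≤ 1 := by nlinarith
  have θ1 : θ ^ 2 ≤ 1 := pow_le_one₀ hθ0.le (by nlinarith)
  have k1 : s0 * √s0 ≤ s * √s :=
    mul_le_mul a1 (Real.sqrt_le_sqrt a1) (Real.sqrt_nonneg _) (by linarith)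
  have k2 : n * (θ ^ 2 * ω ^ 2 / 4 * (s0 * √s0)) ≤ θ ^ 2 * ω ^ 2 / 4 * (s * (n * √s)) := by
    linarith [mul_le_mul_of_nonneg_left k1 (by positivity : 0 ≤ n * (θ ^ 2 * ω ^ 2 / 4))]
  have H : Std n w (θ ^ 2 * s) lam := ⟨hR, hn, by linarith,
    hk.trans ((min_le_right _ _).trans (min_le_left _ _)),
    (hsc.trans ((min_le_right _ _).trans (min_le_right _ _))).trans
      (mul_le_mul_of_nonneg_left a1 (sq_nonneg _)), by nlinarith⟩
  have k := adm_Q (L := 12 * (1 + 12000 * m ^ 6) ^ 2) (t := t) U H (by norm_num) hm hθ0 hω hω1 hθ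
    (by nlinarith) (by linarith) hM h1 h2
    ⟨ht, ht1, by rw [← hs0]; linarith, by rw [← hs0]; exact a2, e3⟩ le_rfl
  refine le_trans (Tail.real_imp_le _ fun q hq => ?_) (k.trans ?_)
  · rintro ⟨z0, -, c1, c2⟩
    exact hq ⟨_, z0, c1, c2⟩
  · have b1 : exp (-(θ ^ 2 * ω ^ 2 / 2 * (s * (n * √s))))
        ≤ exp (-(θ ^ 2 * ω ^ 2 / 4 * (s0 * √s0) * n)) *
          exp (-(min (θ ^ 2 * ω ^ 2 / 4 * (s0 * √s0)) (min (1 / 1000) (θ ^ 2 * s0)) * n)) := by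
      rw [← exp_add]
      refine exp_le_exp.2 ?_
      linarith [mul_le_mul_of_nonneg_right
        (min_le_left (θ ^ 2 * ω ^ 2 / 4 * (s0 * √s0)) (min (1 / 1000) (θ ^ 2 * s0))) hn0]
    refine (mul_le_mul_of_nonneg_left b1 (by positivity)).trans ?_
    rw [← mul_assoc]
    exact mul_le_of_le_one_left (exp_pos _).le e1

end Vale.Agent.N150.Adm

namespace Vale.Agent.N150.Br

/-- admissible data along the bridge -/
theorem admB : AdmB := by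
  refine ⟨12 * (1 + 12000 * (100 + 3) ^ 6) ^ 2, by norm_num, ?_⟩
  have h1 : ∀ᶠ t in 𝓝[>] (0 : ℝ), t < 1 / (576 * (100 + 3) ^ 4 * 2) :=
    nhdsWithin_le_nhds (gt_mem_nhds (by norm_num))
  filter_upwards [h1, self_mem_nhdsWithin] with t ht ht0
  have h0 : 0 < t := ht0
  have h2 : t ≤ 1 / 2 := ht.le.trans (by norm_num)
  have h3 : t ^ 288000 ≤ t := pow_le_of_le_one h0.le (by linarith) (by norm_num)
  refine Adm.admB_aux (100 + 3) ((1 / (20 * (100 + 3) ^ 4)) ^ 2 / 24) (1 / (20 * (100 + 3) ^ 4)) rfl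
    (by norm_num) (by norm_num) (by norm_num) (by norm_num) h0 h2 rfl ?_
  generalize t ^ 288000 = u at h3 ⊢
  rw [lt_div_iff₀ (by norm_num)] at ht
  linarith

end Vale.Agent.N150.Br
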