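import Vale.Agent.N150.AdmQ
import Vale.Agent.N150.Adm0

/-! Admissibility of the frame data on the levels of the `J`-killing path from `b • J`, `b < 1`. -/

open MeasureTheory ProbabilityTheory Matrix Filter Topology

namespace Vale.Agent.N150.AdmP

open Vale.Agent.P150 Vale.Agent.P150.F Vale.Agent.N150.Plant Vale.Agent.N150.Edge
open Vale.Agent.N150.Adm (Std Sand tr)

variable {n : ℕ}

theorem shift_g (gam z c : ℝ) (mu Y : Vec n) :
    T1.Dat.g ⟨gam + c, z + c, fun a => mu a + c, Y⟩ = T1.Dat.g ⟨gam, z, mu, Y⟩ := by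
  funext a
  simp only [T1.Dat.g, add_sub_add_right_eq_sub]

theorem shift_low (gam z c σ : ℝ) (mu Y : Vec n) :
    T1.Dat.low ⟨gam + c, z + c, fun a => mu a + c, Y⟩ σ = T1.Dat.low ⟨gam, z, mu, Y⟩ σ := by
  simp only [T1.Dat.low, add_sub_add_right_eq_sub]

/-- admissibility does not see a shift of the spectrum -/
theorem adm_shift {L t gam z : ℝ} {mu Y : Vec n} (h : T1.Adm L t ⟨gam, z, mu, Y⟩) (c : ℝ) :
    T1.Adm L t ⟨gam + c, z + c, fun a => mu a + c, Y⟩ := by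
  obtain ⟨a1, a2, a3, a4, a5, a6, a7, a8, a9, a10, a11, a12, a13, a14⟩ := h
  refine ⟨a1, ?_, ?_, ?_, fun a => ?_, fun a => ?_, ?_, ?_, ?_, ?_, ?_, ?_, ?_, ?_⟩
  · show gam + c + _ ≤ z + c
    linarith [show gam + _ ≤ z from a2]
  · show z + c ≤ gam + c + _
    linarith [show z ≤ gam + _ from a3]
  · rw [shift_g]; exact a4
  · exact add_le_add_left (a5 a) c
  · show gam + c - (mu a + c) ≤ 6
    linarith [show gam - mu a ≤ 6 from a6 a]
  · rw [shift_low]; exact a7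
  · rw [shift_low]; exact a8
  · rw [shift_g]; exact a9
  · rw [shift_g]; exact a10
  · rw [shift_g, shift_low]; exact a11
  · rw [shift_g, shift_low]; exact a12
  · rw [shift_g]; exact a13
  · rw [shift_g]; exact a14

theorem admX_shift {L t gam z : ℝ} {mu Y X : Vec n} (h : T1.AdmX L t ⟨gam, z, mu, Y⟩ X) (c : ℝ) :
    T1.AdmX L t ⟨gam + c, z + c, fun a => mu a + c, Y⟩ X := by
  obtain ⟨a1, a2, a3, a4⟩ := h
  refine ⟨a1, ?_, ?_, ?_⟩
  · rw [shift_g]; exact a2
  · rw [shift_g]; exact a3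
  · rw [shift_g]; exact a4

theorem sum_scale (lam : Vec n) (b η : ℝ) :
    tr 1 (b • lam) (b * (2 + η)) = trR 1 lam η / b := by
  unfold tr trR
  rw [Finset.sum_div]
  refine Finset.sum_congr rfl fun a _ => ?_
  rw [pow_one, pow_one, Pi.smul_apply, smul_eq_mul,
    show b * (2 + η) - b * lam a = (2 - lam a + η) * b by ring, mul_inv, div_eq_mul_inv]

/-- the saddle of the spherical model below the critical temperature parameter -/
theorem exists_gb {w b : ℝ} {lam : Vec n} (h : Rigid w lam) (hn : 0 < n) (hw : 0 < w)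
    (hk : Edge.kap w ≤ 1 / 1000) (hb : 9 / 10 ≤ b) (hb1 : b < 1) (hs : sc0 n w ≤ (1 - b) ^ 2 / 256) :
    ∃ g, 2 * b + (1 - b) ^ 2 / 128 ≤ g ∧ g ≤ 2 * b + 32 * (1 - b) ^ 2 ∧
      (∀ a, (1 - b) ^ 2 / 256 ≤ g - (b • lam) a) ∧ ∑ a, 1 / (g - (b • lam) a) = n := by
  set d := 1 - b with hd
  have d0 : 0 < d := by linarith
  have d2 : 0 < d ^ 2 := by positivity
  have d3 : d ^ 2 ≤ 1 / 100 := by nlinarith
  have b0 : 0 < b := by linarith
  have hn' : (0 : ℝ) < n := by exact_mod_cast hn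
  have e0 : ∀ γ, sadF (b • lam) 0 γ = tr 1 (b • lam) γ := fun γ => by simp [sadF, tr]
  have lt : ∀ η, sc0 n w < η → ∀ a, (b • lam) a < b * (2 + η) := fun η hη a => by
    rw [Pi.smul_apply, smul_eq_mul]
    exact mul_lt_mul_of_pos_left (by linarith [h.pos hη a]) b0
  have k1 := h.trR_one_le' hn hw (by linarith) (r := 16 * d ^ 2) (by linarith) (by linarith)
  rw [show 16 * d ^ 2 = (4 * d) ^ 2 by ring, Real.sqrt_sq (by linarith)] at k1
  obtain ⟨g, g1, g2, g3⟩ := exists_saddle hn (yt := 0) (ρ := n) hn'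
    (lt (2 * (4 * d) ^ 2) (by linarith)) (by
      rw [e0, sum_scale, div_le_iff₀ b0]
      refine k1.trans (le_of_eq ?_)
      rw [hd]; ring)
  have g0 : ∀ a, (b • lam) a < g := fun a => by linarith [g1 a, one_div_pos.2 hn']
  have k2 := h.trR_one_ge' hn hw (by linarith) (η := (d / 8) ^ 2) (by linarith)
    (h.pos (by linarith))
  rw [Real.sqrt_sq (by linarith)] at k2
  have g4 : b * (2 + (d / 8) ^ 2) ≤ g := Adm.le_of_tr_le hn g0 (lt _ (by linarith)) (by
    rw [← e0, g3, sum_scale, le_div_iff₀ b0]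
    refine le_trans (mul_le_mul_of_nonneg_left ?_ hn'.le) k2
    linarith)
  refine ⟨g, by nlinarith, by nlinarith, fun a => ?_, by simpa [sadF] using g3⟩
  have := mul_le_mul_of_nonneg_left (h.le_eps a) b0.le
  have := mul_le_mul_of_nonneg_left hs b0.le
  rw [Pi.smul_apply, smul_eq_mul]
  nlinarith

theorem sqrt_pow2 {t : ℝ} (ht : 0 ≤ t) (k : ℕ) : √(t ^ (k * 2)) = t ^ k := by
  rw [pow_mul, Real.sqrt_sq (pow_nonneg ht k)]

theorem sqrt_two_mul {σ : ℝ} (hσ : 0 ≤ σ) : √(2 * σ) ≤ 3 / 2 * √σ := by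
  rw [Real.sqrt_le_left (by positivity), mul_pow, Real.sq_sqrt hσ]
  linarith

/-- a scaled spectrum seen from a point at distance of order `s` from its edge -/
structure Lev (w r s gam g : ℝ) (lam mu : Vec n) : Prop where
  std : Std n w (s / 256) lam
  r0 : 1 / 2 ≤ r
  r1 : r ≤ 1
  s1 : s ≤ 1 / 8
  eps : ∀ a, gam - mu a = r * (2 + sc0 n w - lam a)
  lo : gam + s / 128 ≤ g + r * sc0 n w
  hi : g + r * sc0 n w ≤ gam + 32 * s

section

variable {w r s gam g : ℝ} {lam mu : Vec n}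

theorem Lev.s0 (h : Lev w r s gam g lam mu) : 0 < s := by linarith [h.std.pos]

theorem Lev.sand (h : Lev w r s gam g lam mu) :
    Sand (s / 256) 2 lam fun a => lam a - (s / 256 + sc0 n w) := fun a => by
  have h1 := h.std.lo
  have h2 := sc0_pos h.std.hn h.std.hw
  have h3 := h.std.rig.le_eps a
  have h4 := h.s0
  exact ⟨by linarith, le_min (by linarith) (by linarith)⟩

/-- the distance from the edge before scaling -/
noncomputable def eta (n : ℕ) (w r gam g : ℝ) : ℝ := (g - gam) / r + sc0 n w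

theorem Lev.eta_ge (h : Lev w r s gam g lam mu) : s / 128 ≤ eta n w r gam g := by
  have r0 : 0 < r := by linarith [h.r0]
  have e : eta n w r gam g = (g + r * sc0 n w - gam) / r := by unfold eta; field_simp; ring
  rw [e, le_div_iff₀ r0]
  nlinarith [h.lo, h.r1, h.s0]

theorem Lev.eta_le (h : Lev w r s gam g lam mu) : eta n w r gam g ≤ 64 * s := by
  have r0 : 0 < r := by linarith [h.r0]
  have e : eta n w r gam g = (g + r * sc0 n w - gam) / r := by unfold eta; field_simp; ring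
  rw [e, div_le_iff₀ r0]
  nlinarith [h.hi, h.r0, h.s0]

theorem Lev.pos (h : Lev w r s gam g lam mu) (a : Fin n) : 0 < 2 - lam a + eta n w r gam g :=
  h.std.rig.pos (by linarith [h.eta_ge, h.std.lo, h.s0]) a

theorem Lev.nu (h : Lev w r s gam g lam mu) (a : Fin n) :
    g - mu a = r * (2 - lam a + eta n w r gam g) := by
  have r0 : 0 < r := by linarith [h.r0]
  have e : r * eta n w r gam g = g - gam + r * sc0 n w := by unfold eta; field_simp
  linarith [h.eps a]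

theorem Lev.inv (h : Lev w r s gam g lam mu) (a : Fin n) :
    (2 - lam a + eta n w r gam g)⁻¹ ≤ (g - mu a)⁻¹ ∧
      (g - mu a)⁻¹ ≤ 2 * (2 - lam a + eta n w r gam g)⁻¹ := by
  have h0 := h.pos a
  have r0 : 0 < r := by linarith [h.r0]
  rw [h.nu a]
  refine ⟨inv_anti₀ (by positivity) (by nlinarith [h.r1]), ?_⟩
  rw [← div_eq_mul_inv, ← one_div, div_le_div_iff₀ (by positivity) h0]
  nlinarith [h.r0]

theorem Lev.inv2 (h : Lev w r s gam g lam mu) (a : Fin n) :
    ((2 - lam a + eta n w r gam g) ^ 2)⁻¹ ≤ (g - mu a)⁻¹ ^ 2 ∧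
      (g - mu a)⁻¹ ^ 2 ≤ 4 * ((2 - lam a + eta n w r gam g) ^ 2)⁻¹ := by
  have h0 := (inv_pos.2 (h.pos a)).le
  rw [← inv_pow]
  refine ⟨pow_le_pow_left₀ h0 (h.inv a).1 2, ?_⟩
  have := pow_le_pow_left₀ (h0.trans (h.inv a).1) (h.inv a).2 2
  linarith

theorem zeq (w s η : ℝ) (lam : Vec n) (a : Fin n) :
    η + 2 - (s / 256 + sc0 n w) - (lam a - (s / 256 + sc0 n w)) = 2 - lam a + η := by ring

theorem Lev.hz (h : Lev w r s gam g lam mu) :
    2 - s / 256 / 2 ≤ eta n w r gam g + 2 - (s / 256 + sc0 n w) := by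
  linarith [h.eta_ge, h.std.lo, h.s0]

theorem sqrt_div {s : ℝ} (hs : 0 ≤ s) : √(s / 256) = √s / 16 := by
  rw [Real.sqrt_div hs, show (256 : ℝ) = 16 ^ 2 by norm_num, Real.sqrt_sq (by norm_num)]

theorem Lev.card (h : Lev w r s gam g lam mu) {σ : ℝ} (hσ : s ≤ σ) :
    ((Finset.univ.filter fun a => gam - mu a ≤ σ).card : ℝ) ≤ 3 * (n * (σ * √σ)) := by
  have h0 := h.s0
  have k := h.sand.card_le h.std (σ := 2 * σ) (by linarith)
  have k2 := Adm.two_mul_sqrt (σ := σ) (by linarith)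
  have k3 := mul_le_mul_of_nonneg_left k2 (Nat.cast_nonneg (α := ℝ) n)
  refine le_trans (Nat.cast_le.2 (Finset.card_le_card fun a ha => ?_)) (k.trans (by linarith))
  simp only [Finset.mem_filter, Finset.mem_univ, true_and] at ha ⊢
  rw [h.eps a] at ha
  nlinarith [h.r0, h.std.rig.le_eps a]

theorem Lev.t2lo (h : Lev w r s gam g lam mu) :
    (n : ℝ) ≤ 10 ^ 8 * √s * ∑ a, (g - mu a)⁻¹ ^ 2 := by
  have h0 := h.s0
  have k := h.sand.le_tr_two h.std (z := eta n w r gam g + 2 - (s / 256 + sc0 n w)) (Y := 16384)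
    (by linarith [h.hz]) (by norm_num) (by norm_num)
    (by linarith [h.eta_le, sc0_pos h.std.hn h.std.hw])
  unfold tr at k
  simp only [zeq] at k
  have k2 := k.trans (Finset.sum_le_sum fun a _ => (h.inv2 a).1)
  have q0 : 0 < √s := Real.sqrt_pos.2 h0
  rw [sqrt_div h0.le] at k2
  have k3 := mul_le_mul_of_nonneg_left k2 (by positivity : 0 ≤ 10 ^ 8 * √s)
  refine le_trans ?_ k3
  have e : 10 ^ 8 * √s * (7 / 10 * (n / (√s / 16)) / (1 + (16384 + 2)) ^ 2)
      = 10 ^ 8 * (7 / 10) * 16 / (1 + (16384 + 2)) ^ 2 * n := by field_simp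
  rw [e]
  exact le_mul_of_one_le_left (Nat.cast_nonneg n) (by norm_num)

theorem Lev.t2hi (h : Lev w r s gam g lam mu) : √s * ∑ a, (g - mu a)⁻¹ ^ 2 ≤ 256 * n := by
  have h0 := h.s0
  have k := h.sand.tr_two_le h.std h.hz
  unfold tr at k
  simp only [zeq] at k
  have k2 := Finset.sum_le_sum (s := Finset.univ) fun a _ => (h.inv2 a).2
  rw [← Finset.mul_sum] at k2
  have q0 : 0 < √s := Real.sqrt_pos.2 h0
  rw [sqrt_div h0.le] at k
  calc _ ≤ √s * (4 * (4 * (n / (√s / 16)))) := mul_le_mul_of_nonneg_left (by linarith) q0.le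
    _ = _ := by field_simp; ring

theorem Lev.trlo (h : Lev w r s gam g lam mu) {σ : ℝ} (hσ : s ≤ σ) (hσ1 : σ ≤ 1 / 2) :
    ∑ a ∈ Finset.univ.filter fun a => gam - mu a ≤ σ, (g - mu a)⁻¹ ≤ 12 * (n * √σ) := by
  have h0 := h.s0
  have k := h.sand.tr_low h.std h.hz (σ := 2 * σ) (by linarith) (by linarith)
  simp only [zeq] at k
  have k3 := mul_le_mul_of_nonneg_left (sqrt_two_mul (σ := σ) (by linarith))
    (Nat.cast_nonneg (α := ℝ) n)
  refine le_trans ?_ ((mul_le_mul_of_nonneg_left k zero_le_two).trans (by linarith))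
  rw [Finset.sum_filter, Finset.mul_sum]
  refine Finset.sum_le_sum fun a _ => ?_
  have p := (inv_pos.2 (h.pos a)).le
  split_ifs with h1 h2 h2
  · exact (h.inv a).2
  · rw [h.eps a] at h1
    exact absurd (by nlinarith [h.r0, h.std.rig.le_eps a]) h2
  · linarith
  · linarith

theorem Lev.trhi (h : Lev w r s gam g lam mu) {σ : ℝ} (hσ : s ≤ σ) (hσ1 : σ ≤ 1 / 2) :
    √σ * ∑ a ∈ (Finset.univ.filter fun a => gam - mu a ≤ σ)ᶜ, (g - mu a)⁻¹ ^ 2 ≤ 48 * n := by
  have h0 := h.s0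
  have k := h.sand.tr_high h.std h.hz (σ := σ) (by linarith) (by linarith)
  simp only [zeq] at k
  have q0 : 0 < √σ := Real.sqrt_pos.2 (by linarith)
  have k2 : ∑ a ∈ (Finset.univ.filter fun a => gam - mu a ≤ σ)ᶜ, (g - mu a)⁻¹ ^ 2
      ≤ 4 * (12 * (n / √σ)) := by
    refine le_trans ?_ (mul_le_mul_of_nonneg_left k (by norm_num))
    rw [Finset.compl_filter, Finset.sum_filter, Finset.mul_sum]
    refine Finset.sum_le_sum fun a _ => ?_
    have p := (inv_pos.2 (pow_pos (h.pos a) 2)).le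
    split_ifs with h1 h2 h2
    · linarith
    · linarith
    · rw [h.eps a] at h1
      exact absurd (by nlinarith [h.r1, h.std.rig.le_eps a]) h1
    · exact (h.inv2 a).2
  calc _ ≤ √σ * (4 * (12 * (n / √σ))) := mul_le_mul_of_nonneg_left k2 q0.le
    _ = _ := by field_simp; ring

theorem Lev.trd (h : Lev w r s gam g lam mu) : n - ∑ a, (g - mu a)⁻¹ ≤ 32 * (n * √s) := by
  have h0 := h.s0
  have k := h.std.rig.trR_one_ge' h.std.hn h.std.hw (by linarith [h.std.hk])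
    (η := eta n w r gam g) (by linarith [h.eta_ge, h.std.lo]) h.pos
  unfold trR at k
  simp only [pow_one] at k
  have k2 := k.trans (Finset.sum_le_sum fun a _ => (h.inv a).1)
  have k3 : √(eta n w r gam g) ≤ 8 * √s := by
    rw [Real.sqrt_le_left (by positivity), mul_pow, Real.sq_sqrt h0.le]
    linarith [h.eta_le]
  have k4 := mul_le_mul_of_nonneg_left k3 (Nat.cast_nonneg (α := ℝ) n)
  linarith

theorem pow_small {t : ℝ} (ht : 0 < t) (h : t ^ 288000 ≤ 1 / 8) : t ≤ 1 ∧ t ^ 139200 ≤ 1 / 2 := by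
  have h1 : t ≤ 1 := by
    by_contra hc
    linarith [one_le_pow₀ (n := 288000) (not_le.1 hc).le]
  refine ⟨h1, ?_⟩
  by_contra hc
  have h2 := pow_lt_pow_left₀ (not_le.1 hc) (by norm_num) (n := 3) (by norm_num)
  rw [← pow_mul] at h2
  have h3 := (h2.trans_le
    (pow_le_pow_of_le_one ht.le h1 (show 288000 ≤ 139200 * 3 by norm_num))).trans_le h
  norm_num at h3

theorem big_mul {c a b : ℝ} (hc : c ≤ 10 ^ 8) (ha : 0 ≤ a) (hb : 0 ≤ b) :
    c * (a * b) ≤ 10 ^ 8 * a * b := by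
  rw [mul_assoc]
  exact mul_le_mul_of_nonneg_right hc (mul_nonneg ha hb)

theorem Lev.spec {t : ℝ} (ht : 0 < t) (h : Lev w r (t ^ 288000) gam g lam mu) {Lam : Vec n}
    (hb : 1 ≤ n * t ^ 431998) (hτ : ∑ a, 1 / (g - Lam a) = n) :
    Spec (10 ^ 8) t ⟨gam, g, mu, 0⟩ Lam := by
  obtain ⟨t1, t2⟩ := pow_small ht h.s1
  have hn : (0 : ℝ) ≤ n := Nat.cast_nonneg n
  have s0 := h.s0
  have p1 : t ^ 288000 ≤ t ^ 198400 := pow_le_pow_of_le_one ht.le t1 (by norm_num)
  have p2 : t ^ 288000 ≤ t ^ 139200 := pow_le_pow_of_le_one ht.le t1 (by norm_num)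
  have q0 : √(t ^ 288000) = t ^ 144000 := sqrt_pow2 ht.le 144000
  have q1 : t ^ 198400 * √(t ^ 198400) = t ^ 297600 := by
    rw [sqrt_pow2 ht.le 99200, ← pow_add]
  have q2 : √(t ^ 139200) = t ^ 69600 := sqrt_pow2 ht.le 69600
  have q3 : t ^ 139200 * t ^ 69600 = t ^ 208800 := by rw [← pow_add]
  have c0 := sc0_pos h.std.hn h.std.hw
  have c1 : 0 ≤ r * sc0 n w := mul_nonneg (by linarith [h.r0]) c0.le
  have c2 : r * sc0 n w ≤ sc0 n w := mul_le_of_le_one_left c0.le h.r1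
  refine ⟨hb, ?_, ?_, fun a => ?_, fun a => ?_, ?_, ?_, ?_, ?_, ?_, ?_, hτ.le, ?_, ?_⟩
  · show gam + _ ≤ g
    linarith [h.lo, h.std.lo]
  · show g ≤ gam + _
    linarith [h.hi]
  · show mu a ≤ gam
    have := mul_nonneg (by linarith [h.r0] : 0 ≤ r)
      (by linarith [h.std.rig.le_eps a] : 0 ≤ 2 + sc0 n w - lam a)
    linarith [h.eps a]
  · show gam - mu a ≤ 6
    have := mul_le_of_le_one_left
      (by linarith [h.std.rig.le_eps a] : 0 ≤ 2 + sc0 n w - lam a) h.r1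
    linarith [h.eps a, h.std.rig.eps_le a, h.std.lo, h.s1]
  · have := h.card p1
    rw [q1] at this
    exact this.trans (big_mul (by norm_num) hn (pow_pos ht _).le)
  · have := h.card p2
    rw [q2, q3] at this
    exact this.trans (big_mul (by norm_num) hn (pow_pos ht _).le)
  · have := h.t2lo
    rwa [q0] at this
  · have := h.t2hi
    rw [q0] at this
    exact this.trans (mul_le_mul_of_nonneg_right (by norm_num) hn)
  · have := h.trlo p2 t2
    rw [q2] at this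
    exact this.trans (big_mul (by norm_num) hn (pow_pos ht _).le)
  · have := h.trhi p2 t2
    rw [q2] at this
    exact this.trans (mul_le_mul_of_nonneg_right (by norm_num) hn)
  · show n - ∑ a, 1 / (g - Lam a) ≤ _
    rw [hτ, sub_self]
    exact div_nonneg (mul_nonneg hn (pow_pos ht _).le) (by norm_num)
  · have := h.trd
    rw [q0] at this
    exact this.trans (big_mul (by norm_num) hn (pow_pos ht _).le)

end

/-- the frame data at the level `u` of the path from `b • lam`, shifted by `κ` -/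
noncomputable def libDat (b u κ gam z : ℝ) (lam xt ξ : Vec n) : T1.Dat n :=
  ⟨gam, z, fun a => (b - u) * lam a - κ,
    fun a => u * (lam a + 4) * xt a + √u * √(lam a + 4) * ξ a⟩

theorem lib_fixed {w b u t κ x : ℝ} {lam : Vec n} (h : Rigid w lam) (hn : 0 < n) (hw : 0 < w)
    (hk : Edge.kap w ≤ 1 / 1000) (hb : 99 / 100 ≤ b) (hb1 : b < 1) (hs : sc0 n w ≤ (1 - b) ^ 2 / 256)
    (u0 : 0 ≤ u) (u1 : u ≤ 1 / 50) (ht : 0 < t) (hts : t ^ 288000 = (1 - b) ^ 2 + 6 * u)
    (hx : 1 ≤ x) (h1 : 10 ^ 48 * x ≤ n * (1 - b) ^ 3) (h2 : 10 ^ 50 ≤ n * (1 - b) ^ 4) :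
    ((spM (diagonal (b • lam)) 0).prod (gpi (Fin n))).real {p | ¬ ∃ gam z,
      2 * (b - u) - κ ≤ gam ∧ gam ≤ 3 - κ ∧
      T1.Adm (128 * (10 ^ 8) ^ 3) t (libDat b u κ gam z lam p.1 p.2) ∧
      T1.AdmX (128 * (10 ^ 8) ^ 3) t (libDat b u κ gam z lam p.1 p.2) p.1}
      ≤ (72 * n ^ 8) ^ 2 * Real.exp 7 * (8 * Real.exp (-x)) := by
  obtain ⟨g, g1, g2, g3, g4⟩ := exists_gb h hn hw hk (by linarith) hb1 hs
  set d := 1 - b with hd
  have d0 : 0 < d := by linarith
  have d1 : d ≤ 1 / 100 := by linarith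
  have d2 : 0 < d ^ 2 := by positivity
  have d3 : d ^ 2 ≤ 1 / 10000 := by nlinarith
  have hn' : (0 : ℝ) < n := by exact_mod_cast hn
  have c0 := sc0_pos hn hw
  have l0 : ∀ a, 1 ≤ lam a + 4 := fun a => by linarith [h.eps_le a]
  have l1 : ∀ a, lam a + 4 ≤ 7 := fun a => by linarith [h.le_eps a]
  have H : Lev w (b - u) (t ^ 288000) ((b - u) * (2 + sc0 n w) - 4 * u) g lam
      fun a => (b - u) * lam a - 4 * u :=
    ⟨⟨h, hn, hw, hk, by linarith, by linarith⟩, by linarith, by linarith, by linarith,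
      fun a => by ring, by linarith, by linarith⟩
  obtain ⟨t1, -⟩ := pow_small ht H.s1
  have p1 : d ≤ t ^ 144000 := by
    refine abs_le_of_sq_le_sq' ?_ (pow_pos ht _).le |>.2
    rw [← pow_u2]; linarith
  have p2 : d ^ 4 ≤ t ^ 431998 := by
    have a1 := pow_le_pow_left₀ d0.le p1 4
    rw [← pow_mul] at a1
    exact a1.trans (pow_le_pow_of_le_one ht.le t1 (by norm_num))
  have p3 : d ^ 3 ≤ t ^ 432000 := by rw [pow_u3]; exact pow_le_pow_left₀ d0.le p1 3
  have p4 : d ^ 4 ≤ d := pow_le_of_le_one d0.le (by linarith) (by norm_num)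
  have sp := H.spec ht (by linarith [mul_le_mul_of_nonneg_left p2 hn'.le]) g4
  have hD : Dat g (b • lam) (fun a => (b - u) * lam a - 4 * u) 1
      (diagonal fun a => u * (lam a + 4)) (diagonal fun a => √u * √(lam a + 4)) := by
    refine ⟨by simp, ?_, ?_, fun a => by linarith [g3 a], fun a => ?_⟩
    · rw [Matrix.one_mul, Matrix.transpose_one, Matrix.mul_one, Matrix.diagonal_sub]
      congr 1
      funext a
      rw [Pi.smul_apply, smul_eq_mul]; ring
    · rw [Matrix.diagonal_transpose, Matrix.diagonal_mul_diagonal]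
      congr 1
      funext a
      rw [mul_mul_mul_comm, Real.mul_self_sqrt u0, Real.mul_self_sqrt (by linarith [l0 a])]
    · have := mul_pos (by linarith : 0 < b - u) (H.pos a)
      linarith [H.nu a]
  have hB : ∀ a, |(b • lam) a| ≤ 3 := fun a => by
    rw [Pi.smul_apply, smul_eq_mul, abs_mul, abs_of_pos (by linarith : 0 < b)]
    have : |lam a| ≤ 3 := abs_le.2 ⟨by linarith [l0 a], by linarith [l1 a]⟩
    nlinarith [abs_nonneg (lam a)]
  have hA := cmp_of hn hD.epos hB g4.le ⟨0, hn⟩ le_rfl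
  rw [g4, sub_self, mul_zero, zero_div, add_zero] at hA
  have hQ : OpLe (diagonal fun a => u * (lam a + 4) : Mat n) (10 ^ 8 * t ^ 288000) :=
    opLe_diag fun a => pow_le_pow_left₀ (mul_nonneg u0 (by linarith [l0 a]))
      (by linarith [mul_le_mul_of_nonneg_left (l1 a) u0]) 2
  have key := adm_prob (S := ⟨_, g, _, 0⟩) hD sp (by norm_num) ht t1 hQ hB hA (by positivity) g3 hx
    (by
      have a1 := mul_le_mul_of_nonneg_right (mul_le_mul_of_nonneg_left p1 hn'.le) d2.le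
      linarith)
    (by linarith [mul_le_mul_of_nonneg_left p3 hn'.le])
    (by linarith [mul_le_mul_of_nonneg_left (p4.trans p1) hn'.le])
  refine le_trans (le_trans (Tail.real_imp_le _ fun p hp => ?_) key) ?_
  · rintro ⟨z, -, a1, a2⟩
    apply hp
    have e1 : (fun a => (b - u) * lam a - 4 * u + (4 * u - κ)) = fun a => (b - u) * lam a - κ :=
      funext fun a => by ring
    have e2 : (1 : Mat n) *ᵥ (diagonal (fun a => u * (lam a + 4)) *ᵥ p.1 +
        diagonal (fun a => √u * √(lam a + 4)) *ᵥ p.2)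
        = fun a => u * (lam a + 4) * p.1 a + √u * √(lam a + 4) * p.2 a := by
      funext a
      rw [Matrix.one_mulVec, Pi.add_apply, Matrix.mulVec_diagonal, Matrix.mulVec_diagonal]
    have b1 := adm_shift a1 (4 * u - κ)
    have b2 := admX_shift a2 (4 * u - κ)
    simp only [e1, e2] at b1 b2
    rw [Matrix.one_mulVec] at b2
    have c1 : 0 ≤ (b - u) * sc0 n w := mul_nonneg (by linarith) c0.le
    have c2 : (b - u) * sc0 n w ≤ sc0 n w := mul_le_of_le_one_left c0.le (by linarith)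
    exact ⟨_, _, by linarith, by linarith, b1, b2⟩
  · have : |g - 1| ≤ 2 := abs_le.2 ⟨by linarith, by linarith⟩
    exact mul_le_mul_of_nonneg_right (mul_le_mul_of_nonneg_left
      (Real.exp_le_exp.2 (by linarith)) (by positivity)) (by positivity)

/-- **admissibility on the library levels** -/
theorem adm_lib : ∃ L : ℝ, 2 ≤ L ∧ ∃ σ₀ > 0, ∀ b σ : ℝ, 0 < b → 0 < σ → σ ≤ σ₀ →
    b ^ 2 + σ ^ 2 = 1 → ∃ c > 0, ∃ s₀ > 0, ∀ᶠ n : ℕ in atTop, ∀ w : ℝ, 0 < w → Edge.kap w ≤ 1 / 1000 →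
      sc0 n w ≤ s₀ → ∀ lam : Vec n, Rigid w lam → ∀ u t κ : ℝ, 0 ≤ u → u ≤ 3 * σ → 0 < t →
        t ^ 288000 = (1 - b) ^ 2 + 6 * u →
        ((spM (diagonal (b • lam)) 0).prod (gpi (Fin n))).real {p | ¬ ∃ gam z,
          2 * (b - u) - κ ≤ gam ∧ gam ≤ 3 - κ ∧
          T1.Adm L t (libDat b u κ gam z lam p.1 p.2) ∧
          T1.AdmX L t (libDat b u κ gam z lam p.1 p.2) p.1} ≤ Real.exp (-(c * n)) := by
  refine ⟨128 * (10 ^ 8) ^ 3, by norm_num, 1 / 200, by norm_num, fun b σ b0 σ0 σ1 hbσ => ?_⟩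
  have hb1 : b < 1 := by nlinarith
  have hb : 99 / 100 ≤ b := by nlinarith
  set d := 1 - b with hd
  have d0 : 0 < d := by linarith
  set c := d ^ 3 / 10 ^ 48 / 2 with hc
  have c0 : 0 < c := by positivity
  refine ⟨c, c0, d ^ 2 / 256, by positivity, ?_⟩
  have T : Tendsto (fun n : ℕ => (n : ℝ)) atTop atTop := tendsto_natCast_atTop_atTop
  have e1 := (T.const_mul_atTop (by positivity : 0 < 2 * c)).eventually_ge_atTop 1
  have e2 := (T.atTop_mul_const (by positivity : 0 < d ^ 4)).eventually_ge_atTop (10 ^ 50)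
  have e3 : ∀ᶠ n : ℕ in atTop, 72 ^ 2 * Real.exp 7 * 8 / c ^ 16 *
      ((c * n) ^ 16 * Real.exp (-(c * n))) ≤ 1 := by
    have := (((Real.tendsto_pow_mul_exp_neg_atTop_nhds_zero 16).comp
      (T.const_mul_atTop c0)).const_mul (72 ^ 2 * Real.exp 7 * 8 / c ^ 16))
    rw [mul_zero] at this
    exact this.eventually_le_const one_pos
  filter_upwards [e1, e2, e3, eventually_gt_atTop 0] with n n1 n2 n3 hn w hw hk hs lam h u t κ
    u0 u1 ht hts
  refine (lib_fixed h hn hw hk hb hb1 hs u0 (by linarith) ht hts n1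
    (le_of_eq (by rw [hc, ← hd]; field_simp)) n2).trans ?_
  have e : (72 * (n : ℝ) ^ 8) ^ 2 * Real.exp 7 * (8 * Real.exp (-(2 * c * n)))
      = 72 ^ 2 * Real.exp 7 * 8 / c ^ 16 * ((c * n) ^ 16 * Real.exp (-(c * n)))
        * Real.exp (-(c * n)) := by
    rw [show -(2 * c * n) = -(c * n) + -(c * n) by ring, Real.exp_add]
    field_simp
  rw [e]
  exact mul_le_of_le_one_left (Real.exp_pos _).le n3

theorem sc0_small (w : ℝ) {s : ℝ} (hs : 0 < s) : ∀ᶠ n : ℕ in atTop, sc0 n w ≤ s := by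
  have := ((tendsto_rpow_neg_atTop (y := 2 / 3) (by norm_num)).comp
    tendsto_natCast_atTop_atTop).const_mul w
  rw [mul_zero] at this
  exact this.eventually_le_const hs

/-- the same for a fixed rigidity parameter -/
theorem adm_lib' : ∃ L : ℝ, 2 ≤ L ∧ ∃ σ₀ > 0, ∀ b σ : ℝ, 0 < b → 0 < σ → σ ≤ σ₀ →
    b ^ 2 + σ ^ 2 = 1 → ∃ c > 0, ∀ w : ℝ, 0 < w → Edge.kap w ≤ 1 / 1000 → ∀ᶠ n : ℕ in atTop,
      ∀ lam : Vec n, Rigid w lam → ∀ u t κ : ℝ, 0 ≤ u → u ≤ 3 * σ → 0 < t →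
        t ^ 288000 = (1 - b) ^ 2 + 6 * u →
        ((spM (diagonal (b • lam)) 0).prod (gpi (Fin n))).real {p | ¬ ∃ gam z,
          2 * (b - u) - κ ≤ gam ∧ gam ≤ 3 - κ ∧
          T1.Adm L t (libDat b u κ gam z lam p.1 p.2) ∧
          T1.AdmX L t (libDat b u κ gam z lam p.1 p.2) p.1} ≤ Real.exp (-(c * n)) := by
  obtain ⟨L, hL, σ₀, h0, H⟩ := adm_lib
  refine ⟨L, hL, σ₀, h0, fun b σ b0 σ0 σ1 hb => ?_⟩
  obtain ⟨c, hc, s₀, hs, H'⟩ := H b σ b0 σ0 σ1 hb
  refine ⟨c, hc, fun w hw hk => ?_⟩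
  filter_upwards [H', sc0_small w hs] with n h1 h2
  exact h1 w hw hk h2

end Vale.Agent.N150.AdmP
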