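import Vale.Agent.N150.AdmP
import Vale.Agent.N150.T1Def

/-! Admissibility of the frame data under the spherical Gibbs law, from deterministic spectral
hypotheses at a reference point. -/

open MeasureTheory ProbabilityTheory Matrix

namespace Vale.Agent.N150.AdmP

open Vale.Agent.P150 Vale.Agent.P150.F Vale.Agent.N150.Plant

variable {n : ℕ} {ι : Type} [Fintype ι]

/-- spectral hypotheses at the reference point `S.z0` (the field `S.yt` is not used) -/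
structure Spec (L t : ℝ) (S : T1.Dat n) (Lam : Vec n) : Prop where
  big : 1 ≤ n * t ^ 431998
  lo : S.gam + t ^ 288000 / L ≤ S.z0
  hi : S.z0 ≤ S.gam + L * t ^ 288000
  top : ∀ a, S.lam a ≤ S.gam
  bot : ∀ a, S.gam - S.lam a ≤ 6
  c1 : ((S.low (t ^ 198400)).card : ℝ) ≤ L * n * t ^ 297600
  c2 : ((S.low (t ^ 139200)).card : ℝ) ≤ L * n * t ^ 208800
  t2lo : (n : ℝ) ≤ L * t ^ 144000 * ∑ a, S.g a ^ 2
  t2hi : t ^ 144000 * ∑ a, S.g a ^ 2 ≤ L * n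
  trlo : ∑ a ∈ S.low (t ^ 139200), S.g a ≤ L * n * t ^ 69600
  trhi : t ^ 69600 * ∑ a ∈ (S.low (t ^ 139200))ᶜ, S.g a ^ 2 ≤ L * n
  tau0 : ∑ a, 1 / (S.z0 - Lam a) ≤ n
  tau1 : n - ∑ a, 1 / (S.z0 - Lam a) ≤ n * t ^ 144000 / (8 * L ^ 2)
  trd : n - ∑ a, S.g a ≤ L * n * t ^ 144000

section

variable {g η u L : ℝ} {mu X Y : Vec n}

/-- existence of the saddle near the reference point -/
theorem exists_sad (hη : 0 < η) (hν : ∀ a, 2 * η ≤ g - mu a) {N : ℝ}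
    (h1 : N ≤ ∑ a, 1 / (g - mu a) + η * ∑ a, 1 / (g - mu a) ^ 2 + ∑ a, Y a ^ 2 / (g - mu a) ^ 2)
    (h2 : ∑ a, 1 / (g - mu a) - 2 / 3 * (η * ∑ a, 1 / (g - mu a) ^ 2)
      + ∑ a, Y a ^ 2 / (g - mu a) ^ 2 ≤ N) :
    ∃ z, |z - g| ≤ η ∧ ∑ a, (z - mu a)⁻¹ + ∑ a, ((z - mu a)⁻¹ * Y a) ^ 2 = N := by
  set φ : ℝ → ℝ := fun z => ∑ a, (z - mu a)⁻¹ + ∑ a, ((z - mu a)⁻¹ * Y a) ^ 2 with hφ
  have c0 : ∀ a, ContinuousOn (fun z => (z - mu a)⁻¹) (Set.Icc (g - η) (g + η)) := fun a =>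
    (continuousOn_id.sub continuousOn_const).inv₀ fun z hz => by
      have := hz.1
      have := hν a
      exact (by linarith : (0 : ℝ) < z - mu a).ne'
  have hc : ContinuousOn φ (Set.Icc (g - η) (g + η)) :=
    (continuousOn_finsetSum _ fun a _ => c0 a).add
      (continuousOn_finsetSum _ fun a _ => ((c0 a).mul continuousOn_const).pow 2)
  have k1 : N ≤ φ (g - η) := by
    refine h1.trans ?_
    rw [Finset.mul_sum, ← Finset.sum_add_distrib]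
    refine add_le_add (Finset.sum_le_sum fun a _ => ?_) (Finset.sum_le_sum fun a _ => ?_)
    · have := hν a
      set v := g - mu a with hv
      have e : g - η - mu a = v - η := by rw [hv]; ring
      have v0 : 0 < v := by linarith
      rw [e, ← one_div, le_div_iff₀ (by linarith)]
      have : (1 / v + η * (1 / v ^ 2)) * (v - η) = 1 - (η / v) ^ 2 := by field_simp; ring
      rw [this]
      linarith [sq_nonneg (η / v)]
    · have := hν a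
      rw [mul_pow, inv_pow, ← div_eq_inv_mul]
      exact div_le_div_of_nonneg_left (sq_nonneg _) (pow_pos (by linarith) 2)
        (pow_le_pow_left₀ (by linarith) (by linarith) 2)
  have k2 : φ (g + η) ≤ N := by
    refine le_trans ?_ h2
    rw [Finset.mul_sum, Finset.mul_sum, ← Finset.sum_sub_distrib]
    refine add_le_add (Finset.sum_le_sum fun a _ => ?_) (Finset.sum_le_sum fun a _ => ?_)
    · have := hν a
      set v := g - mu a with hv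
      have e : g + η - mu a = v + η := by rw [hv]; ring
      have v0 : 0 < v := by linarith
      rw [e, ← one_div, div_le_iff₀ (by linarith)]
      have e2 : (1 / v - 2 / 3 * (η * (1 / v ^ 2))) * (v + η)
          = 1 + η / v * (1 / 3 * ((v - 2 * η) / v)) := by field_simp; ring
      rw [e2]
      have : 0 ≤ η / v * (1 / 3 * ((v - 2 * η) / v)) :=
        mul_nonneg (by positivity) (mul_nonneg (by norm_num) (div_nonneg (by linarith) v0.le))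
      linarith
    · have := hν a
      rw [mul_pow, inv_pow, ← div_eq_inv_mul]
      exact div_le_div_of_nonneg_left (sq_nonneg _) (pow_pos (by linarith) 2)
        (pow_le_pow_left₀ (by linarith) (by linarith) 2)
  obtain ⟨z, hz, e⟩ := intermediate_value_Icc' (by linarith) hc ⟨k2, k1⟩
  exact ⟨z, abs_le.2 ⟨by linarith [hz.1], by linarith [hz.2]⟩, e⟩

theorem cmp_inv {v z m η : ℝ} (hη : 0 < η) (hν : 2 * η ≤ v - m) (hz : |z - v| ≤ η) :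
    0 < (z - m)⁻¹ ∧ (z - m)⁻¹ ≤ 2 * (v - m)⁻¹ ∧ (v - m)⁻¹ ≤ 3 / 2 * (z - m)⁻¹ := by
  obtain ⟨h1, h2⟩ := abs_le.1 hz
  have h3 : 0 < z - m := by linarith
  have h4 : 0 < v - m := by linarith
  refine ⟨inv_pos.2 h3, ?_, ?_⟩
  · rw [← div_eq_mul_inv, ← one_div, div_le_div_iff₀ h3 h4]; linarith
  · rw [← div_eq_mul_inv, ← one_div, div_le_div_iff₀ h4 h3]; linarith

theorem cross_le {v z m η x y c : ℝ} (hη : 0 < η) (hν : 2 * η ≤ v - m) (hz : |z - v| ≤ η)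
    (hc : 0 < c) : |x * ((z - m)⁻¹ * y) - x * (y / (v - m))| ≤
      η / 2 * (c * ((z - m)⁻¹ * x) ^ 2 + y ^ 2 / (v - m) ^ 2 / c) := by
  obtain ⟨h1, h2⟩ := abs_le.1 hz
  have h3 : 0 < z - m := by linarith
  have h4 : 0 < v - m := by linarith
  have e : x * ((z - m)⁻¹ * y) - x * (y / (v - m))
      = (v - z) * (((z - m)⁻¹ * x) * (y / (v - m))) := by field_simp; ring
  rw [e, abs_mul, abs_sub_comm, ← div_pow]
  set p := (z - m)⁻¹ * x
  set q := y / (v - m)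
  have k : |p * q| ≤ (c * p ^ 2 + q ^ 2 / c) / 2 := by
    have a1 : 0 ≤ (c * p - q) ^ 2 / c := by positivity
    have a2 : 0 ≤ (c * p + q) ^ 2 / c := by positivity
    have a3 : (c * p - q) ^ 2 / c = c * p ^ 2 + q ^ 2 / c - 2 * (p * q) := by field_simp; ring
    have a4 : (c * p + q) ^ 2 / c = c * p ^ 2 + q ^ 2 / c + 2 * (p * q) := by field_simp; ring
    exact abs_le.2 ⟨by linarith, by linarith⟩
  calc _ ≤ η * ((c * p ^ 2 + q ^ 2 / c) / 2) := mul_le_mul hz k (abs_nonneg _) hη.le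
    _ = _ := by ring

end

/-- bounds at a point `z` near the reference point `g` -/
structure Near (L u g z : ℝ) (mu : Vec n) : Prop where
  L1 : 1 ≤ L
  u0 : 0 < u
  nu : ∀ a, 2 * (u ^ 2 / (2 * L)) ≤ g - mu a
  hz : |z - g| ≤ u ^ 2 / (2 * L)

section

variable {g z u L : ℝ} {mu X Y : Vec n}

theorem Near.eta (h : Near L u g z mu) : 0 < u ^ 2 / (2 * L) := by
  have := h.u0
  have := h.L1
  positivity

theorem Near.c (h : Near L u g z mu) (a : Fin n) :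
    0 < (z - mu a)⁻¹ ∧ (z - mu a)⁻¹ ≤ 2 * (g - mu a)⁻¹ ∧ (g - mu a)⁻¹ ≤ 3 / 2 * (z - mu a)⁻¹ :=
  cmp_inv h.eta (h.nu a) h.hz

theorem Near.n0 (h : Near L u g z mu) (a : Fin n) : 0 < g - mu a := by
  linarith [h.nu a, h.eta]

theorem Near.q2 (h : Near L u g z mu) (a : Fin n) : (z - mu a)⁻¹ ^ 2 ≤ 4 * (g - mu a)⁻¹ ^ 2 := by
  have := pow_le_pow_left₀ (h.c a).1.le (h.c a).2.1 2
  linarith

theorem Near.q3 (h : Near L u g z mu) (a : Fin n) :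
    (g - mu a)⁻¹ ^ 2 ≤ 9 / 4 * (z - mu a)⁻¹ ^ 2 := by
  have := pow_le_pow_left₀ (inv_pos.2 (h.n0 a)).le (h.c a).2.2 2
  linarith

theorem Near.q4 (h : Near L u g z mu) (a : Fin n) : (g - mu a)⁻¹ ≤ L / u ^ 2 := by
  have h1 := h.L1
  have := inv_anti₀ (by linarith [h.eta]) (h.nu a)
  rwa [show 2 * (u ^ 2 / (2 * L)) = u ^ 2 / L by field_simp, inv_div] at this

theorem Near.y2 (h : Near L u g z mu) (Y : Vec n) :
    ∑ a, ((z - mu a)⁻¹ * Y a) ^ 2 ≤ 4 * ∑ a, Y a ^ 2 / (g - mu a) ^ 2 := by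
  rw [Finset.mul_sum]
  refine Finset.sum_le_sum fun a _ => ?_
  rw [mul_pow, div_eq_inv_mul, ← inv_pow, ← mul_assoc]
  exact mul_le_mul_of_nonneg_right (h.q2 a) (sq_nonneg _)

theorem Near.y1 (h : Near L u g z mu) (Y : Vec n) :
    ∑ a, (z - mu a)⁻¹ * Y a ^ 2 ≤ 2 * ∑ a, Y a ^ 2 / (g - mu a) := by
  rw [Finset.mul_sum]
  refine Finset.sum_le_sum fun a _ => ?_
  rw [div_eq_inv_mul, ← mul_assoc]
  exact mul_le_mul_of_nonneg_right (h.c a).2.1 (sq_nonneg _)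

theorem Near.x1 (h : Near L u g z mu) (hV : ∑ a, Y a ^ 2 / (g - mu a) ^ 2 ≤ 2 * (L * (n * u)))
    (v2 : ∑ a, (X a - Y a / (g - mu a)) ^ 2 / (g - mu a) ≤ 14 * L ^ 2 * (n / u)) :
    ∑ a, (z - mu a)⁻¹ * X a ^ 2 ≤ 64 * L ^ 2 * (n / u) := by
  have h0 := h.u0
  have h1 := h.L1
  have a1 : ∑ a, (z - mu a)⁻¹ * X a ^ 2 ≤ 4 * (L / u ^ 2 * ∑ a, Y a ^ 2 / (g - mu a) ^ 2) +
      4 * ∑ a, (X a - Y a / (g - mu a)) ^ 2 / (g - mu a) := by
    rw [Finset.mul_sum, Finset.mul_sum, Finset.mul_sum, ← Finset.sum_add_distrib]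
    refine Finset.sum_le_sum fun a _ => ?_
    rw [← div_pow]
    generalize Y a / (g - mu a) = p
    rw [div_eq_inv_mul _ (g - mu a)]
    have b1 := mul_le_mul_of_nonneg_right (h.c a).2.1 (sq_nonneg (X a))
    have b2 := mul_le_mul_of_nonneg_right (h.q4 a) (sq_nonneg p)
    have b3 := mul_nonneg (inv_pos.2 (h.n0 a)).le (sq_nonneg (X a - 2 * p))
    linarith only [b1, b2, b3]
  have a2 : L / u ^ 2 * ∑ a, Y a ^ 2 / (g - mu a) ^ 2 ≤ 2 * L ^ 2 * (n / u) := by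
    calc _ ≤ L / u ^ 2 * (2 * (L * (n * u))) := mul_le_mul_of_nonneg_left hV (by positivity)
      _ = _ := by field_simp
  linarith

theorem Near.x2 (h : Near L u g z mu) (x1 : ∑ a, (z - mu a)⁻¹ * X a ^ 2 ≤ 64 * L ^ 2 * (n / u)) :
    ∑ a, ((z - mu a)⁻¹ * X a) ^ 2 ≤ 128 * L ^ 3 * (n / u ^ 3) := by
  have h0 := h.u0
  have h1 := h.L1
  calc _ ≤ 2 * (L / u ^ 2) * ∑ a, (z - mu a)⁻¹ * X a ^ 2 := by
        rw [Finset.mul_sum]
        refine Finset.sum_le_sum fun a _ => ?_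
        have b1 : (z - mu a)⁻¹ ≤ 2 * (L / u ^ 2) := by linarith [(h.c a).2.1, h.q4 a]
        have b2 := mul_le_mul_of_nonneg_right b1 (mul_nonneg (h.c a).1.le (sq_nonneg (X a)))
        linarith only [b2]
    _ ≤ 2 * (L / u ^ 2) * (64 * L ^ 2 * (n / u)) := mul_le_mul_of_nonneg_left x1 (by positivity)
    _ = _ := by field_simp; ring

theorem Near.xy (h : Near L u g z mu) (sx : F.sq X = n)
    (hV : ∑ a, Y a ^ 2 / (g - mu a) ^ 2 ≤ 2 * (L * (n * u)))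
    (x2 : ∑ a, ((z - mu a)⁻¹ * X a) ^ 2 ≤ 128 * L ^ 3 * (n / u ^ 3))
    (v3 : |∑ a, (X a - Y a / (g - mu a)) ^ 2 - ∑ a, 1 / (g - mu a)| ≤ 8 * L * (n * u))
    (t0 : ∑ a, 1 / (g - mu a) ≤ n) (t1 : n - ∑ a, 1 / (g - mu a) ≤ L * (n * u)) :
    |∑ a, X a * ((z - mu a)⁻¹ * Y a)| ≤ 128 * L ^ 3 * (n * u) := by
  have h0 := h.u0
  have h1 := h.L1
  set V := ∑ a, Y a ^ 2 / (g - mu a) ^ 2 with hVd
  have a1 : |∑ a, X a * ((z - mu a)⁻¹ * Y a) - ∑ a, X a * (Y a / (g - mu a))| ≤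
      u ^ 2 / (2 * L) / 2 * (u ^ 2 * ∑ a, ((z - mu a)⁻¹ * X a) ^ 2 + V / u ^ 2) := by
    rw [← Finset.sum_sub_distrib, hVd, Finset.mul_sum, Finset.sum_div, ← Finset.sum_add_distrib,
      Finset.mul_sum]
    exact (Finset.abs_sum_le_sum_abs _ _).trans
      (Finset.sum_le_sum fun a _ => cross_le h.eta (h.nu a) h.hz (by positivity))
  have m0 : 0 ≤ (n : ℝ) * u := by positivity
  have a2 : u ^ 2 / (2 * L) / 2 * (u ^ 2 * ∑ a, ((z - mu a)⁻¹ * X a) ^ 2 + V / u ^ 2)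
      ≤ 33 * (L ^ 2 * (n * u)) := by
    calc _ ≤ u ^ 2 / (2 * L) / 2 * (u ^ 2 * (128 * L ^ 3 * (n / u ^ 3))
          + 2 * (L * (n * u)) / u ^ 2) := by gcongr
      _ = (32 * L ^ 2 + 1 / 2) * (n * u) := by field_simp; ring
      _ ≤ 33 * L ^ 2 * (n * u) :=
          mul_le_mul_of_nonneg_right (by linarith [one_le_pow₀ (n := 2) h1]) m0
      _ = _ := by ring
  have a3 : 2 * ∑ a, X a * (Y a / (g - mu a)) = n + V - ∑ a, (X a - Y a / (g - mu a)) ^ 2 := by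
    rw [← sx, hVd, F.sq, Finset.mul_sum, ← Finset.sum_add_distrib, ← Finset.sum_sub_distrib]
    exact Finset.sum_congr rfl fun a _ => by rw [← div_pow]; ring
  obtain ⟨b1, b2⟩ := abs_le.1 v3
  obtain ⟨b3, b4⟩ := abs_le.1 a1
  have b6 : L * (n * u) ≤ L ^ 2 * (n * u) := mul_le_mul_of_nonneg_right (by nlinarith only [h1]) m0
  have b7 : L ^ 2 * (n * u) ≤ L ^ 3 * (n * u) :=
    mul_le_mul_of_nonneg_right (pow_le_pow_right₀ h1 (by norm_num)) m0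
  have b8 : 0 ≤ V := Finset.sum_nonneg fun a _ => by positivity
  have b9 : 0 ≤ L * (n * u) := by positivity
  exact abs_le.2 ⟨by linarith, by linarith⟩

end

theorem pow_u2 (t : ℝ) : t ^ 288000 = (t ^ 144000) ^ 2 := by rw [← pow_mul]

theorem pow_u3 (t : ℝ) : t ^ 432000 = (t ^ 144000) ^ 3 := by rw [← pow_mul]

theorem le_cube {L c r : ℝ} (hL : 1 ≤ L) (hr : 0 ≤ r) (hc : c ≤ 128) :
    c * (L * r) ≤ 128 * L ^ 3 * r := by
  have a1 : L * r ≤ L ^ 3 * r := mul_le_mul_of_nonneg_right (le_self_pow₀ hL (by norm_num)) hr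
  have a2 : 0 ≤ L * r := by positivity
  nlinarith

/-- the saddle is close to the reference point -/
theorem near_of_ev {L u gam g : ℝ} {Lam mu X Y : Vec n} (hL : 1 ≤ L) (u0 : 0 < u)
    (lo : gam + u ^ 2 / L ≤ g) (top : ∀ a, mu a ≤ gam)
    (t2lo : (n : ℝ) ≤ L * u * ∑ a, (g - mu a)⁻¹ ^ 2) (tau0 : ∑ a, 1 / (g - Lam a) ≤ n)
    (tau1 : n - ∑ a, 1 / (g - Lam a) ≤ n * u / (8 * L ^ 2))
    (trd : n - ∑ a, 1 / (g - mu a) ≤ L * (n * u)) (e : Ev L u g Lam mu X Y) :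
    ∑ a, Y a ^ 2 / (g - mu a) ^ 2 ≤ 2 * (L * (n * u)) ∧ ∃ z, Near L u g z mu ∧
      ∑ a, (z - mu a)⁻¹ + ∑ a, ((z - mu a)⁻¹ * Y a) ^ 2 = n := by
  have η0 : 0 < u ^ 2 / (2 * L) := by positivity
  have η2 : 2 * (u ^ 2 / (2 * L)) = u ^ 2 / L := by field_simp
  have hν : ∀ a, 2 * (u ^ 2 / (2 * L)) ≤ g - mu a := fun a => by linarith [top a]
  have e2 : ∑ a, (g - mu a)⁻¹ ^ 2 = ∑ a, 1 / (g - mu a) ^ 2 := by simp only [one_div, inv_pow]
  have m0 : 0 ≤ (n : ℝ) * u := by positivity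
  have k1 : 4 * (n * u / (8 * L ^ 2)) ≤ u ^ 2 / (2 * L) * ∑ a, 1 / (g - mu a) ^ 2 := by
    rw [e2] at t2lo
    calc _ = n * (u / (2 * L ^ 2)) := by field_simp; ring
      _ ≤ (L * u * ∑ a, 1 / (g - mu a) ^ 2) * (u / (2 * L ^ 2)) :=
          mul_le_mul_of_nonneg_right t2lo (by positivity)
      _ = _ := by field_simp
  have k2 : 0 ≤ n * u / (8 * L ^ 2) := by positivity
  have k3 : n * u / (8 * L ^ 2) ≤ n * u :=
    div_le_self m0 (by linarith [one_le_pow₀ (n := 2) hL])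
  have mL : n * u ≤ L * (n * u) := le_mul_of_one_le_left m0 hL
  obtain ⟨w1, w2⟩ := abs_le.1 e.v0
  unfold trD at w1 w2
  obtain ⟨z, hz, sad⟩ := exists_sad (Y := Y) (N := n) η0 hν (by linarith) (by linarith)
  exact ⟨by linarith, z, ⟨hL, u0, hν, hz⟩, sad⟩

theorem adm_of_near {L t z : ℝ} {S : T1.Dat n} {Lam Y : Vec n} (h : Spec L t S Lam) (ht : 0 < t)
    (N : Near L (t ^ 144000) S.z0 z S.lam)
    (sad : ∑ a, (z - S.lam a)⁻¹ + ∑ a, ((z - S.lam a)⁻¹ * Y a) ^ 2 = n)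
    (hV : ∑ a, Y a ^ 2 / (S.z0 - S.lam a) ^ 2 ≤ 2 * (L * (n * t ^ 144000)))
    (v1 : ∑ a, Y a ^ 2 / (S.z0 - S.lam a) ≤ 28 * L ^ 3 * (n * (t ^ 144000) ^ 2)) :
    T1.Adm (128 * L ^ 3) t ⟨S.gam, z, S.lam, Y⟩ := by
  have hL := N.L1
  have hn : (0 : ℝ) ≤ n := Nat.cast_nonneg n
  obtain ⟨z1, z2⟩ := abs_le.1 N.hz
  rw [← pow_u2] at z1 z2 v1
  have s0 : 0 < t ^ 288000 := pow_pos ht _
  have u0 : 0 < t ^ 144000 := pow_pos ht _
  refine ⟨h.big, ?_, ?_, sad, h.top, h.bot, ?_, ?_, ?_, ?_, ?_, ?_, ?_, ?_⟩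
  · have a1 : 2 * t ^ 288000 / (128 * L ^ 3) ≤ t ^ 288000 / (2 * L) := by
      rw [div_le_div_iff₀ (by positivity) (by positivity)]
      linarith [le_cube hL (c := 4) s0.le (by norm_num)]
    have a2 : t ^ 288000 / L = 2 * (t ^ 288000 / (2 * L)) := by field_simp
    show S.gam + _ ≤ z
    linarith [h.lo]
  · have a1 : t ^ 288000 / (2 * L) ≤ L * t ^ 288000 :=
      (div_le_self s0.le (by linarith)).trans (le_mul_of_one_le_left s0.le hL)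
    show z ≤ S.gam + _
    linarith [h.hi, le_cube hL (c := 2) s0.le (by norm_num)]
  · exact h.c1.trans
      (by linarith [le_cube hL (c := 1) (r := n * t ^ 297600) (by positivity) (by norm_num)])
  · exact h.c2.trans
      (by linarith [le_cube hL (c := 1) (r := n * t ^ 208800) (by positivity) (by norm_num)])
  · have a1 : ∑ a, S.g a ^ 2 ≤ 9 / 4 * ∑ a, (z - S.lam a)⁻¹ ^ 2 := by
      rw [Finset.mul_sum]; exact Finset.sum_le_sum fun a _ => N.q3 a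
    have a2 := mul_le_mul_of_nonneg_left a1 (by positivity : 0 ≤ L * t ^ 144000)
    have a3 := le_cube hL (c := 9 / 4) (r := t ^ 144000 * ∑ a, (z - S.lam a)⁻¹ ^ 2)
      (mul_nonneg u0.le (Finset.sum_nonneg fun a _ => sq_nonneg _)) (by norm_num)
    show (n : ℝ) ≤ _ * _ * ∑ a, (z - S.lam a)⁻¹ ^ 2
    linarith [h.t2lo]
  · have a1 : ∑ a, (z - S.lam a)⁻¹ ^ 2 ≤ 4 * ∑ a, S.g a ^ 2 := by
      rw [Finset.mul_sum]; exact Finset.sum_le_sum fun a _ => N.q2 a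
    have a2 := mul_le_mul_of_nonneg_left a1 u0.le
    show _ * ∑ a, (z - S.lam a)⁻¹ ^ 2 ≤ _
    linarith [h.t2hi, le_cube hL (c := 4) hn (by norm_num)]
  · have a1 : ∑ a ∈ S.low (t ^ 139200), (z - S.lam a)⁻¹ ≤ 2 * ∑ a ∈ S.low (t ^ 139200), S.g a := by
      rw [Finset.mul_sum]; exact Finset.sum_le_sum fun a _ => (N.c a).2.1
    show ∑ a ∈ S.low (t ^ 139200), (z - S.lam a)⁻¹ ≤ _
    linarith [h.trlo, le_cube hL (c := 2) (r := n * t ^ 69600) (by positivity) (by norm_num)]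
  · have a1 : ∑ a ∈ (S.low (t ^ 139200))ᶜ, (z - S.lam a)⁻¹ ^ 2
        ≤ 4 * ∑ a ∈ (S.low (t ^ 139200))ᶜ, S.g a ^ 2 := by
      rw [Finset.mul_sum]; exact Finset.sum_le_sum fun a _ => N.q2 a
    have a2 := mul_le_mul_of_nonneg_left a1 (pow_pos ht 69600).le
    show _ * ∑ a ∈ (S.low (t ^ 139200))ᶜ, (z - S.lam a)⁻¹ ^ 2 ≤ _
    linarith [h.trhi, le_cube hL (c := 4) hn (by norm_num)]
  · show ∑ a, ((z - S.lam a)⁻¹ * Y a) ^ 2 ≤ _
    linarith [N.y2 Y, le_cube hL (c := 8) (r := n * t ^ 144000) (by positivity) (by norm_num)]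
  · have a2 : 0 ≤ L ^ 3 * (n * t ^ 288000) := by positivity
    show ∑ a, (z - S.lam a)⁻¹ * Y a ^ 2 ≤ _
    linarith [N.y1 Y]

/-- **the event implies admissibility** -/
theorem adm_of_ev {L t : ℝ} {S : T1.Dat n} {Lam X Y : Vec n} (h : Spec L t S Lam) (hL : 1 ≤ L)
    (ht : 0 < t) (t0 : ∑ a, 1 / (S.z0 - S.lam a) ≤ n)
    (e : Ev L (t ^ 144000) S.z0 Lam S.lam X Y) :
    ∃ z, |z - S.z0| ≤ t ^ 288000 / (2 * L) ∧ T1.Adm (128 * L ^ 3) t ⟨S.gam, z, S.lam, Y⟩ ∧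
      T1.AdmX (128 * L ^ 3) t ⟨S.gam, z, S.lam, Y⟩ X := by
  have u0 : 0 < t ^ 144000 := pow_pos ht _
  have hn : (0 : ℝ) ≤ n := Nat.cast_nonneg n
  have trd : n - ∑ a, 1 / (S.z0 - S.lam a) ≤ L * (n * t ^ 144000) := by
    simpa only [T1.Dat.g, one_div, mul_assoc] using h.trd
  obtain ⟨hV, z, N, sad⟩ :=
    near_of_ev hL u0 (pow_u2 t ▸ h.lo) h.top h.t2lo h.tau0 h.tau1 trd e
  have x1 := N.x1 hV e.v2
  have x2 := N.x2 x1
  refine ⟨z, pow_u2 t ▸ N.hz, adm_of_near h ht N sad hV e.v1, e.sx, ?_, ?_, ?_⟩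
  · have a1 := mul_le_mul_of_nonneg_left x1 u0.le
    have a2 : t ^ 144000 * (64 * L ^ 2 * (n / t ^ 144000)) = 64 * (L ^ 2 * n) := by field_simp
    have a3 : L ^ 2 * n ≤ L ^ 3 * n :=
      mul_le_mul_of_nonneg_right (pow_le_pow_right₀ hL (by norm_num)) hn
    have a4 : 0 ≤ L ^ 3 * (n : ℝ) := by positivity
    show _ * ∑ a, (z - S.lam a)⁻¹ * X a ^ 2 ≤ _
    linarith
  · have a1 := mul_le_mul_of_nonneg_left x2 (pow_pos u0 3).le
    rw [← pow_u3] at a1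
    have a2 : t ^ 432000 * (128 * L ^ 3 * (n / t ^ 432000)) = 128 * L ^ 3 * n := by field_simp
    show _ * ∑ a, ((z - S.lam a)⁻¹ * X a) ^ 2 ≤ _
    linarith
  · have := N.xy e.sx hV x2 e.v3 t0 trd
    show |∑ a, X a * ((z - S.lam a)⁻¹ * Y a)| ≤ _
    linarith

/-- **admissibility at exponential rate** -/
theorem adm_prob {L t e x B A : ℝ} {S : T1.Dat n} {Lam : Vec n} {U Q : Mat n}
    {R : Matrix (Fin n) ι ℝ} (h : Dat S.z0 Lam S.lam U Q R) (hs : Spec L t S Lam) (hL : 1 ≤ L)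
    (ht : 0 < t) (ht1 : t ≤ 1) (hQ : OpLe Q (L * t ^ 288000)) (hB : ∀ a, |Lam a| ≤ B)
    (hA : Cmp Lam S.z0 B A) (he : 0 < e) (he' : ∀ a, e ≤ S.z0 - Lam a) (hx : 1 ≤ x)
    (h1 : 40000 * L ^ 5 * x ≤ n * t ^ 144000 * e) (h2 : x ≤ n * t ^ 432000)
    (h3 : 80 * L ^ 6 ≤ n * t ^ 144000) :
    ((spM (diagonal Lam) 0).prod (gpi ι)).real {p | ¬ ∃ z, |z - S.z0| ≤ t ^ 288000 / (2 * L) ∧
      T1.Adm (128 * L ^ 3) t ⟨S.gam, z, S.lam, U *ᵥ (Q *ᵥ p.1 + R *ᵥ p.2)⟩ ∧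
      T1.AdmX (128 * L ^ 3) t ⟨S.gam, z, S.lam, U *ᵥ (Q *ᵥ p.1 + R *ᵥ p.2)⟩ (U *ᵥ p.1)}
      ≤ A * (8 * Real.exp (-x)) := by
  have hn : 0 < n := by
    rcases Nat.eq_zero_or_pos n with h0 | h0
    · have := hs.big
      rw [h0, Nat.cast_zero, zero_mul] at this
      linarith
    · exact h0
  have p : Par L (t ^ 144000) e x S.z0 B A Lam S.lam Q :=
    ⟨hn, hL, pow_pos ht _, pow_le_one₀ ht.le ht1, he, hB, hA, pow_u2 t ▸ hQ, he',
      fun a => by rw [← pow_u2]; linarith [hs.lo, hs.top a],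
      hs.tau0, by simpa only [T1.Dat.g, one_div, mul_assoc] using hs.trd,
      by simpa only [T1.Dat.g, one_div, inv_pow] using hs.t2hi, hx, h1, pow_u3 t ▸ h2, h3⟩
  exact (Tail.real_imp_le _ fun q hq hE => hq (adm_of_ev hs hL ht (p.tr_le h) hE)).trans (p.ev h)

end Vale.Agent.N150.AdmP
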