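import Vale.Agent.N150.AsmQ

/-! P150 at the critical point: the constants of the path assembly and the numerical facts at one
level. -/

open Filter Topology Finset

namespace Vale.Agent.N150.Asm

open Vale.Agent.N150.Rec

theorem ev_nat (C : ℝ) : ∀ᶠ n : ℕ in atTop, C ≤ n :=
  tendsto_natCast_atTop_atTop.eventually_ge_atTop C

theorem ev_lg (C : ℝ) : ∀ᶠ n : ℕ in atTop, C ≤ Real.log n :=
  (Real.tendsto_log_atTop.comp tendsto_natCast_atTop_atTop).eventually_ge_atTop C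

theorem ev_mul_lg {a : ℝ} (ha : 0 < a) (C : ℝ) : ∀ᶠ n : ℕ in atTop, C ≤ a * Real.log n := by
  filter_upwards [ev_lg (C / a)] with n h
  rwa [div_le_iff₀ ha, mul_comm] at h

theorem ev_mul_nat {a : ℝ} (ha : 0 < a) (C : ℝ) : ∀ᶠ n : ℕ in atTop, C ≤ a * n := by
  filter_upwards [ev_nat (C / a)] with n h
  rwa [div_le_iff₀ ha, mul_comm] at h

theorem ev_rp (C : ℝ) {x y : ℝ} (h : x < y) :
    ∀ᶠ n : ℕ in atTop, C * (n : ℝ) ^ x ≤ (n : ℝ) ^ y := by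
  filter_upwards [((tendsto_rpow_atTop (sub_pos.2 h)).comp
    tendsto_natCast_atTop_atTop).eventually_ge_atTop C, eventually_gt_atTop 0] with n h1 h2
  have h0 : (0 : ℝ) < n := by exact_mod_cast h2
  have e : (n : ℝ) ^ y = (n : ℝ) ^ (y - x) * (n : ℝ) ^ x := by
    rw [← Real.rpow_add h0, sub_add_cancel]
  rw [e]
  exact mul_le_mul_of_nonneg_right h1 (by positivity)

theorem ev_ex {c : ℝ} (hc : 0 < c) (C : ℝ) (k : ℕ) :
    ∀ᶠ n : ℕ in atTop, C * (n : ℝ) ^ k ≤ Real.exp (c * n) := by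
  have h1 := (Real.tendsto_exp_div_pow_atTop k).comp
    ((tendsto_natCast_atTop_atTop (R := ℝ)).const_mul_atTop hc)
  filter_upwards [h1.eventually_ge_atTop (C / c ^ k), eventually_gt_atTop 0] with n h2 h3
  have h0 : (0 : ℝ) < n := by exact_mod_cast h3
  have h4 : C / c ^ k ≤ Real.exp (c * n) / (c * n) ^ k := h2
  rw [le_div_iff₀ (by positivity), mul_pow] at h4
  refine le_trans (le_of_eq ?_) h4
  field_simp

/-- the constants which do not depend on the dimension -/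
structure Cn (ε θ ρ κ η e α β ν T CT c k₀ : ℝ) : Prop where
  rho : 2 ≤ ρ
  kap : 0 ≤ κ
  kr : 2300 ≤ κ ^ 2 * (ρ * √ρ)
  eta0 : 0 < η
  eta1 : η ≤ 1 / 6
  etae : 6 * η ≤ ε
  th : √(2 * ρ) * (κ * (4 + Real.log (2 * ρ)) + 4 * η * Real.log (2 * ρ)) ≤ 1 / 4
  q : 6 * (2 * ρ) ^ 4 * η * Real.log (2 * ρ) ≤ 1 / 4
  e0 : 0 < e
  al0 : 0 < α
  alt : 2000 * α ≤ θ
  th1 : θ ≤ 1
  be : 6 ≤ (η / 200) ^ 2 * β
  nu0 : 0 < ν
  nut : cM ρ (2 * ρ * β / α) * ν ≤ θ / 2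
  T0 : 0 < T
  Te : 2 * T ≤ (η / 200) ^ 2
  Tg : ((2 * T) ^ e) ^ 2 ≤ ν
  TG : ((2 * T) ^ e) ^ 2 * (1 - ((ρ ^ e) ^ 2)⁻¹)⁻¹ ≤ ν
  CT1 : 1 ≤ CT
  c0 : 0 < c
  k0 : 0 < k₀
  kc : 8 * k₀ ≤ c
  k1 : 64 * k₀ ≤ 1
  kT : β * k₀ ^ (51 / 100 : ℝ) ≤ T
  kn : 4 * k₀ ^ (149 / 10000 : ℝ) ≤ ν

namespace Cn

variable {ε θ ρ κ η e α β ν T CT c k₀ : ℝ} (h : Cn ε θ ρ κ η e α β ν T CT c k₀)

include h

theorem sq_le : (η / 200) ^ 2 ≤ 1 / 10 ^ 6 := by
  have h1 := h.eta0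
  have h2 := h.eta1
  nlinarith

theorem be6 : 6 ≤ β := by
  have h1 := h.sq_le
  have h2 := h.be
  by_contra h3
  push Not at h3
  nlinarith [sq_nonneg (η / 200)]

theorem al1 : α ≤ 1 / 2000 := by linarith [h.alt, h.th1]

theorem T1 : 2 * T ≤ 1 / 10 ^ 6 := h.Te.trans h.sq_le

theorem sqrt_T {s : ℝ} (hs : s ≤ 2 * T) : √s ≤ η / 200 :=
  Real.sqrt_le_iff.2 ⟨by linarith [h.eta0], hs.trans h.Te⟩

theorem T_le : 2 * T ≤ η / 200 := by
  have h1 := h.eta0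
  have h2 := h.eta1
  have h3 := h.Te
  nlinarith

theorem R2 : 1 ≤ 2 * ρ * β / α := by
  have h1 := h.rho
  have h2 := h.be6
  have h3 := h.al1
  rw [le_div_iff₀ h.al0]
  nlinarith

variable {n : ℕ} {K : ℝ}

theorem K_le (hk : K ≤ k₀ * n) : 64 * K ≤ n := by
  have h1 := mul_le_mul_of_nonneg_right h.k1 (Nat.cast_nonneg (α := ℝ) n)
  linarith

theorem bsg_le (hn : 0 < n) (hK : 0 < K) (hk : K ≤ k₀ * n) : β * sg n K ≤ T :=
  (mul_le_mul_of_nonneg_left (sg_le hn hK hk) (by linarith [h.be6])).trans h.kT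

theorem sL_le_sg' (hn : 0 < n) (hK : 0 < K) (hk : K ≤ k₀ * n) : sL n K ≤ sg n K :=
  sL_le_sg hn hK (by linarith [h.K_le hk])

theorem sg_le_T (hn : 0 < n) (hK : 0 < K) (hk : K ≤ k₀ * n) : 6 * sg n K ≤ T := by
  have h1 := (sL_pos hn hK).trans_le (h.sL_le_sg' hn hK hk)
  exact (mul_le_mul_of_nonneg_right h.be6 h1.le).trans (h.bsg_le hn hK hk)

/-- the schedule at the level `K` -/
theorem par (hn : 0 < n) (hK : 1 ≤ K) (hl : Real.log n ≤ K) (hk : K ≤ k₀ * n) {t : ℕ → ℝ} {dl : ℝ}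
    (ht : Tm t dl T) (h0 : -(α * sL n K) ≤ t 0) (hm : 2 * dl * n ≤ η * α) :
    ∃ J : ℕ, Par t dl (α * sL n K) ρ (2 * ρ * β / α) T η η κ J ∧ β * sL n K ≤ T / ρ ^ J ∧
      (J : ℝ) ≤ 2 * K := by
  have n0 : (0 : ℝ) < n := by exact_mod_cast hn
  have s0 := sL_pos hn (by linarith : 0 < K)
  have b6 := h.be6
  have a0 := h.al0
  have a1 := h.al1
  have h1 : β * sL n K ≤ T := (mul_le_mul_of_nonneg_left (h.sL_le_sg' hn (by linarith) hk)
    (by linarith)).trans (h.bsg_le hn (by linarith) hk)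
  have h2 := inv_le_sL hn hK (by linarith [h.K_le hk])
  obtain ⟨J, j1, j2, j3⟩ := exists_J (s := β * sL n K) (by positivity) h1 h.rho
  refine ⟨J, ⟨ht, by positivity, h0, h.rho, le_trans (by nlinarith) j1, ?_, by linarith [h.T1],
    h.eta0.le, h.eta1, ?_, h.kap, h.eta0.le, by linarith [h.eta1], h.th, h.q⟩, j1, j3.trans ?_⟩
  · have e : 2 * ρ * β / α * (α * sL n K) = 2 * (ρ * (β * sL n K)) := by field_simp
    rw [e]
    linarith
  · have h3 := mul_le_mul_of_nonneg_left h2 (mul_pos h.eta0 a0).le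
    have h4 : 2 * dl ≤ η * α * (n : ℝ)⁻¹ := by rw [← div_eq_mul_inv, le_div_iff₀ n0]; exact hm
    linarith
  · refine mul_le_mul_of_nonneg_left (le_trans (Real.log_le_log
      (div_pos h.T0 (by positivity)) ?_) hl) zero_le_two
    rw [div_le_iff₀ (by positivity)]
    have h3 := mul_le_mul_of_nonneg_left h2 n0.le
    rw [mul_inv_cancel₀ n0.ne'] at h3
    nlinarith [h.T1]

/-- the budget of the drift of the mean field tier -/
theorem gam (hK : 0 ≤ K) (J : ℕ) :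
    ∑ j ∈ range J, ((2 * (T / ρ ^ j)) ^ e * √K) ^ 2 ≤ ν * K ∧
      ((2 * (T / ρ ^ J)) ^ e * √K) ^ 2 ≤ ν * K := by
  have hρ := h.rho
  have hT := h.T0
  constructor
  · have h1 := sum_pow_le (C := √K) hT.le (by linarith : 1 < ρ) h.e0 J
    simp only [mul_comm (√K)] at h1
    refine h1.trans ?_
    rw [Real.sq_sqrt hK, mul_assoc, mul_comm ν]
    exact mul_le_mul_of_nonneg_left h.TG hK
  · rw [mul_pow, Real.sq_sqrt hK]
    refine mul_le_mul_of_nonneg_right (le_trans ?_ h.Tg) hK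
    have h1 : T / ρ ^ J ≤ T := div_le_self hT.le (one_le_pow₀ (by linarith))
    exact pow_le_pow_left₀ (by positivity)
      (Real.rpow_le_rpow (by positivity) (by linarith) h.e0.le) 2

/-- the total quadratic cost -/
theorem cost (hn : 0 < n) (hK : 0 < K) (hk : K ≤ k₀ * n) (hθ : 36 ≤ θ * K) {X1 : ℝ} (hX : X1 ≤ 1) :
    2 * Real.log (2 * ρ) * (cA ρ * (ν * K)) +
      (2 * Real.log (2 * ρ * β / α) + 9) * (cB ρ (2 * ρ * β / α) * (ν * K)) +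
      9 * (α * sL n K) * (42 * (n * √(sL n K)) + X1) ≤ θ * K := by
  have h1 := mul_le_mul_of_nonneg_right (cM_le h.rho h.R2).2.2 (mul_pos h.nu0 hK).le
  have h2 := mul_le_mul_of_nonneg_right h.nut hK.le
  have h3 : (n : ℝ) * (sL n K * √(sL n K)) = K := uu_sL hn hK
  have h4 := mul_le_mul_of_nonneg_right h.alt hK.le
  have s0 := sL_pos hn hK
  have h5 : sL n K ≤ 1 := by
    linarith [h.sL_le_sg' hn hK hk, h.sg_le_T hn hK hk, h.T1]
  have h6 : α * sL n K ≤ 1 := mul_le_one₀ (by linarith [h.al1]) s0.le h5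
  have h7 : α * sL n K * X1 ≤ 1 :=
    (mul_le_mul_of_nonneg_left hX (mul_pos h.al0 s0).le).trans (by linarith)
  have e : 9 * (α * sL n K) * (42 * (n * √(sL n K)) + X1)
      = 378 * α * (n * (sL n K * √(sL n K))) + 9 * (α * sL n K * X1) := by ring
  rw [e, h3]
  have h8 := mul_pos h.al0 hK
  linarith

/-- the cost of one step -/
theorem step (hn : 0 < n) (hK : 1 ≤ K) (hk : K ≤ k₀ * n) {X1 dl : ℝ} (hX : X1 ≤ 1) (hd : 0 ≤ dl)
    (hdl : dl * (n : ℝ) ^ 3 ≤ 1) (hα : 1000 ≤ α * n) :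
    dl * ((cA ρ * (ν * K) + 3 * (cB ρ (2 * ρ * β / α) * (ν * K))) / (α * sL n K)
      + 3 * (42 * (n * √(sL n K))) + 3 * X1) ≤ 1 / 6 := by
  have n0 : (0 : ℝ) < n := by exact_mod_cast hn
  have K0 : 0 < K := by linarith
  have h1 := mul_le_mul_of_nonneg_right (cM_le h.rho h.R2).2.1 (mul_pos h.nu0 K0).le
  have h2 := mul_le_mul_of_nonneg_right h.nut K0.le
  have h3 := mul_le_mul_of_nonneg_right h.th1 K0.le
  have h4 := h.K_le hk
  have s0 := sL_pos hn K0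
  have a0 := h.al0
  have a1 := h.al1
  have h5 : sL n K ≤ 1 := by
    linarith [h.sL_le_sg' hn K0 hk, h.sg_le_T hn K0 hk, h.T1]
  have h6 := mul_le_mul_of_nonneg_left (inv_le_sL hn hK (by linarith)) n0.le
  rw [mul_inv_cancel₀ n0.ne'] at h6
  have n1 : (1000 : ℝ) ≤ n := by nlinarith
  have h7 : (cA ρ * (ν * K) + 3 * (cB ρ (2 * ρ * β / α) * (ν * K))) / (α * sL n K)
      ≤ (n : ℝ) ^ 3 / 1000 := by
    rw [div_le_iff₀ (by positivity)]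
    have b1 : 1000 * 1 ≤ α * n * (n * sL n K) := mul_le_mul hα h6 zero_le_one (by positivity)
    have b2 := mul_le_mul_of_nonneg_left b1 n0.le
    have e : (n : ℝ) ^ 3 / 1000 * (α * sL n K) = n * (α * n * (n * sL n K)) / 1000 := by ring
    rw [e]
    linarith
  have h8 : (n : ℝ) * √(sL n K) ≤ n := mul_le_of_le_one_right n0.le (Real.sqrt_le_one.2 h5)
  have h9 : (1000 : ℝ) * 1000 * n ≤ (n : ℝ) ^ 3 := by
    have := mul_le_mul n1 n1 (by norm_num) n0.le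
    nlinarith
  have h10 : (cA ρ * (ν * K) + 3 * (cB ρ (2 * ρ * β / α) * (ν * K))) / (α * sL n K)
      + 3 * (42 * (n * √(sL n K))) + 3 * X1 ≤ (n : ℝ) ^ 3 / 6 := by linarith
  have h11 := mul_le_mul_of_nonneg_left h10 hd
  linarith

/-- the constant of the linear cost -/
noncomputable def cL (ρ α β : ℝ) : ℝ := 1 + 3 / 2 * ((2 + 4 * (2 * ρ * β / α) ^ 6) * α⁻¹ ^ 2)

/-- the total linear cost -/
theorem lin (hn : 0 < n) (hK : 1 ≤ K) :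
    1 + 3 / 2 * ((2 + 4 * (2 * ρ * β / α) ^ 6) * (α * sL n K)⁻¹ ^ (1 + 4 * η))
      ≤ cL ρ α β * (n : ℝ) ^ (2 / 3 * (1 + 4 * η)) := by
  have n1 : (1 : ℝ) ≤ n := by exact_mod_cast hn
  have s0 := sL_pos hn (by linarith : 0 < K)
  have a0 := h.al0
  have e0 := h.eta0
  have h1 : 1 ≤ α⁻¹ := (one_le_inv₀ a0).2 (by linarith [h.al1])
  have h2 : (α * sL n K)⁻¹ ^ (1 + 4 * η) ≤ α⁻¹ ^ 2 * (n : ℝ) ^ (2 / 3 * (1 + 4 * η)) := by
    rw [mul_inv, Real.mul_rpow (by positivity) (by positivity), Real.rpow_mul (by linarith)]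
    refine mul_le_mul ?_ (Real.rpow_le_rpow (by positivity) (inv_sL_le hn hK) (by positivity))
      (by positivity) (by positivity)
    rw [← Real.rpow_natCast]
    exact Real.rpow_le_rpow_of_exponent_le h1 (by push_cast; linarith [h.eta1])
  have h3 : 1 ≤ (n : ℝ) ^ (2 / 3 * (1 + 4 * η)) := Real.one_le_rpow n1 (by positivity)
  have h4 := mul_le_mul_of_nonneg_left h2 (show 0 ≤ 2 + 4 * (2 * ρ * β / α) ^ 6 by positivity)
  unfold cL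
  linarith

theorem ev_lin : ∀ᶠ n : ℕ in atTop,
    cL ρ α β * (n : ℝ) ^ (2 / 3 * (1 + 4 * η)) * CT ≤ (n : ℝ) ^ (2 / 3 + ε) ∧
      cL ρ α β * (n : ℝ) ^ (2 / 3 * (1 + 4 * η)) ≤ (n : ℝ) ^ 2 := by
  filter_upwards [ev_rp (cL ρ α β * CT) (x := 2 / 3 * (1 + 4 * η)) (y := 2 / 3 + ε)
    (by linarith [h.eta0, h.etae]), ev_rp (cL ρ α β) (x := 2 / 3 * (1 + 4 * η)) (y := 2)
    (by linarith [h.eta1])] with n h1 h2
  exact ⟨by linarith, by rwa [Real.rpow_two] at h2⟩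

/-- the terminal defects -/
theorem term (hk : K ≤ k₀ * n) {Λ : ℝ} (hΛ : Λ ≤ (n : ℝ) ^ 2) (hn : 0 < n) (hK : 0 ≤ K)
    (hc : 6 * (n : ℝ) ^ 3 ≤ Real.exp (c / 2 * n)) :
    Λ * (Real.exp (2 * K) * Real.exp (-(c * n)) + Real.exp (-(c * n))) ≤ 1 / n / 3 ∧
      Real.exp (-(c * n)) ≤ Real.exp (-(2 * K)) := by
  have n0 : (0 : ℝ) < n := by exact_mod_cast hn
  have h1 := mul_le_mul_of_nonneg_right h.kc n0.le
  have h2 : Real.exp (2 * K) * Real.exp (-(c * n)) ≤ Real.exp (-(c / 2 * n)) := by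
    rw [← Real.exp_add]; exact Real.exp_le_exp.2 (by linarith)
  have h3 : Real.exp (-(c * n)) ≤ Real.exp (-(c / 2 * n)) := Real.exp_le_exp.2 (by linarith)
  refine ⟨?_, Real.exp_le_exp.2 (by linarith)⟩
  have h4 : Real.exp (-(c / 2 * n)) ≤ (6 * (n : ℝ) ^ 3)⁻¹ := by
    rw [Real.exp_neg]; exact inv_anti₀ (by positivity) hc
  calc _ ≤ (n : ℝ) ^ 2 * (2 * (6 * (n : ℝ) ^ 3)⁻¹) :=
        mul_le_mul hΛ (by linarith) (by positivity) (by positivity)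
    _ = _ := by field_simp; norm_num

end Cn

/-- the choice of the constants -/
theorem exists_Cn {ε θ' T₁ : ℝ} (hε : 0 < ε) (hθ' : 0 < θ') (hT₁ : 0 < T₁)
    {P Q : ℝ → ℝ → ℝ → Prop} (hP : ∀ η : ℝ, 0 < η → ∃ e T₀ : ℝ, 0 < e ∧ 0 < T₀ ∧ P η e T₀)
    (hQ : ∀ T : ℝ, 0 < T → T ≤ T₁ → ∃ CT c : ℝ, 1 ≤ CT ∧ 0 < c ∧ Q T CT c) :
    ∃ θ ρ κ η e α β ν T CT c k₀ T₀ : ℝ, Cn ε θ ρ κ η e α β ν T CT c k₀ ∧ θ ≤ θ' ∧ 2 * T ≤ T₀ ∧
      P η e T₀ ∧ Q T CT c := by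
  obtain ⟨ρ, κ, η₀, r1, r2, r3, r4, r5, r6, r7⟩ := exists_rho
  obtain ⟨θ, h1, h2, h3⟩ : ∃ θ : ℝ, 0 < θ ∧ θ ≤ θ' ∧ θ ≤ 1 :=
    ⟨min θ' 1, lt_min hθ' one_pos, min_le_left _ _, min_le_right _ _⟩
  obtain ⟨η, g1, g2, g3⟩ : ∃ η : ℝ, 0 < η ∧ η ≤ η₀ ∧ 6 * η ≤ ε :=
    ⟨min η₀ (ε / 6), lt_min r3 (by positivity), min_le_left _ _,
      by linarith [min_le_right η₀ (ε / 6)]⟩
  obtain ⟨e, T₀, he, hT₀, hP⟩ := hP η g1
  obtain ⟨α, a0, a1⟩ : ∃ α : ℝ, 0 < α ∧ 2000 * α ≤ θ := ⟨θ / 2000, by positivity, by linarith⟩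
  obtain ⟨β, b0, b1⟩ : ∃ β : ℝ, 0 < β ∧ 6 ≤ (η / 200) ^ 2 * β :=
    ⟨6 / (η / 200) ^ 2, by positivity, by rw [mul_div_cancel₀ _ (by positivity)]⟩
  obtain ⟨ν, n0, n1⟩ : ∃ ν : ℝ, 0 < ν ∧ cM ρ (2 * ρ * β / α) * ν ≤ θ / 2 := by
    generalize cM ρ (2 * ρ * β / α) = M
    have hM : 0 < |M| + 1 := by positivity
    refine ⟨θ / 2 / (|M| + 1), by positivity, ?_⟩
    refine (mul_le_mul_of_nonneg_right ((le_abs_self M).trans
      (le_add_of_nonneg_right zero_le_one)) (by positivity)).trans (le_of_eq ?_)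
    rw [mul_div_cancel₀ _ hM.ne']
  obtain ⟨T, t0, t1, t2, t3⟩ := exists_T r1 he n0
    (show 0 < min (min T₀ T₁) ((η / 200) ^ 2) by positivity)
  have t4 : 2 * T ≤ T₀ := t1.trans ((min_le_left _ _).trans (min_le_left _ _))
  have t5 : 2 * T ≤ T₁ := t1.trans ((min_le_left _ _).trans (min_le_right _ _))
  obtain ⟨CT, c, e2, e3, hQ⟩ := hQ T t0 (by linarith)
  obtain ⟨k₀, k1, k2, k3, k4⟩ := exists_k0 (show 0 < T / β by positivity)
    (show 0 < ν / 4 by positivity) (show 0 < min (c / 8) (1 / 64) by positivity)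
  exact ⟨θ, ρ, κ, η, e, α, β, ν, T, CT, c, k₀, T₀, ⟨r1, r2, r5, g1, g2.trans r4, g3,
    r6 η g1.le g2, r7 η g1.le g2, he, a0, a1, h3, b1, n0, n1, t0, t1.trans (min_le_right _ _), t2,
    t3, e2, e3, k1, by linarith [min_le_left (c / 8) (1 / 64)],
    by linarith [min_le_right (c / 8) (1 / 64)], by rwa [le_div_iff₀ b0, mul_comm] at k3,
    by linarith⟩, h2, t4, hP, hQ⟩

end Vale.Agent.N150.Asm
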