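import Vale.Agent.N150.AsmDef

/-! P150 at the critical point: the choice of the constants of the path assembly. -/

open Filter Topology

namespace Vale.Agent.N150.Asm

open Vale.Agent.N150.Rec

/-- the window ratio, the compression constant and the admissible tolerances -/
theorem exists_rho : ∃ ρ κ η₀ : ℝ, 2 ≤ ρ ∧ 0 ≤ κ ∧ 0 < η₀ ∧ η₀ ≤ 1 / 6 ∧
    2300 ≤ κ ^ 2 * (ρ * √ρ) ∧
    (∀ η₁, 0 ≤ η₁ → η₁ ≤ η₀ →
      √(2 * ρ) * (κ * (4 + Real.log (2 * ρ)) + 4 * η₁ * Real.log (2 * ρ)) ≤ 1 / 4) ∧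
    ∀ η, 0 ≤ η → η ≤ η₀ → 6 * (2 * ρ) ^ 4 * η * Real.log (2 * ρ) ≤ 1 / 4 := by
  have h1 : √((10 : ℝ) ^ 20) = 10 ^ 10 := by
    rw [show (10 : ℝ) ^ 20 = (10 ^ 10) ^ 2 by norm_num, Real.sqrt_sq (by norm_num)]
  have h2 : √(2 * (10 : ℝ) ^ 20) ≤ 2 * 10 ^ 10 := Real.sqrt_le_iff.2 ⟨by norm_num, by norm_num⟩
  have h3 : Real.log (2 * (10 : ℝ) ^ 20) ≤ 70 := by
    have h4 : Real.log (2 * (10 : ℝ) ^ 20) ≤ Real.log (2 ^ 70) :=
      Real.log_le_log (by norm_num) (by norm_num)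
    rw [Real.log_pow] at h4
    have h5 := Real.log_two_lt_d9
    push_cast at h4
    linarith
  have h4 : 0 ≤ Real.log (2 * (10 : ℝ) ^ 20) := Real.log_nonneg (by norm_num)
  refine ⟨10 ^ 20, 48 / 10 ^ 15, 1 / 10 ^ 90, by norm_num, by norm_num, by norm_num, by norm_num,
    by rw [h1]; norm_num, fun η₁ a b => ?_, fun η a b => ?_⟩
  · have h5 : 4 * η₁ * Real.log (2 * (10 : ℝ) ^ 20) ≤ 4 * (1 / 10 ^ 90) * 70 := by gcongr
    have h6 : √(2 * (10 : ℝ) ^ 20) * (48 / 10 ^ 15 * (4 + Real.log (2 * 10 ^ 20))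
        + 4 * η₁ * Real.log (2 * 10 ^ 20))
        ≤ 2 * 10 ^ 10 * (48 / 10 ^ 15 * (4 + 70) + 4 * (1 / 10 ^ 90) * 70) := by gcongr
    exact h6.trans (by norm_num)
  · calc _ ≤ 6 * (2 * (10 : ℝ) ^ 20) ^ 4 * (1 / 10 ^ 90) * 70 := by gcongr
      _ ≤ _ := by norm_num

/-- constant of the budget sum -/
noncomputable def cZ (ρ : ℝ) : ℝ := 9 * (2 * Real.log (2 * ρ)) ^ 2 + 3

/-- constant of the sharp tier -/
noncomputable def cA (ρ : ℝ) : ℝ := (2 * ρ) ^ 6 * (4 + 34 * (2 * ρ) ^ 2 * cZ ρ)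

/-- constant of the crude tier -/
noncomputable def cB (ρ R₂ : ℝ) : ℝ :=
  2 * (R₂ ^ (3 : ℝ)) ^ 2 * (1 + 8 * (2 * ρ) ^ 2 * cZ ρ + 3 * (2 * (2 * Real.log R₂) ^ 2 + 1))

/-- constant of the total cost -/
noncomputable def cM (ρ R₂ : ℝ) : ℝ :=
  1 + cA ρ + 3 * cB ρ R₂ + 2 * Real.log (2 * ρ) * cA ρ + (2 * Real.log R₂ + 9) * cB ρ R₂

theorem cZ_nonneg (ρ : ℝ) : 0 ≤ cZ ρ := by unfold cZ; positivity

theorem cA_nonneg (ρ : ℝ) : 0 ≤ cA ρ := by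
  have := cZ_nonneg ρ
  unfold cA; positivity

theorem cB_nonneg (ρ R₂ : ℝ) : 0 ≤ cB ρ R₂ := by
  have := cZ_nonneg ρ
  unfold cB; positivity

theorem cM_le {ρ R₂ : ℝ} (hρ : 2 ≤ ρ) (hR : 1 ≤ R₂) : 1 ≤ cM ρ R₂ ∧ cA ρ + 3 * cB ρ R₂ ≤ cM ρ R₂ ∧
    2 * Real.log (2 * ρ) * cA ρ + (2 * Real.log R₂ + 9) * cB ρ R₂ ≤ cM ρ R₂ := by
  have h1 := cA_nonneg ρ
  have h2 := cB_nonneg ρ R₂
  have h3 : 0 ≤ Real.log (2 * ρ) := Real.log_nonneg (by linarith)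
  have h4 : 0 ≤ Real.log R₂ := Real.log_nonneg hR
  have h5 : 0 ≤ 2 * Real.log (2 * ρ) * cA ρ := by positivity
  have h6 : 0 ≤ (2 * Real.log R₂ + 9) * cB ρ R₂ := by positivity
  unfold cM
  exact ⟨by linarith, by linarith, by linarith⟩

theorem tot_le {ρ R₂ T ν K M0 ζ₀ Γ Z : ℝ} {g : ℝ → ℝ} {J : ℕ} (hK : 1 ≤ K) (hν : 0 ≤ ν)
    (hM : M0 ^ 2 ≤ ν * K) (hζ : ζ₀ ^ 2 ≤ ν) (hJ : (J : ℝ) ≤ 2 * K) (hΓ : Γ ≤ ν * K)
    (hZ : Z ^ 2 ≤ ν * K) (hg : g (2 * (T / ρ ^ J)) ^ 2 ≤ ν * K) :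
    totA (2 * ρ) M0 (zsum ρ ζ₀ Γ Z J) ≤ cA ρ * (ν * K) ∧
      totB (2 * ρ) M0 (zsum ρ ζ₀ Γ Z J) R₂ 3 (zet2 T ρ R₂ ζ₀ Z g J) ≤ cB ρ R₂ * (ν * K) := by
  have h1 : zsum ρ ζ₀ Γ Z J ≤ cZ ρ * (ν * K) := by
    unfold zsum cZ
    have h2 : (J : ℝ) * ζ₀ ^ 2 ≤ 2 * K * ν := mul_le_mul hJ hζ (sq_nonneg _) (by linarith)
    have h3 : (J : ℝ) * ζ₀ ^ 2 + Γ ≤ 3 * (ν * K) := by linarith
    have h4 := mul_le_mul_of_nonneg_left h3 (show 0 ≤ 3 * (2 * Real.log (2 * ρ)) ^ 2 by positivity)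
    linarith
  have h2 : zet2 T ρ R₂ ζ₀ Z g J ^ 2 ≤ 3 * (2 * (2 * Real.log R₂) ^ 2 + 1) * (ν * K) := by
    unfold zet2
    set L := 2 * Real.log R₂
    set a := g (2 * (T / ρ ^ J))
    have h3 : ζ₀ ^ 2 ≤ ν * K := hζ.trans (le_mul_of_one_le_right hν hK)
    have h4 := mul_le_mul_of_nonneg_left h3 (sq_nonneg L)
    have h5 := mul_le_mul_of_nonneg_left hg (sq_nonneg L)
    nlinarith [sq_nonneg (ζ₀ * L - a * L), sq_nonneg (ζ₀ * L - Z), sq_nonneg (a * L - Z)]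
  constructor
  · unfold totA cA
    rw [mul_assoc ((2 * ρ) ^ 6)]
    refine mul_le_mul_of_nonneg_left ?_ (by positivity)
    have h3 := mul_le_mul_of_nonneg_left h1 (show 0 ≤ 34 * (2 * ρ) ^ 2 by positivity)
    linarith
  · unfold totB cB
    rw [mul_assoc (2 * (R₂ ^ (3 : ℝ)) ^ 2)]
    refine mul_le_mul_of_nonneg_left ?_ (by positivity)
    have h3 := mul_le_mul_of_nonneg_left h1 (show 0 ≤ 8 * (2 * ρ) ^ 2 by positivity)
    linarith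

/-- small positive numbers have small powers -/
theorem ev_rpow {e b : ℝ} (he : 0 < e) (hb : 0 < b) : ∀ᶠ x : ℝ in 𝓝[>] 0, x ^ e ≤ b := by
  have h1 : Tendsto (fun x : ℝ => x ^ e) (𝓝 0) (𝓝 (0 ^ e)) :=
    (Real.continuousAt_rpow_const 0 e (Or.inr he.le)).tendsto
  rw [Real.zero_rpow he.ne'] at h1
  exact (h1.mono_left nhdsWithin_le_nhds).eventually (ge_mem_nhds hb)

theorem ev_small {b : ℝ} (hb : 0 < b) : ∀ᶠ x : ℝ in 𝓝[>] 0, x ≤ b :=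
  nhdsWithin_le_nhds (Iic_mem_nhds hb)

/-- the terminal time -/
theorem exists_T {ρ e ν b : ℝ} (hρ : 2 ≤ ρ) (he : 0 < e) (hν : 0 < ν) (hb : 0 < b) :
    ∃ T : ℝ, 0 < T ∧ 2 * T ≤ b ∧ ((2 * T) ^ e) ^ 2 ≤ ν ∧
      ((2 * T) ^ e) ^ 2 * (1 - ((ρ ^ e) ^ 2)⁻¹)⁻¹ ≤ ν := by
  have h1 : 1 < ρ ^ e := Real.one_lt_rpow (by linarith) he
  have h2 : ((ρ ^ e) ^ 2)⁻¹ < 1 := inv_lt_one_of_one_lt₀ (by nlinarith)
  have h3 : 0 < ((ρ ^ e) ^ 2)⁻¹ := by positivity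
  set x := 1 - ((ρ ^ e) ^ 2)⁻¹ with hx
  have h4 : 0 < x := by linarith
  have h5 : x ≤ 1 := by linarith
  obtain ⟨u, ⟨u1, u2⟩, u0⟩ := (((ev_rpow he (Real.sqrt_pos.2 (mul_pos hν h4))).and
    (ev_small hb)).and self_mem_nhdsWithin).exists
  have u0' : 0 < u := u0
  have h6 : (u ^ e) ^ 2 ≤ ν * x := by
    have h7 := pow_le_pow_left₀ (by positivity) u1 2
    rwa [Real.sq_sqrt (mul_pos hν h4).le] at h7
  have e1 : 2 * (u / 2) = u := by ring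
  refine ⟨u / 2, by linarith, by linarith, ?_, ?_⟩ <;> rw [e1]
  · exact h6.trans (mul_le_of_le_one_right hν.le h5)
  · rw [mul_inv_le_iff₀ h4]; exact h6

/-- the top level -/
theorem exists_k0 {a b c : ℝ} (ha : 0 < a) (hb : 0 < b) (hc : 0 < c) :
    ∃ k : ℝ, 0 < k ∧ k ≤ c ∧ k ^ (51 / 100 : ℝ) ≤ a ∧ k ^ (149 / 10000 : ℝ) ≤ b := by
  obtain ⟨u, ⟨⟨u1, u2⟩, u3⟩, u0⟩ := ((((ev_small hc).and
    (ev_rpow (e := 51 / 100) (by norm_num) ha)).and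
    (ev_rpow (e := 149 / 10000) (by norm_num) hb)).and self_mem_nhdsWithin).exists
  exact ⟨u, u0, u1, u2, u3⟩

/-! ### the scales at the level `K` -/

/-- the scale of the level -/
noncomputable def sL (n : ℕ) (K : ℝ) : ℝ := (K / n) ^ (2 / 3 : ℝ)

/-- the start of the mean field tier -/
noncomputable def sg (n : ℕ) (K : ℝ) : ℝ := (K / n) ^ (51 / 100 : ℝ)

variable {n : ℕ} {K : ℝ}

theorem sL_pos (hn : 0 < n) (hK : 0 < K) : 0 < sL n K := by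
  have : (0 : ℝ) < n := by exact_mod_cast hn
  unfold sL; positivity

theorem uu_sL (hn : 0 < n) (hK : 0 < K) : Path.uu n (sL n K) = K := by
  have h0 : (0 : ℝ) < n := by exact_mod_cast hn
  have h1 : 0 < K / n := by positivity
  unfold Path.uu sL
  rw [Real.sqrt_eq_rpow, ← Real.rpow_mul h1.le, ← Real.rpow_add h1]
  norm_num
  field_simp

theorem uu_mul {a : ℝ} (ha : 0 ≤ a) (s : ℝ) : Path.uu n (a * s) = a * √a * Path.uu n s := by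
  unfold Path.uu
  rw [Real.sqrt_mul ha]
  ring

theorem le_uu_big (hn : 0 < n) (hK : 0 < K) {a s : ℝ} (ha : 1 ≤ a) (hs : a * sL n K ≤ s) :
    a * K ≤ Path.uu n s := by
  have h0 := sL_pos hn hK
  refine le_trans ?_ (Path.uu_mono n (by positivity) hs)
  rw [uu_mul (by linarith), uu_sL hn hK]
  have h1 : 1 ≤ √a := Real.one_le_sqrt.2 ha
  exact mul_le_mul_of_nonneg_right (le_mul_of_one_le_right (by linarith) h1) hK.le

theorem le_uu_small (hn : 0 < n) (hK : 0 < K) {a s : ℝ} (ha : 0 ≤ a) (ha1 : a ≤ 1)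
    (hs : a * sL n K ≤ s) : a ^ 2 * K ≤ Path.uu n s := by
  have h0 := sL_pos hn hK
  refine le_trans ?_ (Path.uu_mono n (by positivity) hs)
  rw [uu_mul ha, uu_sL hn hK, pow_two]
  have h1 : a ≤ √a := Real.le_sqrt_of_sq_le (by nlinarith)
  exact mul_le_mul_of_nonneg_right (mul_le_mul_of_nonneg_left h1 ha) hK.le

theorem sL_le_sg (hn : 0 < n) (hK : 0 < K) (hK1 : K ≤ n) : sL n K ≤ sg n K := by
  have h0 : (0 : ℝ) < n := by exact_mod_cast hn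
  exact Real.rpow_le_rpow_of_exponent_ge (by positivity) ((div_le_one h0).2 hK1) (by norm_num)

theorem sg_le (hn : 0 < n) (hK : 0 < K) {k : ℝ} (hk : K ≤ k * n) :
    sg n K ≤ k ^ (51 / 100 : ℝ) := by
  have h0 : (0 : ℝ) < n := by exact_mod_cast hn
  exact Real.rpow_le_rpow (by positivity) ((div_le_iff₀ h0).2 hk) (by norm_num)

theorem inv_le_sL (hn : 0 < n) (hK : 1 ≤ K) (hK1 : K ≤ n) : (n : ℝ)⁻¹ ≤ sL n K := by
  have h0 : (0 : ℝ) < n := by exact_mod_cast hn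
  have h1 : (K / n) ^ (1 : ℝ) ≤ sL n K :=
    Real.rpow_le_rpow_of_exponent_ge (by positivity) ((div_le_one h0).2 hK1) (by norm_num)
  rw [Real.rpow_one] at h1
  refine le_trans ?_ h1
  rw [inv_eq_one_div]
  exact div_le_div_of_nonneg_right hK h0.le

theorem inv_sL_le (hn : 0 < n) (hK : 1 ≤ K) : (sL n K)⁻¹ ≤ (n : ℝ) ^ (2 / 3 : ℝ) := by
  have h0 : (0 : ℝ) < n := by exact_mod_cast hn
  unfold sL
  rw [← Real.inv_rpow (by positivity), inv_div]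
  exact Real.rpow_le_rpow (by positivity) (div_le_self h0.le hK) (by norm_num)

/-- the size of the jump -/
theorem jump_le (hn : 0 < n) (hK : 0 < K) {k a b : ℝ} (hk : K ≤ k * n) (ha : a ≤ sg n K)
    (hb0 : 0 ≤ b) (hb : b ≤ 2 * sg n K) :
    a * (n * b ^ (99 / 100 : ℝ)) ≤ 2 * k ^ (149 / 10000 : ℝ) * K := by
  have h0 : (0 : ℝ) < n := by exact_mod_cast hn
  have h1 : 0 < K / n := by positivity
  have h2 : 0 < sg n K := by unfold sg; positivity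
  have h3 : b ^ (99 / 100 : ℝ) ≤ 2 * sg n K ^ (99 / 100 : ℝ) := by
    refine (Real.rpow_le_rpow hb0 hb (by norm_num)).trans ?_
    rw [Real.mul_rpow (by norm_num) h2.le]
    refine mul_le_mul_of_nonneg_right ?_ (by positivity)
    calc (2 : ℝ) ^ (99 / 100 : ℝ) ≤ 2 ^ (1 : ℝ) :=
          Real.rpow_le_rpow_of_exponent_le (by norm_num) (by norm_num)
      _ = 2 := Real.rpow_one 2
  have h4 : sg n K * sg n K ^ (99 / 100 : ℝ) = K / n * (K / n) ^ (149 / 10000 : ℝ) := by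
    unfold sg
    rw [← Real.rpow_mul h1.le, ← Real.rpow_add h1]
    conv_rhs => rw [← Real.rpow_one (K / n), ← Real.rpow_mul h1.le, ← Real.rpow_add h1]
    norm_num
  have h5 : (K / n) ^ (149 / 10000 : ℝ) ≤ k ^ (149 / 10000 : ℝ) :=
    Real.rpow_le_rpow h1.le ((div_le_iff₀ h0).2 hk) (by norm_num)
  calc _ ≤ sg n K * (n * (2 * sg n K ^ (99 / 100 : ℝ))) := by gcongr
    _ = 2 * (n * (sg n K * sg n K ^ (99 / 100 : ℝ))) := by ring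
    _ = 2 * (K / n) ^ (149 / 10000 : ℝ) * K := by rw [h4]; field_simp
    _ ≤ _ := by gcongr

end Vale.Agent.N150.Asm
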