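import Vale.Agent.P150.Bdl.B1

set_option linter.all false

/-! Order calculus over a type of contexts: `O j f` means `|f x| ≤ K x ^ p * t x ^ j` for one
exponent `p` and all contexts `x`. No exponent bookkeeping. -/

open Matrix Finset

namespace Vale.Agent.N150.EC

open Vale.Agent.P150 Vale.Agent.P150.F

/-- a family of contexts with a big parameter `K`, a small parameter `t` and a dimension `n ≤ K` -/
structure Frame (X : Type) where
  K : X → ℝ
  t : X → ℝ
  n : X → ℕ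
  hK : ∀ x, 2 ≤ K x
  hn : ∀ x, (n x : ℝ) ≤ K x
  ht0 : ∀ x, 0 ≤ t x
  ht1 : ∀ x, t x ≤ 1

namespace Frame

variable {X : Type} (F : Frame X)

/-- indexed families of order `j` -/
def OO (j : ℕ) (ι : X → Type) (f : ∀ x, ι x → ℝ) : Prop :=
  ∃ p : ℕ, ∀ x i, |f x i| ≤ F.K x ^ p * F.t x ^ j
/-- scalars of order `j` -/
def O (j : ℕ) (f : X → ℝ) : Prop := F.OO j (fun _ => Unit) (fun x _ => f x)
/-- vectors of order `j` (entrywise) -/
def V (j : ℕ) (f : ∀ x, Vec (F.n x)) : Prop := F.OO j (fun x => Fin (F.n x)) f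
/-- matrices of order `j` (entrywise) -/
def M (j : ℕ) (f : ∀ x, Mat (F.n x)) : Prop :=
  F.OO j (fun x => Fin (F.n x) × Fin (F.n x)) (fun x i => f x i.1 i.2)

variable {F}

theorem K0 (x : X) : 0 ≤ F.K x := by linarith [F.hK x]
theorem K1 (x : X) : 1 ≤ F.K x := by linarith [F.hK x]

theorem pow_mono (x : X) {p q : ℕ} (h : p ≤ q) (j : ℕ) :
    F.K x ^ p * F.t x ^ j ≤ F.K x ^ q * F.t x ^ j :=
  mul_le_mul_of_nonneg_right (pow_le_pow_right₀ (K1 x) h) (pow_nonneg (F.ht0 x) j)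

namespace OO

variable {j k : ℕ} {ι : X → Type} {f g : ∀ x, ι x → ℝ}

theorem congr (h : F.OO j ι f) (e : ∀ x i, g x i = f x i) : F.OO j ι g := by
  obtain ⟨p, hp⟩ := h
  exact ⟨p, fun x i => by rw [e]; exact hp x i⟩

theorem of_le (h : F.OO j ι f) (e : ∀ x i, |g x i| ≤ |f x i|) : F.OO j ι g := by
  obtain ⟨p, hp⟩ := h
  exact ⟨p, fun x i => (e x i).trans (hp x i)⟩

theorem mono (h : F.OO j ι f) (hk : k ≤ j) : F.OO k ι f := by
  obtain ⟨p, hp⟩ := h
  exact ⟨p, fun x i => (hp x i).trans (mul_le_mul_of_nonneg_left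
    (pow_le_pow_of_le_one (F.ht0 x) (F.ht1 x) hk) (pow_nonneg (K0 x) p))⟩

theorem reindex {κ : X → Type} (h : F.OO j ι f) (φ : ∀ x, κ x → ι x) :
    F.OO j κ (fun x i => f x (φ x i)) := by
  obtain ⟨p, hp⟩ := h
  exact ⟨p, fun x i => hp x _⟩

theorem add (hf : F.OO j ι f) (hg : F.OO j ι g) : F.OO j ι (fun x i => f x i + g x i) := by
  obtain ⟨p, hp⟩ := hf
  obtain ⟨q, hq⟩ := hg
  refine ⟨p + q + 1, fun x i => ?_⟩
  have h1 := (hp x i).trans (pow_mono x (Nat.le_add_right p q) j)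
  have h2 := (hq x i).trans (pow_mono x (Nat.le_add_left q p) j)
  have h3 : 0 ≤ F.K x ^ (p + q) * F.t x ^ j :=
    mul_nonneg (pow_nonneg (K0 x) _) (pow_nonneg (F.ht0 x) _)
  have h4 := F.hK x
  calc |f x i + g x i| ≤ |f x i| + |g x i| := abs_add_le _ _
    _ ≤ 2 * (F.K x ^ (p + q) * F.t x ^ j) := by linarith
    _ ≤ F.K x * (F.K x ^ (p + q) * F.t x ^ j) := mul_le_mul_of_nonneg_right h4 h3
    _ = _ := by ring

theorem neg (hf : F.OO j ι f) : F.OO j ι (fun x i => -f x i) :=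
  hf.of_le fun x i => by rw [abs_neg]

theorem sub (hf : F.OO j ι f) (hg : F.OO j ι g) : F.OO j ι (fun x i => f x i - g x i) :=
  (hf.add hg.neg).congr fun x i => by ring

theorem mul (hf : F.OO j ι f) (hg : F.OO k ι g) : F.OO (j + k) ι (fun x i => f x i * g x i) := by
  obtain ⟨p, hp⟩ := hf
  obtain ⟨q, hq⟩ := hg
  refine ⟨p + q, fun x i => ?_⟩
  rw [abs_mul]
  calc |f x i| * |g x i| ≤ (F.K x ^ p * F.t x ^ j) * (F.K x ^ q * F.t x ^ k) :=
        mul_le_mul (hp x i) (hq x i) (abs_nonneg _) ((abs_nonneg _).trans (hp x i))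
    _ = _ := by ring

theorem const (c : ℝ) : F.OO 0 ι (fun _ _ => c) := by
  obtain ⟨p, hp⟩ := pow_unbounded_of_one_lt |c| (by norm_num : (1 : ℝ) < 2)
  refine ⟨p, fun x _ => ?_⟩
  rw [pow_zero, mul_one]
  exact hp.le.trans (pow_le_pow_left₀ (by norm_num) (F.hK x) p)

theorem sum {f : ∀ x, ι x × Fin (F.n x) → ℝ} (hf : F.OO j (fun x => ι x × Fin (F.n x)) f) :
    F.OO j ι (fun x i => ∑ l, f x (i, l)) := by
  obtain ⟨p, hp⟩ := hf
  refine ⟨p + 1, fun x i => ?_⟩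
  have h3 : 0 ≤ F.K x ^ p * F.t x ^ j :=
    mul_nonneg (pow_nonneg (K0 x) _) (pow_nonneg (F.ht0 x) _)
  calc |∑ l, f x (i, l)| ≤ ∑ l, |f x (i, l)| := Finset.abs_sum_le_sum_abs _ _
    _ ≤ ∑ _l : Fin (F.n x), F.K x ^ p * F.t x ^ j := Finset.sum_le_sum fun l _ => hp x _
    _ = (F.n x : ℝ) * (F.K x ^ p * F.t x ^ j) := by simp
    _ ≤ F.K x * (F.K x ^ p * F.t x ^ j) := mul_le_mul_of_nonneg_right (F.hn x) h3
    _ = _ := by ring

theorem of_bd {q : ℕ} (h : ∀ x i, |f x i| ≤ F.K x ^ q * F.t x ^ j) : F.OO j ι f := ⟨q, h⟩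

theorem of_t (h : ∀ x i, |f x i| ≤ F.t x ^ j) : F.OO j ι f :=
  ⟨0, fun x i => by rw [pow_zero, one_mul]; exact h x i⟩

theorem of_K (h : ∀ x i, |f x i| ≤ F.K x) : F.OO 0 ι f :=
  ⟨1, fun x i => by rw [pow_one, pow_zero, mul_one]; exact h x i⟩

theorem of_one (h : ∀ x i, |f x i| ≤ 1) : F.OO 0 ι f :=
  ⟨0, fun x i => by rw [pow_zero, pow_zero, mul_one]; exact h x i⟩

end OO

namespace O

variable {j k : ℕ} {f g : X → ℝ}

theorem congr (h : F.O j f) (e : ∀ x, g x = f x) : F.O j g := OO.congr h fun x _ => e x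
theorem of_le (h : F.O j f) (e : ∀ x, |g x| ≤ |f x|) : F.O j g := OO.of_le h fun x _ => e x
theorem mono (h : F.O j f) (hk : k ≤ j) : F.O k f := OO.mono h hk
theorem add (hf : F.O j f) (hg : F.O j g) : F.O j (fun x => f x + g x) := OO.add hf hg
theorem sub (hf : F.O j f) (hg : F.O j g) : F.O j (fun x => f x - g x) := OO.sub hf hg
theorem neg (hf : F.O j f) : F.O j (fun x => -f x) := OO.neg hf
theorem mul (hf : F.O j f) (hg : F.O k g) : F.O (j + k) (fun x => f x * g x) := OO.mul hf hg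
theorem const (c : ℝ) : F.O 0 (fun _ => c) := OO.const c
theorem cmul (c : ℝ) (hf : F.O j f) : F.O j (fun x => c * f x) :=
  ((const c).mul hf).mono (by omega)
theorem zmul (hf : F.O 0 f) (hg : F.O j g) : F.O j (fun x => f x * g x) :=
  (hf.mul hg).mono (by omega)
theorem mulz (hf : F.O j f) (hg : F.O 0 g) : F.O j (fun x => f x * g x) := hf.mul hg
theorem sq (hf : F.O j f) : F.O (j + j) (fun x => f x ^ 2) := (hf.mul hf).congr fun x => by ring
theorem pow0 (hf : F.O 0 f) (r : ℕ) : F.O 0 (fun x => f x ^ r) := by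
  induction r with
  | zero => exact (const 1).congr fun x => by simp
  | succ r ih => exact (ih.mul hf).congr fun x => by ring
theorem of_t (h : ∀ x, |f x| ≤ F.t x ^ j) : F.O j f := OO.of_t fun x _ => h x
theorem of_K (h : ∀ x, |f x| ≤ F.K x) : F.O 0 f := OO.of_K fun x _ => h x
theorem of_bd {q : ℕ} (h : ∀ x, |f x| ≤ F.K x ^ q * F.t x ^ j) : F.O j f :=
  OO.of_bd fun x _ => h x
theorem dim : F.O 0 (fun x => (F.n x : ℝ)) := of_K fun x => by
  rw [abs_of_nonneg (Nat.cast_nonneg _)]; exact F.hn x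
/-- inverse of a quantity bounded below by `1 / K` -/
theorem inv_of (h : ∀ x, 1 ≤ F.K x * f x) : F.O 0 (fun x => (f x)⁻¹) := of_K fun x => by
  have hK := F.hK x
  have hf : 0 < f x := by
    by_contra hc
    have := mul_nonpos_of_nonneg_of_nonpos (K0 (F := F) x) (not_lt.1 hc)
    linarith [h x]
  rw [abs_of_pos (inv_pos.2 hf), inv_le_iff_one_le_mul₀ hf]
  exact h x
theorem out (h : F.O j f) : ∃ p : ℕ, ∀ x, |f x| ≤ F.K x ^ p * F.t x ^ j := by
  obtain ⟨p, hp⟩ := h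
  exact ⟨p, fun x => hp x ()⟩

end O

namespace V

variable {j k : ℕ} {u v : ∀ x, Vec (F.n x)} {f : X → ℝ}

theorem congr (h : F.V j u) (e : ∀ x i, v x i = u x i) : F.V j v := OO.congr h e
theorem congr' (h : F.V j u) (e : ∀ x, v x = u x) : F.V j v :=
  OO.congr h fun x i => by rw [e]
theorem mono (h : F.V j u) (hk : k ≤ j) : F.V k u := OO.mono h hk
theorem add (hu : F.V j u) (hv : F.V j v) : F.V j (fun x => u x + v x) := OO.add hu hv
theorem sub (hu : F.V j u) (hv : F.V j v) : F.V j (fun x => u x - v x) := OO.sub hu hv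
theorem neg (hu : F.V j u) : F.V j (fun x => -u x) := OO.neg hu
theorem mul (hu : F.V j u) (hv : F.V k v) : F.V (j + k) (fun x i => u x i * v x i) := OO.mul hu hv
theorem zmul (hu : F.V 0 u) (hv : F.V k v) : F.V k (fun x i => u x i * v x i) :=
  (hu.mul hv).mono (by omega)
theorem lift (hf : F.O j f) : F.V j (fun x _ => f x) := OO.reindex hf fun _ _ => ()
theorem smul (hf : F.O j f) (hv : F.V k v) : F.V (j + k) (fun x => f x • v x) :=
  OO.mul (lift hf) hv
theorem zsmul (hf : F.O 0 f) (hv : F.V k v) : F.V k (fun x => f x • v x) :=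
  (smul hf hv).mono (by omega)
theorem sum (hu : F.V j u) : F.O j (fun x => ∑ i, u x i) :=
  OO.sum (ι := fun _ => Unit) (f := fun x i => u x i.2) (OO.reindex (κ := fun x => Unit × Fin (F.n x)) hu fun _ i => i.2)
theorem ip (hu : F.V j u) (hv : F.V k v) : F.O (j + k) (fun x => P150.F.ip (u x) (v x)) :=
  (hu.mul hv).sum
theorem zip (hu : F.V 0 u) (hv : F.V k v) : F.O k (fun x => P150.F.ip (u x) (v x)) :=
  (hu.ip hv).mono (by omega)
theorem sq (hu : F.V j u) : F.O (j + j) (fun x => P150.F.sq (u x)) :=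
  (hu.ip hu).congr fun x => (ipN_self _).symm
theorem of_t (h : ∀ x i, |u x i| ≤ F.t x ^ j) : F.V j u := OO.of_t h
theorem of_K (h : ∀ x i, |u x i| ≤ F.K x) : F.V 0 u := OO.of_K h
theorem of_one (h : ∀ x i, |u x i| ≤ 1) : F.V 0 u := OO.of_one h
theorem of_bd {q : ℕ} (h : ∀ x i, |u x i| ≤ F.K x ^ q * F.t x ^ j) : F.V j u := OO.of_bd h
theorem of_le (h : F.V j u) (e : ∀ x i, |v x i| ≤ |u x i|) : F.V j v := OO.of_le h e
theorem out (h : F.V j u) : ∃ p : ℕ, ∀ x i, |u x i| ≤ F.K x ^ p * F.t x ^ j := h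

end V

namespace M

variable {j k : ℕ} {A B : ∀ x, Mat (F.n x)} {u v : ∀ x, Vec (F.n x)} {f : X → ℝ}

theorem congr' (h : F.M j A) (e : ∀ x, B x = A x) : F.M j B :=
  OO.congr h fun x i => by rw [e]
theorem mono (h : F.M j A) (hk : k ≤ j) : F.M k A := OO.mono h hk
theorem add (hA : F.M j A) (hB : F.M j B) : F.M j (fun x => A x + B x) := OO.add hA hB
theorem sub (hA : F.M j A) (hB : F.M j B) : F.M j (fun x => A x - B x) := OO.sub hA hB
theorem neg (hA : F.M j A) : F.M j (fun x => -A x) := OO.neg hA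
theorem smul (hf : F.O j f) (hA : F.M k A) : F.M (j + k) (fun x => f x • A x) :=
  OO.mul (OO.reindex hf fun _ _ => ()) hA
theorem one : F.M 0 (fun x => (1 : Mat (F.n x))) := OO.of_one fun x i => by
  change |(1 : Mat (F.n x)) i.1 i.2| ≤ 1
  rw [Matrix.one_apply]; split_ifs <;> simp
theorem mul (hA : F.M j A) (hB : F.M k B) : F.M (j + k) (fun x => A x * B x) :=
  OO.sum (ι := fun x => Fin (F.n x) × Fin (F.n x))
    (f := fun x i => A x i.1.1 i.2 * B x i.2 i.1.2)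
    (OO.mul (OO.reindex (κ := fun x => (Fin (F.n x) × Fin (F.n x)) × Fin (F.n x)) hA
        fun _ i => (i.1.1, i.2))
      (OO.reindex (κ := fun x => (Fin (F.n x) × Fin (F.n x)) × Fin (F.n x)) hB
        fun _ i => (i.2, i.1.2)))
theorem zmul (hA : F.M 0 A) (hB : F.M k B) : F.M k (fun x => A x * B x) :=
  (hA.mul hB).mono (by omega)
theorem mulVec (hA : F.M j A) (hv : F.V k v) : F.V (j + k) (fun x => A x *ᵥ v x) :=
  OO.sum (ι := fun x => Fin (F.n x)) (f := fun x i => A x i.1 i.2 * v x i.2)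
    (OO.mul hA (OO.reindex (κ := fun x => Fin (F.n x) × Fin (F.n x)) hv fun _ i => i.2))
theorem zmulVec (hA : F.M 0 A) (hv : F.V k v) : F.V k (fun x => A x *ᵥ v x) :=
  (hA.mulVec hv).mono (by omega)
theorem diagV (hA : F.M j A) : F.V j (fun x i => A x i i) := OO.reindex hA fun _ i => (i, i)
theorem trace (hA : F.M j A) : F.O j (fun x => (A x).trace) := hA.diagV.sum
theorem transpose (hA : F.M j A) : F.M j (fun x => (A x)ᵀ) :=
  OO.reindex (κ := fun x => Fin (F.n x) × Fin (F.n x)) hA fun _ i => (i.2, i.1)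
theorem diagonal (hu : F.V j u) : F.M j (fun x => Matrix.diagonal (u x)) :=
  OO.of_le (OO.reindex (κ := fun x => Fin (F.n x) × Fin (F.n x)) hu fun _ i => i.1) fun x i => by
    change |Matrix.diagonal (u x) i.1 i.2| ≤ |u x i.1|
    rw [Matrix.diagonal_apply]; split_ifs <;> simp
theorem vecMulVec (hu : F.V j u) (hv : F.V k v) :
    F.M (j + k) (fun x => Matrix.vecMulVec (u x) (v x)) :=
  OO.mul (OO.reindex (κ := fun x => Fin (F.n x) × Fin (F.n x)) hu fun _ i => i.1)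
    (OO.reindex (κ := fun x => Fin (F.n x) × Fin (F.n x)) hv fun _ i => i.2)
theorem qf (hA : F.M j A) (hv : F.V k v) : F.O (k + (j + k)) (fun x => P150.F.qf (A x) (v x)) :=
  hv.ip (hA.mulVec hv)
theorem of_t (h : ∀ x i l, |A x i l| ≤ F.t x ^ j) : F.M j A := OO.of_t fun x i => h x i.1 i.2
theorem of_K (h : ∀ x i l, |A x i l| ≤ F.K x) : F.M 0 A := OO.of_K fun x i => h x i.1 i.2
theorem of_bd {q : ℕ} (h : ∀ x i l, |A x i l| ≤ F.K x ^ q * F.t x ^ j) : F.M j A :=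
  OO.of_bd fun x i => h x i.1 i.2
theorem out (h : F.M j A) : ∃ p : ℕ, ∀ x i l, |A x i l| ≤ F.K x ^ p * F.t x ^ j := by
  obtain ⟨p, hp⟩ := h
  exact ⟨p, fun x i l => hp x (i, l)⟩

end M

end Frame

end Vale.Agent.N150.EC
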