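import Vale.Agent.N150.ECDef
import Vale.Agent.N150.ECOrd
import Vale.Agent.P150.Bdl.B21

set_option linter.all false

/-! Micro-step expansion of the EC-TAP reference: `StepStmt` and `ChanStmt`. -/

open Matrix Finset

namespace Vale.Agent.N150.EC

open Vale.Agent.P150 Vale.Agent.P150.F

section basic

variable {n : ℕ}

theorem abs_tm_le (h : Vec n) (i : Fin n) : |tm h i| ≤ 1 := by
  unfold tm
  exact abs_le.2 ⟨(Real.neg_one_lt_tanh _).le, (Real.tanh_lt_one _).le⟩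

theorem dv_pos (h : Vec n) (i : Fin n) : 0 < dv h i := one_sub_tanh_sq_pos _

theorem dv_le (h : Vec n) (i : Fin n) : dv h i ≤ 1 := one_sub_tanh_sq_le _

theorem abs_dv_le (h : Vec n) (i : Fin n) : |dv h i| ≤ 1 := by
  rw [abs_of_pos (dv_pos h i)]; exact dv_le h i

theorem dv_eq (h : Vec n) (i : Fin n) : dv h i = 1 - tm h i ^ 2 := rfl

theorem tanh_step (a η : ℝ) (hη : |η| ≤ 1) :
    |Real.tanh (a + η) - Real.tanh a - (1 - Real.tanh a ^ 2) * (η - Real.tanh a * η ^ 2)|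
      ≤ 6 * |η| ^ 3 := by
  have hm : |Real.tanh a| < 1 := abs_lt.2 ⟨Real.neg_one_lt_tanh _, Real.tanh_lt_one _⟩
  obtain ⟨ρ, h1, h2⟩ := tanh_taylor hm hη
  rw [Real.artanh_tanh] at h2
  have e : Real.tanh (a + η) - Real.tanh a - (1 - Real.tanh a ^ 2) * (η - Real.tanh a * η ^ 2)
      = (1 - Real.tanh a ^ 2) * ρ := by rw [h2]; ring
  rw [e, abs_mul, abs_of_pos (one_sub_tanh_sq_pos a)]
  calc (1 - Real.tanh a ^ 2) * |ρ| ≤ 1 * (6 * |η| ^ 3) :=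
        mul_le_mul (one_sub_tanh_sq_le a) h1 (abs_nonneg _) zero_le_one
    _ = _ := one_mul _

/-- the quadratic source as a function of `ξ = Γ a` -/
noncomputable def SS (J : Mat n) (h : Vec n) (z : ℝ) (ξ : Vec n) : Vec n := fun i =>
  tm h i * ξ i ^ 2
    + (cc J h z / 2 * F.sq (diagonal (dv h) *ᵥ ξ) + c3 J h z * ip (tm h) (diagonal (dv h) *ᵥ ξ) ^ 2)
      * tm h i
    + cc J h z * ip (tm h) (diagonal (dv h) *ᵥ ξ) * (diagonal (dv h) *ᵥ ξ) i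

theorem bq_eq (J : Mat n) (h : Vec n) (z : ℝ) (a : Vec n) :
    bq J h z a = SS J h z (Gam J h z *ᵥ a) := by
  funext i
  simp only [bq, SS, Gm, Matrix.mulVec_mulVec]

theorem Lm_mulVec (J : Mat n) (h : Vec n) (z : ℝ) (ξ : Vec n) :
    Lm J h z *ᵥ ξ = ξ + (Nm J z - (wb h)⁻¹ • (1 : Mat n)) *ᵥ (diagonal (dv h) *ᵥ ξ)
      + (cc J h z * ip (tm h) (diagonal (dv h) *ᵥ ξ)) • tm h := by
  rw [Lm, Matrix.add_mulVec, Matrix.one_mulVec, ← Matrix.mulVec_mulVec, Bm, Matrix.add_mulVec,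
    Matrix.smul_mulVec, vecMulVec_mulVec, smul_smul, add_assoc]

theorem sq_sub_sq_eq (u w : Vec n) : F.sq u - F.sq w = ip (u - w) (u + w) := by
  simp only [F.sq, ip, ← Finset.sum_sub_distrib, Pi.sub_apply, Pi.add_apply]
  exact Finset.sum_congr rfl fun i _ => by ring

theorem resolvent3 {N E : Mat n} (hN : IsUnit N.det) (hN' : IsUnit (N + E).det) :
    (N + E)⁻¹ = N⁻¹ - N⁻¹ * E * N⁻¹ + N⁻¹ * E * N⁻¹ * E * N⁻¹
      - N⁻¹ * E * N⁻¹ * E * N⁻¹ * E * (N + E)⁻¹ := by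
  have h1 : (N + E)⁻¹ = N⁻¹ - N⁻¹ * E * (N + E)⁻¹ := by
    have a := Matrix.nonsing_inv_mul N hN
    have b := Matrix.mul_nonsing_inv (N + E) hN'
    calc (N + E)⁻¹ = N⁻¹ * N * (N + E)⁻¹ := by rw [a, Matrix.one_mul]
      _ = N⁻¹ * ((N + E) * (N + E)⁻¹) - N⁻¹ * E * (N + E)⁻¹ := by noncomm_ring
      _ = _ := by rw [b, Matrix.mul_one]
  set G := N⁻¹
  set G' := (N + E)⁻¹
  calc G' = G - G * E * G' := h1
    _ = G - G * E * (G - G * E * G') := congrArg (fun A => G - G * E * A) h1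
    _ = G - G * E * (G - G * E * (G - G * E * G')) :=
      congrArg (fun A => G - G * E * (G - G * E * A)) h1
    _ = _ := by noncomm_ring

theorem inv_expand {w w' α : ℝ} (hw : w ≠ 0) (hw' : w' ≠ 0) (h : w' = w - α) :
    w'⁻¹ - w⁻¹ = α * w⁻¹ ^ 2 + α ^ 2 * w⁻¹ ^ 3 + α ^ 3 * w⁻¹ ^ 3 * w'⁻¹ := by
  have : α = w - w' := by linarith
  subst this
  field_simp
  ring

theorem Loc.wb_pos {K : ℝ} {J : Mat n} {h : Vec n} {z : ℝ} (L : Loc K J h z) : 0 < wb h := by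
  by_contra hc
  have := mul_nonpos_of_nonneg_of_nonpos (by linarith [L.hK] : 0 ≤ K) (not_lt.1 hc)
  linarith [L.bw]

theorem Loc.T2_pos {K : ℝ} {J : Mat n} {h : Vec n} {z : ℝ} (L : Loc K J h z) : 0 < T2 J z := by
  by_contra hc
  have := mul_nonpos_of_nonneg_of_nonpos (by linarith [L.hK] : 0 ≤ K) (not_lt.1 hc)
  linarith [L.bT]

end basic

/-- point data over a frame -/
structure PD {X : Type} (F : Frame X) where
  J : ∀ x, Mat (F.n x)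
  h : ∀ x, Vec (F.n x)
  z : X → ℝ
  loc : ∀ x, Loc (F.K x) (J x) (h x) (z x)

namespace PD

variable {X : Type} {F : Frame X} (P : PD F)

open Frame

theorem m0 : F.V 0 (fun x => tm (P.h x)) := V.of_one fun x i => abs_tm_le _ i
theorem d0 : F.V 0 (fun x => dv (P.h x)) := V.of_one fun x i => abs_dv_le _ i
theorem D0 : F.M 0 (fun x => diagonal (dv (P.h x))) := M.diagonal P.d0
theorem wi0 : F.O 0 (fun x => (wb (P.h x))⁻¹) := O.inv_of fun x => (P.loc x).bw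
theorem Ti0 : F.O 0 (fun x => (T2 (P.J x) (P.z x))⁻¹) := O.inv_of fun x => (P.loc x).bT
include P in
theorem ni0 : F.O 0 (fun x => ((F.n x : ℝ))⁻¹) := O.inv_of fun x => by
  have h1 : (1 : ℝ) ≤ F.n x := by exact_mod_cast (P.loc x).npos
  nlinarith [F.hK x]
theorem N0 : F.M 0 (fun x => Nm (P.J x) (P.z x)) := M.of_K fun x => (P.loc x).bN
theorem G00 : F.M 0 (fun x => G0 (P.J x) (P.z x)) := M.of_K fun x => (P.loc x).bG0
theorem Gam0 : F.M 0 (fun x => Gam (P.J x) (P.h x) (P.z x)) := M.of_K fun x => (P.loc x).bGam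
theorem Gm0 : F.M 0 (fun x => Gm (P.J x) (P.h x) (P.z x)) := P.D0.mul P.Gam0
theorem T20 : F.O 0 (fun x => T2 (P.J x) (P.z x)) := (P.G00.mul P.G00).trace
theorem T30 : F.O 0 (fun x => T3 (P.J x) (P.z x)) := ((P.G00.mul P.G00).mul P.G00).trace
theorem cc_eq (x : X) : cc (P.J x) (P.h x) (P.z x)
    = 2 * (T2 (P.J x) (P.z x))⁻¹ - 2 * (((F.n x : ℝ))⁻¹ * (wb (P.h x))⁻¹ ^ 2) := by
  simp only [cc, div_eq_mul_inv, mul_inv, inv_pow]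
theorem c3_eq (x : X) : c3 (P.J x) (P.h x) (P.z x)
    = 4 * (T3 (P.J x) (P.z x) * (T2 (P.J x) (P.z x))⁻¹ ^ 3
      - ((F.n x : ℝ))⁻¹ ^ 2 * (wb (P.h x))⁻¹ ^ 3) := by
  simp only [c3, div_eq_mul_inv, mul_inv, inv_pow, one_mul]
theorem cc0 : F.O 0 (fun x => cc (P.J x) (P.h x) (P.z x)) :=
  ((P.Ti0.cmul 2).sub ((P.ni0.mul (P.wi0.pow0 2)).cmul 2)).congr P.cc_eq
theorem c30 : F.O 0 (fun x => c3 (P.J x) (P.h x) (P.z x)) :=
  (((P.T30.mul (P.Ti0.pow0 3)).sub ((P.ni0.pow0 2).mul (P.wi0.pow0 3))).cmul 4).congr P.c3_eq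
theorem NG0 : F.M 0 (fun x => Nm (P.J x) (P.z x) - (wb (P.h x))⁻¹ • (1 : Mat (F.n x))) :=
  P.N0.sub (M.smul P.wi0 M.one)

theorem SS_ord {j : ℕ} {ξ : ∀ x, Vec (F.n x)} (hξ : F.V j ξ) :
    F.V (j + j) (fun x => SS (P.J x) (P.h x) (P.z x) (ξ x)) := by
  have u := P.D0.zmulVec hξ
  have p := P.m0.zip u
  have a1 := P.m0.zmul (hξ.mul hξ)
  have a2 := V.smul (((P.cc0.cmul (1 / 2)).zmul u.sq).add (P.c30.zmul p.sq)) P.m0
  have a3 := V.smul (P.cc0.zmul p) u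
  refine ((a1.add a2).add a3).congr fun x i => ?_
  simp only [SS, Pi.add_apply, Pi.smul_apply, smul_eq_mul]
  ring

theorem SS_diff {j k : ℕ} {ξ η : ∀ x, Vec (F.n x)} (hξ : F.V j ξ) (hη : F.V j η)
    (hd : F.V k (fun x => ξ x - η x)) :
    F.V (k + j) (fun x => SS (P.J x) (P.h x) (P.z x) (ξ x) - SS (P.J x) (P.h x) (P.z x) (η x)) := by
  have u := P.D0.zmulVec hξ
  have w := P.D0.zmulVec hη
  have e := P.D0.zmulVec hd
  have pe := P.m0.zip e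
  have pw := P.m0.zip w
  have puw := P.m0.zip (u.add w)
  have a1 := P.m0.zmul (hd.mul (hξ.add hη))
  have a2 := V.smul (((P.cc0.cmul (1 / 2)).zmul (e.ip (u.add w))).add (P.c30.zmul (pe.mul puw))) P.m0
  have a3 := V.smul (P.cc0.zmul pe) u
  have a4 := (V.smul (P.cc0.zmul pw) e).mono (Nat.le_of_eq (Nat.add_comm k j))
  refine (((a1.add a2).add a3).add a4).congr fun x i => ?_
  have e1 := sq_sub_sq_eq (diagonal (dv (P.h x)) *ᵥ ξ x) (diagonal (dv (P.h x)) *ᵥ η x)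
  simp only [SS, Pi.add_apply, Pi.sub_apply, Pi.smul_apply, smul_eq_mul, Matrix.mulVec_sub,
    ip_sub_right, ip_add_right] at e1 ⊢
  rw [← e1]
  ring

end PD

/-- context of one step -/
structure Ctx where
  n : ℕ
  K : ℝ
  t : ℝ
  J : Mat n
  Δ : Mat n
  y : Vec n
  y' : Vec n
  h : Vec n
  h' : Vec n
  z : ℝ
  z' : ℝ
  L : Loc K J h z
  L' : Loc K (J - Δ) h' z'
  t0 : 0 ≤ t
  t1 : t ≤ 1
  dh : ∀ i, |h' i - h i| ≤ t
  dz : |z' - z| ≤ t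
  da : ∀ i, |(y' - y - Δ *ᵥ tm h) i| ≤ t
  dΔ : MB Δ (t ^ 2)
  r1 : ∀ i, |res1 J y h z i| ≤ t ^ 3
  r2 : |res2 J h z| ≤ t ^ 3
  r1' : ∀ i, |res1 (J - Δ) y' h' z' i| ≤ t ^ 3
  r2' : |res2 (J - Δ) h' z'| ≤ t ^ 3

namespace Ctx

open Frame

/-- the frame of step contexts -/
abbrev FF : Frame Ctx where
  K := Ctx.K
  t := Ctx.t
  n := Ctx.n
  hK x := x.L.hK
  hn x := x.L.hn
  ht0 := Ctx.t0
  ht1 := Ctx.t1

/-- start point -/
def P0 : PD FF := ⟨fun x => x.J, fun x => x.h, fun x => x.z, fun x => x.L⟩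
/-- end point -/
def P1 : PD FF := ⟨fun x => x.J - x.Δ, fun x => x.h', fun x => x.z', fun x => x.L'⟩

noncomputable def δ (x : Ctx) : Vec x.n := x.h' - x.h
noncomputable def dm (x : Ctx) : Vec x.n := tm x.h' - tm x.h
noncomputable def ξ (x : Ctx) : Vec x.n := fun i => x.δ i - tm x.h i * x.δ i ^ 2
noncomputable def u (x : Ctx) : Vec x.n := diagonal (dv x.h) *ᵥ x.ξ
noncomputable def p (x : Ctx) : ℝ := ip (tm x.h) x.u
noncomputable def a (x : Ctx) : ℝ := ∑ i, dv x.h i - ∑ i, dv x.h' i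
noncomputable def τ (x : Ctx) : ℝ := x.z' - x.z
noncomputable def q2 (x : Ctx) : ℝ := (G0 x.J x.z * x.Δ * G0 x.J x.z).trace
noncomputable def σ (x : Ctx) : ℝ := x.τ - ((wb x.h')⁻¹ - (wb x.h)⁻¹)
noncomputable def av (x : Ctx) : Vec x.n := x.y' - x.y - x.Δ *ᵥ tm x.h

theorem hδ : FF.V 1 δ := V.of_t fun x i => by
  rw [pow_one]; exact x.dh i
theorem hτ : FF.O 1 τ := O.of_t fun x => by
  rw [pow_one]; exact x.dz
theorem hav : FF.V 1 av := V.of_t fun x i => by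
  rw [pow_one]; exact x.da i
theorem hΔ : FF.M 2 (fun x => x.Δ) := M.of_t fun x => x.dΔ
theorem hm : FF.V 0 (fun x => tm x.h) := P0.m0
theorem hδξ : FF.V 2 (fun x => x.δ - x.ξ) :=
  (hm.zmul (hδ.mul hδ)).congr fun x i => by
    simp only [ξ, Pi.sub_apply]; ring
theorem hξ : FF.V 1 ξ := (hδ.sub (hδξ.mono (by norm_num))).congr' fun x => by
  simp
theorem hu : FF.V 1 u := P0.D0.zmulVec hξ
theorem hp : FF.O 1 p := hm.zip hu

theorem hρ1 : FF.V 3 (fun x => x.dm - x.u) := by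
  refine V.of_bd (q := 3) fun x i => ?_
  have h1 : |x.δ i| ≤ x.t := x.dh i
  have h2 := tanh_step (x.h i) (x.δ i) (h1.trans x.t1)
  have e : (x.dm - x.u) i = Real.tanh (x.h i + x.δ i) - Real.tanh (x.h i)
      - (1 - Real.tanh (x.h i) ^ 2) * (x.δ i - Real.tanh (x.h i) * x.δ i ^ 2) := by
    simp only [dm, u, ξ, δ, tm, dv, Pi.sub_apply, Matrix.mulVec_diagonal, add_sub_cancel]
  rw [e]
  refine h2.trans ?_
  have h3 : |x.δ i| ^ 3 ≤ x.t ^ 3 := pow_le_pow_left₀ (abs_nonneg _) h1 3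
  have h4 : (6 : ℝ) ≤ x.K ^ 3 := by
    have := pow_le_pow_left₀ (by norm_num : (0 : ℝ) ≤ 2) x.L.hK 3
    linarith
  exact mul_le_mul h4 h3 (by positivity) (le_trans (by norm_num) h4)

theorem hdm : FF.V 1 dm := (hu.add (hρ1.mono (by norm_num))).congr' fun x => by
  simp

theorem a_eq (x : Ctx) : x.a = 2 * ip (tm x.h) x.dm + F.sq x.dm := by
  simp only [a, ip, F.sq, dm, dv_eq, Pi.sub_apply, Finset.mul_sum, ← Finset.sum_sub_distrib,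
    ← Finset.sum_add_distrib]
  exact Finset.sum_congr rfl fun i _ => by ring

theorem ha3 : FF.O 3 (fun x => x.a - (2 * x.p + F.sq x.u)) := by
  have a1 := (hm.zip hρ1).cmul 2
  have a2 := (hρ1.ip (hdm.add hu)).mono (by norm_num : 3 ≤ 3 + 1)
  refine (a1.add a2).congr fun x => ?_
  have e := sq_sub_sq_eq x.dm x.u
  rw [a_eq, ← e, ip_sub_right, p]
  ring

theorem ha2 : FF.O 2 (fun x => x.a - 2 * x.p) :=
  ((ha3.mono (by norm_num)).add hu.sq).congr fun x => by ring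

theorem ha : FF.O 1 a := ((ha2.mono (by norm_num)).add (hp.cmul 2)).congr fun x => by ring

theorem hq2 : FF.O 2 q2 := ((P0.G00.zmul hΔ).mul P0.G00).trace

/-- expansion of `1 / w` -/
theorem hγ : FF.O 3 (fun x => (wb x.h')⁻¹ - (wb x.h)⁻¹
    - ((x.n : ℝ)⁻¹ * (wb x.h)⁻¹ ^ 2 * (2 * x.p + F.sq x.u)
      + (x.n : ℝ)⁻¹ ^ 2 * (wb x.h)⁻¹ ^ 3 * (4 * x.p ^ 2))) := by
  have a1 := (P0.ni0.mul (P0.wi0.pow0 2)).zmul ha3
  have a2 := ((P0.ni0.pow0 2).mul (P0.wi0.pow0 3)).zmul (ha2.mul (ha.add (hp.cmul 2)))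
  have a3 := (((P0.ni0.pow0 3).mul (P0.wi0.pow0 3)).mul P1.wi0).zmul ((ha.mul ha).mul ha)
  refine ((a1.add a2).add a3).congr fun x => ?_
  have hn : (x.n : ℝ) ≠ 0 := by exact_mod_cast x.L.npos.ne'
  have e : wb x.h' = wb x.h - (x.n : ℝ)⁻¹ * x.a := by
    simp only [wb, a]; field_simp; ring
  have := inv_expand x.L.wb_pos.ne' x.L'.wb_pos.ne' e
  change (wb x.h')⁻¹ - (wb x.h)⁻¹ - _ = (x.n : ℝ)⁻¹ * (wb x.h)⁻¹ ^ 2 * (x.a - (2 * x.p + F.sq x.u))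
    + (x.n : ℝ)⁻¹ ^ 2 * (wb x.h)⁻¹ ^ 3 * ((x.a - 2 * x.p) * (x.a + 2 * x.p))
    + (x.n : ℝ)⁻¹ ^ 3 * (wb x.h)⁻¹ ^ 3 * (wb x.h')⁻¹ * (x.a * x.a * x.a)
  rw [this]
  ring

noncomputable def E (x : Ctx) : Mat x.n := x.τ • (1 : Mat x.n) + x.Δ

theorem hE : FF.M 1 E := (M.smul hτ M.one).add (hΔ.mono (by norm_num))

theorem Nm'_eq (x : Ctx) : Nm (x.J - x.Δ) x.z' = Nm x.J x.z + x.E := by
  simp only [Nm, E, τ, sub_smul]; abel

/-- the trace equation -/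
theorem hτ3 : FF.O 3 (fun x => x.τ * T2 x.J x.z - (x.a - x.q2 + x.τ ^ 2 * T3 x.J x.z)) := by
  have G := P0.G00
  have G' := P1.G00
  have r2 : FF.O 3 (fun x => res2 x.J x.h x.z) := O.of_t fun x => x.r2
  have r2' : FF.O 3 (fun x => res2 (x.J - x.Δ) x.h' x.z') := O.of_t fun x => x.r2'
  have a1 := ((((G.zmul hΔ).mul G).mul hE).mul G).trace
  have a2 := hτ.mul ((((G.mul G).zmul hΔ).mul G).trace)
  have a3 := ((((((G.zmul hE).mul G).mul hE).mul G).mul hE).mul G').trace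
  refine ((((r2.sub r2').add a1).add a2).sub a3).congr fun x => ?_
  have hN' : IsUnit (Nm x.J x.z + x.E).det := by rw [← Nm'_eq]; exact x.L'.uN
  have h3 := congrArg Matrix.trace (resolvent3 x.L.uN hN')
  rw [← Nm'_eq] at h3
  change (G0 (x.J - x.Δ) x.z').trace = (G0 x.J x.z - G0 x.J x.z * x.E * G0 x.J x.z
    + G0 x.J x.z * x.E * G0 x.J x.z * x.E * G0 x.J x.z
    - G0 x.J x.z * x.E * G0 x.J x.z * x.E * G0 x.J x.z * x.E * G0 (x.J - x.Δ) x.z').trace at h3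
  change x.τ * T2 x.J x.z - (x.a - x.q2 + x.τ ^ 2 * T3 x.J x.z)
    = res2 x.J x.h x.z - res2 (x.J - x.Δ) x.h' x.z'
      + (G0 x.J x.z * x.Δ * G0 x.J x.z * x.E * G0 x.J x.z).trace
      + x.τ * (G0 x.J x.z * G0 x.J x.z * x.Δ * G0 x.J x.z).trace
      - (G0 x.J x.z * x.E * G0 x.J x.z * x.E * G0 x.J x.z * x.E * G0 (x.J - x.Δ) x.z').trace
  set G := G0 x.J x.z
  have e1 : (G * x.E * G).trace = x.τ * (G * G).trace + (G * x.Δ * G).trace := by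
    simp only [E, Matrix.mul_add, Matrix.add_mul, Matrix.mul_smul, Matrix.smul_mul,
      Matrix.mul_one, Matrix.trace_add, Matrix.trace_smul, smul_eq_mul]
  have e2 : (G * x.E * G * x.E * G).trace = x.τ ^ 2 * (G * G * G).trace
      + (G * x.Δ * G * x.E * G).trace + x.τ * (G * G * x.Δ * G).trace := by
    simp only [E, Matrix.mul_add, Matrix.add_mul, Matrix.mul_smul, Matrix.smul_mul,
      Matrix.mul_one, Matrix.trace_add, Matrix.trace_smul, smul_eq_mul]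
    ring
  rw [Matrix.trace_sub, Matrix.trace_add, Matrix.trace_sub, e1, e2] at h3
  simp only [res2, T2, T3, q2, a]
  linarith

theorem τ_eq (x : Ctx) : x.τ = (T2 x.J x.z)⁻¹ * (x.τ * T2 x.J x.z) := by
  have := x.L.T2_pos.ne'
  field_simp

theorem hτ2 : FF.O 2 (fun x => x.τ - (T2 x.J x.z)⁻¹ * (2 * x.p)) := by
  have a1 := P0.Ti0.zmul ((((hτ3.mono (by norm_num : 2 ≤ 3)).add ha2).sub hq2).add
    (hτ.sq.mulz P0.T30))
  refine a1.congr fun x => ?_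
  change x.τ - (T2 x.J x.z)⁻¹ * (2 * x.p) = (T2 x.J x.z)⁻¹
    * (x.τ * T2 x.J x.z - (x.a - x.q2 + x.τ ^ 2 * T3 x.J x.z) + (x.a - 2 * x.p) - x.q2
      + x.τ ^ 2 * T3 x.J x.z)
  have := x.τ_eq
  linear_combination this

theorem hσ3 : FF.O 3 (fun x => x.σ - (cc x.J x.h x.z * x.p + cc x.J x.h x.z / 2 * F.sq x.u
    + c3 x.J x.h x.z * x.p ^ 2 - x.q2 / T2 x.J x.z)) := by
  have a1 := P0.Ti0.zmul (hτ3.add ha3)
  have a2 := (P0.Ti0.mul P0.T30).zmul (hτ2.mul (hτ.add (P0.Ti0.zmul (hp.cmul 2))))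
  refine ((a1.add a2).sub hγ).congr fun x => ?_
  have e1 := P0.cc_eq x
  have e2 := P0.c3_eq x
  change cc x.J x.h x.z = 2 * (T2 x.J x.z)⁻¹ - 2 * ((x.n : ℝ)⁻¹ * (wb x.h)⁻¹ ^ 2) at e1
  change c3 x.J x.h x.z = 4 * (T3 x.J x.z * (T2 x.J x.z)⁻¹ ^ 3
    - (x.n : ℝ)⁻¹ ^ 2 * (wb x.h)⁻¹ ^ 3) at e2
  change x.σ - _ = (T2 x.J x.z)⁻¹ * (x.τ * T2 x.J x.z - (x.a - x.q2 + x.τ ^ 2 * T3 x.J x.z)
      + (x.a - (2 * x.p + F.sq x.u)))
    + (T2 x.J x.z)⁻¹ * T3 x.J x.z * ((x.τ - (T2 x.J x.z)⁻¹ * (2 * x.p))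
      * (x.τ + (T2 x.J x.z)⁻¹ * (2 * x.p)))
    - ((wb x.h')⁻¹ - (wb x.h)⁻¹ - ((x.n : ℝ)⁻¹ * (wb x.h)⁻¹ ^ 2 * (2 * x.p + F.sq x.u)
      + (x.n : ℝ)⁻¹ ^ 2 * (wb x.h)⁻¹ ^ 3 * (4 * x.p ^ 2)))
  have e3 := x.τ_eq
  rw [e1, e2, σ, div_eq_mul_inv x.q2]
  linear_combination e3

theorem hσ2 : FF.O 2 (fun x => x.σ - cc x.J x.h x.z * x.p) := by
  have a1 := (((hσ3.mono (by norm_num : 2 ≤ 3)).add ((P0.cc0.cmul (1 / 2)).zmul hu.sq)).add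
    (P0.c30.zmul hp.sq)).sub (hq2.mulz P0.Ti0)
  refine a1.congr fun x => ?_
  change _ = x.σ - _ + 1 / 2 * cc x.J x.h x.z * F.sq x.u + c3 x.J x.h x.z * x.p ^ 2
    - x.q2 * (T2 x.J x.z)⁻¹
  rw [div_eq_mul_inv x.q2]
  ring

theorem res_diff (x : Ctx) : res1 (x.J - x.Δ) x.y' x.h' x.z' - res1 x.J x.y x.h x.z
    = x.δ + (Nm x.J x.z - (wb x.h)⁻¹ • (1 : Mat x.n)) *ᵥ x.dm + x.σ • (tm x.h + x.dm)
      + x.Δ *ᵥ x.dm - x.av := by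
  have e : tm x.h' = tm x.h + x.dm := by simp [dm]
  simp only [res1, Nm'_eq, E, e, δ, av, σ, Matrix.add_mulVec, Matrix.sub_mulVec,
    Matrix.mulVec_add, Matrix.smul_mulVec, Matrix.one_mulVec]
  module

/-- the linearised equation -/
theorem he3 : FF.V 3 (fun x => Lm x.J x.h x.z *ᵥ x.ξ + SS x.J x.h x.z x.ξ
    - (x.q2 / T2 x.J x.z) • tm x.h - x.av) := by
  have r1 : FF.V 3 (fun x => res1 x.J x.y x.h x.z) := V.of_t fun x => x.r1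
  have r1' : FF.V 3 (fun x => res1 (x.J - x.Δ) x.y' x.h' x.z') := V.of_t fun x => x.r1'
  have a1 := hm.zmul (hδξ.mul (hδ.add hξ))
  have a2 := P0.NG0.zmulVec hρ1
  have a3 := V.smul hσ3 hm
  have a4 := V.smul hσ2 hdm
  have a5 := (V.smul (P0.cc0.zmul hp) hρ1).mono (by norm_num : 3 ≤ 1 + 3)
  have a6 := hΔ.mulVec hdm
  refine (((((((r1'.sub r1).sub a1).sub a2).sub a3).sub a4).sub a5).sub a6).congr fun x i => ?_
  have e := congrFun x.res_diff i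
  have e0 : x.δ i = x.ξ i + tm x.h i * x.δ i ^ 2 := by simp [ξ]
  change (Lm x.J x.h x.z *ᵥ x.ξ + SS x.J x.h x.z x.ξ - (x.q2 / T2 x.J x.z) • tm x.h - x.av) i
    = (res1 (x.J - x.Δ) x.y' x.h' x.z' - res1 x.J x.y x.h x.z) i
      - tm x.h i * ((x.δ - x.ξ) i * (x.δ + x.ξ) i)
      - ((Nm x.J x.z - (wb x.h)⁻¹ • (1 : Mat x.n)) *ᵥ (x.dm - x.u)) i
      - (x.σ - (cc x.J x.h x.z * x.p + cc x.J x.h x.z / 2 * F.sq x.u
        + c3 x.J x.h x.z * x.p ^ 2 - x.q2 / T2 x.J x.z)) * tm x.h i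
      - (x.σ - cc x.J x.h x.z * x.p) * x.dm i
      - cc x.J x.h x.z * x.p * (x.dm - x.u) i
      - (x.Δ *ᵥ x.dm) i
  rw [e, Lm_mulVec, Matrix.mulVec_sub]
  simp only [SS, Pi.add_apply, Pi.sub_apply, Pi.smul_apply, smul_eq_mul]
  change _ + (_ *ᵥ x.u) i + _ * x.p * _ + (_ + (_ * F.sq x.u + _ * x.p ^ 2) * _
    + _ * x.p * x.u i) - _ - _ = _
  linear_combination (-1 : ℝ) * e0

theorem ξ_eq (x : Ctx) : x.ξ = Gam x.J x.h x.z *ᵥ (Lm x.J x.h x.z *ᵥ x.ξ) := by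
  rw [Matrix.mulVec_mulVec, Gam, Matrix.nonsing_inv_mul _ x.L.uL, Matrix.one_mulVec]

theorem hξ2 : FF.V 2 (fun x => x.ξ - Gam x.J x.h x.z *ᵥ x.av) := by
  have a1 := P0.Gam0.zmulVec (((he3.mono (by norm_num : 2 ≤ 3)).sub (P0.SS_ord hξ)).add
    (V.smul (hq2.mulz P0.Ti0) hm))
  refine a1.congr' fun x => ?_
  change _ = Gam x.J x.h x.z *ᵥ (Lm x.J x.h x.z *ᵥ x.ξ + SS x.J x.h x.z x.ξ
    - (x.q2 / T2 x.J x.z) • tm x.h - x.av - SS x.J x.h x.z x.ξ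
    + (x.q2 * (T2 x.J x.z)⁻¹) • tm x.h)
  rw [div_eq_mul_inv]
  have : Lm x.J x.h x.z *ᵥ x.ξ + SS x.J x.h x.z x.ξ
    - (x.q2 * (T2 x.J x.z)⁻¹) • tm x.h - x.av - SS x.J x.h x.z x.ξ
    + (x.q2 * (T2 x.J x.z)⁻¹) • tm x.h = Lm x.J x.h x.z *ᵥ x.ξ - x.av := by abel
  rw [this, Matrix.mulVec_sub, ← ξ_eq]

theorem main : FF.V 3 (fun x => tm x.h' - tm x.h - Gm x.J x.h x.z *ᵥ (x.av - bq x.J x.h x.z x.av
    + (x.q2 / T2 x.J x.z) • tm x.h)) := by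
  have s := P0.SS_diff hξ (P0.Gam0.zmulVec hav) hξ2
  have a1 := hρ1.add (P0.Gm0.zmulVec (he3.sub s))
  refine a1.congr' fun x => ?_
  change _ = x.dm - x.u + Gm x.J x.h x.z *ᵥ (Lm x.J x.h x.z *ᵥ x.ξ + SS x.J x.h x.z x.ξ
    - (x.q2 / T2 x.J x.z) • tm x.h - x.av
    - (SS x.J x.h x.z x.ξ - SS x.J x.h x.z (Gam x.J x.h x.z *ᵥ x.av)))
  have e : x.u = Gm x.J x.h x.z *ᵥ (Lm x.J x.h x.z *ᵥ x.ξ) := by
    rw [Gm, ← Matrix.mulVec_mulVec, ← ξ_eq, u]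
  rw [e, bq_eq, dm]
  simp only [Matrix.mulVec_add, Matrix.mulVec_sub]
  abel

end Ctx

theorem stepStmt : StepStmt := by
  obtain ⟨p, hp⟩ := Ctx.main.out
  refine ⟨p, fun n K t J Δ y y' h h' z z' L L' t0 t1 dh dz da dΔ r1 r2 r1' r2' i => ?_⟩
  exact hp ⟨n, K, t, J, Δ, y, y', h, h', z, z', L, L', t0, t1, dh, dz, da, dΔ, r1, r2, r1', r2'⟩ i

theorem SS_smul {n : ℕ} (J : Mat n) (h : Vec n) (z c : ℝ) (ξ : Vec n) :
    SS J h z (c • ξ) = c ^ 2 • SS J h z ξ := by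
  funext i
  have e : F.sq (c • (diagonal (dv h) *ᵥ ξ)) = c ^ 2 * F.sq (diagonal (dv h) *ᵥ ξ) := by
    rw [← ipN_self, ← ipN_self, ip_smul_left, ip_smul_right]; ring
  simp only [SS, Matrix.mulVec_smul, e, ip_smul_right, Pi.smul_apply, smul_eq_mul]
  ring

theorem bq_smul {n : ℕ} (J : Mat n) (h : Vec n) (z c : ℝ) (a : Vec n) :
    bq J h z (c • a) = c ^ 2 • bq J h z a := by
  rw [bq_eq, bq_eq, Matrix.mulVec_smul, SS_smul]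

theorem abs_mulVec_le {n m : ℕ} {A : Matrix (Fin n) (Fin m) ℝ} {v : Fin m → ℝ} {a b : ℝ}
    (hA : MB A a) (hv : ∀ j, |v j| ≤ b) (i : Fin n) : |(A *ᵥ v) i| ≤ m * (a * b) := by
  calc |(A *ᵥ v) i| = |∑ j, A i j * v j| := rfl
    _ ≤ ∑ j, |A i j * v j| := Finset.abs_sum_le_sum_abs _ _
    _ ≤ ∑ _j : Fin m, a * b := Finset.sum_le_sum fun j _ => by
        rw [abs_mul]
        exact mul_le_mul (hA i j) (hv j) (abs_nonneg _) ((abs_nonneg _).trans (hA i j))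
    _ = m * (a * b) := by simp

theorem MB_mul_transpose {n m : ℕ} {R : Matrix (Fin n) (Fin m) ℝ} {a : ℝ} (hR : MB R a) :
    MB (R * Rᵀ) (m * (a * a)) := fun i j => abs_mulVec_le (v := fun l => R j l) hR (hR j) i

/-- context of one channel step -/
structure CCtx where
  n : ℕ
  m : ℕ
  K : ℝ
  δ : ℝ
  J : Mat n
  R : Matrix (Fin n) (Fin m) ℝ
  x : Vec n
  y : Vec n
  h : Vec n
  h' : Vec n
  g : Fin m → ℝ
  z : ℝ
  z' : ℝ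
  L : Loc K J h z
  L' : Loc K (J - δ • (R * Rᵀ)) h' z'
  d0 : 0 ≤ δ
  d1 : K ^ 8 * δ ≤ 1
  hm : (m : ℝ) ≤ K
  hR : MB R K
  hx : ∀ i, |x i| ≤ 1
  hg : ∀ j, |g j| ≤ K
  dh : ∀ i, |h' i - h i| ≤ K ^ 4 * √δ
  dz : |z' - z| ≤ K ^ 4 * √δ
  r1 : ∀ i, |res1 J y h z i| ≤ δ ^ 2
  r2 : |res2 J h z| ≤ δ ^ 2
  r1' : ∀ i, |res1 (J - δ • (R * Rᵀ)) (y + δ • ((R * Rᵀ) *ᵥ x) + √δ • (R *ᵥ g)) h' z' i| ≤ δ ^ 2
  r2' : |res2 (J - δ • (R * Rᵀ)) h' z'| ≤ δ ^ 2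

namespace CCtx

open Frame

theorem K1 (c : CCtx) : 1 ≤ c.K := by linarith [c.L.hK]

theorem t4 (c : CCtx) : c.K ^ 4 * √c.δ ≤ 1 := by
  have h0 : 0 ≤ c.K ^ 4 * √c.δ := mul_nonneg (pow_nonneg (by linarith [c.K1]) _) (Real.sqrt_nonneg _)
  have h1 : (c.K ^ 4 * √c.δ) ^ 2 ≤ 1 := by
    rw [mul_pow, Real.sq_sqrt c.d0, ← pow_mul]; exact c.d1
  nlinarith

theorem t1 (c : CCtx) : √c.δ ≤ 1 := by
  have h1 : 1 ≤ c.K ^ 4 := one_le_pow₀ c.K1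
  have := c.t4
  nlinarith [Real.sqrt_nonneg c.δ]

/-- the frame of channel contexts -/
noncomputable abbrev FF : Frame CCtx where
  K := CCtx.K
  t := fun c => √c.δ
  n := CCtx.n
  hK c := c.L.hK
  hn c := c.L.hn
  ht0 := fun c => Real.sqrt_nonneg _
  ht1 := CCtx.t1

/-- start point -/
def P0 : PD FF := ⟨fun c => c.J, fun c => c.h, fun c => c.z, fun c => c.L⟩

theorem Q3 (c : CCtx) : MB (c.R * c.Rᵀ) (c.K ^ 3) := fun i j =>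
  (MB_mul_transpose c.hR i j).trans (by
    have := c.hm
    have := c.K1
    calc (c.m : ℝ) * (c.K * c.K) ≤ c.K * (c.K * c.K) := by gcongr
      _ = c.K ^ 3 := by ring)

theorem Rg3 (c : CCtx) (i : Fin c.n) : |(c.R *ᵥ c.g) i| ≤ c.K ^ 3 :=
  (abs_mulVec_le c.hR c.hg i).trans (by
    have := c.hm
    have := c.K1
    calc (c.m : ℝ) * (c.K * c.K) ≤ c.K * (c.K * c.K) := by gcongr
      _ = c.K ^ 3 := by ring)

theorem Qx (c : CCtx) (i : Fin c.n) : |((c.R * c.Rᵀ) *ᵥ (c.x - tm c.h)) i| ≤ 2 * c.K ^ 4 := by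
  have h1 : ∀ j, |(c.x - tm c.h) j| ≤ 2 := fun j =>
    (abs_sub _ _).trans (by linarith [c.hx j, abs_tm_le c.h j])
  refine (abs_mulVec_le c.Q3 h1 i).trans ?_
  have := c.L.hn
  have := c.K1
  calc (c.n : ℝ) * (c.K ^ 3 * 2) ≤ c.K * (c.K ^ 3 * 2) := by gcongr
    _ = 2 * c.K ^ 4 := by ring

noncomputable def av (c : CCtx) : Vec c.n :=
  c.δ • ((c.R * c.Rᵀ) *ᵥ (c.x - tm c.h)) + √c.δ • (c.R *ᵥ c.g)

theorem av_eq (c : CCtx) : c.y + c.δ • ((c.R * c.Rᵀ) *ᵥ c.x) + √c.δ • (c.R *ᵥ c.g) - c.y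
    - (c.δ • (c.R * c.Rᵀ)) *ᵥ tm c.h = c.av := by
  simp only [av, Matrix.mulVec_sub, Matrix.smul_mulVec, smul_sub]
  abel

theorem av_le (c : CCtx) (i : Fin c.n) : |c.av i| ≤ c.K ^ 4 * √c.δ := by
  have h1 := c.Qx i
  have h2 := c.Rg3 i
  have h3 := c.t4
  have h4 := Real.sqrt_nonneg c.δ
  have h5 := c.L.hK
  have h6 : c.δ = √c.δ * √c.δ := (Real.mul_self_sqrt c.d0).symm
  have e : c.av i = c.δ * ((c.R * c.Rᵀ) *ᵥ (c.x - tm c.h)) i + √c.δ * (c.R *ᵥ c.g) i := rfl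
  rw [e]
  refine (abs_add_le _ _).trans ?_
  rw [abs_mul, abs_mul, abs_of_nonneg c.d0, abs_of_nonneg h4]
  have h7 : c.δ * |((c.R * c.Rᵀ) *ᵥ (c.x - tm c.h)) i| ≤ 2 * √c.δ := by
    calc c.δ * |((c.R * c.Rᵀ) *ᵥ (c.x - tm c.h)) i| ≤ c.δ * (2 * c.K ^ 4) :=
          mul_le_mul_of_nonneg_left h1 c.d0
      _ = 2 * √c.δ * (c.K ^ 4 * √c.δ) := by
          conv_lhs => rw [h6]
          ring
      _ ≤ 2 * √c.δ * 1 := by gcongr
      _ = _ := mul_one _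
  have h8 : √c.δ * |(c.R *ᵥ c.g) i| ≤ √c.δ * c.K ^ 3 := mul_le_mul_of_nonneg_left h2 h4
  have h9 : 2 + c.K ^ 3 ≤ c.K ^ 4 := by
    have : (8 : ℝ) ≤ c.K ^ 3 := by
      have := pow_le_pow_left₀ (by norm_num : (0 : ℝ) ≤ 2) h5 3
      linarith
    nlinarith
  nlinarith

theorem δ2_le (c : CCtx) : c.δ ^ 2 ≤ (c.K ^ 4 * √c.δ) ^ 3 := by
  have h1 : 1 ≤ c.K ^ 4 := one_le_pow₀ c.K1
  have h4 := Real.sqrt_nonneg c.δ
  have h6 : c.δ = √c.δ ^ 2 := (Real.sq_sqrt c.d0).symm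
  calc c.δ ^ 2 = √c.δ ^ 3 * √c.δ := by
        conv_lhs => rw [h6]
        ring
    _ ≤ √c.δ ^ 3 * 1 := by gcongr; exact c.t1
    _ = (1 * √c.δ) ^ 3 := by ring
    _ ≤ _ := by gcongr

theorem step3 : FF.V 3 (fun c => tm c.h' - tm c.h - Gm c.J c.h c.z *ᵥ (c.av - bq c.J c.h c.z c.av
    + ((G0 c.J c.z * (c.δ • (c.R * c.Rᵀ)) * G0 c.J c.z).trace / T2 c.J c.z) • tm c.h)) := by
  obtain ⟨p, hp⟩ := stepStmt
  refine V.of_bd (q := p + 12) fun c i => ?_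
  have h0 : 0 ≤ c.K ^ 4 * √c.δ := mul_nonneg (pow_nonneg (by linarith [c.K1]) _) (Real.sqrt_nonneg _)
  have hΔ : MB (c.δ • (c.R * c.Rᵀ)) ((c.K ^ 4 * √c.δ) ^ 2) := fun i j => by
    rw [Matrix.smul_apply, smul_eq_mul, abs_mul, abs_of_nonneg c.d0, mul_pow, Real.sq_sqrt c.d0,
      mul_comm _ c.δ]
    refine mul_le_mul_of_nonneg_left ((c.Q3 i j).trans ?_) c.d0
    rw [← pow_mul]
    exact pow_le_pow_right₀ c.K1 (by norm_num)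
  have := hp c.n c.K (c.K ^ 4 * √c.δ) c.J (c.δ • (c.R * c.Rᵀ)) c.y
    (c.y + c.δ • ((c.R * c.Rᵀ) *ᵥ c.x) + √c.δ • (c.R *ᵥ c.g)) c.h c.h' c.z c.z' c.L c.L' h0 c.t4
    c.dh c.dz (fun i => by rw [av_eq]; exact c.av_le i) hΔ
    (fun i => (c.r1 i).trans c.δ2_le) (c.r2.trans c.δ2_le)
    (fun i => (c.r1' i).trans c.δ2_le) (c.r2'.trans c.δ2_le) i
  rw [av_eq] at this
  refine this.trans (le_of_eq ?_)
  change c.K ^ p * (c.K ^ 4 * √c.δ) ^ 3 = c.K ^ (p + 12) * √c.δ ^ 3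
  ring

theorem main : FF.V 3 (fun c => tm c.h' - tm c.h
    - Gm c.J c.h c.z *ᵥ (c.δ • ((c.R * c.Rᵀ) *ᵥ (c.x - tm c.h)) + √c.δ • (c.R *ᵥ c.g))
    - c.δ • ka c.J c.h c.z (c.R * c.Rᵀ)
    + c.δ • (Gm c.J c.h c.z *ᵥ (bq c.J c.h c.z (c.R *ᵥ c.g) - eb c.J c.h c.z (c.R * c.Rᵀ)))) := by
  have s1 : FF.O 1 (fun c => √c.δ) := O.of_t fun c => by
    rw [pow_one, abs_of_nonneg (Real.sqrt_nonneg _)]
  have s2 : FF.O 2 (fun c => c.δ) := O.of_t fun c => by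
    rw [abs_of_nonneg c.d0]; exact (Real.sq_sqrt c.d0).ge
  have b0 : FF.V 0 (fun c => c.R *ᵥ c.g) := V.of_bd (q := 3) fun c i => by
    rw [pow_zero, mul_one]; exact c.Rg3 i
  have x0 : FF.V 0 (fun c => (c.R * c.Rᵀ) *ᵥ (c.x - tm c.h)) := V.of_bd (q := 5) fun c i => by
    rw [pow_zero, mul_one]
    refine (c.Qx i).trans ?_
    have := c.L.hK
    calc 2 * c.K ^ 4 ≤ c.K * c.K ^ 4 := by gcongr
      _ = c.K ^ 5 := by ring
  have b1 := V.smul s1 b0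
  have x2 := V.smul s2 x0
  have a1 : FF.V 1 av := (x2.mono (by norm_num)).add b1
  have d2 : FF.V 2 (fun c => Gam c.J c.h c.z *ᵥ c.av - Gam c.J c.h c.z *ᵥ (√c.δ • (c.R *ᵥ c.g))) :=
    (P0.Gam0.zmulVec x2).congr' fun c => by
      rw [← Matrix.mulVec_sub, av, add_sub_cancel_right]; rfl
  have s3 := P0.SS_diff (P0.Gam0.zmulVec a1) (P0.Gam0.zmulVec b1) d2
  refine (step3.sub (P0.Gm0.zmulVec s3)).congr' fun c => ?_
  change _ = _ - Gm c.J c.h c.z *ᵥ (SS c.J c.h c.z (Gam c.J c.h c.z *ᵥ c.av)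
    - SS c.J c.h c.z (Gam c.J c.h c.z *ᵥ (√c.δ • (c.R *ᵥ c.g))))
  rw [← bq_eq, ← bq_eq, bq_smul, Real.sq_sqrt c.d0]
  have e : ((G0 c.J c.z * (c.δ • (c.R * c.Rᵀ)) * G0 c.J c.z).trace / T2 c.J c.z)
      = c.δ * ((G0 c.J c.z * (c.R * c.Rᵀ) * G0 c.J c.z).trace / T2 c.J c.z) := by
    rw [Matrix.mul_smul, Matrix.smul_mul, Matrix.trace_smul, smul_eq_mul, mul_div_assoc]
  rw [e, av, ka, k0]
  simp only [Matrix.mulVec_add, Matrix.mulVec_sub, Matrix.mulVec_smul]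
  module

end CCtx

theorem chanStmt : ChanStmt := by
  obtain ⟨p, hp⟩ := CCtx.main.out
  refine ⟨p, fun n m K δ J R x y h h' g z z' L L' d0 d1 hm hR hx hg dh dz r1 r2 r1' r2' i => ?_⟩
  have := hp ⟨n, m, K, δ, J, R, x, y, h, h', g, z, z', L, L', d0, d1, hm, hR, hx, hg, dh, dz,
    r1, r2, r1', r2'⟩ i
  refine this.trans (le_of_eq ?_)
  change K ^ p * √δ ^ 3 = K ^ p * (δ * √δ)
  rw [pow_succ, Real.sq_sqrt d0]

end Vale.Agent.N150.EC
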