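import Vale.Agent.N150.Tail
import Vale.Agent.N150.SphDef

/-! P150, critical upper bound: two-level Gaussian concentration, quadratic forms, normalised
projected Gaussians, empirical sums. -/

open MeasureTheory ProbabilityTheory Real Set Filter Topology
open scoped Matrix ENNReal
open Vale.Agent.P150 Vale.Agent.P150.F

namespace Vale.Agent.N150.Tail

section Tau
variable {ι : Type*} [Fintype ι]

theorem tau_gen_fin {m : ℕ} {u v : (Fin m → ℝ) → ℝ} (hu : Measurable u) (hv : Measurable v)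
    (h : ∀ x y, u x - v y ≤ ed x y ^ 2 / 4) :
    (∫⁻ w, ENNReal.ofReal (exp (u w)) ∂gpi (Fin m)) *
      (∫⁻ w, ENNReal.ofReal (exp (-v w)) ∂gpi (Fin m)) ≤ 1 := by
  have hgm : Measurable (gd : (Fin m → ℝ) → ℝ) := continuous_gd.measurable
  have key := PL.prekopa_leindler (n := m) (s := 1 / 2) (by norm_num) (by norm_num)
    (u := fun x => ENNReal.ofReal (gd x * exp (u x)))
    (v := fun x => ENNReal.ofReal (gd x * exp (-v x))) (w := fun x => ENNReal.ofReal (gd x))
    ((hgm.mul hu.exp).ennreal_ofReal) ((hgm.mul hv.neg.exp).ennreal_ofReal) hgm.ennreal_ofReal ?_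
  · have h1 : ∫⁻ x : Fin m → ℝ, ENNReal.ofReal (gd x) = 1 := by
      have := lintegral_gpi (ι := Fin m) (F := fun _ => 1) measurable_const
      simp only [mul_one, lintegral_const, measure_univ] at this
      exact this.symm
    have h2 : ∀ {f : (Fin m → ℝ) → ℝ}, Measurable f → ∫⁻ x, ENNReal.ofReal (gd x * exp (f x)) =
        ∫⁻ w, ENNReal.ofReal (exp (f w)) ∂gpi (Fin m) := by
      intro f hf
      rw [lintegral_gpi hf.exp.ennreal_ofReal]
      exact lintegral_congr fun x => ENNReal.ofReal_mul (gd_nonneg x)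
    rw [h1, h2 hu, h2 (f := fun x => -v x) hv.neg] at key
    have e1 : (1 - 1 / 2 : ℝ) = 1 / 2 := by norm_num
    rw [e1, ← ENNReal.mul_rpow_of_nonneg _ _ (by norm_num)] at key
    have h4 := ENNReal.rpow_le_rpow key (z := 2) (by norm_num)
    rw [← ENNReal.rpow_mul, ENNReal.one_rpow] at h4
    norm_num at h4
    exact h4
  · intro x y
    have hx : 0 ≤ gd x * exp (u x) := mul_nonneg (gd_nonneg _) (exp_pos _).le
    have hy : 0 ≤ gd y * exp (-v y) := mul_nonneg (gd_nonneg _) (exp_pos _).le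
    rw [ENNReal.ofReal_rpow_of_nonneg hx (by norm_num),
      ENNReal.ofReal_rpow_of_nonneg hy (by norm_num),
      ← ENNReal.ofReal_mul (rpow_nonneg hx _)]
    refine ENNReal.ofReal_le_ofReal ?_
    have e1 : (1 - 1 / 2 : ℝ) = 1 / 2 := by norm_num
    rw [e1, ← Real.mul_rpow hx hy, ← Real.sqrt_eq_rpow, Real.sqrt_le_left (gd_nonneg _)]
    rw [gd_eq, gd_eq, gd_eq]
    set c : ℝ := ((√(2 * π))⁻¹) ^ Fintype.card (Fin m) with hc
    have e2 : c * exp (-(∑ i, x i ^ 2) / 2) * exp (u x) *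
        (c * exp (-(∑ i, y i ^ 2) / 2) * exp (-v y)) =
        c ^ 2 * exp (-(∑ i, x i ^ 2) / 2 + u x + -(∑ i, y i ^ 2) / 2 + -v y) := by
      rw [Real.exp_add, Real.exp_add, Real.exp_add]
      ring
    rw [e2, mul_pow, ← Real.exp_nat_mul]
    refine mul_le_mul_of_nonneg_left (Real.exp_le_exp.2 ?_) (sq_nonneg c)
    have h1 := h x y
    have h3 := ed_sq x y
    have h4 : ∑ i, (((1 / 2 : ℝ) • x + (1 / 2 : ℝ) • y) i) ^ 2 =
        (∑ i, x i ^ 2) / 2 + (∑ i, y i ^ 2) / 2 - (∑ i, (x i - y i) ^ 2) / 4 := by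
      rw [Finset.sum_div, Finset.sum_div, Finset.sum_div, ← Finset.sum_add_distrib,
        ← Finset.sum_sub_distrib]
      refine Finset.sum_congr rfl fun i _ => ?_
      simp only [Pi.add_apply, Pi.smul_apply, smul_eq_mul]
      ring
    rw [h4, ← h3]
    push_cast
    linarith only [h1]

/-- Property (τ) in its general form. -/
theorem tau_gen {u v : (ι → ℝ) → ℝ} (hu : Measurable u) (hv : Measurable v)
    (h : ∀ x y, u x - v y ≤ ed x y ^ 2 / 4) :
    (∫⁻ w, ENNReal.ofReal (exp (u w)) ∂gpi ι) *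
      (∫⁻ w, ENNReal.ofReal (exp (-v w)) ∂gpi ι) ≤ 1 := by
  set e : Fin (Fintype.card ι) ≃ ι := (Fintype.equivFin ι).symm with he
  set T := MeasurableEquiv.piCongrLeft (fun _ : ι => ℝ) e with hT
  have hmp : MeasurePreserving T (gpi (Fin (Fintype.card ι))) (gpi ι) :=
    measurePreserving_piCongrLeft (fun _ : ι => gaussianReal 0 1) e
  have hTa : ∀ (x : Fin (Fintype.card ι) → ℝ) (i : Fin (Fintype.card ι)), T x (e i) = x i := by
    intro x i
    rw [hT, MeasurableEquiv.coe_piCongrLeft, Equiv.piCongrLeft_apply_apply]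
  have hed : ∀ x y, ed (T x) (T y) = ed x y := by
    intro x y
    unfold ed
    congr 1
    rw [← e.sum_comp]
    simp only [hTa]
  have key := tau_gen_fin (u := fun x => u (T x)) (v := fun x => v (T x))
    (hu.comp T.measurable) (hv.comp T.measurable) fun x y => by rw [← hed]; exact h _ _
  rw [← hmp.lintegral_comp hu.exp.ennreal_ofReal,
    ← hmp.lintegral_comp (f := fun w => ENNReal.ofReal (exp (-v w))) hv.neg.exp.ennreal_ofReal]
  exact key

/-- Jensen for the exponential, in the extended reals. -/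
theorem exp_integral_le {Ω : Type*} [MeasurableSpace Ω] (μ : Measure Ω) [IsProbabilityMeasure μ]
    {f : Ω → ℝ} (hf : Integrable f μ) :
    ENNReal.ofReal (exp (∫ w, f w ∂μ)) ≤ ∫⁻ w, ENNReal.ofReal (exp (f w)) ∂μ := by
  by_cases hi : Integrable (fun w => exp (f w)) μ
  · rw [← ofReal_integral_eq_lintegral_ofReal hi (ae_of_all _ fun w => (exp_pos _).le)]
    exact ENNReal.ofReal_le_ofReal (convexOn_exp.map_integral_le continuous_exp.continuousOn
      isClosed_univ (ae_of_all _ fun _ => mem_univ _) hf hi)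
  · have : ∫⁻ w, ENNReal.ofReal (exp (f w)) ∂μ = ∞ := by
      by_contra hne
      exact hi ((lintegral_ofReal_ne_top_iff_integrable
        (continuous_exp.comp_aestronglyMeasurable hf.aestronglyMeasurable)
        (ae_of_all _ fun w => (exp_pos _).le)).1 hne)
    rw [this]; exact le_top

/-- the tail form of property (τ) -/
theorem tau_tail {u v : (ι → ℝ) → ℝ} (hu : Measurable u) (hv : Measurable v)
    (hi : Integrable v (gpi ι)) (h : ∀ x y, u x - v y ≤ ed x y ^ 2 / 4) (c : ℝ) :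
    (gpi ι).real {w | (∫ w', v w' ∂gpi ι) + c ≤ u w} ≤ exp (-c) := by
  set E := ∫ w', v w' ∂gpi ι with hE
  have h1 := tau_gen hu hv h
  have h2 := exp_integral_le (gpi ι) hi.neg
  simp only [Pi.neg_apply] at h2
  rw [integral_neg, ← hE] at h2
  have h3 := mul_meas_ge_le_lintegral (μ := gpi ι) hu.exp.ennreal_ofReal
    (ENNReal.ofReal (exp (E + c)))
  have h4 : gpi ι {w | E + c ≤ u w} ≤
      gpi ι {w | ENNReal.ofReal (exp (E + c)) ≤ ENNReal.ofReal (exp (u w))} :=
    measure_mono fun w hw => ENNReal.ofReal_le_ofReal (exp_le_exp.2 hw)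
  have h5 : ENNReal.ofReal (exp (E + c)) * gpi ι {w | E + c ≤ u w} * ENNReal.ofReal (exp (-E))
      ≤ 1 := (mul_le_mul' ((mul_le_mul_right h4 _).trans h3) h2).trans h1
  have h6 : ENNReal.ofReal (exp c) * gpi ι {w | E + c ≤ u w} ≤ 1 := by
    refine le_trans (le_of_eq ?_) h5
    rw [mul_right_comm, ← ENNReal.ofReal_mul (exp_pos _).le, ← exp_add]
    congr 3; ring
  have h7 := ENNReal.toReal_mono ENNReal.one_ne_top h6
  rw [ENNReal.toReal_mul, ENNReal.toReal_ofReal (exp_pos _).le, ENNReal.toReal_one] at h7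
  rw [exp_neg, ← one_div, le_div_iff₀ (exp_pos _), mul_comm]
  exact h7

theorem two_sqrt_le {B x : ℝ} (hB : 0 ≤ B) : 2 * √(2 * B ^ 2 * x) ≤ 3 * B * √x := by
  rw [sqrt_mul (by positivity), sqrt_mul (by norm_num), sqrt_sq hB]
  have h : √2 ≤ 3 / 2 := by
    rw [sqrt_le_left (by norm_num)]; norm_num
  have := mul_le_mul_of_nonneg_right h (mul_nonneg hB (sqrt_nonneg x))
  linarith

/-- **Two-level concentration**, upper tail. -/
theorem two_level {F Φ : (ι → ℝ) → ℝ} (hF : Measurable F) (hΦ : Measurable Φ)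
    (hi : Integrable F (gpi ι)) {Λ B x : ℝ} (hΛ : 0 ≤ Λ) (hB : 0 < B) (hx : 0 ≤ x)
    (h : ∀ w w', F w - F w' ≤ Φ w * ed w w' + Λ / 2 * ed w w' ^ 2) :
    (gpi ι).real {w | (∫ w', F w' ∂gpi ι) + 3 * B * √x + 4 * Λ * x ≤ F w ∧ |Φ w| ≤ B} ≤
      exp (-x) := by
  obtain ⟨l, h0, h1, h2⟩ := exists_par (V := 2 * B ^ 2) (M := 4 * Λ) (by positivity)
    (by positivity) hx
  have key := tau_tail (u := fun w => l * F w - 2 * l ^ 2 * Φ w ^ 2) (v := fun w => l * F w)
    ((hF.const_mul l).sub ((hΦ.pow_const 2).const_mul _)) (hF.const_mul l) (hi.const_mul l) ?_ x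
  · refine (real_imp_le _ fun w hw => ?_).trans key
    rw [integral_const_mul]
    obtain ⟨h3, h4⟩ := hw
    have h5 : Φ w ^ 2 ≤ B ^ 2 := by
      rw [← sq_abs]; exact pow_le_pow_left₀ (abs_nonneg _) h4 2
    have h6 := mul_le_mul_of_nonneg_left h5 (sq_nonneg l)
    have h7 := mul_le_mul_of_nonneg_left h3 h0
    have h8 := mul_le_mul_of_nonneg_left (two_sqrt_le (x := x) hB.le) h0
    nlinarith
  · intro w w'
    have h3 := mul_le_mul_of_nonneg_left (h w w') h0
    have h4 := mul_le_mul_of_nonneg_right h1 (sq_nonneg (ed w w'))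
    nlinarith [sq_nonneg (4 * l * Φ w - ed w w')]

/-- **Two-level concentration**, both tails. -/
theorem two_level_abs {F Φ : (ι → ℝ) → ℝ} (hF : Measurable F) (hΦ : Measurable Φ)
    (hi : Integrable F (gpi ι)) {Λ B x : ℝ} (hΛ : 0 ≤ Λ) (hB : 0 < B) (hx : 0 ≤ x)
    (h : ∀ w w', |F w - F w'| ≤ Φ w * ed w w' + Λ / 2 * ed w w' ^ 2) :
    (gpi ι).real {w | 3 * B * √x + 4 * Λ * x ≤ |F w - ∫ w', F w' ∂gpi ι| ∧ |Φ w| ≤ B} ≤
      2 * exp (-x) := by
  have h1 := two_level hF hΦ hi hΛ hB hx fun w w' => (le_abs_self _).trans (h w w')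
  have h2 := two_level (F := fun w => -F w) hF.neg hΦ hi.neg hΛ hB hx fun w w' => by
    have := (neg_le_abs _).trans (h w w')
    linarith
  rw [integral_neg] at h2
  refine (real_or_le _ fun w hw => ?_).trans ((add_le_add h1 h2).trans (by linarith))
  rcases le_abs.1 hw.1 with h3 | h3
  · exact Or.inl ⟨by linarith, hw.2⟩
  · exact Or.inr ⟨by linarith, hw.2⟩

/-- Lipschitz tail in the form used below. -/
theorem lip_tail {f : (ι → ℝ) → ℝ} {L x : ℝ} (hf : Lip L f) (hL : 0 < L) (hx : 0 ≤ x) :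
    (gpi ι).real {w | (∫ w', f w' ∂gpi ι) + 2 * L * √x ≤ f w} ≤ exp (-x) := by
  refine (hf.tail hL (t := 2 * L * √x) (by positivity)).trans (le_of_eq ?_)
  congr 2
  rw [mul_pow, mul_pow, sq_sqrt hx]
  field_simp
  ring

theorem lip_tail_abs {f : (ι → ℝ) → ℝ} {L x : ℝ} (hf : Lip L f) (hL : 0 < L) (hx : 0 ≤ x) :
    (gpi ι).real {w | 2 * L * √x ≤ |f w - ∫ w', f w' ∂gpi ι|} ≤ 2 * exp (-x) := by
  refine (hf.tail_abs hL (t := 2 * L * √x) (by positivity)).trans (le_of_eq ?_)
  congr 3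
  rw [mul_pow, mul_pow, sq_sqrt hx]
  field_simp
  ring

/-- Two-level concentration with a Lipschitz gradient bound. -/
theorem two_level_lip {F Φ : (ι → ℝ) → ℝ} (hF : Measurable F) (hi : Integrable F (gpi ι))
    {Λ D x : ℝ} (hΛ : 0 < Λ) (hx : 0 ≤ x) (hΦ : Lip Λ Φ) (h0 : ∀ w, 0 ≤ Φ w)
    (hD : ∫ w, Φ w ∂gpi ι ≤ D) (hD0 : 0 < D)
    (h : ∀ w w', |F w - F w'| ≤ Φ w * ed w w' + Λ / 2 * ed w w' ^ 2) :
    (gpi ι).real {w | 3 * D * √x + 10 * Λ * x ≤ |F w - ∫ w', F w' ∂gpi ι| ∨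
      D + 2 * Λ * √x < Φ w} ≤ 3 * exp (-x) := by
  have h1 := two_level_abs hF hΦ.measurable hi hΛ.le (B := D + 2 * Λ * √x) (by positivity) hx h
  have h2 := lip_tail hΦ hΛ hx
  refine (real_or_le _ fun w hw => ?_).trans ((add_le_add h1 h2).trans (by linarith))
  by_cases h3 : D + 2 * Λ * √x < Φ w
  · exact Or.inr (by linarith)
  · refine Or.inl ⟨?_, by rw [abs_of_nonneg (h0 w)]; exact not_lt.1 h3⟩
    have h4 := hw.resolve_right h3
    have h5 : √x * √x = x := mul_self_sqrt hx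
    have h6 : 3 * (D + 2 * Λ * √x) * √x = 3 * D * √x + 6 * Λ * (√x * √x) := by ring
    rw [h6, h5]
    linarith

end Tau

/-! ### Quadratic forms -/

section Quad
variable {n : ℕ}

theorem exists_eig (A : Mat n) (hA : Aᵀ = A) :
    ∃ (U : Mat n) (lam : Vec n), U * Uᵀ = 1 ∧ Uᵀ * U = 1 ∧ A = U * Matrix.diagonal lam * Uᵀ := by
  have hH : A.IsHermitian := by
    rw [Matrix.IsHermitian, Matrix.conjTranspose_eq_transpose_of_trivial, hA]
  refine ⟨hH.eigenvectorUnitary, hH.eigenvalues, ?_, ?_, ?_⟩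
  · have := Matrix.mem_unitaryGroup_iff.1 hH.eigenvectorUnitary.2
    rwa [Matrix.star_eq_conjTranspose, Matrix.conjTranspose_eq_transpose_of_trivial] at this
  · have := Matrix.mem_unitaryGroup_iff'.1 hH.eigenvectorUnitary.2
    rwa [Matrix.star_eq_conjTranspose, Matrix.conjTranspose_eq_transpose_of_trivial] at this
  · have := hH.spectral_theorem
    rw [Unitary.conjStarAlgAut_apply, Matrix.star_eq_conjTranspose,
      Matrix.conjTranspose_eq_transpose_of_trivial] at this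
    simpa using this

theorem qf_conj (U : Mat n) (lam w : Vec n) :
    qf (U * Matrix.diagonal lam * Uᵀ) w = ∑ i, lam i * (Uᵀ *ᵥ w) i ^ 2 := by
  unfold qf
  rw [ip_eq_dot, ← Matrix.mulVec_mulVec, ← Matrix.mulVec_mulVec, Matrix.dotProduct_mulVec,
    ← Matrix.mulVec_transpose]
  unfold dotProduct
  refine Finset.sum_congr rfl fun i _ => ?_
  rw [Matrix.mulVec_diagonal]; ring

theorem trace_conj {U : Mat n} (hU : Uᵀ * U = 1) (lam : Vec n) :
    (U * Matrix.diagonal lam * Uᵀ).trace = ∑ i, lam i := by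
  rw [Matrix.trace_mul_comm, ← Matrix.mul_assoc, hU, Matrix.one_mul, Matrix.trace_diagonal]

theorem hsq_eq_trace (A : Mat n) : hsq A = (A * Aᵀ).trace := by
  unfold hsq
  simp only [Matrix.trace, Matrix.diag, Matrix.mul_apply, Matrix.transpose_apply, pow_two]

theorem hsq_conj {U : Mat n} (hU : Uᵀ * U = 1) (lam : Vec n) :
    hsq (U * Matrix.diagonal lam * Uᵀ) = ∑ i, lam i ^ 2 := by
  rw [hsq_eq_trace]
  have : U * Matrix.diagonal lam * Uᵀ * (U * Matrix.diagonal lam * Uᵀ)ᵀ =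
      U * Matrix.diagonal (fun i => lam i ^ 2) * Uᵀ := by
    rw [Matrix.transpose_mul, Matrix.transpose_mul, Matrix.transpose_transpose,
      Matrix.diagonal_transpose]
    calc U * Matrix.diagonal lam * Uᵀ * (U * (Matrix.diagonal lam * Uᵀ))
        = U * (Matrix.diagonal lam * (Uᵀ * U) * Matrix.diagonal lam) * Uᵀ := by
          simp only [Matrix.mul_assoc]
      _ = _ := by
          rw [hU, Matrix.mul_one, Matrix.diagonal_mul_diagonal]
          simp only [pow_two]
  rw [this, trace_conj hU]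

theorem eig_le {U : Mat n} (hU : Uᵀ * U = 1) {lam : Vec n} {M : ℝ}
    (h : ∀ v, qf (U * Matrix.diagonal lam * Uᵀ) v ≤ M * F.sq v) (i : Fin n) : lam i ≤ M := by
  have h1 := h (U *ᵥ Pi.single i 1)
  rw [qf_conj, sq_mulVec_orth hU, Matrix.mulVec_mulVec, hU, Matrix.one_mulVec] at h1
  simpa [F.sq, Pi.single_apply, Finset.sum_ite_eq'] using h1

theorem measurable_qf (A : Mat n) : Measurable (qf A) := by
  unfold qf ip
  simp only [Matrix.mulVec, dotProduct]
  fun_prop

/-- **Hanson-Wright**, upper tail. -/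
theorem hw_tail {A : Mat n} (hA : Aᵀ = A) {V M x : ℝ} (hV : 0 < V) (hM : 0 ≤ M) (hx : 0 ≤ x)
    (h2 : hsq A ≤ V) (hb : ∀ v, qf A v ≤ M * F.sq v) :
    (gpi (Fin n)).real {w | A.trace + 2 * √(2 * V * x) + 4 * M * x ≤ qf A w} ≤ exp (-x) := by
  obtain ⟨U, lam, h1, h1', rfl⟩ := exists_eig A hA
  rw [hsq_conj h1'] at h2
  have key := chi_tail lam hV hM hx h2 (eig_le h1' hb)
  rw [← rot_real Uᵀ (by rw [Matrix.transpose_transpose, h1'])
    (measurableSet_le measurable_const (by fun_prop))] at key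
  refine (real_imp_le _ fun w hw => ?_).trans key
  rw [trace_conj h1', qf_conj] at hw
  exact hw

theorem qf_neg (A : Mat n) (v : Vec n) : qf (-A) v = -qf A v := by
  unfold qf
  rw [Matrix.neg_mulVec, ip_eq_dot, ip_eq_dot, dotProduct_neg]

theorem hsq_neg (A : Mat n) : hsq (-A) = hsq A := by
  unfold hsq; simp

/-- **Hanson-Wright**, lower tail. -/
theorem hw_tail_low {A : Mat n} (hA : Aᵀ = A) {V M x : ℝ} (hV : 0 < V) (hM : 0 ≤ M) (hx : 0 ≤ x)
    (h2 : hsq A ≤ V) (hb : ∀ v, -(M * F.sq v) ≤ qf A v) :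
    (gpi (Fin n)).real {w | qf A w ≤ A.trace - 2 * √(2 * V * x) - 4 * M * x} ≤ exp (-x) := by
  have key := hw_tail (A := -A) (by rw [Matrix.transpose_neg, hA]) hV hM hx (by rwa [hsq_neg])
    fun v => by rw [qf_neg]; linarith [hb v]
  refine (real_imp_le _ fun w hw => ?_).trans key
  rw [qf_neg, Matrix.trace_neg]
  linarith

/-- **Hanson-Wright**, both tails. -/
theorem hw_tail_abs {A : Mat n} (hA : Aᵀ = A) {V M x : ℝ} (hV : 0 < V) (hM : 0 ≤ M) (hx : 0 ≤ x)
    (h2 : hsq A ≤ V) (hb : ∀ v, |qf A v| ≤ M * F.sq v) :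
    (gpi (Fin n)).real {w | 2 * √(2 * V * x) + 4 * M * x ≤ |qf A w - A.trace|} ≤ 2 * exp (-x) := by
  have h3 := hw_tail hA hV hM hx h2 fun v => (abs_le.1 (hb v)).2
  have h4 := hw_tail_low hA hV hM hx h2 fun v => (abs_le.1 (hb v)).1
  refine (real_or_le _ fun w hw => ?_).trans ((add_le_add h3 h4).trans (by linarith))
  rcases le_abs.1 hw with h | h
  · exact Or.inl (by linarith)
  · exact Or.inr (by linarith)

theorem sq_mulVec_eq_qf (B : Mat n) (w : Vec n) : F.sq (B *ᵥ w) = qf (Bᵀ * B) w := by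
  unfold qf
  rw [sq_eq_dot, ip_eq_dot, ← Matrix.mulVec_mulVec, Matrix.dotProduct_mulVec w,
    Matrix.vecMul_transpose]

theorem lip_nv_mulVec {B : Mat n} {L : ℝ} (hB : OpLe B L) (hL : 0 ≤ L) :
    Lip L fun w : Vec n => nv (B *ᵥ w) := by
  intro w w'
  have e : ed w w' = nv (w - w') := by
    rw [nv_eq_sqrt]; rfl
  have h1 := nv_sub_triangle (B *ᵥ w) (B *ᵥ w') 0
  have h2 := nv_sub_triangle (B *ᵥ w') (B *ᵥ w) 0
  rw [sub_zero, sub_zero] at h1 h2
  rw [nv_sub_comm] at h2
  have h3 := hB.nv_le hL (w - w')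
  rw [Matrix.mulVec_sub] at h3
  rw [e, abs_le]
  constructor <;> linarith

theorem integrable_coord_sq {ι : Type*} [Fintype ι] (i : ι) :
    Integrable (fun w : ι → ℝ => w i ^ 2) (gpi ι) :=
  (measurePreserving_eval (fun _ : ι => gaussianReal 0 1) i).integrable_comp_of_integrable
    (g := fun x : ℝ => x ^ 2) ((memLp_id_gaussianReal 2).integrable_sq)

theorem integral_coord {ι : Type*} [Fintype ι] (i : ι) {f : ℝ → ℝ} (hf : Measurable f) :
    ∫ w : ι → ℝ, f (w i) ∂gpi ι = ∫ z, f z ∂gaussianReal 0 1 := by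
  have hmp := measurePreserving_eval (fun _ : ι => gaussianReal 0 1) i
  rw [← hmp.map_eq, integral_map hmp.measurable.aemeasurable hf.aestronglyMeasurable]

theorem integral_sq_one : ∫ z, z ^ 2 ∂gaussianReal 0 1 = 1 := by
  have h := variance_id_gaussianReal (μ := 0) (v := 1)
  rw [variance_eq_integral (by fun_prop)] at h
  simpa using h

theorem integrable_qf {A : Mat n} (hA : Aᵀ = A) : Integrable (qf A) (gpi (Fin n)) := by
  obtain ⟨U, lam, h1, h1', rfl⟩ := exists_eig A hA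
  have h := (rot_mp Uᵀ (by rw [Matrix.transpose_transpose, h1'])).integrable_comp_of_integrable
    (g := fun w : Vec n => ∑ i, lam i * w i ^ 2)
    (integrable_finsetSum _ fun i _ => (integrable_coord_sq i).const_mul _)
  exact h.congr (ae_of_all _ fun w => (qf_conj U lam w).symm)

theorem integral_qf {A : Mat n} (hA : Aᵀ = A) : ∫ w, qf A w ∂gpi (Fin n) = A.trace := by
  obtain ⟨U, lam, h1, h1', rfl⟩ := exists_eig A hA
  have hmp := rot_mp Uᵀ (by rw [Matrix.transpose_transpose, h1'])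
  simp_rw [qf_conj]
  rw [trace_conj h1', ← integral_map (f := fun w : Vec n => ∑ i, lam i * w i ^ 2)
    hmp.measurable.aemeasurable (Measurable.aestronglyMeasurable (by fun_prop)), hmp.map_eq,
    integral_finsetSum _ fun i _ => (integrable_coord_sq i).const_mul _]
  refine Finset.sum_congr rfl fun i _ => ?_
  rw [integral_const_mul, integral_coord i (f := fun z => z ^ 2) (by fun_prop), integral_sq_one,
    mul_one]

theorem integrable_sq_mulVec (B : Mat n) :
    Integrable (fun w => F.sq (B *ᵥ w)) (gpi (Fin n)) := by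
  simp_rw [sq_mulVec_eq_qf]
  exact integrable_qf (by rw [Matrix.transpose_mul, Matrix.transpose_transpose])

theorem integral_sq_mulVec (B : Mat n) : ∫ w, F.sq (B *ᵥ w) ∂gpi (Fin n) = hsq B := by
  simp_rw [sq_mulVec_eq_qf]
  rw [integral_qf (by rw [Matrix.transpose_mul, Matrix.transpose_transpose]), hsq_eq_trace,
    Matrix.trace_mul_comm]

/-- the mean is at most the root mean square -/
theorem integral_le_sqrt {Ω : Type*} [MeasurableSpace Ω] (μ : Measure Ω) [IsProbabilityMeasure μ]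
    {f : Ω → ℝ} (hf : Integrable f μ) (h2 : Integrable (fun w => f w ^ 2) μ) {D : ℝ} (hD : 0 ≤ D)
    (h : ∫ w, f w ^ 2 ∂μ ≤ D ^ 2) : ∫ w, f w ∂μ ≤ D := by
  set E := ∫ w, f w ∂μ with hE
  have h3 : ∫ w, (2 * E * f w - E ^ 2) ∂μ ≤ ∫ w, f w ^ 2 ∂μ :=
    integral_mono ((hf.const_mul _).sub (integrable_const _)) h2 fun w => by
      simp only; nlinarith [sq_nonneg (f w - E)]
  rw [integral_sub (hf.const_mul _) (integrable_const _), integral_const_mul, ← hE] at h3
  simp only [integral_const, probReal_univ, smul_eq_mul, one_mul] at h3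
  exact (le_abs_self E).trans (abs_le_of_sq_le_sq' (by nlinarith) hD |> fun h => abs_le.2 h)

/-- the norm of a linear image of a Gaussian vector -/
theorem nv_mulVec_tail {B : Mat n} {L D x : ℝ} (hB : OpLe B L) (hL : 0 < L) (hx : 0 ≤ x)
    (hD : 0 ≤ D) (h : hsq B ≤ D ^ 2) :
    (gpi (Fin n)).real {w | D + 2 * L * √x ≤ nv (B *ᵥ w)} ≤ exp (-x) := by
  have h1 := lip_nv_mulVec hB hL.le
  have h2 : ∫ w, nv (B *ᵥ w) ∂gpi (Fin n) ≤ D :=
    integral_le_sqrt _ h1.integrable h1.integrable_sq hD (by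
      simp_rw [nv_sq]; rwa [integral_sq_mulVec])
  refine (real_imp_le _ fun w hw => ?_).trans (lip_tail h1 hL hx)
  linarith

theorem lip_ip (a : Vec n) : Lip (nv a) fun w : Vec n => ip a w := by
  intro w w'
  have e : ed w w' = nv (w - w') := by
    rw [nv_eq_sqrt]; rfl
  rw [e, ← ip_sub_right]
  exact abs_ip_le _ _

theorem integral_ip (a : Vec n) : ∫ w, ip a w ∂gpi (Fin n) = 0 := by
  unfold ip
  have hi : ∀ i : Fin n, Integrable (fun w : Vec n => w i) (gpi (Fin n)) := fun i =>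
    (measurePreserving_eval (fun _ : Fin n => gaussianReal 0 1) i).integrable_comp_of_integrable
      (g := fun x : ℝ => x) ((memLp_id_gaussianReal 1).integrable le_rfl)
  rw [integral_finsetSum _ fun i _ => (hi i).const_mul _]
  refine Finset.sum_eq_zero fun i _ => ?_
  rw [integral_const_mul, integral_coord i (f := fun z => z) measurable_id, integral_id_gaussianReal,
    mul_zero]

/-- a linear functional of a Gaussian vector -/
theorem ip_tail (a : Vec n) {L x : ℝ} (ha : nv a ≤ L) (hL : 0 < L) (hx : 0 ≤ x) :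
    (gpi (Fin n)).real {w | 2 * L * √x ≤ |ip a w|} ≤ 2 * exp (-x) := by
  have h := lip_tail_abs ((lip_ip a).mono ha) hL hx
  simpa only [integral_ip, sub_zero] using h

end Quad

end Vale.Agent.N150.Tail
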