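import Vale.Agent.N150.RadRoot
import Vale.Agent.N150.Tail2

set_option linter.all false

/-! Joint measurability of the spherical reference in an arbitrary matrix, and the versions of the
root lemmas for symmetric matrices. -/

open Matrix Finset MeasureTheory

namespace Vale.Agent.N150.Rad

open Vale.Agent.P150 Vale.Agent.P150.F Vale.Agent.N150.EC Vale.Agent.N150.Sp Vale.Agent.N150.Cap
open Vale.Agent.N150.Fib

variable {n : ℕ}

theorem exists_JO {J : Mat n} (hJ : J.IsSymm) : ∃ (lam : Vec n) (O : OG n), J = JO lam O := by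
  obtain ⟨U, lam, _, h2, h3⟩ := Tail.exists_eig J hJ
  refine ⟨lam, OG.mk' Uᵀ (by rw [Matrix.transpose_transpose]; exact h2), ?_⟩
  unfold JO
  rw [OG.mk'_val, Matrix.transpose_transpose]
  exact h3

theorem symm_of_posDef {J : Mat n} {z : ℝ} (h : (Nm J z).PosDef) : J.IsSymm := by
  have h1 : (Nm J z)ᵀ = Nm J z := h.isHermitian
  have e : J = z • (1 : Mat n) - Nm J z := by unfold Nm; abel
  unfold Matrix.IsSymm
  rw [e, Matrix.transpose_sub, h1, Matrix.transpose_smul, Matrix.transpose_one]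

theorem zr_of_not_symm {J : Mat n} (hJ : ¬J.IsSymm) (y : Vec n) : zr J y = 0 := by
  unfold zr
  rw [dif_neg]
  rintro ⟨z, h, _⟩
  exact hJ (symm_of_posDef h)

theorem posDef_zr (hn : 0 < n) {J : Mat n} (hJ : J.IsSymm) (y : Vec n) : (Nm J (zr J y)).PosDef := by
  obtain ⟨lam, O, rfl⟩ := exists_JO hJ
  exact posDef_Nm O (lt_zr hn lam O y)

theorem res_zr' (hn : 0 < n) {J : Mat n} (hJ : J.IsSymm) (y : Vec n) : res J y (zr J y) = 0 := by
  obtain ⟨lam, O, rfl⟩ := exists_JO hJ
  exact res_zr hn lam O y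

/-- uniqueness of the root -/
theorem zr_eq (hn : 0 < n) {J : Mat n} {y : Vec n} {z : ℝ} (h : (Nm J z).PosDef)
    (e : res J y z = 0) : zr J y = z := by
  obtain ⟨lam, O, rfl⟩ := exists_JO (symm_of_posDef h)
  have h3 := lt_of_posDef h
  rw [res_JO O y h3] at e
  rw [zr_JO hn]
  exact zs_eq hn h3 (by linarith)

theorem zr_le_iff (hn : 0 < n) {J : Mat n} (hJ : J.IsSymm) (y : Vec n) (c : ℝ) :
    zr J y ≤ c ↔ (Nm J c).PosDef ∧ res J y c ≤ 0 := by
  obtain ⟨lam, O, rfl⟩ := exists_JO hJ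
  rw [zr_JO hn]
  constructor
  · intro h
    have h1 : ∀ a, lam a < c := fun a => (lt_zs hn _ _ a).trans_le h
    refine ⟨posDef_Nm O h1, ?_⟩
    rw [res_JO O y h1]
    linarith [(zs_le_iff hn h1).1 h]
  · rintro ⟨h, h2⟩
    have h1 := lt_of_posDef h
    rw [res_JO O y h1] at h2
    exact (zs_le_iff hn h1).2 (by linarith)

theorem Gr_symm' {J : Mat n} (hJ : J.IsSymm) (y : Vec n) : (Gr J y).IsSymm := Gs_symm hJ _ _

theorem sq_mr_le' (hn : 0 < n) {J : Mat n} (hJ : J.IsSymm) (y : Vec n) : F.sq (mr J y) ≤ n := by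
  obtain ⟨lam, O, rfl⟩ := exists_JO hJ
  exact sq_mr_le hn lam O y

theorem integral_br' {m : ℕ} {J : Mat n} (hJ : J.IsSymm) (y : Vec n)
    (R : Matrix (Fin n) (Fin m) ℝ) (i : Fin n) :
    ∫ g, br J y (R *ᵥ g) i ∂gpi (Fin m) = er J y (R * Rᵀ) i := integral_bs hJ y _ R i

theorem integrable_br' {m : ℕ} {J : Mat n} (hJ : J.IsSymm) (y : Vec n)
    (R : Matrix (Fin n) (Fin m) ℝ) (i : Fin n) :
    Integrable (fun g => br J y (R *ᵥ g) i) (gpi (Fin m)) := integrable_bs hJ y _ R i

section meas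

variable {X : Type*} [MeasurableSpace X] {y b : X → Vec n} {J Q A : X → Mat n} {z : X → ℝ}

theorem meas_det' (hA : MM A) : Measurable fun x => (A x).det := by
  simp only [Matrix.det_apply']
  exact Finset.measurable_fun_sum _ fun σ _ =>
    (Finset.measurable_fun_prod _ fun i _ => hA _ _).const_mul _

theorem mm_inv (hA : MM A) : MM fun x => (A x)⁻¹ := fun i j => by
  simp only [Matrix.inv_def, Matrix.smul_apply, Matrix.adjugate_apply, Ring.inverse_eq_inv',
    smul_eq_mul]
  refine (meas_det' hA).inv.mul (meas_det' fun a b => ?_)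
  simp only [Matrix.updateRow_apply]
  split_ifs
  · exact measurable_const
  · exact hA a b

theorem ms_symm (hA : MM A) : MeasurableSet {x | (A x).IsSymm} := by
  have e : {x | (A x).IsSymm} = ⋂ i, ⋂ j, {x | A x j i = A x i j} := by
    ext x
    simp only [Set.mem_setOf_eq, Set.mem_iInter]
    exact ⟨fun h i j => h.apply i j, fun h => Matrix.IsSymm.ext h⟩
  rw [e]
  exact MeasurableSet.iInter fun i => MeasurableSet.iInter fun j =>
    measurableSet_eq_fun (hA j i) (hA i j)

theorem ms_nonneg (hA : MM A) : MeasurableSet {x | ∀ v : Vec n, 0 ≤ v ⬝ᵥ (A x *ᵥ v)} := by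
  obtain ⟨s, hs, hd⟩ := TopologicalSpace.exists_countable_dense (Vec n)
  have e : {x | ∀ v : Vec n, 0 ≤ v ⬝ᵥ (A x *ᵥ v)} = ⋂ v ∈ s, {x | 0 ≤ v ⬝ᵥ (A x *ᵥ v)} := by
    ext x
    simp only [Set.mem_setOf_eq, Set.mem_iInter]
    refine ⟨fun h v _ => h v, fun h v => ?_⟩
    have hc : Continuous fun v : Vec n => v ⬝ᵥ (A x *ᵥ v) :=
      continuous_id.dotProduct (continuous_const.matrix_mulVec continuous_id)
    exact closure_minimal (s := s) (t := {v | 0 ≤ v ⬝ᵥ (A x *ᵥ v)}) h
      (isClosed_le continuous_const hc) (hd v)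
  rw [e]
  exact MeasurableSet.biInter hs fun v _ => measurableSet_le measurable_const
    (measurable_ip' measurable_const (hA.mulVec measurable_const))

theorem ms_posDef (hA : MM A) : MeasurableSet {x | (A x).PosDef} := by
  have e : {x | (A x).PosDef} = ({x | (A x).IsSymm} ∩ {x | ∀ v : Vec n, 0 ≤ v ⬝ᵥ (A x *ᵥ v)})
      ∩ {x | (A x).det = 0}ᶜ := by
    ext x
    simp only [Set.mem_setOf_eq, Set.mem_inter_iff, Set.mem_compl_iff]
    constructor
    · intro h
      refine ⟨⟨h.isHermitian, fun v => ?_⟩, h.posSemidef.posDef_iff_det_ne_zero.1 h⟩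
      simpa using h.posSemidef.dotProduct_mulVec_nonneg v
    · rintro ⟨⟨h1, h2⟩, h3⟩
      have h4 : (A x).PosSemidef :=
        Matrix.PosSemidef.of_dotProduct_mulVec_nonneg h1 fun v => by simpa using h2 v
      exact h4.posDef_iff_det_ne_zero.2 h3
  rw [e]
  exact ((ms_symm hA).inter (ms_nonneg hA)).inter
    (measurableSet_eq_fun (meas_det' hA) measurable_const).compl

theorem mm_Nm (hJ : MM J) (hz : Measurable z) : MM fun x => Nm (J x) (z x) :=
  (MM.smul hz (MM.const 1)).sub hJ

theorem mm_G0' (hJ : MM J) (hz : Measurable z) : MM fun x => G0 (J x) (z x) :=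
  mm_inv (mm_Nm hJ hz)

theorem meas_pm (hJ : MM J) (hy : Measurable y) (hz : Measurable z) :
    Measurable fun x => pm (J x) (y x) (z x) := (mm_G0' hJ hz).mulVec hy

theorem meas_am (hJ : MM J) (hy : Measurable y) (hz : Measurable z) :
    Measurable fun x => am (J x) (y x) (z x) := (mm_G0' hJ hz).mulVec (meas_pm hJ hy hz)

theorem meas_res (hJ : MM J) (hy : Measurable y) (hz : Measurable z) :
    Measurable fun x => res (J x) (y x) (z x) :=
  ((mm_G0' hJ hz).trace.add (measurable_sq.comp (meas_pm hJ hy hz))).sub measurable_const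

theorem meas_Dn (hJ : MM J) (hy : Measurable y) (hz : Measurable z) :
    Measurable fun x => Dn (J x) (y x) (z x) :=
  ((mm_G0' hJ hz).mul (mm_G0' hJ hz)).trace.add
    ((measurable_ip' (meas_pm hJ hy hz) (meas_am hJ hy hz)).const_mul 2)

theorem meas_T3 (hJ : MM J) (hz : Measurable z) : Measurable fun x => T3 (J x) (z x) :=
  (((mm_G0' hJ hz).mul (mm_G0' hJ hz)).mul (mm_G0' hJ hz)).trace

theorem mm_Gs (hJ : MM J) (hy : Measurable y) (hz : Measurable z) :
    MM fun x => Gs (J x) (y x) (z x) :=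
  (mm_G0' hJ hz).sub (MM.smul (measurable_const.div (meas_Dn hJ hy hz))
    (MM.vecMulVec (meas_am hJ hy hz) (meas_am hJ hy hz)))

theorem meas_bs (hJ : MM J) (hy : Measurable y) (hz : Measurable z) (hb : Measurable b) :
    Measurable fun x => bs (J x) (y x) (z x) (b x) := by
  have hG := mm_G0' hJ hz
  have ha := meas_am hJ hy hz
  have hD := meas_Dn hJ hy hz
  have hT := meas_T3 hJ hz
  have h1 : Measurable fun x => z1 (J x) (y x) (z x) (b x) :=
    ((measurable_ip' ha hb).const_mul 2).div hD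
  exact ((h1.smul (hG.mulVec (hG.mulVec hb))).sub ((h1.pow_const 2).smul (hG.mulVec ha))).add
    ((((((h1.pow_const 2).mul (hT.add ((measurable_sq.comp ha).const_mul 3))).sub
      ((h1.const_mul 4).mul (measurable_ip' (hG.mulVec ha) hb))).add
      (measurable_sq.comp (hG.mulVec hb))).div hD).smul ha)

theorem meas_es (hJ : MM J) (hy : Measurable y) (hz : Measurable z) (hQ : MM Q) :
    Measurable fun x => es (J x) (y x) (z x) (Q x) := by
  have hG := mm_G0' hJ hz
  have ha := meas_am hJ hy hz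
  have hD := meas_Dn hJ hy hz
  have hT := meas_T3 hJ hz
  have hq := ((measurable_ip' ha (hQ.mulVec ha)).const_mul 4).div (hD.pow_const 2)
  exact (((measurable_const.div hD).smul (hG.mulVec (hG.mulVec (hQ.mulVec ha)))).sub
    (hq.smul (hG.mulVec ha))).add
    (((((hq.mul (hT.add ((measurable_sq.comp ha).const_mul 3))).sub
      ((measurable_const.div hD).mul (measurable_ip' (hG.mulVec ha) (hQ.mulVec ha)))).add
      ((hG.mul hQ).mul hG).trace).div hD).smul ha)

theorem meas_ks (hJ : MM J) (hy : Measurable y) (hz : Measurable z) (hQ : MM Q) :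
    Measurable fun x => ks (J x) (y x) (z x) (Q x) := by
  have hG := mm_G0' hJ hz
  exact ((((hG.mul hQ).mul hG).trace.div (meas_Dn hJ hy hz)).smul
    (meas_am hJ hy hz)).sub (meas_es hJ hy hz hQ)

/-- **the saddle point is measurable jointly in an arbitrary matrix and the field** -/
theorem meas_zr (hn : 0 < n) (hJ : MM J) (hy : Measurable y) :
    Measurable fun x => zr (J x) (y x) := by
  refine measurable_of_Iic fun c => ?_
  have e : (fun x => zr (J x) (y x)) ⁻¹' Set.Iic c
      = ({x | (Nm (J x) c).PosDef} ∩ {x | res (J x) (y x) c ≤ 0})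
        ∪ ({x | (J x).IsSymm}ᶜ ∩ {_x | (0 : ℝ) ≤ c}) := by
    ext x
    simp only [Set.mem_preimage, Set.mem_Iic, Set.mem_inter_iff, Set.mem_union, Set.mem_setOf_eq,
      Set.mem_compl_iff]
    by_cases h : (J x).IsSymm
    · rw [zr_le_iff hn h]
      exact ⟨Or.inl, fun h1 => h1.elim id fun h2 => absurd h h2.1⟩
    · rw [zr_of_not_symm h]
      exact ⟨fun h1 => Or.inr ⟨h, h1⟩,
        fun h1 => h1.elim (fun h2 => absurd (symm_of_posDef h2.1) h) fun h2 => h2.2⟩
  rw [e]
  exact ((ms_posDef (mm_Nm hJ measurable_const)).inter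
    (measurableSet_le (meas_res hJ hy measurable_const) measurable_const)).union
    ((ms_symm hJ).compl.inter (MeasurableSet.const _))

theorem meas_mr (hn : 0 < n) (hJ : MM J) (hy : Measurable y) :
    Measurable fun x => mr (J x) (y x) := meas_pm hJ hy (meas_zr hn hJ hy)

theorem mm_Gr' (hn : 0 < n) (hJ : MM J) (hy : Measurable y) : MM fun x => Gr (J x) (y x) :=
  mm_Gs hJ hy (meas_zr hn hJ hy)

theorem meas_br (hn : 0 < n) (hJ : MM J) (hy : Measurable y) (hb : Measurable b) :
    Measurable fun x => br (J x) (y x) (b x) := meas_bs hJ hy (meas_zr hn hJ hy) hb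

theorem meas_er (hn : 0 < n) (hJ : MM J) (hy : Measurable y) (hQ : MM Q) :
    Measurable fun x => er (J x) (y x) (Q x) := meas_es hJ hy (meas_zr hn hJ hy) hQ

theorem meas_kr (hn : 0 < n) (hJ : MM J) (hy : Measurable y) (hQ : MM Q) :
    Measurable fun x => kr (J x) (y x) (Q x) := meas_ks hJ hy (meas_zr hn hJ hy) hQ

end meas

end Vale.Agent.N150.Rad
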