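import Vale.Agent.N150.CapRef
import Vale.Agent.N150.ECStep
import Vale.Agent.N150.RadMeas

/-! P150: the references of the tracker (TAP, spherical, piecewise) and the canonical set of
locally good states. -/

open Matrix MeasureTheory Finset

namespace Vale.Agent.N150.Cap

open Vale.Agent.P150 Vale.Agent.P150.F Vale.Agent.P150.F.Ms Vale.Agent.N150.A1
  Vale.Agent.N150.Sp

variable {n m : ℕ} {S : Type} [MeasurableSpace S]

theorem ms_all {E : Type*} [TopologicalSpace E] [TopologicalSpace.SeparableSpace E]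
    {f g : S → E → ℝ} (hf : ∀ v, Measurable fun x => f x v) (hg : ∀ v, Measurable fun x => g x v)
    (cf : ∀ x, Continuous (f x)) (cg : ∀ x, Continuous (g x)) :
    MeasurableSet {x | ∀ v, f x v ≤ g x v} := by
  obtain ⟨s, hs, hd⟩ := TopologicalSpace.exists_countable_dense E
  have e : {x | ∀ v, f x v ≤ g x v} = ⋂ v ∈ s, {x | f x v ≤ g x v} := by
    ext x
    simp only [Set.mem_ofPred_eq, Set.mem_iInter]
    refine ⟨fun h v _ => h v, fun h v => ?_⟩
    exact closure_minimal (s := s) (t := {v | f x v ≤ g x v}) h (isClosed_le (cf x) (cg x)) (hd v)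
  rw [e]
  exact MeasurableSet.biInter hs fun v _ => measurableSet_le (hf v) (hg v)

theorem cont_ip {X : Type*} [TopologicalSpace X] {u v : X → Vec n} (hu : Continuous u)
    (hv : Continuous v) : Continuous fun x => ip (u x) (v x) :=
  continuous_finsetSum _ fun i _ =>
    ((continuous_apply i).comp hu).mul ((continuous_apply i).comp hv)

theorem cont_sq {X : Type*} [TopologicalSpace X] {u : X → Vec n} (hu : Continuous u) :
    Continuous fun x => F.sq (u x) :=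
  continuous_finsetSum _ fun i _ => ((continuous_apply i).comp hu).pow 2

theorem cont_mv {X : Type*} [TopologicalSpace X] {a b : ℕ} (A : Matrix (Fin a) (Fin b) ℝ)
    {u : X → Fin b → ℝ} (hu : Continuous u) : Continuous fun x => A *ᵥ u x :=
  continuous_const.matrix_mulVec hu

theorem mm_Q (P : Proc n m S) : MMat P.Q := EC.mm_mul P.measR (EC.mm_transpose P.measR)

theorem M_nx (P : Proc n m S) (s : S) (x : Cfg n) (ξ : Vec m) :
    P.M (P.nx s x ξ) = P.M s - P.δ s • (P.R s * (P.R s)ᵀ) := P.hM _ _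

theorem y_nx (P : Proc n m S) (s : S) (x : Cfg n) (ξ : Vec m) :
    P.y (P.nx s x ξ)
      = P.y s + P.δ s • ((P.R s * (P.R s)ᵀ) *ᵥ sv x) + √(P.δ s) • (P.R s *ᵥ ξ) := by
  rw [add_assoc]
  exact P.hy _ _

theorem abs_Q_le {R : Matrix (Fin n) (Fin m) ℝ} {K : ℝ} (hK : 0 ≤ K) (hm : (m : ℝ) ≤ K)
    (hR : ∀ i j, |R i j| ≤ K) (i j : Fin n) : |(R * Rᵀ) i j| ≤ K ^ 3 :=
  (abs_mm_le (B := Rᵀ) hR (fun a b => hR b a) hK i j).trans
    ((mul_le_mul_of_nonneg_right hm (mul_nonneg hK hK)).trans (le_of_eq (by ring)))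

namespace Ref

variable (r : Ref n m S) (P : Proc n m S)

/-- measurable data -/
structure Pre : Prop where
  mmh : MVec r.mh
  mG : MMat r.G
  mB : ∀ i, Measurable fun q : S × Vec m => r.B q.1 q.2 i
  cB : ∀ s i, Continuous fun ξ => r.B s ξ i

/-- polynomial bounds at one state -/
structure Bd (K d : ℝ) (s : S) : Prop where
  bδ : P.δ s ≤ d
  bR : ∀ i j, |P.R s i j| ≤ K
  bG : ∀ i j, |r.G s i j| ≤ K
  bB : ∀ ξ i, |r.B s ξ i| ≤ K * (1 + F.sq ξ)
  cB : ∀ i, ∫ ξ, r.B s ξ i ∂gpi (Fin m) = 0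

variable {r P} in
theorem Bd.mono {K K' d : ℝ} {s : S} (h : r.Bd P K d s) (hK : K ≤ K') : r.Bd P K' d s :=
  ⟨h.bδ, fun i j => (h.bR i j).trans hK, fun i j => (h.bG i j).trans hK, fun ξ i =>
    (h.bB ξ i).trans (mul_le_mul_of_nonneg_right hK (by linarith [sqN_nonneg ξ])), h.cB⟩

variable {r} in
theorem Pre.ms_Bd (h : r.Pre) (K d : ℝ) : MeasurableSet {s | r.Bd P K d s} := by
  have e : {s | r.Bd P K d s} = {s | P.δ s ≤ d} ∩ ({s | EC.MB (P.R s) K} ∩ ({s | EC.MB (r.G s) K}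
      ∩ ((⋂ i, {s | ∀ ξ, |r.B s ξ i| ≤ K * (1 + F.sq ξ)})
        ∩ ⋂ i, {s | ∫ ξ, r.B s ξ i ∂gpi (Fin m) = 0}))) := by
    ext s
    simp only [Set.mem_ofPred_eq, Set.mem_inter_iff, Set.mem_iInter]
    exact ⟨fun a => ⟨a.bδ, a.bR, a.bG, fun i ξ => a.bB ξ i, a.cB⟩,
      fun a => ⟨a.1, a.2.1, a.2.2.1, fun ξ i => a.2.2.2.1 i ξ, a.2.2.2.2⟩⟩
  rw [e]
  refine (measurableSet_le P.measδ measurable_const).inter
    ((EC.ms_MB P.measR measurable_const).inter ((EC.ms_MB h.mG measurable_const).inter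
      ((MeasurableSet.iInter fun i => ?_).inter (MeasurableSet.iInter fun i => ?_))))
  · exact ms_all (f := fun s ξ => |r.B s ξ i|) (g := fun _ ξ => K * (1 + F.sq ξ))
      (fun ξ => ((h.mB i).comp (measurable_id.prodMk measurable_const)).abs)
      (fun _ => measurable_const) (fun s => (h.cB s i).abs)
      (fun _ => continuous_const.mul (continuous_const.add (cont_sq continuous_id)))
  · exact measurableSet_eq_fun
      ((h.mB i).stronglyMeasurable.integral_prod_right' (ν := gpi (Fin m))).measurable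
      measurable_const

/-- bound of the form of the response on the range of the covariance -/
def FormP (c : S → ℝ) : Set S :=
  {s | ∀ u, ip (P.Q s *ᵥ u) (r.G s *ᵥ (P.Q s *ᵥ u)) ≤ c s * F.sq (P.Q s *ᵥ u)}

/-- operator bound of the response times the covariance -/
def FormO (c : S → ℝ) : Set S := {s | OpLe (r.G s * P.Q s) (c s)}

variable {r} in
theorem Pre.ms_FormP (h : r.Pre) {c : S → ℝ} (hc : Measurable c) :
    MeasurableSet (r.FormP P c) :=
  ms_all (f := fun s u => ip (P.Q s *ᵥ u) (r.G s *ᵥ (P.Q s *ᵥ u)))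
    (g := fun s u => c s * F.sq (P.Q s *ᵥ u))
    (fun u => ((mm_Q P).mulVec (MVec.const u)).ip (h.mG.mulVec ((mm_Q P).mulVec (MVec.const u))))
    (fun u => hc.mul ((mm_Q P).mulVec (MVec.const u)).sq)
    (fun _ => cont_ip (cont_mv _ continuous_id) (cont_mv _ (cont_mv _ continuous_id)))
    (fun _ => continuous_const.mul (cont_sq (cont_mv _ continuous_id)))

variable {r} in
theorem Pre.ms_FormO (h : r.Pre) {c : S → ℝ} (hc : Measurable c) :
    MeasurableSet (r.FormO P c) :=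
  ms_all (f := fun s u => F.sq ((r.G s * P.Q s) *ᵥ u)) (g := fun s u => c s ^ 2 * F.sq u)
    (fun u => ((EC.mm_mul h.mG (mm_Q P)).mulVec (MVec.const u)).sq)
    (fun _ => (hc.pow_const 2).mul measurable_const)
    (fun _ => cont_sq (cont_mv _ continuous_id))
    (fun _ => continuous_const.mul (cont_sq continuous_id))

variable {r P} in
theorem FormP.le {c : S → ℝ} {s : S} (h : s ∈ r.FormP P c) (u : Vec n) (hu : P.Q s *ᵥ u = u) :
    ip u (r.G s *ᵥ u) ≤ c s * F.sq u := by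
  have h1 := h u
  rwa [hu] at h1

variable {r P} in
theorem mem_FormP {c : S → ℝ} {s : S} (hQ : P.Q s * P.Q s = P.Q s)
    (h : ∀ u, P.Q s *ᵥ u = u → ip u (r.G s *ᵥ u) ≤ c s * F.sq u) : s ∈ r.FormP P c :=
  fun u => h _ (by rw [Matrix.mulVec_mulVec, hQ])

open Classical in
/-- the first reference on `E`, the second one outside -/
noncomputable def sw (r' : Ref n m S) (E : Set S) : Ref n m S where
  mh s := if s ∈ E then r.mh s else r'.mh s
  G s := if s ∈ E then r.G s else r'.G s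
  B s := if s ∈ E then r.B s else r'.B s
  ka s := if s ∈ E then r.ka s else r'.ka s
  ok := ∅
  lst := ∅

section sw

variable (r' : Ref n m S) {E : Set S} {s : S}

omit [MeasurableSpace S]

theorem sw_mh (h : s ∈ E) : (r.sw r' E).mh s = r.mh s := if_pos h
theorem sw_G (h : s ∈ E) : (r.sw r' E).G s = r.G s := if_pos h
theorem sw_B (h : s ∈ E) : (r.sw r' E).B s = r.B s := if_pos h
theorem sw_ka (h : s ∈ E) : (r.sw r' E).ka s = r.ka s := if_pos h
theorem sw_mh' (h : s ∉ E) : (r.sw r' E).mh s = r'.mh s := if_neg h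
theorem sw_G' (h : s ∉ E) : (r.sw r' E).G s = r'.G s := if_neg h
theorem sw_B' (h : s ∉ E) : (r.sw r' E).B s = r'.B s := if_neg h
theorem sw_ka' (h : s ∉ E) : (r.sw r' E).ka s = r'.ka s := if_neg h

end sw

variable {r} in
theorem Pre.sw {r' : Ref n m S} (h : r.Pre) (h' : r'.Pre) {E : Set S} (hE : MeasurableSet E) :
    (r.sw r' E).Pre := by
  classical
  refine ⟨fun i => ?_, fun i j => ?_, fun i => ?_, fun s i => ?_⟩
  · have e : (fun s => (r.sw r' E).mh s i) = fun s => if s ∈ E then r.mh s i else r'.mh s i := by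
      funext s
      by_cases hs : s ∈ E
      · rw [r.sw_mh r' hs, if_pos hs]
      · rw [r.sw_mh' r' hs, if_neg hs]
    rw [e]
    exact Measurable.ite hE (h.mmh i) (h'.mmh i)
  · have e : (fun s => (r.sw r' E).G s i j) = fun s => if s ∈ E then r.G s i j else r'.G s i j := by
      funext s
      by_cases hs : s ∈ E
      · rw [r.sw_G r' hs, if_pos hs]
      · rw [r.sw_G' r' hs, if_neg hs]
    rw [e]
    exact Measurable.ite hE (h.mG i j) (h'.mG i j)
  · have e : (fun q : S × Vec m => (r.sw r' E).B q.1 q.2 i)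
        = fun q => if q.1 ∈ E then r.B q.1 q.2 i else r'.B q.1 q.2 i := by
      funext q
      by_cases hs : q.1 ∈ E
      · rw [r.sw_B r' hs, if_pos hs]
      · rw [r.sw_B' r' hs, if_neg hs]
    rw [e]
    exact Measurable.ite (measurable_fst hE) (h.mB i) (h'.mB i)
  · by_cases hs : s ∈ E
    · rw [r.sw_B r' hs]; exact h.cB s i
    · rw [r.sw_B' r' hs]; exact h'.cB s i

variable {r P} in
theorem Bd.congr {r' : Ref n m S} {K d : ℝ} {s : S} (h : r.Bd P K d s) (hG : r'.G s = r.G s)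
    (hB : r'.B s = r.B s) : r'.Bd P K d s :=
  ⟨h.bδ, h.bR, hG ▸ h.bG, hB ▸ h.bB, hB ▸ h.cB⟩

variable {r P} in
theorem Stp.congr {r' : Ref n m S} {s : S} {x : Cfg n} {ξ : Vec m} {m1 : Vec n} {e : ℝ}
    (h : r.Stp P s x ξ m1 e) (h0 : r'.mh s = r.mh s) (hG : r'.G s = r.G s) (hB : r'.B s = r.B s)
    (hk : r'.ka s = r.ka s) : r'.Stp P s x ξ m1 e := by
  unfold Stp
  rw [h0, hG, hB, hk]
  exact h

variable {r P} in
theorem Stp.mono {s : S} {x : Cfg n} {ξ : Vec m} {m1 : Vec n} {e e' : ℝ}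
    (h : r.Stp P s x ξ m1 e) (he : e ≤ e') : r.Stp P s x ξ m1 e' := fun i => (h i).trans he

open Classical in
/-- the canonical tracker: mean zero on the early states `E`, last early states `L`; locally good
means polynomial bounds and the extra condition `X` -/
noncomputable def can (K d : ℝ) (E L X : Set S) : Ref n m S where
  mh s := if s ∈ E then 0 else r.mh s
  G := r.G
  B := r.B
  ka := r.ka
  ok := {s | s ∉ E ∧ r.Bd P K d s ∧ s ∈ X}
  lst := L

section can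

variable (K d : ℝ) {E : Set S} (L X : Set S) {s : S}

theorem can_mh (h : s ∈ E) : (r.can P K d E L X).mh s = 0 := if_pos h
theorem can_mh' (h : s ∉ E) : (r.can P K d E L X).mh s = r.mh s := if_neg h
theorem can_G : (r.can P K d E L X).G = r.G := rfl
theorem can_ka : (r.can P K d E L X).ka = r.ka := rfl
theorem can_ok : s ∈ (r.can P K d E L X).ok ↔ s ∉ E ∧ r.Bd P K d s ∧ s ∈ X := Iff.rfl
theorem can_lst : s ∈ (r.can P K d E L X).lst ↔ s ∈ L := Iff.rfl

end can

variable {r} in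
theorem Pre.can_OK (h : r.Pre) {K d : ℝ} {E L X : Set S} (hK : 2 ≤ K) (hn : (n : ℝ) ≤ K)
    (hm : (m : ℝ) ≤ K) (hd : K ^ 8 * d ≤ 1) (hE : MeasurableSet E) (hL : MeasurableSet L)
    (hX : MeasurableSet X) (hLE : L ⊆ E) : (r.can P K d E L X).OK P K d := by
  classical
  refine ⟨hK, hn, hm, hd, fun i => ?_, h.mG, h.mB, hE.compl.inter ((h.ms_Bd P K d).inter hX), hL,
    fun s hs ho => ho.1 (hLE hs), fun s hs => hs.2.1.bδ, fun s hs => hs.2.1.bR,
    fun s hs => hs.2.1.bG, fun s hs => hs.2.1.bB, fun s hs => hs.2.1.cB⟩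
  have e : (fun s => (r.can P K d E L X).mh s i) = fun s => if s ∈ E then 0 else r.mh s i := by
    funext s
    by_cases hs : s ∈ E
    · rw [r.can_mh P K d L X hs, if_pos hs, Pi.zero_apply]
    · rw [r.can_mh' P K d L X hs, if_neg hs]
  rw [e]
  exact Measurable.ite hE measurable_const (h.mmh i)

end Ref

/-! ### the TAP reference -/

/-- the TAP reference attached to selectors `h`, `z` -/
noncomputable def tapRef (P : Proc n m S) (h : S → Vec n) (z : S → ℝ) : Ref n m S where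
  mh s := EC.tm (h s)
  G s := EC.Gm (P.M s) (h s) (z s)
  B s ξ := -(EC.Gm (P.M s) (h s) (z s) *ᵥ
    (EC.bq (P.M s) (h s) (z s) (P.R s *ᵥ ξ) - EC.eb (P.M s) (h s) (z s) (P.Q s)))
  ka s := EC.ka (P.M s) (h s) (z s) (P.Q s)
  ok := ∅
  lst := ∅

theorem cont_bq (J : Mat n) (h : Vec n) (z : ℝ) : Continuous (EC.bq J h z) := by
  refine continuous_pi fun i => ?_
  have g1 : Continuous fun a : Vec n => EC.Gam J h z *ᵥ a := cont_mv _ continuous_id
  have g2 : Continuous fun a : Vec n => EC.Gm J h z *ᵥ a := cont_mv _ continuous_id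
  have p : Continuous fun a : Vec n => ip (EC.tm h) (EC.Gm J h z *ᵥ a) :=
    cont_ip continuous_const g2
  exact ((continuous_const.mul (((continuous_apply i).comp g1).pow 2)).add
    (((continuous_const.mul (cont_sq g2)).add (continuous_const.mul (p.pow 2))).mul
      continuous_const)).add ((continuous_const.mul p).mul ((continuous_apply i).comp g2))

theorem tap_pre (P : Proc n m S) {h : S → Vec n} {z : S → ℝ} (hh : MVec h) (hz : Measurable z) :
    (tapRef P h z).Pre := by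
  refine ⟨EC.mv_tm hh, EC.mm_Gm P.measM hh hz, fun i => ?_, fun s i => ?_⟩
  · have hJ : MMat fun q : S × Vec m => P.M q.1 := fun a b => (P.measM a b).comp measurable_fst
    have hR : MMat fun q : S × Vec m => P.R q.1 := fun a b => (P.measR a b).comp measurable_fst
    have hQ : MMat fun q : S × Vec m => P.Q q.1 := fun a b => (mm_Q P a b).comp measurable_fst
    have h1 : MVec fun q : S × Vec m => h q.1 := fun a => (hh a).comp measurable_fst
    have h2 : Measurable fun q : S × Vec m => z q.1 := hz.comp measurable_fst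
    exact EC.mv_neg ((EC.mm_Gm hJ h1 h2).mulVec
      ((EC.mv_bq hJ h1 h2 (hR.mulVec (mvec_of measurable_snd))).sub (EC.mv_eb hJ h1 h2 hQ))) i
  · exact (continuous_apply i).comp (cont_mv _
      (((cont_bq _ _ _).comp (cont_mv _ continuous_id)).sub continuous_const)).neg

theorem abs_tm_le (h : Vec n) (i : Fin n) : |EC.tm h i| ≤ 1 := (Real.abs_tanh_lt_one _).le

/-- polynomial bounds at a well conditioned point -/
theorem tap_bd : ∃ p : ℕ, ∀ (n m : ℕ) (S : Type) [MeasurableSpace S] (P : Proc n m S)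
    (h : S → Vec n) (z : S → ℝ) (K d : ℝ) (s : S), EC.Loc K (P.M s) (h s) (z s) → (m : ℝ) ≤ K →
    (∀ i j, |P.R s i j| ≤ K) → P.δ s ≤ d → (tapRef P h z).Bd P (K ^ p) d s := by
  obtain ⟨p, hp⟩ := EC.crude
  refine ⟨3 * p + 4, fun n m S _ P h z K d s L hm hR hd => ?_⟩
  have K1 : 1 ≤ K := by linarith [L.hK]
  have K0 : 0 ≤ K := by linarith
  have K3 : K ≤ K ^ 3 := le_self_pow₀ K1 (by norm_num)
  obtain ⟨a1, -, -, a4, a5⟩ := hp n (K ^ 3) (P.M s) (P.Q s) (h s) (z s) (L.mono K3)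
    (abs_Q_le K0 hm hR)
  rw [← pow_mul] at a1 a4 a5
  have K4 : K ^ (3 * p) ≤ K ^ (3 * p + 4) := pow_le_pow_right₀ K1 (by omega)
  refine ⟨hd, fun i j => (hR i j).trans (le_self_pow₀ K1 (by omega)),
    fun i j => (a1 i j).trans K4, fun ξ i => ?_, fun i => ?_⟩
  · have b1 : ∀ j, |(P.R s *ᵥ ξ) j| ≤ K ^ 2 * nv ξ := fun j =>
      (abs_mv_le hR (fun l => abs_le_nv ξ l) K0 j).trans
        ((mul_le_mul_of_nonneg_right hm (mul_nonneg K0 (nv_nonneg ξ))).trans (le_of_eq (by ring)))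
    have b2 := a5 _ _ b1 i
    rw [mul_pow, nv_sq, ← mul_assoc, ← pow_mul, ← pow_add] at b2
    have b3 := a4 i
    change |(-(EC.Gm (P.M s) (h s) (z s) *ᵥ
      (EC.bq (P.M s) (h s) (z s) (P.R s *ᵥ ξ) - EC.eb (P.M s) (h s) (z s) (P.Q s)))) i| ≤ _
    rw [Pi.neg_apply, abs_neg, Matrix.mulVec_sub, Pi.sub_apply]
    refine (abs_sub _ _).trans ?_
    linarith
  · change ∫ ξ, (-(EC.Gm (P.M s) (h s) (z s) *ᵥ
      (EC.bq (P.M s) (h s) (z s) (P.R s *ᵥ ξ) - EC.eb (P.M s) (h s) (z s) (P.Q s)))) i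
        ∂gpi (Fin m) = 0
    have i1 : ∀ j, Integrable (fun ξ : Vec m => EC.bq (P.M s) (h s) (z s) (P.R s *ᵥ ξ) j
        - EC.eb (P.M s) (h s) (z s) (P.Q s) j) (gpi (Fin m)) := fun j =>
      (EC.integrable_bq _ _ _ _ j).sub (integrable_const _)
    have e : ∀ ξ : Vec m, (-(EC.Gm (P.M s) (h s) (z s) *ᵥ
        (EC.bq (P.M s) (h s) (z s) (P.R s *ᵥ ξ) - EC.eb (P.M s) (h s) (z s) (P.Q s)))) i
        = -∑ j, EC.Gm (P.M s) (h s) (z s) i j * (EC.bq (P.M s) (h s) (z s) (P.R s *ᵥ ξ) j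
          - EC.eb (P.M s) (h s) (z s) (P.Q s) j) := fun ξ => rfl
    simp only [e]
    rw [integral_neg, integral_finsetSum _ fun j _ => (i1 j).const_mul _, neg_eq_zero]
    refine Finset.sum_eq_zero fun j _ => ?_
    rw [integral_const_mul, integral_sub (EC.integrable_bq _ _ _ _ j) (integrable_const _),
      EC.integral_bq, integral_const, probReal_univ, one_smul]
    exact mul_eq_zero_of_right _ (sub_self _)

/-- the facts on two consecutive approximate solutions -/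
structure TapSt (K δ : ℝ) (J : Mat n) (y h : Vec n) (z : ℝ) (J' : Mat n) (y' h' : Vec n)
    (z' : ℝ) : Prop where
  loc : EC.Loc K J h z
  loc' : EC.Loc K J' h' z'
  dh : ∀ i, |h' i - h i| ≤ K ^ 4 * √δ
  dz : |z' - z| ≤ K ^ 4 * √δ
  r1 : ∀ i, |EC.res1 J y h z i| ≤ δ ^ 2
  r2 : |EC.res2 J h z| ≤ δ ^ 2
  r1' : ∀ i, |EC.res1 J' y' h' z' i| ≤ δ ^ 2
  r2' : |EC.res2 J' h' z'| ≤ δ ^ 2

theorem tap_stp : ∃ p : ℕ, ∀ (n m : ℕ) (S : Type) [MeasurableSpace S] (P : Proc n m S)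
    (h : S → Vec n) (z : S → ℝ) (K : ℝ) (s : S) (x : Cfg n) (ξ : Vec m) (h' : Vec n) (z' : ℝ),
    TapSt K (P.δ s) (P.M s) (P.y s) (h s) (z s) (P.M (P.nx s x ξ)) (P.y (P.nx s x ξ)) h' z' →
    K ^ 8 * P.δ s ≤ 1 → (m : ℝ) ≤ K → (∀ i j, |P.R s i j| ≤ K) → ξ ∈ Box m K →
    (tapRef P h z).Stp P s x ξ (EC.tm h') (K ^ p * (P.δ s * √(P.δ s))) := by
  obtain ⟨p, hp⟩ := EC.chanStmt
  refine ⟨p, fun n m S _ P h z K s x ξ h' z' T hd hm hR hξ i => ?_⟩
  rw [M_nx, y_nx] at T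
  have key := hp n m K (P.δ s) (P.M s) (P.R s) (sv x) (P.y s) (h s) h' ξ (z s) z' T.loc T.loc'
    (P.hδ s).le hd hm hR (fun i => (abs_sv x i).le) hξ T.dh T.dz T.r1 T.r2 T.r1' T.r2' i
  change |(EC.tm h' - EC.tm (h s) - EC.Gm (P.M s) (h s) (z s) *ᵥ
      (P.δ s • ((P.R s * (P.R s)ᵀ) *ᵥ (sv x - EC.tm (h s))) + √(P.δ s) • (P.R s *ᵥ ξ))
    - P.δ s • EC.ka (P.M s) (h s) (z s) (P.R s * (P.R s)ᵀ) - P.δ s • -(EC.Gm (P.M s) (h s) (z s) *ᵥ
      (EC.bq (P.M s) (h s) (z s) (P.R s *ᵥ ξ) - EC.eb (P.M s) (h s) (z s) (P.R s * (P.R s)ᵀ)))) i|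
    ≤ _
  rw [smul_neg, sub_neg_eq_add]
  exact key

/-! ### the spherical reference -/

/-- the spherical reference -/
noncomputable def radRef (P : Proc n m S) : Ref n m S where
  mh s := Rad.mr (P.M s) (P.y s)
  G s := Rad.Gr (P.M s) (P.y s)
  B s ξ := -(Rad.br (P.M s) (P.y s) (P.R s *ᵥ ξ) - Rad.er (P.M s) (P.y s) (P.Q s))
  ka s := Rad.kr (P.M s) (P.y s) (P.Q s)
  ok := ∅
  lst := ∅

theorem cont_bs (J : Mat n) (y : Vec n) (z : ℝ) : Continuous (Rad.bs J y z) := by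
  have g1 : Continuous fun a : Vec n => EC.G0 J z *ᵥ a := cont_mv _ continuous_id
  have h1 : Continuous (Rad.z1 J y z) :=
    (continuous_const.mul (cont_ip continuous_const continuous_id)).div_const _
  exact ((h1.smul (cont_mv _ g1)).sub ((h1.pow 2).smul continuous_const)).add
    ((((((h1.pow 2).mul continuous_const).sub ((continuous_const.mul h1).mul
      (cont_ip continuous_const continuous_id))).add (cont_sq g1)).div_const _).smul
      continuous_const)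

theorem rad_pre (hn : 0 < n) (P : Proc n m S) : (radRef P).Pre := by
  have hy : Measurable P.y := measurable_pi_lambda _ P.measy
  refine ⟨mvec_of (Rad.meas_mr hn P.measM hy), Rad.mm_Gr' hn P.measM hy, fun i => ?_,
    fun s i => ?_⟩
  · have hJ : MMat fun q : S × Vec m => P.M q.1 := fun a b => (P.measM a b).comp measurable_fst
    have hR : MMat fun q : S × Vec m => P.R q.1 := fun a b => (P.measR a b).comp measurable_fst
    have hQ : MMat fun q : S × Vec m => P.Q q.1 := fun a b => (mm_Q P a b).comp measurable_fst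
    have h1 : Measurable fun q : S × Vec m => P.y q.1 := hy.comp measurable_fst
    exact EC.mv_neg ((mvec_of (Rad.meas_br hn hJ h1
      (hR.mulVec (mvec_of measurable_snd)).measurable)).sub (mvec_of (Rad.meas_er hn hJ h1 hQ))) i
  · exact (continuous_apply i).comp
      (((cont_bs _ _ _).comp (cont_mv _ continuous_id)).sub continuous_const).neg

/-- a state with simultaneously diagonal coupling and covariance, and a bounded field -/
structure RadSt (K : ℝ) (J Q : Mat n) (y : Vec n) : Prop where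
  npos : 0 < n
  hK : 2 ≤ K
  hn : (n : ℝ) ≤ K
  diag : ∃ (lam q : Vec n) (O : OG n), J = JO lam O ∧ Q = JO q O ∧ (∀ a, |lam a| ≤ K) ∧
    (∀ a, 0 ≤ q a) ∧ ∀ a, q a ≤ K
  hy : ∀ i, |y i| ≤ K

theorem rad_bd : ∃ p : ℕ, ∀ (n m : ℕ) (S : Type) [MeasurableSpace S] (P : Proc n m S)
    (K d : ℝ) (s : S), RadSt K (P.M s) (P.Q s) (P.y s) → (m : ℝ) ≤ K →
    (∀ i j, |P.R s i j| ≤ K) → P.δ s ≤ d → (radRef P).Bd P (K ^ p) d s := by
  obtain ⟨p, hp⟩ := Rad.crude_root
  refine ⟨2 * p + 2, fun n m S _ P K d s T hm hR hd => ?_⟩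
  obtain ⟨lam, q, O, e1, e2, hl, q0, q1⟩ := T.diag
  have hK := T.hK
  have K1 : 1 ≤ K := by linarith
  have K0 : 0 ≤ K := by linarith
  have K2 : K ≤ K ^ 2 := le_self_pow₀ K1 (by norm_num)
  have key := fun ξ hξ => hp n (K ^ 2) lam q O (P.y s) ξ T.npos (hK.trans K2) (T.hn.trans K2)
    (fun a => (hl a).trans K2) q0 (fun a => (q1 a).trans K2) (fun i => (T.hy i).trans K2) hξ
  rw [← e1, ← e2, ← pow_mul] at key
  obtain ⟨a1, -, -, a4⟩ := key 0 fun i => by rw [Pi.zero_apply, abs_zero]; positivity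
  have K4 : K ^ (2 * p) ≤ K ^ (2 * p + 2) := pow_le_pow_right₀ K1 (by omega)
  have hs : (P.M s).IsSymm := e1 ▸ Rad.JO_symm lam O
  refine ⟨hd, fun i j => (hR i j).trans (le_self_pow₀ K1 (by omega)),
    fun i j => (a1 i j).trans K4, fun ξ i => ?_, fun i => ?_⟩
  · have c0 : 0 < 1 + nv ξ := by linarith [nv_nonneg ξ]
    have b0 : ∀ l, |((1 + nv ξ)⁻¹ • ξ) l| ≤ 1 := fun l => by
      rw [Pi.smul_apply, smul_eq_mul, abs_mul, abs_of_pos (inv_pos.2 c0), inv_mul_le_iff₀ c0]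
      linarith [abs_le_nv ξ l]
    have b1 : ∀ j, |(P.R s *ᵥ ((1 + nv ξ)⁻¹ • ξ)) j| ≤ K ^ 2 := fun j =>
      (abs_mv_le hR b0 K0 j).trans
        ((mul_le_mul_of_nonneg_right hm (by positivity)).trans (le_of_eq (by ring)))
    have b2 := (key _ b1).2.2.1 i
    have b3 : Rad.br (P.M s) (P.y s) (P.R s *ᵥ ξ)
        = (1 + nv ξ) ^ 2 • Rad.br (P.M s) (P.y s) (P.R s *ᵥ ((1 + nv ξ)⁻¹ • ξ)) := by
      unfold Rad.br
      rw [← Rad.bs_smul, ← Matrix.mulVec_smul, smul_smul, mul_inv_cancel₀ c0.ne', one_smul]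
    have b4 : (1 + nv ξ) ^ 2 ≤ 2 * (1 + F.sq ξ) := by
      rw [← nv_sq]
      nlinarith [sq_nonneg (1 - nv ξ)]
    have b5 := a4 i
    have b6 : 0 ≤ K ^ (2 * p) := by positivity
    have b7 : 0 ≤ F.sq ξ := sqN_nonneg ξ
    have b8 := mul_le_mul b4 b2 (abs_nonneg _) (by positivity)
    have b9 : 4 * K ^ (2 * p) ≤ K ^ (2 * p + 2) := by
      rw [pow_add]
      nlinarith [mul_le_mul_of_nonneg_left (show 4 ≤ K ^ 2 by nlinarith) b6]
    have b10 := mul_le_mul_of_nonneg_right b9 (show 0 ≤ 1 + F.sq ξ by linarith)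
    change |(-(Rad.br (P.M s) (P.y s) (P.R s *ᵥ ξ) - Rad.er (P.M s) (P.y s) (P.Q s))) i| ≤ _
    rw [Pi.neg_apply, abs_neg, Pi.sub_apply, b3, Pi.smul_apply, smul_eq_mul]
    refine (abs_sub _ _).trans ?_
    rw [abs_mul, abs_of_nonneg (sq_nonneg _)]
    nlinarith [mul_nonneg b6 b7]
  · change ∫ ξ, -(Rad.br (P.M s) (P.y s) (P.R s *ᵥ ξ) i - Rad.er (P.M s) (P.y s) (P.Q s) i)
        ∂gpi (Fin m) = 0
    rw [integral_neg, integral_sub (Rad.integrable_br' hs _ _ i) (integrable_const _),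
      Rad.integral_br' hs, integral_const, probReal_univ, one_smul, neg_eq_zero]
    exact sub_self _

theorem rad_stp : ∃ p : ℕ, ∀ (n m : ℕ) (S : Type) [MeasurableSpace S] (P : Proc n m S)
    (K : ℝ) (s : S) (x : Cfg n) (ξ : Vec m), RadSt K (P.M s) (P.Q s) (P.y s) → (m : ℝ) ≤ K →
    (∀ i j, |P.R s i j| ≤ K) → ξ ∈ Box m K →
    (radRef P).Stp P s x ξ ((radRef P).mh (P.nx s x ξ)) (K ^ p * (P.δ s * √(P.δ s))) := by
  obtain ⟨p, hp⟩ := Rad.chan_root
  refine ⟨3 * p, fun n m S _ P K s x ξ T hm hR hξ i => ?_⟩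
  obtain ⟨lam, q, O, e1, e2, hl, q0, q1⟩ := T.diag
  have hK := T.hK
  have K1 : 1 ≤ K := by linarith
  have K0 : 0 ≤ K := by linarith
  have K3 : K ≤ K ^ 3 := le_self_pow₀ K1 (by norm_num)
  have b1 : ∀ j, |(P.R s *ᵥ ξ) j| ≤ K ^ 3 := fun j =>
    (abs_mv_le hR hξ K0 j).trans
      ((mul_le_mul_of_nonneg_right hm (by positivity)).trans (le_of_eq (by ring)))
  have key := hp n (K ^ 3) (P.δ s) lam q O (sv x) (P.y s) (P.R s *ᵥ ξ) T.npos (hK.trans K3)
    (T.hn.trans K3) (fun a => (hl a).trans K3) q0 (fun a => (q1 a).trans K3)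
    (fun i => (abs_sv x i).le.trans (K1.trans K3)) (fun i => (T.hy i).trans K3) b1 (P.hδ s).le
    (P.hδ1 s) i
  rw [← e1, ← e2, ← pow_mul] at key
  change |(Rad.mr (P.M (P.nx s x ξ)) (P.y (P.nx s x ξ)) - Rad.mr (P.M s) (P.y s)
    - Rad.Gr (P.M s) (P.y s) *ᵥ
      (P.δ s • (P.Q s *ᵥ (sv x - Rad.mr (P.M s) (P.y s))) + √(P.δ s) • (P.R s *ᵥ ξ))
    - P.δ s • Rad.kr (P.M s) (P.y s) (P.Q s) - P.δ s •
      -(Rad.br (P.M s) (P.y s) (P.R s *ᵥ ξ) - Rad.er (P.M s) (P.y s) (P.Q s))) i| ≤ _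
  rw [smul_neg, sub_neg_eq_add, M_nx, y_nx]
  exact key

theorem RadSt.abs_mr {K : ℝ} {J Q : Mat n} {y : Vec n} (T : RadSt K J Q y) (y' : Vec n)
    (i : Fin n) : |Rad.mr J y' i| ≤ K := by
  obtain ⟨lam, q, O, e1, -⟩ := T.diag
  have h1 : F.sq (Rad.mr J y') ≤ n := e1 ▸ Rad.sq_mr_le T.npos lam O y'
  have h2 := abs_le_nv (Rad.mr J y') i
  have h3 := nv_sq (Rad.mr J y')
  have h4 := nv_nonneg (Rad.mr J y')
  have h5 := T.hK
  have h6 := T.hn
  nlinarith

end Vale.Agent.N150.Cap
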