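import Vale.Agent.N150.RecKap
import Vale.Agent.N150.CapTap
import Vale.Agent.N150.BrDef
import Vale.Agent.N150.A1Lev

/-! P150 at the critical point: the interfaces of the path assembly, for a fixed spectrum and a
Haar distributed frame. -/

open Matrix MeasureTheory Filter Topology

namespace Vale.Agent.N150.Asm

open Vale.Agent.P150 Vale.Agent.P150.F Vale.Agent.N150.Sp Vale.Agent.N150.Cap
  Vale.Agent.N150.Rec Vale.Agent.N150.Edge Vale.Agent.N150.Plant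

variable {n : ℕ}

/-- the scale of the rigidity -/
noncomputable def wn (n : ℕ) : ℝ := √(Real.log n)

/-- upper bound of the response on the range of `P` -/
def Frm (s Lam : ℝ) (P G : Mat n) : Prop :=
  ∀ u, P *ᵥ u = u → s * ip u (G *ᵥ u) ≤ Lam * F.sq u

/-- sharp form of the response on the range of `P` -/
def T1F (s η : ℝ) (P G : Mat n) (y : Vec n) : Prop :=
  ∀ u v, P *ᵥ u = u → P *ᵥ v = v →
    |s * ip u (G *ᵥ v) - (ip u v - ip y u * ip y v / (2 * F.sq y))| ≤ η * nv u * nv v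

variable {lam : Vec n} {t : ℕ → ℝ} {dl : ℝ}

/-- the mean field reference `(h, z)` along the path `q` on the index range `[c, N]` -/
structure TapPath (hG : Grid lam t dl) (h : St n → Vec n) (z : St n → ℝ)
    (cen : Mat n → Vec n → Vec n) (K₀ η e K : ℝ) (c N : ℕ)
    (q : (OG n × Cfg n) × (ℕ → Vec n)) : Prop where
  st : ∀ k, c ≤ k → k < N → TapSt K₀ (t (k + 1) - t k) (sJ (trC hG q k)) (sy (trC hG q k))
    (h (trC hG q k)) (z (trC hG q k)) (sJ (trC hG q (k + 1))) (sy (trC hG q (k + 1)))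
    (h (trC hG q (k + 1))) (z (trC hG q (k + 1)))
  t1 : ∀ k, c ≤ k → k < N → T1F (t k) η (capP lam t q.1.1 k)
    (EC.Gm (sJ (trC hG q k)) (h (trC hG q k)) (z (trC hG q k))) (sy (trC hG q k))
  ka : ∀ k, c ≤ k → k < N → t k * √(t k) * nv (capP lam t q.1.1 k *ᵥ
    EC.ka (sJ (trC hG q k)) (h (trC hG q k)) (z (trC hG q k)) (capP lam t q.1.1 k)) ≤
      t k ^ e * √K
  jump : F.sq (EC.tm (h (trC hG q c)) - Rad.mr (sJ (trC hG q c)) (sy (trC hG q c))) ≤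
    n * t c ^ (99 / 100 : ℝ)
  cen : nv (EC.tm (h (trC hG q N)) - cen (sJ (trC hG q N)) (sy (trC hG q N))) ≤ 1

/-- [TAP] the mean field tier under the planted law, for the levels `K ≥ lo n` -/
def TapQ (lo : ℕ → ℝ) (cen : ∀ n, Mat n → Vec n → Vec n) : Prop :=
  ∃ p : ℕ, ∀ η : ℝ, 0 < η → ∃ e T₀ : ℝ, 0 < e ∧ 0 < T₀ ∧ ∀ᶠ n : ℕ in atTop,
    ∀ lam : Vec n, Rigid (wn n) lam → ∀ (t : ℕ → ℝ) (dl : ℝ) (hG : Grid lam t dl),
    ((n : ℝ) ^ p) ^ 8 * dl ≤ 1 → ∀ K : ℝ, lo n ≤ K → Real.log n ≤ K → ∀ c N : ℕ,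
    (K / n) ^ (51 / 100 : ℝ) ≤ t c → c ≤ N → t N ≤ T₀ →
    ∃ (h : St n → Vec n) (z : St n → ℝ), Measurable h ∧ Measurable z ∧
      (plN n (diagonal lam) 0).real {q | ¬TapPath hG h z (cen n) ((n : ℝ) ^ p) η e K c N q} ≤
        (n : ℝ) ^ p * ((N : ℝ) + 1) ^ 2 * Real.exp (-(5 * K))

/-- an event of two independent GOE matrices whose probability tends to one -/
def PairW (EG : ∀ n, Mat n → Mat n → Prop) : Prop :=
  Tendsto (fun n : ℕ => ((End.PW n).prod (End.PW n)).real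
    {p | ¬EG n (End.goe p.1) (End.goe p.2)}) atTop (𝓝 0)

/-- for every rigid spectrum and every splitting in the frame, the frames which satisfy `EG` but
not `Q` have small outer Haar measure -/
def HaarW (b sg : ℝ) (EG : ∀ n, Mat n → Mat n → Prop)
    (Q : ∀ n, Vec n → OG n → Prop) : Prop :=
  ∀ d : ℝ, 0 < d → ∀ᶠ n : ℕ in atTop, ∀ (lam : Vec n) (J₁ W : Mat n), J₁ᵀ = J₁ → Wᵀ = W →
    Rigid (wn n) lam → b • J₁ + sg • W = diagonal lam →
    (haar n).real {O | EG n (Jr O J₁) (Jr O W) ∧ ¬Q n lam O} ≤ d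

/-- [TERM] bridge and end game: terminal bounds for every grid and every index with time in
`[T, 2 T]` -/
def TermQ (cen : ∀ n, Mat n → Vec n → Vec n) : Prop :=
  ∃ T₁ : ℝ, 0 < T₁ ∧ ∀ T : ℝ, 0 < T → T ≤ T₁ →
    ∃ (b sg : ℝ) (EG : ∀ n, Mat n → Mat n → Prop) (CT c : ℝ), b ^ 2 + sg ^ 2 = 1 ∧ 1 ≤ CT ∧
      0 < c ∧ PairW EG ∧ ∀ d : ℝ, 0 < d → ∀ᶠ n : ℕ in atTop,
      ∀ (lam : Vec n) (J₁ W : Mat n), J₁ᵀ = J₁ → Wᵀ = W → Rigid (wn n) lam →
      b • J₁ + sg • W = diagonal lam → ∀ (t : ℕ → ℝ) (dl : ℝ) (hG : Grid lam t dl) (N : ℕ),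
      n * dl ≤ 1 → T ≤ t N → t N ≤ 2 * T →
      (haar n).real {O | EG n (Jr O J₁) (Jr O W) ∧
        ¬Br.TA hG N (cen n) CT CT (Real.exp (-(c * n))) O} ≤ d

/-- tracked paths on all dyadic levels between `max (lo, a₀ log n)` and `k₀ n` -/
def PrL (lo γ ε θ a₀ k₀ : ℝ) (μ : Cfg n → ℝ) : Prop :=
  ∀ j : ℕ, lo ≤ 2 ^ j → a₀ * Real.log n ≤ 2 ^ j → (2 : ℝ) ^ j ≤ k₀ * n →
    A1.PathAt μ (2 ^ j) ((n : ℝ) ^ (γ + ε)) (θ * 2 ^ j) (1 / n)

/-- [PATH] the output of the assembly -/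
def PathH (lo : ℕ → ℝ) : Prop :=
  ∃ a₀ : ℝ, ∀ ε θ : ℝ, 0 < ε → 0 < θ → ∃ k₀ : ℝ, 0 < k₀ ∧
    ∃ (b sg : ℝ) (EG : ∀ n, Mat n → Mat n → Prop), b ^ 2 + sg ^ 2 = 1 ∧ PairW EG ∧
      HaarW b sg EG fun n lam O => PrL (lo n) (2 / 3) ε θ a₀ k₀ (gM (JO lam O) 0)

theorem T1F.frm {s η : ℝ} {P G : Mat n} {y : Vec n} (h : T1F s η P G y) : Frm s (1 + η) P G := by
  intro u hu
  have h1 := (abs_le.1 (h u u hu hu)).2
  have h2 : 0 ≤ ip y u * ip y u / (2 * F.sq y) :=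
    div_nonneg (mul_self_nonneg _) (by linarith [sqN_nonneg y])
  rw [mul_assoc η, ← pow_two (nv u), nv_sq, ipN_self] at h1
  linarith

theorem Frm.mono {s a b : ℝ} {P G : Mat n} (h : Frm s a P G) (hab : a ≤ b) : Frm s b P G :=
  fun u hu => (h u hu).trans (mul_le_mul_of_nonneg_right hab (sqN_nonneg u))

theorem tendsto_wn : Tendsto wn atTop atTop :=
  Real.tendsto_sqrt_atTop.comp (Real.tendsto_log_atTop.comp tendsto_natCast_atTop_atTop)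

end Vale.Agent.N150.Asm
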