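import Mathlib
import Vale.Agent.N150.EndGauss

/-! Law comparison for the endgame at the critical temperature: the field observed with precision
`σ W + k` under the law of the GOE matrix `W` tilted by `exp(σ xᵀWx/2 - σ² n/4)` is dominated by
`exp(ε n)` times the isotropic Gaussian law `N(γ x, γ)`, `γ = k + σ²`, up to a mass `exp(-c n)`. -/

open MeasureTheory ProbabilityTheory Matrix Real Filter Topology
open scoped ENNReal

set_option linter.unusedSectionVars false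

namespace Vale.Agent.N150.Law

open Vale.Agent.P150 Vale.Agent.P150.F Vale.Agent.N150.Edge

variable {n : ℕ}

/-- the precision which kills `σ W` -/
def Q2 (σ k : ℝ) (W : Mat n) : Mat n := σ • W + k • (1 : Mat n)

/-- the integral of `Ψ` for the planted law `N(Q x, Q)`, through its density -/
noncomputable def pl (Q : Mat n) (x : Vec n) (Ψ : Vec n → ℝ≥0∞) : ℝ≥0∞ :=
  ∫⁻ y, ENNReal.ofReal (dens Q y) * (ENNReal.ofReal (Real.exp (ip y x - qf Q x / 2)) * Ψ y)

open Classical in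
/-- `pl` for the precision `Q2 σ k W`, on the event that `W` has norm at most `c₀` -/
noncomputable def plG (σ k c₀ : ℝ) (x : Vec n) (Ψ : Vec n → ℝ≥0∞) (W : Mat n) : ℝ≥0∞ :=
  if OpLe W c₀ then pl (Q2 σ k W) x Ψ else 0

open Classical in
/-- the density for the precision `Q2 σ k W`, on the event that `W` has norm at most `c₀` -/
noncomputable def dG (σ k c₀ : ℝ) (y : Vec n) (W : Mat n) : ℝ≥0∞ :=
  if OpLe W c₀ then ENNReal.ofReal (dens (Q2 σ k W) y) else 0

/-- the tilt of the GOE -/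
noncomputable def wG (σ : ℝ) (x : Vec n) (W : Mat n) : ℝ≥0∞ :=
  ENNReal.ofReal (Real.exp (σ * qf W x / 2 - σ ^ 2 * n / 4))

section
open scoped MatrixOrder

theorem exists_root {Q : Mat n} (hs : ∀ i j, Q i j = Q j i) (hQ : ∀ v, 0 ≤ qf Q v) :
    ∃ R : Mat n, R * Rᵀ = Q := by
  have hpsd : Q.PosSemidef := by
    refine Matrix.PosSemidef.of_dotProduct_mulVec_nonneg ?_ ?_
    · ext i j
      rw [Matrix.conjTranspose_apply, star_trivial, hs j i]
    · intro v
      rw [star_trivial]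
      exact hQ v
  obtain ⟨B, hB⟩ := CStarAlgebra.nonneg_iff_eq_star_mul_self.mp hpsd.nonneg
  refine ⟨Bᵀ, ?_⟩
  rw [hB, Matrix.transpose_transpose, Matrix.star_eq_conjTranspose]
  congr 1

end

theorem qf_add' (A B : Mat n) (v : Vec n) : qf (A + B) v = qf A v + qf B v := by
  unfold qf; rw [Matrix.add_mulVec, ip_add_right]

theorem qf_smul' (c : ℝ) (A : Mat n) (v : Vec n) : qf (c • A) v = c * qf A v := by
  unfold qf; rw [Matrix.smul_mulVec, ip_smul_right]

theorem qf_one' (v : Vec n) : qf (1 : Mat n) v = F.sq v := by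
  unfold qf; rw [Matrix.one_mulVec, ipN_self]

theorem qf_Q2 (σ k : ℝ) (W : Mat n) (v : Vec n) :
    qf (Q2 σ k W) v = σ * qf W v + k * F.sq v := by
  unfold Q2; rw [qf_add', qf_smul', qf_smul', qf_one']

theorem abs_qf_le {W : Mat n} {c : ℝ} (hc : 0 ≤ c) (h : OpLe W c) (v : Vec n) :
    |qf W v| ≤ c * F.sq v := by
  have h1 := abs_ip_le v (W.mulVec v)
  have h2 := mul_le_mul_of_nonneg_left (h.nv_le hc v) (nv_nonneg v)
  rw [← nv_sq]
  unfold qf
  nlinarith

theorem Q2_lower {σ k c₀ : ℝ} (hσ : 0 ≤ σ) (hc : 0 ≤ c₀) {W : Mat n} (h : OpLe W c₀) (v : Vec n) :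
    (k - c₀ * σ) * F.sq v ≤ qf (Q2 σ k W) v := by
  rw [qf_Q2]
  have := mul_le_mul_of_nonneg_left (abs_le.1 (abs_qf_le hc h v)).1 hσ
  linarith

theorem Q2_upper {σ k c₀ : ℝ} (hσ : 0 ≤ σ) (hc : 0 ≤ c₀) {W : Mat n} (h : OpLe W c₀) (v : Vec n) :
    qf (Q2 σ k W) v ≤ (k + c₀ * σ) * F.sq v := by
  rw [qf_Q2]
  have := mul_le_mul_of_nonneg_left (abs_le.1 (abs_qf_le hc h v)).2 hσ
  linarith

theorem Q2_symm (σ k : ℝ) {W : Mat n} (hs : ∀ i j, W i j = W j i) (i j : Fin n) :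
    Q2 σ k W i j = Q2 σ k W j i := by
  simp only [Q2, Matrix.add_apply, Matrix.smul_apply, Matrix.one_apply, hs i j, eq_comm]

theorem Q2_conj (σ k : ℝ) {O : Mat n} (hO : Oᵀ * O = 1) (W : Mat n) :
    Q2 σ k (O * W * Oᵀ) = O * Q2 σ k W * Oᵀ := by
  have hO' : O * Oᵀ = 1 := mul_eq_one_comm.1 hO
  unfold Q2
  rw [Matrix.mul_add, Matrix.add_mul, Matrix.mul_smul, Matrix.smul_mul, Matrix.mul_smul,
    Matrix.smul_mul, Matrix.mul_one, hO']

theorem continuous_Q2 (σ k : ℝ) : Continuous (Q2 σ k : Mat n → Mat n) := by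
  unfold Q2
  exact (continuous_id.const_smul σ).add continuous_const

theorem continuous_qf (x : Vec n) : Continuous fun W : Mat n => qf W x := by
  unfold qf ip Matrix.mulVec dotProduct
  refine continuous_finsetSum _ fun i _ => continuous_const.mul
    (continuous_finsetSum _ fun j _ => (continuous_apply_apply i j).mul continuous_const)

theorem pl_eq {R Q : Mat n} (hR : R * Rᵀ = Q) (hQ : Q.det ≠ 0) (x : Vec n) {Ψ : Vec n → ℝ≥0∞}
    (hΨ : Measurable Ψ) :
    pl Q x Ψ = ∫⁻ ξ, Ψ (Q.mulVec x + R.mulVec ξ) ∂gpi (Fin n) :=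
  (lintegral_planted hR hQ x hΨ).symm

/-! ### measurability -/

section meas
variable {X : Type*} [MeasurableSpace X] [TopologicalSpace X] [BorelSpace X]
  [SecondCountableTopology X]

theorem measurableSet_opLe {W : X → Mat n} (hW : Continuous W) (c : ℝ) :
    MeasurableSet {p | OpLe (W p) c} := ((isClosed_opLe c).preimage hW).measurableSet

theorem measurable_dG (σ k c₀ : ℝ) {W : X → Mat n} (hW : Continuous W) :
    Measurable fun p : X × Vec n => dG σ k c₀ p.2 (W p.1) := by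
  unfold dG
  refine Measurable.ite (measurableSet_opLe (hW.comp continuous_fst) c₀) ?_ measurable_const
  exact (measurable_dens ((continuous_Q2 σ k).comp (hW.comp continuous_fst))
    measurable_snd).ennreal_ofReal

theorem measurable_dG' (σ k c₀ : ℝ) (y : Vec n) {W : X → Mat n} (hW : Continuous W) :
    Measurable fun p : X => dG σ k c₀ y (W p) := by
  unfold dG
  refine Measurable.ite (measurableSet_opLe hW c₀) ?_ measurable_const
  exact (measurable_dens ((continuous_Q2 σ k).comp hW) measurable_const).ennreal_ofReal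

theorem measurable_wG (σ : ℝ) (x : Vec n) {W : X → Mat n} (hW : Continuous W) :
    Measurable fun p => wG σ x (W p) := by
  unfold wG
  have := ((continuous_qf x).comp hW).measurable
  exact (((this.const_mul σ).div_const 2).sub_const _).exp.ennreal_ofReal

theorem measurable_eip (x : Vec n) (c : ℝ) :
    Measurable fun y : Vec n => ENNReal.ofReal (Real.exp (ip y x - c)) := by
  unfold ip
  fun_prop

theorem plG_eq (σ k c₀ : ℝ) (x : Vec n) (Ψ : Vec n → ℝ≥0∞) (W : Mat n) :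
    plG σ k c₀ x Ψ W = ∫⁻ y, dG σ k c₀ y W *
      (ENNReal.ofReal (Real.exp (ip y x - qf (Q2 σ k W) x / 2)) * Ψ y) := by
  unfold plG dG pl
  split_ifs <;> simp

theorem measurable_plG (σ k c₀ : ℝ) (x : Vec n) {Ψ : Vec n → ℝ≥0∞} (hΨ : Measurable Ψ)
    {W : X → Mat n} (hW : Continuous W) : Measurable fun p => plG σ k c₀ x Ψ (W p) := by
  simp_rw [plG_eq]
  refine Measurable.lintegral_prod_right' (f := fun p : X × Vec n => dG σ k c₀ p.2 (W p.1) *
    (ENNReal.ofReal (Real.exp (ip p.2 x - qf (Q2 σ k (W p.1)) x / 2)) * Ψ p.2)) ?_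
  refine (measurable_dG σ k c₀ hW).mul (Measurable.mul ?_ (hΨ.comp measurable_snd))
  have h1 : Measurable fun p : X × Vec n => qf (Q2 σ k (W p.1)) x :=
    ((continuous_qf x).comp ((continuous_Q2 σ k).comp (hW.comp continuous_fst))).measurable
  have h2 : Measurable fun p : X × Vec n => ip p.2 x := by
    unfold ip
    fun_prop
  exact (h2.sub (h1.div_const 2)).exp.ennreal_ofReal

end meas

/-! ### the radial mixture -/

section radial
variable {ι : Type} [Fintype ι] {A : ι → Mat n}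

/-- mixture of the centred Gaussian densities -/
noncomputable def Hd (A : ι → Mat n) (σ k c₀ : ℝ) (y : Vec n) : ℝ≥0∞ :=
  ∫⁻ ω, dG σ k c₀ y (goeM A ω) ∂gpi ι

/-- the planted functional -/
noncomputable def PL (A : ι → Mat n) (σ k c₀ : ℝ) (x : Vec n) (Ψ : Vec n → ℝ≥0∞) : ℝ≥0∞ :=
  ∫⁻ ω, wG σ x (goeM A ω) * plG σ k c₀ x Ψ (goeM A ω) ∂gpi ι

theorem measurable_Hd (A : ι → Mat n) (σ k c₀ : ℝ) : Measurable (Hd A σ k c₀) :=
  (measurable_dG σ k c₀ (continuous_goeM A)).lintegral_prod_left'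

theorem PL_eq (A : ι → Mat n) (σ k c₀ : ℝ) {x : Vec n} (hx : F.sq x = n) {Ψ : Vec n → ℝ≥0∞}
    (hΨ : Measurable Ψ) :
    PL A σ k c₀ x Ψ = ∫⁻ y, Hd A σ k c₀ y *
      (ENNReal.ofReal (Real.exp (ip y x - (k * n / 2 + σ ^ 2 * n / 4))) * Ψ y) := by
  have hm : Measurable fun y : Vec n =>
      ENNReal.ofReal (Real.exp (ip y x - (k * n / 2 + σ ^ 2 * n / 4))) * Ψ y :=
    (measurable_eip x _).mul hΨ
  have e : ∀ ω, wG σ x (goeM A ω) * plG σ k c₀ x Ψ (goeM A ω)
      = ∫⁻ y, dG σ k c₀ y (goeM A ω) *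
        (ENNReal.ofReal (Real.exp (ip y x - (k * n / 2 + σ ^ 2 * n / 4))) * Ψ y) := by
    intro ω
    rw [plG_eq, ← lintegral_const_mul' _ _ (by unfold wG; exact ENNReal.ofReal_ne_top)]
    refine lintegral_congr fun y => ?_
    rw [mul_left_comm, ← mul_assoc (wG _ _ _)]
    congr 2
    unfold wG
    rw [← ENNReal.ofReal_mul (Real.exp_pos _).le, ← Real.exp_add, qf_Q2, hx]
    congr 2
    ring
  unfold PL
  simp_rw [e]
  rw [lintegral_lintegral_swap]
  · refine lintegral_congr fun y => ?_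
    unfold Hd
    rw [lintegral_mul_const]
    exact measurable_dG' σ k c₀ y (continuous_goeM A)
  · exact ((measurable_dG σ k c₀ (continuous_goeM A)).mul (hm.comp measurable_snd)).aemeasurable

theorem Hd_orth (hA : GoeFam A) (σ k c₀ : ℝ) {O : Mat n} (hO : Oᵀ * O = 1) (y : Vec n) :
    Hd A σ k c₀ (O.mulVec y) = Hd A σ k c₀ y := by
  unfold Hd
  rw [← lintegral_goe_conj hA hO (G := dG σ k c₀ (O.mulVec y))
    (measurable_dG' σ k c₀ _ continuous_toM)]
  refine lintegral_congr fun ω => ?_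
  unfold dG
  rw [Q2_conj σ k hO, dens_conj hO]
  by_cases h : OpLe (goeM A ω) c₀
  · rw [if_pos h, if_pos (opLe_conj hO h)]
  · rw [if_neg h, if_neg fun h' => h ((opLe_conj_iff hO).1 h')]

theorem Hd_smul (A : ι → Mat n) {σ k c₀ : ℝ} (hσ : 0 ≤ σ) (hc : 0 ≤ c₀) (hk : c₀ * σ < k) (t : ℝ)
    (y : Vec n) {D : ℝ} (hD : |F.sq (t • y) - F.sq y| ≤ D) :
    Hd A σ k c₀ y ≤ ENNReal.ofReal (Real.exp (D / (2 * (k - c₀ * σ)))) * Hd A σ k c₀ (t • y) := by
  unfold Hd
  rw [← lintegral_const_mul' _ _ ENNReal.ofReal_ne_top]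
  refine lintegral_mono fun ω => ?_
  unfold dG
  split_ifs with h
  · rw [← ENNReal.ofReal_mul (Real.exp_pos _).le]
    exact ENNReal.ofReal_le_ofReal
      (dens_smul_le (sub_pos.2 hk) (Q2_lower hσ hc h) t y hD)
  · simp

/-- a rotation invariant function which is log-Lipschitz along rays -/
theorem le_of_radial {h : Vec n → ℝ≥0∞} {E : ℝ≥0∞} {D : ℝ}
    (h1 : ∀ O : Mat n, Oᵀ * O = 1 → ∀ y, h (O.mulVec y) = h y)
    (h2 : ∀ (t : ℝ) (y : Vec n), |F.sq (t • y) - F.sq y| ≤ D → h y ≤ E * h (t • y))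
    {y y' : Vec n} (hy : 0 < F.sq y) (hD : |F.sq y' - F.sq y| ≤ D) : h y ≤ E * h y' := by
  have e : F.sq (√(F.sq y' / F.sq y) • y) = F.sq y' := by
    rw [sq_smul', Real.sq_sqrt (div_nonneg (sqN_nonneg _) hy.le)]
    field_simp
  obtain ⟨O, hO, hOy⟩ := exists_orth e
  rw [← hOy, h1 O hO]
  exact h2 _ y (by rw [e]; exact hD)

theorem plG_le_one {σ k c₀ : ℝ} (hσ : 0 ≤ σ) (hc : 0 ≤ c₀) (hk : c₀ * σ < k)
    (x : Vec n) {Ψ : Vec n → ℝ≥0∞} (hΨ : Measurable Ψ) (hΨ1 : ∀ y, Ψ y ≤ 1) {W : Mat n}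
    (hs : ∀ i j, W i j = W j i) : plG σ k c₀ x Ψ W ≤ 1 := by
  unfold plG
  split_ifs with h
  · have hl := Q2_lower (k := k) hσ hc h
    obtain ⟨R, hR⟩ := exists_root (Q2_symm σ k hs)
      fun v => (mul_nonneg (sub_pos.2 hk).le (sqN_nonneg v)).trans (hl v)
    rw [pl_eq hR (det_ne_zero_of_pos (sub_pos.2 hk) hl) x hΨ]
    calc _ ≤ ∫⁻ _, 1 ∂gpi (Fin n) := lintegral_mono fun ξ => hΨ1 _
      _ = 1 := by simp
  · exact zero_le_one

theorem PL_tilt (hA : GoeFam A) (hn : 0 < n) (σ k c₀ : ℝ) {x : Vec n} (hx : F.sq x = n)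
    {Ψ : Vec n → ℝ≥0∞} (hΨ : Measurable Ψ) :
    PL A σ k c₀ x Ψ
      = ∫⁻ ω, plG σ k c₀ x Ψ (goeM A ω + (σ / n) • Matrix.vecMulVec x x) ∂gpi ι := by
  rw [← lintegral_goe_tilt hA σ x (G := plG σ k c₀ x Ψ)
    (measurable_plG σ k c₀ x hΨ (continuous_goeM A))]
  unfold PL wG
  have hn' : (n : ℝ) ≠ 0 := by positivity
  have e : σ ^ 2 * F.sq x ^ 2 / (4 * n) = σ ^ 2 * n / 4 := by rw [hx]; field_simp
  rw [e]

theorem symm_shift (hA : GoeFam A) (ω : ι → ℝ) (c : ℝ) (x : Vec n) (i j : Fin n) :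
    (goeM A ω + c • Matrix.vecMulVec x x) i j = (goeM A ω + c • Matrix.vecMulVec x x) j i := by
  simp only [Matrix.add_apply, Matrix.smul_apply, Matrix.vecMulVec_apply, goeM_symm hA ω i j,
    mul_comm (x i)]

theorem PL_le_one (hA : GoeFam A) (hn : 0 < n) {σ k c₀ : ℝ} (hσ : 0 ≤ σ) (hc : 0 ≤ c₀)
    (hk : c₀ * σ < k) {x : Vec n} (hx : F.sq x = n) {Ψ : Vec n → ℝ≥0∞} (hΨ : Measurable Ψ)
    (hΨ1 : ∀ y, Ψ y ≤ 1) : PL A σ k c₀ x Ψ ≤ 1 := by
  rw [PL_tilt hA hn σ k c₀ hx hΨ]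
  calc _ ≤ ∫⁻ _, 1 ∂gpi ι :=
        lintegral_mono fun ω => plG_le_one hσ hc hk x hΨ hΨ1 (symm_shift hA ω _ x)
    _ = 1 := by simp

end radial

/-! ### the shell -/

/-- the typical shell of the planted field -/
def shell (n : ℕ) (γ δ : ℝ) : Set (Vec n) := {y | |F.sq y - (γ ^ 2 + γ) * n| ≤ δ * n}

theorem measurableSet_shell (γ δ : ℝ) : MeasurableSet (shell n γ δ) :=
  measurableSet_le ((measurable_sq.sub_const _).abs) measurable_const

theorem eventually_mul_exp (C : ℝ) {c : ℝ} (hc : 0 < c) :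
    ∀ᶠ n : ℕ in atTop, C * Real.exp (-(c * n)) ≤ Real.exp (-(c / 2 * n)) := by
  filter_upwards [eventually_ge_atTop ⌈2 * C / c⌉₊] with n hn
  have h1 : 2 * C / c ≤ n := (Nat.le_ceil _).trans (by exact_mod_cast hn)
  rw [div_le_iff₀ hc] at h1
  have h2 : C ≤ Real.exp (c / 2 * n) := by
    have := Real.add_one_le_exp (c / 2 * n)
    linarith
  calc C * Real.exp (-(c * n)) ≤ Real.exp (c / 2 * n) * Real.exp (-(c * n)) :=
        mul_le_mul_of_nonneg_right h2 (Real.exp_pos _).le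
    _ = _ := by rw [← Real.exp_add]; congr 1; ring

theorem eventually_le_mul (C : ℝ) {c : ℝ} (hc : 0 < c) : ∀ᶠ n : ℕ in atTop, C ≤ c * n := by
  filter_upwards [eventually_ge_atTop ⌈C / c⌉₊] with n hn
  have h1 : C / c ≤ n := (Nat.le_ceil _).trans (by exact_mod_cast hn)
  rw [div_le_iff₀ hc] at h1
  linarith

/-- asymptotic form of the concentration of the squared norm -/
theorem norm_conc' {L M₀ δ : ℝ} (hL : 0 < L) (hM₀ : 0 ≤ M₀) (hδ : 0 < δ) :
    ∃ c > 0, ∀ᶠ n : ℕ in atTop, ∀ (ι : Type) [Fintype ι] (B : Matrix (Fin n) ι ℝ) (v : Vec n),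
      (∀ u, qf (B * Bᵀ) u ≤ L ^ 2 * F.sq u) → F.sq v + (B * Bᵀ).trace ≤ M₀ ^ 2 * n →
      gpi ι {w | δ * n ≤ |F.sq (v + B.mulVec w) - (F.sq v + (B * Bᵀ).trace)|}
        ≤ ENNReal.ofReal (Real.exp (-(c * n))) := by
  set θ : ℝ := min 1 (δ / (2 * (2 * M₀ + 1))) with hθ
  have hθ0 : 0 < θ := lt_min one_pos (by positivity)
  have hθ1 : θ ≤ 1 := min_le_left _ _
  have hθ2 : θ * (2 * M₀ + θ) ≤ δ / 2 := by
    have h1 : θ ≤ δ / (2 * (2 * M₀ + 1)) := min_le_right _ _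
    rw [le_div_iff₀ (by positivity)] at h1
    nlinarith
  have hc : 0 < θ ^ 2 / (4 * L ^ 2) := by positivity
  refine ⟨θ ^ 2 / (4 * L ^ 2) / 2, by positivity, ?_⟩
  filter_upwards [eventually_mul_exp 2 hc, eventually_le_mul (4 * L ^ 2) (half_pos hδ)]
    with n h1 h2 ι _ B v hB hM
  have hn : (0 : ℝ) ≤ n := Nat.cast_nonneg n
  have hs : √(n : ℝ) ^ 2 = n := Real.sq_sqrt hn
  have h3 := norm_conc (t := θ * √n) (M := M₀ * √n) hL (by positivity) hB v (by positivity)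
    (by rw [mul_pow, hs]; exact hM)
  have e1 : (θ * √n) ^ 2 / (4 * L ^ 2) = θ ^ 2 / (4 * L ^ 2) * n := by rw [mul_pow, hs]; ring
  rw [e1] at h3
  have h4 : θ * √n * (2 * (M₀ * √n) + θ * √n) + 4 * L ^ 2 ≤ δ * n := by
    have e2 : θ * √n * (2 * (M₀ * √n) + θ * √n) = θ * (2 * M₀ + θ) * √n ^ 2 := by ring
    rw [e2, hs]
    have := mul_le_mul_of_nonneg_right hθ2 hn
    linarith
  rw [← ofReal_measureReal]
  refine ENNReal.ofReal_le_ofReal (le_trans (measureReal_mono fun w hw => ?_) (h3.trans h1))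
  exact h4.trans hw

theorem lip_lin {ι : Type*} [Fintype ι] (c : ι → ℝ) {L : ℝ} (hL : 0 ≤ L)
    (h : ∑ i, c i ^ 2 ≤ L ^ 2) : Lip L fun w => ∑ i, c i * w i := by
  intro w w'
  rw [← Finset.sum_sub_distrib]
  have e : ∑ i, (c i * w i - c i * w' i) = ∑ i, c i * (w i - w' i) :=
    Finset.sum_congr rfl fun i _ => by ring
  rw [e]
  have h1 : (∑ i, c i * (w i - w' i)) ^ 2 ≤ (∑ i, c i ^ 2) * ∑ i, (w i - w' i) ^ 2 :=
    Finset.sum_mul_sq_le_sq_mul_sq _ _ _
  refine abs_le_of_sq_le_sq ?_ (mul_nonneg hL (ed_nonneg _ _))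
  rw [mul_pow, ed_sq]
  exact h1.trans (mul_le_mul_of_nonneg_right h (Finset.sum_nonneg fun _ _ => sq_nonneg _))

section off
variable {ι : Type} [Fintype ι] {A : ι → Mat n}

/-- the linear map `ω ↦ σ W(ω) x` -/
def colM (A : ι → Mat n) (σ : ℝ) (x : Vec n) : Matrix (Fin n) ι ℝ :=
  Matrix.of fun a i => σ * (A i).mulVec x a

theorem colM_mulVec (A : ι → Mat n) (σ : ℝ) (x : Vec n) (ω : ι → ℝ) :
    (colM A σ x).mulVec ω = σ • (goeM A ω).mulVec x := by
  funext a
  unfold goeM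
  rw [Matrix.sum_mulVec, Pi.smul_apply, Finset.sum_apply, smul_eq_mul, Finset.mul_sum]
  unfold colM
  simp only [Matrix.mulVec, dotProduct, Matrix.of_apply, Matrix.smul_apply, smul_eq_mul]
  refine Finset.sum_congr rfl fun i _ => ?_
  rw [mul_assoc, Finset.sum_mul]
  congr 1
  exact Finset.sum_congr rfl fun j _ => by ring

theorem ip_single (v : Vec n) (a : Fin n) : ip (Pi.single a 1) v = v a := by
  simp [ip, Pi.single_apply]

theorem colM_cov (hA : GoeFam A) (σ : ℝ) (x : Vec n) :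
    colM A σ x * (colM A σ x)ᵀ
      = (σ ^ 2 * F.sq x / n) • (1 : Mat n) + (σ ^ 2 / n) • Matrix.vecMulVec x x := by
  ext a c
  have h := goe_bil hA (Pi.single a 1) x (Pi.single c 1) x
  simp_rw [ip_single] at h
  rw [ipN_self, ipN_comm x, ip_single] at h
  have e : (colM A σ x * (colM A σ x)ᵀ) a c
      = σ ^ 2 * ∑ i, (A i).mulVec x a * (A i).mulVec x c := by
    rw [Matrix.mul_apply, Finset.mul_sum]
    exact Finset.sum_congr rfl fun i _ => by
      simp only [colM, Matrix.of_apply, Matrix.transpose_apply]; ring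
  rw [e, h]
  simp only [Matrix.add_apply, Matrix.smul_apply, Matrix.one_apply, Matrix.vecMulVec_apply,
    smul_eq_mul, Pi.single_apply]
  split_ifs <;> ring

theorem trace_goeM (A : ι → Mat n) (ω : ι → ℝ) :
    (goeM A ω).trace = ∑ i, (A i).trace * ω i := by
  unfold goeM
  rw [Matrix.trace_sum]
  exact Finset.sum_congr rfl fun i _ => by rw [Matrix.trace_smul, smul_eq_mul, mul_comm]

theorem sum_trace_sq (hA : GoeFam A) (hn : 0 < n) : ∑ i, (A i).trace ^ 2 = 2 := by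
  have e : ∑ i, (A i).trace ^ 2 = ∑ a, ∑ c, ∑ i, A i a a * A i c c := by
    simp_rw [pow_two, Matrix.trace, Matrix.diag, Finset.sum_mul_sum]
    rw [Finset.sum_comm]
    exact Finset.sum_congr rfl fun a _ => Finset.sum_comm
  rw [e]
  simp_rw [hA.cov]
  have hn' : (n : ℝ) ≠ 0 := by positivity
  have e2 : ∀ a : Fin n, ∑ c : Fin n, (((if a = c ∧ a = c then 1 else 0)
      + (if a = c ∧ a = c then 1 else 0)) / (n : ℝ)) = 2 / n := by
    intro a
    rw [Finset.sum_eq_single a (fun c _ hc => by simp [Ne.symm hc]) (by simp)]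
    simp only [and_self, if_true]
    norm_num
  simp_rw [e2]
  rw [Finset.sum_const, Finset.card_univ, Fintype.card_fin, nsmul_eq_mul]
  field_simp

theorem trace_vecMulVec' (x : Vec n) : (Matrix.vecMulVec x x).trace = F.sq x := by
  simp [Matrix.trace, Matrix.vecMulVec_apply, F.sq, pow_two]

theorem qf_vecMulVec_le (x u : Vec n) : qf (Matrix.vecMulVec x x) u ≤ F.sq x * F.sq u := by
  unfold qf
  rw [vecMulVec_mulVec, ip_smul_right, ipN_comm u x, ← pow_two]
  exact Finset.sum_mul_sq_le_sq_mul_sq _ _ _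

end off

theorem plG_off {σ k c₀ γ δ : ℝ} (hσ : 0 ≤ σ) (hc : 0 ≤ c₀) (hk : c₀ * σ < k) (hδ : 0 < δ)
    {x : Vec n} {W : Mat n} (hs : ∀ i j, W i j = W j i) {E : ℝ≥0∞}
    (h1 : ∀ (B : Mat n) (v : Vec n), (∀ u, qf (B * Bᵀ) u ≤ (k + c₀ * σ) * F.sq u) →
      F.sq v + (B * Bᵀ).trace ≤ (γ ^ 2 + γ + δ) * n →
      gpi (Fin n) {w | δ / 2 * n ≤ |F.sq (v + B.mulVec w) - (F.sq v + (B * Bᵀ).trace)|} ≤ E)
    (hS : |F.sq ((Q2 σ k W).mulVec x) + (Q2 σ k W).trace - (γ ^ 2 + γ) * n| ≤ δ / 2 * n) :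
    plG σ k c₀ x ((shell n γ δ)ᶜ.indicator 1) W ≤ E := by
  have hΨ : Measurable ((shell n γ δ)ᶜ.indicator (1 : Vec n → ℝ≥0∞)) :=
    measurable_one.indicator (measurableSet_shell γ δ).compl
  unfold plG
  split_ifs with h
  swap
  · exact zero_le
  have hl := Q2_lower (k := k) hσ hc h
  obtain ⟨R, hR⟩ := exists_root (Q2_symm σ k hs)
    fun v => (mul_nonneg (sub_pos.2 hk).le (sqN_nonneg v)).trans (hl v)
  rw [pl_eq hR (det_ne_zero_of_pos (sub_pos.2 hk) hl) x hΨ]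
  obtain ⟨hS2, hS1⟩ := abs_le.1 hS
  have hδn : 0 ≤ δ * n := by positivity
  have h6 := h1 R ((Q2 σ k W).mulVec x) (fun u => by rw [hR]; exact Q2_upper hσ hc h u)
    (by rw [hR]; linarith)
  rw [hR] at h6
  generalize (Q2 σ k W).mulVec x = v at *
  generalize (Q2 σ k W).trace = T at *
  refine le_trans ?_ h6
  have hm : MeasurableSet {w : Vec n | δ / 2 * n ≤ |F.sq (v + R.mulVec w) - (F.sq v + T)|} :=
    measurableSet_le measurable_const
      (((measurable_sq.comp ((measurable_matVec _).const_add _)).sub_const _).abs)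
  rw [← lintegral_indicator_one hm]
  refine lintegral_mono fun ξ => ?_
  by_cases hξ : v + R.mulVec ξ ∈ (shell n γ δ)ᶜ
  · rw [Set.indicator_of_mem hξ, Set.indicator_of_mem]
    · exact le_rfl
    · have h7 : δ * n < |F.sq (v + R.mulVec ξ) - (γ ^ 2 + γ) * n| := not_le.1 hξ
      show δ / 2 * n ≤ |F.sq (v + R.mulVec ξ) - (F.sq v + T)|
      rcases lt_abs.1 h7 with h8 | h8
      · exact le_abs.2 (Or.inl (by linarith))
      · exact le_abs.2 (Or.inr (by linarith))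
  · rw [Set.indicator_of_notMem hξ]
    exact zero_le

theorem Q2_shift {ι : Type} [Fintype ι] (A : ι → Mat n) (hn : 0 < n) (σ k : ℝ) {x : Vec n}
    (hx : F.sq x = n) (ω : ι → ℝ) :
    (Q2 σ k (goeM A ω + (σ / n) • Matrix.vecMulVec x x)).mulVec x
        = (k + σ ^ 2) • x + (colM A σ x).mulVec ω ∧
      (Q2 σ k (goeM A ω + (σ / n) • Matrix.vecMulVec x x)).trace
        = ∑ i, σ * (A i).trace * ω i + σ ^ 2 + k * n := by
  have hn' : (n : ℝ) ≠ 0 := by positivity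
  constructor
  · rw [colM_mulVec, Q2, Matrix.add_mulVec, Matrix.smul_mulVec, Matrix.smul_mulVec,
      Matrix.one_mulVec, Matrix.add_mulVec, Matrix.smul_mulVec, vecMulVec_mulVec, ipN_self, hx,
      smul_smul, div_mul_cancel₀ _ hn']
    module
  · rw [Q2, Matrix.trace_add, Matrix.trace_smul, Matrix.trace_smul, Matrix.trace_add,
      Matrix.trace_smul, trace_vecMulVec', hx, trace_goeM, Matrix.trace_one, Fintype.card_fin]
    simp only [smul_eq_mul, mul_add, Finset.mul_sum, mul_assoc]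
    rw [div_mul_cancel₀ _ hn', pow_two]

/-- the planted mass outside the shell is exponentially small -/
theorem PL_off {σ k c₀ δ : ℝ} (hσ : 0 ≤ σ) (hc : 0 ≤ c₀) (hk : c₀ * σ < k) (hδ : 0 < δ) :
    ∃ c > 0, ∀ᶠ n : ℕ in atTop, ∀ (ι : Type) [Fintype ι] (A : ι → Mat n), GoeFam A →
      ∀ x : Vec n, F.sq x = n →
        PL A σ k c₀ x ((shell n (k + σ ^ 2) δ)ᶜ.indicator 1) ≤ ENNReal.ofReal (Real.exp (-(c * n))) := by
  set γ := k + σ ^ 2 with hγ
  have hk0 : 0 < k := lt_of_le_of_lt (mul_nonneg hc hσ) hk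
  have hγ0 : 0 < γ := by positivity
  have hΛ : 0 < k + c₀ * σ := by positivity
  obtain ⟨c₁, hc₁, h1⟩ := norm_conc' (L := √(k + c₀ * σ)) (M₀ := √(γ ^ 2 + γ + δ))
    (Real.sqrt_pos.2 hΛ) (Real.sqrt_nonneg _) (half_pos hδ)
  obtain ⟨c₂, hc₂, h2⟩ := norm_conc' (L := 2 * σ + 1) (M₀ := √(γ ^ 2 + 2 * σ ^ 2))
    (by positivity) (Real.sqrt_nonneg _) (by positivity : 0 < δ / 8)
  set c₃ : ℝ := (δ / 8) ^ 2 / (4 * (2 * σ + 1) ^ 2) with hc₃
  have hc₃0 : 0 < c₃ := by positivity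
  set c₄ : ℝ := min c₁ (min c₂ (c₃ / 2)) with hc₄
  have hc₄0 : 0 < c₄ := lt_min hc₁ (lt_min hc₂ (half_pos hc₃0))
  refine ⟨c₄ / 2, half_pos hc₄0, ?_⟩
  filter_upwards [h1, h2, eventually_mul_exp 2 hc₃0, eventually_mul_exp 3 hc₄0,
    eventually_le_mul (2 * σ ^ 2) (by positivity : 0 < δ / 8), eventually_gt_atTop 0]
    with n h1 h2 h3 h4 h5 hn ι _ A hA x hx
  have hn1 : (1 : ℝ) ≤ n := by exact_mod_cast hn
  have hn' : (n : ℝ) ≠ 0 := by positivity
  have hmS : MeasurableSet (shell n γ δ)ᶜ := (measurableSet_shell γ δ).compl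
  have hΨ : Measurable ((shell n γ δ)ᶜ.indicator (1 : Vec n → ℝ≥0∞)) :=
    measurable_one.indicator hmS
  have hΨ1 : ∀ y, (shell n γ δ)ᶜ.indicator (1 : Vec n → ℝ≥0∞) y ≤ 1 := fun y =>
    Set.indicator_le_self' (fun _ _ => zero_le_one) y
  rw [PL_tilt hA hn σ k c₀ hx hΨ]
  have hcov := colM_cov hA σ x
  rw [hx] at hcov
  have htr : (colM A σ x * (colM A σ x)ᵀ).trace = σ ^ 2 * n + σ ^ 2 := by
    rw [hcov, Matrix.trace_add, Matrix.trace_smul, Matrix.trace_smul, Matrix.trace_one,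
      trace_vecMulVec', hx, Fintype.card_fin, smul_eq_mul, smul_eq_mul]
    field_simp
  have hsqγ : F.sq (γ • x) = γ ^ 2 * n := by rw [sq_smul', hx]
  set B1 : Set (ι → ℝ) := {ω | δ / 8 * n ≤ |F.sq (γ • x + (colM A σ x).mulVec ω)
    - (F.sq (γ • x) + (colM A σ x * (colM A σ x)ᵀ).trace)|} with hB1
  set B2 : Set (ι → ℝ) := {ω | δ / 8 * n ≤ |∑ i, σ * (A i).trace * ω i|} with hB2
  have hB1m : MeasurableSet B1 := measurableSet_le measurable_const
    (((measurable_sq.comp ((measurable_matVec _).const_add _)).sub_const _).abs)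
  have hB2m : MeasurableSet B2 := measurableSet_le measurable_const
    (Measurable.abs (by fun_prop))
  have p1 : gpi ι B1 ≤ ENNReal.ofReal (Real.exp (-(c₂ * n))) := by
    refine h2 ι _ _ (fun u => ?_) ?_
    · rw [hcov, qf_add', qf_smul', qf_smul', qf_one']
      have h6 := qf_vecMulVec_le x u
      rw [hx] at h6
      have h7 := mul_le_mul_of_nonneg_left h6 (by positivity : 0 ≤ σ ^ 2 / n)
      have e1 : σ ^ 2 / n * (n * F.sq u) = σ ^ 2 * F.sq u := by field_simp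
      have e2 : σ ^ 2 * n / n = σ ^ 2 := by field_simp
      rw [e1] at h7
      rw [e2]
      have h8 := sqN_nonneg u
      nlinarith [mul_nonneg hσ h8, mul_nonneg (sq_nonneg σ) h8]
    · rw [htr, hsqγ, Real.sq_sqrt (by positivity)]
      nlinarith [sq_nonneg σ]
  have p2 : gpi ι B2 ≤ ENNReal.ofReal (Real.exp (-(c₃ / 2 * n))) := by
    have hl : Lip (2 * σ + 1) fun ω : ι → ℝ => ∑ i, σ * (A i).trace * ω i := by
      refine lip_lin _ (by positivity) ?_
      simp_rw [mul_pow]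
      rw [← Finset.mul_sum, sum_trace_sq hA hn]
      nlinarith [sq_nonneg σ]
    have h6 := hl.tail_abs (by positivity) (by positivity : 0 ≤ δ / 8 * n)
    rw [integral_lin0] at h6
    simp only [sub_zero] at h6
    rw [← ofReal_measureReal]
    refine ENNReal.ofReal_le_ofReal (h6.trans (le_trans ?_ h3))
    refine mul_le_mul_of_nonneg_left (Real.exp_le_exp.2 (neg_le_neg ?_)) (by norm_num)
    have e1 : (δ / 8 * n) ^ 2 / (4 * (2 * σ + 1) ^ 2) = c₃ * n * n := by rw [hc₃]; ring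
    rw [e1]
    exact le_mul_of_one_le_right (by positivity) hn1
  have key : ∀ ω, plG σ k c₀ x ((shell n γ δ)ᶜ.indicator 1)
      (goeM A ω + (σ / n) • Matrix.vecMulVec x x)
      ≤ B1.indicator 1 ω + B2.indicator 1 ω + ENNReal.ofReal (Real.exp (-(c₁ * n))) := by
    intro ω
    have hs := symm_shift hA ω (σ / n) x
    have hle := plG_le_one hσ hc hk x hΨ hΨ1 hs
    by_cases hb1 : ω ∈ B1
    · rw [Set.indicator_of_mem hb1]
      exact hle.trans (le_add_right le_self_add)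
    by_cases hb2 : ω ∈ B2
    · rw [Set.indicator_of_mem hb2]
      exact hle.trans (le_add_right le_add_self)
    refine le_trans ?_ le_add_self
    obtain ⟨e1, e2⟩ := Q2_shift A hn σ k hx ω
    refine plG_off hσ hc hk hδ hs (fun B v hB hv => h1 (Fin n) B v ?_ ?_) ?_
    · rwa [Real.sq_sqrt hΛ.le]
    · rwa [Real.sq_sqrt (by positivity)]
    have hb1' : |F.sq (γ • x + (colM A σ x).mulVec ω)
        - (F.sq (γ • x) + (colM A σ x * (colM A σ x)ᵀ).trace)| < δ / 8 * n := not_le.1 hb1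
    have hb2' : |∑ i, σ * (A i).trace * ω i| < δ / 8 * n := not_le.1 hb2
    rw [htr, hsqγ] at hb1'
    rw [e1, e2, ← hγ]
    obtain ⟨hb3, hb4⟩ := abs_lt.1 hb1'
    obtain ⟨hb5, hb6⟩ := abs_lt.1 hb2'
    have hγn : (γ ^ 2 + γ) * n = γ ^ 2 * n + (k * n + σ ^ 2 * n) := by rw [hγ]; ring
    have hδn : 0 ≤ δ * n := by positivity
    have hσ2 := sq_nonneg σ
    rw [hγn, abs_le]
    constructor <;> linarith
  refine (lintegral_mono key).trans ?_
  rw [lintegral_add_right _ measurable_const,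
    lintegral_add_right _ (measurable_one.indicator hB2m), lintegral_indicator_one hB1m,
    lintegral_indicator_one hB2m, lintegral_const, measure_univ, mul_one]
  have hle : ∀ c', c₄ ≤ c' → ENNReal.ofReal (Real.exp (-(c' * n)))
      ≤ ENNReal.ofReal (Real.exp (-(c₄ * n))) := fun c' hc' =>
    ENNReal.ofReal_le_ofReal (Real.exp_le_exp.2 (neg_le_neg
      (mul_le_mul_of_nonneg_right hc' (Nat.cast_nonneg n))))
  have q1 := p1.trans (hle c₂ ((min_le_right _ _).trans (min_le_left _ _)))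
  have q2 := p2.trans (hle (c₃ / 2) ((min_le_right _ _).trans (min_le_right _ _)))
  have q3 := hle c₁ (min_le_left _ _)
  refine (add_le_add (add_le_add q1 q2) q3).trans ?_
  rw [← ENNReal.ofReal_add (Real.exp_pos _).le (Real.exp_pos _).le,
    ← ENNReal.ofReal_add (by positivity) (Real.exp_pos _).le]
  exact ENNReal.ofReal_le_ofReal (by linarith)

theorem root_scalar {γ : ℝ} (hγ : 0 ≤ γ) :
    (√γ • (1 : Mat n)) * (√γ • (1 : Mat n))ᵀ = γ • (1 : Mat n) := by
  rw [Matrix.transpose_smul, Matrix.transpose_one, Matrix.smul_mul, Matrix.mul_smul, Matrix.mul_one,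
    smul_smul, Real.mul_self_sqrt hγ]

theorem scalar_lower (γ : ℝ) (v : Vec n) : γ * F.sq v ≤ qf (γ • (1 : Mat n)) v := by
  rw [qf_smul', qf_one']

/-- the isotropic law gives mass at least one half to the shell -/
theorem pl_shell {γ δ : ℝ} (hγ : 0 < γ) (hδ : 0 < δ) : ∀ᶠ n : ℕ in atTop, ∀ x : Vec n,
    F.sq x = n → 2⁻¹ ≤ pl (γ • (1 : Mat n)) x ((shell n γ δ).indicator 1) := by
  obtain ⟨c, hc, h1⟩ := norm_conc' (L := √γ) (M₀ := √(γ ^ 2 + γ)) (Real.sqrt_pos.2 hγ)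
    (Real.sqrt_nonneg _) hδ
  filter_upwards [h1, eventually_le_mul 1 hc] with n h1 h2 x hx
  have hΨ : Measurable ((shell n γ δ).indicator (1 : Vec n → ℝ≥0∞)) :=
    measurable_one.indicator (measurableSet_shell γ δ)
  have hR := root_scalar (n := n) hγ.le
  rw [pl_eq hR (det_ne_zero_of_pos hγ (scalar_lower γ)) x hΨ]
  have e1 : F.sq ((γ • (1 : Mat n)).mulVec x) + (γ • (1 : Mat n)).trace = (γ ^ 2 + γ) * n := by
    rw [Matrix.smul_mulVec, Matrix.one_mulVec, sq_smul', hx, Matrix.trace_smul, Matrix.trace_one,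
      Fintype.card_fin, smul_eq_mul]
    ring
  have h3 := h1 (Fin n) (√γ • (1 : Mat n)) ((γ • (1 : Mat n)).mulVec x)
    (fun u => by rw [hR, Real.sq_sqrt hγ.le, qf_smul', qf_one'])
    (by rw [hR, e1, Real.sq_sqrt (by positivity)])
  rw [hR, e1] at h3
  generalize (γ • (1 : Mat n)).mulVec x = v at *
  generalize √γ • (1 : Mat n) = R at *
  set S : Set (Vec n) := {w | δ * n ≤ |F.sq (v + R.mulVec w) - (γ ^ 2 + γ) * n|} with hS
  have hm : MeasurableSet S := measurableSet_le measurable_const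
    (((measurable_sq.comp ((measurable_matVec _).const_add _)).sub_const _).abs)
  have h4 : gpi (Fin n) S ≤ 2⁻¹ := by
    refine h3.trans ?_
    have h5 : Real.exp (-(c * n)) ≤ 2⁻¹ := by
      rw [Real.exp_neg]
      refine inv_anti₀ two_pos ?_
      have := Real.add_one_le_exp (c * n)
      linarith
    refine (ENNReal.ofReal_le_ofReal h5).trans (le_of_eq ?_)
    rw [ENNReal.ofReal_inv_of_pos two_pos, ENNReal.ofReal_ofNat]
  have h5 : 2⁻¹ ≤ gpi (Fin n) Sᶜ := by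
    rw [prob_compl_eq_one_sub hm]
    calc (2⁻¹ : ℝ≥0∞) = 1 - 2⁻¹ := ENNReal.one_sub_inv_two.symm
      _ ≤ _ := tsub_le_tsub_left h4 1
  refine h5.trans ?_
  rw [← lintegral_indicator_one hm.compl]
  refine lintegral_mono fun ξ => ?_
  by_cases hξ : ξ ∈ Sᶜ
  · rw [Set.indicator_of_mem hξ, Set.indicator_of_mem]
    · exact le_rfl
    · have h6 : ¬ (δ * n ≤ |F.sq (v + R.mulVec ξ) - (γ ^ 2 + γ) * n|) := hξ
      exact (not_le.1 h6).le
  · rw [Set.indicator_of_notMem hξ]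
    exact zero_le

theorem ofReal_exp_sub (a c : ℝ) : ENNReal.ofReal (Real.exp (a - c))
    = ENNReal.ofReal (Real.exp a) * ENNReal.ofReal (Real.exp (-c)) := by
  rw [← ENNReal.ofReal_mul (Real.exp_pos _).le, ← Real.exp_add, sub_eq_add_neg]

/-- pointwise domination of the densities on the shell -/
theorem Hd_le_shell {ι : Type} [Fintype ι] {A : ι → Mat n} (hA : GoeFam A) (hn : 0 < n)
    {σ k c₀ δ : ℝ} (hσ : 0 ≤ σ) (hc : 0 ≤ c₀) (hk : c₀ * σ < k)
    (hδ : δ < (k + σ ^ 2) ^ 2 + (k + σ ^ 2)) {x : Vec n} (hx : F.sq x = n)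
    (hsh : 2⁻¹ ≤ pl ((k + σ ^ 2) • (1 : Mat n)) x ((shell n (k + σ ^ 2) δ).indicator 1))
    {y : Vec n} (hy : y ∈ shell n (k + σ ^ 2) δ) :
    Hd A σ k c₀ y * ENNReal.ofReal (Real.exp (-(k * n / 2 + σ ^ 2 * n / 4)))
      ≤ 2 * (ENNReal.ofReal (Real.exp (2 * δ * n / (2 * (k - c₀ * σ))))
        * ENNReal.ofReal (Real.exp (2 * δ * n / (2 * (k + σ ^ 2)))))
        * (ENNReal.ofReal (dens ((k + σ ^ 2) • (1 : Mat n)) y)
          * ENNReal.ofReal (Real.exp (-((k + σ ^ 2) * n / 2)))) := by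
  set γ := k + σ ^ 2 with hγ
  have hk0 : 0 < k := lt_of_le_of_lt (mul_nonneg hc hσ) hk
  have hγ0 : 0 < γ := by positivity
  have hn' : (0 : ℝ) < n := by exact_mod_cast hn
  have hpos : ∀ y ∈ shell n γ δ, 0 < F.sq y := by
    intro y hy
    have h1 := (abs_le.1 (show |F.sq y - (γ ^ 2 + γ) * n| ≤ δ * n from hy)).1
    have h2 := mul_lt_mul_of_pos_right hδ hn'
    linarith
  have hdist : ∀ y ∈ shell n γ δ, ∀ y' ∈ shell n γ δ, |F.sq y' - F.sq y| ≤ 2 * δ * n := by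
    intro y hy y' hy'
    obtain ⟨h1, h2⟩ := abs_le.1 (show |F.sq y - (γ ^ 2 + γ) * n| ≤ δ * n from hy)
    obtain ⟨h3, h4⟩ := abs_le.1 (show |F.sq y' - (γ ^ 2 + γ) * n| ≤ δ * n from hy')
    rw [abs_le]
    constructor <;> linarith
  set e1 := ENNReal.ofReal (Real.exp (2 * δ * n / (2 * (k - c₀ * σ)))) with he1
  set e2 := ENNReal.ofReal (Real.exp (2 * δ * n / (2 * γ))) with he2
  set a := ENNReal.ofReal (Real.exp (-(k * n / 2 + σ ^ 2 * n / 4))) with ha
  set a0 := ENNReal.ofReal (Real.exp (-(γ * n / 2))) with ha0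
  set d0 : Vec n → ℝ≥0∞ := fun y => ENNReal.ofReal (dens (γ • (1 : Mat n)) y) with hd0
  have h1 : ∀ y' ∈ shell n γ δ, Hd A σ k c₀ y ≤ e1 * Hd A σ k c₀ y' := fun y' hy' =>
    le_of_radial (fun O hO y => Hd_orth hA σ k c₀ hO y)
      (fun t y hD => Hd_smul A hσ hc hk t y hD) (hpos y hy) (hdist y hy y' hy')
  have h2 : ∀ y' ∈ shell n γ δ, d0 y' ≤ e2 * d0 y := by
    intro y' hy'
    refine le_of_radial (h := d0) (fun O hO y => ?_) (fun t y hD => ?_) (hpos y' hy')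
      (hdist y' hy' y hy)
    · have e : O * (γ • (1 : Mat n)) * Oᵀ = γ • (1 : Mat n) := by
        rw [Matrix.mul_smul, Matrix.mul_one, Matrix.smul_mul, mul_eq_one_comm.1 hO]
      have := dens_conj hO (γ • (1 : Mat n)) y
      rw [e] at this
      simp only [hd0, this]
    · simp only [hd0, he2]
      rw [← ENNReal.ofReal_mul (Real.exp_pos _).le]
      exact ENNReal.ofReal_le_ofReal (dens_smul_le hγ0 (scalar_lower γ) t y hD)
  have hΨ : Measurable ((shell n γ δ).indicator (1 : Vec n → ℝ≥0∞)) :=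
    measurable_one.indicator (measurableSet_shell γ δ)
  have hΨ1 : ∀ y, (shell n γ δ).indicator (1 : Vec n → ℝ≥0∞) y ≤ 1 := fun y =>
    Set.indicator_le_self' (fun _ _ => zero_le_one) y
  have h3 := PL_le_one hA hn hσ hc hk hx hΨ hΨ1
  rw [PL_eq A σ k c₀ hx hΨ] at h3
  have m0 : Measurable d0 := (measurable_dens continuous_const measurable_id).ennreal_ofReal
  have h4 : Hd A σ k c₀ y * a * pl (γ • (1 : Mat n)) x ((shell n γ δ).indicator 1)
      ≤ e1 * e2 * (d0 y * a0) := by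
    unfold pl
    have m1 : Measurable fun y : Vec n => ENNReal.ofReal (dens (γ • (1 : Mat n)) y) *
        (ENNReal.ofReal (Real.exp (ip y x - qf (γ • (1 : Mat n)) x / 2)) *
          (shell n γ δ).indicator (1 : Vec n → ℝ≥0∞) y) := m0.mul ((measurable_eip x _).mul hΨ)
    have m2 : Measurable fun y : Vec n => Hd A σ k c₀ y *
        (ENNReal.ofReal (Real.exp (ip y x - (k * n / 2 + σ ^ 2 * n / 4))) *
          (shell n γ δ).indicator (1 : Vec n → ℝ≥0∞) y) :=
      (measurable_Hd A σ k c₀).mul ((measurable_eip x _).mul hΨ)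
    rw [← lintegral_const_mul _ m1]
    refine le_trans ?_ (mul_le_of_le_one_right' (a := e1 * e2 * (d0 y * a0)) h3)
    rw [← lintegral_const_mul _ m2]
    refine lintegral_mono fun y' => ?_
    by_cases hy' : y' ∈ shell n γ δ
    · have e : qf (γ • (1 : Mat n)) x / 2 = γ * n / 2 := by rw [qf_smul', qf_one', hx]
      simp only [Set.indicator_of_mem hy', Pi.one_apply, mul_one, ofReal_exp_sub, e]
      rw [← ha, ← ha0]
      calc Hd A σ k c₀ y * a * (d0 y' * (ENNReal.ofReal (Real.exp (ip y' x)) * a0))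
          ≤ e1 * Hd A σ k c₀ y' * a * (e2 * d0 y * (ENNReal.ofReal (Real.exp (ip y' x)) * a0)) := by
            gcongr
            · exact h1 y' hy'
            · exact h2 y' hy'
        _ = _ := by ring
    · simp [Set.indicator_of_notMem hy']
  have h5 : Hd A σ k c₀ y * a * 2⁻¹ ≤ e1 * e2 * (d0 y * a0) :=
    le_trans (by gcongr) h4
  calc Hd A σ k c₀ y * a = 2 * (Hd A σ k c₀ y * a * 2⁻¹) := by
        rw [mul_comm 2, mul_assoc, ENNReal.inv_mul_cancel two_ne_zero ENNReal.ofNat_ne_top, mul_one]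
    _ ≤ 2 * (e1 * e2 * (d0 y * a0)) := by gcongr
    _ = _ := by rw [← mul_assoc]

/-- **law comparison**, isotropic form -/
theorem PL_le {σ k c₀ ε : ℝ} (hσ : 0 ≤ σ) (hc : 0 ≤ c₀) (hk : c₀ * σ < k) (hε : 0 < ε) :
    ∃ c > 0, ∀ᶠ n : ℕ in atTop, ∀ (ι : Type) [Fintype ι] (A : ι → Mat n), GoeFam A →
      ∀ x : Vec n, F.sq x = n → ∀ Ψ : Vec n → ℝ≥0∞, Measurable Ψ → (∀ y, Ψ y ≤ 1) →
        PL A σ k c₀ x Ψ ≤ ENNReal.ofReal (Real.exp (ε * n)) * pl ((k + σ ^ 2) • (1 : Mat n)) x Ψ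
          + ENNReal.ofReal (Real.exp (-(c * n))) := by
  set γ := k + σ ^ 2 with hγ
  have hk0 : 0 < k := lt_of_le_of_lt (mul_nonneg hc hσ) hk
  have hγ0 : 0 < γ := by positivity
  have hl : 0 < k - c₀ * σ := sub_pos.2 hk
  set δ : ℝ := min (γ / 2) (ε / 4 * min (k - c₀ * σ) γ) with hδ
  have hδ0 : 0 < δ := lt_min (by positivity) (mul_pos (by positivity) (lt_min hl hγ0))
  have hδ1 : δ < γ ^ 2 + γ := by
    have := min_le_left (γ / 2) (ε / 4 * min (k - c₀ * σ) γ)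
    have h2 := sq_nonneg γ
    linarith
  have hδ2 : δ ≤ ε / 4 * (k - c₀ * σ) := (min_le_right _ _).trans
    (mul_le_mul_of_nonneg_left (min_le_left _ _) (by positivity))
  have hδ3 : δ ≤ ε / 4 * γ := (min_le_right _ _).trans
    (mul_le_mul_of_nonneg_left (min_le_right _ _) (by positivity))
  obtain ⟨c, hc0, h1⟩ := PL_off hσ hc hk hδ0
  refine ⟨c, hc0, ?_⟩
  filter_upwards [h1, pl_shell hγ0 hδ0, eventually_le_mul 1 (half_pos hε), eventually_gt_atTop 0]
    with n h1 h2 h3 hn ι _ A hA x hx Ψ hΨ hΨ1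
  have hn' : (0 : ℝ) ≤ n := Nat.cast_nonneg n
  have hΨc : Measurable ((shell n γ δ)ᶜ.indicator (1 : Vec n → ℝ≥0∞)) :=
    measurable_one.indicator (measurableSet_shell γ δ).compl
  have h4 := h1 ι A hA x hx
  rw [PL_eq A σ k c₀ hx hΨc] at h4
  rw [PL_eq A σ k c₀ hx hΨ]
  refine le_trans ?_ (add_le_add le_rfl h4)
  unfold pl
  have m2 : Measurable fun y : Vec n => Hd A σ k c₀ y *
      (ENNReal.ofReal (Real.exp (ip y x - (k * n / 2 + σ ^ 2 * n / 4))) *
        (shell n γ δ)ᶜ.indicator (1 : Vec n → ℝ≥0∞) y) :=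
    (measurable_Hd A σ k c₀).mul ((measurable_eip x _).mul hΨc)
  rw [← lintegral_const_mul' _ _ ENNReal.ofReal_ne_top, ← lintegral_add_right _ m2]
  refine lintegral_mono fun y => ?_
  by_cases hy : y ∈ shell n γ δ
  · refine le_trans ?_ le_self_add
    have h5 := Hd_le_shell hA hn hσ hc hk hδ1 hx (h2 x hx) hy
    have h6 : 2 * (ENNReal.ofReal (Real.exp (2 * δ * n / (2 * (k - c₀ * σ))))
        * ENNReal.ofReal (Real.exp (2 * δ * n / (2 * γ)))) ≤ ENNReal.ofReal (Real.exp (ε * n)) := by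
      rw [← ENNReal.ofReal_mul (Real.exp_pos _).le, ← ENNReal.ofReal_ofNat 2,
        ← ENNReal.ofReal_mul (by norm_num), ← Real.exp_add]
      refine ENNReal.ofReal_le_ofReal ?_
      have h7 : 2 * δ * n / (2 * (k - c₀ * σ)) ≤ ε / 4 * n := by
        rw [div_le_iff₀ (by positivity)]
        have := mul_le_mul_of_nonneg_right hδ2 hn'
        linarith
      have h8 : 2 * δ * n / (2 * γ) ≤ ε / 4 * n := by
        rw [div_le_iff₀ (by positivity)]
        have := mul_le_mul_of_nonneg_right hδ3 hn'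
        linarith
      have h9 : (2 : ℝ) ≤ Real.exp (ε / 2 * n) := by
        have := Real.add_one_le_exp (ε / 2 * n)
        linarith
      calc _ ≤ Real.exp (ε / 2 * n) * Real.exp (ε / 2 * n) :=
            mul_le_mul h9 (Real.exp_le_exp.2 (by linarith)) (Real.exp_pos _).le (Real.exp_pos _).le
        _ = _ := by rw [← Real.exp_add]; congr 1; ring
    have e : qf (γ • (1 : Mat n)) x / 2 = γ * n / 2 := by rw [qf_smul', qf_one', hx]
    simp only [ofReal_exp_sub, e]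
    calc Hd A σ k c₀ y * (ENNReal.ofReal (Real.exp (ip y x))
          * ENNReal.ofReal (Real.exp (-(k * n / 2 + σ ^ 2 * n / 4))) * Ψ y)
        = Hd A σ k c₀ y * ENNReal.ofReal (Real.exp (-(k * n / 2 + σ ^ 2 * n / 4)))
          * (ENNReal.ofReal (Real.exp (ip y x)) * Ψ y) := by ring
      _ ≤ ENNReal.ofReal (Real.exp (ε * n)) * (ENNReal.ofReal (dens (γ • (1 : Mat n)) y)
          * ENNReal.ofReal (Real.exp (-(γ * n / 2)))) * (ENNReal.ofReal (Real.exp (ip y x)) * Ψ y) :=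
          mul_le_mul' (h5.trans (mul_le_mul' h6 le_rfl)) le_rfl
      _ = _ := by ring
  · refine le_trans ?_ le_add_self
    rw [Set.indicator_of_mem (show y ∈ (shell n γ δ)ᶜ from hy)]
    gcongr
    exact hΨ1 y

end Vale.Agent.N150.Law
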