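import Mathlib
import Vale.Agent.N150.EndLaw
import Vale.Agent.N150.EndDefs
import Vale.Agent.N150.SphLow

/-! The one-shot labels as convolutions, and independence of the diagonal (`DiagStmt`). -/

open MeasureTheory ProbabilityTheory Matrix Real Filter Topology
open scoped ENNReal

namespace Vale.Agent.N150.Law

open Vale.Agent.P150 Vale.Agent.P150.F Vale.Agent.N150.End

variable {n : ℕ}

/-- probability that `Q x + R ξ + z` lies in `B` -/
noncomputable def cv (Q R : Mat n) (x : Vec n) (B : Set (Vec n)) (z : Vec n) : ℝ≥0∞ :=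
  ∫⁻ ξ, B.indicator 1 (Q.mulVec x + (R.mulVec ξ + z)) ∂gpi (Fin n)

theorem measurable_cv (Q R : Mat n) (x : Vec n) {B : Set (Vec n)} (hB : MeasurableSet B) :
    Measurable (cv Q R x B) := by
  unfold cv
  refine Measurable.lintegral_prod_right' (f := fun p : Vec n × Vec n =>
    B.indicator (1 : Vec n → ℝ≥0∞) (Q.mulVec x + (R.mulVec p.2 + p.1))) ?_
  exact (measurable_one.indicator hB).comp
    ((((measurable_matVec R).comp measurable_snd).add measurable_fst).const_add _)

theorem cv_le_one (Q R : Mat n) (x : Vec n) (B : Set (Vec n)) (z : Vec n) : cv Q R x B z ≤ 1 := by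
  unfold cv
  refine (lintegral_mono fun ξ => Set.indicator_le_self B (1 : Vec n → ℝ≥0∞) _).trans ?_
  simp

theorem obs_eq (R : Mat n) (s : ℝ) (x : Cfg n) (ξ : Vec n) :
    obs R s x ξ = (s • (R * Rᵀ)).mulVec (sv x) + (√s • R).mulVec ξ := by
  funext i
  rw [Matrix.smul_mulVec, Matrix.smul_mulVec]
  rfl

theorem root_smul (R : Mat n) {s : ℝ} (hs : 0 ≤ s) :
    (√s • R) * (√s • R)ᵀ = s • (R * Rᵀ) := by
  rw [Matrix.transpose_smul, Matrix.smul_mul, Matrix.mul_smul, smul_smul, Real.mul_self_sqrt hs]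

/-- the label as a convolution -/
theorem obs_conv {R R₁ R₂ Q₁ Q₂ : Mat n} {s : ℝ} (hs : 0 ≤ s) (h : s • (R * Rᵀ) = Q₁ + Q₂)
    (h₁ : R₁ * R₁ᵀ = Q₁) (h₂ : R₂ * R₂ᵀ = Q₂) (x : Cfg n) {B : Set (Vec n)}
    (hB : MeasurableSet B) :
    gpi (Fin n) {ξ | obs R s x ξ ∈ B}
      = ∫⁻ ξ, cv Q₁ R₁ (sv x) B (Q₂.mulVec (sv x) + R₂.mulVec ξ) ∂gpi (Fin n) := by
  have hF : Measurable fun v : Vec n =>
      B.indicator (1 : Vec n → ℝ≥0∞) ((Q₁ + Q₂).mulVec (sv x) + v) :=
    (measurable_one.indicator hB).comp (measurable_id.const_add _)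
  have hS : MeasurableSet {ξ : Vec n | obs R s x ξ ∈ B} := by
    simp_rw [obs_eq]
    exact hB.preimage ((measurable_matVec _).const_add _)
  have e := lintegral_mulVec_add (A := √s • R) (A₁ := R₁) (A₂ := R₂)
    (by rw [root_smul R hs, h, h₁, h₂]) hF
  rw [← lintegral_indicator_one hS]
  refine Eq.trans (lintegral_congr fun ξ => ?_) (e.trans (lintegral_congr fun ξ => ?_))
  · rw [← h, ← obs_eq]
    rfl
  · unfold cv
    refine lintegral_congr fun w => ?_
    congr 1
    rw [Matrix.add_mulVec]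
    abel

theorem ofReal_PY {μ : Cfg n → ℝ} (hμ : ∀ x, 0 ≤ μ x) (R : Mat n) (s : ℝ) (B : Set (Vec n)) :
    ENNReal.ofReal (PY μ R s B)
      = ∑ x, ENNReal.ofReal (μ x) * gpi (Fin n) {ξ | obs R s x ξ ∈ B} := by
  unfold PY
  rw [ENNReal.ofReal_sum_of_nonneg fun x _ => mul_nonneg (hμ x) measureReal_nonneg]
  refine Finset.sum_congr rfl fun x _ => ?_
  rw [ENNReal.ofReal_mul (hμ x), ofReal_measureReal]

theorem sum_ofReal {μ : Cfg n → ℝ} (hμ : IsProb μ) : ∑ x, ENNReal.ofReal (μ x) = 1 := by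
  rw [← ENNReal.ofReal_sum_of_nonneg fun x _ => hμ.1 x, hμ.2, ENNReal.ofReal_one]

/-- comparison of a diagonal Gaussian law close to the standard one -/
theorem diag_cmp {c y : Vec n} {η lam : ℝ} (hη : η ≤ 1 / 4) (hc : ∀ a, |c a - 1| ≤ η)
    (hy : ∀ a, y a ^ 2 ≤ 2 * η ^ 2) {G : Vec n → ℝ≥0∞} (hG : Measurable G) (hG1 : ∀ g, G g ≤ 1) :
    ∫⁻ g, G (afm (fun a => y a / c a) (fun a => (√(c a))⁻¹) g) ∂gpi (Fin n)
      ≤ ENNReal.ofReal (exp (5 * η * n - lam)) + ENNReal.ofReal (exp lam) * ∫⁻ g, G g ∂gpi (Fin n) := by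
  have hc0 : ∀ a, 0 < c a := fun a => by linarith [(abs_le.1 (hc a)).1]
  have hc2 : ∀ a, 0 < 2 * c a - 1 := fun a => by linarith [(abs_le.1 (hc a)).1]
  set k := -(∑ a, Real.log (c a)) / 2 + (∑ a, y a ^ 2 / c a) / 2 with hk
  set k' := -(∑ a, Real.log (2 * c a - 1)) / 2 + (∑ a, (2 * y a) ^ 2 / (2 * c a - 1)) / 2 with hk'
  set w : Vec n → ℝ := fun g => -(∑ a, (c a - 1) * g a ^ 2) / 2 + ∑ a, y a * g a with hw
  have h1 := lintegral_tiltL hc0 y hG
  have h2 := lintegral_tiltL hc2 (fun a => 2 * y a) (G := fun _ => 1) measurable_const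
  have hw2 : ∀ g : Vec n, -(∑ a, (2 * c a - 1 - 1) * g a ^ 2) / 2 + ∑ a, 2 * y a * g a = 2 * w g := by
    intro g
    rw [hw]
    simp only
    rw [mul_add, Finset.mul_sum, ← mul_div_assoc, mul_neg, Finset.mul_sum]
    congr 1
    · congr 2
      exact Finset.sum_congr rfl fun a _ => by ring
    · exact Finset.sum_congr rfl fun a _ => by ring
  simp only [hw2, mul_one, lintegral_const, measure_univ] at h2
  rw [← hk'] at h2
  rw [← hk] at h1
  have hkk : k' - 2 * k ≤ 5 * η * n := by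
    have e : k' - 2 * k = ∑ a, (-Real.log (2 * c a - 1) / 2 + (2 * y a) ^ 2 / (2 * c a - 1) / 2
        + Real.log (c a) - y a ^ 2 / c a) := by
      rw [hk, hk', Finset.sum_sub_distrib, Finset.sum_add_distrib, Finset.sum_add_distrib,
        ← Finset.sum_div, ← Finset.sum_div, Finset.sum_neg_distrib]
      ring
    rw [e]
    calc _ ≤ ∑ _a : Fin n, 5 * η := Finset.sum_le_sum fun a _ => ?_
      _ = 5 * η * n := by simp [mul_comm]
    obtain ⟨b1, b2⟩ := abs_le.1 (hc a)
    have hη0 : 0 ≤ η := (abs_nonneg _).trans (hc a)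
    have l1 := Real.log_le_sub_one_of_pos (hc0 a)
    have l2 := Real.one_sub_inv_le_log_of_pos (hc2 a)
    have l3 : (2 * c a - 1)⁻¹ ≤ 1 + 4 * η := by
      rw [inv_le_iff_one_le_mul₀ (hc2 a)]
      nlinarith
    have l4 : (2 * y a) ^ 2 / (2 * c a - 1) ≤ 4 * η := by
      rw [div_le_iff₀ (hc2 a)]
      nlinarith [hy a]
    have l5 : 0 ≤ y a ^ 2 / c a := div_nonneg (sq_nonneg _) (hc0 a).le
    linarith
  have hwm : Measurable fun g => ENNReal.ofReal (exp (2 * w g)) := by
    refine Measurable.ennreal_ofReal ?_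
    rw [hw]
    fun_prop
  have h3 : ∫⁻ g, ENNReal.ofReal (exp (w g)) * G g ∂gpi (Fin n)
      ≤ ENNReal.ofReal (exp k) * (ENNReal.ofReal (exp (5 * η * n - lam))
        + ENNReal.ofReal (exp lam) * ∫⁻ g, G g ∂gpi (Fin n)) := by
    calc _ ≤ ∫⁻ g, ENNReal.ofReal (exp (-k - lam)) * ENNReal.ofReal (exp (2 * w g))
          + ENNReal.ofReal (exp (k + lam)) * G g ∂gpi (Fin n) := lintegral_mono fun g => ?_
      _ = ENNReal.ofReal (exp (-k - lam)) * ENNReal.ofReal (exp k')
          + ENNReal.ofReal (exp (k + lam)) * ∫⁻ g, G g ∂gpi (Fin n) := by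
        rw [lintegral_add_left (hwm.const_mul _), lintegral_const_mul _ hwm,
          lintegral_const_mul _ hG, h2]
      _ ≤ _ := by
        rw [mul_add, ← mul_assoc, ← ENNReal.ofReal_mul (exp_pos _).le,
          ← ENNReal.ofReal_mul (exp_pos _).le, ← ENNReal.ofReal_mul (exp_pos _).le,
          ← exp_add, ← exp_add, ← exp_add]
        refine add_le_add (ENNReal.ofReal_le_ofReal (exp_le_exp.2 (by linarith))) le_rfl
    rcases le_total (w g) (k + lam) with h | h
    · exact le_add_left (mul_le_mul_left (ENNReal.ofReal_le_ofReal (exp_le_exp.2 h)) _)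
    · refine le_add_right ?_
      rw [← ENNReal.ofReal_mul (exp_pos _).le, ← exp_add]
      exact (mul_le_of_le_one_right' (hG1 g)).trans
        (ENNReal.ofReal_le_ofReal (exp_le_exp.2 (by linarith)))
  have h4 := h1.symm.le.trans h3
  exact (ENNReal.mul_le_mul_iff_right (by simp [exp_pos]) ENNReal.ofReal_ne_top).1 h4

theorem diagStmt : DiagStmt := by
  intro s c hs0 hs1 hc
  refine ⟨min (1 / 4) (c / 40), lt_min (by norm_num) (by positivity), ?_⟩
  set η := min (1 / 4) (c / 40) with hη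
  have hη1 : η ≤ 1 / 4 := min_le_left _ _
  have hη2 : η ≤ c / 40 := min_le_right _ _
  filter_upwards [eventually_le_mul 8 hc] with n hn μ J S0 S1 D B hμ hJ hJ3 hD h0 h1 hB hP
  obtain ⟨R, hR⟩ : ∃ R : Mat n, R * Rᵀ = s • (J + (3 : ℝ) • (1 : Mat n)) := by
    refine exists_root (fun i j => ?_) fun v => ?_
    · simp only [Matrix.smul_apply, Matrix.add_apply, Matrix.one_apply, hJ.apply j i, eq_comm]
    · rw [qf_smul', qf_add', qf_smul', qf_one']
      exact mul_nonneg hs0 (by linarith [(abs_le.1 (abs_qf_le (by norm_num) hJ3 v)).1])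
  have hcp : ∀ a, 0 < 1 + D a := fun a => by linarith [(abs_le.1 (hD a)).1]
  have e0 : s • (S0 * S0ᵀ) = s • (J + (3 : ℝ) • (1 : Mat n)) + s • (1 : Mat n) := by
    rw [h0]; module
  have e1 : s • (S1 * S1ᵀ) = s • (J + (3 : ℝ) • (1 : Mat n))
      + Matrix.diagonal fun a => s * (1 + D a) := by
    have : (Matrix.diagonal fun a => s * (1 + D a)) = s • ((1 : Mat n) + Matrix.diagonal D) := by
      ext a b
      by_cases h : a = b <;> simp [h, mul_add]
    rw [h1, this]; module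
  have r1 : (Matrix.diagonal fun a => √s * √(1 + D a))
      * (Matrix.diagonal fun a => √s * √(1 + D a))ᵀ = Matrix.diagonal fun a => s * (1 + D a) := by
    rw [Matrix.diagonal_transpose, Matrix.diagonal_mul_diagonal]
    congr 1
    funext a
    calc _ = (√s * √s) * (√(1 + D a) * √(1 + D a)) := by ring
      _ = _ := by rw [Real.mul_self_sqrt hs0, Real.mul_self_sqrt (hcp a).le]
  have key : ∀ x : Cfg n, gpi (Fin n) {ξ | obs S0 s x ξ ∈ B}
      ≤ ENNReal.ofReal (exp (5 * η * n - c / 2 * n))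
        + ENNReal.ofReal (exp (c / 2 * n)) * gpi (Fin n) {ξ | obs S1 s x ξ ∈ B} := by
    intro x
    rw [obs_conv hs0 e0 hR (root_scalar hs0) x hB, obs_conv hs0 e1 hR r1 x hB]
    have hm : Measurable fun ξ : Vec n => cv (s • (J + (3 : ℝ) • (1 : Mat n))) R (sv x) B
        ((Matrix.diagonal fun a => s * (1 + D a)).mulVec (sv x)
          + (Matrix.diagonal fun a => √s * √(1 + D a)).mulVec ξ) :=
      (measurable_cv _ _ _ hB).comp ((measurable_matVec _).const_add _)
    have hx : ∀ a, sv x a ^ 2 = 1 := fun a => by rw [pow_two]; exact sp_sq (x a)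
    refine le_of_eq_of_le (lintegral_congr fun ξ => ?_) (diag_cmp (c := fun a => 1 + D a)
      (y := fun a => -(√s * D a * sv x a * √(1 + D a))) hη1 (fun a => by simpa using hD a)
      (fun a => ?_) hm fun _ => cv_le_one _ _ _ _ _)
    · congr 1
      funext a
      have hq : 0 < √(1 + D a) := Real.sqrt_pos.2 (hcp a)
      have q1 := Real.mul_self_sqrt (hcp a).le
      have q2 := Real.mul_self_sqrt hs0
      simp only [Pi.add_apply, Matrix.smul_mulVec, Matrix.one_mulVec, Pi.smul_apply, smul_eq_mul,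
        Matrix.mulVec_diagonal, afm]
      have q3 : √(1 + D a) * (-(√s * D a * sv x a * √(1 + D a)) / (1 + D a))
          = -(√s * D a * sv x a) := by
        have := (hcp a).ne'
        field_simp
        rw [Real.sq_sqrt (hcp a).le]
      have q4 : √(1 + D a) * (√(1 + D a))⁻¹ = 1 := mul_inv_cancel₀ hq.ne'
      linear_combination (-√s) * q3 - √s * ξ a * q4 + D a * sv x a * q2
    · have h2 := sq_le_sq' (abs_le.1 (hD a)).1 (abs_le.1 (hD a)).2
      rw [neg_sq, mul_pow, mul_pow, mul_pow, hx, Real.sq_sqrt hs0, Real.sq_sqrt (hcp a).le]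
      have h3 : s * D a ^ 2 ≤ η ^ 2 := by nlinarith [sq_nonneg (D a)]
      have h4 : 1 + D a ≤ 2 := by linarith [(abs_le.1 (hD a)).2]
      nlinarith [mul_nonneg hs0 (sq_nonneg (D a)), hcp a]
  rw [← ENNReal.ofReal_le_ofReal_iff (exp_pos _).le] at hP ⊢
  rw [ofReal_PY hμ.1] at hP ⊢
  calc _ ≤ ∑ x, ENNReal.ofReal (μ x) * (ENNReal.ofReal (exp (5 * η * n - c / 2 * n))
        + ENNReal.ofReal (exp (c / 2 * n)) * gpi (Fin n) {ξ | obs S1 s x ξ ∈ B}) :=
        Finset.sum_le_sum fun x _ => mul_le_mul_right (key x) _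
    _ = ENNReal.ofReal (exp (5 * η * n - c / 2 * n)) + ENNReal.ofReal (exp (c / 2 * n))
        * ∑ x, ENNReal.ofReal (μ x) * gpi (Fin n) {ξ | obs S1 s x ξ ∈ B} := by
        simp_rw [mul_add]
        rw [Finset.sum_add_distrib, ← Finset.sum_mul, sum_ofReal hμ, one_mul, Finset.mul_sum]
        congr 1
        exact Finset.sum_congr rfl fun x _ => by ring
    _ ≤ ENNReal.ofReal (exp (5 * η * n - c / 2 * n)) + ENNReal.ofReal (exp (c / 2 * n))
        * ENNReal.ofReal (exp (-(c * n))) := by gcongr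
    _ ≤ _ := by
        rw [← ENNReal.ofReal_mul (exp_pos _).le, ← ENNReal.ofReal_add (exp_pos _).le (by positivity),
          ← exp_add]
        refine ENNReal.ofReal_le_ofReal ?_
        have hn0 : (0 : ℝ) ≤ n := Nat.cast_nonneg n
        have h2 : η * n ≤ c / 40 * n := mul_le_mul_of_nonneg_right hη2 hn0
        have h3 : exp (5 * η * n - c / 2 * n) ≤ exp (-(c / 4 * n) - 1) := exp_le_exp.2 (by linarith)
        have h4 : exp (c / 2 * n + -(c * n)) ≤ exp (-(c / 4 * n) - 1) := exp_le_exp.2 (by linarith)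
        have h5 : exp (-(c / 4 * n) - 1) * 2 ≤ exp (-(c / 4 * n)) := by
          rw [exp_sub, div_mul_eq_mul_div, div_le_iff₀ (exp_pos _)]
          exact mul_le_mul_of_nonneg_left (by linarith [Real.add_one_le_exp 1]) (exp_pos _).le
        linarith

end Vale.Agent.N150.Law
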