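import Mathlib
import Vale.Agent.N150.EndDiag

/-! Lower bound for the partition function at the critical temperature: second moment and Gaussian
concentration. -/

open MeasureTheory ProbabilityTheory Matrix Real Filter Topology
open scoped ENNReal

namespace Vale.Agent.N150.Law

open Vale.Agent.P150 Vale.Agent.P150.F Vale.Agent.N150.Edge

section gen

variable {ι X : Type*} [Fintype ι] [Fintype X]

/-- partition function of a linear Gaussian field -/
noncomputable def ZL (a : X → ι → ℝ) (ω : ι → ℝ) : ℝ := ∑ x, exp (∑ i, a x i * ω i)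

theorem ZL_pos [Nonempty X] (a : X → ι → ℝ) (ω : ι → ℝ) : 0 < ZL a ω :=
  Finset.sum_pos (fun _ _ => exp_pos _) Finset.univ_nonempty

theorem lip_logZL [Nonempty X] {a : X → ι → ℝ} {L : ℝ} (hL : 0 ≤ L)
    (ha : ∀ x, ∑ i, a x i ^ 2 ≤ L ^ 2) : Lip L fun ω => Real.log (ZL a ω) := by
  have key : ∀ w w' e, (∀ x, ∑ i, a x i * w i - ∑ i, a x i * w' i ≤ e) →
      Real.log (ZL a w) - Real.log (ZL a w') ≤ e := by
    intro w w' e h
    rw [← Real.log_div (ZL_pos a w).ne' (ZL_pos a w').ne', Real.log_le_iff_le_exp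
      (div_pos (ZL_pos a w) (ZL_pos a w')), div_le_iff₀ (ZL_pos a w')]
    unfold ZL
    rw [Finset.mul_sum]
    refine Finset.sum_le_sum fun x _ => ?_
    rw [← exp_add]
    exact exp_le_exp.2 (by linarith [h x])
  intro w w'
  have h := fun x => abs_le.1 (lip_lin (a x) hL (ha x) w w')
  rw [abs_le]
  refine ⟨?_, key w w' _ fun x => (h x).2⟩
  have := key w' w (L * ed w w') fun x => by linarith [(h x).1]
  linarith

theorem integral_ZL (a : X → ι → ℝ) : Integrable (ZL a) (gpi ι) ∧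
    ∫ ω, ZL a ω ∂gpi ι = ∑ x, exp ((∑ i, a x i ^ 2) / 2) := by
  refine ⟨integrable_finsetSum _ fun x _ => (integral_exp_lin (a x)).1, ?_⟩
  unfold ZL
  rw [integral_finsetSum _ fun x _ => (integral_exp_lin (a x)).1]
  exact Finset.sum_congr rfl fun x _ => (integral_exp_lin (a x)).2

theorem ZL_sq (a : X → ι → ℝ) (ω : ι → ℝ) :
    ZL a ω ^ 2 = ZL (fun p : X × X => fun i => a p.1 i + a p.2 i) ω := by
  unfold ZL
  rw [pow_two, Finset.sum_mul_sum, Fintype.sum_prod_type]
  refine Finset.sum_congr rfl fun x _ => Finset.sum_congr rfl fun x' _ => ?_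
  rw [← exp_add, ← Finset.sum_add_distrib]
  exact congrArg exp (Finset.sum_congr rfl fun i _ => by ring)

/-- second moment method and concentration -/
theorem low_gen [Nonempty X] {a : X → ι → ℝ} {L t K m : ℝ} (hL : 0 < L) (ht : 0 ≤ t)
    (ha : ∀ x, ∑ i, a x i ^ 2 ≤ L ^ 2) (hm : ∑ x, exp ((∑ i, a x i ^ 2) / 2) = m)
    (h2 : ∑ p : X × X, exp ((∑ i, (a p.1 i + a p.2 i) ^ 2) / 2) ≤ K * m ^ 2)
    (hK : 4 * K * exp (-(t ^ 2 / (4 * L ^ 2))) < 1) :
    (gpi ι).real {ω | Real.log (ZL a ω) ≤ Real.log (m / 2) - 2 * t}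
      ≤ exp (-(t ^ 2 / (4 * L ^ 2))) := by
  have hf := lip_logZL hL.le ha
  have hm0 : 0 < m := hm ▸ Finset.sum_pos (fun _ _ => exp_pos _) Finset.univ_nonempty
  have hK0 : 0 < K := by
    have : 0 < ∑ p : X × X, exp ((∑ i, (a p.1 i + a p.2 i) ^ 2) / 2) :=
      Finset.sum_pos (fun _ _ => exp_pos _) Finset.univ_nonempty
    exact pos_of_mul_pos_left (this.trans_le h2) (sq_nonneg m)
  obtain ⟨i1, e1⟩ := integral_ZL a
  obtain ⟨i2, e2⟩ := integral_ZL (fun p : X × X => fun i => a p.1 i + a p.2 i)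
  set S := {ω | m / 2 ≤ ZL a ω} with hS
  have hZm : Measurable (ZL a) := by unfold ZL; fun_prop
  have hSm : MeasurableSet S := measurableSet_le measurable_const hZm
  have hI : Integrable (S.indicator fun _ => K * m) (gpi ι) := (integrable_const _).indicator hSm
  have h3 : ∫ ω, ZL a ω ∂gpi ι ≤ ∫ ω, (m / 2 + (4 * K * m)⁻¹
      * ZL (fun p : X × X => fun i => a p.1 i + a p.2 i) ω) + S.indicator (fun _ => K * m) ω ∂gpi ι := by
    refine integral_mono i1 (((integrable_const _).add (i2.const_mul _)).add hI) fun ω => ?_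
    simp only
    rw [← ZL_sq]
    have hp : 0 ≤ (4 * K * m)⁻¹ * ZL a ω ^ 2 := by positivity
    by_cases h : ω ∈ S
    · rw [Set.indicator_of_mem h]
      have h4 : ZL a ω ≤ (4 * K * m)⁻¹ * ZL a ω ^ 2 + K * m := by
        rw [inv_mul_eq_div, div_add' _ _ _ (by positivity), le_div_iff₀ (by positivity)]
        nlinarith [sq_nonneg (ZL a ω - 2 * K * m)]
      linarith
    · rw [Set.indicator_of_notMem h]
      have h4 : ZL a ω < m / 2 := not_le.1 h
      linarith
  have i3 : Integrable (fun ω => m / 2 + (4 * K * m)⁻¹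
      * ZL (fun p : X × X => fun i => a p.1 i + a p.2 i) ω) (gpi ι) :=
    (integrable_const _).add (i2.const_mul _)
  rw [integral_add i3 hI,
    integral_add (integrable_const _) (i2.const_mul _), integral_const_mul, e1, e2, hm,
    integral_indicator hSm, setIntegral_const, integral_const] at h3
  simp only [probReal_univ, smul_eq_mul, one_mul] at h3
  have h4 : (4 * K * m)⁻¹ * ∑ p : X × X, exp ((∑ i, (a p.1 i + a p.2 i) ^ 2) / 2) ≤ m / 4 := by
    rw [inv_mul_eq_div, div_le_iff₀ (by positivity)]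
    linarith
  have h5 : 1 ≤ 4 * K * (gpi ι).real S := by
    have : m * 1 ≤ m * (4 * K * (gpi ι).real S) := by linarith
    exact le_of_mul_le_mul_left this hm0
  have h6 : Real.log (m / 2) ≤ (∫ w, Real.log (ZL a w) ∂gpi ι) + t := by
    by_contra hc
    have h7 : (gpi ι).real S ≤ exp (-(t ^ 2 / (4 * L ^ 2))) := by
      refine le_trans (measureReal_mono fun ω hω => ?_) (hf.tail hL ht)
      exact (not_le.1 hc).le.trans (Real.log_le_log (by positivity) hω)
    have := mul_le_mul_of_nonneg_left h7 (by positivity : 0 ≤ 4 * K)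
    linarith
  refine le_trans (measureReal_mono fun ω hω => ?_) (hf.tail_lower hL ht)
  have hω' : Real.log (ZL a ω) ≤ Real.log (m / 2) - 2 * t := hω
  show Real.log (ZL a ω) ≤ _
  linarith

end gen

variable {n : ℕ}

theorem card_cfg : (Fintype.card (Cfg n) : ℝ) = 2 ^ n := by
  rw [Fintype.card_fun, Fintype.card_bool, Fintype.card_fin]
  push_cast
  rfl

theorem sq_spin (x : Cfg n) : F.sq (sv x) = n := by
  unfold F.sq sv
  have : ∀ i, sp (x i) ^ 2 = 1 := fun i => by rw [pow_two]; exact sp_sq _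
  simp [this]

theorem sum_exp_ip_le (v : Vec n) : ∑ x : Cfg n, exp (ip v (sv x)) ≤ 2 ^ n * exp (F.sq v / 2) := by
  have h1 : ∑ x : Cfg n, exp (ip v (sv x)) = ∏ i, ∑ b : Bool, exp (v i * sp b) := by
    rw [Finset.prod_univ_sum, Fintype.piFinset_univ]
    exact Finset.sum_congr rfl fun x _ => Real.exp_sum _ _
  have h2 : ∀ i, ∑ b : Bool, exp (v i * sp b) ≤ 2 * exp (v i ^ 2 / 2) := by
    intro i
    have := Real.cosh_le_exp_half_sq (v i)
    rw [Real.cosh_eq] at this
    simp [sp]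
    linarith
  rw [h1]
  refine (Finset.prod_le_prod (fun i _ => by positivity) fun i _ => h2 i).trans (le_of_eq ?_)
  rw [Finset.prod_mul_distrib, ← Real.exp_sum, ← Finset.sum_div]
  simp [F.sq]

theorem overlap_int (x x' : Cfg n) :
    ∃ r ∈ Finset.Icc (-(n : ℤ)) n, ip (sv x) (sv x') = r := by
  refine ⟨∑ i, if x i = x' i then 1 else -1, ?_, ?_⟩
  · rw [Finset.mem_Icc, ← abs_le]
    refine (Finset.abs_sum_le_sum_abs _ _).trans (le_of_eq ?_)
    have : ∀ i, |(if x i = x' i then 1 else -1 : ℤ)| = 1 := fun i => by split_ifs <;> simp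
    simp [this]
  · unfold ip sv
    push_cast
    refine Finset.sum_congr rfl fun i _ => ?_
    cases x i <;> cases x' i <;> simp [sp]

theorem sum_exp_overlap (hn : 0 < n) (x : Cfg n) :
    ∑ x' : Cfg n, exp (ip (sv x) (sv x') ^ 2 / (2 * n)) ≤ (2 * n + 1) * 2 ^ n := by
  have hn' : (0 : ℝ) < n := by exact_mod_cast hn
  calc _ ≤ ∑ x' : Cfg n, ∑ r ∈ Finset.Icc (-(n : ℤ)) n,
        exp (-((r : ℝ) ^ 2 / (2 * n))) * exp (ip (((r : ℝ) / n) • sv x) (sv x')) := by
        refine Finset.sum_le_sum fun x' _ => ?_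
        obtain ⟨r, hr, e⟩ := overlap_int x x'
        refine le_trans (le_of_eq ?_) (Finset.single_le_sum (f := fun r : ℤ =>
          exp (-((r : ℝ) ^ 2 / (2 * n))) * exp (ip (((r : ℝ) / n) • sv x) (sv x')))
          (fun _ _ => by positivity) hr)
        rw [← exp_add, ip_smul_left, e]
        congr 1
        field_simp
        ring
    _ ≤ ∑ _r ∈ Finset.Icc (-(n : ℤ)) n, (2 : ℝ) ^ n := by
        rw [Finset.sum_comm]
        refine Finset.sum_le_sum fun r _ => ?_
        rw [← Finset.mul_sum]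
        refine (mul_le_mul_of_nonneg_left (sum_exp_ip_le _) (exp_pos _).le).trans (le_of_eq ?_)
        rw [sq_smul', sq_spin, mul_left_comm, ← exp_add]
        have : -((r : ℝ) ^ 2 / (2 * n)) + ((r : ℝ) / n) ^ 2 * n / 2 = 0 := by
          field_simp
          ring
        rw [this, exp_zero, mul_one]
    _ = _ := by
        rw [Finset.sum_const, Int.card_Icc, nsmul_eq_mul]
        have : ((n : ℤ) + 1 - -(n : ℤ)).toNat = 2 * n + 1 := by omega
        rw [this]
        push_cast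
        rfl

/-- the coefficients of the energy for `b • skM g + σ • W` -/
noncomputable def cf {ι : Type} (A : ι → Mat n) (b σ : ℝ) (x : Cfg n) : Pairs n ⊕ ι → ℝ :=
  Sum.elim (fun p => b / √n * (sp (x p.1.1) * sp (x p.1.2)))
    (fun i => σ / 2 * ip (sv x) ((A i).mulVec (sv x)))

variable {ι : Type} [Fintype ι] {A : ι → Mat n}

theorem cf_lin (A : ι → Mat n) (b σ : ℝ) (x : Cfg n) (g : Pairs n → ℝ) (ω : ι → ℝ) :
    ∑ i, cf A b σ x i * Sum.elim g ω i = qf (b • skM g + σ • goeM A ω) (sv x) / 2 := by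
  rw [Fintype.sum_sum_type, qf_add', qf_smul', qf_smul']
  have h1 := half_qf_eq b g x
  have h2 : qf (goeM A ω) (sv x) = _ := ip_goeM A ω (sv x) (sv x)
  have h3 : ∑ i, cf A b σ x (Sum.inr i) * Sum.elim g ω (Sum.inr i)
      = σ / 2 * qf (goeM A ω) (sv x) := by
    rw [h2, Finset.mul_sum]
    exact Finset.sum_congr rfl fun i _ => mul_assoc _ _ _
  have h4 : ∑ p, cf A b σ x (Sum.inl p) * Sum.elim g ω (Sum.inl p)
      = b / 2 * qf (skM g) (sv x) := h1.symm
  rw [h3, h4]
  ring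

theorem cf_cov (hA : GoeFam A) (hn : 0 < n) {b σ : ℝ} (h : b ^ 2 + σ ^ 2 = 1) (x x' : Cfg n) :
    ∑ i, cf A b σ x i * cf A b σ x' i = ip (sv x) (sv x') ^ 2 / (2 * n) - b ^ 2 / 2 := by
  have hn' : (0 : ℝ) < n := by exact_mod_cast hn
  rw [Fintype.sum_sum_type]
  have h1 := sum_pairs (n := n) fun i j => (sv x i * sv x' i) * (sv x j * sv x' j)
  have h2 : ∑ i, ∑ j, (sv x i * sv x' i) * (sv x j * sv x' j) = ip (sv x) (sv x') ^ 2 := by
    rw [pow_two]; unfold ip; rw [Finset.sum_mul_sum]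
  have h3 : ∑ i, (sv x i * sv x' i) * (sv x i * sv x' i) = n := by
    have : ∀ i, (sv x i * sv x' i) * (sv x i * sv x' i) = 1 := fun i => by
      have a1 : sv x i * sv x i = 1 := sp_sq (x i)
      have a2 : sv x' i * sv x' i = 1 := sp_sq (x' i)
      linear_combination (sv x' i * sv x' i) * a1 + a2
    simp [this]
  have h4 : ∑ p, cf A b σ x (Sum.inl p) * cf A b σ x' (Sum.inl p) = b ^ 2 / (2 * n) *
      ∑ p : Pairs n, ((sv x p.1.1 * sv x' p.1.1) * (sv x p.1.2 * sv x' p.1.2)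
        + (sv x p.1.2 * sv x' p.1.2) * (sv x p.1.1 * sv x' p.1.1)) := by
    rw [Finset.mul_sum]
    refine Finset.sum_congr rfl fun p _ => ?_
    have e : b / √n * (b / √n) = b ^ 2 / n := by
      rw [div_mul_div_comm, Real.mul_self_sqrt hn'.le, pow_two]
    show b / √n * (sv x p.1.1 * sv x p.1.2) * (b / √n * (sv x' p.1.1 * sv x' p.1.2)) = _
    rw [mul_mul_mul_comm, e]
    field_simp
    ring
  have h5 : ∑ i, cf A b σ x (Sum.inr i) * cf A b σ x' (Sum.inr i)
      = σ ^ 2 / 4 * ((ip (sv x) (sv x') * ip (sv x) (sv x')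
        + ip (sv x) (sv x') * ip (sv x) (sv x')) / n) := by
    rw [← goe_bil hA, Finset.mul_sum]
    refine Finset.sum_congr rfl fun i _ => ?_
    show σ / 2 * _ * (σ / 2 * _) = _
    ring
  rw [h2, h3] at h1
  rw [h4, h5, show ∑ p : Pairs n, ((sv x p.1.1 * sv x' p.1.1) * (sv x p.1.2 * sv x' p.1.2)
    + (sv x p.1.2 * sv x' p.1.2) * (sv x p.1.1 * sv x' p.1.1)) = ip (sv x) (sv x') ^ 2 - n by
      linarith]
  have h6 : σ ^ 2 = 1 - b ^ 2 := by linarith
  rw [h6]
  field_simp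
  ring

/-- the partition function of `b • skM g + σ • W` is rarely below its annealed value -/
theorem lowF {ε : ℝ} (hε : 0 < ε) : ∃ c > 0, ∀ᶠ n : ℕ in atTop, ∀ b σ : ℝ, b ^ 2 + σ ^ 2 = 1 →
    ∀ (ι : Type) [Fintype ι] (A : ι → Mat n), GoeFam A →
      (gpi (Pairs n ⊕ ι)).real {ω | Real.log (ZL (cf A b σ) ω) ≤ n * (Real.log 2 + 1 / 4 - ε)}
        ≤ exp (-(c * n)) := by
  refine ⟨ε ^ 2 / 36, by positivity, ?_⟩
  have hc : 0 < ε ^ 2 / 36 := by positivity
  have t1 := ((tendsto_exp_lin hc 1).const_mul 12).eventually (gt_mem_nhds (by norm_num : 12 * (0 : ℝ) < 1))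
  filter_upwards [t1, eventually_gt_atTop 0, eventually_le_mul 3 hε] with n t1 hn h3 b σ hb ι _ A hA
  have hn' : (0 : ℝ) < n := by exact_mod_cast hn
  have hn1 : (1 : ℝ) ≤ n := by exact_mod_cast hn
  have hd : ∀ x, ∑ i, cf A b σ x i ^ 2 = n / 2 - b ^ 2 / 2 := by
    intro x
    simp_rw [pow_two (cf A b σ x _)]
    rw [cf_cov hA hn hb, ipN_self, sq_spin]
    field_simp
  have e : (ε / 3 * n) ^ 2 / (4 * √n ^ 2) = ε ^ 2 / 36 * n := by
    rw [Real.sq_sqrt hn'.le]
    field_simp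
    ring
  have key := low_gen (a := cf A b σ) (L := √n) (t := ε / 3 * n) (K := 2 * n + 1)
    (m := 2 ^ n * exp ((n / 2 - b ^ 2 / 2) / 2)) (Real.sqrt_pos.2 hn') (by positivity)
    (fun x => by rw [hd, Real.sq_sqrt hn'.le]; nlinarith [sq_nonneg b])
    (by simp only [hd]; rw [Finset.sum_const, Finset.card_univ, nsmul_eq_mul, card_cfg]) ?_ ?_
  · rw [e] at key
    refine le_trans (measureReal_mono fun ω hω => ?_) key
    have hω' : Real.log (ZL (cf A b σ) ω) ≤ n * (Real.log 2 + 1 / 4 - ε) := hω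
    show Real.log (ZL (cf A b σ) ω) ≤ _
    rw [Real.log_div (by positivity) two_ne_zero, Real.log_mul (by positivity) (exp_pos _).ne',
      Real.log_pow, Real.log_exp]
    have l2 := Real.log_two_lt_d9
    nlinarith [sq_nonneg σ]
  · have h1 : ∀ p : Cfg n × Cfg n, exp ((∑ i, (cf A b σ p.1 i + cf A b σ p.2 i) ^ 2) / 2)
        ≤ exp ((n / 2 - b ^ 2 / 2) / 2) ^ 2 * exp (ip (sv p.1) (sv p.2) ^ 2 / (2 * n)) := by
      intro p
      simp_rw [add_sq, mul_assoc]
      rw [Finset.sum_add_distrib, Finset.sum_add_distrib, ← Finset.mul_sum, hd, hd,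
        cf_cov hA hn hb, ← exp_nat_mul, ← exp_add]
      refine exp_le_exp.2 ?_
      push_cast
      nlinarith [sq_nonneg b]
    refine (Finset.sum_le_sum fun p _ => h1 p).trans ?_
    rw [← Finset.mul_sum, Fintype.sum_prod_type]
    refine (mul_le_mul_of_nonneg_left (Finset.sum_le_sum fun x _ => sum_exp_overlap hn x)
      (by positivity)).trans (le_of_eq ?_)
    rw [Finset.sum_const, Finset.card_univ, nsmul_eq_mul, card_cfg]
    ring
  · rw [e]
    have h4 : 4 * (2 * (n : ℝ) + 1) ≤ 12 * n ^ 1 := by rw [pow_one]; linarith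
    have := mul_le_mul_of_nonneg_right h4 (exp_pos (-(ε ^ 2 / 36 * n))).le
    linarith

end Vale.Agent.N150.Law
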