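import Mathlib
import Vale.Agent.P150.Bdl.B4
import Vale.Agent.N150.EdgeDef

/-! Edge rigidity of the GOE: resolvent calculus and log-free moments of the self-consistent
equation. -/

open MeasureTheory ProbabilityTheory Filter Topology
open scoped Matrix

namespace Vale.Agent.N150.Edge

variable {n : ℕ}

/-- complexification of a real matrix -/
noncomputable def cx (M : Matrix (Fin n) (Fin n) ℝ) : Matrix (Fin n) (Fin n) ℂ :=
  Complex.ofRealHom.mapMatrix M

lemma cx_apply (M : Matrix (Fin n) (Fin n) ℝ) (a b : Fin n) : cx M a b = (M a b : ℂ) := rfl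

lemma cx_mul (M N : Matrix (Fin n) (Fin n) ℝ) : cx (M * N) = cx M * cx N := map_mul _ _ _

lemma cx_one : cx (1 : Matrix (Fin n) (Fin n) ℝ) = 1 := map_one _

lemma cx_transpose (M : Matrix (Fin n) (Fin n) ℝ) : cx Mᵀ = (cx M)ᵀ := rfl

lemma cx_diagonal (f : Fin n → ℝ) :
    cx (Matrix.diagonal f) = Matrix.diagonal fun a => (f a : ℂ) := by
  ext a b
  rw [cx_apply]
  by_cases h : a = b
  · subst h; simp
  · simp [Matrix.diagonal_apply_ne _ h]

/-- `z - M` -/
noncomputable def RA (z : ℂ) (M : Matrix (Fin n) (Fin n) ℝ) : Matrix (Fin n) (Fin n) ℂ :=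
  z • (1 : Matrix (Fin n) (Fin n) ℂ) - cx M

/-- the resolvent -/
noncomputable def RG (z : ℂ) (M : Matrix (Fin n) (Fin n) ℝ) : Matrix (Fin n) (Fin n) ℂ :=
  (RA z M)⁻¹

/-- the normalised trace of the resolvent -/
noncomputable def mS (z : ℂ) (M : Matrix (Fin n) (Fin n) ℝ) : ℂ := (n : ℂ)⁻¹ * (RG z M).trace

/-- the self-consistency defect -/
noncomputable def QS (z : ℂ) (M : Matrix (Fin n) (Fin n) ℝ) : ℂ := z * mS z M - 1 - mS z M ^ 2

lemma exists_isEig {M : Matrix (Fin n) (Fin n) ℝ} (hM : Mᵀ = M) : ∃ O lam, IsEig M O lam := by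
  have hH : M.IsHermitian := by
    rw [Matrix.IsHermitian, Matrix.conjTranspose_eq_transpose_of_trivial, hM]
  have h := hH.spectral_theorem
  rw [Unitary.conjStarAlgAut_apply] at h
  set U : Matrix (Fin n) (Fin n) ℝ := (hH.eigenvectorUnitary : Matrix (Fin n) (Fin n) ℝ) with hU
  have h1 : U * star U = 1 := Unitary.coe_mul_star_self _
  have h2 : star U = Uᵀ := Matrix.conjTranspose_eq_transpose_of_trivial U
  refine ⟨Uᵀ, hH.eigenvalues, ?_, ?_⟩
  · rw [Matrix.transpose_transpose, ← h2, h1]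
  · rw [Matrix.transpose_transpose, ← h2]
    exact h

/-- functional calculus in a fixed frame -/
noncomputable def FC (O : Matrix (Fin n) (Fin n) ℝ) (f : Fin n → ℂ) : Matrix (Fin n) (Fin n) ℂ :=
  (cx O)ᵀ * Matrix.diagonal f * cx O

section frame
variable {O : Matrix (Fin n) (Fin n) ℝ} (hO : Oᵀ * O = 1)
include hO

lemma cx_orth : (cx O)ᵀ * cx O = 1 := by rw [← cx_transpose, ← cx_mul, hO, cx_one]

lemma cx_orth' : cx O * (cx O)ᵀ = 1 := mul_eq_one_comm.1 (cx_orth hO)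

lemma FC_mul (f g : Fin n → ℂ) : FC O f * FC O g = FC O (fun a => f a * g a) := by
  unfold FC
  calc (cx O)ᵀ * Matrix.diagonal f * cx O * ((cx O)ᵀ * Matrix.diagonal g * cx O)
      = (cx O)ᵀ * Matrix.diagonal f * (cx O * (cx O)ᵀ) * Matrix.diagonal g * cx O := by
        simp only [Matrix.mul_assoc]
    _ = _ := by
        rw [cx_orth' hO, Matrix.mul_one, Matrix.mul_assoc _ (Matrix.diagonal f),
          Matrix.diagonal_mul_diagonal]

lemma FC_const (c : ℂ) : FC O (fun _ => c) = c • (1 : Matrix (Fin n) (Fin n) ℂ) := by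
  unfold FC
  rw [← Matrix.smul_one_eq_diagonal, Matrix.mul_smul, Matrix.mul_one, Matrix.smul_mul, cx_orth hO]

lemma FC_trace (f : Fin n → ℂ) : (FC O f).trace = ∑ a, f a := by
  unfold FC
  rw [Matrix.trace_mul_comm, ← Matrix.mul_assoc, cx_orth' hO, Matrix.one_mul,
    Matrix.trace_diagonal]

lemma abs_entry_le (a b : Fin n) : |O a b| ≤ 1 := by
  have h := congrFun (congrFun hO b) b
  rw [Matrix.mul_apply, Matrix.one_apply_eq] at h
  have h2 : O a b * O a b ≤ ∑ k, Oᵀ b k * O k b :=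
    Finset.single_le_sum (f := fun k => Oᵀ b k * O k b) (fun k _ => mul_self_nonneg (O k b))
      (Finset.mem_univ a)
  rw [h] at h2
  exact abs_le_one_iff_mul_self_le_one.2 h2

end frame

lemma FC_apply (O : Matrix (Fin n) (Fin n) ℝ) (f : Fin n → ℂ) (a b : Fin n) :
    FC O f a b = ∑ k, (O k a : ℂ) * f k * (O k b : ℂ) := by
  unfold FC
  rw [Matrix.mul_apply]
  refine Finset.sum_congr rfl fun k _ => ?_
  rw [Matrix.mul_diagonal]
  rfl

lemma FC_transpose (O : Matrix (Fin n) (Fin n) ℝ) (f : Fin n → ℂ) : (FC O f)ᵀ = FC O f := by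
  ext a b
  rw [Matrix.transpose_apply, FC_apply, FC_apply]
  exact Finset.sum_congr rfl fun k _ => by ring

lemma FC_conj (O : Matrix (Fin n) (Fin n) ℝ) (f : Fin n → ℂ) :
    (FC O f).map (starRingEnd ℂ) = FC O (fun a => (starRingEnd ℂ) (f a)) := by
  ext a b
  rw [Matrix.map_apply, FC_apply, FC_apply, map_sum]
  refine Finset.sum_congr rfl fun k _ => ?_
  simp

lemma FC_sub (O : Matrix (Fin n) (Fin n) ℝ) (f g : Fin n → ℂ) :
    FC O f - FC O g = FC O (fun a => f a - g a) := by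
  ext a b
  rw [Matrix.sub_apply, FC_apply, FC_apply, FC_apply, ← Finset.sum_sub_distrib]
  exact Finset.sum_congr rfl fun k _ => by ring

lemma norm_FC_le {O : Matrix (Fin n) (Fin n) ℝ} (hO : Oᵀ * O = 1) (f : Fin n → ℂ) {c : ℝ}
    (hf : ∀ k, ‖f k‖ ≤ c) (a b : Fin n) : ‖FC O f a b‖ ≤ n * c := by
  rw [FC_apply]
  refine (norm_sum_le _ _).trans ?_
  refine (Finset.sum_le_card_nsmul _ _ c fun k _ => ?_).trans (by simp)
  rw [norm_mul, norm_mul, Complex.norm_real, Complex.norm_real, Real.norm_eq_abs,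
    Real.norm_eq_abs]
  have h1 := abs_entry_le hO k a
  have h2 := abs_entry_le hO k b
  have h3 := hf k
  calc |O k a| * ‖f k‖ * |O k b| ≤ 1 * c * 1 := by
        gcongr
        exact (norm_nonneg _).trans h3 |> fun h => by linarith
    _ = c := by ring

lemma sub_real_ne {z : ℂ} (hz : 0 < z.im) (x : ℝ) : z - x ≠ 0 := by
  intro h
  have := congrArg Complex.im h
  simp at this
  linarith

lemma norm_inv_sub_le {z : ℂ} (hz : 0 < z.im) (x : ℝ) : ‖(z - x)⁻¹‖ ≤ (z.im)⁻¹ := by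
  rw [norm_inv]
  refine inv_anti₀ hz ?_
  have := Complex.abs_im_le_norm (z - x)
  simp only [Complex.sub_im, Complex.ofReal_im, sub_zero] at this
  exact (le_abs_self _).trans this

lemma neg_im_inv_sub (z : ℂ) (x : ℝ) : -((z - x)⁻¹).im = z.im * ‖(z - x)⁻¹‖ ^ 2 := by
  rw [Complex.inv_im, norm_inv, inv_pow, Complex.sq_norm]
  simp only [Complex.sub_im, Complex.ofReal_im, sub_zero]
  ring

section eig
variable {M O : Matrix (Fin n) (Fin n) ℝ} {lam : Fin n → ℝ} (h : IsEig M O lam)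
include h

lemma IsEig.RA_eq (z : ℂ) : RA z M = FC O (fun a => z - lam a) := by
  rw [← FC_sub, FC_const h.1]
  unfold RA
  congr 1
  rw [h.2, cx_mul, cx_mul, cx_diagonal]
  rfl

lemma IsEig.RA_mul {z : ℂ} (hz : 0 < z.im) :
    RA z M * FC O (fun a => (z - lam a)⁻¹) = 1 := by
  rw [h.RA_eq, FC_mul h.1]
  have : (fun a => (z - lam a) * (z - lam a)⁻¹) = fun _ => (1 : ℂ) := by
    ext a
    exact mul_inv_cancel₀ (sub_real_ne hz _)
  rw [this, FC_const h.1, one_smul]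

lemma IsEig.RG_eq {z : ℂ} (hz : 0 < z.im) : RG z M = FC O (fun a => (z - lam a)⁻¹) :=
  Matrix.inv_eq_right_inv (h.RA_mul hz)

lemma IsEig.mS_eq {z : ℂ} (hz : 0 < z.im) : mS z M = (n : ℂ)⁻¹ * ∑ a, (z - lam a)⁻¹ := by
  unfold mS
  rw [h.RG_eq hz, FC_trace h.1]

lemma IsEig.neg_im_mS {z : ℂ} (hz : 0 < z.im) :
    -(mS z M).im = (n : ℝ)⁻¹ * (z.im * ∑ a, ‖(z - lam a)⁻¹‖ ^ 2) := by
  rw [h.mS_eq hz]
  have h2 : ((n : ℂ)⁻¹) = (((n : ℝ)⁻¹ : ℝ) : ℂ) := by push_cast; rfl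
  rw [h2, Complex.im_ofReal_mul, Complex.im_sum, ← mul_neg, ← Finset.sum_neg_distrib,
    Finset.mul_sum (a := z.im)]
  congr 1
  exact Finset.sum_congr rfl fun a _ => neg_im_inv_sub z _

end eig

section symm
variable {M : Matrix (Fin n) (Fin n) ℝ} (hM : Mᵀ = M) {z : ℂ} (hz : 0 < z.im)
include hM hz

lemma RA_mul_RG : RA z M * RG z M = 1 := by
  obtain ⟨O, lam, h⟩ := exists_isEig hM
  rw [h.RG_eq hz, h.RA_mul hz]

lemma RG_mul_RA : RG z M * RA z M = 1 := mul_eq_one_comm.1 (RA_mul_RG hM hz)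

lemma det_RA_ne : (RA z M).det ≠ 0 :=
  (Matrix.isUnit_det_of_right_inverse (RA_mul_RG hM hz)).ne_zero

lemma RG_transpose : (RG z M)ᵀ = RG z M := by
  obtain ⟨O, lam, h⟩ := exists_isEig hM
  rw [h.RG_eq hz, FC_transpose]

lemma norm_RG_le (a b : Fin n) : ‖RG z M a b‖ ≤ n * (z.im)⁻¹ := by
  obtain ⟨O, lam, h⟩ := exists_isEig hM
  rw [h.RG_eq hz]
  exact norm_FC_le h.1 _ (fun k => norm_inv_sub_le hz _) a b

lemma neg_im_mS_nonneg : 0 ≤ -(mS z M).im := by
  obtain ⟨O, lam, h⟩ := exists_isEig hM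
  rw [h.neg_im_mS hz]
  positivity

lemma norm_mS_le : ‖mS z M‖ ≤ (z.im)⁻¹ := by
  obtain ⟨O, lam, h⟩ := exists_isEig hM
  rw [h.mS_eq hz, norm_mul, norm_inv, Complex.norm_natCast]
  have h1 : ‖∑ a, (z - lam a)⁻¹‖ ≤ n * (z.im)⁻¹ := by
    refine (norm_sum_le _ _).trans ?_
    exact (Finset.sum_le_card_nsmul _ _ _ fun k _ => norm_inv_sub_le hz _).trans (by simp)
  rcases Nat.eq_zero_or_pos n with h0 | h0
  · subst h0
    simp only [Nat.cast_zero, inv_zero, zero_mul]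
    positivity
  · have hn : (0 : ℝ) < n := by exact_mod_cast h0
    calc (n : ℝ)⁻¹ * _ ≤ (n : ℝ)⁻¹ * (n * (z.im)⁻¹) := by gcongr
      _ = _ := by field_simp

lemma norm_QS_le : ‖QS z M‖ ≤ ‖z‖ * (z.im)⁻¹ + 1 + (z.im)⁻¹ ^ 2 := by
  unfold QS
  have h := norm_mS_le hM hz
  refine (norm_sub_le _ _).trans (add_le_add ((norm_sub_le _ _).trans (add_le_add ?_ ?_)) ?_)
  · rw [norm_mul]; exact mul_le_mul_of_nonneg_left h (norm_nonneg _)
  · simp
  · rw [norm_pow]; exact pow_le_pow_left₀ (norm_nonneg _) h 2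

/-- the three Ward bounds -/
lemma ward (hn : 0 < n) :
    ‖(RG z M * RG z M).trace‖ ≤ n * (z.im)⁻¹ * -(mS z M).im ∧
    ‖(RG z M * RG z M * RG z M).trace‖ ≤ n * (z.im)⁻¹ ^ 2 * -(mS z M).im ∧
    ‖((RG z M * RG z M).map (starRingEnd ℂ) * RG z M).trace‖ ≤
      n * (z.im)⁻¹ ^ 2 * -(mS z M).im := by
  obtain ⟨O, lam, h⟩ := exists_isEig hM
  have hn' : (0 : ℝ) < n := by exact_mod_cast hn
  set g : Fin n → ℂ := fun a => (z - lam a)⁻¹ with hg
  have hS : n * (z.im)⁻¹ * -(mS z M).im = ∑ a, ‖g a‖ ^ 2 := by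
    rw [h.neg_im_mS hz]
    have : ∑ a, ‖(z - lam a)⁻¹‖ ^ 2 = ∑ a, ‖g a‖ ^ 2 := rfl
    rw [this]
    field_simp
  have hS2 : n * (z.im)⁻¹ ^ 2 * -(mS z M).im = ∑ a, ‖g a‖ ^ 2 * (z.im)⁻¹ := by
    rw [← Finset.sum_mul, ← hS]; ring
  have hgb : ∀ a, ‖g a‖ ≤ (z.im)⁻¹ := fun a => norm_inv_sub_le hz _
  rw [hS2, hS, h.RG_eq hz, ← hg, FC_mul h.1, FC_mul h.1, FC_conj, FC_mul h.1, FC_trace h.1,
    FC_trace h.1, FC_trace h.1]
  refine ⟨(norm_sum_le _ _).trans (Finset.sum_le_sum fun a _ => ?_),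
    (norm_sum_le _ _).trans (Finset.sum_le_sum fun a _ => ?_),
    (norm_sum_le _ _).trans (Finset.sum_le_sum fun a _ => ?_)⟩
  · rw [norm_mul, sq]
  · rw [norm_mul, norm_mul, sq]
    exact mul_le_mul_of_nonneg_left (hgb a) (by positivity)
  · rw [norm_mul, RCLike.norm_conj, norm_mul, sq]
    exact mul_le_mul_of_nonneg_left (hgb a) (by positivity)

end symm

/-- continuity of the resolvent, jointly in the spectral parameter and in the matrix -/
lemma continuous_RG {X : Type*} [TopologicalSpace X] {z : X → ℂ}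
    {M : X → Matrix (Fin n) (Fin n) ℝ} (hzc : Continuous z) (hMc : Continuous M)
    (hz : ∀ x, 0 < (z x).im) (hM : ∀ x, (M x)ᵀ = M x) :
    Continuous fun x => RG (z x) (M x) := by
  have hA : Continuous fun x => RA (z x) (M x) := by
    refine continuous_matrix fun a b => ?_
    simp only [RA, Matrix.sub_apply, Matrix.smul_apply, cx_apply]
    exact (hzc.smul continuous_const).sub
      (Complex.continuous_ofReal.comp (hMc.matrix_elem a b))
  have h : (fun x => RG (z x) (M x)) =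
      fun x => ((RA (z x) (M x)).det)⁻¹ • (RA (z x) (M x)).adjugate := by
    ext1 x
    unfold RG
    rw [Matrix.inv_def, Ring.inverse_eq_inv']
  rw [h]
  exact ((Continuous.matrix_det hA).inv₀ fun x => det_RA_ne (hM x) (hz x)).smul
    (Continuous.matrix_adjugate hA)

lemma continuous_mS {X : Type*} [TopologicalSpace X] {z : X → ℂ}
    {M : X → Matrix (Fin n) (Fin n) ℝ} (hzc : Continuous z) (hMc : Continuous M)
    (hz : ∀ x, 0 < (z x).im) (hM : ∀ x, (M x)ᵀ = M x) :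
    Continuous fun x => mS (z x) (M x) :=
  continuous_const.mul (continuous_RG hzc hMc hz hM).matrix_trace

/-- derivative of the resolvent along a line of symmetric matrices -/
lemma hasDerivAt_RG {M B : Matrix (Fin n) (Fin n) ℝ} (hM : Mᵀ = M) (hB : Bᵀ = B) {z : ℂ}
    (hz : 0 < z.im) (t₀ : ℝ) (C : Matrix (Fin n) (Fin n) ℂ) :
    HasDerivAt (fun t : ℝ => (C * RG z (M + (t - t₀) • B)).trace)
      ((C * (RG z M * cx B * RG z M)).trace) t₀ := by
  have hs : ∀ t : ℝ, (M + (t - t₀) • B)ᵀ = M + (t - t₀) • B := fun t => by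
    rw [Matrix.transpose_add, Matrix.transpose_smul, hM, hB]
  have hc : Continuous fun t : ℝ => RG z (M + (t - t₀) • B) :=
    continuous_RG continuous_const (by fun_prop) (fun _ => hz) hs
  have hid : ∀ t : ℝ, RG z (M + (t - t₀) • B) - RG z M =
      ((t - t₀ : ℝ) : ℂ) • (RG z (M + (t - t₀) • B) * cx B * RG z M) := by
    intro t
    have h1 : RA z M - RA z (M + (t - t₀) • B) = ((t - t₀ : ℝ) : ℂ) • cx B := by
      ext a b
      simp [RA, cx_apply]
    have h2 : RG z (M + (t - t₀) • B) - RG z M =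
        RG z (M + (t - t₀) • B) * (RA z M - RA z (M + (t - t₀) • B)) * RG z M := by
      rw [Matrix.mul_sub, Matrix.sub_mul, RG_mul_RA (hs t) hz, Matrix.mul_assoc,
        RA_mul_RG hM hz, Matrix.one_mul, Matrix.mul_one]
    rw [h2, h1, Matrix.mul_smul, Matrix.smul_mul]
  rw [hasDerivAt_iff_tendsto_slope]
  have hc2 : Continuous fun t : ℝ => (C * (RG z (M + (t - t₀) • B) * cx B * RG z M)).trace :=
    (continuous_const.matrix_mul ((hc.matrix_mul continuous_const).matrix_mul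
      continuous_const)).matrix_trace
  have hlim := (hc2.tendsto t₀).mono_left (nhdsWithin_le_nhds (s := {t₀}ᶜ))
  simp only [sub_self, zero_smul, add_zero] at hlim
  refine hlim.congr' ?_
  filter_upwards [self_mem_nhdsWithin] with t ht
  have ht' : t - t₀ ≠ 0 := sub_ne_zero.2 ht
  rw [slope_def_module]
  simp only [sub_self, zero_smul, add_zero]
  rw [← Matrix.trace_sub, ← Matrix.mul_sub, hid, Matrix.mul_smul, Matrix.trace_smul,
    Complex.real_smul, smul_eq_mul, ← mul_assoc (((t - t₀)⁻¹ : ℝ) : ℂ), ← Complex.ofReal_mul,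
    inv_mul_cancel₀ ht']
  simp

section goe
variable {ι : Type} [Fintype ι] {A : ι → Matrix (Fin n) (Fin n) ℝ} (hA : GoeFam A)
include hA

lemma GoeFam.tr (i : ι) : (A i)ᵀ = A i := by
  ext a b
  exact hA.symm i b a

lemma GoeFam.goeM_tr (ω : ι → ℝ) : (goeM A ω)ᵀ = goeM A ω := by
  unfold goeM
  rw [Matrix.transpose_sum]
  exact Finset.sum_congr rfl fun i _ => by rw [Matrix.transpose_smul, hA.tr]

lemma GoeFam.cov4 (F : Fin n → Fin n → Fin n → Fin n → ℂ) :
    ∑ i, ∑ a, ∑ b, ∑ c, ∑ d, (A i a b : ℂ) * (A i c d : ℂ) * F a b c d =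
      (n : ℂ)⁻¹ * (∑ a, ∑ b, F a b a b + ∑ a, ∑ b, F a b b a) := by
  rw [Finset.sum_comm, ← Finset.sum_add_distrib, Finset.mul_sum]
  refine Finset.sum_congr rfl fun a _ => ?_
  rw [Finset.sum_comm, ← Finset.sum_add_distrib, Finset.mul_sum]
  refine Finset.sum_congr rfl fun b _ => ?_
  rw [Finset.sum_comm]
  have h1 : ∀ c, ∑ i, ∑ d, (A i a b : ℂ) * (A i c d : ℂ) * F a b c d =
      (n : ℂ)⁻¹ * ((if a = c then F a b a b else 0) + (if b = c then F a b b a else 0)) := by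
    intro c
    rw [Finset.sum_comm]
    have h2 : ∀ d, ∑ i, (A i a b : ℂ) * (A i c d : ℂ) * F a b c d =
        (n : ℂ)⁻¹ * ((if b = d then (if a = c then F a b a b else 0) else 0) +
          (if a = d then (if b = c then F a b b a else 0) else 0)) := by
      intro d
      rw [← Finset.sum_mul]
      have h3 := congrArg (fun x : ℝ => (x : ℂ)) (hA.cov a b c d)
      simp only [Complex.ofReal_sum, Complex.ofReal_mul] at h3
      rw [h3]
      by_cases h4 : a = c <;> by_cases h5 : b = d <;> by_cases h6 : a = d <;>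
        by_cases h7 : b = c <;> simp_all
      ring
    simp only [h2, ← Finset.mul_sum, Finset.sum_add_distrib, Finset.sum_ite_eq, Finset.mem_univ,
      if_true]
  simp only [h1, ← Finset.mul_sum, Finset.sum_add_distrib, Finset.sum_ite_eq, Finset.mem_univ,
    if_true]

lemma GoeFam.cov_tr_tr (B C : Matrix (Fin n) (Fin n) ℂ) (hC : Cᵀ = C) :
    ∑ i, (cx (A i) * B).trace * (cx (A i) * C).trace = (n : ℂ)⁻¹ * (2 * (B * C).trace) := by
  have h := hA.cov4 fun a b c d => B b a * C d c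
  have hC' : ∀ a b, C b a = C a b := fun a b => congrFun (congrFun hC a) b
  have e1 : ∑ a, ∑ b, B b a * C a b = (B * C).trace := by
    simp only [Matrix.trace, Matrix.diag, Matrix.mul_apply]
    exact Finset.sum_comm
  have e2 : ∑ a, ∑ b, B b a * C b a = (B * C).trace := by
    rw [← e1]
    exact Finset.sum_congr rfl fun a _ => Finset.sum_congr rfl fun b _ => by rw [hC']
  rw [e1, e2, ← two_mul] at h
  rw [← h]
  refine Finset.sum_congr rfl fun i _ => ?_
  simp only [Matrix.trace, Matrix.diag, Matrix.mul_apply, cx_apply]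
  rw [Finset.sum_mul]
  refine Finset.sum_congr rfl fun a _ => ?_
  rw [Finset.sum_mul]
  refine Finset.sum_congr rfl fun b _ => ?_
  rw [Finset.mul_sum]
  refine Finset.sum_congr rfl fun c _ => ?_
  rw [Finset.mul_sum]
  exact Finset.sum_congr rfl fun d _ => by ring

lemma GoeFam.cov_tr (B : Matrix (Fin n) (Fin n) ℂ) (hB : Bᵀ = B) :
    ∑ i, (cx (A i) * (B * cx (A i) * B)).trace = (n : ℂ)⁻¹ * ((B * B).trace + B.trace ^ 2) := by
  have h := hA.cov4 fun a b c d => B b c * B d a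
  have hB' : ∀ a b, B b a = B a b := fun a b => congrFun (congrFun hB a) b
  have e1 : ∑ a, ∑ b, B b a * B b a = (B * B).trace := by
    simp only [Matrix.trace, Matrix.diag, Matrix.mul_apply]
    exact Finset.sum_congr rfl fun a _ => Finset.sum_congr rfl fun b _ => by rw [hB' a b]
  have e2 : ∑ a, ∑ b, B b b * B a a = B.trace ^ 2 := by
    simp only [Matrix.trace, Matrix.diag]
    rw [sq, Finset.sum_mul_sum]
    exact Finset.sum_comm
  rw [e1, e2] at h
  rw [← h]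
  refine Finset.sum_congr rfl fun i _ => ?_
  simp only [Matrix.trace, Matrix.diag, Matrix.mul_apply, cx_apply]
  refine Finset.sum_congr rfl fun a _ => Finset.sum_congr rfl fun b _ => ?_
  rw [Finset.sum_comm, Finset.mul_sum]
  refine Finset.sum_congr rfl fun d _ => ?_
  rw [Finset.sum_mul, Finset.mul_sum]
  exact Finset.sum_congr rfl fun c _ => by ring

omit hA in
lemma continuous_goeM : Continuous (goeM A) := by
  unfold goeM
  fun_prop

omit hA in
lemma goeM_update [DecidableEq ι] (ω : ι → ℝ) (i : ι) (t : ℝ) :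
    goeM A (Function.update ω i t) = goeM A ω + (t - ω i) • A i := by
  unfold goeM
  rw [← Finset.add_sum_erase _ _ (Finset.mem_univ i),
    ← Finset.add_sum_erase Finset.univ (fun k => ω k • A k) (Finset.mem_univ i),
    Function.update_self]
  have : ∑ k ∈ Finset.univ.erase i, Function.update ω i t k • A k =
      ∑ k ∈ Finset.univ.erase i, ω k • A k :=
    Finset.sum_congr rfl fun k hk => by rw [Function.update_of_ne (Finset.ne_of_mem_erase hk)]
  rw [this, sub_smul]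
  abel

omit hA in
lemma cx_goeM (ω : ι → ℝ) : cx (goeM A ω) = ∑ i, (ω i : ℂ) • cx (A i) := by
  ext a b
  simp [goeM, cx_apply, Matrix.sum_apply]

lemma GoeFam.zm_sub_one (hn : 0 < n) {z : ℂ} (hz : 0 < z.im) (ω : ι → ℝ) :
    z * mS z (goeM A ω) - 1 =
      (n : ℂ)⁻¹ * ∑ i, (ω i : ℂ) * (cx (A i) * RG z (goeM A ω)).trace := by
  have h := congrArg Matrix.trace (RA_mul_RG (hA.goeM_tr ω) hz)
  have hn' : (n : ℂ) ≠ 0 := by exact_mod_cast hn.ne'
  rw [RA, Matrix.sub_mul, Matrix.smul_mul, Matrix.one_mul, Matrix.trace_sub, Matrix.trace_smul,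
    cx_goeM, Matrix.sum_mul, Matrix.trace_sum, Matrix.trace_one, Fintype.card_fin] at h
  simp only [Matrix.smul_mul, Matrix.trace_smul, smul_eq_mul] at h
  unfold mS
  field_simp
  linear_combination h

omit hA in
lemma norm_trace_mul_le (B C : Matrix (Fin n) (Fin n) ℂ) {c : ℝ} (hC : ∀ a b, ‖C a b‖ ≤ c) :
    ‖(B * C).trace‖ ≤ (∑ a, ∑ b, ‖B a b‖) * c := by
  simp only [Matrix.trace, Matrix.diag, Matrix.mul_apply]
  rw [Finset.sum_mul]
  refine (norm_sum_le _ _).trans (Finset.sum_le_sum fun a _ => ?_)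
  rw [Finset.sum_mul]
  refine (norm_sum_le _ _).trans (Finset.sum_le_sum fun b _ => ?_)
  rw [norm_mul]
  exact mul_le_mul_of_nonneg_left (hC b a) (norm_nonneg _)

omit hA in
lemma norm_sand_le (B G : Matrix (Fin n) (Fin n) ℂ) {c : ℝ} (hc : 0 ≤ c)
    (hG : ∀ a b, ‖G a b‖ ≤ c) (a b : Fin n) :
    ‖(G * B * G) a b‖ ≤ (∑ a, ∑ b, ‖B a b‖) * c ^ 2 := by
  simp only [Matrix.mul_apply]
  rw [Finset.sum_comm, Finset.sum_mul]
  refine (norm_sum_le _ _).trans (Finset.sum_le_sum fun d _ => ?_)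
  rw [Finset.sum_mul, Finset.sum_mul]
  refine (norm_sum_le _ _).trans (Finset.sum_le_sum fun e _ => ?_)
  rw [norm_mul, norm_mul]
  calc ‖G a e‖ * ‖B e d‖ * ‖G d b‖ ≤ c * ‖B e d‖ * c := by
        gcongr
        · exact hG _ _
        · exact hG _ _
    _ = _ := by ring

/-- The moment recursion. -/
theorem GoeFam.moment_step (hn : 0 < n) {z : ℂ} (hz : 0 < z.im) (k : ℕ) {B : ℝ}
    (hB : ∀ M : Matrix (Fin n) (Fin n) ℝ, Mᵀ = M →
      ‖QS z M‖ * ((n * z.im)⁻¹ * -(mS z M).im) +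
        (2 * k + 1) * (‖z - 2 * mS z M‖ * (2 * (n * z.im)⁻¹ ^ 2 * -(mS z M).im)) ≤
      ‖QS z M‖ ^ 2 / 2 + B) :
    ∫ ω, ‖QS z (goeM A ω)‖ ^ (2 * (k + 1)) ∂(Measure.pi fun _ : ι => gaussianReal 0 1) ≤
      2 * B * ∫ ω, ‖QS z (goeM A ω)‖ ^ (2 * k) ∂(Measure.pi fun _ : ι => gaussianReal 0 1) := by
  classical
  set μ := Measure.pi fun _ : ι => gaussianReal 0 1 with hμ
  have hn' : (0 : ℝ) < n := by exact_mod_cast hn
  have hnc : (n : ℂ) ≠ 0 := by exact_mod_cast hn.ne'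
  set η : ℝ := (z.im)⁻¹ with hη
  have hη0 : 0 < η := by positivity
  set G : (ι → ℝ) → Matrix (Fin n) (Fin n) ℂ := fun ω => RG z (goeM A ω) with hG
  set m : (ι → ℝ) → ℂ := fun ω => mS z (goeM A ω) with hm
  set Q : (ι → ℝ) → ℂ := fun ω => QS z (goeM A ω) with hQ
  have hGc : Continuous G :=
    continuous_RG continuous_const continuous_goeM (fun _ => hz) hA.goeM_tr
  have hmc : Continuous m :=
    continuous_mS continuous_const continuous_goeM (fun _ => hz) hA.goeM_tr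
  have hQc : Continuous Q := by
    have : Q = fun ω => z * m ω - 1 - m ω ^ 2 := rfl
    rw [this]; fun_prop
  set CQ : ℝ := ‖z‖ * η + 1 + η ^ 2 with hCQ
  have hCQ0 : 0 ≤ CQ := by positivity
  have hQb : ∀ ω, ‖Q ω‖ ≤ CQ := fun ω => norm_QS_le (hA.goeM_tr ω) hz
  have hmb : ∀ ω, ‖m ω‖ ≤ η := fun ω => norm_mS_le (hA.goeM_tr ω) hz
  have hGb : ∀ ω a b, ‖G ω a b‖ ≤ n * η := fun ω => norm_RG_le (hA.goeM_tr ω) hz
  have hzm : ∀ ω, ‖z - 2 * m ω‖ ≤ ‖z‖ + 2 * η := by
    intro ω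
    refine (norm_sub_le _ _).trans ?_
    rw [norm_mul]
    have := hmb ω
    simp only [Complex.norm_ofNat]
    linarith only [this]
  -- the objects
  set T : ι → (ι → ℝ) → ℂ := fun i ω => (cx (A i) * G ω).trace with hT
  set U : ι → (ι → ℝ) → ℂ := fun i ω => (cx (A i) * (G ω * cx (A i) * G ω)).trace with hU
  set D : ι → (ι → ℝ) → ℂ := fun i ω => (n : ℂ)⁻¹ * (cx (A i) * (G ω * G ω)).trace with hD
  set cj := starRingEnd ℂ with hcj
  set Ψ : (ι → ℝ) → ℂ := fun ω => cj (Q ω) ^ (k + 1) * Q ω ^ k with hΨ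
  set c1 : (ι → ℝ) → ℂ := fun ω =>
    ((k + 1 : ℕ) : ℂ) * cj (Q ω) ^ k * cj (z - 2 * m ω) * Q ω ^ k with hc1
  set c2 : (ι → ℝ) → ℂ := fun ω =>
    cj (Q ω) ^ (k + 1) * ((k : ℂ) * Q ω ^ (k - 1) * (z - 2 * m ω)) with hc2
  have hcjc : Continuous cj := Complex.continuous_conj
  have hTc : ∀ i, Continuous (T i) := fun i => (continuous_const.matrix_mul hGc).matrix_trace
  have hUc : ∀ i, Continuous (U i) := fun i => (continuous_const.matrix_mul
    ((hGc.matrix_mul continuous_const).matrix_mul hGc)).matrix_trace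
  have hDc : ∀ i, Continuous (D i) := fun i => continuous_const.mul
    (continuous_const.matrix_mul (hGc.matrix_mul hGc)).matrix_trace
  have hΨc : Continuous Ψ := ((hcjc.comp hQc).pow _).mul (hQc.pow _)
  have hzmc : Continuous fun ω => z - 2 * m ω := by fun_prop
  have hc1c : Continuous c1 :=
    ((continuous_const.mul ((hcjc.comp hQc).pow _)).mul (hcjc.comp hzmc)).mul (hQc.pow _)
  have hc2c : Continuous c2 :=
    ((hcjc.comp hQc).pow _).mul ((continuous_const.mul (hQc.pow _)).mul hzmc)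
  have nΨ : ∀ ω, ‖Ψ ω‖ = ‖Q ω‖ ^ (2 * k) * ‖Q ω‖ := by
    intro ω
    simp only [hΨ, hcj, norm_mul, norm_pow, RCLike.norm_conj]
    ring
  have nc1 : ∀ ω, ‖c1 ω‖ = (k + 1) * ‖Q ω‖ ^ (2 * k) * ‖z - 2 * m ω‖ := by
    intro ω
    simp only [hc1, hcj, norm_mul, norm_pow, RCLike.norm_conj, Complex.norm_natCast]
    push_cast
    ring
  have nc2 : ∀ ω, ‖c2 ω‖ = k * ‖Q ω‖ ^ (2 * k) * ‖z - 2 * m ω‖ := by
    intro ω
    simp only [hc2, hcj, norm_mul, norm_pow, RCLike.norm_conj, Complex.norm_natCast]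
    cases k with
    | zero => simp
    | succ l =>
      rw [Nat.add_sub_cancel]
      ring
  -- derivatives
  have dT : ∀ i ω, HasDerivAt (fun t => T i (Function.update ω i t)) (U i ω) (ω i) := by
    intro i ω
    simp only [hT, hG, goeM_update]
    exact hasDerivAt_RG (hA.goeM_tr ω) (hA.tr i) hz (ω i) (cx (A i))
  have dm : ∀ i ω, HasDerivAt (fun t => m (Function.update ω i t)) (D i ω) (ω i) := by
    intro i ω
    have h := (hasDerivAt_RG (hA.goeM_tr ω) (hA.tr i) hz (ω i) 1).const_mul (n : ℂ)⁻¹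
    simp only [Matrix.one_mul] at h
    simp only [hm, mS, goeM_update]
    refine h.congr_deriv ?_
    simp only [hD, hG]
    rw [Matrix.mul_assoc, Matrix.trace_mul_comm, Matrix.mul_assoc]
  have dQ : ∀ i ω, HasDerivAt (fun t => Q (Function.update ω i t))
      ((z - 2 * m ω) * D i ω) (ω i) := by
    intro i ω
    have h1 := dm i ω
    have h3 := ((h1.const_mul z).sub_const 1).fun_sub (h1.fun_pow 2)
    refine h3.congr_deriv ?_
    simp only [Function.update_eq_self]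
    push_cast
    ring
  have dΨ : ∀ i ω, HasDerivAt (fun t => Ψ (Function.update ω i t))
      (c1 ω * cj (D i ω) + c2 ω * D i ω) (ω i) := by
    intro i ω
    have h2 := dQ i ω
    have h2' : HasDerivAt (fun t => cj (Q (Function.update ω i t)))
        (cj ((z - 2 * m ω) * D i ω)) (ω i) := h2.star_conj
    have h3 := (h2'.fun_pow (k + 1)).fun_mul (h2.fun_pow k)
    refine h3.congr_deriv ?_
    simp only [Function.update_eq_self, hc1, hc2, Nat.add_sub_cancel, map_mul]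
    ring
  -- bounds
  set S : ι → ℝ := fun i => ∑ a, ∑ b, ‖cx (A i) a b‖ with hS
  have hS0 : ∀ i, 0 ≤ S i := fun i => by positivity
  have bT : ∀ i ω, ‖T i ω‖ ≤ S i * (n * η) := fun i ω => norm_trace_mul_le _ _ (hGb ω)
  have bU : ∀ i ω, ‖U i ω‖ ≤ S i * (S i * (n * η) ^ 2) := fun i ω =>
    norm_trace_mul_le _ _ (norm_sand_le _ _ (by positivity) (hGb ω))
  set S1 : ℝ := ∑ a, ∑ b, ‖(1 : Matrix (Fin n) (Fin n) ℂ) a b‖ with hS1
  have bD : ∀ i ω, ‖D i ω‖ ≤ (n : ℝ)⁻¹ * (S i * (S1 * (n * η) ^ 2)) := by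
    intro i ω
    simp only [hD]
    rw [norm_mul, norm_inv, Complex.norm_natCast]
    refine mul_le_mul_of_nonneg_left (norm_trace_mul_le _ _ fun a b => ?_) (by positivity)
    have := norm_sand_le 1 (G ω) (by positivity) (hGb ω) a b
    rwa [Matrix.mul_one] at this
  have bΨ : ∀ ω, ‖Ψ ω‖ ≤ CQ ^ (2 * k) * CQ := by
    intro ω
    rw [nΨ]
    gcongr <;> exact hQb ω
  have bc1 : ∀ ω, ‖c1 ω‖ ≤ (k + 1) * CQ ^ (2 * k) * (‖z‖ + 2 * η) := by
    intro ω
    rw [nc1]
    gcongr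
    · exact hQb ω
    · exact hzm ω
  have bc2 : ∀ ω, ‖c2 ω‖ ≤ k * CQ ^ (2 * k) * (‖z‖ + 2 * η) := by
    intro ω
    rw [nc2]
    gcongr
    · exact hQb ω
    · exact hzm ω
  set F' : ι → (ι → ℝ) → ℂ := fun i ω =>
    (c1 ω * cj (D i ω) + c2 ω * D i ω) * T i ω + Ψ ω * U i ω with hF'
  have hF'c : ∀ i, Continuous (F' i) := fun i =>
    (((hc1c.mul (hcjc.comp (hDc i))).add (hc2c.mul (hDc i))).mul (hTc i)).add (hΨc.mul (hUc i))
  have bF : ∀ i, ∃ C : ℝ, (∀ ω, ‖Ψ ω * T i ω‖ ≤ C) ∧ ∀ ω, ‖F' i ω‖ ≤ C := by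
    intro i
    set d : ℝ := (n : ℝ)⁻¹ * (S i * (S1 * (n * η) ^ 2)) with hd
    have hd0 : 0 ≤ d := by have := hS0 i; positivity
    refine ⟨max (CQ ^ (2 * k) * CQ * (S i * (n * η)))
      (((k + 1) * CQ ^ (2 * k) * (‖z‖ + 2 * η) * d + k * CQ ^ (2 * k) * (‖z‖ + 2 * η) * d) *
        (S i * (n * η)) + CQ ^ (2 * k) * CQ * (S i * (S i * (n * η) ^ 2))), fun ω => ?_,
      fun ω => ?_⟩
    · refine le_trans ?_ (le_max_left _ _)
      rw [norm_mul]
      exact mul_le_mul (bΨ ω) (bT i ω) (norm_nonneg _) (by positivity)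
    · refine le_trans ?_ (le_max_right _ _)
      refine (norm_add_le _ _).trans (add_le_add ?_ ?_)
      · rw [norm_mul]
        refine mul_le_mul ((norm_add_le _ _).trans (add_le_add ?_ ?_)) (bT i ω) (norm_nonneg _)
          (by positivity)
        · rw [norm_mul, hcj, RCLike.norm_conj]
          exact mul_le_mul (bc1 ω) (bD i ω) (norm_nonneg _) (by positivity)
        · rw [norm_mul]
          exact mul_le_mul (bc2 ω) (bD i ω) (norm_nonneg _) (by positivity)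
      · rw [norm_mul]
        exact mul_le_mul (bΨ ω) (bU i ω) (norm_nonneg _) (by positivity)
  have hibp : ∀ i, ∫ ω, (ω i : ℂ) * (Ψ ω * T i ω) ∂μ = ∫ ω, F' i ω ∂μ := by
    intro i
    obtain ⟨C, h1, h2⟩ := bF i
    refine P150.Cav.ibp i (fun ω => Ψ ω * T i ω) (F' i) (hΨc.mul (hTc i)).measurable
      (hF'c i).measurable C h1 h2 fun ω => ?_
    refine ((dΨ i ω).fun_mul (dT i ω)).congr_deriv ?_
    simp only [Function.update_eq_self, hF']
  have iL : ∀ i, Integrable (fun ω : ι → ℝ => (ω i : ℂ) * (Ψ ω * T i ω)) μ := by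
    intro i
    obtain ⟨C, h1, -⟩ := bF i
    have h0 : Integrable (fun ω : ι → ℝ => ω i) μ :=
      (measurePreserving_eval (μ := fun _ : ι => gaussianReal 0 1) i).integrable_comp_of_integrable
        (IsGaussian.integrable_id (μ := gaussianReal 0 1))
    have h2 : Integrable (fun ω : ι → ℝ => ((ω i : ℝ) : ℂ)) μ := h0.ofReal
    exact h2.mul_bdd (hΨc.mul (hTc i)).aestronglyMeasurable (Eventually.of_forall h1)
  have iR : ∀ i, Integrable (F' i) μ := by
    intro i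
    obtain ⟨C, -, h2⟩ := bF i
    exact Integrable.of_bound (hF'c i).aestronglyMeasurable C (Eventually.of_forall h2)
  -- the error term
  set Err : (ι → ℝ) → ℂ := fun ω => (n : ℂ)⁻¹ * ∑ i, F' i ω - Ψ ω * m ω ^ 2 with hErr
  have hErr_eq : ∀ ω, Err ω = (n : ℂ)⁻¹ ^ 2 * (Ψ ω * (G ω * G ω).trace) +
      (n : ℂ)⁻¹ ^ 3 * (2 * (c1 ω * ((G ω * G ω).map cj * G ω).trace +
        c2 ω * (G ω * G ω * G ω).trace)) := by
    intro ω
    have hGt : (G ω)ᵀ = G ω := RG_transpose (hA.goeM_tr ω) hz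
    have e1 := hA.cov_tr (G ω) hGt
    have e2 := hA.cov_tr_tr (G ω * G ω) (G ω) hGt
    have e3 := hA.cov_tr_tr ((G ω * G ω).map cj) (G ω) hGt
    have e4 : ∀ i, cj (D i ω) = (n : ℂ)⁻¹ * (cx (A i) * (G ω * G ω).map cj).trace := by
      intro i
      simp only [hD, hcj, map_mul, map_inv₀, map_natCast, Matrix.trace, Matrix.diag,
        Matrix.mul_apply (M := cx (A i)), map_sum, cx_apply, Complex.conj_ofReal,
        Matrix.map_apply]
    have e5 : ∑ i, F' i ω = c1 ω * (n : ℂ)⁻¹ *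
        ∑ i, (cx (A i) * (G ω * G ω).map cj).trace * (cx (A i) * G ω).trace +
        c2 ω * (n : ℂ)⁻¹ * ∑ i, (cx (A i) * (G ω * G ω)).trace * (cx (A i) * G ω).trace +
        Ψ ω * ∑ i, (cx (A i) * (G ω * cx (A i) * G ω)).trace := by
      simp only [Finset.mul_sum, ← Finset.sum_add_distrib]
      refine Finset.sum_congr rfl fun i _ => ?_
      simp only [hF', e4]
      simp only [hD, hT, hU]
      ring
    have e6 : m ω = (n : ℂ)⁻¹ * (G ω).trace := rfl
    simp only [hErr]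
    rw [e5, e1, e2, e3, e6]
    ring
  have hErrb : ∀ ω, ‖Err ω‖ ≤ ‖Q ω‖ ^ (2 * (k + 1)) / 2 + B * ‖Q ω‖ ^ (2 * k) := by
    intro ω
    obtain ⟨w1, w2, w3⟩ := ward (hA.goeM_tr ω) hz hn
    have hI := neg_im_mS_nonneg (hA.goeM_tr ω) hz
    have hb := hB _ (hA.goeM_tr ω)
    set I : ℝ := -(mS z (goeM A ω)).im with hIdef
    have h1 : ‖Err ω‖ ≤ (n : ℝ)⁻¹ ^ 2 * (‖Q ω‖ ^ (2 * k) * ‖Q ω‖ * (n * η * I)) +
        (n : ℝ)⁻¹ ^ 3 * (2 * ((k + 1) * ‖Q ω‖ ^ (2 * k) * ‖z - 2 * m ω‖ * (n * η ^ 2 * I) +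
          k * ‖Q ω‖ ^ (2 * k) * ‖z - 2 * m ω‖ * (n * η ^ 2 * I))) := by
      rw [hErr_eq]
      refine (norm_add_le _ _).trans (add_le_add ?_ ?_)
      · rw [norm_mul, norm_pow, norm_inv, Complex.norm_natCast, norm_mul, nΨ]
        gcongr
      · rw [norm_mul, norm_pow, norm_inv, Complex.norm_natCast, norm_mul, Complex.norm_ofNat]
        gcongr
        refine (norm_add_le _ _).trans (add_le_add ?_ ?_)
        · rw [norm_mul, nc1]
          gcongr
        · rw [norm_mul, nc2]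
          gcongr
    refine h1.trans ?_
    have e : (n : ℝ)⁻¹ ^ 2 * (‖Q ω‖ ^ (2 * k) * ‖Q ω‖ * (n * η * I)) +
        (n : ℝ)⁻¹ ^ 3 * (2 * ((k + 1) * ‖Q ω‖ ^ (2 * k) * ‖z - 2 * m ω‖ * (n * η ^ 2 * I) +
          k * ‖Q ω‖ ^ (2 * k) * ‖z - 2 * m ω‖ * (n * η ^ 2 * I))) =
        ‖Q ω‖ ^ (2 * k) * (‖Q ω‖ * ((n * z.im)⁻¹ * I) +
          (2 * k + 1) * (‖z - 2 * m ω‖ * (2 * (n * z.im)⁻¹ ^ 2 * I))) := by
      rw [hη]
      field_simp
      ring
    rw [e]
    calc ‖Q ω‖ ^ (2 * k) * _ ≤ ‖Q ω‖ ^ (2 * k) * (‖Q ω‖ ^ 2 / 2 + B) :=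
          mul_le_mul_of_nonneg_left hb (by positivity)
      _ = _ := by ring
  have iQ : ∀ l : ℕ, Integrable (fun ω => ‖Q ω‖ ^ l) μ := by
    intro l
    refine Integrable.of_bound (hQc.norm.pow l).aestronglyMeasurable (CQ ^ l)
      (Eventually.of_forall fun ω => ?_)
    rw [Real.norm_eq_abs, abs_of_nonneg (by positivity)]
    exact pow_le_pow_left₀ (norm_nonneg _) (hQb ω) l
  have iM : Integrable (fun ω => Ψ ω * m ω ^ 2) μ := by
    refine Integrable.of_bound (hΨc.mul (hmc.pow 2)).aestronglyMeasurable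
      (CQ ^ (2 * k) * CQ * η ^ 2) (Eventually.of_forall fun ω => ?_)
    rw [norm_mul, norm_pow]
    exact mul_le_mul (bΨ ω) (pow_le_pow_left₀ (norm_nonneg _) (hmb ω) 2) (by positivity)
      (by positivity)
  have e2 : ∫ ω, ((‖Q ω‖ ^ (2 * (k + 1)) : ℝ) : ℂ) ∂μ = ∫ ω, Err ω ∂μ := by
    have h1 : ∀ ω, ((‖Q ω‖ ^ (2 * (k + 1)) : ℝ) : ℂ) =
        (n : ℂ)⁻¹ * ∑ i, (ω i : ℂ) * (Ψ ω * T i ω) - Ψ ω * m ω ^ 2 := by
      intro ω
      have h2 : ((‖Q ω‖ ^ (2 * (k + 1)) : ℝ) : ℂ) = (cj (Q ω) * Q ω) ^ (k + 1) := by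
        rw [pow_mul]
        push_cast
        rw [hcj, Complex.conj_mul']
      have h3 := hA.zm_sub_one hn hz ω
      have h4 : Q ω = (n : ℂ)⁻¹ * ∑ i, (ω i : ℂ) * T i ω - m ω ^ 2 := by
        rw [← h3]; rfl
      have h5 : ∑ i, (ω i : ℂ) * (Ψ ω * T i ω) = Ψ ω * ∑ i, (ω i : ℂ) * T i ω := by
        rw [Finset.mul_sum]
        exact Finset.sum_congr rfl fun i _ => by ring
      have h6 : (cj (Q ω) * Q ω) ^ (k + 1) = Ψ ω * Q ω := by
        simp only [hΨ]
        ring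
      rw [h2, h5, h6]
      conv_lhs => rw [h4]
      ring
    simp only [h1, hErr]
    rw [integral_sub ((integrable_finsetSum _ fun i _ => iL i).const_mul _) iM,
      integral_sub ((integrable_finsetSum _ fun i _ => iR i).const_mul _) iM,
      integral_const_mul, integral_const_mul, integral_finsetSum _ fun i _ => iL i,
      integral_finsetSum _ fun i _ => iR i]
    simp only [hibp]
  rw [integral_complex_ofReal] at e2
  have h3 : |∫ ω, ‖Q ω‖ ^ (2 * (k + 1)) ∂μ| = ‖∫ ω, Err ω ∂μ‖ := by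
    rw [← e2, Complex.norm_real, Real.norm_eq_abs]
  have h4 := norm_integral_le_of_norm_le (((iQ _).div_const 2).add ((iQ _).const_mul B))
    (Eventually.of_forall hErrb)
  rw [integral_add' ((iQ _).div_const 2) ((iQ _).const_mul _), integral_div,
    integral_const_mul] at h4
  have h5 := le_abs_self (∫ ω, ‖Q ω‖ ^ (2 * (k + 1)) ∂μ)
  rw [h3] at h5
  linarith only [h4, h5]

end goe

end Vale.Agent.N150.Edge
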