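import Mathlib
import Vale.Agent.N150.EdgeMom

/-! Edge rigidity of the GOE: the local law without logarithms and tightness of the largest
eigenvalue on the scale `n ^ (-2/3)`. -/

open MeasureTheory ProbabilityTheory Filter Topology
open scoped Matrix

namespace Vale.Agent.N150.Edge

variable {n : ℕ}

lemma le_of_sq' {a b : ℝ} (h : a ^ 2 ≤ b ^ 2) (hb : 0 ≤ b) : a ≤ b :=
  (abs_le_of_sq_le_sq' h hb).2

/-- Stieltjes transform of the semicircle law -/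
noncomputable def msc (z : ℂ) : ℂ := ∫ e in (0 : ℝ)..4, (scD e : ℂ) * (z - 2 + e)⁻¹

/-- `r` is the root of `z = r + r⁻¹` in the unit disc -/
structure Par (z r : ℂ) : Prop where
  lt : ‖r‖ < 1
  im : r.im < 0
  eq : z = r + r⁻¹

lemma Par.ne {z r : ℂ} (h : Par z r) : r ≠ 0 := by
  intro h0
  have := h.im
  rw [h0] at this
  simp at this

lemma inv_im' (r : ℂ) : (r⁻¹).im = -r.im / ‖r‖ ^ 2 := by
  rw [Complex.inv_im, Complex.sq_norm]

lemma exists_par {z : ℂ} (hz : 0 < z.im) : ∃ r, Par z r := by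
  obtain ⟨w, hw⟩ := IsAlgClosed.exists_pow_nat_eq (z ^ 2 - 4) (by norm_num : 0 < 2)
  have key : ∀ r : ℂ, r ≠ 0 → ‖r‖ ≤ 1 → z = r + r⁻¹ → Par z r := by
    intro r h0 h1 h2
    have h3 : z.im = r.im - r.im / ‖r‖ ^ 2 := by
      rw [h2, Complex.add_im, inv_im']; ring
    have hp : 0 < ‖r‖ := norm_pos_iff.2 h0
    have hp2 : 0 < ‖r‖ ^ 2 := by positivity
    have h4 : z.im * ‖r‖ ^ 2 = r.im * (‖r‖ ^ 2 - 1) := by
      rw [h3]; field_simp
    have h5 : 0 < r.im * (‖r‖ ^ 2 - 1) := by rw [← h4]; positivity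
    have h6 : ‖r‖ ^ 2 ≤ 1 := pow_le_one₀ hp.le h1
    refine ⟨lt_of_le_of_ne h1 fun h => ?_, ?_, h2⟩
    · rw [h] at h5; simp at h5
    · by_contra h
      nlinarith [mul_nonneg (not_lt.1 h) (sub_nonneg.2 h6)]
  have h1 : (z + w) / 2 * ((z - w) / 2) = 1 := by linear_combination (-1 / 4) * hw
  have h2 : (z + w) / 2 ≠ 0 := left_ne_zero_of_mul_eq_one h1
  have h3 : (z - w) / 2 ≠ 0 := right_ne_zero_of_mul_eq_one h1
  have h4 : ((z + w) / 2)⁻¹ = (z - w) / 2 := inv_eq_of_mul_eq_one_right h1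
  have h5 : ((z - w) / 2)⁻¹ = (z + w) / 2 := inv_eq_of_mul_eq_one_left h1
  by_cases h : ‖(z + w) / 2‖ ≤ 1
  · exact ⟨_, key _ h2 h (by rw [h4]; ring)⟩
  · refine ⟨_, key _ h3 ?_ (by rw [h5]; ring)⟩
    rw [← h4, norm_inv]
    exact inv_le_one_of_one_le₀ (not_le.1 h).le

lemma Par.msc_eq {z r : ℂ} (h : Par z r) : msc z = r := by
  have := stieltjes_sc r h.lt h.ne
  rw [← h.eq] at this
  exact this

lemma par_msc {z : ℂ} (hz : 0 < z.im) : Par z (msc z) := by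
  obtain ⟨r, h⟩ := exists_par hz
  rw [h.msc_eq]; exact h

namespace Par
variable {z r : ℂ} (h : Par z r)
include h

lemma t_le_im : -r.im ≤ (r⁻¹).im := by
  rw [inv_im']
  have hp : 0 < ‖r‖ := norm_pos_iff.2 h.ne
  rw [le_div_iff₀ (by positivity)]
  have h6 : ‖r‖ ^ 2 ≤ 1 := pow_le_one₀ hp.le h.lt.le
  nlinarith [h.im]

lemma im_inv_pos : 0 < (r⁻¹).im := by linarith [h.t_le_im, h.im]

lemma t_le_rho : -r.im ≤ ‖r⁻¹ - r‖ := by
  have h1 := Complex.abs_im_le_norm (r⁻¹ - r)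
  rw [Complex.sub_im] at h1
  have := le_abs_self ((r⁻¹).im - r.im)
  linarith [h.im_inv_pos]

lemma rho_pos : 0 < ‖r⁻¹ - r‖ := by linarith [h.t_le_rho, h.im]

lemma rho_sq : (r⁻¹ - r) ^ 2 = z ^ 2 - 4 := by
  rw [h.eq]
  have := h.ne
  field_simp
  ring

lemma rho_sq' : ‖r⁻¹ - r‖ ^ 2 = ‖z - 2‖ * ‖z + 2‖ := by
  rw [← norm_pow, h.rho_sq, ← norm_mul]
  congr 1
  ring

lemma fac (m : ℂ) : ‖m - r‖ * ‖m - r⁻¹‖ = ‖z * m - 1 - m ^ 2‖ := by
  rw [← norm_mul, ← norm_neg, h.eq]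
  congr 1
  have := h.ne
  field_simp
  ring

lemma I_le (m : ℂ) : -m.im ≤ -r.im + 2 * ‖z * m - 1 - m ^ 2‖ / ‖r⁻¹ - r‖ := by
  have hρ := h.rho_pos
  have h1 := h.fac m
  have h2 : ‖r⁻¹ - r‖ ≤ ‖m - r‖ + ‖m - r⁻¹‖ := by
    have := norm_sub_le (m - r) (m - r⁻¹)
    rwa [show m - r - (m - r⁻¹) = r⁻¹ - r by ring] at this
  have a1 := Complex.abs_im_le_norm (m - r)
  have a2 := Complex.abs_im_le_norm (m - r⁻¹)
  rw [Complex.sub_im] at a1 a2
  have b1 := neg_abs_le (m.im - r.im)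
  have b2 := neg_abs_le (m.im - (r⁻¹).im)
  rw [← h1]
  by_cases hc : ‖m - r‖ ≤ ‖m - r⁻¹‖
  · have : ‖m - r‖ ≤ 2 * (‖m - r‖ * ‖m - r⁻¹‖) / ‖r⁻¹ - r‖ := by
      rw [le_div_iff₀ hρ]
      nlinarith [norm_nonneg (m - r)]
    linarith
  · have : ‖m - r⁻¹‖ ≤ 2 * (‖m - r‖ * ‖m - r⁻¹‖) / ‖r⁻¹ - r‖ := by
      rw [le_div_iff₀ hρ]
      nlinarith [norm_nonneg (m - r⁻¹)]
    linarith [h.im, h.im_inv_pos]

lemma Z_le (m : ℂ) : ‖z - 2 * m‖ ≤ 2 * ‖r⁻¹ - r‖ + ‖z * m - 1 - m ^ 2‖ / ‖r⁻¹ - r‖ := by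
  have hρ := h.rho_pos
  have h1 : (z - 2 * m) ^ 2 = (r⁻¹ - r) ^ 2 - 4 * (z * m - 1 - m ^ 2) := by
    rw [h.rho_sq]; ring
  have h2 : ‖z - 2 * m‖ ^ 2 ≤ ‖r⁻¹ - r‖ ^ 2 + 4 * ‖z * m - 1 - m ^ 2‖ := by
    rw [← norm_pow, h1]
    refine (norm_sub_le _ _).trans (le_of_eq ?_)
    rw [norm_pow, norm_mul, Complex.norm_ofNat]
  refine le_of_sq' ?_ (by positivity)
  set q := ‖z * m - 1 - m ^ 2‖
  set ρ := ‖r⁻¹ - r‖
  have h3 : (2 * ρ + q / ρ) ^ 2 = 4 * ρ ^ 2 + 4 * q + (q / ρ) ^ 2 := by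
    field_simp
    ring
  nlinarith [sq_nonneg (q / ρ), sq_nonneg ρ]

lemma dist_le (m : ℂ) (hm : 0 ≤ -m.im) : ‖m - r‖ * (r⁻¹).im ≤ ‖z * m - 1 - m ^ 2‖ := by
  rw [← h.fac m]
  refine mul_le_mul_of_nonneg_left ?_ (norm_nonneg _)
  have a2 := Complex.abs_im_le_norm (m - r⁻¹)
  rw [Complex.sub_im] at a2
  have b2 := neg_abs_le (m.im - (r⁻¹).im)
  linarith

lemma rho_le_inside (hE : |z.re| ≤ 2) : ‖r⁻¹ - r‖ ≤ 3 * (r⁻¹).im := by
  have h1 := congrArg Complex.re h.rho_sq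
  set w := r⁻¹ - r with hw
  have h2 : w.im = (r⁻¹).im - r.im := by rw [hw, Complex.sub_im]
  have h3 : ‖w‖ ^ 2 = w.re ^ 2 + w.im ^ 2 := by
    rw [Complex.sq_norm, Complex.normSq_apply]; ring
  simp only [sq, Complex.mul_re, Complex.sub_re, Complex.re_ofNat] at h1
  have h4 : z.re * z.re ≤ 4 := by nlinarith [abs_nonneg z.re, sq_abs z.re]
  have h5 := h.t_le_im
  have h6 := h.im_inv_pos
  have h7 := h.im
  refine le_of_sq' ?_ (by positivity)
  have h8 : w.im ^ 2 ≤ (2 * (r⁻¹).im) ^ 2 :=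
    pow_le_pow_left₀ (by linarith) (by linarith) 2
  nlinarith [sq_nonneg z.im]

lemma rho_ge_inside (hz : 0 < z.im) (hE : |z.re| ≤ 2) : z.im ≤ ‖r⁻¹ - r‖ ^ 2 := by
  rw [h.rho_sq']
  have a1 := Complex.abs_im_le_norm (z - 2)
  have a2 := Complex.abs_im_le_norm (z + 2)
  have a3 := Complex.abs_re_le_norm (z - 2)
  have a4 := Complex.abs_re_le_norm (z + 2)
  simp only [Complex.sub_im, Complex.im_ofNat, sub_zero, Complex.add_im, add_zero,
    Complex.sub_re, Complex.re_ofNat, Complex.add_re] at a1 a2 a3 a4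
  rw [abs_of_pos hz] at a1 a2
  obtain ⟨e1, e2⟩ := abs_le.1 hE
  rw [abs_of_nonpos (by linarith)] at a3
  rw [abs_of_nonneg (by linarith)] at a4
  by_cases hc : 0 ≤ z.re
  · nlinarith
  · nlinarith

lemma outside {y : ℝ} (hE : 2 + y ^ 2 ≤ z.re) :
    y ≤ ‖r⁻¹ - r‖ ∧ -r.im * (2 * y) ≤ z.im := by
  have hp : 0 < ‖r‖ := norm_pos_iff.2 h.ne
  set R := ‖r‖⁻¹ with hR
  have hR1 : 1 < R := (one_lt_inv₀ hp).2 h.lt
  have hrR : ‖r‖ * R = 1 := mul_inv_cancel₀ hp.ne'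
  have h1 : z.re ≤ ‖r‖ + R := by
    refine (Complex.re_le_norm z).trans ?_
    rw [h.eq]
    refine (norm_add_le _ _).trans (le_of_eq ?_)
    rw [norm_inv]
  have h2 : y ^ 2 ≤ (R - 1) ^ 2 := by
    have h3 : (2 + y ^ 2) * R ≤ (‖r‖ + R) * R :=
      mul_le_mul_of_nonneg_right (hE.trans h1) (by linarith)
    nlinarith [sq_nonneg y]
  have h3 : y ≤ R - 1 := le_of_sq' h2 (by linarith)
  constructor
  · have h4 := norm_sub_norm_le r⁻¹ r
    rw [norm_inv] at h4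
    linarith [h.lt]
  · have h4 : z.im = -r.im * (R ^ 2 - 1) := by
      rw [h.eq, Complex.add_im, inv_im', hR]
      field_simp
      ring
    rw [h4]
    refine mul_le_mul_of_nonneg_left (by nlinarith) (by linarith [h.im])

end Par

lemma poly_ineq {x α τ K : ℝ} (hx : 0 ≤ x) (hα : 0 ≤ α) (hτ : 0 ≤ τ) (hτ1 : τ ≤ 1) (hK : 1 ≤ K)
    (hb : K * α ≤ 1 / 32) :
    x * (α * (τ + 2 * x)) + K * ((2 + x) * (2 * α ^ 2 * (τ + 2 * x))) ≤
      x ^ 2 / 2 + (6 * K * α ^ 2 * τ + 200 * K ^ 2 * α ^ 4) := by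
  set β := K * α with hβ
  have h1 : α ≤ β := by nlinarith
  have hβ0 : 0 ≤ β := hα.trans h1
  have e : x * (α * (τ + 2 * x)) + K * ((2 + x) * (2 * α ^ 2 * (τ + 2 * x))) =
      x * (α * τ) + 2 * α * x ^ 2 + 4 * (β * α * τ) + 2 * (4 + τ) * (β * α * x) +
        4 * (β * α) * x ^ 2 := by rw [hβ]; ring
  have e2 : 6 * K * α ^ 2 * τ + 200 * K ^ 2 * α ^ 4 = 6 * (β * α * τ) + 200 * (β * α) ^ 2 := by
    rw [hβ]; ring
  rw [e, e2]
  have k1 : x * (α * τ) ≤ x ^ 2 / 8 + 2 * (α * τ) ^ 2 := by nlinarith [sq_nonneg (x - 4 * (α * τ))]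
  have k2 : (α * τ) ^ 2 ≤ β * α * τ := by
    have : α * τ ≤ β := by nlinarith
    calc (α * τ) ^ 2 = (α * τ) * (α * τ) := sq _
      _ ≤ β * (α * τ) := mul_le_mul_of_nonneg_right this (by positivity)
      _ = _ := by ring
  have k3 : 10 * (β * α * x) ≤ x ^ 2 / 8 + 200 * (β * α) ^ 2 := by
    nlinarith [sq_nonneg (x - 40 * (β * α))]
  have k4 : 2 * (4 + τ) * (β * α * x) ≤ 10 * (β * α * x) :=
    mul_le_mul_of_nonneg_right (by linarith) (by positivity)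
  have k5 : 2 * α * x ^ 2 ≤ 1 / 16 * x ^ 2 := mul_le_mul_of_nonneg_right (by linarith) (by positivity)
  have k6 : 4 * (β * α) * x ^ 2 ≤ 1 / 16 * x ^ 2 :=
    mul_le_mul_of_nonneg_right (by nlinarith) (by positivity)
  nlinarith [sq_nonneg x]

section goe
variable {ι : Type} [Fintype ι] {A : ι → Matrix (Fin n) (Fin n) ℝ} (hA : GoeFam A)
include hA

lemma GoeFam.continuous_QS {z : ℂ} (hz : 0 < z.im) : Continuous fun ω => QS z (goeM A ω) := by
  have hmc : Continuous fun ω => mS z (goeM A ω) :=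
    continuous_mS continuous_const continuous_goeM (fun _ => hz) hA.goeM_tr
  unfold QS
  fun_prop

lemma GoeFam.integrable_QS {z : ℂ} (hz : 0 < z.im) (l : ℕ) :
    Integrable (fun ω => ‖QS z (goeM A ω)‖ ^ l) (Measure.pi fun _ : ι => gaussianReal 0 1) := by
  refine Integrable.of_bound ((hA.continuous_QS hz).norm.pow l).aestronglyMeasurable
    ((‖z‖ * (z.im)⁻¹ + 1 + (z.im)⁻¹ ^ 2) ^ l) (Eventually.of_forall fun ω => ?_)
  rw [Real.norm_eq_abs, abs_of_nonneg (by positivity)]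
  exact pow_le_pow_left₀ (norm_nonneg _) (norm_QS_le (hA.goeM_tr ω) hz) l

/-- Moments of the defect. -/
theorem GoeFam.moment_Q (hn : 0 < n) {z r : ℂ} (hz : 0 < z.im) (h : Par z r) (P : ℕ)
    (hP : 64 * P * (n * z.im)⁻¹ ≤ ‖r⁻¹ - r‖) (k : ℕ) (hk : k ≤ P) :
    ∫ ω, ‖QS z (goeM A ω)‖ ^ (2 * k) ∂(Measure.pi fun _ : ι => gaussianReal 0 1) ≤
      (24 * P * (n * z.im)⁻¹ ^ 2 * ‖r⁻¹ - r‖ * -r.im + 1600 * P ^ 2 * (n * z.im)⁻¹ ^ 4) ^ k := by
  have hn' : (0 : ℝ) < n := by exact_mod_cast hn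
  set a : ℝ := (n * z.im)⁻¹ with ha
  have ha0 : 0 < a := by positivity
  set ρ := ‖r⁻¹ - r‖ with hρ
  have hρ0 : 0 < ρ := h.rho_pos
  set t := -r.im with ht
  have ht0 : 0 < t := by linarith [h.im]
  have htρ : t ≤ ρ := h.t_le_rho
  induction k with
  | zero => simp
  | succ k ih =>
    have hk' : (k : ℝ) + 1 ≤ P := by exact_mod_cast hk
    have hk0 : (0 : ℝ) ≤ k := Nat.cast_nonneg k
    have h1 := hA.moment_step hn hz k
      (B := 6 * (2 * k + 1) * a ^ 2 * ρ * t + 200 * (2 * k + 1) ^ 2 * a ^ 4) (by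
        intro M hM
        have hI := h.I_le (mS z M)
        have hZ := h.Z_le (mS z M)
        have hI0 := neg_im_mS_nonneg hM hz
        have hq : ‖z * mS z M - 1 - mS z M ^ 2‖ = ‖QS z M‖ := rfl
        rw [hq, ← hρ] at hI hZ
        rw [← ht] at hI
        rw [← ha]
        set q := ‖QS z M‖ with hqd
        have hq0 : 0 ≤ q := norm_nonneg _
        have hb : (2 * k + 1) * (a / ρ) ≤ 1 / 32 := by
          rw [← mul_div_assoc, div_le_iff₀ hρ0]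
          nlinarith
        have hp := poly_ineq (x := q / ρ ^ 2) (α := a / ρ) (τ := t / ρ) (K := 2 * k + 1)
          (by positivity) (by positivity) (by positivity) ((div_le_one hρ0).2 htρ)
          (by linarith) hb
        have hp2 := mul_le_mul_of_nonneg_left hp (by positivity : 0 ≤ ρ ^ 4)
        have e1 : ρ ^ 4 * (q / ρ ^ 2 * (a / ρ * (t / ρ + 2 * (q / ρ ^ 2))) + (2 * k + 1) *
            ((2 + q / ρ ^ 2) * (2 * (a / ρ) ^ 2 * (t / ρ + 2 * (q / ρ ^ 2))))) =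
            q * (a * (t + 2 * q / ρ)) +
              (2 * k + 1) * ((2 * ρ + q / ρ) * (2 * a ^ 2 * (t + 2 * q / ρ))) := by
          field_simp
        have e2 : ρ ^ 4 * ((q / ρ ^ 2) ^ 2 / 2 + (6 * (2 * k + 1) * (a / ρ) ^ 2 * (t / ρ) +
            200 * (2 * k + 1) ^ 2 * (a / ρ) ^ 4)) = q ^ 2 / 2 +
            (6 * (2 * k + 1) * a ^ 2 * ρ * t + 200 * (2 * k + 1) ^ 2 * a ^ 4) := by
          field_simp
        rw [e1, e2] at hp2
        refine le_trans ?_ hp2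
        gcongr)
    refine h1.trans ?_
    rw [pow_succ' _ k]
    refine mul_le_mul ?_ (ih (by omega)) (integral_nonneg fun g => by positivity) (by positivity)
    have k1 : 2 * (k : ℝ) + 1 ≤ 2 * P := by linarith
    have k2 : (2 * (k : ℝ) + 1) ^ 2 ≤ (2 * P) ^ 2 := by gcongr
    have k3 : (2 * (k : ℝ) + 1) * (a ^ 2 * ρ * t) ≤ 2 * P * (a ^ 2 * ρ * t) := by gcongr
    have k4 : (2 * (k : ℝ) + 1) ^ 2 * a ^ 4 ≤ (2 * P) ^ 2 * a ^ 4 := by gcongr
    nlinarith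

/-- The local law above `[-2, 2]`. -/
theorem GoeFam.law_inside (hn : 0 < n) {z : ℂ} (hz : 0 < z.im) (hE : |z.re| ≤ 2) (P : ℕ)
    (hP : (64 * P : ℝ) ^ 2 ≤ n ^ 2 * z.im ^ 3) :
    ∫ ω, (n * z.im * ‖mS z (goeM A ω) - msc z‖) ^ (2 * P)
      ∂(Measure.pi fun _ : ι => gaussianReal 0 1) ≤ (225 * P) ^ P := by
  have hn' : (0 : ℝ) < n := by exact_mod_cast hn
  have h := par_msc hz
  set r := msc z with hr
  set a : ℝ := (n * z.im)⁻¹ with ha
  have ha0 : 0 < a := by positivity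
  set ρ := ‖r⁻¹ - r‖ with hρ
  have hρ0 : 0 < ρ := h.rho_pos
  have hP' : 64 * P * a ≤ ρ := by
    refine le_of_sq' (le_trans ?_ (h.rho_ge_inside hz hE)) hρ0.le
    rw [mul_pow, ha, inv_pow, ← div_eq_mul_inv, div_le_iff₀ (by positivity)]
    linarith
  have h1 := hA.moment_Q hn hz h P hP' P le_rfl
  rw [← ha, ← hρ] at h1
  have h2 : 24 * P * a ^ 2 * ρ * -r.im + 1600 * P ^ 2 * a ^ 4 ≤ 25 * P * (a * ρ) ^ 2 := by
    have k1 : 24 * P * a ^ 2 * ρ * -r.im ≤ 24 * P * a ^ 2 * ρ * ρ :=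
      mul_le_mul_of_nonneg_left h.t_le_rho (by positivity)
    have k2 : (64 * P * a) ^ 2 ≤ ρ ^ 2 := by gcongr
    rcases Nat.eq_zero_or_pos P with h0 | h0
    · subst h0; simp
    · have hP1 : (1 : ℝ) ≤ P := by exact_mod_cast h0
      have k3 : 1600 * P ^ 2 * a ^ 4 ≤ a ^ 2 * ρ ^ 2 := by
        have := mul_le_mul_of_nonneg_left k2 (by positivity : 0 ≤ a ^ 2)
        nlinarith [show 0 ≤ (P : ℝ) ^ 2 * a ^ 4 by positivity]
      nlinarith [show 0 ≤ a ^ 2 * ρ ^ 2 by positivity]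
  have ht0 : 0 ≤ -r.im := by linarith [h.im]
  have h3 := h1.trans (pow_le_pow_left₀ (by positivity) h2 P)
  have h4 : ∀ ω, (n * z.im * ‖mS z (goeM A ω) - r‖) ^ (2 * P) ≤
      (3 / (a * ρ)) ^ (2 * P) * ‖QS z (goeM A ω)‖ ^ (2 * P) := by
    intro ω
    rw [← mul_pow]
    refine pow_le_pow_left₀ (by positivity) ?_ _
    have k1 := h.dist_le _ (neg_im_mS_nonneg (hA.goeM_tr ω) hz)
    have k2 := h.rho_le_inside hE
    have k3 : ‖mS z (goeM A ω) - r‖ * ρ ≤ 3 * ‖QS z (goeM A ω)‖ := by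
      have := mul_le_mul_of_nonneg_left k2 (norm_nonneg (mS z (goeM A ω) - r))
      have k4 : ‖z * mS z (goeM A ω) - 1 - mS z (goeM A ω) ^ 2‖ = ‖QS z (goeM A ω)‖ := rfl
      linarith
    have k5 : n * z.im = a⁻¹ := by rw [ha, inv_inv]
    rw [k5, div_mul_eq_mul_div, le_div_iff₀ (by positivity)]
    calc a⁻¹ * ‖mS z (goeM A ω) - r‖ * (a * ρ) = ‖mS z (goeM A ω) - r‖ * ρ := by field_simp
      _ ≤ _ := k3
  refine (integral_mono_of_nonneg (Eventually.of_forall fun ω => by positivity)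
    ((hA.integrable_QS hz _).const_mul _) (Eventually.of_forall h4)).trans ?_
  rw [integral_const_mul]
  calc (3 / (a * ρ)) ^ (2 * P) * _ ≤ (3 / (a * ρ)) ^ (2 * P) * (25 * P * (a * ρ) ^ 2) ^ P :=
        mul_le_mul_of_nonneg_left h3 (by positivity)
    _ = _ := by
        rw [pow_mul, ← mul_pow]
        congr 1
        field_simp
        ring

/-- No eigenvalue in a small window outside the spectrum. -/
theorem GoeFam.window (hn : 0 < n) {y E η : ℝ} (hy : 0 < y) (hE : 2 + y ^ 2 ≤ E) (hη : 0 < η)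
    (h1 : 2 * n * η ^ 2 ≤ y) (h2 : 128 ≤ n * η * y) :
    (Measure.pi fun _ : ι => gaussianReal 0 1)
      {ω | ∃ O lam a, IsEig (goeM A ω) O lam ∧ |lam a - E| ≤ η} ≤
      ENNReal.ofReal (4096 * 62 ^ 2 / (n * η * y) ^ 2) := by
  have hn' : (0 : ℝ) < n := by exact_mod_cast hn
  set μ := Measure.pi fun _ : ι => gaussianReal 0 1 with hμ
  set z : ℂ := ⟨E, η⟩ with hzd
  have hz : 0 < z.im := hη
  have hzi : z.im = η := rfl
  obtain ⟨r, h⟩ := exists_par hz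
  obtain ⟨o1, o2⟩ := h.outside (z := z) hE
  set a : ℝ := (n * z.im)⁻¹ with ha
  have ha0 : 0 < a := by positivity
  set ρ := ‖r⁻¹ - r‖ with hρ
  have hρ0 : 0 < ρ := h.rho_pos
  have hna : n * η * a = 1 := by rw [ha, hzi]; field_simp
  have hay : 128 * a ≤ y := by nlinarith
  have ht : -r.im ≤ a / 4 := by
    rw [hzi] at o2
    have : -r.im * (2 * y) ≤ a / 4 * (2 * y) := by
      have k : η = (2 * n * η ^ 2) * a / 2 := by linear_combination (-η) * hna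
      have k2 : (2 * n * η ^ 2) * a ≤ y * a := by gcongr
      linarith
    exact le_of_mul_le_mul_right this (by positivity)
  have ht0 : 0 ≤ -r.im := by linarith [h.im]
  have hm := hA.moment_Q hn hz h 2 (by push_cast; linarith) 2 le_rfl
  rw [← ha, ← hρ] at hm
  have hsub : {ω | ∃ O lam a, IsEig (goeM A ω) O lam ∧ |lam a - E| ≤ η} ⊆
      {ω | (a * ρ / 8) ^ 4 ≤ ‖QS z (goeM A ω)‖ ^ (2 * 2)} := by
    rintro ω ⟨O, lam, b, hO, hb⟩
    have k1 := hO.neg_im_mS hz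
    have k2 := h.I_le (mS z (goeM A ω))
    have k3 : ‖(z - lam b)⁻¹‖ ^ 2 ≤ ∑ c, ‖(z - lam c)⁻¹‖ ^ 2 :=
      Finset.single_le_sum (f := fun c => ‖(z - lam c)⁻¹‖ ^ 2) (fun _ _ => sq_nonneg _)
        (Finset.mem_univ b)
    have k4 : (2 * η ^ 2)⁻¹ ≤ ‖(z - lam b)⁻¹‖ ^ 2 := by
      rw [norm_inv, inv_pow]
      refine inv_anti₀ (pow_pos (norm_pos_iff.2 (sub_real_ne hz _)) 2) ?_
      rw [Complex.sq_norm, Complex.normSq_apply]
      simp only [hzd, Complex.sub_re, Complex.ofReal_re, Complex.sub_im, Complex.ofReal_im,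
        sub_zero]
      have := sq_le_sq' (neg_le_of_abs_le hb) (le_of_abs_le hb)
      nlinarith
    have k5 : a / 2 ≤ -(mS z (goeM A ω)).im := by
      rw [k1, hzi]
      calc a / 2 = (n : ℝ)⁻¹ * (η * (2 * η ^ 2)⁻¹) := by rw [ha, hzi]; field_simp
        _ ≤ _ := by gcongr; exact k4.trans k3
    have k6 : ‖z * mS z (goeM A ω) - 1 - mS z (goeM A ω) ^ 2‖ = ‖QS z (goeM A ω)‖ := rfl
    rw [k6, ← hρ] at k2
    have k7 : a / 4 ≤ 2 * ‖QS z (goeM A ω)‖ / ρ := by linarith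
    rw [le_div_iff₀ hρ0] at k7
    have k8 : a * ρ / 8 ≤ ‖QS z (goeM A ω)‖ := by linarith
    exact pow_le_pow_left₀ (by positivity) k8 4
  refine (measure_mono hsub).trans ?_
  have hM := mul_meas_ge_le_integral_of_nonneg (μ := μ)
    (Eventually.of_forall fun ω => by positivity : 0 ≤ᵐ[μ] fun ω => ‖QS z (goeM A ω)‖ ^ (2 * 2))
    (hA.integrable_QS hz (2 * 2)) ((a * ρ / 8) ^ 4)
  rw [← ofReal_measureReal]
  refine ENNReal.ofReal_le_ofReal ?_
  have k1 : 24 * ((2 : ℕ) : ℝ) * a ^ 2 * ρ * -r.im + 1600 * ((2 : ℕ) : ℝ) ^ 2 * a ^ 4 ≤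
      62 * (a ^ 3 * ρ) := by
    push_cast
    have e1 : 24 * 2 * a ^ 2 * ρ * -r.im ≤ 24 * 2 * a ^ 2 * ρ * (a / 4) := by gcongr
    have e2 : a ^ 3 * (128 * a) ≤ a ^ 3 * ρ := by gcongr; linarith
    nlinarith
  have k2 := hM.trans (hm.trans (pow_le_pow_left₀ (by positivity) k1 2))
  rw [← le_div_iff₀' (by positivity)] at k2
  refine k2.trans ?_
  have e3 : (62 * (a ^ 3 * ρ)) ^ 2 / (a * ρ / 8) ^ 4 = 4096 * 62 ^ 2 / (a⁻¹ * ρ) ^ 2 := by
    field_simp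
    norm_num
  rw [e3, ha, inv_inv, hzi]
  gcongr

/-- Tightness of the largest eigenvalue. -/
theorem GoeFam.top_tail (hn : 0 < n) {y : ℝ} (hy : 0 < y) (hS : 256 ≤ √n * y ^ 3) :
    (Measure.pi fun _ : ι => gaussianReal 0 1)
      {ω | ∃ O lam a, IsEig (goeM A ω) O lam ∧ 2 + y ^ 4 ≤ lam a} ≤
      ENNReal.ofReal (248 * (4096 * 62 ^ 2) / (√n * y ^ 3)) := by
  have hn' : (0 : ℝ) < n := by exact_mod_cast hn
  have hs : 0 < √(n : ℝ) := Real.sqrt_pos.2 hn'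
  have hss : √(n : ℝ) * √n = n := Real.mul_self_sqrt hn'.le
  set μ := Measure.pi fun _ : ι => gaussianReal 0 1 with hμ
  set S := √n * y ^ 3 with hSd
  set C : ℝ := 4096 * 62 ^ 2 with hC
  set η : ℕ → ℝ := fun j => 2 ^ j * y / (2 * √n) with hη
  have hη0 : ∀ j, 0 < η j := fun j => by positivity
  set L : ℕ → ℕ := fun j => ⌊30 * (8 ^ j * S)⌋₊ + 1 with hL
  set W : ℕ → ℕ → Set (ι → ℝ) := fun j l =>
    {ω | ∃ O lam a, IsEig (goeM A ω) O lam ∧ |lam a - (2 + (2 ^ j * y) ^ 4 + l * η j)| ≤ η j}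
    with hW
  have h8 : ∀ j : ℕ, (8 : ℝ) ^ j = (2 ^ j) ^ 3 := fun j => by
    rw [← pow_mul, mul_comm, pow_mul]; norm_num
  have h16 : ∀ j : ℕ, (16 : ℝ) ^ j = (2 ^ j) ^ 4 := fun j => by
    rw [← pow_mul, mul_comm, pow_mul]; norm_num
  have hsub : {ω | ∃ O lam a, IsEig (goeM A ω) O lam ∧ 2 + y ^ 4 ≤ lam a} ⊆
      ⋃ j, ⋃ l ∈ Finset.range (L j), W j l := by
    rintro ω ⟨O, lam, a, hO, ha⟩
    have hy4 : 0 < y ^ 4 := by positivity
    obtain ⟨j, j1, j2⟩ := exists_nat_pow_near (x := (lam a - 2) / y ^ 4) (y := 16)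
      (by rw [le_div_iff₀ hy4]; linarith) (by norm_num)
    rw [le_div_iff₀ hy4] at j1
    rw [div_lt_iff₀ hy4, pow_succ] at j2
    rw [h16] at j1 j2
    set d := lam a - 2 - (2 ^ j * y) ^ 4 with hd
    have hd0 : 0 ≤ d := by rw [hd, mul_pow]; linarith
    have hd1 : d / η j ≤ 30 * (8 ^ j * S) := by
      rw [div_le_iff₀ (hη0 j)]
      have : 30 * (8 ^ j * S) * η j = 15 * (2 ^ j * y) ^ 4 := by
        simp only [hη, hSd, h8]
        field_simp
        ring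
      rw [this, hd, mul_pow]
      linarith
    simp only [Set.mem_iUnion]
    refine ⟨j, ⌊d / η j⌋₊, Finset.mem_range.2 (Nat.lt_succ_of_le (Nat.floor_le_floor hd1)),
      O, lam, a, hO, ?_⟩
    have f1 := Nat.floor_le (div_nonneg hd0 (hη0 j).le)
    have f2 := Nat.lt_floor_add_one (d / η j)
    rw [le_div_iff₀ (hη0 j)] at f1
    rw [div_lt_iff₀ (hη0 j)] at f2
    rw [abs_le]
    constructor <;> nlinarith [hη0 j]
  have hS1 : ∀ j : ℕ, 256 ≤ 8 ^ j * S := fun j => by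
    have : (1 : ℝ) ≤ 8 ^ j := one_le_pow₀ (by norm_num)
    nlinarith
  have hWb : ∀ j l, μ (W j l) ≤ ENNReal.ofReal (4 * C / (8 ^ j * S) ^ 2) := by
    intro j l
    have e1 : n * η j * (2 ^ j * y) ^ 2 = 8 ^ j * S / 2 := by
      simp only [hη, hSd, h8]
      field_simp
      rw [Real.sq_sqrt hn'.le]
    have h := hA.window hn (y := (2 ^ j * y) ^ 2) (E := 2 + (2 ^ j * y) ^ 4 + l * η j) (η := η j)
      (by positivity) (by have := hη0 j; nlinarith [show (0 : ℝ) ≤ l * η j by positivity])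
      (hη0 j) (by
        have : 2 * n * η j ^ 2 = (2 ^ j * y) ^ 2 / 2 := by
          simp only [hη]
          field_simp
          rw [Real.sq_sqrt hn'.le]
        rw [this]
        linarith [show 0 ≤ (2 ^ j * y) ^ 2 by positivity])
      (by rw [e1]; linarith [hS1 j])
    refine h.trans (le_of_eq ?_)
    rw [e1]
    congr 1
    field_simp
    norm_num
  have hj : ∀ j, μ (⋃ l ∈ Finset.range (L j), W j l) ≤
      ENNReal.ofReal (124 * C / S * (1 / 8) ^ j) := by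
    intro j
    refine (measure_biUnion_finset_le _ _).trans ?_
    refine (Finset.sum_le_card_nsmul _ _ _ fun l _ => hWb j l).trans ?_
    rw [Finset.card_range, nsmul_eq_mul, ← ENNReal.ofReal_natCast,
      ← ENNReal.ofReal_mul (Nat.cast_nonneg _)]
    refine ENNReal.ofReal_le_ofReal ?_
    have k1 : (L j : ℝ) ≤ 31 * (8 ^ j * S) := by
      simp only [hL]
      push_cast
      have := Nat.floor_le (a := 30 * (8 ^ j * S)) (by linarith [hS1 j])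
      linarith [hS1 j]
    calc (L j : ℝ) * (4 * C / (8 ^ j * S) ^ 2) ≤ 31 * (8 ^ j * S) * (4 * C / (8 ^ j * S) ^ 2) := by
          gcongr
      _ = _ := by
          rw [one_div, inv_pow]
          field_simp
          norm_num
  refine (measure_mono hsub).trans ((measure_iUnion_le _).trans ?_)
  refine (ENNReal.tsum_le_tsum hj).trans ?_
  have hsum : Summable fun j : ℕ => (1 / 8 : ℝ) ^ j :=
    summable_geometric_of_lt_one (by norm_num) (by norm_num)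
  rw [← ENNReal.ofReal_tsum_of_nonneg (fun j => by positivity) (hsum.mul_left _), tsum_mul_left,
    tsum_geometric_of_lt_one (by norm_num) (by norm_num)]
  refine ENNReal.ofReal_le_ofReal ?_
  have : 0 ≤ C / S := by positivity
  rw [mul_div_assoc 124, mul_div_assoc 248, show ((1 : ℝ) - 1 / 8)⁻¹ = 8 / 7 by norm_num]
  linarith

omit hA in
lemma IsEig.neg {M O : Matrix (Fin n) (Fin n) ℝ} {lam : Fin n → ℝ} (h : IsEig M O lam) :
    IsEig (-M) O (fun a => -lam a) := by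
  refine ⟨h.1, ?_⟩
  rw [← Matrix.diagonal_neg, Matrix.mul_neg, Matrix.neg_mul, ← h.2]

lemma GoeFam.neg : GoeFam (fun i => -A i) :=
  ⟨fun i a b => by simp [hA.symm i a b], fun a b c d => by simpa using hA.cov a b c d⟩

/-- Tightness of the smallest eigenvalue. -/
theorem GoeFam.bot_tail (hn : 0 < n) {y : ℝ} (hy : 0 < y) (hS : 256 ≤ √n * y ^ 3) :
    (Measure.pi fun _ : ι => gaussianReal 0 1)
      {ω | ∃ O lam a, IsEig (goeM A ω) O lam ∧ lam a ≤ -2 - y ^ 4} ≤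
      ENNReal.ofReal (248 * (4096 * 62 ^ 2) / (√n * y ^ 3)) := by
  refine le_trans (measure_mono ?_) (hA.neg.top_tail hn hy hS)
  rintro ω ⟨O, lam, a, hO, ha⟩
  refine ⟨O, fun a => -lam a, a, ?_, by simp only; linarith⟩
  have : goeM (fun i => -A i) ω = -goeM A ω := by
    simp [goeM]
  rw [this]
  exact hO.neg

end goe

end Vale.Agent.N150.Edge
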