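import Mathlib
import Vale.Agent.N150.EdgeLaw

/-! Edge rigidity of the GOE: from the Stieltjes transform to the counting function. -/

open MeasureTheory ProbabilityTheory Filter Topology Real Set
open scoped Matrix

namespace Vale.Agent.N150.Edge

variable {n : ℕ}

/-- Poisson kernel -/
noncomputable def Pk (u y e : ℝ) : ℝ := y / ((e - u) ^ 2 + y ^ 2)

/-- kernel of the vertical integrals -/
noncomputable def Bk (η c y e : ℝ) : ℝ := η / ((e - c) ^ 2 + (max y η) ^ 2)

/-- explicit majorant -/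
noncomputable def gk (η s x : ℝ) : ℝ := η * s / ((η + |x|) * (s + |x|))

lemma arccot_le {t : ℝ} (ht : 0 ≤ t) : π / 2 - arctan t ≤ 4 / (1 + t) := by
  by_cases h : t ≤ 1
  · have h1 : 0 ≤ arctan t := arctan_nonneg.2 ht
    have h2 : (2 : ℝ) ≤ 4 / (1 + t) := by
      rw [le_div_iff₀ (by linarith)]; linarith
    linarith [pi_le_four]
  · have h0 : 0 < t := by linarith
    rw [← arctan_inv_of_pos h0]
    have h1 : arctan t⁻¹ ≤ t⁻¹ := by
      have := Real.le_tan (x := arctan t⁻¹) (arctan_nonneg.2 (by positivity))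
        (arctan_lt_pi_div_two _)
      rwa [tan_arctan] at this
    refine h1.trans ?_
    rw [inv_eq_one_div, div_le_div_iff₀ h0 (by linarith)]
    linarith

lemma integral_inv_sq {η p a b : ℝ} (hab : a ≤ b) (hp : 0 < p + a) :
    ∫ y in a..b, η / (p + y) ^ 2 = η / (p + a) - η / (p + b) := by
  have hd : ∀ y ∈ uIcc a b, HasDerivAt (fun y => -(η / (p + y))) (η / (p + y) ^ 2) y := by
    intro y hy
    rw [uIcc_of_le hab] at hy
    have h0 : p + y ≠ 0 := by linarith [hy.1]
    have := (((hasDerivAt_id y).const_add p).fun_inv h0).const_mul η |>.fun_neg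
    refine this.congr_deriv ?_
    simp only [id]
    field_simp
  rw [intervalIntegral.integral_eq_sub_of_hasDerivAt hd]
  · ring
  · refine ContinuousOn.intervalIntegrable ?_
    refine continuousOn_const.div (by fun_prop) fun y hy => ?_
    rw [uIcc_of_le hab] at hy
    exact pow_ne_zero _ (by linarith [hy.1])

lemma continuous_Pk {y : ℝ} (hy : 0 < y) : Continuous fun p : ℝ × ℝ => Pk p.1 y p.2 := by
  unfold Pk
  exact continuous_const.div (by fun_prop) fun p => by positivity

lemma continuous_Bk {η : ℝ} (hη : 0 < η) (c : ℝ) :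
    Continuous fun p : ℝ × ℝ => Bk η c p.1 p.2 := by
  unfold Bk
  refine continuous_const.div (by fun_prop) fun p => ?_
  have : 0 < max p.1 η := lt_max_of_lt_right hη
  positivity

lemma Pk_nonneg {y : ℝ} (hy : 0 < y) (u e : ℝ) : 0 ≤ Pk u y e := by unfold Pk; positivity

lemma Pk_le {y : ℝ} (hy : 0 < y) (u e : ℝ) : Pk u y e ≤ y⁻¹ := by
  unfold Pk
  rw [div_le_iff₀ (by positivity), inv_mul_eq_div, le_div_iff₀ hy]
  nlinarith [sq_nonneg (e - u)]

lemma Bk_nonneg {η : ℝ} (hη : 0 < η) (c y e : ℝ) : 0 ≤ Bk η c y e := by unfold Bk; positivity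

lemma Bk_le {η : ℝ} (hη : 0 < η) (c y e : ℝ) : Bk η c y e ≤ η⁻¹ := by
  unfold Bk
  have h1 : η ≤ max y η := le_max_right _ _
  have h2 : η ^ 2 ≤ (max y η) ^ 2 := by gcongr
  rw [div_le_iff₀ (by nlinarith [sq_nonneg (e - c)]), inv_mul_eq_div, le_div_iff₀ hη]
  nlinarith [sq_nonneg (e - c)]

lemma gk_nonneg {η s : ℝ} (hη : 0 < η) (hs : 0 < s) (x : ℝ) : 0 ≤ gk η s x := by
  unfold gk; positivity

lemma gk_le {η s : ℝ} (hη : 0 < η) (hs : η ≤ s) (c e : ℝ) :
    gk η s (e - c) ≤ 2 * ∫ y in η..2 * s, Bk η c y e := by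
  have h0 := abs_nonneg (e - c)
  have h1 : ∫ y in η..2 * s, η / (|e - c| + y) ^ 2 ≤ ∫ y in η..2 * s, Bk η c y e := by
    refine intervalIntegral.integral_mono_on (by linarith) ?_
      (((continuous_Bk hη c).comp (continuous_id.prodMk continuous_const)).intervalIntegrable _ _)
      fun y hy => ?_
    · refine ContinuousOn.intervalIntegrable ?_
      refine continuousOn_const.div (by fun_prop) fun y hy => ?_
      rw [uIcc_of_le (by linarith)] at hy
      exact pow_ne_zero _ (by linarith [hy.1])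
    · unfold Bk
      rw [max_eq_left hy.1]
      have hy0 : 0 < y := by linarith [hy.1]
      refine div_le_div_of_nonneg_left hη.le (by positivity) ?_
      nlinarith [sq_abs (e - c), mul_nonneg h0 hy0.le]
  rw [integral_inv_sq (by linarith) (by linarith)] at h1
  refine le_trans ?_ (mul_le_mul_of_nonneg_left h1 (by norm_num))
  unfold gk
  set x := |e - c|
  have hs0 : 0 < s := by linarith
  rw [div_sub_div _ _ (by positivity) (by positivity), ← mul_div_assoc,
    div_le_div_iff₀ (by positivity) (by positivity)]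
  have k1 : 0 ≤ η * (η + x) := by positivity
  have k2 : s * (x + 2 * s) ≤ 2 * (2 * s - η) * (s + x) := by nlinarith
  nlinarith [mul_le_mul_of_nonneg_left k2 k1]

lemma psi_out {η s x : ℝ} (hη : 0 < η) (hs : 0 < s) (hx : 0 ≤ x) {f : ℝ → ℝ}
    (hfc : Continuous f) (hf : ∀ u ∈ Icc 0 s, f u ≤ η / ((x + u) ^ 2 + η ^ 2)) :
    ∫ u in (0 : ℝ)..s, f u ≤ 2 * gk η s x := by
  have h1 : ∫ u in (0 : ℝ)..s, f u ≤ ∫ u in (0 : ℝ)..s, 2 * η / (x + η + u) ^ 2 := by
    refine intervalIntegral.integral_mono_on hs.le (hfc.intervalIntegrable _ _) ?_ fun u hu => ?_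
    · refine ContinuousOn.intervalIntegrable ?_
      refine continuousOn_const.div (by fun_prop) fun y hy => ?_
      rw [uIcc_of_le hs.le] at hy
      exact pow_ne_zero _ (by linarith [hy.1])
    · refine (hf u hu).trans ?_
      have := hu.1
      rw [div_le_div_iff₀ (by positivity) (by positivity)]
      nlinarith [mul_nonneg hη.le (sq_nonneg (x + u - η))]
  rw [integral_inv_sq hs.le (by linarith)] at h1
  refine h1.trans ?_
  unfold gk
  rw [abs_of_nonneg hx, div_sub_div _ _ (by positivity) (by positivity), ← mul_div_assoc,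
    div_le_div_iff₀ (by positivity) (by positivity)]
  have k1 : 0 ≤ η * s * (η + x) * η := by positivity
  nlinarith

lemma ind_sub_psi {η s : ℝ} (hη : 0 < η) (hs : 0 < s) (e : ℝ) :
    |(if 0 ≤ e ∧ e ≤ s then 1 else 0) - π⁻¹ * ∫ u in (0 : ℝ)..s, Pk u η e| ≤
      3 * (gk η s (e - 0) + gk η s (e - s)) := by
  have hc : Continuous fun u => Pk u η e :=
    (continuous_Pk hη).comp (continuous_id.prodMk continuous_const)
  have g1 := gk_nonneg hη hs (e - 0)
  have g2 := gk_nonneg hη hs (e - s)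
  have h0 : 0 ≤ ∫ u in (0 : ℝ)..s, Pk u η e :=
    intervalIntegral.integral_nonneg hs.le fun u _ => Pk_nonneg hη u e
  have hπ : π⁻¹ ≤ 1 / 3 := by
    rw [inv_eq_one_div]
    exact div_le_div_of_nonneg_left (by norm_num) (by norm_num) pi_gt_three.le
  have hπ0 : 0 < π⁻¹ := by positivity
  split_ifs with h
  · have h1 : ∫ u in (0 : ℝ)..s, Pk u η e = arctan ((s - e) / η) + arctan (e / η) := by
      have h2 := intervalIntegral.integral_comp_sub_right (a := 0) (b := s)
        (fun x => η / (η ^ 2 + x ^ 2)) e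
      rw [integral_div_sq_add_sq, zero_sub, neg_div, arctan_neg] at h2
      rw [sub_neg_eq_add] at h2
      rw [← h2]
      refine intervalIntegral.integral_congr fun u _ => ?_
      unfold Pk
      congr 1
      ring
    have a1 := arccot_le (t := (s - e) / η) (div_nonneg (by linarith [h.2]) hη.le)
    have a2 := arccot_le (t := e / η) (div_nonneg h.1 hη.le)
    have b1 := arctan_lt_pi_div_two ((s - e) / η)
    have b2 := arctan_lt_pi_div_two (e / η)
    have c1 : ∀ x : ℝ, 0 ≤ x → x ≤ s → 4 / (1 + x / η) ≤ 8 * gk η s x := by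
      intro x hx hxs
      unfold gk
      rw [abs_of_nonneg hx, ← mul_div_assoc, div_le_div_iff₀ (by positivity) (by positivity)]
      have : 8 * (η * s) * (1 + x / η) = 8 * s * (η + x) := by field_simp
      rw [this]
      nlinarith [mul_nonneg (by positivity : 0 ≤ η + x) (sub_nonneg.2 hxs)]
    have c2 := c1 e h.1 h.2
    have c3 := c1 (s - e) (by linarith [h.2]) (by linarith [h.1])
    have c4 : gk η s (s - e) = gk η s (e - s) := by unfold gk; rw [abs_sub_comm]
    rw [c4] at c3
    rw [sub_zero] at g1 ⊢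
    have e1 : 1 - π⁻¹ * (arctan ((s - e) / η) + arctan (e / η)) =
        π⁻¹ * ((π / 2 - arctan ((s - e) / η)) + (π / 2 - arctan (e / η))) := by
      field_simp
      ring
    rw [h1, e1, abs_of_nonneg (mul_nonneg hπ0.le (by linarith))]
    calc π⁻¹ * _ ≤ 1 / 3 * (8 * gk η s (e - s) + 8 * gk η s e) :=
          mul_le_mul hπ (by linarith) (by linarith) (by norm_num)
      _ ≤ _ := by linarith
  · rw [zero_sub, abs_neg, abs_of_nonneg (mul_nonneg hπ0.le h0)]
    have key : ∫ u in (0 : ℝ)..s, Pk u η e ≤ 2 * (gk η s (e - 0) + gk η s (e - s)) := by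
      by_cases h1 : e < 0
      · have := psi_out hη hs (x := -e) (by linarith) hc fun u _ => le_of_eq (by
          unfold Pk; congr 1; ring)
        have c4 : gk η s (-e) = gk η s (e - 0) := by unfold gk; rw [abs_neg, sub_zero]
        linarith
      · have h2 : s < e := by
          by_contra h3
          exact h ⟨not_lt.1 h1, not_lt.1 h3⟩
        have h3 := intervalIntegral.integral_comp_sub_left (a := 0) (b := s)
          (fun u => Pk u η e) s
        rw [sub_self, sub_zero] at h3
        have := psi_out hη hs (x := e - s) (by linarith) (f := fun u => Pk (s - u) η e)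
          (hc.comp (continuous_const.sub continuous_id)) fun u _ => le_of_eq (by
            unfold Pk; congr 1; ring)
        linarith
    nlinarith

lemma integrable_prod_bdd {a b : ℝ} {ν : Measure ℝ} [IsFiniteMeasure ν] {F : ℝ × ℝ → ℝ}
    (hF : Continuous F) {C : ℝ} (hC : ∀ p, |F p| ≤ C) :
    Integrable F ((volume.restrict (uIoc a b)).prod ν) := by
  have : IsFiniteMeasure (volume.restrict (uIoc a b)) :=
    ⟨by rw [Measure.restrict_apply_univ]; exact measure_Ioc_lt_top⟩
  exact Integrable.of_bound hF.aestronglyMeasurable C (Eventually.of_forall hC)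

/-- The smoothing inequality for a finite measure. -/
lemma smooth (ν : Measure ℝ) [IsFiniteMeasure ν] {η s : ℝ} (hη : 0 < η) (hs : η ≤ s) :
    |∫ e, (if 0 ≤ e ∧ e ≤ s then 1 else 0) ∂ν - π⁻¹ * ∫ u in (0 : ℝ)..s, ∫ e, Pk u η e ∂ν| ≤
      6 * ((∫ y in η..2 * s, ∫ e, Bk η 0 y e ∂ν) + ∫ y in η..2 * s, ∫ e, Bk η s y e ∂ν) := by
  have hs0 : 0 < s := by linarith
  have i1 : Integrable (Function.uncurry fun u e => Pk u η e)
      ((volume.restrict (uIoc 0 s)).prod ν) :=
    integrable_prod_bdd (continuous_Pk hη) (C := η⁻¹) fun p =>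
      (abs_of_nonneg (Pk_nonneg hη _ _)).le.trans (Pk_le hη _ _)
  have i2 : ∀ c, Integrable (Function.uncurry fun y e => Bk η c y e)
      ((volume.restrict (uIoc η (2 * s))).prod ν) := fun c =>
    integrable_prod_bdd (continuous_Bk hη c) (C := η⁻¹) fun p =>
      (abs_of_nonneg (Bk_nonneg hη _ _ _)).le.trans (Bk_le hη _ _ _)
  rw [intervalIntegral_integral_swap i1, intervalIntegral_integral_swap (i2 0),
    intervalIntegral_integral_swap (i2 s)]
  have j1 : Integrable (fun e => ∫ u in (0 : ℝ)..s, Pk u η e) ν := by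
    have := i1.integral_prod_right
    simp only [intervalIntegral.integral_of_le hs0.le]
    rwa [uIoc_of_le hs0.le] at this
  have j2 : ∀ c, Integrable (fun e => ∫ y in η..2 * s, Bk η c y e) ν := by
    intro c
    have := (i2 c).integral_prod_right
    have h : η ≤ 2 * s := by linarith
    simp only [intervalIntegral.integral_of_le h]
    rwa [uIoc_of_le h] at this
  have j0 : Integrable (fun e : ℝ => if 0 ≤ e ∧ e ≤ s then (1 : ℝ) else 0) ν := by
    refine Integrable.of_bound (Measurable.aestronglyMeasurable ?_) 1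
      (Eventually.of_forall fun e => ?_)
    · exact Measurable.ite (measurableSet_Icc (a := (0 : ℝ)) (b := s)) measurable_const
        measurable_const
    · split_ifs <;> simp
  rw [← integral_const_mul, ← integral_sub j0 (j1.const_mul _), ← integral_add (j2 0) (j2 s),
    ← integral_const_mul, ← Real.norm_eq_abs]
  refine norm_integral_le_of_norm_le (((j2 0).add (j2 s)).const_mul 6)
    (Eventually.of_forall fun e => ?_)
  rw [Real.norm_eq_abs]
  refine (ind_sub_psi hη hs0 e).trans ?_
  have k1 := gk_le hη hs 0 e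
  have k2 := gk_le hη hs s e
  show _ ≤ 6 * ((∫ y in η..2 * s, Bk η 0 y e) + ∫ y in η..2 * s, Bk η s y e)
  linarith

/-- the empirical measure of `2 - lam` -/
noncomputable def nuE (lam : Fin n → ℝ) : Measure ℝ := ∑ a, Measure.dirac (2 - lam a)

instance (lam : Fin n → ℝ) : IsFiniteMeasure (nuE lam) := by unfold nuE; infer_instance

lemma integral_nuE (lam : Fin n → ℝ) (f : ℝ → ℝ) : ∫ e, f e ∂nuE lam = ∑ a, f (2 - lam a) := by
  unfold nuE
  rw [integral_finsetSum_measure fun a _ => integrable_dirac (by simp)]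
  simp

/-- the semicircle law in the variable `e` -/
noncomputable def nuS : Measure ℝ :=
  (volume.restrict (Ioc (0 : ℝ) 4)).withDensity fun e => ENNReal.ofReal (scD e)

lemma integral_nuS (f : ℝ → ℝ) : ∫ e, f e ∂nuS = ∫ e in (0 : ℝ)..4, scD e * f e := by
  unfold nuS
  rw [integral_withDensity_eq_integral_toReal_smul continuous_scD.measurable.ennreal_ofReal
    (Eventually.of_forall fun _ => ENNReal.ofReal_lt_top),
    intervalIntegral.integral_of_le (by norm_num)]
  refine integral_congr_ae (Eventually.of_forall fun e => ?_)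
  simp only [ENNReal.toReal_ofReal (scD_nonneg e), smul_eq_mul]

instance : IsFiniteMeasure nuS := by
  unfold nuS
  refine isFiniteMeasure_withDensity_ofReal ?_
  exact (continuous_scD.integrableOn_Icc.mono_set Ioc_subset_Icc_self).hasFiniteIntegral

lemma Pk_eq (u y e : ℝ) : Pk u y e = -(((⟨2 - u, y⟩ : ℂ) - 2 + e)⁻¹).im := by
  rw [Complex.inv_im, Complex.normSq_apply]
  unfold Pk
  simp only [Complex.add_im, Complex.sub_im, Complex.im_ofNat, Complex.ofReal_im, Complex.add_re,
    Complex.sub_re, Complex.re_ofNat, Complex.ofReal_re]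
  ring

lemma IsEig.int_Pk {M O : Matrix (Fin n) (Fin n) ℝ} {lam : Fin n → ℝ} (h : IsEig M O lam)
    (hn : 0 < n) (u : ℝ) {y : ℝ} (hy : 0 < y) :
    ∫ e, Pk u y e ∂nuE lam = n * -(mS ⟨2 - u, y⟩ M).im := by
  have hn' : (0 : ℝ) < n := by exact_mod_cast hn
  rw [integral_nuE, h.mS_eq (z := ⟨2 - u, y⟩) hy]
  have h2 : ((n : ℂ)⁻¹) = (((n : ℝ)⁻¹ : ℝ) : ℂ) := by push_cast; rfl
  rw [h2, Complex.im_ofReal_mul, Complex.im_sum, ← mul_neg, ← mul_assoc, mul_inv_cancel₀ hn'.ne',
    one_mul, ← Finset.sum_neg_distrib]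
  refine Finset.sum_congr rfl fun a _ => ?_
  rw [Pk_eq]
  congr 3
  push_cast
  ring

lemma add_real_ne {z : ℂ} (hz : 0 < z.im) (e : ℝ) : z - 2 + e ≠ 0 := by
  intro h
  have := congrArg Complex.im h
  simp at this
  linarith

lemma int_Pk_sc (u : ℝ) {y : ℝ} (hy : 0 < y) : ∫ e, Pk u y e ∂nuS = -(msc ⟨2 - u, y⟩).im := by
  rw [integral_nuS]
  unfold msc
  have hc : Continuous fun e : ℝ => (scD e : ℂ) * ((⟨2 - u, y⟩ : ℂ) - 2 + e)⁻¹ :=
    (Complex.continuous_ofReal.comp continuous_scD).mul
      (Continuous.inv₀ (by fun_prop) fun e => add_real_ne (z := ⟨2 - u, y⟩) hy e)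
  have := (Complex.imCLM.intervalIntegral_comp_comm (hc.intervalIntegrable (μ := volume) 0 4))
  simp only [Complex.imCLM_apply] at this
  rw [← this, ← intervalIntegral.integral_neg]
  refine intervalIntegral.integral_congr fun e _ => ?_
  simp only [Pk_eq, Complex.im_ofReal_mul]
  ring

lemma int_ind_sc {s : ℝ} (h0 : 0 ≤ s) (h4 : s ≤ 4) :
    ∫ e, (if 0 ≤ e ∧ e ≤ s then 1 else 0) ∂nuS = scF s := by
  rw [integral_nuS]
  unfold scF
  rw [intervalIntegral.integral_of_le (by norm_num), intervalIntegral.integral_of_le h0]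
  have h1 : ∀ e, scD e * (if 0 ≤ e ∧ e ≤ s then 1 else 0) = (Icc 0 s).indicator scD e := by
    intro e
    simp only [indicator, mem_Icc]
    split_ifs <;> simp
  simp only [h1]
  rw [setIntegral_indicator measurableSet_Icc]
  congr 2
  ext e
  simp only [mem_inter_iff, mem_Ioc, mem_Icc]
  constructor
  · rintro ⟨⟨a, _⟩, _, b⟩; exact ⟨a, b⟩
  · rintro ⟨a, b⟩; exact ⟨⟨a, by linarith⟩, a.le, b⟩

lemma continuous_msc {X : Type*} [TopologicalSpace X] [FirstCountableTopology X]
    [LocallyCompactSpace X] {z : X → ℂ} (hzc : Continuous z) (hz : ∀ x, 0 < (z x).im) :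
    Continuous fun x => msc (z x) := by
  unfold msc
  refine intervalIntegral.continuous_parametric_intervalIntegral_of_continuous' ?_ 0 4
  exact (Complex.continuous_ofReal.comp (continuous_scD.comp continuous_snd)).mul
    (Continuous.inv₀ (by fun_prop) fun p => add_real_ne (hz p.1) p.2)

lemma neg_im_msc_le {c y s : ℝ} (hc0 : 0 ≤ c) (hc : c ≤ s) (hs : s ≤ 4) (hy : 0 < y)
    (hys : y ≤ 2 * s) : -(msc ⟨2 - c, y⟩).im ≤ 6 * √s := by
  have h := par_msc (z := ⟨2 - c, y⟩) hy
  refine h.t_le_rho.trans (le_of_sq' ?_ (by positivity))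
  rw [h.rho_sq', mul_pow, Real.sq_sqrt (by linarith)]
  have a1 := Complex.norm_le_abs_re_add_abs_im ((⟨2 - c, y⟩ : ℂ) - 2)
  have a2 := Complex.norm_le_abs_re_add_abs_im ((⟨2 - c, y⟩ : ℂ) + 2)
  simp only [Complex.sub_re, Complex.re_ofNat, Complex.sub_im, Complex.im_ofNat, sub_zero,
    Complex.add_re, Complex.add_im, add_zero] at a1 a2
  rw [abs_of_pos hy, abs_of_nonpos (by linarith)] at a1
  rw [abs_of_pos hy, abs_of_nonneg (by linarith)] at a2
  calc _ ≤ (3 * s) * 12 := mul_le_mul (by linarith) (by linarith) (norm_nonneg _) (by linarith)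
    _ = _ := by ring

/-- normalised error of the local law -/
noncomputable def er (L : ℝ) (z : ℂ) (M : Matrix (Fin n) (Fin n) ℝ) : ℝ :=
  n * z.im * ‖mS z M - msc z‖ / L

/-- the event controlling the counting function at the point `s` -/
def GoodAt (P : ℕ) (L η s : ℝ) (M : Matrix (Fin n) (Fin n) ℝ) : Prop :=
  ∫ u in (0 : ℝ)..s, 1 * er L ⟨2 - u, η⟩ M ^ (2 * P) ≤ s ∧
  ∫ y in η..2 * s, η / (max y η) ^ 2 * er L ⟨2 - 0, max y η⟩ M ^ (2 * P) ≤ 1 ∧
  ∫ y in η..2 * s, η / (max y η) ^ 2 * er L ⟨2 - s, max y η⟩ M ^ (2 * P) ≤ 1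

lemma le_one_add_pow {x : ℝ} (hx : 0 ≤ x) {k : ℕ} (hk : 1 ≤ k) : x ≤ 1 + x ^ k := by
  by_cases h : x ≤ 1
  · have : 0 ≤ x ^ k := by positivity
    linarith
  · have := le_self_pow₀ (not_le.1 h).le (by omega : k ≠ 0)
    linarith

lemma continuous_mk {X : Type*} [TopologicalSpace X] {f g : X → ℝ} (hf : Continuous f)
    (hg : Continuous g) : Continuous fun x => (⟨f x, g x⟩ : ℂ) := by
  have : (fun x => (⟨f x, g x⟩ : ℂ)) = fun x => (f x : ℂ) + g x * Complex.I := by
    ext1 x
    exact Complex.mk_eq_add_mul_I _ _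
  rw [this]
  fun_prop

lemma continuous_er {L : ℝ} {z : ℝ → ℂ} (hzc : Continuous z) (hz : ∀ x, 0 < (z x).im)
    {M : Matrix (Fin n) (Fin n) ℝ} (hM : Mᵀ = M) : Continuous fun x => er L (z x) M := by
  unfold er
  have h1 := continuous_mS hzc (continuous_const (y := M)) hz fun _ => hM
  have h2 := continuous_msc hzc hz
  have h3 : Continuous fun x => (z x).im := Complex.continuous_im.comp hzc
  fun_prop

lemma IsEig.symm' {M O : Matrix (Fin n) (Fin n) ℝ} {lam : Fin n → ℝ} (h : IsEig M O lam) :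
    Mᵀ = M := by
  rw [h.2, Matrix.transpose_mul, Matrix.transpose_mul, Matrix.transpose_transpose,
    Matrix.diagonal_transpose, Matrix.mul_assoc]

/-- The deterministic counting estimate. -/
theorem IsEig.count_le {M O : Matrix (Fin n) (Fin n) ℝ} {lam : Fin n → ℝ} (h : IsEig M O lam)
    (hn : 0 < n) {P : ℕ} (hP : 1 ≤ P) {L η s : ℝ} (hL : 0 < L) (hη : 0 < η) (hs : η ≤ s)
    (hs4 : s ≤ 4) (hG : GoodAt P L η s M) :
    |∑ a, (if 0 ≤ 2 - lam a ∧ 2 - lam a ≤ s then (1 : ℝ) else 0) - n * scF s| ≤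
      L * (s / η) + 24 * L + 144 * (n * √s * η * Real.log (2 * s / η)) := by
  have hn' : (0 : ℝ) < n := by exact_mod_cast hn
  have hs0 : 0 < s := by linarith
  have hη2 : η ≤ 2 * s := by linarith
  have hM := h.symm'
  have s1 := smooth (nuE lam) hη hs
  have s2 := smooth nuS hη hs
  rw [integral_nuE] at s1
  rw [int_ind_sc hs0.le hs4] at s2
  have hP2 : 1 ≤ 2 * P := by omega
  -- horizontal part
  have cz : Continuous fun u : ℝ => (⟨2 - u, η⟩ : ℂ) := continuous_mk (by fun_prop) (by fun_prop)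
  have cm := continuous_mS cz (continuous_const (y := M)) (fun _ => hη) fun _ => hM
  have cs := continuous_msc cz fun _ => hη
  have ce := continuous_er (L := L) cz (fun _ => hη) hM
  have cm' : Continuous fun u : ℝ => n * -(mS ⟨2 - u, η⟩ M).im :=
    continuous_const.mul (Complex.continuous_im.comp cm).neg
  have cs' : Continuous fun u : ℝ => n * -(msc ⟨2 - u, η⟩).im :=
    continuous_const.mul (Complex.continuous_im.comp cs).neg
  have ce' : Continuous fun u : ℝ => 1 * er L ⟨2 - u, η⟩ M ^ (2 * P) :=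
    continuous_const.mul (ce.pow _)
  have H : |(∫ u in (0 : ℝ)..s, ∫ e, Pk u η e ∂nuE lam) -
      n * ∫ u in (0 : ℝ)..s, ∫ e, Pk u η e ∂nuS| ≤ 2 * (L * (s / η)) := by
    simp only [h.int_Pk hn _ hη, int_Pk_sc _ hη]
    rw [← intervalIntegral.integral_const_mul, ← intervalIntegral.integral_sub
      (cm'.intervalIntegrable _ _) (cs'.intervalIntegrable _ _), ← Real.norm_eq_abs]
    refine (intervalIntegral.norm_integral_le_of_norm_le (g := fun u =>
      L / η * (1 + 1 * er L ⟨2 - u, η⟩ M ^ (2 * P))) hs0.le (Eventually.of_forall fun u _ => ?_)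
      ((continuous_const.mul (continuous_const.add ce')).intervalIntegrable _ _)).trans ?_
    · have k1 := Complex.abs_im_le_norm (mS ⟨2 - u, η⟩ M - msc ⟨2 - u, η⟩)
      have k2 : n * -(mS ⟨2 - u, η⟩ M).im - n * -(msc ⟨2 - u, η⟩).im =
          -(n * (mS ⟨2 - u, η⟩ M - msc ⟨2 - u, η⟩).im) := by rw [Complex.sub_im]; ring
      rw [k2, norm_neg, Real.norm_eq_abs, abs_mul, abs_of_pos hn', one_mul]
      have k3 : n * ‖mS ⟨2 - u, η⟩ M - msc ⟨2 - u, η⟩‖ = L / η * er L ⟨2 - u, η⟩ M := by
        unfold er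
        field_simp
      refine (mul_le_mul_of_nonneg_left k1 hn'.le).trans (k3.le.trans ?_)
      exact mul_le_mul_of_nonneg_left (le_one_add_pow (by unfold er; positivity) hP2)
        (by positivity)
    · rw [intervalIntegral.integral_const_mul, intervalIntegral.integral_add
        (continuous_const.intervalIntegrable _ _)
        (ce'.intervalIntegrable _ _), intervalIntegral.integral_const]
      have := hG.1
      simp only [sub_zero, smul_eq_mul, mul_one]
      calc L / η * _ ≤ L / η * (s + s) := by gcongr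
        _ = _ := by ring
  -- vertical parts
  have hlog : ∫ y in η..2 * s, η / max y η = η * Real.log (2 * s / η) := by
    rw [← integral_inv_of_pos hη (by linarith), ← intervalIntegral.integral_const_mul]
    refine intervalIntegral.integral_congr fun y hy => ?_
    rw [uIcc_of_le hη2] at hy
    simp only [max_eq_left hy.1, div_eq_mul_inv]
  have hone : ∫ y in η..2 * s, η / (max y η) ^ 2 ≤ 1 := by
    have k1 := integral_inv_sq (η := η) (p := 0) hη2 (by linarith)
    have k2 : ∫ y in η..2 * s, η / (max y η) ^ 2 = ∫ y in η..2 * s, η / (0 + y) ^ 2 := by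
      refine intervalIntegral.integral_congr fun y hy => ?_
      rw [uIcc_of_le hη2] at hy
      simp only [max_eq_left hy.1, zero_add]
    rw [k2, k1, zero_add, zero_add, div_self hη.ne']
    have : 0 ≤ η / (2 * s) := by positivity
    linarith
  have hmx : ∀ y, 0 < max y η := fun y => lt_max_of_lt_right hη
  have hBP : ∀ c y e, Bk η c y e = η / max y η * Pk c (max y η) e := by
    intro c y e
    unfold Bk Pk
    have := hmx y
    field_simp
  have cw : Continuous fun y => η / max y η :=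
    continuous_const.div (by fun_prop) fun y => (hmx y).ne'
  have cw2 : Continuous fun y => η / (max y η) ^ 2 :=
    continuous_const.div (by fun_prop) fun y => (pow_pos (hmx y) 2).ne'
  have V : ∀ c, 0 ≤ c → c ≤ s →
      ∫ y in η..2 * s, η / (max y η) ^ 2 * er L ⟨2 - c, max y η⟩ M ^ (2 * P) ≤ 1 →
      (∫ y in η..2 * s, ∫ e, Bk η c y e ∂nuS) ≤ 6 * (√s * η * Real.log (2 * s / η)) ∧
      (∫ y in η..2 * s, ∫ e, Bk η c y e ∂nuE lam) ≤
        6 * (n * √s * η * Real.log (2 * s / η)) + 2 * L := by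
    intro c hc0 hc hV
    have dz : Continuous fun y : ℝ => (⟨2 - c, max y η⟩ : ℂ) :=
      continuous_mk (by fun_prop) (by fun_prop)
    have dm := continuous_mS dz (continuous_const (y := M)) hmx fun _ => hM
    have ds := continuous_msc dz hmx
    have de := continuous_er (L := L) dz hmx hM
    have dm' : Continuous fun y : ℝ => η / max y η * (n * -(mS ⟨2 - c, max y η⟩ M).im) :=
      cw.mul (continuous_const.mul (Complex.continuous_im.comp dm).neg)
    have ds' : Continuous fun y : ℝ => η / max y η * -(msc ⟨2 - c, max y η⟩).im :=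
      cw.mul (Complex.continuous_im.comp ds).neg
    have de' : Continuous fun y : ℝ => η / (max y η) ^ 2 * er L ⟨2 - c, max y η⟩ M ^ (2 * P) :=
      cw2.mul (de.pow _)
    have k0 : ∀ y ∈ Icc η (2 * s), -(msc ⟨2 - c, max y η⟩).im ≤ 6 * √s := fun y hy =>
      neg_im_msc_le hc0 hc hs4 (hmx y) (max_le hy.2 hη2)
    simp only [hBP, integral_const_mul, h.int_Pk hn _ (hmx _), int_Pk_sc _ (hmx _)]
    constructor
    · refine (intervalIntegral.integral_mono_on (g := fun y => η / max y η * (6 * √s)) hη2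
        (ds'.intervalIntegrable _ _)
        ((cw.mul continuous_const).intervalIntegrable _ _) fun y hy => ?_).trans ?_
      · exact mul_le_mul_of_nonneg_left (k0 y hy) (div_pos hη (hmx y)).le
      · rw [intervalIntegral.integral_mul_const, hlog]
        exact le_of_eq (by ring)
    · refine (intervalIntegral.integral_mono_on (g := fun y => η / max y η * (6 * n * √s) +
        L * (η / (max y η) ^ 2 + η / (max y η) ^ 2 * er L ⟨2 - c, max y η⟩ M ^ (2 * P))) hη2
        (dm'.intervalIntegrable _ _) (((cw.mul continuous_const).add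
          (continuous_const.mul (cw2.add de'))).intervalIntegrable _ _) fun y hy => ?_).trans ?_
      · have k1 := Complex.abs_im_le_norm (mS ⟨2 - c, max y η⟩ M - msc ⟨2 - c, max y η⟩)
        have k2 := neg_abs_le (mS ⟨2 - c, max y η⟩ M - msc ⟨2 - c, max y η⟩).im
        rw [Complex.sub_im] at k1 k2
        have k3 : -(mS ⟨2 - c, max y η⟩ M).im ≤
            6 * √s + ‖mS ⟨2 - c, max y η⟩ M - msc ⟨2 - c, max y η⟩‖ := by linarith [k0 y hy]
        have k4 : n * ‖mS ⟨2 - c, max y η⟩ M - msc ⟨2 - c, max y η⟩‖ =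
            L / max y η * er L ⟨2 - c, max y η⟩ M := by
          unfold er
          have := hmx y
          field_simp
        have k5 := le_one_add_pow (x := er L ⟨2 - c, max y η⟩ M)
          (by unfold er; have := hmx y; positivity) hP2
        have hy0 := hmx y
        calc η / max y η * (n * -(mS ⟨2 - c, max y η⟩ M).im)
            ≤ η / max y η * (n * (6 * √s + ‖mS ⟨2 - c, max y η⟩ M - msc ⟨2 - c, max y η⟩‖)) := by
              gcongr
          _ = η / max y η * (6 * n * √s) +
              η / max y η * (L / max y η * er L ⟨2 - c, max y η⟩ M) := by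
              rw [← k4]; ring
          _ ≤ η / max y η * (6 * n * √s) +
              η / max y η * (L / max y η * (1 + er L ⟨2 - c, max y η⟩ M ^ (2 * P))) := by
              gcongr
          _ = _ := by field_simp
      · have f1 : Continuous fun y : ℝ => η / max y η * (6 * n * √s) := cw.mul continuous_const
        have f2 : Continuous fun y : ℝ => L * (η / (max y η) ^ 2 +
            η / (max y η) ^ 2 * er L ⟨2 - c, max y η⟩ M ^ (2 * P)) :=
          continuous_const.mul (cw2.add de')
        rw [intervalIntegral.integral_add (f1.intervalIntegrable _ _) (f2.intervalIntegrable _ _),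
          intervalIntegral.integral_mul_const, hlog, intervalIntegral.integral_const_mul,
          intervalIntegral.integral_add (cw2.intervalIntegrable _ _)
          (de'.intervalIntegrable _ _)]
        nlinarith
  obtain ⟨v1, v2⟩ := V 0 le_rfl hs0.le hG.2.1
  obtain ⟨v3, v4⟩ := V s hs0.le le_rfl hG.2.2
  have hπ : π⁻¹ ≤ 1 / 2 := by
    rw [inv_eq_one_div]
    exact div_le_div_of_nonneg_left (by norm_num) (by norm_num) two_le_pi
  have hπ0 : 0 < π⁻¹ := by positivity
  set a1 := ∑ a, (if 0 ≤ 2 - lam a ∧ 2 - lam a ≤ s then (1 : ℝ) else 0)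
  set b1 := ∫ u in (0 : ℝ)..s, ∫ e, Pk u η e ∂nuE lam
  set b2 := ∫ u in (0 : ℝ)..s, ∫ e, Pk u η e ∂nuS
  have e1 : a1 - n * scF s = (a1 - π⁻¹ * b1) + π⁻¹ * (b1 - n * b2) - n * (scF s - π⁻¹ * b2) := by
    ring
  rw [e1]
  refine (abs_sub _ _).trans ((add_le_add (abs_add_le _ _) le_rfl).trans ?_)
  rw [abs_mul, abs_mul, abs_of_pos hπ0, abs_of_pos hn']
  have t1 : π⁻¹ * |b1 - n * b2| ≤ 1 / 2 * (2 * (L * (s / η))) :=
    mul_le_mul hπ H (abs_nonneg _) (by norm_num)
  have t2 := mul_le_mul_of_nonneg_left (s2.trans (mul_le_mul_of_nonneg_left (add_le_add v1 v3)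
    (by norm_num))) hn'.le
  nlinarith

/-- points above the edge -/
theorem IsEig.count_top {M O : Matrix (Fin n) (Fin n) ℝ} {lam : Fin n → ℝ} (h : IsEig M O lam)
    (hn : 0 < n) {L s : ℝ} (hL : 0 < L) (hs : 0 < s) (hs4 : s ≤ 4) (htop : ∀ a, lam a ≤ 2 + s)
    (hG : er L ⟨2 - 0, s⟩ M ≤ 1) :
    ∑ a, (if 2 - lam a < 0 then (1 : ℝ) else 0) ≤ 12 * (n * s * √s) + 2 * L := by
  have hn' : (0 : ℝ) < n := by exact_mod_cast hn
  have h1 := h.int_Pk hn 0 hs
  rw [integral_nuE] at h1
  have h2 : ∑ a, (if 2 - lam a < 0 then (1 : ℝ) else 0) ≤ 2 * s * ∑ a, Pk 0 s (2 - lam a) := by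
    rw [Finset.mul_sum]
    refine Finset.sum_le_sum fun a _ => ?_
    split_ifs with hc
    · unfold Pk
      rw [← mul_div_assoc, le_div_iff₀ (by positivity)]
      nlinarith [htop a]
    · have := Pk_nonneg hs 0 (2 - lam a)
      positivity
  have k0 := neg_im_msc_le le_rfl hs.le hs4 hs (by linarith)
  have k1 := Complex.abs_im_le_norm (mS ⟨2 - 0, s⟩ M - msc ⟨2 - 0, s⟩)
  have k2 := neg_abs_le (mS ⟨2 - 0, s⟩ M - msc ⟨2 - 0, s⟩).im
  rw [Complex.sub_im] at k1 k2
  unfold er at hG
  rw [div_le_one hL] at hG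
  simp only at hG
  rw [h1] at h2
  have k3 : -(mS ⟨2 - 0, s⟩ M).im ≤ 6 * √s + ‖mS ⟨2 - 0, s⟩ M - msc ⟨2 - 0, s⟩‖ := by linarith
  have k4 := mul_le_mul_of_nonneg_left k3 (by positivity : 0 ≤ 2 * s * n)
  nlinarith

end Vale.Agent.N150.Edge
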