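import Mathlib
import Vale.Agent.N150.EdgeCnt

/-! Edge rigidity of the GOE: proof of `RigidStmt`. -/

open MeasureTheory ProbabilityTheory Filter Topology Real Set
open scoped Matrix

namespace Vale.Agent.N150.Edge

variable {n : ℕ}

lemma er_nonneg {L : ℝ} (hL : 0 < L) {z : ℂ} (hz : 0 < z.im) (M : Matrix (Fin n) (Fin n) ℝ) :
    0 ≤ er L z M := by unfold er; positivity

lemma er_le {L : ℝ} (hL : 0 < L) {z : ℂ} (hz : 0 < z.im) {M : Matrix (Fin n) (Fin n) ℝ}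
    (hM : Mᵀ = M) : er L z M ≤ n * (1 + z.im) / L := by
  unfold er
  have h1 := norm_mS_le hM hz
  have h2 := (par_msc hz).lt.le
  have h3 : ‖mS z M - msc z‖ ≤ (z.im)⁻¹ + 1 := (norm_sub_le _ _).trans (add_le_add h1 h2)
  have h4 : n * z.im * ‖mS z M - msc z‖ ≤ n * z.im * ((z.im)⁻¹ + 1) := by gcongr
  have h5 : n * z.im * ((z.im)⁻¹ + 1) = n * (1 + z.im) := by field_simp
  exact div_le_div_of_nonneg_right (h4.trans h5.le) hL.le

section prob
variable {ι : Type} [Fintype ι] {A : ι → Matrix (Fin n) (Fin n) ℝ} (hA : GoeFam A)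
include hA

/-- Markov's inequality along a curve. -/
theorem GoeFam.markov_curve (hn : 0 < n) {a b : ℝ} (hab : a ≤ b) {z : ℝ → ℂ} (hzc : Continuous z)
    (hz : ∀ t, 0 < (z t).im) {wt : ℝ → ℝ} (hwc : Continuous wt) (hw0 : ∀ t, 0 ≤ wt t) (P : ℕ)
    (hE : ∀ t ∈ Icc a b, |(z t).re| ≤ 2)
    (hP : ∀ t ∈ Icc a b, (64 * P : ℝ) ^ 2 ≤ n ^ 2 * (z t).im ^ 3) {L κ : ℝ} (hL : 0 < L)
    (hκ : 0 < κ) (hwt : ∫ t in a..b, wt t ≤ κ) :
    (Measure.pi fun _ : ι => gaussianReal 0 1)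
      {ω | κ < ∫ t in a..b, wt t * er L (z t) (goeM A ω) ^ (2 * P)} ≤
      ENNReal.ofReal ((225 * P) ^ P / L ^ (2 * P)) := by
  set μ := Measure.pi fun _ : ι => gaussianReal 0 1 with hμ
  have hc : Continuous fun p : ℝ × (ι → ℝ) => wt p.1 * er L (z p.1) (goeM A p.2) ^ (2 * P) := by
    have h1 : Continuous fun p : ℝ × (ι → ℝ) => mS (z p.1) (goeM A p.2) :=
      continuous_mS (hzc.comp continuous_fst) (continuous_goeM.comp continuous_snd)
        (fun p => hz p.1) fun p => hA.goeM_tr p.2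
    have h2 : Continuous fun p : ℝ × (ι → ℝ) => msc (z p.1) :=
      (continuous_msc hzc hz).comp continuous_fst
    have h3 : Continuous fun p : ℝ × (ι → ℝ) => (z p.1).im :=
      Complex.continuous_im.comp (hzc.comp continuous_fst)
    exact (hwc.comp continuous_fst).mul
      ((((continuous_const.mul h3).mul (h1.sub h2).norm).div_const L).pow _)
  have hg : Continuous fun t => wt t * (n * (1 + (z t).im) / L) ^ (2 * P) :=
    hwc.mul (((continuous_const.mul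
      (continuous_const.add (Complex.continuous_im.comp hzc))).div_const L).pow _)
  have hF0 : ∀ t ω, 0 ≤ wt t * er L (z t) (goeM A ω) ^ (2 * P) := fun t ω =>
    mul_nonneg (hw0 t) (pow_nonneg (er_nonneg hL (hz t) _) _)
  have hi : Integrable (Function.uncurry fun t ω => wt t * er L (z t) (goeM A ω) ^ (2 * P))
      ((volume.restrict (uIoc a b)).prod μ) := by
    refine Integrable.mono' (Integrable.comp_fst (hg.intervalIntegrable a b).def' μ)
      hc.aestronglyMeasurable (Eventually.of_forall fun p => ?_)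
    refine (abs_of_nonneg (hF0 p.1 p.2)).le.trans ?_
    exact mul_le_mul_of_nonneg_left (pow_le_pow_left₀ (er_nonneg hL (hz _) _)
      (er_le hL (hz _) (hA.goeM_tr _)) _) (hw0 _)
  have hsw := intervalIntegral_integral_swap hi
  have j1 : Integrable (fun ω => ∫ t in a..b, wt t * er L (z t) (goeM A ω) ^ (2 * P)) μ := by
    have := hi.integral_prod_right
    simp only [intervalIntegral.integral_of_le hab]
    rwa [uIoc_of_le hab] at this
  have j2 : IntervalIntegrable (fun t => ∫ ω, wt t * er L (z t) (goeM A ω) ^ (2 * P) ∂μ)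
      volume a b := intervalIntegrable_iff.2 hi.integral_prod_left
  set K : ℝ := (225 * P) ^ P / L ^ (2 * P) with hK
  have hK0 : 0 ≤ K := by positivity
  have h1 : ∫ t in a..b, ∫ ω, wt t * er L (z t) (goeM A ω) ^ (2 * P) ∂μ ≤ κ * K := by
    refine (intervalIntegral.integral_mono_on (g := fun t => wt t * K) hab j2
      ((hwc.mul continuous_const).intervalIntegrable _ _) fun t ht => ?_).trans ?_
    · rw [integral_const_mul]
      refine mul_le_mul_of_nonneg_left ?_ (hw0 t)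
      have := hA.law_inside hn (hz t) (hE t ht) P (hP t ht)
      unfold er
      simp only [div_pow]
      rw [integral_div]
      exact div_le_div_of_nonneg_right this (by positivity)
    · rw [intervalIntegral.integral_mul_const]
      exact mul_le_mul_of_nonneg_right hwt hK0
  have hM := mul_meas_ge_le_integral_of_nonneg (μ := μ) (Eventually.of_forall fun ω =>
    intervalIntegral.integral_nonneg hab fun t _ => hF0 t ω) j1 κ
  rw [← hsw] at hM
  have h2 := le_of_mul_le_mul_left (hM.trans h1) hκ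
  refine (measure_mono (t := {ω | κ ≤ ∫ t in a..b, wt t * er L (z t) (goeM A ω) ^ (2 * P)})
    fun ω (hω : κ < _) => hω.le).trans ?_
  rw [← ofReal_measureReal]
  exact ENNReal.ofReal_le_ofReal h2

theorem GoeFam.er_point (hn : 0 < n) {z : ℂ} (hz : 0 < z.im) {P : ℕ} (hP1 : 1 ≤ P)
    (hE : |z.re| ≤ 2) (hP : (64 * P : ℝ) ^ 2 ≤ n ^ 2 * z.im ^ 3) {L : ℝ} (hL : 0 < L) :
    (Measure.pi fun _ : ι => gaussianReal 0 1) {ω | ¬ er L z (goeM A ω) ≤ 1} ≤
      ENNReal.ofReal ((225 * P) ^ P / L ^ (2 * P)) := by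
  refine le_trans (measure_mono fun ω hω => ?_) (hA.markov_curve hn zero_le_one
    (z := fun _ => z) continuous_const (fun _ => hz) (wt := fun _ => 1) continuous_const
    (fun _ => zero_le_one) P (fun _ _ => hE) (fun _ _ => hP) hL one_pos (by simp))
  simp only [mem_ofPred_eq, not_le] at hω ⊢
  rw [intervalIntegral.integral_const, sub_zero, one_smul, one_mul]
  exact one_lt_pow₀ hω (by omega)

theorem GoeFam.not_good (hn : 0 < n) (P : ℕ) {L η s : ℝ} (hL : 0 < L) (hη : 0 < η) (hs : η ≤ s)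
    (hs4 : s ≤ 4) (hP : (64 * P : ℝ) ^ 2 ≤ n ^ 2 * η ^ 3) :
    (Measure.pi fun _ : ι => gaussianReal 0 1) {ω | ¬ GoodAt P L η s (goeM A ω)} ≤
      ENNReal.ofReal (3 * ((225 * P) ^ P / L ^ (2 * P))) := by
  have hη2 : η ≤ 2 * s := by linarith
  have hs0 : 0 < s := by linarith
  have hmx : ∀ y, 0 < max y η := fun y => lt_max_of_lt_right hη
  have h1 := hA.markov_curve hn hs0.le (z := fun u => ⟨2 - u, η⟩)
    (continuous_mk (by fun_prop) (by fun_prop)) (fun _ => hη) (wt := fun _ => 1) continuous_const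
    (fun _ => zero_le_one) P (fun t ht => abs_le.2 ⟨by simp only; linarith [ht.2], by
      simp only; linarith [ht.1]⟩) (fun _ _ => hP) hL hs0 (by simp)
  have hone : ∫ y in η..2 * s, η / (max y η) ^ 2 ≤ 1 := by
    have k1 := integral_inv_sq (η := η) (p := 0) hη2 (by linarith)
    have k2 : ∫ y in η..2 * s, η / (max y η) ^ 2 = ∫ y in η..2 * s, η / (0 + y) ^ 2 := by
      refine intervalIntegral.integral_congr fun y hy => ?_
      rw [uIcc_of_le hη2] at hy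
      simp only [max_eq_left hy.1, zero_add]
    rw [k2, k1, zero_add, zero_add, div_self hη.ne']
    have : 0 ≤ η / (2 * s) := by positivity
    linarith
  have h2 := fun (c : ℝ) (hc0 : 0 ≤ c) (hc : c ≤ 4) => hA.markov_curve hn hη2
    (z := fun y => ⟨2 - c, max y η⟩) (continuous_mk (by fun_prop) (by fun_prop)) hmx
    (wt := fun y => η / (max y η) ^ 2)
    (continuous_const.div (by fun_prop) fun y => (pow_pos (hmx y) 2).ne')
    (fun y => by have := hmx y; positivity) P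
    (fun t _ => abs_le.2 ⟨by simp only; linarith, by simp only; linarith⟩)
    (fun t _ => hP.trans (by have := le_max_right t η; simp only; gcongr)) hL one_pos hone
  have h3 := h2 0 le_rfl (by norm_num)
  have h4 := h2 s hs0.le hs4
  have hK : (0 : ℝ) ≤ (225 * P) ^ P / L ^ (2 * P) := by positivity
  rw [show ∀ x : ℝ, 3 * x = x + (x + x) from fun x => by ring,
    ENNReal.ofReal_add hK (by positivity), ENNReal.ofReal_add hK hK]
  refine le_trans (measure_mono fun ω hω => ?_) ((measure_union_le _ _).trans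
    (add_le_add h1 ((measure_union_le _ _).trans (add_le_add h3 h4))))
  simp only [mem_ofPred_eq, GoodAt, not_and_or, not_le, mem_union] at hω ⊢
  exact hω

end prob

lemma cnt_eqM (lam : Fin n → ℝ) {s : ℝ} (hs : 0 ≤ s) :
    cnt lam s = ∑ a, (if 0 ≤ 2 - lam a ∧ 2 - lam a ≤ s then (1 : ℝ) else 0) +
      ∑ a, (if 2 - lam a < 0 then (1 : ℝ) else 0) := by
  unfold cnt
  rw [Finset.card_filter, ← Finset.sum_add_distrib]
  push_cast
  refine Finset.sum_congr rfl fun a _ => ?_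
  by_cases h1 : 2 - lam a < 0
  · rw [if_pos (by linarith), if_neg (fun h => by linarith [h.1]), if_pos h1, zero_add]
  · by_cases h2 : 2 - lam a ≤ s
    · rw [if_pos (by linarith), if_pos ⟨not_lt.1 h1, h2⟩, if_neg h1, add_zero]
    · rw [if_neg (fun h => h2 (by linarith)), if_neg (fun h => h2 h.2), if_neg h1, add_zero]

lemma cnt_monoM (lam : Fin n → ℝ) {s t : ℝ} (h : s ≤ t) : cnt lam s ≤ cnt lam t := by
  unfold cnt
  refine Nat.cast_le.2 (Finset.card_le_card fun a ha => ?_)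
  simp only [Finset.mem_filter, Finset.mem_univ, true_and] at ha ⊢
  linarith

lemma cnt_leM (lam : Fin n → ℝ) (s : ℝ) : cnt lam s ≤ n := by
  unfold cnt
  have := Finset.card_filter_le (Finset.univ : Finset (Fin n)) fun a => 2 - s ≤ lam a
  rw [Finset.card_univ, Fintype.card_fin] at this
  exact_mod_cast this

lemma sqrt_grid (ρ b : ℝ) : √(ρ ^ 4 * b ^ 20) = ρ ^ 2 * b ^ 10 := by
  rw [show ρ ^ 4 * b ^ 20 = (ρ ^ 2 * b ^ 10) ^ 2 by ring, Real.sqrt_sq (by positivity)]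

/-- the estimate at a grid point -/
lemma IsEig.point {M O : Matrix (Fin n) (Fin n) ℝ} {lam : Fin n → ℝ} (h : IsEig M O lam)
    (hn : 0 < n) {ρ b T : ℝ} (hρ : 0 < ρ) (hnρ : n * ρ ^ 6 = 1) (hb : 2 ≤ b)
    (h4 : ρ ^ 4 * b ^ 20 ≤ 4) (hG : GoodAt 5 (b ^ 3) (ρ ^ 4 * b ^ 6) (ρ ^ 4 * b ^ 20) M)
    (hT : ∑ a, (if 2 - lam a < 0 then (1 : ℝ) else 0) ≤ T) :
    |cnt lam (ρ ^ 4 * b ^ 20) - n * scF (ρ ^ 4 * b ^ 20)| ≤ 2185 * b ^ 17 + T := by
  have hb0 : 0 < b := by linarith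
  have hb1 : 1 ≤ b := by linarith
  have h1 := h.count_le hn (by norm_num) (by positivity) (by positivity)
    (mul_le_mul_of_nonneg_left (pow_le_pow_right₀ hb1 (by norm_num)) (by positivity)) h4 hG
  have e1 : ρ ^ 4 * b ^ 20 / (ρ ^ 4 * b ^ 6) = b ^ 14 := by field_simp
  have e2 : 2 * (ρ ^ 4 * b ^ 20) / (ρ ^ 4 * b ^ 6) = 2 * b ^ 14 := by field_simp
  have e3 : n * (ρ ^ 2 * b ^ 10) * (ρ ^ 4 * b ^ 6) = b ^ 16 := by
    linear_combination b ^ 16 * hnρ
  rw [e1, e2, sqrt_grid, e3] at h1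
  have l1 : Real.log (2 * b ^ 14) ≤ 15 * b := by
    have k1 : 2 * b ^ 14 ≤ b ^ 15 := by
      rw [pow_succ' b 14]; gcongr
    have k2 := Real.log_le_log (by positivity) k1
    rw [Real.log_pow] at k2
    have k3 := Real.log_le_sub_one_of_pos hb0
    push_cast at k2
    linarith
  have l2 : b ^ 16 * Real.log (2 * b ^ 14) ≤ b ^ 16 * (15 * b) := by gcongr
  have l3 : b ^ 3 ≤ b ^ 17 := pow_le_pow_right₀ hb1 (by norm_num)
  have h0 : 0 ≤ ∑ a, (if 2 - lam a < 0 then (1 : ℝ) else 0) :=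
    Finset.sum_nonneg fun a _ => by split_ifs <;> norm_num
  rw [cnt_eqM lam (by positivity)]
  have h2 := abs_le.1 h1
  have e4 : b ^ 3 * b ^ 14 = b ^ 17 := by ring
  have e5 : b ^ 16 * (15 * b) = 15 * b ^ 17 := by ring
  rw [abs_le]
  constructor <;> linarith [h2.1, h2.2]

/-- the grid -/
noncomputable def rt (k : ℕ) : ℝ := (k : ℝ) ^ (((15 : ℕ) : ℝ)⁻¹)

lemma rt_nonneg (k : ℕ) : 0 ≤ rt k := by unfold rt; positivity

lemma rt_pow (k : ℕ) : rt k ^ 15 = k := Real.rpow_inv_natCast_pow (by positivity) (by norm_num)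

lemma le_of_pow15 {a b : ℝ} (hb : 0 ≤ b) (h : a ^ 15 ≤ b ^ 15) : a ≤ b :=
  le_of_pow_le_pow_left₀ (by norm_num) hb h

/-- interpolation between grid points -/
lemma IsEig.interp {M O : Matrix (Fin n) (Fin n) ℝ} {lam : Fin n → ℝ} (h : IsEig M O lam)
    (hn : 0 < n) {ρ u v : ℝ} (hρ : 0 < ρ) (hnρ : n * ρ ^ 6 = 1) (hu : 10 ^ 9 ≤ u) (huv : u ≤ v)
    (h4 : ρ ^ 4 * v ^ 20 ≤ 4)
    (hG : ∀ k : ℕ, ⌊u ^ 15⌋₊ ≤ k → ρ ^ 4 * rt k ^ 20 ≤ 4 →
      GoodAt 5 (rt k ^ 3) (ρ ^ 4 * rt k ^ 6) (ρ ^ 4 * rt k ^ 20) M)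
    (hT : ∑ a, (if 2 - lam a < 0 then (1 : ℝ) else 0) ≤ 14 * u ^ 12) :
    |cnt lam (ρ ^ 4 * v ^ 20) - n * scF (ρ ^ 4 * v ^ 20)| ≤ v ^ 18 := by
  have hn' : (0 : ℝ) < n := by exact_mod_cast hn
  have hu0 : 0 < u := by linarith
  have hv1 : 2 ≤ v := by linarith
  have hv0 : 0 < v := by linarith
  set k := ⌊v ^ 15⌋₊ with hk
  have hk0 : ⌊u ^ 15⌋₊ ≤ k := Nat.floor_mono (by gcongr)
  set a := rt k with ha
  set b := rt (k + 1) with hb
  have ha0 := rt_nonneg k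
  have hb0 := rt_nonneg (k + 1)
  have ha15 : a ^ 15 = k := rt_pow k
  have hb15 : b ^ 15 = k + 1 := by rw [hb, rt_pow]; push_cast; rfl
  have f1 : (k : ℝ) ≤ v ^ 15 := Nat.floor_le (by positivity)
  have f2 : v ^ 15 < k + 1 := Nat.lt_floor_add_one _
  have hav : a ≤ v := le_of_pow15 hv0.le (by linarith)
  have hvb : v ≤ b := le_of_pow15 hb0 (by linarith)
  have hv15 : (2 : ℝ) ^ 15 ≤ v ^ 15 := by gcongr
  have ha2 : 2 ≤ a := by
    refine le_of_pow15 ha0 ?_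
    have : 2 ^ 15 ≤ k := Nat.le_floor (by exact_mod_cast hv15)
    rw [ha15]
    exact_mod_cast this
  have hb2 : b ≤ 2 * v := by
    refine le_of_pow15 (by positivity) ?_
    rw [mul_pow]
    linarith
  have s1 : ρ ^ 4 * a ^ 20 ≤ ρ ^ 4 * v ^ 20 := by gcongr
  have s2 : ρ ^ 4 * v ^ 20 ≤ ρ ^ 4 * b ^ 20 := by gcongr
  have d1 : n * (scF (ρ ^ 4 * b ^ 20) - scF (ρ ^ 4 * a ^ 20)) ≤ 2 * b ^ 15 := by
    have k1 := scF_sub_le (by positivity) (s1.trans s2)
    rw [sqrt_grid] at k1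
    have hab : a ≤ b := hav.trans hvb
    have k2 : b ^ 20 - a ^ 20 ≤ 2 * b ^ 5 := by
      have m1 : a ^ 5 ≤ b ^ 5 := by gcongr
      have m2 : a ^ 10 ≤ b ^ 10 := by gcongr
      have m3 : a ^ 10 * (b ^ 5 - a ^ 5) ≤ 1 := by
        have : a ^ 10 * b ^ 5 ≤ b ^ 10 * b ^ 5 := by gcongr
        nlinarith
      have m4 : a ^ 5 * (a ^ 10 * (b ^ 5 - a ^ 5)) ≤ b ^ 5 * 1 :=
        mul_le_mul m1 m3 (mul_nonneg (by positivity) (by linarith)) (by positivity)
      have m5 : b ^ 20 - a ^ 20 = b ^ 5 * (b ^ 15 - a ^ 15) + a ^ 5 * (a ^ 10 * (b ^ 5 - a ^ 5)) := by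
        ring
      rw [m5, hb15, ha15]
      linarith
    have k3 : ρ ^ 2 * b ^ 10 / π ≤ ρ ^ 2 * b ^ 10 :=
      div_le_self (by positivity) (by linarith [pi_gt_three])
    have k4 : (ρ ^ 4 * b ^ 20 - ρ ^ 4 * a ^ 20) * (ρ ^ 2 * b ^ 10 / π) ≤
        (ρ ^ 4 * (2 * b ^ 5)) * (ρ ^ 2 * b ^ 10) := by
      refine mul_le_mul ?_ k3 (by positivity) (by positivity)
      rw [← mul_sub]
      gcongr
    calc _ ≤ n * ((ρ ^ 4 * (2 * b ^ 5)) * (ρ ^ 2 * b ^ 10)) := by gcongr; exact k1.trans k4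
      _ = _ := by linear_combination 2 * b ^ 15 * hnρ
  have m1 := mul_le_mul_of_nonneg_left (scF_mono s1) hn'.le
  have m2 := mul_le_mul_of_nonneg_left (scF_mono s2) hn'.le
  have p1 := abs_le.1 (h.point hn hρ hnρ ha2 (s1.trans h4) (hG k hk0 (s1.trans h4)) hT)
  have p2 : cnt lam (ρ ^ 4 * v ^ 20) ≤ n * scF (ρ ^ 4 * b ^ 20) + (2185 * b ^ 17 + 14 * u ^ 12) := by
    by_cases hc : ρ ^ 4 * b ^ 20 ≤ 4
    · have := abs_le.1 (h.point hn hρ hnρ (hv1.trans hvb) hc (hG (k + 1) (by omega) hc) hT)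
      linarith [cnt_monoM lam s2, this.2]
    · have k1 := mul_le_mul_of_nonneg_left (scF_mono (not_le.1 hc).le) hn'.le
      rw [scF_four] at k1
      have : 0 ≤ 2185 * b ^ 17 + 14 * u ^ 12 := by positivity
      linarith [cnt_leM lam (ρ ^ 4 * v ^ 20)]
  have p3 := cnt_monoM lam s1
  have q1 : b ^ 15 ≤ 2 ^ 15 * v ^ 17 := by
    have : v ^ 15 ≤ v ^ 17 := pow_le_pow_right₀ (by linarith) (by norm_num)
    calc b ^ 15 ≤ (2 * v) ^ 15 := by gcongr
      _ ≤ _ := by rw [mul_pow]; gcongr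
  have q2 : b ^ 17 ≤ 2 ^ 17 * v ^ 17 := by rw [← mul_pow]; gcongr
  have q3 : a ^ 17 ≤ v ^ 17 := by gcongr
  have q4 : u ^ 12 ≤ v ^ 17 :=
    (pow_le_pow_left₀ hu0.le huv 12).trans (pow_le_pow_right₀ (by linarith) (by norm_num))
  have q5 : 10 ^ 9 * v ^ 17 ≤ v ^ 18 := by
    rw [pow_succ' v 17]; gcongr; linarith
  have q6 : 0 ≤ v ^ 17 := by positivity
  rw [abs_le]
  constructor <;> linarith [p1.1]

lemma pow_rpow' {x : ℝ} (hx : 0 ≤ x) (p q : ℕ) {r : ℝ} (h : p * r = q) : (x ^ p) ^ r = x ^ q := by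
  rw [← Real.rpow_natCast x p, ← Real.rpow_mul hx, h, Real.rpow_natCast]

lemma exists_rootM {x : ℝ} (hx : 0 < x) {p : ℕ} (hp : p ≠ 0) : ∃ y : ℝ, 0 < y ∧ y ^ p = x :=
  ⟨x ^ ((p : ℝ)⁻¹), by positivity, Real.rpow_inv_natCast_pow hx.le hp⟩

/-- The rigidity theorem. -/
theorem rigid_stmt : RigidStmt := by
  refine ⟨10 ^ 45, by norm_num, fun w n hw hwn hn ι _ A hA => ?_⟩
  set μ := Measure.pi fun _ : ι => gaussianReal 0 1 with hμ
  have hn' : (0 : ℝ) < n := by exact_mod_cast hn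
  obtain ⟨u, hu0, rfl⟩ := exists_rootM (x := w) (by linarith) (p := 20) (by norm_num)
  obtain ⟨σ, hσ, hσn⟩ := exists_rootM hn' (p := 6) (by norm_num)
  set ρ := σ⁻¹ with hρd
  have hρ : 0 < ρ := by positivity
  have hσρ : σ * ρ = 1 := mul_inv_cancel₀ hσ.ne'
  have hnρ : n * ρ ^ 6 = 1 := by rw [← hσn, ← mul_pow, hσρ, one_pow]
  have e1 : (n : ℝ) ^ (-(2 / 3 : ℝ)) = ρ ^ 4 := by
    rw [Real.rpow_neg hn'.le, ← hσn, pow_rpow' hσ.le 6 4 (by norm_num), hρd, inv_pow]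
  have e2 : (u ^ 20) ^ (-(1 / 4 : ℝ)) = (u ^ 5)⁻¹ := by
    rw [Real.rpow_neg (by positivity), pow_rpow' hu0.le 20 5 (by norm_num)]
  have e3 : √n * (ρ * u ^ 2) ^ 3 = u ^ 6 := by
    rw [← hσn, show σ ^ 6 = (σ ^ 3) ^ 2 by ring, Real.sqrt_sq (by positivity)]
    linear_combination (u ^ 6 * ((σ * ρ) ^ 2 + σ * ρ + 1)) * hσρ
  rw [e1] at hwn
  rw [e2]
  by_cases hu : u < 10 ^ 9
  · refine prob_le_one.trans ?_
    rw [← ENNReal.ofReal_one]
    refine ENNReal.ofReal_le_ofReal ?_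
    rw [← div_eq_mul_inv, le_div_iff₀ (by positivity), one_mul]
    calc u ^ 5 ≤ (10 ^ 9) ^ 5 := by gcongr
      _ = _ := by norm_num
  replace hu : 10 ^ 9 ≤ u := not_lt.1 hu
  have hu1 : 1 ≤ u := by linarith
  have hu2 : 2 ≤ u := by linarith
  have hS : 256 ≤ √n * (ρ * u ^ 2) ^ 3 := by
    rw [e3]
    calc (256 : ℝ) ≤ 3 ^ 6 := by norm_num
      _ ≤ _ := by gcongr; linarith
  have t1 := hA.top_tail hn (y := ρ * u ^ 2) (by positivity) hS
  have t2 := hA.bot_tail hn (y := ρ * u ^ 2) (by positivity) hS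
  have e4 : (ρ * u ^ 2) ^ 4 = ρ ^ 4 * u ^ 8 := by ring
  rw [e3, e4] at t1 t2
  have s01 : ρ ^ 4 * u ^ 8 ≤ u ^ 20 * ρ ^ 4 := by
    rw [mul_comm]
    exact mul_le_mul_of_nonneg_right (pow_le_pow_right₀ hu1 (by norm_num)) (by positivity)
  have hbig : ∀ b : ℝ, 2 ≤ b → ∀ j : ℕ, 6 ≤ j →
      (64 * ((5 : ℕ) : ℝ)) ^ 2 ≤ n ^ 2 * (ρ ^ 4 * b ^ j) ^ 3 := by
    intro b hb j hj
    have k1 : n ^ 2 * (ρ ^ 4 * b ^ j) ^ 3 = (b ^ j) ^ 3 := by
      linear_combination (b ^ j) ^ 3 * (n * ρ ^ 6 + 1) * hnρ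
    have k2 : (2 : ℝ) ^ 6 ≤ b ^ j :=
      (pow_le_pow_left₀ (by norm_num) hb 6).trans (pow_le_pow_right₀ (by linarith) hj)
    rw [k1]
    calc _ ≤ ((2 : ℝ) ^ 6) ^ 3 := by norm_num
      _ ≤ _ := by gcongr
  have t3 := hA.er_point hn (z := ⟨2 - 0, ρ ^ 4 * u ^ 8⟩) (by positivity) (P := 5) (by norm_num)
    (by simp) (hbig u hu2 8 (by norm_num)) (L := u ^ 3) (by positivity)
  set k0 := ⌊u ^ 15⌋₊ with hk0
  have hu15 : (2 : ℝ) ^ 15 ≤ u ^ 15 := by gcongr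
  have hk1 : 2 ^ 15 ≤ k0 := Nat.le_floor (by exact_mod_cast hu15)
  have hk2 : u ^ 15 < k0 + 1 := Nat.lt_floor_add_one _
  set B : ℕ → Set (ι → ℝ) := fun k => {ω | ρ ^ 4 * rt k ^ 20 ≤ 4 ∧
    ¬ GoodAt 5 (rt k ^ 3) (ρ ^ 4 * rt k ^ 6) (ρ ^ 4 * rt k ^ 20) (goeM A ω)} with hB
  have t4 : ∀ k ∈ Finset.Ioo (k0 - 1) (8 * n + 1),
      μ (B k) ≤ ENNReal.ofReal (3 * 1125 ^ 5 * ((k : ℝ) ^ 2)⁻¹) := by
    intro k hk
    rw [Finset.mem_Ioo] at hk
    have hr : 2 ≤ rt k := by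
      refine le_of_pow15 (rt_nonneg k) ?_
      rw [rt_pow]
      exact_mod_cast (by omega : 2 ^ 15 ≤ k)
    by_cases hc : ρ ^ 4 * rt k ^ 20 ≤ 4
    · have := hA.not_good hn 5 (L := rt k ^ 3) (η := ρ ^ 4 * rt k ^ 6) (by positivity)
        (by positivity) (mul_le_mul_of_nonneg_left (pow_le_pow_right₀ (by linarith) (by norm_num))
          (by positivity)) hc (hbig _ hr 6 le_rfl)
      refine (measure_mono fun ω hω => hω.2).trans (this.trans (le_of_eq ?_))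
      congr 1
      rw [← rt_pow k]
      push_cast
      ring
    · have : B k = ∅ := eq_empty_of_forall_notMem fun ω hω => hc hω.1
      rw [this, measure_empty]
      exact zero_le
  have t5 : μ (⋃ k ∈ Finset.Ioo (k0 - 1) (8 * n + 1), B k) ≤
      ENNReal.ofReal (3 * 1125 ^ 5 * (4 / u ^ 15)) := by
    refine (measure_biUnion_finset_le _ _).trans ((Finset.sum_le_sum t4).trans ?_)
    rw [← ENNReal.ofReal_sum_of_nonneg fun k _ => by positivity, ← Finset.mul_sum]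
    refine ENNReal.ofReal_le_ofReal (mul_le_mul_of_nonneg_left ?_ (by positivity))
    refine (sum_Ioo_inv_sq_le _ _).trans ?_
    have k1 : ((k0 - 1 : ℕ) : ℝ) + 1 = k0 := by
      rw [Nat.cast_sub (by omega)]; push_cast; ring
    have k2 : (1 : ℝ) ≤ k0 := by exact_mod_cast (by omega : 1 ≤ k0)
    rw [k1, div_le_div_iff₀ (by linarith) (by positivity)]
    linarith
  have hsub : {ω | ¬ RigidM (u ^ 20) (goeM A ω)} ⊆
      {ω | ∃ O lam a, IsEig (goeM A ω) O lam ∧ 2 + ρ ^ 4 * u ^ 8 ≤ lam a} ∪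
      ({ω | ∃ O lam a, IsEig (goeM A ω) O lam ∧ lam a ≤ -2 - ρ ^ 4 * u ^ 8} ∪
      ({ω | ¬ er (u ^ 3) ⟨2 - 0, ρ ^ 4 * u ^ 8⟩ (goeM A ω) ≤ 1} ∪
      ⋃ k ∈ Finset.Ioo (k0 - 1) (8 * n + 1), B k)) := by
    intro ω hω
    by_contra hc
    simp only [mem_union, mem_ofPred_eq, not_or, not_exists, not_and, not_le, mem_iUnion,
      not_lt] at hc
    obtain ⟨c1, c2, c3, c4⟩ := hc
    refine hω fun O lam h => ?_
    have hT := h.count_top hn (L := u ^ 3) (s := ρ ^ 4 * u ^ 8) (by positivity) (by positivity)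
      (by linarith) (fun a => (c1 O lam a h).le) c3
    have k1 : √(ρ ^ 4 * u ^ 8) = ρ ^ 2 * u ^ 4 := by
      rw [show ρ ^ 4 * u ^ 8 = (ρ ^ 2 * u ^ 4) ^ 2 by ring, Real.sqrt_sq (by positivity)]
    have k2 : n * (ρ ^ 4 * u ^ 8) * (ρ ^ 2 * u ^ 4) = u ^ 12 := by
      linear_combination u ^ 12 * hnρ
    have k3 : u ^ 3 ≤ u ^ 12 := pow_le_pow_right₀ hu1 (by norm_num)
    rw [k1, k2] at hT
    unfold Rigid
    rw [e1]
    refine ⟨fun a => ⟨by linarith [c2 O lam a h], by linarith [c1 O lam a h]⟩, fun s hs hs4 => ?_⟩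
    have hs0 : 0 < s := lt_of_lt_of_le (by positivity) hs
    obtain ⟨v, hv0, hv⟩ := exists_rootM (x := s / ρ ^ 4) (by positivity) (p := 20) (by norm_num)
    have hs' : s = ρ ^ 4 * v ^ 20 := by rw [hv]; field_simp
    have huv : u ≤ v := by
      refine le_of_pow_le_pow_left₀ (n := 20) (by norm_num) hv0.le ?_
      rw [hv, le_div_iff₀ (by positivity)]
      exact hs
    have k4 : (n * s ^ (3 / 2 : ℝ)) ^ (3 / 5 : ℝ) = v ^ 18 := by
      have m1 : s ^ (3 / 2 : ℝ) = (ρ ^ 2 * v ^ 10) ^ 3 := by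
        rw [hs', show ρ ^ 4 * v ^ 20 = (ρ ^ 2 * v ^ 10) ^ 2 by ring]
        exact pow_rpow' (by positivity) 2 3 (by norm_num)
      have m2 : n * (ρ ^ 2 * v ^ 10) ^ 3 = v ^ 30 := by linear_combination v ^ 30 * hnρ
      rw [m1, m2]
      exact pow_rpow' hv0.le 30 18 (by norm_num)
    rw [k4, hs']
    refine h.interp hn hρ hnρ hu huv (hs' ▸ hs4) (fun k hk hk4 => ?_) (by linarith)
    by_contra hG
    refine c4 k ?_ ⟨hk4, hG⟩
    rw [Finset.mem_Ioo]
    refine ⟨by omega, ?_⟩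
    have m1 : (ρ ^ 4 * rt k ^ 20) ^ 3 ≤ 4 ^ 3 :=
      pow_le_pow_left₀ (by have := rt_nonneg k; positivity) hk4 3
    have m2 : n ^ 2 * (ρ ^ 4 * rt k ^ 20) ^ 3 = (rt k ^ 15) ^ 4 := by
      linear_combination (rt k ^ 60) * (n * ρ ^ 6 + 1) * hnρ
    rw [rt_pow] at m2
    have m3 : (k : ℝ) ^ 4 ≤ n ^ 2 * 4 ^ 3 := by rw [← m2]; gcongr
    have m4 : (k : ℝ) ^ 2 ≤ 8 * n := le_of_sq' (by nlinarith) (by positivity)
    have m5 : k ^ 2 ≤ 8 * n := by exact_mod_cast m4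
    nlinarith
  refine (measure_mono hsub).trans ((measure_union_le _ _).trans ((add_le_add t1
    ((measure_union_le _ _).trans (add_le_add t2 ((measure_union_le _ _).trans
      (add_le_add t3 t5))))).trans ?_))
  rw [← ENNReal.ofReal_add (by positivity) (by positivity),
    ← ENNReal.ofReal_add (by positivity) (by positivity),
    ← ENNReal.ofReal_add (by positivity) (by positivity)]
  refine ENNReal.ofReal_le_ofReal ?_
  have i1 : (u ^ 6)⁻¹ ≤ (u ^ 5)⁻¹ := inv_anti₀ (by positivity) (pow_le_pow_right₀ hu1 (by norm_num))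
  have i2 : (u ^ 15)⁻¹ ≤ (u ^ 5)⁻¹ :=
    inv_anti₀ (by positivity) (pow_le_pow_right₀ hu1 (by norm_num))
  have i3 : ((u ^ 3) ^ (2 * 5))⁻¹ ≤ (u ^ 5)⁻¹ := inv_anti₀ (by positivity) (by
    rw [← pow_mul]; exact pow_le_pow_right₀ hu1 (by norm_num))
  have i4 : 0 ≤ (u ^ 5)⁻¹ := by positivity
  simp only [div_eq_mul_inv]
  push_cast
  linarith

end Vale.Agent.N150.Edge
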