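import Mathlib
import Vale.Agent.N150.SphAnn
import Vale.Agent.N150.EndGauss
import Vale.Agent.N150.EdgeMain
import Vale.Agent.N150.A2

/-! Reduction of statements on the disorder to statements on a Haar frame with a fixed rigid
spectrum. -/

open MeasureTheory ProbabilityTheory Matrix Filter Topology
open scoped ENNReal

namespace Vale.Agent.N150.Red

open Vale.Agent.P150 Vale.Agent.P150.F Vale.Agent.N150.Edge Vale.Agent.N150.Sp

variable {n : ℕ}

/-- the entries of a matrix -/
def ent (A : Mat n) : Fin n → Fin n → ℝ := fun a b => A a b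

theorem ent_eq (A : Mat n) : ent A = A := rfl

theorem measurable_ent {α : Type*} [TopologicalSpace α] [MeasurableSpace α] [BorelSpace α]
    {f : α → Mat n} (hf : Continuous f) : Measurable fun a => ent (f a) :=
  measurable_pi_iff.2 fun i => measurable_pi_iff.2 fun j =>
    ((continuous_apply_apply i j).comp hf).measurable

/-! ### the GOE family of the model -/

/-- the coefficient matrices of `skM g + diagonal (√(2/n) g')` -/
noncomputable def famA (n : ℕ) : Pairs n ⊕ Fin n → Mat n
  | Sum.inl p => fun a b => if (a = p.1.1 ∧ b = p.1.2) ∨ (a = p.1.2 ∧ b = p.1.1) then 1 / √n else 0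
  | Sum.inr c => fun a b => if a = c ∧ b = c then √(2 / n) else 0

/-- the full GOE matrix -/
noncomputable def goeF (g : Pairs n → ℝ) (d : Vec n) : Mat n :=
  skM g + Matrix.diagonal fun a => √(2 / (n : ℝ)) * d a

theorem goeF_apply (g : Pairs n → ℝ) (d : Vec n) (a b : Fin n) :
    goeF g d a b = gsym g a b / √n + if a = b then √(2 / (n : ℝ)) * d a else 0 := by
  unfold goeF
  rw [Matrix.add_apply, Matrix.diagonal_apply]
  rfl

theorem sum_pairs_ite (f : Pairs n → ℝ) (a b : Fin n) :
    ∑ p : Pairs n, (if (a = p.1.1 ∧ b = p.1.2) ∨ (a = p.1.2 ∧ b = p.1.1) then f p else 0) =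
      gsym f a b := by
  unfold gsym
  split_ifs with h1 h2
  · rw [Finset.sum_eq_single (⟨(a, b), h1⟩ : Pairs n)]
    · simp
    · intro p _ hp
      rw [if_neg]
      rintro (⟨rfl, rfl⟩ | ⟨rfl, rfl⟩)
      · exact hp rfl
      · exact lt_asymm h1 p.2
    · simp
  · rw [Finset.sum_eq_single (⟨(b, a), h2⟩ : Pairs n)]
    · simp
    · intro p _ hp
      rw [if_neg]
      rintro (⟨rfl, rfl⟩ | ⟨rfl, rfl⟩)
      · exact lt_asymm h2 p.2
      · exact hp rfl
    · simp
  · refine Finset.sum_eq_zero fun p _ => if_neg ?_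
    rintro (⟨rfl, rfl⟩ | ⟨rfl, rfl⟩)
    · exact h1 p.2
    · exact h2 p.2

theorem goeM_famA (ω : Pairs n ⊕ Fin n → ℝ) :
    goeM (famA n) ω = goeF (fun p => ω (Sum.inl p)) (fun a => ω (Sum.inr a)) := by
  ext a b
  rw [Law.goeM_apply, Fintype.sum_sum_type, goeF_apply, ← sum_pairs_ite, Finset.sum_div]
  congr 1
  · refine Finset.sum_congr rfl fun p _ => ?_
    simp only [famA]
    split_ifs <;> ring
  · simp only [famA]
    by_cases hab : a = b
    · subst hab
      simp [mul_comm]
    · rw [if_neg hab]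
      refine Finset.sum_eq_zero fun c _ => ?_
      rw [if_neg, mul_zero]
      rintro ⟨rfl, rfl⟩
      exact hab rfl

theorem goeFam_famA : GoeFam (famA n) := by
  refine ⟨fun i a b => ?_, fun a b c d => ?_⟩
  · rcases i with p | c
    · simp only [famA]
      refine if_congr ?_ rfl rfl
      tauto
    · simp only [famA]
      refine if_congr ?_ rfl rfl
      tauto
  · have hn' : (0 : ℝ) < n := by exact_mod_cast a.pos
    have s1 : 1 / √(n : ℝ) * (1 / √(n : ℝ)) = 1 / n := by
      rw [div_mul_div_comm, Real.mul_self_sqrt hn'.le, one_mul]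
    have s2 : √(2 / (n : ℝ)) * √(2 / (n : ℝ)) = 2 / n := Real.mul_self_sqrt (by positivity)
    rw [Fintype.sum_sum_type]
    have h1 : ∑ p : Pairs n, famA n (Sum.inl p) a b * famA n (Sum.inl p) c d =
        gsym (fun p : Pairs n => if (c = p.1.1 ∧ d = p.1.2) ∨ (c = p.1.2 ∧ d = p.1.1)
          then 1 / (n : ℝ) else 0) a b := by
      rw [← sum_pairs_ite]
      refine Finset.sum_congr rfl fun p _ => ?_
      simp only [famA]
      split_ifs <;> simp only [s1, mul_zero, zero_mul]
    have h2 : ∑ e : Fin n, famA n (Sum.inr e) a b * famA n (Sum.inr e) c d =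
        if a = b ∧ c = a ∧ d = a then 2 / (n : ℝ) else 0 := by
      rw [Finset.sum_eq_single a]
      · simp only [famA]
        by_cases h : a = b
        · subst h
          by_cases h' : c = a ∧ d = a
          · simp only [h', and_self, if_true]
            exact s2
          · simp [h']
        · have h' : ¬ b = a := fun e => h e.symm
          simp [h, h']
      · intro e _ he
        simp only [famA]
        rw [if_neg (fun h => he h.1.symm), zero_mul]
      · simp
    rw [h1, h2]
    unfold gsym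
    rcases lt_trichotomy a b with h | h | h
    · have k1 := h.ne
      rw [dif_pos h, if_neg (fun e => k1 e.1), add_zero]
      by_cases e1 : a = c ∧ b = d
      · obtain ⟨rfl, rfl⟩ := e1
        simp [k1]
      · by_cases e2 : a = d ∧ b = c
        · obtain ⟨rfl, rfl⟩ := e2
          simp [k1]
        · rw [if_neg e1, if_neg e2]
          simp only
          rw [if_neg]
          · simp
          · rintro (⟨rfl, rfl⟩ | ⟨rfl, rfl⟩)
            · exact e1 ⟨rfl, rfl⟩
            · exact e2 ⟨rfl, rfl⟩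
    · subst h
      rw [dif_neg (lt_irrefl a), dif_neg (lt_irrefl a), zero_add]
      by_cases e1 : c = a ∧ d = a
      · obtain ⟨rfl, rfl⟩ := e1
        simp only [and_self, if_true]
        ring
      · rw [if_neg (fun e => e1 e.2), if_neg (fun e => e1 ⟨e.1.symm, e.2.symm⟩),
          if_neg (fun e => e1 ⟨e.2.symm, e.1.symm⟩)]
        simp
    · have k1 := h.ne'
      rw [dif_neg (lt_asymm h), dif_pos h, if_neg (fun e => k1 e.1), add_zero]
      by_cases e1 : a = c ∧ b = d
      · obtain ⟨rfl, rfl⟩ := e1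
        simp [k1]
      · by_cases e2 : a = d ∧ b = c
        · obtain ⟨rfl, rfl⟩ := e2
          simp [k1]
        · rw [if_neg e1, if_neg e2]
          simp only
          rw [if_neg]
          · simp
          · rintro (⟨rfl, rfl⟩ | ⟨rfl, rfl⟩)
            · exact e2 ⟨rfl, rfl⟩
            · exact e1 ⟨rfl, rfl⟩

theorem mp_split : MeasurePreserving
    (fun ω : Pairs n ⊕ Fin n → ℝ => ((fun p => ω (Sum.inl p)), (fun a => ω (Sum.inr a))))
    (gpi (Pairs n ⊕ Fin n)) ((disorder n).prod (gpi (Fin n))) :=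
  measurePreserving_sumPiEquivProdPi (X := fun _ : Pairs n ⊕ Fin n => ℝ)
    (fun _ => gaussianReal 0 1)

theorem continuous_goeF :
    Continuous fun w : (Pairs n → ℝ) × Vec n => goeF w.1 w.2 := by
  refine continuous_matrix fun a b => ?_
  simp only [goeF_apply]
  unfold gsym
  split_ifs <;> fun_prop

/-- integrals over the model are integrals over the family -/
theorem lint_goeF {Φ : (Fin n → Fin n → ℝ) → ℝ≥0∞} (hΦ : Measurable Φ) :
    ∫⁻ w, Φ (ent (goeF w.1 w.2)) ∂((disorder n).prod (gpi (Fin n))) =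
      ∫⁻ ω, Φ (ent (goeM (famA n) ω)) ∂(gpi (Pairs n ⊕ Fin n)) := by
  rw [← mp_split.lintegral_comp (f := fun w : (Pairs n → ℝ) × Vec n => Φ (ent (goeF w.1 w.2)))
    (hΦ.comp (measurable_ent continuous_goeF))]
  simp only [goeM_famA]

/-! ### the reduction -/

theorem continuous_JO (lam : Vec n) :
    Continuous fun O : OG n => JO lam O :=
  (continuous_val.matrix_transpose.matrix_mul continuous_const).matrix_mul continuous_val

theorem measurable_JO (lam : Vec n) :
    Measurable fun O : OG n => ent (JO lam O) := measurable_ent (continuous_JO lam)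

theorem lint_conj_eq {J V : Mat n} {lam : Vec n} (h : IsEig J V lam)
    {Φ : (Fin n → Fin n → ℝ) → ℝ≥0∞} (hΦ : Measurable Φ) :
    ∫⁻ O, Φ (ent (O.1ᵀ * J * O.1)) ∂(haar n) = ∫⁻ O, Φ (ent (JO lam O)) ∂(haar n) := by
  rw [← invOn_haar.lint_left (g := OG.mk' V (mul_eq_one_comm.1 h.1)) (Subgroup.mem_top _)
    (f := fun O : OG n => Φ (ent (JO lam O))) (hΦ.comp (measurable_JO lam))]
  refine lintegral_congr fun O => ?_
  congr 2
  unfold JO
  rw [OG.coe_mul, OG.mk'_val, Matrix.transpose_mul, h.2]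
  simp only [Matrix.mul_assoc]

variable {ι : Type} [Fintype ι] {A : ι → Mat n}

/-- averaging the GOE over the group -/
theorem lint_goe_avg (hA : GoeFam A) {Φ : (Fin n → Fin n → ℝ) → ℝ≥0∞} (hΦ : Measurable Φ) :
    ∫⁻ ω, Φ (ent (goeM A ω)) ∂(gpi ι) =
      ∫⁻ ω, ∫⁻ O, Φ (ent (O.1ᵀ * goeM A ω * O.1)) ∂(haar n) ∂(gpi ι) := by
  have hm : Measurable fun v : Fin n × Fin n → ℝ => Φ (ent (Law.toM v)) :=
    hΦ.comp (measurable_pi_iff.2 fun a => measurable_pi_iff.2 fun b => measurable_pi_apply (a, b))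
  have h1 : ∀ O : OG n, ∫⁻ ω, Φ (ent (O.1ᵀ * goeM A ω * O.1)) ∂(gpi ι) =
      ∫⁻ ω, Φ (ent (goeM A ω)) ∂(gpi ι) := fun O => by
    have := Law.lintegral_goe_conj hA (O := O.1ᵀ)
      (by rw [Matrix.transpose_transpose]; exact OG.mul_transpose O) (G := fun J => Φ (ent J)) hm
    rwa [Matrix.transpose_transpose] at this
  have hc : Continuous fun p : (ι → ℝ) × OG n =>
      p.2.1ᵀ * goeM A p.1 * p.2.1 :=
    ((continuous_val.comp continuous_snd).matrix_transpose.matrix_mul
      ((Law.continuous_goeM A).comp continuous_fst)).matrix_mul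
        (continuous_val.comp continuous_snd)
  rw [lintegral_lintegral_swap (f := fun (ω : ι → ℝ) (O : OG n) => Φ (ent (O.1ᵀ * goeM A ω * O.1)))
    (hΦ.comp (measurable_ent hc)).aemeasurable]
  simp [h1]

/-- **reduction lemma**, integral form -/
theorem lint_goe_le (hA : GoeFam A) {Φ : (Fin n → Fin n → ℝ) → ℝ≥0∞} (hΦ : Measurable Φ)
    {M c : ℝ≥0∞} (hM : ∀ J, Φ J ≤ M) (S : Vec n → Prop)
    (h : ∀ lam, S lam → ∫⁻ O, Φ (ent (JO lam O)) ∂(haar n) ≤ c) :
    ∫⁻ ω, Φ (ent (goeM A ω)) ∂(gpi ι) ≤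
      c + M * gpi ι {ω | ¬ ∀ O lam, IsEig (goeM A ω) O lam → S lam} := by
  set B := {ω | ¬ ∀ O lam, IsEig (goeM A ω) O lam → S lam} with hB
  have hBm := measurableSet_toMeasurable (gpi ι) B
  rw [lint_goe_avg hA hΦ, ← measure_toMeasurable B, ← lintegral_indicator_one hBm,
    ← lintegral_const_mul _ (measurable_one.indicator hBm)]
  have e : c = ∫⁻ _ω, c ∂(gpi ι) := by simp
  rw [e, ← lintegral_add_left measurable_const]
  refine lintegral_mono fun ω => ?_
  by_cases hω : ω ∈ toMeasurable (gpi ι) B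
  · rw [Set.indicator_of_mem hω]
    simp only [Pi.one_apply, mul_one]
    refine le_trans ?_ le_add_self
    calc _ ≤ ∫⁻ _O, M ∂(haar n) := lintegral_mono fun O => hM _
      _ = M := by simp
  · have h1 : ω ∉ B := fun h2 => hω (subset_toMeasurable _ _ h2)
    rw [hB, Set.mem_ofPred_eq, not_not] at h1
    obtain ⟨V, lam, hV⟩ := exists_isEig (M := goeM A ω) (by
      ext a b
      exact Law.goeM_symm hA ω b a)
    simp only
    rw [lint_conj_eq hV hΦ]
    exact le_trans (h lam (h1 V lam hV)) le_self_add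

/-- **reduction lemma**, set form -/
theorem goe_le (hA : GoeFam A) {Bad : Set (Fin n → Fin n → ℝ)} (hB : MeasurableSet Bad)
    {c : ℝ≥0∞} (S : Vec n → Prop) (h : ∀ lam, S lam → haar n {O | ent (JO lam O) ∈ Bad} ≤ c) :
    gpi ι {ω | ent (goeM A ω) ∈ Bad} ≤
      c + gpi ι {ω | ¬ ∀ O lam, IsEig (goeM A ω) O lam → S lam} := by
  have h1 := lint_goe_le hA (Φ := Bad.indicator 1) (measurable_one.indicator hB) (M := 1) (c := c)
    (fun J => Set.indicator_le_self' (fun _ _ => zero_le_one) J) S (fun lam hl => by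
      have := lintegral_indicator_one (μ := haar n) (measurable_JO lam hB)
      refine le_trans (le_of_eq ?_) (h lam hl)
      exact this)
  rw [one_mul] at h1
  refine le_trans (le_of_eq ?_) h1
  have hm : Measurable fun ω : ι → ℝ => ent (goeM A ω) := measurable_ent (Law.continuous_goeM A)
  exact (lintegral_indicator_one (hm hB)).symm

/-- the model with zero diagonal, for events which pass to the full matrix -/
theorem disorder_le {Bad : Set (Fin n → Fin n → ℝ)} (hB : MeasurableSet Bad)
    {Bad0 : Set (Pairs n → ℝ)} (h0 : ∀ g ∈ Bad0, ∀ d, ent (goeF g d) ∈ Bad) :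
    disorder n Bad0 ≤ gpi (Pairs n ⊕ Fin n) {ω | ent (goeM (famA n) ω) ∈ Bad} := by
  have : IsProbabilityMeasure (disorder n) := by unfold disorder; infer_instance
  have hm : Measurable fun ω : Pairs n ⊕ Fin n → ℝ => ent (goeM (famA n) ω) :=
    measurable_ent (Law.continuous_goeM _)
  have h1 := lint_goeF (Φ := Bad.indicator 1) (measurable_one.indicator hB)
  have h2 : ∫⁻ ω, Bad.indicator 1 (ent (goeM (famA n) ω)) ∂(gpi (Pairs n ⊕ Fin n)) =
      gpi (Pairs n ⊕ Fin n) {ω | ent (goeM (famA n) ω) ∈ Bad} := lintegral_indicator_one (hm hB)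
  have h3 : ∫⁻ w, Bad.indicator 1 (ent (goeF w.1 w.2)) ∂((disorder n).prod (gpi (Fin n))) =
      ((disorder n).prod (gpi (Fin n))) {w | ent (goeF w.1 w.2) ∈ Bad} :=
    lintegral_indicator_one (measurable_ent continuous_goeF hB)
  rw [← h2, ← h1, h3]
  calc disorder n Bad0 = ((disorder n).prod (gpi (Fin n))) (Bad0 ×ˢ Set.univ) := by
        rw [Measure.prod_prod, measure_univ, mul_one]
    _ ≤ _ := measure_mono fun w hw => h0 w.1 hw.1 w.2

/-- rigidity holds with probability tending to one at every diverging scale -/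
theorem rigid_tendsto {w : ℕ → ℝ} (hw : Tendsto w atTop atTop)
    (hw1 : ∀ᶠ n : ℕ in atTop, w n * (n : ℝ) ^ (-(2 / 3 : ℝ)) ≤ 1) :
    Tendsto (fun n => gpi (Pairs n ⊕ Fin n) {ω | ¬ RigidM (w n) (goeM (famA n) ω)}) atTop
      (𝓝 0) := by
  obtain ⟨C, -, hC⟩ := rigid_stmt
  have h1 : Tendsto (fun n => ENNReal.ofReal (C * w n ^ (-(1 / 4 : ℝ)))) atTop (𝓝 0) := by
    have h2 := ((tendsto_rpow_neg_atTop (y := 1 / 4) (by norm_num)).comp hw).const_mul C
    rw [mul_zero] at h2
    simpa using ENNReal.tendsto_ofReal h2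
  refine tendsto_of_tendsto_of_tendsto_of_le_of_le' tendsto_const_nhds h1
    (Eventually.of_forall fun n => zero_le) ?_
  filter_upwards [hw.eventually_ge_atTop 1, hw1, eventually_gt_atTop 0] with n a1 a2 a3
  exact hC (w n) n a1 a2 a3 _ _ goeFam_famA

/-- **reduction theorem**: `T n` is a measurable set of matrices; if for every rigid spectrum the
Haar probability of leaving `T n` is small, then `T n` is typical for the GOE, and every event of
the disorder which follows from it holds with high probability. -/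
theorem whp_of_haar {w : ℕ → ℝ} (hw : Tendsto w atTop atTop)
    (hw1 : ∀ᶠ n : ℕ in atTop, w n * (n : ℝ) ^ (-(2 / 3 : ℝ)) ≤ 1)
    {T : ∀ n : ℕ, Set (Fin n → Fin n → ℝ)} (hT : ∀ n, MeasurableSet (T n))
    {E : ∀ n : ℕ, Set (Pairs n → ℝ)} (hE : ∀ n g d, ent (goeF g d) ∈ T n → g ∈ E n)
    (h : ∀ δ : ℝ, 0 < δ → ∀ᶠ n : ℕ in atTop, ∀ lam : Vec n, Rigid (w n) lam →
      (haar n).real {O | ent (JO lam O) ∉ T n} ≤ δ) : WHP E := by
  unfold WHP
  rw [ENNReal.tendsto_nhds_zero]
  intro ε hε
  obtain ⟨δ, hδ0, hδ⟩ : ∃ δ : ℝ, 0 < δ ∧ ENNReal.ofReal δ + ENNReal.ofReal δ ≤ ε := by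
    by_cases ht : ε = ⊤
    · exact ⟨1, one_pos, ht ▸ le_top⟩
    · refine ⟨ε.toReal / 2, half_pos (ENNReal.toReal_pos hε.ne' ht), le_of_eq ?_⟩
      rw [← ENNReal.ofReal_add (by positivity) (by positivity), add_halves,
        ENNReal.ofReal_toReal ht]
  have h1 := (ENNReal.tendsto_nhds_zero.1 (rigid_tendsto hw hw1)) (ENNReal.ofReal δ)
    (ENNReal.ofReal_pos.2 hδ0)
  filter_upwards [h δ hδ0, h1] with n a1 a2
  have h2 := disorder_le (hT n).compl (Bad0 := (E n)ᶜ) fun g hg d hd => hg (hE n g d hd)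
  have h3 := goe_le (goeFam_famA (n := n)) (hT n).compl (c := ENNReal.ofReal δ) (Rigid (w n))
    fun lam hl => (ENNReal.le_ofReal_iff_toReal_le (measure_ne_top _ _) hδ0.le).2 (a1 lam hl)
  exact h2.trans (h3.trans ((add_le_add le_rfl a2).trans hδ))

/-! ### the entropy inequality is a closed condition which ignores the diagonal -/

theorem energy_congr {J J' : Fin n → Fin n → ℝ} (h : ∀ i j, i ≠ j → J i j = J' i j) (b : Vec n) :
    energy J b = energy J' b := by
  funext x
  unfold energy
  congr 1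
  refine Finset.sum_congr rfl fun i _ => Finset.sum_congr rfl fun j _ => ?_
  split_ifs with hij
  · rw [h i j hij.ne]
  · rfl

theorem ex_congr {J J' : Fin n → Fin n → ℝ} (h : ∀ i j, i ≠ j → J i j = J' i j) (b : Vec n) :
    ex J b = ex J' b := by
  funext f
  unfold ex gibbs
  rw [energy_congr h]

theorem gen_congr {J J' : Fin n → Fin n → ℝ} (h : ∀ i j, i ≠ j → J i j = J' i j) (b : Vec n) :
    gen J b = gen J' b := by
  have h1 : locField J b = locField J' b := by
    funext x i
    unfold locField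
    congr 1
    refine Finset.sum_congr rfl fun j _ => ?_
    split_ifs with hij
    · rfl
    · rw [h i j (Ne.symm hij)]
  funext f x
  unfold gen resample
  rw [h1]

theorem Lev_congr {J J' : Fin n → Fin n → ℝ} (h : ∀ i j, i ≠ j → J i j = J' i j) (b : Vec n)
    (K E A : ℝ) : Lev J b K E A ↔ Lev J' b K E A := by
  unfold Lev dir
  rw [ex_congr h, gen_congr h]

theorem goeF_off (g : Pairs n → ℝ) (d : Vec n) (i j : Fin n) (h : i ≠ j) :
    goeF g d i j = skJ 1 g i j := by
  rw [goeF_apply, if_neg h]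
  unfold skJ
  ring

theorem continuous_gibbs (b : Vec n) (x : Cfg n) :
    Continuous fun J : Fin n → Fin n → ℝ => gibbs J b x := by
  have h : ∀ y, Continuous fun J : Fin n → Fin n → ℝ => Real.exp (energy J b y) := by
    intro y
    unfold energy
    refine Real.continuous_exp.comp (Continuous.add (continuous_finsetSum _ fun i _ =>
      continuous_finsetSum _ fun j _ => ?_) continuous_const)
    split_ifs <;> fun_prop
  exact (h x).div (continuous_finsetSum _ fun y _ => h y) fun J =>
    (Finset.sum_pos (fun _ _ => Real.exp_pos _) Finset.univ_nonempty).ne'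

theorem continuous_ex {α : Type*} [TopologicalSpace α] {J : α → Fin n → Fin n → ℝ}
    (hJ : Continuous J) (b : Vec n) {f : α → Cfg n → ℝ} (hf : ∀ x, Continuous fun a => f a x) :
    Continuous fun a => ex (J a) b (f a) :=
  continuous_finsetSum _ fun x _ => ((continuous_gibbs b x).comp hJ).mul (hf x)

theorem continuous_gen {α : Type*} [TopologicalSpace α] {J : α → Fin n → Fin n → ℝ}
    (hJ : Continuous J) (b : Vec n) {f : α → Cfg n → ℝ} (hf : ∀ x, Continuous fun a => f a x)
    (x : Cfg n) : Continuous fun a => gen (J a) b (f a) x := by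
  have h1 : ∀ i, Continuous fun a => locField (J a) b x i := by
    intro i
    unfold locField
    refine continuous_const.add (continuous_finsetSum _ fun j _ => ?_)
    split_ifs
    · exact continuous_const
    · exact ((continuous_apply j).comp ((continuous_apply i).comp hJ)).mul continuous_const
  unfold gen resample
  refine continuous_finsetSum _ fun i _ => Continuous.sub (continuous_finsetSum _ fun s _ =>
    Continuous.mul (Continuous.div ?_ ?_ fun a => by positivity) (hf _)) (hf x)
  · exact Real.continuous_exp.comp (continuous_const.mul (h1 i))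
  · exact continuous_const.mul (Real.continuous_cosh.comp (h1 i))

/-- the two sides of the entropy inequality as a function of the matrix and of `log f` -/
theorem isClosed_ineq (b : Vec n) (E A : ℝ) :
    IsClosed {p : (Fin n → Fin n → ℝ) × (Cfg n → ℝ) |
      ex p.1 b (fun x => Real.exp (p.2 x) * p.2 x) ≤
        E + A * dir p.1 b (fun x => Real.exp (p.2 x)) p.2} := by
  have c1 : ∀ x : Cfg n, Continuous fun p : (Fin n → Fin n → ℝ) × (Cfg n → ℝ) => p.2 x :=
    fun x => (continuous_apply x).comp continuous_snd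
  refine isClosed_le (continuous_ex continuous_fst b fun x =>
    (Real.continuous_exp.comp (c1 x)).mul (c1 x)) (continuous_const.add (continuous_const.mul ?_))
  unfold dir
  exact (continuous_ex continuous_fst b fun x => (Real.continuous_exp.comp (c1 x)).mul
    (continuous_gen continuous_fst b c1 x)).neg

theorem ex_pos (J : Fin n → Fin n → ℝ) (b : Vec n) {f : Cfg n → ℝ} (hf : ∀ x, 0 < f x) :
    0 < ex J b f :=
  Finset.sum_pos (fun x _ => mul_pos (gibbs_pos J b x) (hf x)) Finset.univ_nonempty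

theorem isClosed_Lev (b : Vec n) (K E A : ℝ) :
    IsClosed {J : Fin n → Fin n → ℝ | Lev J b K E A} := by
  refine isClosed_iff_clusterPt.2 fun J hJ f hf0 hfK hf1 => ?_
  set L : Set (Fin n → Fin n → ℝ) := {J | Lev J b K E A} with hL
  have hne : (𝓝 J ⊓ 𝓟 L).NeBot := hJ
  have hcl := isClosed_ineq b E A
  have key : ∀ h : Cfg n → ℝ, (∀ x, 0 < h x) → ex J b h = 1 →
      (∀ᶠ J' in 𝓝 J, ∀ x, h x / ex J' b h ≤ Real.exp K) →
      (J, fun x => Real.log (h x)) ∈ {p : (Fin n → Fin n → ℝ) × (Cfg n → ℝ) |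
        ex p.1 b (fun x => Real.exp (p.2 x) * p.2 x) ≤
          E + A * dir p.1 b (fun x => Real.exp (p.2 x)) p.2} := by
    intro h h0 h1 h2
    have c0 : Continuous fun J' : Fin n → Fin n → ℝ => ex J' b h :=
      continuous_ex continuous_id b fun x => continuous_const
    have c1 : Continuous fun J' : Fin n → Fin n → ℝ =>
        (J', fun x => Real.log (h x / ex J' b h)) :=
      continuous_id.prodMk (continuous_pi fun x => (continuous_const.div c0 fun J' =>
        (ex_pos J' b h0).ne').log fun J' => (div_pos (h0 x) (ex_pos J' b h0)).ne')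
    have t1 := (c1.tendsto J).mono_left (inf_le_left (b := 𝓟 L))
    simp only [h1, div_one] at t1
    refine hcl.mem_of_tendsto t1 ?_
    filter_upwards [mem_inf_of_left h2, mem_inf_of_right (mem_principal_self L)] with J' a1 a2
    have p0 := ex_pos J' b h0
    have p1 : ∀ x, 0 < h x / ex J' b h := fun x => div_pos (h0 x) p0
    have a3 := a2 (fun x => h x / ex J' b h) p1 a1 (by
      simp only [div_eq_inv_mul]
      rw [Semi.ex_smul, inv_mul_cancel₀ p0.ne'])
    simpa only [Set.mem_ofPred_eq, Real.exp_log (p1 _)] using a3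
  have fin : (J, fun x => Real.log (f x)) ∈ {p : (Fin n → Fin n → ℝ) × (Cfg n → ℝ) |
      ex p.1 b (fun x => Real.exp (p.2 x) * p.2 x) ≤
        E + A * dir p.1 b (fun x => Real.exp (p.2 x)) p.2} := by
    have hK : 1 ≤ Real.exp K := by
      have := Semi.ex_mono (J := J) b hfK
      rwa [hf1, Semi.ex_const] at this
    set h : ℝ → Cfg n → ℝ := fun δ x => (1 - δ) * f x + δ with hh
    have h0 : ∀ δ ∈ Set.Ioo (0 : ℝ) 1, ∀ x, 0 < h δ x := fun δ hδ x =>
      add_pos (mul_pos (by linarith [hδ.2]) (hf0 x)) hδ.1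
    have h1 : ∀ δ, ex J b (h δ) = 1 := fun δ => by
      rw [hh]
      simp only
      rw [Semi.ex_add, Semi.ex_smul, Semi.ex_const, hf1]
      ring
    rcases hK.eq_or_lt with hK | hK
    · have hone : ∀ x, f x = 1 := by
        intro x
        by_contra hx
        have k1 : ∑ y, gibbs J b y * f y < ∑ y, gibbs J b y := by
          refine Finset.sum_lt_sum (fun y _ => mul_le_of_le_one_right (gibbs_pos J b y).le
            ((hfK y).trans hK.ge)) ⟨x, Finset.mem_univ x, ?_⟩
          exact mul_lt_of_lt_one_right (gibbs_pos J b x)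
            (lt_of_le_of_ne ((hfK x).trans hK.ge) hx)
        rw [gibbs_sum] at k1
        exact k1.ne hf1
      refine key f hf0 hf1 (Eventually.of_forall fun J' x => ?_)
      rw [show f = fun _ => 1 from funext hone, Semi.ex_const, div_one]
      exact hK.le
    · have t2 : Tendsto (fun δ : ℝ => (J, fun x => Real.log (h δ x))) (𝓝[>] 0)
          (𝓝 (J, fun x => Real.log (f x))) := by
        refine Tendsto.mono_left ?_ nhdsWithin_le_nhds
        refine tendsto_const_nhds.prodMk_nhds (tendsto_pi_nhds.2 fun x => ?_)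
        have c2 : Continuous fun δ : ℝ => h δ x := by rw [hh]; fun_prop
        have c3 := c2.tendsto 0
        have e : h 0 x = f x := by simp [hh]
        rw [e] at c3
        exact c3.log (hf0 x).ne'
      refine hcl.mem_of_tendsto t2 ?_
      filter_upwards [Ioo_mem_nhdsGT (show (0 : ℝ) < 1 by norm_num)] with δ hδ
      refine key (h δ) (h0 δ hδ) (h1 δ) ?_
      rw [eventually_all]
      intro x
      have c0 : Continuous fun J' : Fin n → Fin n → ℝ => h δ x / ex J' b (h δ) :=
        continuous_const.div (continuous_ex continuous_id b fun x => continuous_const)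
          fun J' => (ex_pos J' b (h0 δ hδ)).ne'
      have k2 : h δ x / ex J b (h δ) < Real.exp K := by
        rw [h1, div_one, hh]
        simp only
        nlinarith [hfK x, hδ.1, hδ.2]
      exact ((c0.tendsto J).eventually (gt_mem_nhds k2)).mono fun J' hJ' => hJ'.le
  simpa only [Set.mem_ofPred_eq, Real.exp_log (hf0 _)] using fin

/-- **(LEV) from the Haar model** -/
theorem levW_of_haar (h : ∀ ε : ℝ, 0 < ε → ∃ a : ℝ, ∃ w : ℕ → ℝ, Tendsto w atTop atTop ∧
    (∀ᶠ n : ℕ in atTop, w n * (n : ℝ) ^ (-(2 / 3 : ℝ)) ≤ 1) ∧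
    ∀ δ : ℝ, 0 < δ → ∀ᶠ n : ℕ in atTop, ∀ lam : Vec n, Rigid (w n) lam →
      (haar n).real {O | ¬ ∀ K, a * Real.log n ≤ K →
        Lev (JO lam O) (fun _ => 0) K (K / 8) ((n : ℝ) ^ (2 / 3 + ε))} ≤ δ) : LevW := by
  intro ε hε
  obtain ⟨a, w, h1, h2, h3⟩ := h ε hε
  refine ⟨a, whp_of_haar h1 h2 (T := fun n => {J | ∀ K, a * Real.log n ≤ K →
    Lev J (fun _ => 0) K (K / 8) ((n : ℝ) ^ (2 / 3 + ε))}) (fun n => ?_) ?_ h3⟩
  · refine IsClosed.measurableSet ?_
    simp only [Set.ofPred_forall]
    exact isClosed_iInter fun K => isClosed_iInter fun _ => isClosed_Lev _ _ _ _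
  · intro n g d hd K hK
    exact (Lev_congr (goeF_off g d) _ _ _ _).1 (hd K hK)

/-- **(LAST) from the Haar model** -/
theorem lastW_of_haar (h : ∀ ε : ℝ, 0 < ε → ∀ a : ℝ, ∃ w : ℕ → ℝ, Tendsto w atTop atTop ∧
    (∀ᶠ n : ℕ in atTop, w n * (n : ℝ) ^ (-(2 / 3 : ℝ)) ≤ 1) ∧
    ∀ δ : ℝ, 0 < δ → ∀ᶠ n : ℕ in atTop, ∀ lam : Vec n, Rigid (w n) lam →
      (haar n).real {O | ¬ Lev (JO lam O) (fun _ => 0) (a * Real.log n) (1 / 100)
        ((n : ℝ) ^ (2 / 3 + ε))} ≤ δ) : LastW := by
  intro ε hε a
  obtain ⟨w, h1, h2, h3⟩ := h ε hε a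
  refine whp_of_haar h1 h2 (T := fun n => {J | Lev J (fun _ => 0) (a * Real.log n) (1 / 100)
    ((n : ℝ) ^ (2 / 3 + ε))}) (fun n => (isClosed_Lev _ _ _ _).measurableSet) ?_ h3
  intro n g d hd
  exact (Lev_congr (goeF_off g d) _ _ _ _).1 hd

end Vale.Agent.N150.Red
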