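import Mathlib
import Vale.Agent.N150.EndLowF
import Vale.Agent.N150.Red

/-! The law comparison of the endgame (`LawStmt`). -/

open MeasureTheory ProbabilityTheory Matrix Real Filter Topology
open scoped ENNReal

namespace Vale.Agent.N150.Law

open Vale.Agent.P150 Vale.Agent.P150.F Vale.Agent.N150.Edge Vale.Agent.N150.End

variable {n : ℕ}

theorem markov_sum {ι₁ ι₂ : Type} [Fintype ι₁] [Fintype ι₂] {S : Set (ι₁ ⊕ ι₂ → ℝ)}
    (hS : MeasurableSet S) {δ : ℝ} (hδ : 0 < δ) :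
    (gpi ι₁).real {g | ¬ (gpi ι₂).real {ω | Sum.elim g ω ∈ S} ≤ δ} ≤ (gpi (ι₁ ⊕ ι₂)).real S / δ := by
  have hp := measurePreserving_sumPiEquivProdPi_symm (X := fun _ : ι₁ ⊕ ι₂ => ℝ)
    (fun _ => gaussianReal 0 1)
  have hT := hp.measurable hS
  have e1 : gpi (ι₁ ⊕ ι₂) S = ∫⁻ g, gpi ι₂ {ω | Sum.elim g ω ∈ S} ∂gpi ι₁ := by
    have := hp.measure_preimage hS.nullMeasurableSet
    unfold gpi
    rw [← this, Measure.prod_apply hT]
    refine lintegral_congr fun g => ?_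
    congr 1
  have hm : Measurable fun g : ι₁ → ℝ => gpi ι₂ {ω | Sum.elim g ω ∈ S} := by
    have h1 : Measurable fun p : (ι₁ → ℝ) × (ι₂ → ℝ) => (Sum.elim p.1 p.2 : ι₁ ⊕ ι₂ → ℝ) := by
      refine measurable_pi_iff.2 fun i => ?_
      cases i with
      | inl i => exact (measurable_pi_apply i).comp measurable_fst
      | inr i => exact (measurable_pi_apply i).comp measurable_snd
    exact measurable_measure_prodMk_left (ν := gpi ι₂) (h1 hS)
  have h2 := mul_meas_ge_le_lintegral (μ := gpi ι₁) hm (ENNReal.ofReal δ)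
  rw [← e1] at h2
  have h3 := ENNReal.toReal_mono (measure_ne_top _ _) h2
  rw [ENNReal.toReal_mul, ENNReal.toReal_ofReal hδ.le] at h3
  rw [le_div_iff₀ hδ, mul_comm]
  refine le_trans (mul_le_mul_of_nonneg_left (measureReal_mono fun g hg => ?_) hδ.le) h3
  have hg' : δ < (gpi ι₂).real {ω | Sum.elim g ω ∈ S} := not_le.1 hg
  show ENNReal.ofReal δ ≤ _
  rw [← ofReal_measureReal]
  exact ENNReal.ofReal_le_ofReal hg'.le

theorem lowF_whp {b σ ε δ : ℝ} (hb : b ^ 2 + σ ^ 2 = 1) (hε : 0 < ε) (hδ : 0 < δ) :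
    ∀ᶠ i in whpF, (gpi (Pairs i.1 ⊕ Fin i.1)).real {ω | Real.log (∑ x : Cfg i.1,
      exp (qf (b • skM i.2 + σ • goeM (Red.famA i.1) ω) (sv x) / 2))
        ≤ i.1 * (Real.log 2 + 1 / 4 - ε)} ≤ δ := by
  obtain ⟨c, hc, h⟩ := lowF hε
  refine eventually_whpF_of_real (fun n : ℕ => exp (-(c * n)) / δ) ?_ ?_
  · have := (tendsto_exp_lin hc 0).div_const δ
    simpa using this
  · filter_upwards [h] with n h
    have hm : MeasurableSet {ω | Real.log (ZL (cf (Red.famA n) b σ) ω)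
        ≤ n * (Real.log 2 + 1 / 4 - ε)} := by
      refine measurableSet_le (Measurable.log ?_) measurable_const
      unfold ZL
      fun_prop
    have h1 := (markov_sum hm hδ).trans
      (div_le_div_of_nonneg_right (h b σ hb _ _ Red.goeFam_famA) hδ.le)
    simp only [Set.mem_ofPred_eq, ZL, cf_lin] at h1
    exact h1

theorem PW_eq (S : Set (Mat n)) :
    PW n {w | goe w ∈ S} = gpi (Pairs n ⊕ Fin n) {ω | goeM (Red.famA n) ω ∈ S} := by
  have hp := measurePreserving_sumPiEquivProdPi (X := fun _ : Pairs n ⊕ Fin n => ℝ)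
    (fun _ => gaussianReal 0 1)
  have := hp.measure_preimage_equiv {w : (Pairs n → ℝ) × Vec n | goe w ∈ S}
  refine this.symm.trans ?_
  unfold gpi
  congr 1
  ext ω
  rw [Set.mem_ofPred_eq, Red.goeM_famA]
  rfl

theorem coord_tail (a : Fin n) {t : ℝ} (ht : 0 ≤ t) :
    (gpi (Fin n)).real {w | t ≤ |w a|} ≤ 2 * exp (-(t ^ 2 / 4)) := by
  have h1 := lip_lin (Pi.single a (1 : ℝ) : Vec n) zero_le_one (by simp [Pi.single_apply])
  have h2 := h1.tail_abs one_pos ht
  rw [integral_lin0] at h2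
  simpa [Pi.single_apply] using h2

theorem op_tail {δ : ℝ} (hδ : 0 < δ) : ∀ᶠ n : ℕ in atTop,
    (gpi (Pairs n ⊕ Fin n)).real {ω | ¬ OpLe (goeM (Red.famA n) ω) (21 / 10)} ≤ δ := by
  obtain ⟨a, ha, N, hN⟩ := opLe_exp (δ := 1 / 20) (by norm_num)
  have t1 := ((tendsto_exp_lin ha 0).add ((tendsto_exp_lin (c := 1 / 3200) (by norm_num) 1).const_mul
    2)).eventually (gt_mem_nhds (by simpa using hδ : (0 : ℝ) + 2 * 0 < δ))
  filter_upwards [t1, eventually_ge_atTop N, eventually_gt_atTop 0] with n t1 hn hn0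
  have hn' : (0 : ℝ) < n := by exact_mod_cast hn0
  have : IsProbabilityMeasure (disorder n) := by unfold disorder; infer_instance
  have e := PW_eq (n := n) {W | ¬ OpLe W (21 / 10)}
  simp only [Set.mem_ofPred_eq] at e
  rw [Measure.real, ← e]
  have hsub : {w : (Pairs n → ℝ) × Vec n | ¬ OpLe (goe w) (21 / 10)}
      ⊆ {g | ¬ OpLe (skM g) (2 + 1 / 20)} ×ˢ Set.univ
        ∪ Set.univ ×ˢ ⋃ a, {d : Vec n | √(n / 800) ≤ |d a|} := by
    intro w hw
    by_contra hc
    simp only [Set.mem_union, Set.mem_prod, Set.mem_ofPred_eq, Set.mem_univ, and_true, true_and,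
      Set.mem_iUnion, not_or, not_not, not_exists, not_le] at hc
    refine hw ((hc.1.add (opLe_dg_of_le (C := 1 / 20) fun a => ?_) (by norm_num)
      (by norm_num)).monoN (by norm_num) (by norm_num))
    rw [abs_mul, abs_of_nonneg (Real.sqrt_nonneg _)]
    refine (mul_le_mul_of_nonneg_left (hc.2 a).le (Real.sqrt_nonneg _)).trans (le_of_eq ?_)
    rw [← Real.sqrt_mul (by positivity), show 2 / (n : ℝ) * (n / 800) = (1 / 20) ^ 2 by
      field_simp; norm_num, Real.sqrt_sq (by norm_num)]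
  have h1 : (gpi (Fin n)).real (⋃ a, {d : Vec n | √(n / 800) ≤ |d a|})
      ≤ 2 * (n ^ 1 * exp (-(1 / 3200 * n))) := by
    refine (measureReal_iUnion_fintype_le _).trans ((Finset.sum_le_sum fun a _ =>
      coord_tail a (Real.sqrt_nonneg _)).trans (le_of_eq ?_))
    rw [Real.sq_sqrt (by positivity), Finset.sum_const, Finset.card_univ, Fintype.card_fin,
      nsmul_eq_mul, show (n : ℝ) / 800 / 4 = 1 / 3200 * n by ring]
    ring
  have : IsProbabilityMeasure (PW n) := by unfold PW; infer_instance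
  refine ((measureReal_mono hsub).trans (measureReal_union_le _ _)).trans ?_
  unfold PW
  rw [measureReal_prod_prod, measureReal_prod_prod, probReal_univ, probReal_univ, mul_one, one_mul]
  have h2 := hN n hn
  rw [pow_zero, one_mul] at t1
  linarith

theorem gM_zero (M : Mat n) (x : Cfg n) :
    gM M 0 x = exp (qf M (sv x) / 2) / ∑ x', exp (qf M (sv x') / 2) := by
  simp [gM, ip]

theorem gM_le {M W : Mat n} {σ u l : ℝ} (h0 : Real.log (∑ x, exp (qf M (sv x) / 2)) ≤ u)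
    (h1 : l ≤ Real.log (∑ x, exp (qf (M + σ • W) (sv x) / 2))) (x : Cfg n) :
    gM (M + σ • W) 0 x ≤ exp (u - l + σ ^ 2 * n / 4)
      * (gM M 0 x * exp (σ * qf W (sv x) / 2 - σ ^ 2 * n / 4)) := by
  have p0 : 0 < ∑ x, exp (qf M (sv x) / 2) :=
    Finset.sum_pos (fun _ _ => exp_pos _) Finset.univ_nonempty
  have p1 : 0 < ∑ x, exp (qf (M + σ • W) (sv x) / 2) :=
    Finset.sum_pos (fun _ _ => exp_pos _) Finset.univ_nonempty
  rw [gM_zero, gM_zero, ← exp_log p0, ← exp_log p1, ← exp_sub, ← exp_sub, ← exp_add, ← exp_add,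
    qf_add', qf_smul']
  exact exp_le_exp.2 (by linarith)

/-- the planted functional for a fixed matrix -/
noncomputable def Fw (μ : Cfg n → ℝ) (σ k c₀ : ℝ) (Ψ : Cfg n → Vec n → ℝ≥0∞) (W : Mat n) : ℝ≥0∞ :=
  ∑ x, ENNReal.ofReal (μ x) * (wG σ (sv x) W * plG σ k c₀ (sv x) (Ψ x) W)

theorem PY_le_Fw {M W Q₁ R₁ Rt : Mat n} {σ k c₀ u l : ℝ} (hσ : 0 ≤ σ) (hc : 0 ≤ c₀)
    (hk : c₀ * σ < k) (hs : ∀ i j, W i j = W j i) (hW : OpLe W c₀) (h₁ : R₁ * R₁ᵀ = Q₁)
    (hR : Rt * Rtᵀ = Q₁ + Q2 σ k W) (h0 : Real.log (∑ x, exp (qf M (sv x) / 2)) ≤ u)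
    (h1 : l ≤ Real.log (∑ x, exp (qf (M + σ • W) (sv x) / 2))) {B : Set (Vec n)}
    (hB : MeasurableSet B) :
    ENNReal.ofReal (PY (gM (M + σ • W) 0) Rt 1 B) ≤ ENNReal.ofReal (exp (u - l + σ ^ 2 * n / 4))
      * Fw (gM M 0) σ k c₀ (fun x => cv Q₁ R₁ (sv x) B) W := by
  have hl := Q2_lower (k := k) hσ hc hW
  obtain ⟨R₂, h₂⟩ := exists_root (Q2_symm σ k hs) fun v =>
    (mul_nonneg (sub_pos.2 hk).le (sqN_nonneg v)).trans (hl v)
  rw [ofReal_PY (gM_isProb _ _).1, Fw, Finset.mul_sum]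
  refine Finset.sum_le_sum fun x _ => ?_
  rw [obs_conv zero_le_one (by rw [one_smul, hR]) h₁ h₂ x hB,
    ← pl_eq h₂ (det_ne_zero_of_pos (sub_pos.2 hk) hl) _ (measurable_cv _ _ _ hB), plG, if_pos hW,
    wG, ← mul_assoc, ← mul_assoc, ← ENNReal.ofReal_mul (exp_pos _).le,
    ← ENNReal.ofReal_mul (mul_nonneg (exp_pos _).le (gM_pos _ _ _).le), mul_assoc]
  exact mul_le_mul_left (ENNReal.ofReal_le_ofReal (gM_le h0 h1 x)) _

theorem lawStmt : LawStmt := by
  intro b σ s hb hσ hσ1 hbσ hs1 hs2 c hc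
  have hb1 : b < 1 := by nlinarith
  have hs0 : 0 < s := by linarith
  obtain ⟨η₀, hη₀, hD⟩ := diagStmt s c hs0.le (by linarith) hc
  set k := 3 / 2 * s - σ ^ 2 with hk
  have hkσ : 21 / 10 * σ < k := by rw [hk]; nlinarith
  obtain ⟨c₁, hc₁, hP⟩ := PL_le (ε := c / 8) hσ.le (by norm_num) hkσ (by positivity)
  set c₂ := min (c / 8) c₁ with hc₂
  have hc₂0 : 0 < c₂ := lt_min (by positivity) hc₁
  refine ⟨min η₀ (1 / 4), lt_min hη₀ (by norm_num), c₂ / 4, by positivity, fun δ hδ => ?_⟩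
  have t1 := ((tendsto_exp_lin (half_pos hc₂0) 0).const_mul 2).eventually
    (gt_mem_nhds (by simpa using hδ : 2 * (0 : ℝ) < δ / 3))
  filter_upwards [eventually_whpF_nat (hD.and (hP.and (t1.and (op_tail (δ := δ / 3) (by positivity))))),
    G0_op (1 / 4) (by norm_num), g4 b hb.le hb1 (c₂ / 8) (by positivity),
    lowF_whp hbσ (ε := c₂ / 8) (δ := δ / 3) (by positivity) (by positivity)]
    with ⟨n, g⟩ ⟨hD, hP, t1, hop⟩ hJ hZ0 hZ1 D S0 B hDη hS0 hB hPY
  simp only at *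
  set J' := skM g + Matrix.diagonal D with hJ'
  have hsym : ∀ i j, J' i j = J' j i := fun i j => by
    rw [hJ', Matrix.add_apply, Matrix.add_apply, skM_symm g i j]
    congr 1
    by_cases h : i = j
    · rw [h]
    · rw [Matrix.diagonal_apply_ne _ h, Matrix.diagonal_apply_ne _ (Ne.symm h)]
  have hJ1 : OpLe J' (5 / 2) := (hJ.add (opLe_dg_of_le fun a => (hDη a).trans (min_le_right _ _))
    (by norm_num) (by norm_num)).monoN (by norm_num) (by norm_num)
  have hroot : ∀ t a : ℝ, 0 ≤ t → 5 / 2 ≤ a → ∃ R : Mat n, R * Rᵀ = t • (J' + a • (1 : Mat n)) := by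
    intro t a ht ha
    refine exists_root (fun i j => ?_) fun v => ?_
    · simp only [Matrix.smul_apply, Matrix.add_apply, Matrix.one_apply, hsym i j, eq_comm]
    · rw [qf_smul', qf_add', qf_smul', qf_one']
      have := mul_le_mul_of_nonneg_right ha (sqN_nonneg v)
      exact mul_nonneg ht (by linarith [(abs_le.1 (abs_qf_le (by norm_num) hJ1 v)).1])
  obtain ⟨R₁, h₁⟩ := hroot s (5 / 2) hs0.le le_rfl
  obtain ⟨S1, hS1⟩ := hroot 1 4 zero_le_one (by norm_num)
  rw [one_smul] at hS1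
  set μ := gM (b • skM g) 0 with hμ
  have hμp : IsProb μ := gM_isProb _ _
  have hPY1 : PY μ S1 s B ≤ exp (-(c / 4 * n)) := by
    refine hD μ J' S1 S0 (fun a => -D a) B hμp (Matrix.IsSymm.ext fun i j => hsym j i)
      (hJ1.monoN (by norm_num) (by norm_num))
      (fun a => by rw [abs_neg]; exact (hDη a).trans (min_le_left _ _)) hS1 ?_ hB hPY
    rw [hS0, hJ', add_assoc (skM g), Matrix.diagonal_add]
    simp
  set Ψ : Cfg n → Vec n → ℝ≥0∞ := fun x => cv (s • (J' + (5 / 2 : ℝ) • (1 : Mat n))) R₁ (sv x) B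
    with hΨ
  have hγ : 0 < k + σ ^ 2 := by rw [hk]; linarith
  have hmx : ∀ x, Measurable fun ω => wG σ (sv x) (goeM (Red.famA n) ω)
      * plG σ k (21 / 10) (sv x) (Ψ x) (goeM (Red.famA n) ω) := fun x =>
    (measurable_wG σ _ (continuous_goeM _)).mul
      (measurable_plG σ k _ _ (measurable_cv _ _ _ hB) (continuous_goeM _))
  have hmF : Measurable fun ω => Fw μ σ k (21 / 10) Ψ (goeM (Red.famA n) ω) :=
    Finset.measurable_sum _ fun x _ => (hmx x).const_mul _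
  have hn0 : (0 : ℝ) ≤ n := Nat.cast_nonneg n
  have hE : ∫⁻ ω, Fw μ σ k (21 / 10) Ψ (goeM (Red.famA n) ω) ∂gpi (Pairs n ⊕ Fin n)
      ≤ ENNReal.ofReal (2 * exp (-(c₂ * n))) := by
    unfold Fw
    rw [lintegral_finsetSum _ fun x _ => (hmx x).const_mul _]
    calc _ ≤ ∑ x, ENNReal.ofReal (μ x) * (ENNReal.ofReal (exp (c / 8 * n))
          * gpi (Fin n) {ξ | obs S1 s x ξ ∈ B} + ENNReal.ofReal (exp (-(c₁ * n)))) := by
          refine Finset.sum_le_sum fun x _ => ?_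
          rw [lintegral_const_mul _ (hmx x)]
          refine mul_le_mul_right ?_ _
          rw [obs_conv (Q₂ := (k + σ ^ 2) • (1 : Mat n)) hs0.le (by rw [hS1, hk]; module) h₁
            (root_scalar hγ.le) x hB, ← pl_eq (root_scalar hγ.le)
              (det_ne_zero_of_pos hγ (scalar_lower _)) _ (measurable_cv _ _ _ hB)]
          exact hP _ _ Red.goeFam_famA (sv x) (sq_spin x) (Ψ x) (measurable_cv _ _ _ hB)
            (cv_le_one _ _ _ _)
      _ = ENNReal.ofReal (exp (c / 8 * n)) * ENNReal.ofReal (PY μ S1 s B)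
          + ENNReal.ofReal (exp (-(c₁ * n))) := by
          simp_rw [mul_add]
          rw [Finset.sum_add_distrib, ← Finset.sum_mul, sum_ofReal hμp, one_mul, ofReal_PY hμp.1,
            Finset.mul_sum]
          congr 1
          exact Finset.sum_congr rfl fun x _ => by ring
      _ ≤ ENNReal.ofReal (exp (c / 8 * n) * exp (-(c / 4 * n)) + exp (-(c₁ * n))) := by
          rw [ENNReal.ofReal_add (by positivity) (exp_pos _).le, ENNReal.ofReal_mul (exp_pos _).le]
          gcongr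
      _ ≤ _ := by
          refine ENNReal.ofReal_le_ofReal ?_
          rw [← exp_add]
          have a1 : c₂ * n ≤ c / 8 * n := mul_le_mul_of_nonneg_right (min_le_left _ _) hn0
          have a2 : c₂ * n ≤ c₁ * n := mul_le_mul_of_nonneg_right (min_le_right _ _) hn0
          have a3 : exp (c / 8 * n + -(c / 4 * n)) ≤ exp (-(c₂ * n)) := exp_le_exp.2 (by linarith)
          have a4 : exp (-(c₁ * n)) ≤ exp (-(c₂ * n)) := exp_le_exp.2 (by linarith)
          linarith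
  have hM : (gpi (Pairs n ⊕ Fin n)).real {ω | ENNReal.ofReal (exp (-(c₂ / 2 * n)))
      ≤ Fw μ σ k (21 / 10) Ψ (goeM (Red.famA n) ω)} ≤ δ / 3 := by
    have h2 := ENNReal.toReal_mono ENNReal.ofReal_ne_top
      ((mul_meas_ge_le_lintegral hmF (ENNReal.ofReal (exp (-(c₂ / 2 * n))))).trans hE)
    rw [ENNReal.toReal_mul, ENNReal.toReal_ofReal (exp_pos _).le,
      ENNReal.toReal_ofReal (by positivity), show -(c₂ * n) = -(c₂ / 2 * n) + -(c₂ / 2 * n) by ring,
      exp_add, mul_left_comm] at h2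
    rw [pow_zero, one_mul] at t1
    exact (le_of_mul_le_mul_left h2 (exp_pos _)).trans t1.le
  have e := PW_eq (n := n) {W | ¬ (OpLe W (21 / 10) ∧ ∀ Rt : Mat n, Rt * Rtᵀ = Qtot σ s J' W →
    PY (gM (b • skM g + σ • W) 0) Rt 1 B ≤ exp (-(c₂ / 4 * n)))}
  simp only [Set.mem_ofPred_eq] at e
  rw [Measure.real, e]
  refine le_trans (measureReal_mono (s₂ := ({ω | ¬ OpLe (goeM (Red.famA n) ω) (21 / 10)}
    ∪ {ω | Real.log (∑ x : Cfg n, exp (qf (b • skM g + σ • goeM (Red.famA n) ω) (sv x) / 2))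
        ≤ n * (Real.log 2 + 1 / 4 - c₂ / 8)})
    ∪ {ω | ENNReal.ofReal (exp (-(c₂ / 2 * n)))
      ≤ Fw μ σ k (21 / 10) Ψ (goeM (Red.famA n) ω)}) fun ω hω => ?_) ?_
  · by_contra hcon
    simp only [Set.mem_union, Set.mem_ofPred_eq, not_or, not_not, not_le] at hcon
    obtain ⟨⟨q1, q2⟩, q3⟩ := hcon
    refine hω ⟨q1, fun Rt hRt => ?_⟩
    have hZ0' : Real.log (∑ x, exp (qf (b • skM g) (sv x) / 2))
        ≤ n * (Real.log 2 + b ^ 2 / 4 + c₂ / 8) := by
      simp_rw [qf_smul', mul_div_right_comm]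
      exact hZ0
    have h3 := PY_le_Fw hσ.le (by norm_num) hkσ (goeM_symm Red.goeFam_famA ω) q1 h₁
      (by rw [hRt, Qtot, Q2, add_assoc]) hZ0' q2.le hB
    rw [← ENNReal.ofReal_le_ofReal_iff (exp_pos _).le]
    refine h3.trans ((mul_le_mul_right q3.le _).trans ?_)
    rw [← ENNReal.ofReal_mul (exp_pos _).le, ← exp_add]
    refine ENNReal.ofReal_le_ofReal (exp_le_exp.2 (le_of_eq ?_))
    linear_combination (n : ℝ) / 4 * hbσ
  · refine (measureReal_union_le _ _).trans ((add_le_add (measureReal_union_le _ _) hM).trans ?_)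
    linarith

end Vale.Agent.N150.Law
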