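import Vale.Agent.N150.EndProd
import Vale.Agent.N150.EndLaw2
import Vale.Agent.N150.BrDef

/-! P150 at `β = 1`: the terminal bound of the cap flow from the bridge and the endgame. -/

open Matrix MeasureTheory Filter Topology

namespace Vale.Agent.N150.End

open Vale.Agent.P150 Vale.Agent.P150.F Vale.Agent.P150.F.Ms
open Vale.Agent.N150.Cap Vale.Agent.N150.Plant Vale.Agent.N150.Sp Vale.Agent.N150.Br

variable {n : ℕ}

theorem Jr_lin (O : OG n) (b σ : ℝ) (J W : Mat n) :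
    Jr O (b • J + σ • W) = b • Jr O J + σ • Jr O W := by
  unfold Jr
  rw [Matrix.mul_add, Matrix.add_mul, Matrix.mul_smul, Matrix.mul_smul, Matrix.smul_mul,
    Matrix.smul_mul]

theorem Jr_Qtot (O : OG n) (σ s : ℝ) (J W : Mat n) :
    Jr O (Qtot σ s J W) = Qtot σ s (Jr O J) (Jr O W) := by
  unfold Jr Qtot
  simp only [Matrix.mul_add, Matrix.add_mul, Matrix.mul_smul, Matrix.smul_mul, Matrix.mul_one,
    OG.transpose_mul]

theorem Jr_symm' (O : OG n) {M : Mat n} (h : Mᵀ = M) (i j : Fin n) : Jr O M i j = Jr O M j i := by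
  have e : (Jr O M)ᵀ = Jr O M := by
    unfold Jr
    rw [Matrix.transpose_mul, Matrix.transpose_mul, Matrix.transpose_transpose, h, Matrix.mul_assoc]
  exact (congrFun (congrFun e i) j).symm

theorem opLe_of_Jr (O : OG n) {M : Mat n} {c : ℝ} (h : OpLe (Jr O M) c) : OpLe M c := by
  refine (Law.opLe_conj_iff (O := O.1ᵀ) ?_).1 ?_
  · rw [Matrix.transpose_transpose, OG.mul_transpose]
  · rw [Matrix.transpose_transpose]
    exact h

/-- the endgame event in the form used by the bridge -/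
theorem endAt_of_endOK {cen : Mat n → Vec n → Vec n} (hc : CenMeas cen) {C θ b σ s : ℝ}
    (hσ : 0 < σ) (hσ1 : σ ≤ 1 / 10) (hs : 2 * σ ≤ s) {lam : Vec n} {J W : Mat n} (hJ : Jᵀ = J)
    (hW : Wᵀ = W) (h : b • J + σ • W = diagonal lam) {O : OG n}
    (hE : EndOK C θ b σ s cen (Jr O J) (Jr O W)) :
    EndAt C θ cen (JO lam O) (Jr O (Qtot σ s J W)) := by
  obtain ⟨h1, h2, h3⟩ := hE
  obtain ⟨-, Rt, hRt⟩ := Qtot_root hσ hσ1 hs (Jr_symm' O hJ) (Jr_symm' O hW) h1 h2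
  have e : b • Jr O J + σ • Jr O W = JO lam O := by rw [← Jr_lin, h]; rfl
  have h4 := h3 Rt hRt
  rw [e] at h4
  rw [Jr_Qtot]
  exact ⟨Rt, _, hRt, ms_Bc' hc C θ _, h4, fun y hy => hy⟩

/-- **[TERM]** the terminal bound at the end of the cap flow, for fixed frame data -/
def TermH (sel : Sel) : Prop := ∃ T0 > (0 : ℝ), ∀ T : ℝ, 0 < T → T ≤ T0 →
  ∃ (b σ : ℝ) (EG : ∀ n : ℕ, Mat n → Mat n → Prop), b ^ 2 + σ ^ 2 = 1 ∧
    Tendsto (fun n : ℕ => ((PW n).prod (PW n)) {p | ¬ EG n (goe p.1) (goe p.2)}) atTop (𝓝 0) ∧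
    ∃ CT > (0 : ℝ), ∃ c > (0 : ℝ), ∀ᶠ n : ℕ in atTop, ∀ (w : ℝ) (lam : Vec n), Edge.Rigid w lam →
      1 ≤ w → Edge.kap w ≤ c → Edge.sc0 n w ≤ c →
      ∀ J W : Mat n, Jᵀ = J → Wᵀ = W → b • J + σ • W = diagonal lam →
      ∀ (t : ℕ → ℝ) (d : ℝ) (hG : Grid lam t d) (N : ℕ), T ≤ t N → t N ≤ 2 * T →
      ∀ (i : ℕ) (ε : ℝ), 0 < ε →
        (haar n).real {O | ε ≤ LR (diagonal lam) 0 O ∧ EG n (O.1ᵀ * J * O.1) (O.1ᵀ * W * O.1) ∧
          ¬ TA hG N (sel n i) CT CT (Real.exp (-(c * n))) O} ≤ Real.exp (-(c * n)) / ε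

theorem termH_of {sel cen : Sel} (hc : ∀ n, CenMeas (cen n 0)) (hB : BrStmt sel cen)
    (hE : EndProd fun n => cen n 0) : TermH sel := by
  obtain ⟨T0, hT0, hB⟩ := hB
  obtain ⟨σ₀, hσ₀, hE⟩ := hE
  refine ⟨min T0 (min (σ₀ / 4) (1 / 40)), by positivity, fun T hT hT1 => ?_⟩
  have a1 : T ≤ T0 := hT1.trans (min_le_left _ _)
  have a2 : T ≤ σ₀ / 4 := hT1.trans ((min_le_right _ _).trans (min_le_left _ _))
  have a3 : T ≤ 1 / 40 := hT1.trans ((min_le_right _ _).trans (min_le_right _ _))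
  have a4 : 0 < 1 - (4 * T) ^ 2 := by nlinarith
  have hb : √(1 - (4 * T) ^ 2) ^ 2 + (4 * T) ^ 2 = 1 := by rw [Real.sq_sqrt a4.le]; ring
  obtain ⟨s, hs2, hs3, C, hC, c, hc0, hE⟩ := hE _ (4 * T) (Real.sqrt_pos.2 a4) (by linarith)
    (by linarith) hb
  obtain ⟨CT, hCT, c', hc', hB⟩ := hB T hT a1 C c hC hc0
  refine ⟨_, _, fun n J W => EndOK C (Real.exp (-(c * n))) √(1 - (4 * T) ^ 2) (4 * T) s (cen n 0) J W,
    hb, hE, CT, hCT, c', hc', ?_⟩
  filter_upwards [hB] with n hn w lam h1 h2 h3 h4 J W hJ hW hJW t d hG N h5 h6 i ε hε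
  by_cases hop : OpLe J (21 / 10) ∧ OpLe W (21 / 10)
  · have hq := fun v => Qtot_bounds (σ := 4 * T) (s := s) (by linarith) (by linarith) hs2 hop.1 hop.2 v
    have hs : (Qtot (4 * T) s J W)ᵀ = Qtot (4 * T) s J W := by
      ext a b
      exact Qtot_symm _ _ (fun i j => (congrFun (congrFun hJ i) j).symm)
        (fun i j => (congrFun (congrFun hW i) j).symm) b a
    refine le_trans (measureReal_mono (fun O hO => ?_) (measure_ne_top _ _))
      (hn w lam h1 h2 h3 h4 t d hG N h5 h6 (Qtot (4 * T) s J W) hs (fun v => ?_) (fun v => ?_) i 0 ε hε)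
    · exact ⟨hO.1, endAt_of_endOK (hc n) (by linarith) (by linarith) hs2 hJ hW hJW hO.2.1, hO.2.2⟩
    · exact (mul_le_mul_of_nonneg_right (by linarith) (sq_nonneg' v)).trans (hq v).1
    · exact (hq v).2.trans (mul_le_mul_of_nonneg_right (by linarith) (sq_nonneg' v))
  · refine le_trans (measureReal_mono (s₂ := ∅) (fun O hO => ?_) (measure_ne_top _ _)) ?_
    · exact hop ⟨opLe_of_Jr O hO.2.1.1, opLe_of_Jr O hO.2.1.2.1⟩
    · rw [measureReal_empty]
      positivity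

/-- the terminal bound from the bridge and the no-outlier input of the endgame -/
theorem termH_of_TL {sel cen : Sel} (hc : SelOK cen) (hB : BrStmt sel cen)
    (hT : TLStmt fun n => cen n 0) : TermH sel :=
  have h : ∀ n, CenMeas (cen n 0) := fun n α _ M y hM hy => hc.1 n 0 α M y hM hy
  termH_of h hB (endProd_of h (endStmt_of Law.lawStmt hT))

end Vale.Agent.N150.End
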