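import Vale.Agent.N150.EdgeTr

/-! Sharp resolvent trace at all distances from the edge. -/

open Real Set intervalIntegral MeasureTheory

namespace Vale.Agent.N150.Edge

variable {n : ℕ} {w : ℝ} {lam : Fin n → ℝ}

lemma eta_eq {U : ℝ} (hU : 1 < U) : U + 1 / U - 2 = (U - 1) ^ 2 / U := by
  have : U ≠ 0 := by linarith
  field_simp
  ring

lemma eta_pos {U : ℝ} (hU : 1 < U) : 0 < U + 1 / U - 2 := by
  rw [eta_eq hU]
  have : 0 < U - 1 := by linarith
  positivity

lemma stieltjes_real {U : ℝ} (hU : 1 < U) :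
    ∫ e in (0 : ℝ)..4, scD e * (e + (U + 1 / U - 2))⁻¹ = 1 / U := by
  have hU0 : 0 < U := by linarith
  have h := stieltjes_sc ((1 / U : ℝ) : ℂ) (by
    rw [Complex.norm_real, Real.norm_of_nonneg (by positivity), div_lt_one hU0]; exact hU)
    (by exact_mod_cast (by positivity : (0 : ℝ) < 1 / U).ne')
  apply Complex.ofReal_injective
  rw [← h, ← intervalIntegral.integral_ofReal]
  refine integral_congr fun e _ => ?_
  push_cast
  congr 2
  rw [one_div, inv_inv]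
  ring

lemma hasDerivAt_inv_add {η u : ℝ} (h : 0 < u + η) :
    HasDerivAt (fun u : ℝ => (u + η)⁻¹) (-((u + η) ^ 2)⁻¹) u := by
  have h1 := ((hasDerivAt_id u).add_const η).inv h.ne'
  refine h1.congr_deriv ?_
  simp only [id]
  rw [neg_div, one_div]

lemma contOn_inv_sq {η r b : ℝ} (h : 0 < r + η) :
    ContinuousOn (fun u : ℝ => -((u + η) ^ 2)⁻¹) (Icc r b) := by
  refine ContinuousOn.neg (ContinuousOn.inv₀ (by fun_prop) fun u hu => ?_)
  have : 0 < u + η := by linarith [hu.1]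
  positivity

lemma scV_zero {U : ℝ} (hU : 1 < U) :
    scV (fun u => (u + (U + 1 / U - 2))⁻¹) (fun u => -((u + (U + 1 / U - 2)) ^ 2)⁻¹) 0 5 =
      1 / U := by
  have hη := eta_pos hU
  set η := U + 1 / U - 2 with hdef
  have e05 : uIcc (0 : ℝ) 5 = Icc 0 5 := uIcc_of_le (by norm_num)
  have c1 : ContinuousOn (fun u : ℝ => -((u + η) ^ 2)⁻¹) (uIcc 0 5) := by
    rw [e05]; exact contOn_inv_sq (by linarith)
  have h := integral_mul_deriv_eq_deriv_mul (u := fun u : ℝ => (u + η)⁻¹) (v := scF)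
    (u' := fun u => -((u + η) ^ 2)⁻¹) (v' := scD) (a := 0) (b := 5)
    (fun x hx => hasDerivAt_inv_add (by rw [e05] at hx; linarith [hx.1]))
    (fun x _ => hasDerivAt_scF x) c1.intervalIntegrable (continuous_scD.intervalIntegrable _ _)
  have c2 : ∀ a b : ℝ, 0 ≤ a → 0 ≤ b →
      IntervalIntegrable (fun u : ℝ => (u + η)⁻¹ * scD u) volume a b := by
    intro a b ha hb
    refine ContinuousOn.intervalIntegrable (ContinuousOn.mul (ContinuousOn.inv₀ (by fun_prop)
      fun u hu => ?_) continuous_scD.continuousOn)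
    have : 0 ≤ u := le_trans (le_min ha hb) hu.1
    positivity
  have h2 : ∫ u in (4 : ℝ)..5, (u + η)⁻¹ * scD u = ∫ _u in (4 : ℝ)..5, (0 : ℝ) := by
    refine integral_congr fun e he => ?_
    rw [uIcc_of_le (by norm_num)] at he
    simp only [scD_of_ge he.1, mul_zero]
  have h3 := integral_add_adjacent_intervals (c2 0 4 le_rfl (by norm_num))
    (c2 4 5 (by norm_num) (by norm_num))
  have h4 := stieltjes_real hU
  rw [← hdef] at h4
  simp only [mul_comm (scD _)] at h4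
  rw [h2, intervalIntegral.integral_zero, add_zero, h4, h, scF_zero,
    scF_ge_four (by norm_num : (4 : ℝ) ≤ 5)] at h3
  unfold scV
  linarith

/-- the clipped trace at distance `η = U + 1 / U - 2` -/
theorem Rigid.trC_st (h : Rigid w lam) (hn : 0 < n) (hw : 0 < w) {U r : ℝ} (hU : 1 < U)
    (hr : sc0 n w ≤ r) (hr4 : r ≤ 4) :
    n * (1 / U - c0 * (r ^ 2 * √r) / (U + 1 / U - 2) ^ 2) - 10 * kap w * (n * √r) ≤
        trC 1 lam r (U + 1 / U - 2) ∧
      trC 1 lam r (U + 1 / U - 2) ≤ n * (1 / U) + 10 * kap w * (n * √r) := by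
  have hη := eta_pos hU
  have hV := scV_zero hU
  set η := U + 1 / U - 2 with hdef
  have hr0 : 0 < r := (sc0_pos hn hw).trans_le hr
  have h1 := h.sbp_tail hn hw (f := fun u => (u + η)⁻¹) (f' := fun u => -((u + η) ^ 2)⁻¹)
    (B := (r ^ 2)⁻¹) hr hr4 (fun u hu => hasDerivAt_inv_add (by linarith [hu.1]))
    (contOn_inv_sq (by linarith)) (fun u hu => by
      have hu0 : 0 < u := hr0.trans_le hu.1
      rw [abs_neg, abs_of_nonneg (by positivity)]
      have e : (r ^ 2)⁻¹ * (r / u) ^ 2 = (u ^ 2)⁻¹ := by field_simp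
      rw [e]
      exact inv_anti₀ (by positivity) (pow_le_pow_left₀ hu0.le (by linarith) 2))
  have e1 : 10 * kap w * (r ^ 2)⁻¹ * (n * (r * (r * √r))) = 10 * kap w * (n * √r) := by
    field_simp
  have e2 : trC 1 lam r η = ∑ a, (max (2 - lam a) r + η)⁻¹ := by simp only [trC, pow_one]
  rw [e1, ← e2, abs_le] at h1
  have ci : ∀ a b : ℝ, 0 ≤ a → 0 ≤ b →
      IntervalIntegrable (fun u : ℝ => -((u + η) ^ 2)⁻¹ * scF u) volume a b := by
    intro a b ha hb
    refine ContinuousOn.intervalIntegrable (ContinuousOn.mul ?_ continuous_scF.continuousOn)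
    exact contOn_inv_sq (by linarith [le_min ha hb])
  have h3 := integral_add_adjacent_intervals (ci 0 r le_rfl hr0.le) (ci r 5 hr0.le (by norm_num))
  have h4 : ∫ u in (0 : ℝ)..r, -((u + η) ^ 2)⁻¹ * scF u ≤ ∫ _u in (0 : ℝ)..r, (0 : ℝ) := by
    refine integral_mono_on hr0.le (ci 0 r le_rfl hr0.le) (by simp) fun u hu => ?_
    have := scF_nonneg hu.1 (by linarith [hu.2])
    have : 0 ≤ ((u + η) ^ 2)⁻¹ * scF u := by positivity
    linarith
  have h5 : ∫ _u in (0 : ℝ)..r, -(c0 * (r * √r) / η ^ 2) ≤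
      ∫ u in (0 : ℝ)..r, -((u + η) ^ 2)⁻¹ * scF u := by
    refine integral_mono_on hr0.le (by simp) (ci 0 r le_rfl hr0.le) fun u hu => ?_
    have a1 := scF_nonneg hu.1 (by linarith [hu.2])
    have a2 : scF u ≤ c0 * (r * √r) := (scF_mono hu.2).trans (scF_le hr0.le)
    have a3 : ((u + η) ^ 2)⁻¹ ≤ (η ^ 2)⁻¹ :=
      inv_anti₀ (by positivity) (pow_le_pow_left₀ hη.le (by linarith [hu.1]) 2)
    have a4 : ((u + η) ^ 2)⁻¹ * scF u ≤ (η ^ 2)⁻¹ * (c0 * (r * √r)) :=
      mul_le_mul a3 a2 a1 (by positivity)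
    rw [div_eq_inv_mul]
    linarith
  rw [intervalIntegral.integral_zero] at h4
  rw [intervalIntegral.integral_const, smul_eq_mul, sub_zero] at h5
  have e3 : r * -(c0 * (r * √r) / η ^ 2) = -(c0 * (r ^ 2 * √r) / η ^ 2) := by ring
  rw [e3] at h5
  unfold scV at hV h1
  have hn0 : (0 : ℝ) ≤ n := Nat.cast_nonneg n
  set I := ∫ u in r..5, -((u + η) ^ 2)⁻¹ * scF u
  have b1 : 1 / U - c0 * (r ^ 2 * √r) / η ^ 2 ≤ (5 + η)⁻¹ - I := by linarith
  have b2 : (5 + η)⁻¹ - I ≤ 1 / U := by linarith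
  have b3 := mul_le_mul_of_nonneg_left b1 hn0
  have b4 := mul_le_mul_of_nonneg_left b2 hn0
  constructor <;> linarith [h1.1, h1.2]

lemma st_aux {s L U : ℝ} (hs0 : 0 < s) (hs : s ≤ 1 / 100) (hL : 2 ≤ L) (hU : 1 + L * √s ≤ U) :
    1 < U ∧ 3 * s ≤ U + 1 / U - 2 ∧ √s ≤ (U - 1) / L ∧
      s ^ 2 * √s / (U + 1 / U - 2) ^ 2 ≤ 9 / 25 * ((U - 1) / L ^ 3) := by
  have hq : 0 < √s := sqrt_pos.2 hs0
  have hq1 : √s ≤ 1 / 10 := by rw [sqrt_le_left (by norm_num)]; linarith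
  have hqq : √s ^ 2 = s := sq_sqrt hs0.le
  have hL0 : 0 < L := by linarith
  have h2 : 2 * √s ≤ U - 1 := by nlinarith
  have hU1 : 1 < U := by linarith
  have hd : 0 < U - 1 := by linarith
  have h3 : U * √s ≤ 3 / 5 * (U - 1) := by nlinarith
  refine ⟨hU1, ?_, by rw [le_div_iff₀ hL0]; linarith, ?_⟩
  · rw [eta_eq hU1, le_div_iff₀ (by linarith)]
    nlinarith
  · rw [eta_eq hU1]
    set q := √s
    have e : s ^ 2 * q / ((U - 1) ^ 2 / U) ^ 2 = (U * q / (U - 1)) ^ 2 * (q / (U - 1)) ^ 3 *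
        (U - 1) := by
      rw [← hqq]
      field_simp
    have a1 : U * q / (U - 1) ≤ 3 / 5 := by rw [div_le_iff₀ hd]; exact h3
    have a2 : q / (U - 1) ≤ 1 / L := by
      rw [div_le_div_iff₀ hd hL0]; linarith
    rw [e]
    calc (U * q / (U - 1)) ^ 2 * (q / (U - 1)) ^ 3 * (U - 1)
        ≤ (3 / 5) ^ 2 * (1 / L) ^ 3 * (U - 1) := by gcongr
      _ = _ := by field_simp; ring

/-- sharp lower bound of the resolvent trace at all distances -/
theorem Rigid.trR_st_ge (h : Rigid w lam) (hn : 0 < n) (hw : 0 < w) (hs : sc0 n w ≤ 1 / 100)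
    {L U : ℝ} (hL : 2 ≤ L) (hU : 1 + L * √(sc0 n w) ≤ U) :
    n * (1 / U - (10 * kap w / L + 1 / (10 * L ^ 3)) * (U - 1)) ≤ trR 1 lam (U + 1 / U - 2) := by
  have hs0 := sc0_pos hn hw
  obtain ⟨a1, a2, a3, a4⟩ := st_aux hs0 hs hL hU
  have h1 := (h.trC_st hn hw a1 le_rfl (by linarith)).1
  have h2 := trC_le_trR (lam := lam) 1 (sc0 n w) (η := U + 1 / U - 2)
    (h.pos (by linarith))
  refine le_trans ?_ (h1.trans h2)
  have hn0 : (0 : ℝ) ≤ n := Nat.cast_nonneg n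
  have hk := kap_pos hw
  have hL0 : 0 < L := by linarith
  have hd : 0 ≤ (U - 1) / L ^ 3 := div_nonneg (by linarith) (by positivity)
  have b1 : c0 * (sc0 n w ^ 2 * √(sc0 n w)) / (U + 1 / U - 2) ^ 2 ≤
      1 / (10 * L ^ 3) * (U - 1) := by
    rw [mul_div_assoc]
    have e : 1 / (10 * L ^ 3) * (U - 1) = 1 / 10 * ((U - 1) / L ^ 3) := by field_simp
    have := mul_le_mul_of_nonneg_left a4 c0_pos.le
    have := mul_le_mul_of_nonneg_right c0_le hd
    rw [e]
    linarith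
  have b2 : 10 * kap w * √(sc0 n w) ≤ 10 * kap w / L * (U - 1) := by
    have e : 10 * kap w / L * (U - 1) = 10 * kap w * ((U - 1) / L) := by field_simp
    rw [e]
    gcongr
  have b3 := mul_le_mul_of_nonneg_left b1 hn0
  have b4 := mul_le_mul_of_nonneg_left b2 hn0
  linarith

/-- sharp upper bound of the resolvent trace at all distances -/
theorem Rigid.trR_st_le (h : Rigid w lam) (hn : 0 < n) (hw : 0 < w) (hs : sc0 n w ≤ 1 / 100)
    {L U : ℝ} (hL : 2 ≤ L) (hU : 1 + L * √(sc0 n w) ≤ U) :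
    trR 1 lam (U + 1 / U - 2) ≤
      n * (1 / U + (10 * kap w / L + (c0 + kap w) / L ^ 3) * (U - 1)) := by
  have hs0 := sc0_pos hn hw
  obtain ⟨a1, a2, a3, a4⟩ := st_aux hs0 hs hL hU
  have h1 := (h.trC_st hn hw a1 le_rfl (by linarith)).2
  set η := U + 1 / U - 2
  set s := sc0 n w
  have h2 := trR_le_trC (lam := lam) 1 (r := s) (η := η) (b := η - s) (by linarith)
    (fun a => by linarith [h.le_eps a])
  have h3 := h.cnt_upper hn hw (s := s) le_rfl (by linarith)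
  have hn0 : (0 : ℝ) ≤ n := Nat.cast_nonneg n
  have hk := kap_pos hw
  have hc := c0_pos
  have hL0 : 0 < L := by linarith
  have hη : 0 < η := by linarith
  have b0 : ((η - s) ^ 1)⁻¹ - ((s + η) ^ 1)⁻¹ ≤ 9 / 4 * (s / η ^ 2) := by
    have p1 : 0 < η - s := by linarith
    have e : ((η - s) ^ 1)⁻¹ - ((s + η) ^ 1)⁻¹ = 2 * s / ((η - s) * (s + η)) := by
      field_simp; ring
    rw [e, ← mul_div_assoc, div_le_div_iff₀ (by positivity) (by positivity)]
    have : 0 ≤ s * ((η - 3 * s) * (η + 3 * s)) := by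
      have : 0 ≤ η - 3 * s := by linarith
      positivity
    nlinarith
  have b1 : cnt lam s * (((η - s) ^ 1)⁻¹ - ((s + η) ^ 1)⁻¹) ≤
      (c0 + kap w) * (n * (s * √s)) * (9 / 4 * (s / η ^ 2)) :=
    (mul_le_mul_of_nonneg_left b0 (cnt_nonneg _ _)).trans
      (mul_le_mul_of_nonneg_right h3 (by positivity))
  have e2 : (c0 + kap w) * (n * (s * √s)) * (9 / 4 * (s / η ^ 2)) =
      n * ((c0 + kap w) * (9 / 4 * (s ^ 2 * √s / η ^ 2))) := by ring
  have hd : 0 ≤ (U - 1) / L ^ 3 := div_nonneg (by linarith) (by positivity)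
  have b2 : (c0 + kap w) * (9 / 4 * (s ^ 2 * √s / η ^ 2)) ≤ (c0 + kap w) / L ^ 3 * (U - 1) := by
    have e : (c0 + kap w) / L ^ 3 * (U - 1) = (c0 + kap w) * ((U - 1) / L ^ 3) := by field_simp
    rw [e]
    gcongr
    linarith
  have b3 : 10 * kap w * √s ≤ 10 * kap w / L * (U - 1) := by
    have e : 10 * kap w / L * (U - 1) = 10 * kap w * ((U - 1) / L) := by field_simp
    rw [e]
    gcongr
  have b4 := mul_le_mul_of_nonneg_left b2 hn0
  have b5 := mul_le_mul_of_nonneg_left b3 hn0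
  linarith

end Vale.Agent.N150.Edge
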