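import Mathlib
import Vale.Agent.N150.SphAnn
import Vale.Agent.N150.SphLow

/-! Second moment of the partition function over Haar frames: exact two-replica identities and
the exponential moment of the spherical overlap. -/

open MeasureTheory ProbabilityTheory Matrix Real
open scoped ENNReal

namespace Vale.Agent.N150.LowZ

open Vale.Agent.P150 Vale.Agent.P150.F Vale.Agent.N150.Sp

variable {n : ℕ}

/-- energy of the rotated vector -/
noncomputable def XE (lam a : Vec n) (O : OG n) : ℝ := HE lam 0 (O.1 *ᵥ a)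

@[fun_prop] theorem continuous_XE (lam a : Vec n) : Continuous (XE lam a) :=
  (continuous_HE lam 0).comp (cont_act a)

theorem HE_pair (lam A B : Vec n) (α β : ℝ) :
    HE lam 0 (α • A + β • B) + HE lam 0 (α • A - β • B) =
      2 * α ^ 2 * HE lam 0 A + 2 * β ^ 2 * HE lam 0 B := by
  unfold HE
  simp only [Pi.zero_apply, zero_mul, Finset.sum_const_zero, add_zero, Pi.add_apply, Pi.sub_apply,
    Pi.smul_apply, smul_eq_mul]
  rw [← add_div, ← Finset.sum_add_distrib, ← mul_div_assoc, ← mul_div_assoc, ← add_div,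
    Finset.mul_sum, Finset.mul_sum, ← Finset.sum_add_distrib]
  congr 1
  exact Finset.sum_congr rfl fun i _ => by ring

theorem ip_comb (A B : Vec n) (α β γ δ : ℝ) :
    ip (α • A + β • B) (γ • A + δ • B) =
      α * γ * F.sq A + β * δ * F.sq B + (α * δ + β * γ) * ip A B := by
  unfold ip F.sq
  rw [Finset.mul_sum, Finset.mul_sum, Finset.mul_sum, ← Finset.sum_add_distrib,
    ← Finset.sum_add_distrib]
  exact Finset.sum_congr rfl fun i _ => by
    simp only [Pi.add_apply, Pi.smul_apply, smul_eq_mul]; ring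

theorem abs_ip_le (u v : Vec n) : |ip u v| ≤ (F.sq u + F.sq v) / 2 := by
  unfold ip F.sq
  rw [← Finset.sum_add_distrib, Finset.sum_div]
  refine (Finset.abs_sum_le_sum_abs _ _).trans (Finset.sum_le_sum fun a _ => ?_)
  rw [abs_le]
  constructor <;> nlinarith [sq_nonneg (u a - v a), sq_nonneg (u a + v a)]

/-- the two-point function in terms of a fixed orthogonal frame -/
theorem two_point (hn : 0 < n) (lam : Vec n) {a b u v : Vec n} (ha : F.sq a = n)
    (hb : F.sq b = n) (hab : ip a b = 0) (hu : F.sq u = n) (hv : F.sq v = n) :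
    ∫ O, exp (XE lam u O + XE lam v O) ∂(haar n) =
      ∫ O, exp (XE lam a O + XE lam b O) * exp ((XE lam a O - XE lam b O) * (ip u v / n))
        ∂(haar n) := by
  have hn0 : (0 : ℝ) < n := by exact_mod_cast hn
  set R : ℝ := ip u v / n with hR
  have hR1 : |R| ≤ 1 := by
    rw [hR, abs_div, abs_of_pos hn0, div_le_one hn0]
    have := abs_ip_le u v
    rw [hu, hv] at this
    linarith
  obtain ⟨hR2, hR3⟩ := abs_le.1 hR1
  set α : ℝ := √((1 + R) / 2) with hα
  set β : ℝ := √((1 - R) / 2) with hβ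
  have hα2 : α ^ 2 = (1 + R) / 2 := Real.sq_sqrt (by linarith)
  have hβ2 : β ^ 2 = (1 - R) / 2 := Real.sq_sqrt (by linarith)
  have e : α • a - β • b = α • a + (-β) • b := by rw [neg_smul, sub_eq_add_neg]
  have h := int_two (x := u) (y := v) (x' := α • a + β • b) (y' := α • a - β • b)
    (by rw [hu, ← ip_self', ip_comb, ha, hb, hab]; nlinarith)
    (by rw [hv, e, ← ip_self', ip_comb, ha, hb, hab]; nlinarith)
    (by
      rw [e, ip_comb, ha, hb, hab]
      have : ip u v = R * n := by rw [hR]; field_simp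
      nlinarith)
    (fun p q => exp (HE lam 0 p + HE lam 0 q))
  refine h.trans (integral_congr_ae (ae_of_all _ fun O => ?_))
  simp only
  rw [Matrix.mulVec_add, Matrix.mulVec_sub, Matrix.mulVec_smul, Matrix.mulVec_smul, HE_pair,
    ← exp_add, hα2, hβ2]
  unfold XE
  congr 1
  ring

theorem sum_exp_ip (x : Cfg n) (t : ℝ) :
    ∑ x' : Cfg n, exp (t * ip (sv x) (sv x')) = (2 * cosh t) ^ n := by
  have h1 : ∀ x' : Cfg n, exp (t * ip (sv x) (sv x')) = ∏ i, exp (t * (sp (x i) * sp (x' i))) := by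
    intro x'
    rw [← exp_sum, ← Finset.mul_sum]
    rfl
  simp only [h1]
  have h2 := Finset.prod_univ_sum (fun _ : Fin n => (Finset.univ : Finset Bool))
    (fun i b => exp (t * (sp (x i) * sp b)))
  rw [Fintype.piFinset_univ] at h2
  rw [← h2]
  have h3 : ∀ i, ∑ b : Bool, exp (t * (sp (x i) * sp b)) = 2 * cosh t := by
    intro i
    rw [Fintype.sum_bool, Real.cosh_eq]
    cases x i <;> simp [sp] <;> ring
  simp only [h3, Finset.prod_const, Finset.card_univ, Fintype.card_fin]

/-- the second moment of the partition function -/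
theorem int_ZO_sq (hn : 0 < n) (lam : Vec n) {a b : Vec n} (ha : F.sq a = n)
    (hb : F.sq b = n) (hab : ip a b = 0) :
    ∫ O, ZO lam 0 O ^ 2 ∂(haar n) = (2 ^ n) ^ 2 *
      ∫ O, exp (XE lam a O + XE lam b O) * cosh ((XE lam a O - XE lam b O) / n) ^ n
        ∂(haar n) := by
  have e1 : ∀ O : OG n, ZO lam 0 O ^ 2 =
      ∑ x : Cfg n, ∑ x' : Cfg n, exp (XE lam (sv x) O + XE lam (sv x') O) := by
    intro O
    rw [pow_two, ZO, Finset.sum_mul_sum]
    simp only [exp_add]
    rfl
  have i1 : ∀ x x' : Cfg n, Integrable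
      (fun O => exp (XE lam (sv x) O + XE lam (sv x') O)) (haar n) := fun x x' =>
    integrable_haar (by fun_prop)
  have i2 : ∀ x x' : Cfg n, Integrable (fun O => exp (XE lam a O + XE lam b O) *
      exp ((XE lam a O - XE lam b O) * (ip (sv x) (sv x') / n))) (haar n) := fun x x' =>
    integrable_haar (by fun_prop)
  simp only [e1]
  rw [integral_finsetSum _ fun x _ => integrable_finsetSum _ fun x' _ => i1 x x']
  have e2 : ∀ x : Cfg n, ∫ O, ∑ x' : Cfg n, exp (XE lam (sv x) O + XE lam (sv x') O) ∂(haar n) =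
      2 ^ n * ∫ O, exp (XE lam a O + XE lam b O) * cosh ((XE lam a O - XE lam b O) / n) ^ n
        ∂(haar n) := by
    intro x
    rw [integral_finsetSum _ fun x' _ => i1 x x']
    simp only [two_point hn lam ha hb hab (sq_sv _) (sq_sv _)]
    rw [← integral_finsetSum _ fun x' _ => i2 x x', ← integral_const_mul]
    refine integral_congr_ae (ae_of_all _ fun O => ?_)
    simp only
    rw [← Finset.mul_sum]
    have h := sum_exp_ip x ((XE lam a O - XE lam b O) / n)
    have e3 : ∀ x' : Cfg n, (XE lam a O - XE lam b O) * (ip (sv x) (sv x') / n) =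
        (XE lam a O - XE lam b O) / n * ip (sv x) (sv x') := fun x' => by ring
    simp only [e3]
    rw [h, mul_pow]
    ring
  simp only [e2, Finset.sum_const, Finset.card_univ, Fintype.card_fun, Fintype.card_bool,
    Fintype.card_fin, nsmul_eq_mul]
  push_cast
  ring

/-- the exponential moment of the overlap with a uniform point of the sphere -/
noncomputable def Mo (a : Vec n) (t : ℝ) : ℝ := ∫ u, exp (t * (ip a u / n)) ∂(sph n n)

theorem continuous_ip (a : Vec n) : Continuous fun u : Vec n => ip a u := by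
  unfold ip; fun_prop

theorem integrable_prod {f : Vec n × OG n → ℝ} (hf : Continuous f) :
    Integrable f ((sph n n).prod (haar n)) := by
  have hK : IsCompact (Metric.closedBall (0 : Vec n) (√(n : ℝ)) ×ˢ (Set.univ : Set (OG n))) :=
    (isCompact_closedBall _ _).prod isCompact_univ
  obtain ⟨C, hC⟩ := hK.exists_bound_of_continuousOn hf.continuousOn
  refine Integrable.of_bound hf.aestronglyMeasurable C ?_
  have h1 : ∀ᵐ p ∂((sph n n).prod (haar n)), F.sq p.1 ≤ n :=
    (Measure.quasiMeasurePreserving_fst).ae (ae_sph_le (Nat.cast_nonneg n))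
  filter_upwards [h1] with p hp
  refine hC p ⟨?_, Set.mem_univ _⟩
  rw [mem_closedBall_zero_iff, pi_norm_le_iff_of_nonneg (Real.sqrt_nonneg _)]
  intro i
  rw [Real.norm_eq_abs]
  refine Real.abs_le_sqrt (le_trans ?_ hp)
  exact Finset.single_le_sum (f := fun j => p.1 j ^ 2) (fun j _ => sq_nonneg _) (Finset.mem_univ i)

theorem continuous_XE2 (lam : Vec n) : Continuous fun p : Vec n × OG n => XE lam p.1 p.2 :=
  (continuous_HE lam 0).comp (continuous_mulVec.comp continuous_swap)

/-- the square of the spherical integral in the same form -/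
theorem IS_sq (hn : 0 < n) (lam : Vec n) {a b : Vec n} (ha : F.sq a = n)
    (hb : F.sq b = n) (hab : ip a b = 0) :
    IS lam 0 ^ 2 = ∫ O, exp (XE lam a O + XE lam b O) * Mo a (XE lam a O - XE lam b O)
      ∂(haar n) := by
  have c1 : Continuous fun p : Vec n × OG n => exp (XE lam a p.2 + XE lam p.1 p.2) :=
    continuous_exp.comp (((continuous_XE lam a).comp continuous_snd).add (continuous_XE2 lam))
  have c2 : Continuous fun p : Vec n × OG n => exp (XE lam a p.2 + XE lam b p.2) *
      exp ((XE lam a p.2 - XE lam b p.2) * (ip a p.1 / n)) := by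
    have := (continuous_ip a).comp (continuous_fst (X := Vec n) (Y := OG n))
    fun_prop
  have h1 : ∫ u, ∫ O, exp (XE lam a O + XE lam u O) ∂(haar n) ∂(sph n n) = IS lam 0 ^ 2 := by
    rw [integral_integral_swap (f := fun u O => exp (XE lam a O + XE lam u O))
      (integrable_prod c1)]
    have e : ∀ O : OG n, ∫ u, exp (XE lam a O + XE lam u O) ∂(sph n n) =
        exp (XE lam a O) * IS lam 0 := by
      intro O
      simp only [exp_add]
      rw [integral_const_mul]
      congr 1
      have h := (mp_sphG O n).map_eq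
      unfold IS
      conv_rhs => rw [← h]
      rw [integral_map (mp_sphG O n).measurable.aemeasurable (by fun_prop)]
      rfl
    simp only [e]
    rw [integral_mul_const, pow_two]
    congr 1
    have h := int_haar_sph hn a (G := fun u => exp (HE lam 0 u)) (by fun_prop)
    rw [ha] at h
    exact h
  rw [← h1]
  have h2 : ∫ u, ∫ O, exp (XE lam a O + XE lam u O) ∂(haar n) ∂(sph n n) =
      ∫ u, ∫ O, exp (XE lam a O + XE lam b O) *
        exp ((XE lam a O - XE lam b O) * (ip a u / n)) ∂(haar n) ∂(sph n n) := by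
    refine integral_congr_ae ?_
    filter_upwards [ae_sph hn (Nat.cast_nonneg n)] with u hu
    exact two_point hn lam ha hb hab ha hu
  rw [h2, integral_integral_swap (f := fun u O => exp (XE lam a O + XE lam b O) *
    exp ((XE lam a O - XE lam b O) * (ip a u / n))) (integrable_prod c2)]
  refine integral_congr_ae (ae_of_all _ fun O => ?_)
  simp only
  rw [integral_const_mul]
  rfl

/-! ### the exponential moment of the spherical overlap -/

theorem int_tilt {τ : ℝ} (hτ : τ < 1) (y : Vec n) :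
    Integrable (fun g => exp (τ * F.sq g / 2 + ip y g)) (gpi (Fin n)) ∧
      ∫ g, exp (τ * F.sq g / 2 + ip y g) ∂(gpi (Fin n)) =
        exp (-(n * Real.log (1 - τ)) / 2 + F.sq y / (1 - τ) / 2) := by
  have h := lintegral_tilt_one (ι := Fin n) (w := fun _ => 1 - τ) y fun _ => by linarith
  have e : ∀ g : Vec n, ∑ a, ((1 - (1 - τ)) * g a ^ 2 / 2 + y a * g a) =
      τ * F.sq g / 2 + ip y g := by
    intro g
    rw [Finset.sum_add_distrib, ← Finset.sum_div, ← Finset.mul_sum, sub_sub_cancel]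
    rfl
  simp only [e, Finset.sum_const, Finset.card_univ, Fintype.card_fin, nsmul_eq_mul,
    ← Finset.sum_div] at h
  have hm : AEStronglyMeasurable (fun g => exp (τ * F.sq g / 2 + ip y g)) (gpi (Fin n)) := by
    have := continuous_ip y
    fun_prop
  have hi : Integrable (fun g => exp (τ * F.sq g / 2 + ip y g)) (gpi (Fin n)) := by
    rw [← lintegral_ofReal_ne_top_iff_integrable hm (ae_of_all _ fun g => (exp_pos _).le), h]
    exact ENNReal.ofReal_ne_top
  refine ⟨hi, ?_⟩
  rw [← ofReal_integral_eq_lintegral_ofReal hi (ae_of_all _ fun g => (exp_pos _).le),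
    ENNReal.ofReal_eq_ofReal_iff (integral_nonneg fun g => (exp_pos _).le) (exp_pos _).le] at h
  exact h

theorem ip_neg' (a u : Vec n) : ip a (-u) = -ip a u := by
  unfold ip
  rw [← Finset.sum_neg_distrib]
  exact Finset.sum_congr rfl fun i _ => by simp

theorem ip_smul_left' (c : ℝ) (a u : Vec n) : ip (c • a) u = c * ip a u := by
  unfold ip
  rw [Finset.mul_sum]
  exact Finset.sum_congr rfl fun i _ => by simp only [Pi.smul_apply, smul_eq_mul]; ring

theorem ip_smul_right' (c : ℝ) (a u : Vec n) : ip a (c • u) = c * ip a u := by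
  rw [ip_comm', ip_smul_left', ip_comm']

theorem Mo_eq (a : Vec n) (t : ℝ) : Mo a t = ∫ u, cosh (t * (ip a u / n)) ∂(sph n n) := by
  have hc := continuous_ip a
  have h0 : (0 : ℝ) ≤ n := Nat.cast_nonneg n
  have h1 : Mo a t = ∫ u, exp (-(t * (ip a u / n))) ∂(sph n n) := by
    have h := mp_sph (O := (-1 : Mat n)) (by simp) (n : ℝ)
    unfold Mo
    conv_lhs => rw [← h.map_eq]
    rw [integral_map h.measurable.aemeasurable (by fun_prop)]
    refine integral_congr_ae (ae_of_all _ fun u => ?_)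
    simp only
    rw [Matrix.neg_mulVec, Matrix.one_mulVec, ip_neg']
    congr 1
    ring
  have h2 : ∫ u, cosh (t * (ip a u / n)) ∂(sph n n) =
      (Mo a t + ∫ u, exp (-(t * (ip a u / n))) ∂(sph n n)) / 2 := by
    simp only [Real.cosh_eq]
    rw [integral_div, integral_add (integrable_sph h0 (by fun_prop))
      (integrable_sph h0 (by fun_prop))]
    rfl
  rw [h2, ← h1]
  ring

theorem int_cosh_tilt {τ : ℝ} (hτ : τ < 1) (y : Vec n) :
    Integrable (fun g => exp (τ * F.sq g / 2) * cosh (ip y g)) (gpi (Fin n)) ∧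
      ∫ g, exp (τ * F.sq g / 2) * cosh (ip y g) ∂(gpi (Fin n)) =
        exp (-(n * Real.log (1 - τ)) / 2 + F.sq y / (1 - τ) / 2) := by
  obtain ⟨i1, e1⟩ := int_tilt hτ y
  obtain ⟨i2, e2⟩ := int_tilt hτ (-y)
  have e : (fun g => exp (τ * F.sq g / 2) * cosh (ip y g)) = fun g : Vec n =>
      (exp (τ * F.sq g / 2 + ip y g) + exp (τ * F.sq g / 2 + ip (-y) g)) / 2 := by
    funext g
    rw [Real.cosh_eq, ip_comm' (-y), ip_neg', ip_comm' g, exp_add, exp_add]
    ring
  have e3 : F.sq (-y) = F.sq y := by simp [F.sq]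
  rw [e]
  refine ⟨(i1.add i2).div_const 2, ?_⟩
  rw [integral_div, integral_add i1 i2, e1, e2, e3]
  ring

theorem Mo_ge_aux (hn : 0 < n) {a : Vec n} (ha : F.sq a = n) {s r τ : ℝ} (hr : 0 < r)
    (hτ0 : 0 ≤ τ) (hτ : τ < 1) :
    exp (s ^ 2 / 2) - exp (-(τ * r ^ 2) / 2) *
      exp (-(n * Real.log (1 - τ)) / 2 + s ^ 2 / (1 - τ) / 2) ≤ Mo a (s * r) := by
  have hn0 : (0 : ℝ) < n := by exact_mod_cast hn
  have hsn : 0 < √(n : ℝ) := Real.sqrt_pos.2 hn0
  set y : Vec n := (s / √(n : ℝ)) • a with hy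
  have hy2 : F.sq y = s ^ 2 := by
    rw [hy, sq_smul', ha, div_pow, Real.sq_sqrt hn0.le]; field_simp
  obtain ⟨i0, e0⟩ := int_cosh_tilt (τ := 0) one_pos y
  obtain ⟨i1, e1⟩ := int_cosh_tilt hτ y
  simp only [zero_mul, zero_div, exp_zero, one_mul, sub_zero, Real.log_one, mul_zero, neg_zero,
    zero_add, div_one] at i0 e0
  rw [hy2] at e0 e1
  have hc := continuous_ip a
  have iM : Integrable (fun g => cosh (s * r * (ip a (rp n g) / n))) (gpi (Fin n)) :=
    (mp_rp (n : ℝ)).integrable_comp_of_integrable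
      (g := fun u => cosh (s * r * (ip a u / n))) (integrable_sph hn0.le (by fun_prop))
  rw [Mo_eq, integral_sph _ (by fun_prop), ← e0, ← e1, ← integral_const_mul,
    ← integral_sub i0 (i1.const_mul _)]
  refine integral_mono_ae (i0.sub (i1.const_mul _)) iM ?_
  filter_upwards [ae_ne_zero hn] with g hg
  have hg0 := sq_pos' hg
  have hsg : 0 < √(F.sq g) := Real.sqrt_pos.2 hg0
  have hcp := Real.cosh_pos (ip y g)
  have e2 : s * r * (ip a (rp n g) / n) = r / √(F.sq g) * ip y g := by
    rw [rp, ip_smul_right', hy, ip_smul_left']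
    field_simp
    rw [Real.sq_sqrt hn0.le]
    ring
  rw [e2]
  by_cases h : F.sq g ≤ r ^ 2
  · have h1 : 1 ≤ r / √(F.sq g) := by
      rw [le_div_iff₀ hsg, one_mul]
      exact Real.sqrt_le_iff.2 ⟨hr.le, h⟩
    have h2 : cosh (ip y g) ≤ cosh (r / √(F.sq g) * ip y g) := by
      rw [Real.cosh_le_cosh, abs_mul, abs_of_pos (by linarith : 0 < r / √(F.sq g))]
      exact le_mul_of_one_le_left (abs_nonneg _) h1
    have h3 : 0 ≤ exp (-(τ * r ^ 2) / 2) * (exp (τ * F.sq g / 2) * cosh (ip y g)) := by positivity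
    linarith
  · have h1 : 1 ≤ exp (-(τ * r ^ 2) / 2) * exp (τ * F.sq g / 2) := by
      rw [← exp_add]
      refine one_le_exp ?_
      nlinarith [mul_le_mul_of_nonneg_left (not_le.1 h).le hτ0]
    have h2 := Real.cosh_pos (r / √(F.sq g) * ip y g)
    nlinarith

theorem neg_log_le {τ : ℝ} (h0 : 0 ≤ τ) (h1 : τ ≤ 1 / 2) : -Real.log (1 - τ) ≤ τ + 2 * τ ^ 2 := by
  have h := Real.one_sub_inv_le_log_of_pos (x := 1 - τ) (by linarith)
  have h2 : (1 - τ)⁻¹ ≤ 1 + τ + 2 * τ ^ 2 := by
    rw [inv_le_iff_one_le_mul₀ (by linarith)]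
    nlinarith [mul_nonneg (mul_nonneg h0 h0) (sub_nonneg.2 h1)]
  linarith

/-- The spherical overlap has almost Gaussian exponential moments up to the scale `n ^ (3/4)`. -/
theorem Mo_ge (hn : 4 ≤ n) {a : Vec n} (ha : F.sq a = n) {t ε L : ℝ} (hL : 0 ≤ L)
    (ht : t ^ 2 ≤ ε * (n * √n)) :
    exp (t ^ 2 / (2 * n) - ε * L / 2) * (1 - exp (1 - L / 2 + ε)) ≤ Mo a t := by
  have hn4 : (4 : ℝ) ≤ n := by exact_mod_cast hn
  have hn0 : (0 : ℝ) < n := by linarith
  have hq2 : 2 ≤ √(n : ℝ) := Real.le_sqrt_of_sq_le (by linarith)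
  set q := √(n : ℝ) with hq
  have hqq : q * q = n := Real.mul_self_sqrt hn0.le
  have hq0 : 0 < q := by linarith
  have hε : 0 ≤ ε := by
    by_contra h
    have : ε * (n * q) < 0 := mul_neg_of_neg_of_pos (not_le.1 h) (by positivity)
    nlinarith [sq_nonneg t]
  set r := √(n + L * q) with hr
  have hr2 : r ^ 2 = n + L * q := Real.sq_sqrt (by positivity)
  have hr0 : 0 < r := Real.sqrt_pos.2 (by positivity)
  have hτ : 1 / q ≤ 1 / 2 := one_div_le_one_div_of_le two_pos hq2
  have hτ0 : 0 ≤ 1 / q := by positivity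
  have h := Mo_ge_aux (by omega) ha (s := t / r) (τ := 1 / q) hr0 hτ0 (by linarith)
  rw [div_mul_cancel₀ _ hr0.ne', div_pow, hr2] at h
  set S := t ^ 2 / (n + L * q) with hS
  have hS0 : 0 ≤ S := by positivity
  have hS1 : S ≤ ε * q := by
    rw [hS, div_le_iff₀ (by positivity)]
    nlinarith [mul_nonneg (mul_nonneg hε hq0.le) (mul_nonneg hL hq0.le)]
  have hS2 : t ^ 2 / (2 * n) - ε * L / 2 ≤ S / 2 := by
    have h1 : t ^ 2 = S * (n + L * q) := by rw [hS]; field_simp
    have h2 : t ^ 2 / (2 * n) = S / 2 + S * L / (2 * q) := by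
      rw [h1, ← hqq]; field_simp
    have h3 : S * L / (2 * q) ≤ ε * L / 2 := by
      rw [div_le_div_iff₀ (by positivity) two_pos]
      nlinarith [mul_le_mul_of_nonneg_right hS1 hL]
    linarith
  have hlog := neg_log_le hτ0 hτ
  have h4 : exp (-(1 / q * (n + L * q)) / 2) *
      exp (-(n * Real.log (1 - 1 / q)) / 2 + S / (1 - 1 / q) / 2) ≤
      exp (S / 2) * exp (1 - L / 2 + ε) := by
    rw [← exp_add, ← exp_add]
    refine exp_le_exp.2 ?_
    have h1 : 1 / q * (n + L * q) = q + L := by rw [← hqq]; field_simp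
    have h2 : (n : ℝ) * (1 / q + 2 * (1 / q) ^ 2) = q + 2 := by rw [← hqq]; field_simp
    have h3 : S / (1 - 1 / q) ≤ S + 2 * ε := by
      rw [div_le_iff₀ (by linarith)]
      have h5 : S * (1 / q) ≤ ε := by
        rw [mul_one_div, div_le_iff₀ hq0]; exact hS1
      nlinarith [mul_le_mul_of_nonneg_left hτ hε]
    have h5 := mul_le_mul_of_nonneg_left hlog hn0.le
    rw [h2] at h5
    rw [h1]
    linarith
  by_cases hc : exp (1 - L / 2 + ε) ≤ 1
  · have h6 : exp (t ^ 2 / (2 * n) - ε * L / 2) ≤ exp (S / 2) := exp_le_exp.2 hS2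
    nlinarith [mul_le_mul_of_nonneg_right h6 (sub_nonneg.2 hc)]
  · have h6 : 0 ≤ Mo a t := integral_nonneg fun u => (exp_pos _).le
    nlinarith [exp_pos (t ^ 2 / (2 * n) - ε * L / 2), not_le.1 hc]

end Vale.Agent.N150.LowZ
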