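import Mathlib
import Vale.Agent.N150.LowZ1

/-! Second moment of the partition function: saddle algebra and scalar inequalities. -/

open MeasureTheory ProbabilityTheory Matrix Real Set
open scoped ENNReal

namespace Vale.Agent.N150.LowZ

open Vale.Agent.P150 Vale.Agent.P150.F Vale.Agent.N150.Sp

variable {n : ℕ}

theorem PhiS_zero (lam : Vec n) (z : ℝ) :
    PhiS lam 0 z = n * (z - 1) / 2 - (∑ a, Real.log (z - lam a)) / 2 := by
  simp [PhiS]

theorem sadF_zero (lam : Vec n) (z : ℝ) : sadF lam 0 z = ∑ a, (z - lam a)⁻¹ := by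
  simp [sadF]

theorem PhiS_smul {lam : Vec n} {z θ : ℝ} (hθ : 0 < θ) (hz : ∀ a, lam a < z) :
    PhiS (θ • lam) 0 (θ * z) = PhiS lam 0 z + n * (θ - 1) * z / 2 - n * Real.log θ / 2 := by
  rw [PhiS_zero, PhiS_zero]
  have h : ∀ a, Real.log (θ * z - (θ • lam) a) = Real.log θ + Real.log (z - lam a) := by
    intro a
    rw [Pi.smul_apply, smul_eq_mul, ← mul_sub, Real.log_mul hθ.ne' (sub_pos.2 (hz a)).ne']
  simp only [h, Finset.sum_add_distrib, Finset.sum_const, Finset.card_univ, Fintype.card_fin,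
    nsmul_eq_mul]
  ring

theorem PhiS_shift {lam : Vec n} {z0 z1 η : ℝ} (hz : ∀ a, lam a < z0) (h01 : z0 ≤ z1)
    (hη : 0 ≤ η) :
    PhiS lam 0 (z0 + η) - PhiS lam 0 z0 ≤ PhiS lam 0 (z1 + η) - PhiS lam 0 z1 := by
  have h : ∀ a, Real.log (z1 + η - lam a) + Real.log (z0 - lam a) ≤
      Real.log (z0 + η - lam a) + Real.log (z1 - lam a) := by
    intro a
    have h0 : 0 < z0 - lam a := sub_pos.2 (hz a)
    rw [← Real.log_mul (by linarith) h0.ne', ← Real.log_mul (by linarith) (by linarith)]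
    refine Real.log_le_log (mul_pos (by linarith) h0) ?_
    nlinarith [mul_le_mul_of_nonneg_left h01 hη]
  have h2 := Finset.sum_le_sum fun a (_ : a ∈ Finset.univ) => h a
  rw [Finset.sum_add_distrib, Finset.sum_add_distrib] at h2
  simp only [PhiS_zero]
  linarith

theorem hasDerivAt_PhiS {lam : Vec n} {z : ℝ} (hz : ∀ a, lam a < z) :
    HasDerivAt (fun z => PhiS lam 0 z) ((n - sadF lam 0 z) / 2) z := by
  simp only [PhiS_zero, sadF_zero]
  have h1 : HasDerivAt (fun z : ℝ => ∑ a, Real.log (z - lam a)) (∑ a, (z - lam a)⁻¹) z := by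
    refine HasDerivAt.fun_sum fun a _ => ?_
    have := ((hasDerivAt_id z).sub_const (lam a)).log (sub_pos.2 (hz a)).ne'
    simpa using this
  have h2 : HasDerivAt (fun z : ℝ => (n : ℝ) * (z - 1) / 2) (n * 1 / 2) z :=
    (((hasDerivAt_id z).sub_const 1).const_mul _).div_const 2
  exact (h2.sub (h1.div_const 2)).congr_deriv (by ring)

theorem le_of_deriv' {f g f' g' : ℝ → ℝ} {a b : ℝ} (hab : a ≤ b)
    (hf : ∀ x ∈ Icc a b, HasDerivAt f (f' x) x) (hg : ∀ x ∈ Icc a b, HasDerivAt g (g' x) x)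
    (h : ∀ x ∈ Icc a b, f' x ≤ g' x) : f b - f a ≤ g b - g a := by
  have hm : MonotoneOn (fun x => g x - f x) (Icc a b) := by
    refine monotoneOn_of_hasDerivWithinAt_nonneg (convex_Icc a b)
      (f' := fun x => g' x - f' x)
      (fun x hx => ((hg x hx).sub (hf x hx)).continuousAt.continuousWithinAt)
      (fun x hx => ((hg x (interior_subset hx)).sub
        (hf x (interior_subset hx))).hasDerivWithinAt)
      fun x hx => sub_nonneg.2 (h x (interior_subset hx))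
  have := hm (left_mem_Icc.2 hab) (right_mem_Icc.2 hab) hab
  simp only at this
  linarith

/-- the semicircle potential in the variable `U` -/
noncomputable def Bs (U : ℝ) : ℝ := U + U⁻¹ - Real.log U - (U ^ 2)⁻¹ / 2

theorem hasDerivAt_Bs {U : ℝ} (hU : 0 < U) :
    HasDerivAt Bs ((1 - U⁻¹) * (1 - (U ^ 2)⁻¹)) U := by
  have h1 := (((hasDerivAt_id U).add (hasDerivAt_inv hU.ne')).sub
    (Real.hasDerivAt_log hU.ne')).sub
    ((((hasDerivAt_id U).pow 2).inv (by simp [hU.ne'])).div_const 2)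
  refine h1.congr_deriv ?_
  simp only [id, Pi.pow_apply]
  field_simp
  ring

theorem Bs_ge {U : ℝ} (hU : 1 ≤ U) : 3 / 2 ≤ Bs U := by
  have h := le_of_deriv' (f := fun _ => 0) (f' := fun _ => 0) (g := Bs) hU
    (fun x _ => hasDerivAt_const x 0) (fun x hx => hasDerivAt_Bs (by linarith [hx.1]))
    (fun x hx => mul_nonneg (sub_nonneg.2 (inv_le_one_of_one_le₀ hx.1))
      (sub_nonneg.2 (inv_le_one_of_one_le₀ (one_le_pow₀ hx.1))))
  have e : Bs 1 = 3 / 2 := by simp [Bs]; norm_num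
  linarith

theorem add_inv_mono {U V : ℝ} (hU : 1 ≤ U) (h : U ≤ V) : U + U⁻¹ ≤ V + V⁻¹ := by
  have hU0 : 0 < U := by linarith
  have hV0 : 0 < V := by linarith
  have e : V + V⁻¹ - (U + U⁻¹) = (V - U) * (U * V - 1) / (U * V) := by field_simp; ring
  have : 0 ≤ (V - U) * (U * V - 1) / (U * V) :=
    div_nonneg (mul_nonneg (by linarith) (by nlinarith)) (by positivity)
  linarith

theorem PhiS_incr {lam : Vec n} {U1 U θ : ℝ} (h1 : 1 ≤ U1) (hU : U1 ≤ U) (hθ : 0 ≤ θ)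
    (hl : ∀ a, lam a < U1 + U1⁻¹)
    (hT : ∀ V ∈ Icc U1 U, n * (V⁻¹ - θ * (V - 1)) ≤ sadF lam 0 (V + V⁻¹)) :
    PhiS lam 0 (U + U⁻¹) - PhiS lam 0 (U1 + U1⁻¹) ≤
      n / 2 * (Bs U - 3 / 2 + 2 / 3 * θ * (U - 1) ^ 3) := by
  have hn : (0 : ℝ) ≤ n := Nat.cast_nonneg n
  have h := le_of_deriv' (f := fun V => PhiS lam 0 (V + V⁻¹))
    (f' := fun V => (n - sadF lam 0 (V + V⁻¹)) / 2 * (1 - (V ^ 2)⁻¹))
    (g := fun V => n / 2 * (Bs V + 2 / 3 * θ * (V - 1) ^ 3))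
    (g' := fun V => n / 2 * ((1 - V⁻¹) * (1 - (V ^ 2)⁻¹) + 2 * θ * (V - 1) ^ 2)) hU
    (fun V hV => by
      have hV0 : 0 < V := by linarith [hV.1]
      have h2 : HasDerivAt (fun V : ℝ => V + V⁻¹) (1 - (V ^ 2)⁻¹) V :=
        ((hasDerivAt_id V).add (hasDerivAt_inv hV0.ne')).congr_deriv (by ring)
      exact (hasDerivAt_PhiS (z := V + V⁻¹)
        fun a => (hl a).trans_le (add_inv_mono h1 hV.1)).comp V h2)
    (fun V hV => by
      have hV0 : 0 < V := by linarith [hV.1]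
      have h2 := ((hasDerivAt_Bs hV0).add
        ((((hasDerivAt_id V).sub_const 1).pow 3).const_mul (2 / 3 * θ))).const_mul ((n : ℝ) / 2)
      refine h2.congr_deriv ?_
      simp only [id]
      push_cast
      ring)
    (fun V hV => by
      have hV1 : 1 ≤ V := h1.trans hV.1
      have hV0 : 0 < V := by linarith
      have h2 := hT V hV
      have h3 : 0 ≤ 1 - (V ^ 2)⁻¹ := sub_nonneg.2 (inv_le_one_of_one_le₀ (one_le_pow₀ hV1))
      have h4 : 1 - (V ^ 2)⁻¹ ≤ 2 * (V - 1) := by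
        have e : 2 * (V - 1) - (1 - (V ^ 2)⁻¹) = (V - 1) * (2 * V ^ 2 - V - 1) / V ^ 2 := by
          field_simp; ring
        have : 0 ≤ (V - 1) * (2 * V ^ 2 - V - 1) / V ^ 2 :=
          div_nonneg (mul_nonneg (by linarith) (by nlinarith)) (by positivity)
        linarith
      have h5 : (n - sadF lam 0 (V + V⁻¹)) / 2 * (1 - (V ^ 2)⁻¹) ≤
          n / 2 * (1 - V⁻¹ + θ * (V - 1)) * (1 - (V ^ 2)⁻¹) :=
        mul_le_mul_of_nonneg_right (by linarith) h3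
      have h6 : θ * (V - 1) * (1 - (V ^ 2)⁻¹) ≤ θ * (V - 1) * (2 * (V - 1)) :=
        mul_le_mul_of_nonneg_left h4 (mul_nonneg hθ (by linarith))
      have h7 := mul_le_mul_of_nonneg_left h6 (by positivity : (0 : ℝ) ≤ n / 2)
      nlinarith)
  have h2 := Bs_ge h1
  have h3 : 0 ≤ 2 / 3 * θ * (U1 - 1) ^ 3 := by
    have : 0 ≤ U1 - 1 := by linarith
    positivity
  nlinarith

/-- the two-replica free energy of the semicircle law -/
noncomputable def psi (ρ : ℝ) : ℝ := ρ / 2 + ρ ^ 2 / 4 - Real.log (1 + ρ) / 2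

/-- the exponent of the two-replica bound -/
theorem two_exponent {lam : Vec n} {U1 z0 v0 ρ : ℝ} (h1 : 1 ≤ U1) (hv : U1 ≤ 1 + v0 / 10)
    (hv0 : v0 ≤ ρ) (hρ : ρ ≤ 9 / 10) (hz : ∀ a, lam a < z0) (hz1 : z0 ≤ U1 + U1⁻¹)
    (hT : ∀ V ∈ Icc U1 10, n * (V⁻¹ - 1 / 100000 * (V - 1)) ≤ sadF lam 0 (V + V⁻¹)) :
    ∃ z, (∀ a, lam a < z) ∧
      PhiS ((1 + ρ) • lam) 0 ((1 + ρ) * z0) + PhiS ((1 - ρ) • lam) 0 ((1 - ρ) * z) ≤
        2 * PhiS lam 0 z0 + n * (psi ρ + ρ ^ 3 / 100) := by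
  have hn : (0 : ℝ) ≤ n := Nat.cast_nonneg n
  have hρ0 : 0 ≤ ρ := by linarith
  set u : ℝ := 1 - ρ with hu
  have hu0 : 0 < u := by linarith
  have hu1 : 1 / 10 ≤ u := by linarith
  have hU1 : U1 ≤ u⁻¹ := by
    rw [le_inv_comm₀ (by linarith) hu0, ← one_div, le_div_iff₀ (by linarith)]
    nlinarith
  have hU10 : u⁻¹ ≤ 10 := by
    rw [inv_le_comm₀ hu0 (by norm_num)]; linarith
  set η : ℝ := u⁻¹ + u - (U1 + U1⁻¹) with hη
  have hη0 : 0 ≤ η := by
    have := add_inv_mono h1 hU1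
    rw [inv_inv] at this
    linarith
  refine ⟨z0 + η, fun a => by linarith [hz a], ?_⟩
  rw [PhiS_smul (by linarith) hz, PhiS_smul hu0 fun a => by linarith [hz a]]
  have h2 := PhiS_shift hz hz1 hη0
  have h3 := PhiS_incr (lam := lam) (θ := 1 / 100000) h1 hU1 (by norm_num)
    (fun a => (hz a).trans_le hz1) fun V hV => hT V ⟨hV.1, hV.2.trans hU10⟩
  rw [inv_inv] at h3
  have e1 : U1 + U1⁻¹ + η = u⁻¹ + u := by rw [hη]; ring
  rw [e1] at h2
  have e2 : Bs u⁻¹ = u⁻¹ + u + Real.log u - u ^ 2 / 2 := by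
    rw [Bs, inv_inv, Real.log_inv, inv_pow, inv_inv]; ring
  have e3 : u⁻¹ - 1 = ρ * u⁻¹ := by field_simp; rw [hu]; ring
  have h4 : (u⁻¹ - 1) ^ 3 ≤ 1000 * ρ ^ 3 := by
    rw [e3, mul_pow, mul_comm]
    refine mul_le_mul_of_nonneg_right ?_ (by positivity)
    calc u⁻¹ ^ 3 ≤ 10 ^ 3 := pow_le_pow_left₀ (by positivity) hU10 3
      _ = 1000 := by norm_num
  have h5 : U1 + U1⁻¹ - 2 ≤ ρ ^ 2 / 100 := by
    have h6 : U1 + U1⁻¹ - 2 = (U1 - 1) ^ 2 / U1 := by field_simp; ring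
    have h7 : (U1 - 1) ^ 2 / U1 ≤ (U1 - 1) ^ 2 := div_le_self (sq_nonneg _) h1
    have h8 : (U1 - 1) ^ 2 ≤ (ρ / 10) ^ 2 := pow_le_pow_left₀ (by linarith) (by linarith) 2
    linarith
  have e4 : u * (u⁻¹ + u - 2) = ρ ^ 2 := by field_simp; rw [hu]; ring
  have h9 : ρ * (U1 + U1⁻¹ - 2) ≤ ρ * (ρ ^ 2 / 100) := mul_le_mul_of_nonneg_left h5 hρ0
  have h10 : (Bs u⁻¹ - 3 / 2 + 2 / 3 * (1 / 100000) * (u⁻¹ - 1) ^ 3) / 2 - ρ * η / 2
      - Real.log (1 + ρ) / 2 - Real.log u / 2 ≤ psi ρ + ρ ^ 3 / 100 := by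
    rw [e2, psi, hη]
    have h11 : 0 ≤ ρ ^ 3 := by positivity
    have e5 : u ^ 2 = 1 - 2 * ρ + ρ ^ 2 := by rw [hu]; ring
    have e6 : ρ * (u⁻¹ + u - 2) = (u⁻¹ + u - 2) - ρ ^ 2 := by
      rw [← e4, hu]; ring
    nlinarith
  have h12 := mul_le_mul_of_nonneg_left h10 hn
  have e7 : u - 1 = -ρ := by rw [hu]; ring
  rw [e7]
  nlinarith

/-! ### scalar inequalities -/

theorem log_ge_four {x : ℝ} (hx : 0 ≤ x) :
    x - x ^ 2 / 2 + x ^ 3 / 3 - x ^ 4 / 4 ≤ Real.log (1 + x) := by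
  have h := le_of_deriv' (f := fun x => x - x ^ 2 / 2 + x ^ 3 / 3 - x ^ 4 / 4)
    (f' := fun x => 1 - x + x ^ 2 - x ^ 3) (g := fun x => Real.log (1 + x))
    (g' := fun x => (1 + x)⁻¹) hx
    (fun y _ => by
      have h1 := (((hasDerivAt_id y).sub ((hasDerivAt_pow 2 y).div_const 2)).add
        ((hasDerivAt_pow 3 y).div_const 3)).sub ((hasDerivAt_pow 4 y).div_const 4)
      refine h1.congr_deriv ?_
      push_cast
      ring)
    (fun y hy => by
      have := ((hasDerivAt_id y).const_add 1).log (by simp only [id]; linarith [hy.1])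
      simpa using this)
    (fun y hy => by
      have h0 : 0 < 1 + y := by linarith [hy.1]
      rw [← one_div, le_div_iff₀ h0]
      nlinarith [pow_nonneg hy.1 4])
  simpa using h

theorem cosh_small {v ρ d : ℝ} (h1 : v ≤ ρ) (h2 : ρ ≤ v + d) (h0 : 0 ≤ ρ) (h9 : ρ ≤ 9 / 10) :
    cosh v ≤ exp (ρ * v - psi ρ - ρ ^ 3 / 50 + d ^ 2 / 2) := by
  refine (Real.cosh_le_exp_half_sq v).trans (exp_le_exp.2 ?_)
  have h3 := log_ge_four h0
  have h4 : (ρ - v) ^ 2 ≤ d ^ 2 := pow_le_pow_left₀ (by linarith) (by linarith) 2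
  have h5 : ρ ^ 4 ≤ 9 / 10 * ρ ^ 3 := by
    rw [pow_succ, mul_comm]
    exact mul_le_mul_of_nonneg_right h9 (by positivity)
  have h6 : 0 ≤ ρ ^ 3 := by positivity
  rw [psi]
  nlinarith

theorem exp_le_inv {x : ℝ} (hx : x < 1) : exp x ≤ (1 - x)⁻¹ := by
  have h := Real.add_one_le_exp (-x)
  rw [exp_neg, le_inv_comm₀ (by linarith) (exp_pos _)] at h
  rwa [show -x + 1 = 1 - x by ring] at h

theorem cosh_large {v : ℝ} (h1 : 9 / 10 ≤ v) (h2 : v ≤ 13 / 5) :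
    cosh v ≤ exp (9 / 10 * v - psi (9 / 10) - (9 / 10) ^ 3 / 50) := by
  have hlog : 0.64 ≤ Real.log (1 + 9 / 10) := by
    have h3 := Real.log_two_gt_d9
    have h4 := Real.one_sub_inv_le_log_of_pos (x := 19 / 20) (by norm_num)
    rw [show (1 : ℝ) + 9 / 10 = 2 * (19 / 20) by norm_num, Real.log_mul (by norm_num) (by norm_num)]
    norm_num at h4 ⊢
    linarith
  have h5 : exp (9 / 10 * v) * exp (-0.348) ≤
      exp (9 / 10 * v - psi (9 / 10) - (9 / 10) ^ 3 / 50) := by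
    rw [← exp_add]
    refine exp_le_exp.2 ?_
    rw [psi]
    norm_num at hlog ⊢
    linarith
  refine le_trans ?_ h5
  have h6 : (0.69 : ℝ) ≤ exp (-0.348) := by
    have h7 := Real.add_one_le_exp (-0.087)
    have h8 : exp (-0.348) = exp (-0.087) ^ 4 := by rw [← exp_nat_mul]; norm_num
    rw [h8]
    calc (0.69 : ℝ) ≤ (-0.087 + 1) ^ 4 := by norm_num
      _ ≤ _ := pow_le_pow_left₀ (by norm_num) h7 4
  set s : ℝ := (v - 9 / 10) / (17 / 10) with hs
  have hs0 : 0 ≤ s := div_nonneg (by linarith) (by norm_num)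
  have hs1 : s ≤ 1 := by rw [hs, div_le_one (by norm_num)]; linarith
  have hc : ∀ c : ℝ, exp (c * v) ≤ (1 - s) * exp (c * (9 / 10)) + s * exp (c * (13 / 5)) := by
    intro c
    have h := convexOn_exp.2 (mem_univ (c * (9 / 10))) (mem_univ (c * (13 / 5)))
      (sub_nonneg.2 hs1) hs0 (by ring)
    simp only [smul_eq_mul] at h
    rwa [show (1 - s) * (c * (9 / 10)) + s * (c * (13 / 5)) = c * v by rw [hs]; ring] at h
  have a1 : exp (1 / 10 * (9 / 10)) ≤ 1.1 :=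
    (exp_le_inv (by norm_num)).trans (by norm_num)
  have a2 : exp (1 / 10 * (13 / 5)) ≤ 1.322 := by
    have h7 : exp (1 / 10 * (13 / 5)) = exp 0.13 ^ 2 := by rw [← exp_nat_mul]; norm_num
    rw [h7]
    calc exp 0.13 ^ 2 ≤ ((1 - 0.13)⁻¹) ^ 2 :=
          pow_le_pow_left₀ (exp_pos _).le (exp_le_inv (by norm_num)) 2
      _ ≤ _ := by norm_num
  have a3 : exp (-(19 / 10) * (9 / 10)) ≤ 0.25 := by
    have h7 := Real.quadratic_le_exp_of_nonneg (x := 19 / 10 * (9 / 10)) (by norm_num)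
    rw [neg_mul, exp_neg, inv_le_comm₀ (exp_pos _) (by norm_num)]
    exact le_trans (by norm_num) h7
  have a4 : exp (-(19 / 10) * (13 / 5)) ≤ 0.056 := by
    have h7 := Real.quadratic_le_exp_of_nonneg (x := 19 / 10 * (13 / 5)) (by norm_num)
    rw [neg_mul, exp_neg, inv_le_comm₀ (exp_pos _) (by norm_num)]
    exact le_trans (by norm_num) h7
  have h9 : exp (1 / 10 * v) + exp (-(19 / 10) * v) ≤ 1.38 := by
    have b1 := hc (1 / 10)
    have b2 := hc (-(19 / 10))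
    have b3 := mul_le_mul_of_nonneg_left (add_le_add a1 a3) (sub_nonneg.2 hs1)
    have b4 := mul_le_mul_of_nonneg_left (add_le_add a2 a4) hs0
    nlinarith
  have e : cosh v = exp (9 / 10 * v) * ((exp (1 / 10 * v) + exp (-(19 / 10) * v)) / 2) := by
    rw [Real.cosh_eq, ← mul_div_assoc, mul_add, ← exp_add, ← exp_add]
    congr 3 <;> ring
  rw [e]
  exact mul_le_mul_of_nonneg_left (by linarith) (exp_pos _).le

/-- the grid of overlaps -/
noncomputable def grid (n : ℕ) (v0 : ℝ) (j : ℕ) : ℝ := max v0 (min (j / n) (9 / 10))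

theorem grid_mem {v0 : ℝ} (h : v0 ≤ 9 / 10) (j : ℕ) : v0 ≤ grid n v0 j ∧ grid n v0 j ≤ 9 / 10 :=
  ⟨le_max_left _ _, max_le h (min_le_right _ _)⟩

theorem cosh_pow_le (hn : 0 < n) {v0 v : ℝ} (h9 : v0 ≤ 9 / 10) (h1 : v0 ≤ |v|)
    (h2 : |v| ≤ 13 / 5) :
    ∃ j ∈ Finset.range (n + 1), cosh v ^ n ≤
      exp (1 - n * (psi (grid n v0 j) + grid n v0 j ^ 3 / 50)) * exp (grid n v0 j * (n * |v|)) := by
  have hn1 : (1 : ℝ) ≤ n := by exact_mod_cast hn
  have hn0 : (0 : ℝ) < n := by linarith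
  rw [← Real.cosh_abs]
  set w := |v| with hw
  have hw0 : 0 ≤ w := abs_nonneg v
  rcases le_total w (9 / 10) with h | h
  · have hj : ⌈n * w⌉₊ ≤ n := Nat.ceil_le.2 (by nlinarith)
    refine ⟨⌈n * w⌉₊, Finset.mem_range.2 (by omega), ?_⟩
    have h3 : w ≤ min ((⌈n * w⌉₊ : ℝ) / n) (9 / 10) := by
      refine le_min ?_ h
      rw [le_div_iff₀ hn0, mul_comm]
      exact Nat.le_ceil _
    have h4 : min ((⌈n * w⌉₊ : ℝ) / n) (9 / 10) ≤ w + 1 / n := by
      refine (min_le_left _ _).trans ?_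
      have := (Nat.ceil_lt_add_one (by positivity : 0 ≤ n * w)).le
      rw [div_le_iff₀ hn0, add_mul, one_div, inv_mul_cancel₀ hn0.ne']
      linarith
    have e : grid n v0 ⌈n * w⌉₊ = min ((⌈n * w⌉₊ : ℝ) / n) (9 / 10) := max_eq_right (h1.trans h3)
    rw [e]
    set ρ := min ((⌈n * w⌉₊ : ℝ) / n) (9 / 10)
    have h5 := cosh_small h3 h4 (hw0.trans h3) (min_le_right _ _)
    refine (pow_le_pow_left₀ (Real.cosh_pos _).le h5 n).trans ?_
    rw [← exp_nat_mul, ← exp_add]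
    refine exp_le_exp.2 ?_
    have h6 : (n : ℝ) * ((1 / n) ^ 2 / 2) ≤ 1 := by
      rw [show (n : ℝ) * ((1 / n) ^ 2 / 2) = 1 / (2 * n) by field_simp, div_le_one (by linarith)]
      linarith
    nlinarith
  · refine ⟨n, Finset.mem_range.2 (by omega), ?_⟩
    have e : grid n v0 n = 9 / 10 := by
      rw [grid, div_self hn0.ne', min_eq_right (by norm_num), max_eq_right h9]
    rw [e]
    refine (pow_le_pow_left₀ (Real.cosh_pos _).le (cosh_large h h2) n).trans ?_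
    rw [← exp_nat_mul, ← exp_add]
    refine exp_le_exp.2 ?_
    nlinarith

end Vale.Agent.N150.LowZ
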