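import Mathlib
import Vale.Agent.N150.LowZ2
import Vale.Agent.N150.EdgeSt
import Vale.Agent.N150.SphUp

/-! The second moment of the partition function over Haar frames is asymptotically the square of
the first moment. -/

open MeasureTheory ProbabilityTheory Matrix Real Set Filter Topology
open scoped ENNReal

namespace Vale.Agent.N150.LowZ

open Vale.Agent.P150 Vale.Agent.P150.F Vale.Agent.N150.Sp

variable {n : ℕ}

/-- the rank two upper bound for an orthogonal frame -/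
def R2 (lam a b : Vec n) (C : ℝ) : Prop :=
  ∀ θ₁ θ₂ γ₁ γ₂ : ℝ, 0 < θ₁ → θ₁ ≤ 2 → 0 < θ₂ → θ₂ ≤ 2 → (∀ i, (θ₁ • lam) i < γ₁) →
    (∀ i, (θ₂ • lam) i < γ₂) →
    ∫ O, exp (XE (θ₁ • lam) a O + XE (θ₂ • lam) b O) ∂(haar n) ≤
      C * exp (PhiS (θ₁ • lam) 0 γ₁ + PhiS (θ₂ • lam) 0 γ₂)

theorem XE_smul (θ : ℝ) (lam a : Vec n) (O : OG n) : XE (θ • lam) a O = θ * XE lam a O := by
  unfold XE HE
  simp only [Pi.zero_apply, zero_mul, Finset.sum_const_zero, add_zero, Pi.smul_apply, smul_eq_mul]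
  rw [← mul_div_assoc, Finset.mul_sum]
  congr 1
  exact Finset.sum_congr rfl fun i _ => by ring

theorem XE_mem {lam a : Vec n} (hl : ∀ i, -3 ≤ lam i ∧ lam i ≤ 11 / 5) (ha : F.sq a = n)
    (O : OG n) : -(3 / 2 * n) ≤ XE lam a O ∧ XE lam a O ≤ 11 / 10 * n := by
  have h := sq_act O a
  rw [ha] at h
  unfold XE HE
  simp only [Pi.zero_apply, zero_mul, Finset.sum_const_zero, add_zero]
  have h1 : ∑ i, -3 * (O.1 *ᵥ a) i ^ 2 ≤ ∑ i, lam i * (O.1 *ᵥ a) i ^ 2 :=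
    Finset.sum_le_sum fun i _ => mul_le_mul_of_nonneg_right (hl i).1 (sq_nonneg _)
  have h2 : ∑ i, lam i * (O.1 *ᵥ a) i ^ 2 ≤ ∑ i, 11 / 5 * (O.1 *ᵥ a) i ^ 2 :=
    Finset.sum_le_sum fun i _ => mul_le_mul_of_nonneg_right (hl i).2 (sq_nonneg _)
  rw [← Finset.mul_sum] at h1 h2
  unfold F.sq at h
  rw [h] at h1 h2
  constructor <;> linarith

theorem integrable_Mo (lam a b : Vec n) :
    Integrable (fun O => exp (XE lam a O + XE lam b O) * Mo a (XE lam a O - XE lam b O))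
      (haar n) := by
  have c2 : Continuous fun p : Vec n × OG n => exp (XE lam a p.2 + XE lam b p.2) *
      exp ((XE lam a p.2 - XE lam b p.2) * (ip a p.1 / n)) := by
    have := (continuous_ip a).comp (continuous_fst (X := Vec n) (Y := OG n))
    fun_prop
  refine (integrable_prod c2).integral_prod_right.congr (ae_of_all _ fun O => ?_)
  simp only
  rw [integral_const_mul]
  rfl

/-- weights of the grid -/
noncomputable def kp (n : ℕ) (v0 : ℝ) (j : ℕ) : ℝ :=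
  exp (1 - n * (psi (grid n v0 j) + grid n v0 j ^ 3 / 50))

/-- the symmetrised two-replica weight -/
noncomputable def EE (lam a b : Vec n) (ρ : ℝ) (O : OG n) : ℝ :=
  exp (XE ((1 + ρ) • lam) a O + XE ((1 - ρ) • lam) b O) +
    exp (XE ((1 - ρ) • lam) a O + XE ((1 + ρ) • lam) b O)

theorem EE_nonneg (lam a b : Vec n) (ρ : ℝ) (O : OG n) : 0 ≤ EE lam a b ρ O := by
  unfold EE; positivity

theorem le_EE (lam a b : Vec n) (ρ : ℝ) (O : OG n) :
    exp (XE lam a O + XE lam b O) * exp (ρ * |XE lam a O - XE lam b O|) ≤ EE lam a b ρ O := by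
  unfold EE
  simp only [XE_smul]
  rw [← exp_add]
  rcases abs_choice (XE lam a O - XE lam b O) with h | h
  · rw [h]
    exact le_add_of_le_of_nonneg (le_of_eq (congrArg exp (by ring))) (exp_pos _).le
  · rw [h]
    exact le_add_of_nonneg_of_le (exp_pos _).le (le_of_eq (congrArg exp (by ring)))

theorem cosh_le_Mo (hn : 4 ≤ n) {a : Vec n} (ha : F.sq a = n) {v0 ε L W : ℝ} (hL : 0 ≤ L)
    (hε : (n * v0) ^ 2 ≤ ε * (n * √n)) (hq : exp (1 - L / 2 + ε) < 1) (hW : |W / n| ≤ v0) :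
    cosh (W / n) ^ n ≤ exp (ε * L / 2) / (1 - exp (1 - L / 2 + ε)) * Mo a W := by
  have hn0 : (0 : ℝ) < n := by exact_mod_cast (by omega : 0 < n)
  have h2 : W ^ 2 ≤ ε * (n * √n) := by
    refine le_trans ?_ hε
    rw [abs_div, abs_of_pos hn0, div_le_iff₀ hn0] at hW
    rw [← sq_abs, mul_comm]
    exact pow_le_pow_left₀ (abs_nonneg _) hW 2
  have h3 := Mo_ge hn ha hL h2
  have h4 : cosh (W / n) ^ n ≤ exp (W ^ 2 / (2 * n)) := by
    refine (pow_le_pow_left₀ (Real.cosh_pos _).le (Real.cosh_le_exp_half_sq _) n).trans ?_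
    rw [← exp_nat_mul]
    refine le_of_eq (congrArg exp ?_)
    field_simp
  have h6 : 0 < 1 - exp (1 - L / 2 + ε) := by linarith
  generalize 1 - exp (1 - L / 2 + ε) = q at h3 h6 ⊢
  refine h4.trans (le_trans (le_of_eq ?_) (mul_le_mul_of_nonneg_left h3 (by positivity)))
  rw [exp_sub]
  field_simp

theorem pointwise (hn : 4 ≤ n) {lam a b : Vec n} {v0 ε L : ℝ} (ha : F.sq a = n)
    (hb : F.sq b = n) (hl : ∀ i, -3 ≤ lam i ∧ lam i ≤ 11 / 5) (hv9 : v0 ≤ 9 / 10)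
    (hL : 0 ≤ L) (hε : (n * v0) ^ 2 ≤ ε * (n * √n)) (hq : exp (1 - L / 2 + ε) < 1) (O : OG n) :
    exp (XE lam a O + XE lam b O) * cosh ((XE lam a O - XE lam b O) / n) ^ n ≤
      exp (ε * L / 2) / (1 - exp (1 - L / 2 + ε)) *
        (exp (XE lam a O + XE lam b O) * Mo a (XE lam a O - XE lam b O)) +
        ∑ j ∈ Finset.range (n + 1), kp n v0 j * EE lam a b (grid n v0 j) O := by
  have hn' : 0 < n := by omega
  have hn0 : (0 : ℝ) < n := by exact_mod_cast hn'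
  have hk : ∀ j, 0 ≤ kp n v0 j * EE lam a b (grid n v0 j) O := fun j =>
    mul_nonneg (exp_pos _).le (EE_nonneg _ _ _ _ _)
  by_cases hW : |(XE lam a O - XE lam b O) / n| ≤ v0
  · refine le_add_of_le_of_nonneg ?_ (Finset.sum_nonneg fun j _ => hk j)
    rw [mul_left_comm]
    exact mul_le_mul_of_nonneg_left (cosh_le_Mo hn ha hL hε hq hW) (exp_pos _).le
  · have hMo : 0 ≤ Mo a (XE lam a O - XE lam b O) := integral_nonneg fun u => (exp_pos _).le
    have h6 : 0 < 1 - exp (1 - L / 2 + ε) := by linarith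
    refine le_add_of_nonneg_of_le (by positivity) ?_
    have m1 := XE_mem hl ha O
    have m2 := XE_mem hl hb O
    have h2 : |(XE lam a O - XE lam b O) / n| ≤ 13 / 5 := by
      rw [abs_div, abs_of_pos hn0, div_le_iff₀ hn0, abs_le]
      constructor <;> linarith [m1.1, m1.2, m2.1, m2.2]
    obtain ⟨j, hj, h3⟩ := cosh_pow_le hn' hv9 (not_le.1 hW).le h2
    refine le_trans ?_ (Finset.single_le_sum
      (f := fun j => kp n v0 j * EE lam a b (grid n v0 j) O) (fun j _ => hk j) hj)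
    rw [abs_div, abs_of_pos hn0, mul_div_cancel₀ _ hn0.ne'] at h3
    refine (mul_le_mul_of_nonneg_left h3 (exp_pos _).le).trans ?_
    rw [mul_left_comm]
    exact mul_le_mul_of_nonneg_left (le_EE lam a b _ O) (exp_pos _).le

theorem integrable_EE (lam a b : Vec n) (ρ : ℝ) : Integrable (EE lam a b ρ) (haar n) :=
  integrable_haar (by unfold EE; fun_prop)

theorem int_EE {lam a b : Vec n} {C U1 v0 z0 : ℝ} (hC : 0 ≤ C) (hR : R2 lam a b C)
    (h1 : 1 ≤ U1) (hv : U1 ≤ 1 + v0 / 10) (hv9 : v0 ≤ 9 / 10) (g5 : ∀ i, lam i < z0)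
    (g2 : z0 ≤ U1 + U1⁻¹)
    (hT : ∀ V ∈ Icc U1 10, n * (V⁻¹ - 1 / 100000 * (V - 1)) ≤ sadF lam 0 (V + V⁻¹)) (j : ℕ) :
    kp n v0 j * ∫ O, EE lam a b (grid n v0 j) O ∂(haar n) ≤
      2 * C * (exp (PhiS lam 0 z0) ^ 2 * exp (1 - n * v0 ^ 3 / 100)) := by
  have hv0 : 0 ≤ v0 := by linarith
  have hn0 : (0 : ℝ) ≤ n := Nat.cast_nonneg n
  obtain ⟨r1, r2⟩ := grid_mem (n := n) hv9 j
  unfold kp EE
  generalize grid n v0 j = ρ at r1 r2 ⊢
  obtain ⟨z, k1, k2⟩ := two_exponent h1 hv r1 r2 g5 g2 hT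
  have p1 : ∀ i, ((1 + ρ) • lam) i < (1 + ρ) * z0 := fun i =>
    mul_lt_mul_of_pos_left (g5 i) (by linarith)
  have p2 : ∀ i, ((1 - ρ) • lam) i < (1 - ρ) * z := fun i =>
    mul_lt_mul_of_pos_left (k1 i) (by linarith)
  have q1 := hR (1 + ρ) (1 - ρ) _ _ (by linarith) (by linarith) (by linarith) (by linarith) p1 p2
  have q2 := hR (1 - ρ) (1 + ρ) _ _ (by linarith) (by linarith) (by linarith) (by linarith) p2 p1
  rw [add_comm (PhiS ((1 - ρ) • lam) 0 _)] at q2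
  have q3 := mul_le_mul_of_nonneg_left (exp_le_exp.2 k2) hC
  rw [integral_add (integrable_haar (by fun_prop)) (integrable_haar (by fun_prop))]
  have q4 : exp (1 - n * (psi ρ + ρ ^ 3 / 50)) *
      exp (2 * PhiS lam 0 z0 + n * (psi ρ + ρ ^ 3 / 100)) ≤
      exp (PhiS lam 0 z0) ^ 2 * exp (1 - n * v0 ^ 3 / 100) := by
    rw [← exp_nat_mul, ← exp_add, ← exp_add]
    refine exp_le_exp.2 ?_
    have := mul_le_mul_of_nonneg_left (pow_le_pow_left₀ hv0 r1 3) hn0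
    push_cast
    linarith
  calc _ ≤ exp (1 - n * (psi ρ + ρ ^ 3 / 50)) *
        (2 * (C * exp (2 * PhiS lam 0 z0 + n * (psi ρ + ρ ^ 3 / 100)))) :=
        mul_le_mul_of_nonneg_left (by linarith) (exp_pos _).le
    _ = 2 * C * (exp (1 - n * (psi ρ + ρ ^ 3 / 50)) *
        exp (2 * PhiS lam 0 z0 + n * (psi ρ + ρ ^ 3 / 100))) := by ring
    _ ≤ _ := mul_le_mul_of_nonneg_left q4 (by positivity)

/-- non-asymptotic second moment bound -/
theorem second_le (hn : 4 ≤ n) {lam a b : Vec n} {C U1 v0 ε L : ℝ} (ha : F.sq a = n)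
    (hb : F.sq b = n) (hab : ip a b = 0) (hl : ∀ i, -3 ≤ lam i ∧ lam i ≤ 11 / 5) (hC : 0 ≤ C)
    (hR : R2 lam a b C) (h1 : 1 ≤ U1) (hv : U1 ≤ 1 + v0 / 10) (hv9 : v0 ≤ 9 / 10)
    (hz : ∀ i, lam i < U1 + U1⁻¹) (hs : sadF lam 0 (U1 + U1⁻¹) ≤ n)
    (hT : ∀ V ∈ Icc U1 10, n * (V⁻¹ - 1 / 100000 * (V - 1)) ≤ sadF lam 0 (V + V⁻¹))
    (hL : 0 ≤ L) (hε : (n * v0) ^ 2 ≤ ε * (n * √n)) (hq : exp (1 - L / 2 + ε) < 1) :
    ∫ O, ZO lam 0 O ^ 2 ∂(haar n) ≤ (2 ^ n * IS lam 0) ^ 2 *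
      (exp (ε * L / 2) / (1 - exp (1 - L / 2 + ε)) +
        (n + 1) * (2 * C * (72 * n ^ 8 * exp 4) ^ 2 * exp (1 - n * v0 ^ 3 / 100))) := by
  have hn' : 0 < n := by omega
  have hn0 : (0 : ℝ) < n := by exact_mod_cast hn'
  obtain ⟨z0, g1, g2, -, -, g4⟩ := IS_ge hn' (lam := lam) (yt := 0) (B := 3) (Y := 0)
    (fun i => abs_le.2 ⟨(hl i).1, by linarith [(hl i).2]⟩) (by simp [F.sq]) hz hs
  have hinv : 0 < 1 / (n : ℝ) := by positivity
  have g5 : ∀ i, lam i < z0 := fun i => by linarith [g1 i]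
  have g6 : exp (PhiS lam 0 z0) ≤ 72 * n ^ 8 * exp 4 * IS lam 0 := by
    rw [div_le_iff₀ (by positivity), exp_sub, div_le_iff₀ (exp_pos _)] at g4
    norm_num at g4
    linarith
  have iS : ∀ j ∈ Finset.range (n + 1),
      Integrable (fun O => kp n v0 j * EE lam a b (grid n v0 j) O) (haar n) :=
    fun j _ => (integrable_EE _ _ _ _).const_mul _
  have hj : ∀ j ∈ Finset.range (n + 1), ∫ O, kp n v0 j * EE lam a b (grid n v0 j) O ∂(haar n) ≤
      IS lam 0 ^ 2 * (2 * C * (72 * n ^ 8 * exp 4) ^ 2 * exp (1 - n * v0 ^ 3 / 100)) := by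
    intro j _
    rw [integral_const_mul]
    refine (int_EE hC hR h1 hv hv9 g5 g2 hT j).trans ?_
    have q5 : exp (PhiS lam 0 z0) ^ 2 ≤ (72 * n ^ 8 * exp 4 * IS lam 0) ^ 2 :=
      pow_le_pow_left₀ (exp_pos _).le g6 2
    calc _ ≤ 2 * C * ((72 * n ^ 8 * exp 4 * IS lam 0) ^ 2 * exp (1 - n * v0 ^ 3 / 100)) :=
          mul_le_mul_of_nonneg_left (mul_le_mul_of_nonneg_right q5 (exp_pos _).le)
            (by positivity)
      _ = _ := by ring
  have iM := (integrable_Mo lam a b).const_mul (exp (ε * L / 2) / (1 - exp (1 - L / 2 + ε)))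
  have hmain := integral_mono (integrable_haar (by fun_prop))
    (iM.add (integrable_finsetSum _ iS)) (pointwise hn ha hb hl hv9 hL hε hq)
  simp only [Pi.add_apply] at hmain
  rw [integral_add iM (integrable_finsetSum _ iS),
    integral_const_mul, ← IS_sq hn' lam ha hb hab, integral_finsetSum _ iS] at hmain
  have hsum := Finset.sum_le_sum hj
  rw [Finset.sum_const, Finset.card_range, nsmul_eq_mul] at hsum
  push_cast at hsum
  rw [int_ZO_sq hn' lam ha hb hab, mul_pow, mul_assoc]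
  refine mul_le_mul_of_nonneg_left (hmain.trans ?_) (by positivity)
  refine (add_le_add le_rfl hsum).trans (le_of_eq ?_)
  ring

/-- Chebyshev -/
theorem low_of_second (hn : 0 < n) {lam : Vec n} {δ : ℝ}
    (h : ∫ O, ZO lam 0 O ^ 2 ∂(haar n) ≤ (2 ^ n * IS lam 0) ^ 2 * (1 + δ)) :
    (haar n).real {O | ZO lam 0 O ≤ 2 ^ n * IS lam 0 / 2} ≤ 4 * δ := by
  set m : ℝ := 2 ^ n * IS lam 0 with hm
  have hm0 : 0 < m := mul_pos (by positivity) (IS_pos lam 0)
  have hc := continuous_ZO lam 0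
  have i1 : Integrable (ZO lam 0) (haar n) := integrable_haar hc
  have i2 : Integrable (fun O => ZO lam 0 O ^ 2) (haar n) := integrable_haar (by fun_prop)
  have e : ∫ O, (ZO lam 0 O - m) ^ 2 ∂(haar n) = ∫ O, ZO lam 0 O ^ 2 ∂(haar n) - m ^ 2 := by
    have e1 : ∀ O, (ZO lam 0 O - m) ^ 2 = ZO lam 0 O ^ 2 - 2 * m * ZO lam 0 O + m ^ 2 :=
      fun O => by ring
    have j1 : Integrable (fun O => ZO lam 0 O ^ 2 - 2 * m * ZO lam 0 O) (haar n) :=
      i2.sub (i1.const_mul _)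
    simp only [e1]
    rw [integral_add j1 (integrable_const _), integral_sub i2 (i1.const_mul _),
      integral_const_mul, int_ZO hn, integral_const, probReal_univ, one_smul, ← hm]
    ring
  have h1 := mul_meas_ge_le_integral_of_nonneg (μ := haar n)
    (f := fun O => (ZO lam 0 O - m) ^ 2) (ae_of_all _ fun O => sq_nonneg _)
    (integrable_haar (by fun_prop)) ((m / 2) ^ 2)
  have h2 : (haar n).real {O | ZO lam 0 O ≤ m / 2} ≤
      (haar n).real {O | (m / 2) ^ 2 ≤ (ZO lam 0 O - m) ^ 2} := by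
    refine measureReal_mono (fun O (hO : ZO lam 0 O ≤ m / 2) => ?_) (measure_ne_top _ _)
    change (m / 2) ^ 2 ≤ (ZO lam 0 O - m) ^ 2
    nlinarith
  rw [e] at h1
  have h3 : (m / 2) ^ 2 * (haar n).real {O | ZO lam 0 O ≤ m / 2} ≤ (m / 2) ^ 2 * (4 * δ) := by
    nlinarith [mul_le_mul_of_nonneg_left h2 (sq_nonneg (m / 2))]
  exact le_of_mul_le_mul_left h3 (by positivity)

/-! ### rigid spectra -/

theorem exists_frame (hn : 2 ≤ n) :
    ∃ a b : Vec n, F.sq a = n ∧ F.sq b = n ∧ ip a b = 0 := by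
  have h : ∀ i : Fin n, F.sq (Pi.single i (√(n : ℝ)) : Vec n) = n := by
    intro i
    unfold F.sq
    rw [Finset.sum_eq_single i (fun j _ hj => by simp [hj]) (by simp)]
    simp
  refine ⟨Pi.single ⟨0, by omega⟩ √n, Pi.single ⟨1, by omega⟩ √n, h _, h _, ?_⟩
  rw [ip_eq_dot, single_dotProduct, Pi.single_eq_of_ne (by simp), mul_zero]

theorem sadF_eq_trR (lam : Vec n) (U : ℝ) :
    sadF lam 0 (U + U⁻¹) = Edge.trR 1 lam (U + 1 / U - 2) := by
  rw [sadF_zero, Edge.trR]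
  refine Finset.sum_congr rfl fun a _ => ?_
  rw [pow_one, one_div]
  congr 1
  ring

theorem second_rigid (hn : 4 ≤ n) {lam a b : Vec n} {C w v0 ε L : ℝ} (ha : F.sq a = n)
    (hb : F.sq b = n) (hab : ip a b = 0) (hw : 1 ≤ w) (h : Edge.Rigid w lam) (hC : 0 ≤ C)
    (hR : R2 lam a b C) (hv : 10 ^ 8 * √(Edge.sc0 n w) ≤ v0) (hv9 : v0 ≤ 9 / 10)
    (hL : 0 ≤ L) (hε : (n * v0) ^ 2 ≤ ε * (n * √n)) (hq : exp (1 - L / 2 + ε) < 1) :
    ∫ O, ZO lam 0 O ^ 2 ∂(haar n) ≤ (2 ^ n * IS lam 0) ^ 2 *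
      (exp (ε * L / 2) / (1 - exp (1 - L / 2 + ε)) +
        (n + 1) * (2 * C * (72 * n ^ 8 * exp 4) ^ 2 * exp (1 - n * v0 ^ 3 / 100))) := by
  have hn' : 0 < n := by omega
  have hn0 : (0 : ℝ) ≤ n := Nat.cast_nonneg n
  have hw0 : 0 < w := by linarith
  have hs0 := Edge.sc0_pos hn' hw0
  have hq0 : 0 < √(Edge.sc0 n w) := Real.sqrt_pos.2 hs0
  have hs : Edge.sc0 n w ≤ 1 / 100 := by
    have h1 : √(Edge.sc0 n w) ≤ 1 / 10 := by linarith
    rw [Real.sqrt_le_left (by norm_num)] at h1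
    linarith
  have hk0 := Edge.kap_pos hw0
  have hk1 := Edge.kap_le_one hw
  have hU : 1 + 10 ^ 7 * √(Edge.sc0 n w) ≤ 1 + v0 / 10 := by linarith
  obtain ⟨a1, a2, -, -⟩ := Edge.st_aux hs0 hs (L := 10 ^ 7) (by norm_num) hU
  refine second_le hn ha hb hab (fun i => ⟨(h.1 i).1, ?_⟩) hC hR a1.le le_rfl hv9 (fun i => ?_) ?_
    (fun V hV => ?_) hL hε hq
  · linarith [h.le_eps i]
  · rw [← one_div]
    linarith [h.le_eps i]
  · rw [sadF_eq_trR]
    refine (h.trR_st_le hn' hw0 hs (L := 10 ^ 7) (by norm_num) hU).trans ?_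
    refine mul_le_of_le_one_right hn0 ?_
    have h1 : 10 * Edge.kap w / 10 ^ 7 + (Edge.c0 + Edge.kap w) / (10 ^ 7) ^ 3 ≤ 1 / 2 := by
      have := Edge.c0_le
      norm_num
      linarith
    have h2 : 1 / (1 + v0 / 10) ≤ 1 - v0 / 20 := by
      rw [div_le_iff₀ (by linarith)]
      nlinarith
    nlinarith
  · rw [sadF_eq_trR]
    refine le_trans ?_ (h.trR_st_ge hn' hw0 hs (L := 10 ^ 7) (by norm_num) (hU.trans hV.1))
    refine mul_le_mul_of_nonneg_left ?_ hn0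
    have h1 : 10 * Edge.kap w / 10 ^ 7 + 1 / (10 * (10 ^ 7) ^ 3) ≤ 1 / 100000 := by
      norm_num
      linarith
    have h2 : 0 ≤ V - 1 := by linarith [hV.1]
    rw [one_div V]
    nlinarith

theorem exists_params {δ : ℝ} (hδ : 0 < δ) : ∃ ε L : ℝ, 0 < ε ∧ ε ≤ 1 / 2 ∧ 0 ≤ L ∧
    exp (1 - L / 2 + ε) < 1 ∧ exp (ε * L / 2) / (1 - exp (1 - L / 2 + ε)) ≤ 1 + δ := by
  set d : ℝ := min δ 1 / 4 with hd
  have hd0 : 0 < d := by positivity
  have hd1 : d ≤ 1 / 4 := by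
    have := min_le_right δ 1
    linarith
  have hd2 : d ≤ δ / 4 := by
    have := min_le_left δ 1
    linarith
  have hlog : Real.log d ≤ 0 := Real.log_nonpos hd0.le (by linarith)
  set L : ℝ := 4 - 2 * Real.log d with hL
  have hL4 : 4 ≤ L := by linarith
  have hε : d / L ≤ 1 / 2 := by
    rw [div_le_iff₀ (by linarith)]; linarith
  have h1 : exp (1 - L / 2 + d / L) ≤ d := by
    conv_rhs => rw [← Real.exp_log hd0]
    exact exp_le_exp.2 (by linarith)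
  refine ⟨d / L, L, by positivity, hε, by linarith, by linarith, ?_⟩
  have h2 : exp (d / L * L / 2) ≤ 1 + d := by
    rw [div_mul_cancel₀ _ (by linarith)]
    refine (exp_le_inv (by linarith)).trans ?_
    rw [inv_le_iff_one_le_mul₀ (by linarith)]
    nlinarith
  rw [div_le_iff₀ (by linarith)]
  have h3 : 1 + d ≤ (1 + 4 * d) * (1 - d) := by nlinarith
  have h4 : (1 + 4 * d) * (1 - d) ≤ (1 + δ) * (1 - exp (1 - L / 2 + d / L)) :=
    mul_le_mul (by linarith) (by linarith) (by linarith) (by linarith)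
  linarith

theorem tail_tendsto (K : ℝ) (k : ℕ) {ε : ℝ} (hε : 0 < ε) :
    Tendsto (fun n : ℕ => ((n : ℝ) + 1) * (2 * (K * n ^ k) * (72 * n ^ 8 * exp 4) ^ 2 *
      exp (1 - n * √(ε / √n) ^ 3 / 100))) atTop (𝓝 0) := by
  set c : ℝ := √ε ^ 3 / 100 with hc
  have hc0 : 0 < c := by positivity
  have h0 : Tendsto (fun n : ℕ => √√(n : ℝ)) atTop atTop :=
    Real.tendsto_sqrt_atTop.comp (Real.tendsto_sqrt_atTop.comp tendsto_natCast_atTop_atTop)
  have h1 : ∀ j : ℕ, Tendsto (fun n : ℕ => (n : ℝ) ^ j * exp (-c * √√(n : ℝ))) atTop (𝓝 0) := by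
    intro j
    have h2 := (tendsto_rpow_mul_exp_neg_mul_atTop_nhds_zero ((4 * j : ℕ) : ℝ) c hc0).comp h0
    refine h2.congr fun n => ?_
    simp only [Function.comp_apply]
    rw [Real.rpow_natCast, pow_mul, show 4 = 2 * 2 from rfl, pow_mul,
      Real.sq_sqrt (Real.sqrt_nonneg _), Real.sq_sqrt (Nat.cast_nonneg n)]
  have h3 := ((h1 (k + 17)).add (h1 (k + 16))).const_mul (2 * K * (72 * exp 4) ^ 2 * exp 1)
  rw [add_zero, mul_zero] at h3
  refine h3.congr' ?_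
  filter_upwards [eventually_gt_atTop 0] with n hn
  have hn0 : (0 : ℝ) < n := by exact_mod_cast hn
  set m := √√(n : ℝ) with hm
  have hm0 : 0 < m := Real.sqrt_pos.2 (Real.sqrt_pos.2 hn0)
  have e1 : (n : ℝ) = m ^ 4 := by
    rw [show 4 = 2 * 2 from rfl, pow_mul, hm, Real.sq_sqrt (Real.sqrt_nonneg _),
      Real.sq_sqrt hn0.le]
  have e2 : 1 - n * √(ε / √n) ^ 3 / 100 = 1 + -c * m := by
    rw [Real.sqrt_div hε.le, ← hm, hc]
    conv_lhs => rw [e1]
    field_simp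
    ring
  rw [e2, exp_add]
  ring

/-- The partition function is not much smaller than its Haar average, given a polynomial rank two
bound. -/
theorem lowZ_of (K : ℝ) (k : ℕ) (hK : 0 ≤ K)
    (hR : ∀ n : ℕ, 4 ≤ n → ∀ lam a b : Vec n, (∀ i, |lam i| ≤ 3) → F.sq a = n → F.sq b = n →
      ip a b = 0 → R2 lam a b (K * n ^ k)) {δ : ℝ} (hδ : 0 < δ) :
    ∃ c : ℝ, 0 < c ∧ ∀ᶠ n : ℕ in atTop, ∀ w : ℝ, 1 ≤ w → Edge.sc0 n w * √n ≤ c →
      ∀ lam : Vec n, Edge.Rigid w lam →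
        ∫ O, ZO lam 0 O ^ 2 ∂(haar n) ≤ (2 ^ n * IS lam 0) ^ 2 * (1 + δ) := by
  obtain ⟨ε, L, hε, hε1, hL, hq, h1⟩ := exists_params (half_pos hδ)
  refine ⟨ε / 10 ^ 16, by positivity, ?_⟩
  filter_upwards [eventually_ge_atTop 4,
    (tail_tendsto K k hε).eventually (ge_mem_nhds (half_pos hδ))] with n hn h2 w hw hc lam h
  have hn4 : (4 : ℝ) ≤ n := by exact_mod_cast hn
  have hq2 : 2 ≤ √(n : ℝ) := Real.le_sqrt_of_sq_le (by linarith)
  have hq0 : 0 < √(n : ℝ) := by linarith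
  obtain ⟨a, b, ha, hb, hab⟩ := exists_frame (n := n) (by omega)
  have hs0 := Edge.sc0_pos (n := n) (by omega) (by linarith : 0 < w)
  have hs1 : Edge.sc0 n w ≤ ε / √n / 10 ^ 16 := by
    rw [div_right_comm, le_div_iff₀ hq0]; exact hc
  have hs2 : ε / √n ≤ 1 / 4 := by
    rw [div_le_iff₀ hq0]; linarith
  have hl : ∀ i, |lam i| ≤ 3 := fun i =>
    abs_le.2 ⟨(h.1 i).1, by linarith [h.le_eps i]⟩
  have h3 := second_rigid hn ha hb hab hw h (by positivity) (hR n hn lam a b hl ha hb hab)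
    (v0 := √(ε / √n)) (ε := ε) (L := L) (by
      rw [show (10 : ℝ) ^ 8 = √(10 ^ 16) by
        rw [show (10 : ℝ) ^ 16 = (10 ^ 8) ^ 2 by norm_num, Real.sqrt_sq (by norm_num)],
        ← Real.sqrt_mul (by norm_num)]
      exact Real.sqrt_le_sqrt (by linarith))
    (by rw [Real.sqrt_le_left (by norm_num)]; linarith) hL
    (by
      rw [mul_pow, Real.sq_sqrt (by positivity)]
      refine le_of_eq ?_
      have e : (n : ℝ) = √n * √n := (Real.mul_self_sqrt (by linarith)).symm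
      field_simp
      rw [Real.sq_sqrt (by linarith)]) hq
  exact h3.trans (mul_le_mul_of_nonneg_left (by linarith) (sq_nonneg _))

theorem r2 (hn : 0 < n) {lam a b : Vec n} (hl : ∀ i, |lam i| ≤ 3) (ha : F.sq a = n)
    (hb : F.sq b = n) (hab : ip a b = 0) : R2 lam a b (exp 6) := by
  intro θ₁ θ₂ γ₁ γ₂ _ _ h3 h4 h5 h6
  have h := frame_zero_le hn (lam := lam) (lo := -3) (hi := 3) (t1 := θ₁) h3.le
    (fun i => (abs_le.1 (hl i)).1) (fun i => (abs_le.1 (hl i)).2) hab ha hb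
  simp only [XE_smul]
  refine h.trans ?_
  rw [exp_add]
  exact mul_le_mul (exp_le_exp.2 (by linarith))
    (mul_le_mul (IS_zero_le hn h5) (IS_zero_le hn h6) (IS_pos _ _).le (exp_pos _).le)
    (mul_pos (IS_pos _ _) (IS_pos _ _)).le (exp_pos _).le

/-- **Sharp second moment** of the partition function over Haar frames, for rigid spectra. -/
theorem second_moment {δ : ℝ} (hδ : 0 < δ) :
    ∃ c : ℝ, 0 < c ∧ ∀ᶠ n : ℕ in atTop, ∀ w : ℝ, 1 ≤ w → Edge.sc0 n w * √n ≤ c →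
      ∀ lam : Vec n, Edge.Rigid w lam →
        ∫ O, ZO lam 0 O ^ 2 ∂(haar n) ≤ (2 ^ n * IS lam 0) ^ 2 * (1 + δ) :=
  lowZ_of (exp 6) 0 (exp_pos _).le (fun n hn lam a b hl ha hb hab => by
    rw [pow_zero, mul_one]
    exact r2 (by omega) hl ha hb hab) hδ

theorem sc0_small {c : ℝ} (hc : 0 < c) :
    ∀ᶠ n : ℕ in atTop, ∀ w : ℝ, w ≤ (n : ℝ) ^ (1 / 7 : ℝ) → Edge.sc0 n w * √n ≤ c := by
  have h := ((tendsto_rpow_neg_atTop (y := 1 / 42) (by norm_num)).comp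
    tendsto_natCast_atTop_atTop).eventually (ge_mem_nhds hc)
  filter_upwards [h, eventually_gt_atTop 0] with n h1 hn w hw
  have hn0 : (0 : ℝ) < n := by exact_mod_cast hn
  refine le_trans ?_ h1
  simp only [Function.comp_apply]
  have e : (n : ℝ) ^ (-(1 / 42) : ℝ) = (n : ℝ) ^ (1 / 7 : ℝ) * (n : ℝ) ^ (-(2 / 3 : ℝ)) * √n := by
    rw [Real.sqrt_eq_rpow, ← Real.rpow_add hn0, ← Real.rpow_add hn0]
    norm_num
  rw [e, Edge.sc0]
  gcongr

/-- **LowZ**: uniformly over rigid spectra, the partition function is at least half of its Haar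
average with probability tending to one. -/
theorem lowZ {δ : ℝ} (hδ : 0 < δ) :
    ∀ᶠ n : ℕ in atTop, ∀ w : ℝ, 1 ≤ w → w ≤ (n : ℝ) ^ (1 / 7 : ℝ) →
      ∀ lam : Vec n, Edge.Rigid w lam →
        (haar n).real {O | ZO lam 0 O ≤ 2 ^ n * IS lam 0 / 2} ≤ δ := by
  obtain ⟨c, hc, h⟩ := second_moment (δ := δ / 4) (by positivity)
  filter_upwards [h, sc0_small hc, eventually_gt_atTop 0] with n h1 h2 hn w hw hw1 lam hl
  have := low_of_second hn (h1 w hw (h2 w hw1) lam hl)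
  linarith

theorem lowZ' {δ : ℝ} (hδ : 0 < δ) :
    ∀ᶠ n : ℕ in atTop, ∀ w : ℝ, 1 ≤ w → w ≤ (n : ℝ) ^ (1 / 7 : ℝ) →
      ∀ lam : Vec n, Edge.Rigid w lam →
        haar n {O | ZO lam 0 O ≤ 2 ^ n * IS lam 0 / 2} ≤ ENNReal.ofReal δ := by
  filter_upwards [lowZ hδ] with n h w hw hw1 lam hl
  rw [← ofReal_measureReal]
  exact ENNReal.ofReal_le_ofReal (h w hw hw1 lam hl)

end Vale.Agent.N150.LowZ
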