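import Vale.Agent.N150.AsmTop
import Vale.Agent.N150.EndBr
import Vale.Agent.N150.LowZ3

set_option linter.all false

/-! P150 at the critical point: the terminal interface of the assembly. -/

open Matrix MeasureTheory Filter Topology

namespace Vale.Agent.N150.Asm

open Vale.Agent.P150 Vale.Agent.P150.F Vale.Agent.N150.Sp Vale.Agent.N150.Cap
  Vale.Agent.N150.Edge Vale.Agent.N150.Plant

variable {n : ℕ}

theorem ev_wn_ge (a : ℝ) : ∀ᶠ n : ℕ in atTop, a ≤ wn n := tendsto_wn.eventually_ge_atTop a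

theorem ev_wn_le {a : ℝ} (ha : 0 < a) : ∀ᶠ n : ℕ in atTop, wn n ≤ (n : ℝ) ^ a := by
  have h1 := (isLittleO_log_rpow_atTop (r := 2 * a) (by positivity)).bound one_pos
  filter_upwards [tendsto_natCast_atTop_atTop.eventually h1, eventually_ge_atTop 1] with n h hn
  have hn1 : (1 : ℝ) ≤ n := by exact_mod_cast hn
  rw [Real.norm_of_nonneg (Real.log_nonneg hn1), Real.norm_of_nonneg (by positivity), one_mul] at h
  unfold wn
  refine Real.sqrt_le_iff.2 ⟨by positivity, h.trans (le_of_eq ?_)⟩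
  rw [← Real.rpow_natCast, ← Real.rpow_mul (by positivity)]
  congr 1
  push_cast
  ring

theorem ev_kap_le {c : ℝ} (hc : 0 < c) : ∀ᶠ n : ℕ in atTop, Edge.kap (wn n) ≤ c :=
  (((tendsto_rpow_neg_atTop (y := 3 / 5) (by norm_num)).comp tendsto_wn).eventually
    (ge_mem_nhds hc))

theorem ev_sc0_le {c : ℝ} (hc : 0 < c) : ∀ᶠ n : ℕ in atTop, sc0 n (wn n) ≤ c := by
  have h1 := ((tendsto_rpow_neg_atTop (y := 1 / 3) (by norm_num)).comp
    tendsto_natCast_atTop_atTop).eventually (ge_mem_nhds hc)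
  filter_upwards [h1, ev_wn_le (a := 1 / 3) (by norm_num), eventually_ge_atTop 1] with n h1 h2 hn
  have hn0 : (0 : ℝ) < n := by exact_mod_cast hn
  refine le_trans ?_ h1
  unfold sc0
  refine (mul_le_mul_of_nonneg_right h2 (by positivity)).trans (le_of_eq ?_)
  simp only [Function.comp]
  rw [← Real.rpow_add hn0]
  norm_num

theorem ev_wn {c : ℝ} (hc : 0 < c) :
    ∀ᶠ n : ℕ in atTop, 1 ≤ wn n ∧ Edge.kap (wn n) ≤ c ∧ sc0 n (wn n) ≤ c := by
  filter_upwards [ev_wn_ge 1, ev_kap_le hc, ev_sc0_le hc] with n a b c using ⟨a, b, c⟩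

theorem ev_sc0 {c : ℝ} (hc : 0 < c) : ∀ᶠ n : ℕ in atTop, ∀ K : ℝ, Real.log n ≤ K →
    sc0 n (wn n) ≤ c * (K / n) ^ (2 / 3 : ℝ) := by
  have h0 : Tendsto (fun n : ℕ => Real.log n) atTop atTop :=
    Real.tendsto_log_atTop.comp tendsto_natCast_atTop_atTop
  have h1 := ((tendsto_rpow_neg_atTop (y := 1 / 6) (by norm_num)).comp h0).eventually
    (ge_mem_nhds hc)
  filter_upwards [h1, h0.eventually_gt_atTop 0, eventually_ge_atTop 1] with n h1 h2 hn K hK
  have hn0 : (0 : ℝ) < n := by exact_mod_cast hn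
  simp only [Function.comp] at h1
  have e : wn n = Real.log n ^ (-(1 / 6 : ℝ)) * Real.log n ^ (2 / 3 : ℝ) := by
    unfold wn
    rw [← Real.rpow_add h2, Real.sqrt_eq_rpow]
    norm_num
  have h3 : Real.log n ^ (2 / 3 : ℝ) ≤ K ^ (2 / 3 : ℝ) :=
    Real.rpow_le_rpow h2.le hK (by norm_num)
  unfold sc0
  rw [Real.div_rpow (h2.le.trans hK) hn0.le, Real.rpow_neg hn0.le, div_eq_mul_inv (K ^ _),
    ← mul_assoc, e]
  exact mul_le_mul_of_nonneg_right (mul_le_mul h1 h3 (by positivity) hc.le) (by positivity)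

theorem LR_diag (lam : Vec n) (O : OG n) :
    LR (diagonal lam) 0 O = ZO lam 0 O / (2 ^ n * IS lam 0) := by
  unfold LR Zc ZO
  simp only [HM_diag, ISM_diag]
  rfl

/-- the likelihood ratio is at least one half with probability tending to one -/
theorem lowLR {d : ℝ} (hd : 0 < d) : ∀ᶠ n : ℕ in atTop, ∀ lam : Vec n, Rigid (wn n) lam →
    (haar n).real {O | LR (diagonal lam) 0 O < 1 / 2} ≤ d := by
  filter_upwards [LowZ.lowZ hd, ev_wn_ge 1, ev_wn_le (a := 1 / 7) (by norm_num)] with n h h1 h2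
    lam hl
  refine le_trans (measureReal_mono ?_) (h _ h1 h2 lam hl)
  intro O hO
  have h3 : LR (diagonal lam) 0 O < 1 / 2 := hO
  have h4 : 0 < 2 ^ n * IS lam 0 := mul_pos (by positivity) (IS_pos _ _)
  rw [LR_diag, div_lt_iff₀ h4] at h3
  show ZO lam 0 O ≤ _
  linarith

/-- removal of the likelihood ratio -/
theorem haar_split {lam : Vec n} {A : Set (OG n)} {p d : ℝ}
    (h1 : (haar n).real {O | LR (diagonal lam) 0 O < 1 / 2} ≤ d)
    (h2 : (haar n).real {O | 1 / 2 ≤ LR (diagonal lam) 0 O ∧ O ∈ A} ≤ p) :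
    (haar n).real A ≤ d + p := by
  refine le_trans (measureReal_mono ?_) ((measureReal_union_le _ _).trans (add_le_add h1 h2))
  intro O hO
  rcases lt_or_ge (LR (diagonal lam) 0 O) (1 / 2) with h | h
  · exact Or.inl h
  · exact Or.inr ⟨h, hO⟩

theorem TA_le {lam : Vec n} {t : ℕ → ℝ} {d : ℝ} {hG : Grid lam t d} {N : ℕ}
    {sel : Mat n → Vec n → Vec n} {CT M θ CT' M' θ' : ℝ} {O : OG n}
    (h : Br.TA hG N sel CT M θ O) (h1 : CT ≤ CT') (h2 : M ≤ M') (h3 : θ ≤ θ') :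
    Br.TA hG N sel CT' M' θ' O :=
  ⟨h.1.mono h1 h3 h3, le_trans (PE_mono (fun x => (gM_pos _ _ x).le)
    fun x ω hx => lt_of_le_of_lt h2 hx) (h.2.trans h3)⟩

/-- **[TERM]** -/
theorem termQ_of2 {sel : Br.Sel} (i : ℕ → ℕ) (h : End.TermH sel) :
    TermQ fun n => sel n (i n) := by
  obtain ⟨T0, hT0, h⟩ := h
  refine ⟨T0, hT0, fun T hT hT1 => ?_⟩
  obtain ⟨b, sg, EG, hb, hE, CT, hCT, c, hc, h⟩ := h T hT hT1
  refine ⟨b, sg, EG, max CT 1, c, hb, le_max_right _ _, hc, pairW_iff.2 hE, fun d hd => ?_⟩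
  have h0 : Tendsto (fun n : ℕ => Real.exp (-(c * n)) / (1 / 2)) atTop (𝓝 0) := by
    have h1 := (Real.tendsto_exp_neg_atTop_nhds_zero.comp
      (tendsto_natCast_atTop_atTop.const_mul_atTop hc)).div_const (1 / 2)
    rwa [zero_div] at h1
  filter_upwards [h, lowLR (half_pos hd), ev_wn_ge 1, ev_kap_le hc, ev_sc0_le hc,
    h0.eventually (ge_mem_nhds (half_pos hd))] with n h a1 a2 a3 a4 a5 lam J W hJ hW hl hs t dl hG
    N _ hN1 hN2
  have h1 := h _ lam hl a2 a3 a4 J W hJ hW hs t dl hG N hN1 hN2 (i n) (1 / 2) (by norm_num)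
  refine (haar_split (p := d / 2) (a1 lam hl) ?_).trans (by linarith)
  refine le_trans (measureReal_mono ?_) (h1.trans a5)
  exact fun O hO => ⟨hO.1, hO.2.1, fun h2 =>
    hO.2.2 (TA_le h2 (le_max_left _ _) (le_max_left _ _) le_rfl)⟩

theorem termQ_of {sel : Br.Sel} (i : ℕ) (h : End.TermH sel) : TermQ fun n => sel n i :=
  termQ_of2 (fun _ => i) h

theorem termQ_of1 {cen : ∀ n, Mat n → Vec n → Vec n} (h : End.TermH fun n _ => cen n) :
    TermQ cen := termQ_of2 (sel := fun n _ => cen n) (fun _ => 0) h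

end Vale.Agent.N150.Asm
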