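import Mathlib
import Vale.Agent.N150.A1Red

/-! P150, milestone M0: from the level inequalities above `n ^ γ` to the bound `exp (n ^ γ)`. -/

open MeasureTheory ProbabilityTheory Filter Topology Real
open scoped Matrix

namespace Vale.Agent.N150.M0

open Vale.Agent.P150 Vale.Agent.P150.Semi Vale.Agent.P150.F Vale.Agent.N150.A1

variable {n : ℕ}

/-- the level inequalities on all dyadic levels between `n ^ γ` and `k0 n` -/
def PrM (γ k0 : ℝ) (μ : Cfg n → ℝ) : Prop :=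
  ∀ j : ℕ, (n : ℝ) ^ γ ≤ 2 ^ j → (2 : ℝ) ^ j ≤ k0 * n →
    LevP μ (2 ^ j) (Real.exp ((n : ℝ) ^ γ / 20)) (2 ^ j / 400) (Real.exp (-((n : ℝ) ^ γ / 25)))

/-- paths on all dyadic levels between `n ^ γ` and `k0 n` -/
def PrN (γ k0 : ℝ) (μ : Cfg n → ℝ) : Prop :=
  ∀ j : ℕ, (n : ℝ) ^ γ ≤ 2 ^ j → (2 : ℝ) ^ j ≤ k0 * n →
    PathAt μ (2 ^ j) (Real.exp ((n : ℝ) ^ γ / 20)) (2 ^ j / 400) (Real.exp (-((n : ℝ) ^ γ / 25)))

theorem PrN.prM {γ k0 : ℝ} {μ : Cfg n → ℝ} (h : PrN γ k0 μ) : PrM γ k0 μ :=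
  fun j h1 h2 => (h j h1 h2).levP (by positivity)

theorem ms_prM {S : Type*} [MeasurableSpace S] {μ : S → Cfg n → ℝ}
    (hm : ∀ x, Measurable fun s => μ s x) (hp : ∀ s x, 0 < μ s x) (γ k0 : ℝ) :
    MeasurableSet {s | PrM γ k0 (μ s)} := by
  have e : {s | PrM γ k0 (μ s)} = ⋂ j : ℕ, ⋂ _ : (n : ℝ) ^ γ ≤ 2 ^ j,
      ⋂ _ : (2 : ℝ) ^ j ≤ k0 * n, ({s | LevS (μ s) (2 ^ j)
        (6 * (2 ^ j / 400) + Real.exp (-((n : ℝ) ^ γ / 25))) (Real.exp ((n : ℝ) ^ γ / 20))} ∩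
        {s | LevS (μ s) (2 ^ j) (Real.exp (6 * (2 ^ j / 400)) * Real.exp (-((n : ℝ) ^ γ / 25)))
          (Real.exp (6 * (2 ^ j / 400)) * Real.exp ((n : ℝ) ^ γ / 20))}) := by
    ext s
    simp only [Set.mem_ofPred_eq, Set.mem_iInter, Set.mem_inter_iff]
    rfl
  rw [e]
  exact MeasurableSet.iInter fun j => MeasurableSet.iInter fun _ => MeasurableSet.iInter fun _ =>
    (ms_levS hm hp _ _ _).inter (ms_levS hm hp _ _ _)

theorem ms_prM_gM {S : Type*} [MeasurableSpace S] {M : S → Mat n}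
    (hM : ∀ i j, Measurable fun s => M s i j) (γ k0 : ℝ) :
    MeasurableSet {s | PrM γ k0 (gM (M s) 0)} :=
  ms_prM (μ := fun s => gM (M s) 0) (measurable_gM hM fun _ => measurable_const)
    (fun _ => gM_pos _ _) γ k0

/-- the target of the milestone -/
def UpExp (γ : ℝ) : Prop := WHP (fun n => {g |
  tmix (skJ 1 g) (fun _ => 0) ≤ Real.exp ((n : ℝ) ^ γ) ∧
  Real.exp (-((n : ℝ) ^ γ)) ≤ gap (skJ 1 g) (fun _ => 0) ∧
  ∀ t, Real.exp ((n : ℝ) ^ γ) ≤ t → ∀ x, tvDist (skJ 1 g) (fun _ => 0) t x ≤ 1 / 4})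

theorem ev_rpow_ge {γ : ℝ} (hγ : 0 < γ) (c : ℝ) : ∀ᶠ n : ℕ in atTop, c ≤ (n : ℝ) ^ γ :=
  ((tendsto_rpow_atTop hγ).comp tendsto_natCast_atTop_atTop).eventually_ge_atTop c

theorem ev_log_le {γ c : ℝ} (hγ : 0 < γ) (hc : 0 < c) :
    ∀ᶠ n : ℕ in atTop, c * Real.log n ≤ (n : ℝ) ^ γ := by
  filter_upwards [ev_sq_log hc hγ, eventually_ge_atTop 3] with n h hn
  have h1 := one_le_log hn
  nlinarith [mul_nonneg hc.le (by linarith : (0 : ℝ) ≤ Real.log n)]

theorem ev_rpow_le {γ c : ℝ} (hγ : γ < 1) (hc : 0 < c) :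
    ∀ᶠ n : ℕ in atTop, (n : ℝ) ^ γ ≤ c * n := by
  filter_upwards [ev_rpow_ge (show 0 < 1 - γ by linarith) c⁻¹, eventually_gt_atTop 0] with n h hn
  have hn0 : (0 : ℝ) < n := by exact_mod_cast hn
  have e : (n : ℝ) = (n : ℝ) ^ (1 - γ) * (n : ℝ) ^ γ := by
    rw [← Real.rpow_add hn0]; simp
  have h2 := mul_le_mul_of_nonneg_right h (Real.rpow_nonneg hn0.le γ)
  rw [← e, inv_mul_le_iff₀ hc] at h2
  exact h2

theorem time_le {K j : ℝ} (hK : 1000 ≤ K) (hj0 : 0 ≤ j) (hj : j + 3 ≤ K / 10) :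
    Real.exp (K / 10) * (3 * j * (j + 3) + Real.log (200 * (K + 1))) ≤ Real.exp K / 2 := by
  have e1 : Real.exp K = Real.exp (K / 10) * Real.exp (9 / 10 * K) := by
    rw [← Real.exp_add]; congr 1; ring
  rw [e1, mul_div_assoc]
  refine mul_le_mul_of_nonneg_left ?_ (Real.exp_pos _).le
  have e2 : Real.log (200 * (K + 1)) ≤ 200 + K := by
    rw [Real.log_mul (by norm_num) (by linarith)]
    linarith [Real.log_le_sub_one_of_pos (show (0 : ℝ) < 200 by norm_num),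
      Real.log_le_sub_one_of_pos (show 0 < K + 1 by linarith)]
  have e3 : j * (j + 3) ≤ K / 10 * (K / 10) :=
    mul_le_mul (by linarith) hj (by linarith) (by linarith)
  have e4 := Real.pow_div_factorial_le_exp (9 / 10 * K) (by linarith) 2
  simp only [Nat.factorial, Nat.succ_eq_add_one] at e4
  norm_num at e4
  nlinarith

/-- **M0, top part** -/
theorem upExp_of {γ k0 : ℝ} (hγ : 0 < γ) (hγ1 : γ < 1) (hk0 : 0 < k0)
    (h : WHP (fun n => {g : Pairs n → ℝ | PrM γ k0 (gM (skM g) 0)})) : UpExp γ := by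
  obtain ⟨A, _, h2⟩ := levTop (k0 / 16) (by positivity)
  have h2' : WHP (fun n => {g : Pairs n → ℝ | ∀ f : Cfg n → ℝ, (∀ x, 0 < f x) →
      ex (skJ 1 g) (fun _ => 0) f = 1 → ex (skJ 1 g) (fun _ => 0) (fun x => f x * Real.log (f x))
        ≤ k0 / 16 * n + A * dir (skJ 1 g) (fun _ => 0) f (fun x => Real.log (f x))}) := h2
  refine MainThm.whp_mono (MainThm.whp_inter (MainThm.whp_inter h h2') whp_min) ?_
  filter_upwards [eventually_ge_atTop 81, ev_rpow_ge hγ 1000, ev_rpow_ge hγ (10 * A),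
    ev_log_le hγ (show (0 : ℝ) < 30 by norm_num), ev_rpow_le hγ1 (show 0 < k0 / 4 by positivity)]
    with n hn hK hA hlog hlin g hg
  obtain ⟨⟨hP, hT⟩, hmin⟩ := hg
  have hJ := skJ_symm' 1 g
  have hn0 : (0 : ℝ) < n := by exact_mod_cast (by omega : 0 < n)
  set K0 := (n : ℝ) ^ γ with hK0
  have hP' : PrM γ k0 (gM ((1 : ℝ) • skM g) 0) := by rw [one_smul]; exact hP
  set L := Real.log n with hLd
  have hL4 : 4 ≤ L := by
    rw [hLd, Real.le_log_iff_exp_le hn0]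
    have e : Real.exp 4 = Real.exp 1 ^ 4 := by rw [← Real.exp_nat_mul]; norm_num
    have e2 : Real.exp 1 ^ 4 ≤ 3 ^ 4 :=
      pow_le_pow_left₀ (Real.exp_pos _).le Real.exp_one_lt_three.le 4
    have e3 : (81 : ℝ) ≤ n := by exact_mod_cast hn
    linarith
  set j := Nat.log 2 n + 3 with hj
  have hj1 : (4 : ℝ) * n ≤ 2 ^ j := by
    have e := Nat.lt_pow_succ_log_self (b := 2) one_lt_two n
    have e2 : 4 * n ≤ 2 ^ j := by rw [hj, pow_add]; rw [pow_succ] at e; omega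
    exact_mod_cast e2
  have hj2 : (j : ℝ) + 3 ≤ 3 * L := by
    have e : ((2 ^ Nat.log 2 n : ℕ) : ℝ) ≤ n := by
      exact_mod_cast Nat.pow_log_le_self 2 (by omega)
    have e2 := Real.log_le_log (by positivity) e
    rw [Nat.cast_pow, Real.log_pow, Nat.cast_ofNat] at e2
    have e3 := mul_le_mul_of_nonneg_left Real.log_two_gt_d9.le (Nat.cast_nonneg (Nat.log 2 n))
    rw [hj]; push_cast
    linarith
  have hA0 : 0 < Real.exp (K0 / 10) := Real.exp_pos _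
  have hlev : ∀ K, K0 ≤ K → Lev (skJ 1 g) (fun _ => 0) K (K / 8) (Real.exp (K0 / 10)) := by
    intro K hK'
    rcases le_total (2 * K) (k0 * n) with hc | hc
    · obtain ⟨i, i1, i2⟩ := exists_dyadic_lt (show 1 ≤ K by linarith)
      have h4 := (hP' i (by linarith) (i2.trans hc)).1.levM i1
      refine Lev.mono hJ (lev_of_levM _ h4) le_rfl ?_ (Real.exp_le_exp.2 (by linarith))
      have h5 : Real.exp (-(K0 / 25)) ≤ 1 := Real.exp_le_one_iff.2 (by linarith)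
      linarith
    · intro f hf _ hf1
      refine (hT f hf hf1).trans (add_le_add (by linarith) ?_)
      refine mul_le_mul_of_nonneg_right ?_ (D8M.dir_log_nonneg _ hJ hf)
      linarith [Real.add_one_le_exp (K0 / 10)]
  have hlast : Lev (skJ 1 g) (fun _ => 0) (K0 + 1) (1 / 100) (Real.exp (K0 / 10)) := by
    obtain ⟨i, i1, i2⟩ := exists_dyadic_lt (show 1 ≤ K0 + 1 by linarith)
    have h4 := (hP' i (by linarith) (by linarith)).2.levM i1
    refine Lev.mono hJ (lev_of_levM _ h4) le_rfl ?_ ?_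
    · rw [← Real.exp_add]
      have h5 : Real.exp (6 * (2 ^ i / 400) + -(K0 / 25)) ≤ Real.exp (-9) :=
        Real.exp_le_exp.2 (by linarith)
      have h6 : Real.exp (-9) = Real.exp (-3) ^ 3 := by rw [← Real.exp_nat_mul]; norm_num
      have h7 := pow_le_pow_left₀ (Real.exp_pos _).le A2.exp_neg_three 3
      linarith
    · rw [← Real.exp_add]
      exact Real.exp_le_exp.2 (by linarith)
  have hT' := time_le hK (Nat.cast_nonneg j) (by linarith)
  have key : ∀ t, Real.exp K0 / 2 ≤ t → ∀ x,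
      tvDist (skJ 1 g) (fun _ => 0) t x ≤ 1 / 4 := fun t ht x =>
    tv_of_levels hJ hA0 (K0 := K0) (by linarith) j (by linarith) hj1 hmin hlev hlast
      (hT'.trans ht) x
  have hp : 0 < Real.exp K0 := Real.exp_pos _
  have hmix : tmix (skJ 1 g) (fun _ => 0) ≤ Real.exp K0 / 2 :=
    csInf_le ⟨0, fun t ht => ht.1⟩ ⟨by positivity, key _ le_rfl⟩
  refine ⟨by linarith, ?_, fun t ht => key t (by linarith)⟩
  have e1 := log_two_le (by omega) hJ (fun _ => 0)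
  have e2 := mul_le_mul_of_nonneg_left hmix (gap_pos (by omega) hJ (fun _ => 0)).le
  rw [Real.exp_neg, inv_le_iff_one_le_mul₀ hp]
  linarith [Real.log_two_gt_d9]

end Vale.Agent.N150.M0
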