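import Vale.Agent.N150.AsmTop
import Vale.Agent.N150.M0Top

/-! P150 at the critical point: the path statement with an exponentially small defect gives both
the statement `PathH` and the milestone bound `exp (n ^ γ)`. -/

open Matrix MeasureTheory Filter Topology

namespace Vale.Agent.N150.M0G

open Vale.Agent.P150 Vale.Agent.P150.F Vale.Agent.N150.Sp Vale.Agent.N150.Asm
  Vale.Agent.N150.Plant

variable {n : ℕ}

/-- tracked paths on all dyadic levels between `M = max (lo, a₀ log n)` and `k₀ n`, with the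
defect `exp (- M / 25)` -/
def PrE (lo γ ε θ a₀ k₀ : ℝ) (μ : Cfg n → ℝ) : Prop :=
  ∀ j : ℕ, lo ≤ 2 ^ j → a₀ * Real.log n ≤ 2 ^ j → (2 : ℝ) ^ j ≤ k₀ * n →
    A1.PathAt μ (2 ^ j) ((n : ℝ) ^ (γ + ε)) (θ * 2 ^ j)
      (Real.exp (-(max lo (a₀ * Real.log n) / 25)))

/-- the output of the assembly, with the exponentially small defect -/
def PathE (lo : ℕ → ℝ) : Prop :=
  ∃ a₀ : ℝ, 25 ≤ a₀ ∧ ∀ ε θ : ℝ, 0 < ε → 0 < θ → ∃ k₀ : ℝ, 0 < k₀ ∧
    ∃ (b sg : ℝ) (EG : ∀ n, Mat n → Mat n → Prop), b ^ 2 + sg ^ 2 = 1 ∧ PairW EG ∧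
      HaarW b sg EG fun n lam O => PrE (lo n) (2 / 3) ε θ a₀ k₀ (gM (JO lam O) 0)

theorem haarW_mono {b sg : ℝ} {EG : ∀ n, Mat n → Mat n → Prop} {Q Q' : ∀ n, Vec n → OG n → Prop}
    (h : HaarW b sg EG Q) (h' : ∀ᶠ n : ℕ in atTop, ∀ lam O, Q n lam O → Q' n lam O) :
    HaarW b sg EG Q' := by
  intro d hd
  filter_upwards [h d hd, h'] with n a1 a2 lam J W s1 s2 s3 s4
  refine le_trans (measureReal_mono ?_) (a1 lam J W s1 s2 s3 s4)
  exact fun O hO => ⟨hO.1, fun hQ => hO.2 (a2 lam O hQ)⟩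

theorem PrE.prL {lo γ ε θ a₀ k₀ : ℝ} {μ : Cfg n → ℝ} (hn : 0 < n) (ha : 25 ≤ a₀)
    (h : PrE lo γ ε θ a₀ k₀ μ) : PrL lo γ ε θ a₀ k₀ μ := by
  intro j h1 h2 h3
  refine (h j h1 h2 h3).mono le_rfl le_rfl ?_
  have hn0 : (0 : ℝ) < n := by exact_mod_cast hn
  have hl : 0 ≤ Real.log n := Real.log_natCast_nonneg n
  have e : (1 : ℝ) / n = Real.exp (-Real.log n) := by
    rw [Real.exp_neg, Real.exp_log hn0, one_div]
  rw [e]
  refine Real.exp_le_exp.2 ?_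
  have h4 := le_max_right lo (a₀ * Real.log n)
  have h5 := mul_le_mul_of_nonneg_right ha hl
  linarith

theorem PathE.pathH {lo : ℕ → ℝ} (h : PathE lo) : PathH lo := by
  obtain ⟨a₀, ha, h⟩ := h
  refine ⟨a₀, fun ε θ hε hθ => ?_⟩
  obtain ⟨k₀, hk, b, sg, EG, h1, h2, h3⟩ := h ε θ hε hθ
  refine ⟨k₀, hk, b, sg, EG, h1, h2, haarW_mono h3 ?_⟩
  filter_upwards [eventually_gt_atTop 0] with n hn lam O hO
  exact hO.prL hn ha

/-- paths in the Haar frame give the level inequalities for the disorder -/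
theorem whp_prM {γ k₀ b sg : ℝ} {w : ℕ → ℝ} {EG : ∀ n, Mat n → Mat n → Prop}
    (hA : Red.Aux b sg w EG)
    (h : Red.Small b sg w EG fun n lam O => ¬M0.PrN γ k₀ (gM (JO lam O) 0)) :
    WHP fun n => {g : Pairs n → ℝ | M0.PrM γ k₀ (gM (skM g) 0)} := by
  refine Red.whp_of_small hA (T := fun n => {J | M0.PrM γ k₀ (gM (Matrix.of J) 0)})
    (fun n => M0.ms_prM_gM (M := fun J : Fin n → Fin n → ℝ => Matrix.of J)
      (fun i j => (measurable_pi_apply j).comp (measurable_pi_apply i)) γ k₀) ?_ (h.mono ?_)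
  · intro n g d hd
    have e : gM (End.goe (g, d)) 0 = gM (skM g) 0 := Red.gM_add_diag _ _ _
    have h1 : M0.PrM γ k₀ (gM (End.goe (g, d)) 0) := hd
    rw [e] at h1
    exact h1
  · exact Eventually.of_forall fun _ _ _ hO hP => hO hP.prM

/-- **M0** from the assembly with the threshold `n ^ γ` -/
theorem upExp_of_pathE {γ : ℝ} (hγ : 0 < γ) (hγ1 : γ < 1) (h : PathE fun n => (n : ℝ) ^ γ) :
    M0.UpExp γ := by
  obtain ⟨a₀, ha, h⟩ := h
  obtain ⟨k₀, hk, b, sg, EG, h1, h2, h3⟩ := h (1 / 3) (1 / 400) (by norm_num) (by norm_num)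
  refine M0.upExp_of hγ hγ1 hk (whp_prM (aux_of h1 h2) (haarW_mono h3 ?_).small)
  filter_upwards [M0.ev_log_le hγ (show 0 < a₀ by linarith), eventually_gt_atTop 0]
    with n hl hn lam O hO j j1 j2
  have hn0 : (0 : ℝ) < n := by exact_mod_cast hn
  have hl0 : 0 ≤ Real.log n := Real.log_natCast_nonneg n
  refine (hO j j1 (hl.trans j1) j2).mono ?_ (le_of_eq (by ring)) ?_
  · rw [show (2 / 3 + 1 / 3 : ℝ) = 1 by norm_num, Real.rpow_one]
    rw [← Real.log_le_iff_le_exp hn0]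
    have h5 := mul_le_mul_of_nonneg_right ha hl0
    linarith
  · rw [max_eq_left hl]

end Vale.Agent.N150.M0G
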