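import Vale.Agent.N150.AsmE1
import Vale.Agent.N150.AsmT
import Vale.Agent.N150.M0Glue

/-! P150 at the critical point: the path assembly with an exponentially small defect. -/

open Matrix MeasureTheory Filter Topology Finset

namespace Vale.Agent.N150.M0G

open Vale.Agent.P150 Vale.Agent.P150.F Vale.Agent.N150.Sp Vale.Agent.N150.Asm
  Vale.Agent.N150.Plant Vale.Agent.N150.Cap Vale.Agent.N150.Rec Vale.Agent.N150.Edge

/-- one level -/
theorem lev_one : ∃ p : ℕ, 1 ≤ p ∧ ∀ {n : ℕ} {ε θ ρ κ η e α β ν T CT c k₀ K K₀ u : ℝ},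
    Cn ε θ ρ κ η e α β ν T CT c k₀ → 4 * k₀ ^ (149 / 10000 : ℝ) ≤ ν →
    Big n ε θ ρ η α β ν T CT → Real.log n ≤ K → K ≤ k₀ * n → ∀ {lam : Vec n}, Rigid (wn n) lam →
    ∀ {t : ℕ → ℝ} (hG : Grid lam t (u ^ 10)⁻¹), t 0 = -sc0 n (wn n) → (∃ N, T ≤ t N) →
    (n : ℝ) ≤ K₀ → Sc n (K₀ ^ p) u K (fi t T) → ∀ {h : St n → Vec n} {z : St n → ℝ}
    {cen : Mat n → Vec n → Vec n}, Measurable h → Measurable z →
    (plN n (diagonal lam) 0).real
      {q | ¬TapPath hG h z cen K₀ η e K (fi t (sg n K)) (fi t T) q} ≤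
      K₀ ^ p * ((fi t T : ℝ) + 1) ^ 2 * Real.exp (-(5 * K)) →
    LevQ lam (Br.TA hG (fi t T) cen CT CT (Real.exp (-(c * n)))) (u ^ 23) K fun O =>
      A1.PathAt (gM (JO lam O) 0) K ((n : ℝ) ^ (2 / 3 + ε)) (θ * K) (u ^ 4)⁻¹ := by
  obtain ⟨p, hp1, hct⟩ := cap_track
  refine ⟨p, hp1, ?_⟩
  intro n ε θ ρ κ η e α β ν T CT c k₀ K K₀ u h hk4 E hl hk lam hR t hG h0 htop hK₀ s hh z cen mh mz
    htap
  set Y := K₀ ^ p with hY
  have hn := npos E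
  have k1 := K1 E hl
  have K0 : 0 < K := by linarith
  have n0 := s.n0
  have Y1 := s.Y1
  have w0 : 0 < wn n := by linarith [E.w1]
  have c0' := sc0_pos hn w0
  have s0 := sL_pos hn K0
  have a0 := h.al0
  have ν0 := h.nu0
  have d0 : 0 < (u ^ 10)⁻¹ := hG.dl_pos
  have htm : Tm t (u ^ 10)⁻¹ T := ⟨hG.lt, hG.le, by linarith, htop⟩
  have hm : 2 * (u ^ 10)⁻¹ * n ≤ η * α := by
    have a1 := s.mesh (s.np (k := 2) (by norm_num))
    have a2 := mul_le_mul_of_nonneg_right E.en (show 0 ≤ (u ^ 10)⁻¹ * n by positivity)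
    have a3 := mul_le_mul_of_nonneg_left a1 (mul_pos h.eta0 a0).le
    linarith
  obtain ⟨J, hp, hJ, hJ2⟩ := h.par hn k1 hl hk htm (by linarith [sc_le' h E hl]) hm
  have hN := capNum h E hl hk hR hk4 hp hK₀
  have τ0 : 0 < (Y ^ 2)⁻¹ := by positivity
  have τ1 : (Y ^ 2)⁻¹ ≤ 1 := inv_le_one_of_one_le₀ (one_le_pow₀ Y1)
  have X1 : ((Y ^ 2)⁻¹) ^ 2 * (Y ^ 2 * n) ≤ 1 := by
    have a1 : ((Y ^ 2)⁻¹) ^ 2 * (Y ^ 2 * n) = n / Y ^ 2 := by field_simp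
    rw [a1, div_le_one (by positivity)]
    nlinarith [s.nY]
  have hg := h.gam K0.le J
  have hνK : √(ν * K) ^ 2 ≤ ν * K := (Real.sq_sqrt (by positivity)).le
  have ht := tot_le (ρ := ρ) (R₂ := 2 * ρ * β / α) (T := T) (g := fun s => s ^ e * √K) k1 ν0.le hνK
    (Real.sq_sqrt ν0.le).le hJ2 le_rfl hνK hg.2
  obtain ⟨hOK, l, mm, m1, m2, m3, m4⟩ := hct hG (cen := cen) (X0 := 42 * (n * √(sL n K))) hp hN mh
    mz (s.mesh (s.Yp (by norm_num))) τ0 τ1 h.e0.le (by positivity) (s.z0 E.nn (h.K_le hk)) hg.1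
    ht.1 ht.2
  refine ⟨_, bad_le h E hl hk hR hG hp hJ hJ2 hK₀ s hOK τ0 τ1 hN.cN htap, fun O hO hB => ?_⟩
  have hc : 8 * K ≤ c * n := by
    have := mul_le_mul_of_nonneg_right h.kc (Nat.cast_nonneg (α := ℝ) n)
    linarith
  have x1 : Real.exp (-(c * n)) ≤ Real.exp (-(2 * K)) := Real.exp_le_exp.2 (by linarith)
  have g0 : ∀ x, 0 ≤ gM (JO lam O) 0 x := fun x => (gM_pos _ _ x).le
  have hT := m4 O (2 * Real.exp (-(2 * K))) (by
    refine le_trans (PE_mono g0 fun x ω hx => ?_) ((PE_or_le g0 _ _).trans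
      ((add_le_add hB (hO.2.trans x1)).trans (le_of_eq (by ring))))
    rcases le_or_gt (F.sq (Br.eS cen (Rec.trC hG ((O, x), ω) (fi t T)))) CT with a | a
    · exact Or.inl ⟨a, hx⟩
    · exact Or.inr a)
  have i0 : 0 ≤ (α * sL n K)⁻¹ := by positivity
  have i1 : (α * sL n K)⁻¹ ≤ Y ^ 2 := by
    have a1 : α⁻¹ ≤ n := by
      rw [inv_le_iff_one_le_mul₀' a0]
      linarith [E.an]
    have a2 : (sL n K)⁻¹ ≤ n :=
      inv_le_of_inv_le₀ (by linarith) (inv_le_sL hn k1 (by linarith [h.K_le hk]))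
    rw [mul_inv, pow_two]
    exact mul_le_mul (a1.trans s.nY) (a2.trans s.nY) (by positivity) (by linarith)
  have r0 : 0 ≤ Ref.rho n Y n (Y ^ 2)⁻¹ := by unfold Ref.rho; positivity
  beta_reduce
  rw [← hG.law_cap O]
  refine pathAt_of hT hO.1 (by linarith [h.CT1]) (Real.exp_pos _).le
    (fun k _ => (m1 k).trans (h.step hn k1 hk X1 d0.le ?_ E.an))
    (Λ := Cn.cL ρ α β * (n : ℝ) ^ (2 / 3 * (1 + 4 * η))) ?_ E.l1 ?_ (s.d1 E.l2 K0.le hc)
    (s.d2 (by positivity) (s.B_le i0 i1)) (s.d3 E.k0)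
  · rw [mul_comm]
    exact s.mesh (s.np (by norm_num))
  · rw [← Finset.range_eq_Ico]
    linarith [h.lin hn k1]
  · rw [← Finset.range_eq_Ico]
    refine m2.trans (h.cost hn K0 hk (E.th.trans ?_) X1)
    refine mul_le_mul_of_nonneg_left hl ?_
    linarith [h.alt]

theorem ev_big {ε θ ρ κ η e α β ν T CT c k₀ : ℝ} (h : Cn ε θ ρ κ η e α β ν T CT c k₀) :
    ∀ᶠ n : ℕ in atTop, Big n ε θ ρ η α β ν T CT := by
  have e0 := h.eta0
  have a0 := h.al0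
  have ν0 := h.nu0
  filter_upwards [eventually_ge_atTop 40000, ev_wn_ge 1,
    ev_kap_le (c := η / 4000) (by positivity), ev_sc0 (c := α * η / 6000) (by positivity),
    ev_mul_lg (a := θ) (by linarith [h.alt]) 36, ev_mul_lg (a := ν * α ^ 2) (by positivity) 80,
    ev_mul_lg ν0 ((√CT + 1) ^ 2), ev_mul_nat a0 1000, ev_mul_nat (mul_pos e0 a0) 2,
    ev_mul_nat ν0 16, ev_nat A1.K0, h.ev_lin] with n a1 a2 a3 a4 a5 a6 a7 a8 a9 a10 a11 a12
  exact ⟨a1, a2, by linarith, a4, a5, a6, a7, a8, a9, a10, a11, a12.1, a12.2⟩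

/-- the constants -/
theorem exists_cn {ε θ : ℝ} (hε : 0 < ε) (hθ : 0 < θ) (hθ1 : θ ≤ 1) :
    ∃ ρ κ η α β ν : ℝ, 0 < η ∧ ∀ e b : ℝ, 0 < e → 0 < b → ∃ T : ℝ, 0 < T ∧ 2 * T ≤ b ∧
      ∀ CT c : ℝ, 1 ≤ CT → 0 < c → ∃ k₀ : ℝ, Cn ε θ ρ κ η e α β ν T CT c k₀ ∧
        4 * k₀ ^ (149 / 10000 : ℝ) ≤ ν := by
  obtain ⟨ρ, κ, η₀, r1, r2, r3, r4, r5, r6, r7⟩ := exists_rho
  set η := min η₀ (ε / 6) with hη
  have e0 : 0 < η := lt_min r3 (by linarith)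
  have e1 : η ≤ η₀ := min_le_left _ _
  have e2 : η ≤ ε / 6 := min_le_right _ _
  set α := θ / 2000 with hα
  set β := 6 / (η / 200) ^ 2 with hβ
  have a0 : 0 < α := by positivity
  have b0 : 0 < β := by positivity
  have b1 : (η / 200) ^ 2 * β = 6 := by rw [hβ]; field_simp
  have b2 : 6 ≤ β := by nlinarith [mul_pos e0 e0, mul_le_mul e1 e1 e0.le r3.le]
  have R1 : 1 ≤ 2 * ρ * β / α := by
    rw [le_div_iff₀ a0]
    nlinarith
  have m1 := (cM_le r1 R1).1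
  set ν := θ / 2 / cM ρ (2 * ρ * β / α) with hν
  have ν0 : 0 < ν := div_pos (by linarith) (by linarith)
  have ν1 : cM ρ (2 * ρ * β / α) * ν = θ / 2 := mul_div_cancel₀ _ (by linarith)
  refine ⟨ρ, κ, η, α, β, ν, e0, fun e b he hb => ?_⟩
  obtain ⟨T, t1, t2, t3, t4⟩ := exists_T (b := min b ((η / 200) ^ 2)) r1 he ν0
    (lt_min hb (by positivity))
  refine ⟨T, t1, t2.trans (min_le_left _ _), fun CT c hC hc => ?_⟩
  obtain ⟨k₀, k1, k2, k3, k4⟩ := exists_k0 (a := T / β) (b := ν / 4) (c := min (c / 8) (1 / 64))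
    (by positivity) (by positivity) (lt_min (by positivity) (by norm_num))
  have k5 := k2.trans (min_le_left _ _)
  have k6 := k2.trans (min_le_right _ _)
  rw [le_div_iff₀ b0] at k3
  exact ⟨k₀, ⟨r1, r2, r5, e0, e1.trans r4, by linarith, r6 η e0.le e1, r7 η e0.le e1, he, a0,
    by rw [hα]; linarith, hθ1, b1.ge, ν0, ν1.le, t1, t2.trans (min_le_right _ _), t3, t4, hC, hc,
    k1, by linarith, by linarith, by linarith, by linarith⟩, by linarith⟩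

theorem PrE.mono {n : ℕ} {lo γ ε θ θ' a₀ k₀ : ℝ} {μ : Cfg n → ℝ} (h : PrE lo γ ε θ a₀ k₀ μ)
    (hθ : θ ≤ θ') : PrE lo γ ε θ' a₀ k₀ μ := fun j a b c =>
  (h j a b c).mono le_rfl (mul_le_mul_of_nonneg_right hθ (by positivity)) le_rfl

theorem fi_eq {t : ℕ → ℝ} {T : ℝ} {N : ℕ} (h1 : T ≤ t N) (h2 : ∀ j < N, t j < T) : fi t T = N := by
  refine le_antisymm (Tm.fi_le h1) (not_lt.1 fun hc => ?_)
  have h3 : T ≤ t (fi t T) := Nat.sInf_mem (s := {k | T ≤ t k}) ⟨N, h1⟩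
  linarith [h2 _ hc]

/-- **the assembly** -/
theorem pathE_of {lo : ℕ → ℝ} {cen : ∀ n, Mat n → Vec n → Vec n} (h1 : TapQ lo cen)
    (h2 : TermQ cen) : PathE lo := by
  obtain ⟨p, h1⟩ := h1
  obtain ⟨T₁, hT₁, h2⟩ := h2
  obtain ⟨p₁, hp₁, hlev⟩ := lev_one
  set A : ℕ := (p + 1) * p₁ * 32 with hA
  have hA1 : 1 ≤ A := Nat.mul_pos (Nat.mul_pos (Nat.succ_pos p) hp₁) (by norm_num)
  have hA1' : (1 : ℝ) ≤ A := by exact_mod_cast hA1
  refine ⟨100 * A, by linarith, fun ε θ hε hθ => ?_⟩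
  obtain ⟨ρ, κ, η, α, β, ν, e0, hc⟩ := exists_cn hε (lt_min hθ one_pos) (min_le_right θ 1)
  obtain ⟨e, T₀, he, hT₀, h1⟩ := h1 η e0
  obtain ⟨T, hT, hTb, hc⟩ := hc e (min T₀ T₁) he (lt_min hT₀ hT₁)
  have hT0 : 2 * T ≤ T₀ := hTb.trans (min_le_left _ _)
  obtain ⟨b, sg', EG, CT, c, g1, g2, g3, g4, h2⟩ := h2 T hT
    (by linarith [hTb.trans (min_le_right _ _)])
  obtain ⟨k₀, h, hk4⟩ := hc CT c g2 g3
  refine ⟨k₀, h.k0, b, sg', EG, g1, g4, fun d hd => ?_⟩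
  filter_upwards [h1, h2 (d / 3) (by linarith), lowLR (d := d / 3) (by linarith), ev_big h,
    ev_sc0_le (c := 1 / 2) (by norm_num), ev_mul_nat hT 1, ev_mul_nat hd 3]
    with n h1 h2 h3 E c1 c2 c3 lam J₁ W s1 s2 hR s4
  have hn := npos E
  have n0 : (40000 : ℝ) ≤ n := by exact_mod_cast E.n0
  have n1 : (1 : ℝ) ≤ n := by linarith
  have l0 : 0 ≤ Real.log n := Real.log_natCast_nonneg n
  have w0 : 0 < wn n := by linarith [E.w1]
  have c0' := sc0_pos hn w0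
  set M := max (lo n) (100 * A * Real.log n) with hM
  set u := Real.exp (M / 100) with hu
  have u0 : 0 < u := Real.exp_pos _
  have hup : ∀ k : ℕ, (u ^ k)⁻¹ = Real.exp (-(k * M / 100)) := fun k => by
    rw [hu, ← Real.exp_nat_mul, ← Real.exp_neg, mul_div_assoc]
  set K₀ : ℝ := (n : ℝ) ^ (p + 1) with hK₀
  have nK : (n : ℝ) ≤ K₀ := le_self_pow₀ n1 (Nat.succ_ne_zero p)
  have pK : (n : ℝ) ^ p ≤ K₀ := pow_le_pow_right₀ n1 (Nat.le_succ p)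
  have KY : K₀ ≤ K₀ ^ p₁ := le_self_pow₀ (n1.trans nK) (by omega)
  have Yu : (K₀ ^ p₁) ^ 32 ≤ u := by
    rw [hK₀, ← pow_mul, ← pow_mul, ← mul_assoc, ← hA, ← Real.exp_log (show 0 < (n : ℝ) ^ A by
      positivity), Real.log_pow]
    exact Real.exp_le_exp.2 (by linarith [le_max_right (lo n) (100 * A * Real.log n)])
  have s0 : Sc n (K₀ ^ p₁) u M 0 := by
    refine ⟨n0, nK.trans KY, Yu, ?_, ?_⟩
    · rw [hup]
      exact Real.exp_le_exp.2 (by push_cast; linarith)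
    · have : 1 ≤ u := (one_le_pow₀ (n1.trans (nK.trans KY))).trans Yu
      have := one_le_pow₀ (n := 10) this
      push_cast
      linarith
  have nu : (n : ℝ) ≤ u := by simpa using s0.np (k := 1) (by norm_num)
  have d0 : 0 < (u ^ 10)⁻¹ := by positivity
  have d1 := s0.mesh nu
  obtain ⟨t, N, hG, t0, t1, t2, t3, t4⟩ := exists_grid lam (s0 := -sc0 n (wn n)) (T := T) d0
    (by nlinarith) hR.le_eps (by linarith)
  obtain rfl := fi_eq t1 t3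
  have d2 : (u ^ 10)⁻¹ ≤ T := by nlinarith
  have hN : (fi t T : ℝ) + 1 ≤ 4 * u ^ 10 := by
    have a1 : u ≤ u ^ 10 := by simpa using s0.up (a := 1) (b := 10) (by norm_num)
    have a2 : (T - -sc0 n (wn n)) / (u ^ 10)⁻¹ ≤ u ^ 10 := by
      rw [div_inv_eq_mul]
      exact mul_le_of_le_one_left (by positivity) (by linarith [h.T1])
    linarith
  have key := haar_le lam (fun O => EG n (Jr O J₁) (Jr O W))
    (Q := Br.TA hG (fi t T) (cen n) CT CT (Real.exp (-(c * n))))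
    (ok := fun j => lo n ≤ 2 ^ j ∧ 100 * A * Real.log n ≤ 2 ^ j ∧ (2 : ℝ) ^ j ≤ k₀ * n)
    (Pr := fun j O => A1.PathAt (gM (JO lam O) 0) (2 ^ j) ((n : ℝ) ^ (2 / 3 + ε))
      (min θ 1 * 2 ^ j) (u ^ 4)⁻¹) (M := u ^ 23) (x := (u ^ 100)⁻¹) (by positivity) (by positivity)
    (fun j hj => ⟨lt_of_pow_le (by linarith [h.K_le hj.2.2, pow_pos (zero_lt_two' ℝ) j]),
      (Real.exp_le_exp.2 (neg_le_neg (max_le hj.1 hj.2.1))).trans s0.Ku⟩) (fun j hj => ?_)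
  · have a1 : 2 * n * u ^ 23 * (u ^ 100)⁻¹ ≤ d / 3 := by
      have a2 := s0.fin (C := 2) (by norm_num) (a := 24) (b := 100) (by norm_num)
      have a3 : (u ^ 4)⁻¹ ≤ (n : ℝ)⁻¹ := inv_anti₀ (by linarith)
        (nu.trans (by simpa using s0.up (a := 1) (b := 4) (by norm_num)))
      have a4 : (n : ℝ)⁻¹ ≤ d := by
        rw [inv_le_iff_one_le_mul₀ (by linarith)]
        linarith
      calc _ ≤ 2 * u * u ^ 23 * (u ^ 100)⁻¹ := by gcongr
        _ = 2 * u ^ 24 * (u ^ 100)⁻¹ := by ring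
        _ ≤ _ := by linarith
    have a5 := h2 lam J₁ W s1 s2 hR s4 t _ hG (fi t T) d1 t1 (by linarith)
    refine le_trans (measureReal_mono ?_) (key.trans (by linarith [h3 lam hR]))
    intro O hO
    refine ⟨hO.1, fun hP => hO.2 (PrE.mono (fun j a1 a2 a3 => ?_) (min_le_left θ 1))⟩
    refine (hP j ⟨a1, a2, a3⟩).mono le_rfl le_rfl (le_of_eq ?_)
    rw [hup]
    congr 1
    push_cast
    ring
  · have hl : Real.log n ≤ 2 ^ j := le_trans (by nlinarith) hj.2.1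
    have j0 : (0 : ℝ) < 2 ^ j := by positivity
    have s : Sc n (K₀ ^ p₁) u (2 ^ j) (fi t T) := ⟨n0, s0.nY, Yu,
      (Real.exp_le_exp.2 (neg_le_neg (max_le hj.1 hj.2.1))).trans s0.Ku, hN⟩
    have htm : Tm t (u ^ 10)⁻¹ T := ⟨hG.lt, hG.le, by linarith, _, t1⟩
    have g0 := (sL_pos hn j0).trans_le (h.sL_le_sg' hn j0 hj.2.2)
    have g1 : sg n (2 ^ j) ≤ T := by linarith [h.sg_le_T hn j0 hj.2.2]
    obtain ⟨hh, z, mh, mz, ht⟩ := h1 lam hR t _ hG (s.mesh ((pow_le_pow_left₀ (by positivity)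
      (pK.trans KY) 8).trans (s.Yp (by norm_num)))) (2 ^ j) hj.1 hl (fi t (sg n (2 ^ j))) (fi t T)
      (htm.le_fi g1) (htm.fi_mono g1 le_rfl) (by linarith)
    refine hlev h hk4 E hl hj.2.2 hR hG t0 ⟨_, t1⟩ nK s mh mz (le_trans (measureReal_mono ?_)
      (ht.trans ?_))
    · exact fun q hq hq' => hq (tapPath_mono hq' pK)
    · have := pK.trans KY
      gcongr

/-- the assembly in its original form -/
theorem pathH_of {lo : ℕ → ℝ} {cen : ∀ n, Mat n → Vec n → Vec n} (h1 : TapQ lo cen)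
    (h2 : TermQ cen) : PathH lo := (pathE_of h1 h2).pathH

end Vale.Agent.N150.M0G
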