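import Vale.Agent.N150.RecKap

/-! P150 at the critical point: elementary events along the cap flow under the planted law. -/

open Matrix MeasureTheory

namespace Vale.Agent.N150.Asm

open Vale.Agent.P150 Vale.Agent.P150.F Vale.Agent.N150.Sp Vale.Agent.N150.Cap
  Vale.Agent.N150.Rec Vale.Agent.N150.Edge Vale.Agent.N150.Plant

variable {n : ℕ} {lam : Vec n} {t : ℕ → ℝ} {dl : ℝ}

/-- all noise vectors are moderate -/
theorem box_tail (M : Mat n) (y : Vec n) (hn : 6 ≤ n) (N : ℕ) :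
    (plN n M y).real {q | ¬∀ k, k < N → q.2 k ∈ A1.Box n n} ≤ N * Real.exp (-n) := by
  have h6 : (6 : ℝ) ≤ n := by exact_mod_cast hn
  have h1 := Path.snd_real_le (plM M y) (PN n)
    (fun ω => ∃ k ∈ Finset.range N, 2 * (n : ℝ) + 4 * n ≤ F.sq (ω k))
  refine (Tail.real_imp_le _ fun q hq => ?_).trans ((le_of_eq h1).trans (Path.tail_noise N n))
  by_contra hc
  refine hq fun k hk j => ?_
  by_contra hj
  refine hc ⟨k, Finset.mem_range.2 hk, ?_⟩
  have h2 : q.2 k j ^ 2 ≤ F.sq (q.2 k) :=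
    Finset.single_le_sum (f := fun i => q.2 k i ^ 2) (fun i _ => sq_nonneg _) (Finset.mem_univ j)
  have h3 : (n : ℝ) ^ 2 ≤ |q.2 k j| ^ 2 := pow_le_pow_left₀ (by linarith) (not_le.1 hj).le 2
  rw [sq_abs] at h3
  nlinarith

/-- the field stays bounded -/
theorem ybd_tail (hG : Grid lam t dl) (hn : 14 ≤ n) (hl : ∀ a, lam a ≤ 5 / 2) {N : ℕ}
    (hN : t N ≤ 1 / 2) (M : Mat n) (y : Vec n) :
    (plN n M y).real {q | ¬∀ k, k ≤ N → nv (sy (trC hG q k)) ≤ n} ≤ (N + 1) * Real.exp (-n) := by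
  have h14 : (14 : ℝ) ≤ n := by exact_mod_cast hn
  have hA : ∀ k, k ≤ N → ∀ a, Path.An (Path.rC lam t) k a ≤ 1 := fun k hk a => by
    rw [Path.An_rC hG]
    exact max_le (by linarith [hl a, hG.mono hk]) zero_le_one
  have h1 := Path.plN_rot_le M y {p | ∃ k ∈ Finset.range (N + 1),
    1 * (2 * ((Finset.univ : Finset (Fin n)).card : ℝ) + 4 * n) <
      ∑ a ∈ Finset.univ, Path.Bn (Path.rC lam t) k p.2 a ^ 2}
  have h2 := Path.snd_real_le (spM M y) (PN n) (fun ω => ∃ k ∈ Finset.range (N + 1),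
    1 * (2 * ((Finset.univ : Finset (Fin n)).card : ℝ) + 4 * n) <
      ∑ a ∈ Finset.univ, Path.Bn (Path.rC lam t) k ω a ^ 2)
  have h3 := Tail.real_exists_le (PN n) (Finset.range (N + 1)) (fun k ω =>
    1 * (2 * ((Finset.univ : Finset (Fin n)).card : ℝ) + 4 * n) <
      ∑ a ∈ Finset.univ, Path.Bn (Path.rC lam t) k ω a ^ 2) (fun _ => Real.exp (-n))
    fun k hk => Path.tail_set _ k _ n zero_le_one (hA k (Nat.lt_succ_iff.1 (Finset.mem_range.1 hk)))
  rw [Finset.sum_const, Finset.card_range, nsmul_eq_mul, Nat.cast_succ] at h3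
  refine (Tail.real_imp_le _ fun q hq => ?_).trans (h1.trans ((le_of_eq h2).trans h3))
  by_contra hc
  refine hq fun k hk => nv_le_of_sq_le (by linarith) ?_
  have h4 : ∑ a, Path.Bn (Path.rC lam t) k (rotN q.1.1 q.2) a ^ 2 ≤ 6 * n := by
    by_contra h5
    refine hc ⟨k, Finset.mem_range.2 (Nat.lt_succ_of_le hk), ?_⟩
    rw [Finset.card_univ, Fintype.card_fin]
    linarith [not_le.1 h5]
  have h5 : ∑ a, xt q.1.1 q.1.2 a ^ 2 = n := sq_xt q.1.1 q.1.2
  rw [sy_traj hG, sq_mulVec_orth (by rw [transpose_transpose]; exact OG.mul_transpose _),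
    ← Path.yp_rC hG]
  have h6 : F.sq (Path.yp (Path.rC lam t) (xt q.1.1 q.1.2) (rotN q.1.1 q.2) k) ≤
      ∑ a, (2 * xt q.1.1 q.1.2 a ^ 2 + 2 * Path.Bn (Path.rC lam t) k (rotN q.1.1 q.2) a ^ 2) := by
    refine Finset.sum_le_sum fun a _ => ?_
    have b0 := Path.An_nonneg (Path.rC lam t) k a
    have b1 := hA k hk a
    unfold Path.yp
    generalize Path.An (Path.rC lam t) k a = A at *
    generalize xt q.1.1 q.1.2 a = x
    generalize Path.Bn (Path.rC lam t) k (rotN q.1.1 q.2) a = b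
    have b2 : A ^ 2 ≤ 1 := pow_le_one₀ b0 b1
    nlinarith [sq_nonneg (A * x - b), mul_le_mul_of_nonneg_right b2 (sq_nonneg x)]
  rw [Finset.sum_add_distrib, ← Finset.mul_sum, ← Finset.mul_sum, h5] at h6
  nlinarith

theorem sq_PC (O : OG n) (s : ℝ) (v : Vec n) : F.sq (PC lam O s *ᵥ v) =
    ∑ a ∈ Finset.univ.filter fun a => 2 - lam a ≤ s, (O.1 *ᵥ v) a ^ 2 := by
  unfold PC
  rw [JO_mulVec, sq_mulVec_orth (by rw [transpose_transpose]; exact OG.mul_transpose _),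
    Finset.sum_filter]
  refine Finset.sum_congr rfl fun a _ => ?_
  change (dI lam s a * (O.1 *ᵥ v) a) ^ 2 = _
  unfold dI
  split_ifs
  · rw [one_mul]
  · rw [zero_mul, zero_pow two_ne_zero]

/-- the early mass -/
theorem mass_tail {w : ℝ} (h : Rigid w lam) (hn : 0 < n) (hw : 0 < w) (hk : Edge.kap w ≤ 1 / 100)
    {s z : ℝ} (hs : 20 * sc0 n w ≤ s) (hs1 : s ≤ 1 / 16) (hz : 0 ≤ z)
    (hζ : z ≤ 6 * (n * (s * √s))) {k₀ : ℕ} (ht : t k₀ ≤ s - 2 * sc0 n w) :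
    (plN n (diagonal lam) 0).real
      {q | ¬F.sq (capP lam t q.1.1 k₀ *ᵥ sv q.1.2) ≤ 42 * (n * √s)} ≤
      3000 * n ^ 8 * Real.exp (-z) := by
  have h1 := Path.plN_rot_le (diagonal lam) 0 {p | 42 * (n * √s) <
    ∑ a ∈ Finset.univ.filter fun a => 2 - lam a ≤ t k₀, p.1 a ^ 2}
  have h2 := Path.fst_real_le (spM (diagonal lam) 0) (PN n) (fun x => 42 * (n * √s) <
    ∑ a ∈ Finset.univ.filter fun a => 2 - lam a ≤ t k₀, x a ^ 2)
  have h3 := Path.early_mass h hn hw hk hs hs1 hz hζ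
    (Finset.univ.filter fun a => 2 - lam a ≤ t k₀) fun a ha => (Finset.mem_filter.1 ha).2.trans ht
  refine (Tail.real_imp_le _ fun q hq => ?_).trans (h1.trans ((le_of_eq h2).trans h3))
  unfold capP at hq
  rw [sq_PC, not_le] at hq
  exact hq

end Vale.Agent.N150.Asm
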