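import Vale.Agent.N150.RadMeas
import Vale.Agent.N150.EdgeTr

set_option linter.all false

/-! The spherical reference along the cap flow: explicit formulas on the capped space, crude and
sharp forms of the response matrix, size of the drift. -/

open Matrix Finset MeasureTheory

namespace Vale.Agent.N150.Rad

open Vale.Agent.P150 Vale.Agent.P150.F Vale.Agent.N150.EC Vale.Agent.N150.Sp Vale.Agent.N150.Cap

variable {n : ℕ}

theorem sq_smul' (c : ℝ) (v : Vec n) : F.sq (c • v) = c ^ 2 * F.sq v := by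
  rw [← ipN_self, ip_smul_left, ip_smul_right, ipN_self]; ring

theorem ip_sq_le (u v : Vec n) : ip u v * ip u v ≤ F.sq u * F.sq v := by
  have h := abs_ip_le u v
  have h2 : |ip u v| ^ 2 ≤ (nv u * nv v) ^ 2 := pow_le_pow_left₀ (abs_nonneg _) h 2
  rw [sq_abs, mul_pow, nv_sq, nv_sq, pow_two] at h2
  exact h2

/-- the field lies in an eigenspace `range P` of `G0` with the top eigenvalue `1 / δ` -/
structure Cp (J P : Mat n) (y : Vec n) (z δ k : ℝ) : Prop where
  dp : 0 < δ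
  hG : ∀ u, P *ᵥ u = u → G0 J z *ᵥ u = δ⁻¹ • u
  hy : P *ᵥ y = y
  tp : 0 < T2 J z
  t2 : k ≤ δ ^ 2 * T2 J z
  t30 : 0 ≤ T3 J z
  t3 : δ * T3 J z ≤ T2 J z

namespace Cp

variable {J P : Mat n} {y : Vec n} {z δ k : ℝ} (h : Cp J P y z δ k)

include h

theorem G_smul (c : ℝ) : G0 J z *ᵥ (c • y) = (c * δ⁻¹) • y := by
  rw [Matrix.mulVec_smul, h.hG y h.hy, smul_smul]

theorem P_smul (c : ℝ) : P *ᵥ (c • y) = c • y := by rw [Matrix.mulVec_smul, h.hy]

theorem pm_eq : pm J y z = δ⁻¹ • y := h.hG y h.hy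

theorem am_eq : am J y z = (δ⁻¹ * δ⁻¹) • y := by
  unfold am
  rw [h.pm_eq, h.G_smul]

theorem Dn_eq : Dn J y z = T2 J z + 2 * F.sq y / δ ^ 3 := by
  unfold Dn
  rw [h.pm_eq, h.am_eq, ip_smul_left, ip_smul_right, ipN_self]
  have := h.dp.ne'
  field_simp

theorem Dn_pos : 0 < Dn J y z := by
  rw [h.Dn_eq]
  have := h.dp
  have := h.tp
  have := sqN_nonneg y
  positivity

theorem Gs_mul {u : Vec n} (hu : P *ᵥ u = u) :
    Gs J y z *ᵥ u = δ⁻¹ • u - (2 * ip y u / (δ ^ 4 * Dn J y z)) • y := by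
  rw [Gs_mulVec, h.hG u hu]
  unfold z1
  rw [h.am_eq, ip_smul_left, smul_smul]
  congr 2
  have := h.dp.ne'
  have := h.Dn_pos.ne'
  field_simp

theorem Gs_mem {u : Vec n} (hu : P *ᵥ u = u) : P *ᵥ (Gs J y z *ᵥ u) = Gs J y z *ᵥ u := by
  rw [h.Gs_mul hu, Matrix.mulVec_sub, Matrix.mulVec_smul, hu, h.P_smul]

theorem ip_Gs (u : Vec n) {v : Vec n} (hv : P *ᵥ v = v) :
    ip u (Gs J y z *ᵥ v) = ip u v / δ - 2 * (ip y u * ip y v) / (δ ^ 4 * Dn J y z) := by
  rw [h.Gs_mul hv, ip_sub_right, ip_smul_right, ip_smul_right, ipN_comm u y]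
  ring

theorem form_le {u : Vec n} (hu : P *ᵥ u = u) : ip u (Gs J y z *ᵥ u) ≤ F.sq u / δ := by
  rw [h.ip_Gs u hu, ipN_self]
  have := h.dp
  have := h.Dn_pos
  have : 0 ≤ 2 * (ip y u * ip y u) / (δ ^ 4 * Dn J y z) :=
    div_nonneg (mul_nonneg (by norm_num) (mul_self_nonneg _)) (by positivity)
  linarith

theorem form_nonneg {u : Vec n} (hu : P *ᵥ u = u) : 0 ≤ ip u (Gs J y z *ᵥ u) := by
  rw [h.ip_Gs u hu, ipN_self, sub_nonneg]
  have hd := h.dp
  have hD := h.Dn_pos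
  have h1 := ip_sq_le y u
  have h2 : 2 * F.sq y ≤ δ ^ 3 * Dn J y z := by
    rw [h.Dn_eq, mul_add, mul_div_cancel₀ _ (by positivity)]
    have := h.tp
    have : 0 ≤ δ ^ 3 * T2 J z := by positivity
    linarith
  have h3 := mul_le_mul_of_nonneg_right h2 (sqN_nonneg u)
  rw [div_le_div_iff₀ (by positivity) hd]
  have h4 : 2 * (ip y u * ip y u) ≤ δ ^ 3 * Dn J y z * F.sq u := by linarith
  have h5 := mul_le_mul_of_nonneg_right h4 hd.le
  linarith

theorem ks_eq : ks J y z P =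
    ((-2 + 12 * F.sq y / (δ ^ 3 * Dn J y z) - 4 * F.sq y * T3 J z / (δ ^ 2 * Dn J y z ^ 2)
      - 12 * F.sq y ^ 2 / (δ ^ 6 * Dn J y z ^ 2)) / (δ ^ 4 * Dn J y z)) • y := by
  have hd := h.dp.ne'
  have hD := h.Dn_pos.ne'
  unfold ks es qf
  rw [h.am_eq, h.P_smul, h.G_smul, h.G_smul, sq_smul']
  simp only [ip_smul_left, ip_smul_right, ipN_self, smul_smul, sq_smul']
  rw [← sub_smul, ← add_smul, ← sub_smul]
  congr 1
  field_simp
  ring

/-- size of the drift, for every field -/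
theorem sq_ks : 2 * (k * δ ^ 3) * F.sq (ks J y z P) ≤ 1 := by
  have hd := h.dp
  have hD := h.Dn_pos
  have hR := sqN_nonneg y
  have e := h.Dn_eq
  have a2 := h.t2
  have a30 := h.t30
  have a3 := h.t3
  have a1 := h.tp
  rw [h.ks_eq, sq_smul']
  generalize Dn J y z = D at *
  generalize F.sq y = R at *
  generalize T2 J z = A at *
  generalize T3 J z = B at *
  set c := 2 * R / (δ ^ 3 * D) with hc
  set q := δ * B / D with hq
  have c0 : 0 ≤ c := by positivity
  have q0 : 0 ≤ q := by positivity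
  have cA : c = 1 - A / D := by
    rw [hc, eq_sub_iff_add_eq, e]
    field_simp
    ring
  have q1 : q ≤ 1 - c := by
    rw [cA, sub_sub_cancel]
    exact div_le_div_of_nonneg_right a3 hD.le
  have eβ : -2 + 12 * R / (δ ^ 3 * D) - 4 * R * B / (δ ^ 2 * D ^ 2) - 12 * R ^ 2 / (δ ^ 6 * D ^ 2)
      = -2 + 6 * c - 2 * c * q - 3 * c ^ 2 := by
    rw [hc, hq]
    field_simp
    ring
  rw [eβ]
  have c1 : c ≤ 1 := by linarith
  have b1 : -2 ≤ -2 + 6 * c - 2 * c * q - 3 * c ^ 2 := by nlinarith [mul_nonneg c0 (sub_nonneg.2 q1)]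
  have b2 : -2 + 6 * c - 2 * c * q - 3 * c ^ 2 ≤ 2 := by nlinarith [mul_nonneg c0 q0]
  set β := -2 + 6 * c - 2 * c * q - 3 * c ^ 2
  have b3 : β ^ 2 ≤ 4 := by nlinarith
  -- `8 k R ≤ δ ^ 5 D ^ 2`
  have d1 : 8 * (A * R) ≤ δ ^ 3 * D ^ 2 := by
    have e1 : δ ^ 3 * D ^ 2 - 8 * (A * R) = δ ^ 3 * (A - 2 * R / δ ^ 3) ^ 2 := by
      rw [e]; field_simp; ring
    have : 0 ≤ δ ^ 3 * (A - 2 * R / δ ^ 3) ^ 2 := by positivity
    linarith
  have d2 : 8 * (k * R) ≤ δ ^ 5 * D ^ 2 := by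
    have := mul_le_mul_of_nonneg_right a2 hR
    have := mul_le_mul_of_nonneg_left d1 (sq_nonneg δ)
    nlinarith
  have e2 : 2 * (k * δ ^ 3) * ((β / (δ ^ 4 * D)) ^ 2 * R)
      = β ^ 2 * (2 * (k * R)) / (δ ^ 5 * D ^ 2) := by
    field_simp
  rw [e2, div_le_one (by positivity)]
  rcases le_total 0 (k * R) with hk | hk
  · nlinarith
  · have : β ^ 2 * (2 * (k * R)) ≤ 0 := mul_nonpos_of_nonneg_of_nonpos (sq_nonneg _) (by linarith)
    have : 0 ≤ δ ^ 5 * D ^ 2 := by positivity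
    linarith

/-- the sharp form, from the two scalar estimates -/
theorem sharp {t η₁ η₂ : ℝ} (hR : 0 < F.sq y) (h1 : |t / δ - 1| ≤ η₁)
    (h2 : |t / δ * (2 * F.sq y / (δ ^ 3 * Dn J y z)) - 1 / 2| ≤ η₂) (u : Vec n) {v : Vec n}
    (hv : P *ᵥ v = v) :
    |t * ip u (Gs J y z *ᵥ v) - (ip u v - ip y u * ip y v / (2 * F.sq y))|
      ≤ (η₁ + η₂) * nv u * nv v := by
  have hd := h.dp
  have hD := h.Dn_pos
  have e : t * ip u (Gs J y z *ᵥ v) - (ip u v - ip y u * ip y v / (2 * F.sq y))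
      = (t / δ - 1) * ip u v - (t / δ * (2 * F.sq y / (δ ^ 3 * Dn J y z)) - 1 / 2)
        * (ip y u * ip y v / F.sq y) := by
    rw [h.ip_Gs u hv]
    field_simp
    ring
  have a1 := abs_ip_le u v
  have a2 : |ip y u * ip y v / F.sq y| ≤ nv u * nv v := by
    rw [abs_div, abs_mul, abs_of_pos hR, div_le_iff₀ hR, ← nv_sq y]
    calc |ip y u| * |ip y v| ≤ (nv y * nv u) * (nv y * nv v) :=
          mul_le_mul (abs_ip_le y u) (abs_ip_le y v) (abs_nonneg _)
            (mul_nonneg (nv_nonneg _) (nv_nonneg _))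
      _ = _ := by ring
  have p : 0 ≤ nv u * nv v := mul_nonneg (nv_nonneg _) (nv_nonneg _)
  rw [e]
  refine (abs_sub _ _).trans ?_
  rw [abs_mul, abs_mul]
  have b1 := mul_le_mul h1 a1 (abs_nonneg _) ((abs_nonneg _).trans h1)
  have b2 := mul_le_mul h2 a2 (abs_nonneg _) ((abs_nonneg _).trans h2)
  linarith

end Cp

/-! ### the cap flow -/

open Edge

/-- distance of the saddle point to the capped level -/
noncomputable def dz (lam : Vec n) (O : OG n) (t : ℝ) (y : Vec n) : ℝ :=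
  zr (JC lam O t) y - (2 - t)

section Cap

variable {lam : Vec n} (O : OG n) {t : ℝ} (y : Vec n)

theorem gap_eq (lam : Vec n) (t z : ℝ) (a : Fin n) :
    z - lamC lam t a = max (2 - lam a) t + (z - 2) := by
  rw [← two_sub_lamC]; ring

theorem lt_zr_cap (hn : 0 < n) (a : Fin n) : lamC lam t a < zr (JC lam O t) y :=
  lt_zr hn _ O y a

theorem dz_pos (hn : 0 < n) (ha : ∃ a, 2 - lam a ≤ t) : 0 < dz lam O t y := by
  obtain ⟨a, ha⟩ := ha
  have h1 := lt_zr_cap O y hn (lam := lam) (t := t) a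
  have h2 : lamC lam t a = 2 - t := min_eq_right (by linarith)
  unfold dz
  linarith

theorem trace_cap (hn : 0 < n) :
    (G0 (JC lam O t) (zr (JC lam O t) y)).trace = trC 1 lam t (dz lam O t y - t) := by
  unfold JC
  rw [G0_JO O (lt_zr hn _ O y), trace_JO]
  unfold trC dz JC
  refine Finset.sum_congr rfl fun a _ => ?_
  rw [gap_eq, pow_one]
  congr 2
  ring

theorem T2_cap (hn : 0 < n) :
    T2 (JC lam O t) (zr (JC lam O t) y) = trC 2 lam t (dz lam O t y - t) := by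
  unfold JC
  rw [T2_JO O (lt_zr hn _ O y)]
  unfold trC dz JC
  refine Finset.sum_congr rfl fun a _ => ?_
  rw [gap_eq]
  congr 3
  ring

theorem T3_cap (hn : 0 < n) :
    T3 (JC lam O t) (zr (JC lam O t) y) = trC 3 lam t (dz lam O t y - t) := by
  unfold JC
  rw [T3_JO O (lt_zr hn _ O y)]
  unfold trC dz JC
  refine Finset.sum_congr rfl fun a _ => ?_
  rw [gap_eq]
  congr 3
  ring

theorem cp_cap (hn : 0 < n) (ha : ∃ a, 2 - lam a ≤ t) (hy : PC lam O t *ᵥ y = y) :
    Cp (JC lam O t) (PC lam O t) y (zr (JC lam O t) y) (dz lam O t y) (cnt lam t) := by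
  have hd := dz_pos O y hn ha
  have hm : ∀ a, dz lam O t y ≤ max (2 - lam a) t + (dz lam O t y - t) := fun a => by
    linarith [le_max_right (2 - lam a) t]
  refine ⟨hd, fun u hu => ?_, hy, ?_, ?_, ?_, ?_⟩
  · have e : G0 (JC lam O t) (zr (JC lam O t) y) * PC lam O t = (dz lam O t y)⁻¹ • PC lam O t := by
      unfold JC PC
      rw [G0_JO O (lt_zr hn _ O y), JO_mul, ← JO_smul]
      congr 1
      funext a
      unfold dI
      split_ifs with h1
      · have h2 : lamC lam t a = 2 - t := min_eq_right (by linarith)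
        rw [h2]
        rfl
      · simp
    conv_lhs => rw [← hu]
    rw [Matrix.mulVec_mulVec, e, Matrix.smul_mulVec, hu]
  · rw [T2_cap O y hn]
    have : Nonempty (Fin n) := ⟨⟨0, hn⟩⟩
    refine Finset.sum_pos (fun a _ => ?_) Finset.univ_nonempty
    have := hd.trans_le (hm a)
    positivity
  · rw [T2_cap O y hn, cnt_eq]
    unfold trC
    rw [Finset.mul_sum]
    refine Finset.sum_le_sum fun a _ => ?_
    split_ifs with h1
    · rw [max_eq_right h1, add_sub_cancel, mul_inv_cancel₀ (by positivity)]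
    · positivity
  · rw [T3_cap O y hn]
    exact trC_nonneg 3 lam (by linarith)
  · rw [T3_cap O y hn, T2_cap O y hn]
    unfold trC
    rw [Finset.mul_sum]
    refine Finset.sum_le_sum fun a _ => ?_
    have h1 := hm a
    have h2 := hd.trans_le h1
    generalize max (2 - lam a) t + (dz lam O t y - t) = m at *
    rw [← div_eq_mul_inv, inv_eq_one_div, div_le_div_iff₀ (by positivity) (by positivity)]
    nlinarith [mul_le_mul_of_nonneg_right h1 (sq_nonneg m)]

/-- the saddle equation on the cap -/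
theorem saddle_cap (hn : 0 < n) (ha : ∃ a, 2 - lam a ≤ t) (hy : PC lam O t *ᵥ y = y) :
    trC 1 lam t (dz lam O t y - t) + F.sq y / dz lam O t y ^ 2 = n := by
  have h1 : res (JC lam O t) y (zr (JC lam O t) y) = 0 := res_zr hn _ O y
  unfold res at h1
  rw [trace_cap O y hn, (cp_cap O y hn ha hy).pm_eq, sq_smul', inv_pow, ← div_eq_inv_mul] at h1
  linarith

variable {w : ℝ}

theorem top_of_rigid (h : Rigid w lam) (hn : 0 < n) (hw : 0 < w) (hk : Edge.kap w ≤ 1 / 100)
    (h1 : sc0 n w ≤ t) (h2 : t ≤ 4) : ∃ a, 2 - lam a ≤ t := by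
  obtain ⟨a, ha⟩ := h.exists_top hn hw hk (h1.trans h2)
  exact ⟨a, ha.trans h1⟩

/-- `δ ≥ t / 2` for every field -/
theorem dz_ge (h : Rigid w lam) (hn : 0 < n) (hw : 0 < w) (hk : Edge.kap w ≤ 1 / 1000)
    (h1 : sc0 n w ≤ t) (h2 : t ≤ 1 / 100) : t / 2 ≤ dz lam O t y := by
  have ha := top_of_rigid h hn hw (by linarith) h1 (by linarith)
  have hd := dz_pos O y hn ha
  have h3 : res (JC lam O t) y (zr (JC lam O t) y) = 0 := res_zr hn _ O y
  unfold res at h3
  rw [trace_cap O y hn] at h3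
  have h4 := sqN_nonneg (pm (JC lam O t) y (zr (JC lam O t) y))
  have h5 := h.delta_ge hn hw hk h1 h2 (x := dz lam O t y - t) (by linarith) (by linarith)
  linarith

/-- what the recursion needs at every state of the cap flow -/
structure CapOK (lam : Vec n) (O : OG n) (t : ℝ) (y : Vec n) : Prop where
  ge : t / 2 ≤ dz lam O t y
  mr_eq : mr (JC lam O t) y = (dz lam O t y)⁻¹ • y
  mem : ∀ u, PC lam O t *ᵥ u = u →
    PC lam O t *ᵥ (Gr (JC lam O t) y *ᵥ u) = Gr (JC lam O t) y *ᵥ u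
  nonneg : ∀ u, PC lam O t *ᵥ u = u → 0 ≤ ip u (Gr (JC lam O t) y *ᵥ u)
  form : ∀ u, PC lam O t *ᵥ u = u → t * ip u (Gr (JC lam O t) y *ᵥ u) ≤ 2 * F.sq u
  kmem : PC lam O t *ᵥ kr (JC lam O t) y (PC lam O t) = kr (JC lam O t) y (PC lam O t)
  drift : cnt lam t * t ^ 3 * F.sq (kr (JC lam O t) y (PC lam O t)) ≤ 4

/-- **crude tier**: valid for every field in the capped space -/
theorem capOK (h : Rigid w lam) (hn : 0 < n) (hw : 0 < w) (hk : Edge.kap w ≤ 1 / 1000)
    (h1 : sc0 n w ≤ t) (h2 : t ≤ 1 / 100) (hy : PC lam O t *ᵥ y = y) : CapOK lam O t y := by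
  have ht : 0 < t := (sc0_pos hn hw).trans_le h1
  have hc := cp_cap O y hn (top_of_rigid h hn hw (by linarith) h1 (by linarith)) hy
  have hg := dz_ge O y h hn hw hk h1 h2
  have hd := hc.dp
  refine ⟨hg, hc.pm_eq, fun u hu => hc.Gs_mem hu, fun u hu => hc.form_nonneg hu, fun u hu => ?_,
    ?_, ?_⟩
  · have a1 := hc.form_le hu
    have a2 := sqN_nonneg u
    have a3 : t * (F.sq u / dz lam O t y) ≤ 2 * F.sq u := by
      rw [← mul_div_assoc, div_le_iff₀ hd]
      nlinarith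
    exact (mul_le_mul_of_nonneg_left a1 ht.le).trans a3
  · unfold kr
    rw [hc.ks_eq, hc.P_smul]
  · have a1 := hc.sq_ks
    have a2 : t ^ 3 ≤ 8 * dz lam O t y ^ 3 := by
      have := pow_le_pow_left₀ ht.le (by linarith : t ≤ 2 * dz lam O t y) 3
      linarith [mul_pow 2 (dz lam O t y) 3]
    have a3 := mul_nonneg (cnt_nonneg lam t) (sqN_nonneg (kr (JC lam O t) y (PC lam O t)))
    have a4 := mul_le_mul_of_nonneg_right a2 a3
    unfold kr at *
    nlinarith

/-- normalised size of the drift -/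
theorem CapOK.nv_kr {lam : Vec n} {O : OG n} {t : ℝ} {y : Vec n} (h : CapOK lam O t y)
    (ht : 0 < t) (hk : 0 < cnt lam t) :
    √t * nv (kr (JC lam O t) y (PC lam O t)) ≤ 2 / √(cnt lam t) / t := by
  have hs := Real.sqrt_pos.2 hk
  have a1 := h.drift
  rw [← nv_sq] at a1
  have a2 := nv_nonneg (kr (JC lam O t) y (PC lam O t))
  generalize nv (kr (JC lam O t) y (PC lam O t)) = m at *
  rw [div_div, le_div_iff₀ (by positivity)]
  refine abs_le_of_sq_le_sq' (b := 2) ?_ (by norm_num) |>.2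
  have e : (√t * m * (√(cnt lam t) * t)) ^ 2 = cnt lam t * t ^ 3 * m ^ 2 := by
    rw [mul_pow, mul_pow, mul_pow, Real.sq_sqrt ht.le, Real.sq_sqrt hk.le]; ring
  rw [e]
  linarith

theorem scal1 {r E : ℝ} (hE0 : 0 ≤ E) (hE : E ≤ 1 / 20) (hr : |r - 1| ≤ 3 / 2 * E) :
    |1 / r - 1| ≤ 2 * E := by
  obtain ⟨r1, r2⟩ := abs_le.1 hr
  have r0 : 0 < r := by linarith
  rw [abs_le]
  constructor
  · rw [le_sub_iff_add_le, le_div_iff₀ r0]; nlinarith
  · rw [sub_le_iff_le_add, div_le_iff₀ r0]; nlinarith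

theorem scal2 {r E A a : ℝ} (hE0 : 0 ≤ E) (hE : E ≤ 1 / 20) (hr : |r - 1| ≤ 3 / 2 * E)
    (hA : |A - 4 * c0| ≤ E) (ha : (r * A ≤ a ∧ a ≤ r ^ 3 * A) ∨ (r ^ 3 * A ≤ a ∧ a ≤ r * A)) :
    |a - 4 * c0| ≤ 6 * E := by
  obtain ⟨r1, r2⟩ := abs_le.1 hr
  obtain ⟨A1, A2⟩ := abs_le.1 hA
  have c1 := c0_le
  have c2 := le_c0
  have r0 : 0 < r := by linarith
  have u3 : r ^ 3 ≤ 1 + 5 * E := by
    have := pow_le_pow_left₀ r0.le (by linarith : r ≤ 1 + 3 / 2 * E) 3
    nlinarith [mul_nonneg hE0 hE0, mul_nonneg hE0 (mul_nonneg hE0 hE0)]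
  have l3 : 1 - 5 * E ≤ r ^ 3 := by
    have := pow_le_pow_left₀ (by linarith : 0 ≤ 1 - 3 / 2 * E) (by linarith : 1 - 3 / 2 * E ≤ r) 3
    nlinarith [mul_nonneg hE0 hE0, mul_nonneg hE0 (mul_nonneg hE0 hE0)]
  have A0 : 0 ≤ A := by linarith
  have p1 := mul_le_mul_of_nonneg_right u3 A0
  have p2 := mul_le_mul_of_nonneg_right l3 A0
  have p3 := mul_le_mul_of_nonneg_right (by linarith : r ≤ 1 + 5 * E) A0
  have p4 := mul_le_mul_of_nonneg_right (by linarith : 1 - 5 * E ≤ r) A0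
  have p5 : E * A ≤ E * 1 := mul_le_mul_of_nonneg_left (by linarith) hE0
  rw [abs_le]
  rcases ha with ⟨a1, a2⟩ | ⟨a1, a2⟩ <;> constructor <;> linarith

theorem scal3 {r E a b : ℝ} (hE0 : 0 ≤ E) (hE : E ≤ 1 / 20) (hr : |r - 1| ≤ 3 / 2 * E)
    (ha : |a - 4 * c0| ≤ 6 * E) (hb : |b - 4 * c0| ≤ 2 * E) :
    |1 / r * (b / (a + b)) - 1 / 2| ≤ 6 * E := by
  obtain ⟨r1, r2⟩ := abs_le.1 hr
  obtain ⟨a1, a2⟩ := abs_le.1 ha
  obtain ⟨b1, b2⟩ := abs_le.1 hb
  have c2 := le_c0
  have r0 : 0 < r := by linarith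
  have s1 : 1 ≤ a + b := by linarith
  have e : 1 / r * (b / (a + b)) = b / (r * (a + b)) := by rw [div_mul_div_comm, one_mul]
  have p0 : 0 < r * (a + b) := by positivity
  have p1 := mul_le_mul_of_nonneg_right r1 (by linarith : 0 ≤ a + b)
  have p2 := mul_le_mul_of_nonneg_right r2 (by linarith : 0 ≤ a + b)
  have p3 := mul_le_mul_of_nonneg_left s1 hE0
  have p4 : E * (9 / 10 * (a + b)) ≤ E * (r * (a + b)) :=
    mul_le_mul_of_nonneg_left (mul_le_mul_of_nonneg_right (by linarith) (by linarith)) hE0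
  rw [e, abs_le]
  constructor
  · rw [le_sub_iff_add_le, le_div_iff₀ p0]; nlinarith
  · rw [sub_le_iff_le_add, div_le_iff₀ p0]; nlinarith

/-- the saddle point when the size of the field is typical -/
theorem dz_near (h : Rigid w lam) (hn : 0 < n) (hw : 0 < w) (h1 : sc0 n w ≤ t) {θ : ℝ}
    (hθ : 0 ≤ θ) (hE : θ + √t + 20 * Edge.kap w ≤ 1 / 20) (hy : PC lam O t *ᵥ y = y)
    (hR : |F.sq y - 2 * c0 * (t * (n * (t * √t)))| ≤ θ * (t * (n * (t * √t)))) :
    |dz lam O t y / t - 1| ≤ 3 / 2 * (θ + √t + 20 * Edge.kap w) := by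
  have ht : 0 < t := (sc0_pos hn hw).trans_le h1
  have hk0 := kap_pos hw
  have q0 : 0 < √t := Real.sqrt_pos.2 ht
  have qq : √t * √t = t := Real.mul_self_sqrt ht.le
  have ht1 : t ≤ √t := by nlinarith
  have ha := top_of_rigid h hn hw (by linarith) h1 (by linarith)
  have hd := dz_pos O y hn ha
  have hs := saddle_cap O y hn ha hy
  have t1 := abs_le.1 (h.trC_one hn hw h1 (by linarith))
  have t2 := abs_le.1 (h.trC_two hn hw h1 (by linarith))
  have up := trC_one_le_pos lam ht (x := dz lam O t y - t)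
  have lo := trC_one_ge lam ht (x := dz lam O t y - t) (by linarith)
  obtain ⟨R1, R2⟩ := abs_le.1 hR
  have hn' : (0 : ℝ) < n := by exact_mod_cast hn
  have c1 := c0_le
  have c2 := le_c0
  have R0 := sqN_nonneg y
  generalize dz lam O t y = δ at *
  generalize F.sq y = R at *
  generalize trC 1 lam t (δ - t) = B at *
  generalize trC 1 lam t 0 = A1 at *
  generalize trC 2 lam t 0 = A2 at *
  generalize Edge.kap w = κ at *
  set N := (n : ℝ) * √t with hN
  have N0 : 0 < N := by positivity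
  have e1 : (n : ℝ) / √t = N / t := by
    rw [hN, div_eq_div_iff q0.ne' ht.ne', mul_assoc, qq]
  have e2 : t * (n * (t * √t)) = t ^ 2 * N := by rw [hN]; ring
  have e3 : (n : ℝ) * (1 - 2 * c0 * √t) = n - 2 * c0 * N := by rw [hN]; ring
  rw [e1] at t2
  rw [e2] at R1 R2
  rw [e3] at t1
  set E := θ + √t + 20 * κ with hEd
  have E0 : 0 ≤ E := by positivity
  have b1 : (t / 16 + 10 * κ) * N + θ * N ≤ E * N := by
    rw [← add_mul]
    exact mul_le_mul_of_nonneg_right (by linarith) N0.le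
  have b2 : (4 * c0 - E) * N ≤ t * A2 := by
    have a1 : (4 * c0 - E) * (N / t) ≤ A2 := by
      have : (√t + 20 * κ) * (N / t) ≤ E * (N / t) :=
        mul_le_mul_of_nonneg_right (by linarith) (by positivity)
      linarith [t2.1]
    have a2 := mul_le_mul_of_nonneg_left a1 ht.le
    rwa [← mul_assoc, mul_comm t, mul_assoc, mul_div_cancel₀ _ ht.ne'] at a2
  have e4 : δ / t - 1 = (δ - t) / t := by field_simp
  rw [e4, abs_div, abs_of_pos ht, div_le_iff₀ ht]
  rcases le_total t δ with hx | hx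
  · rw [abs_of_nonneg (by linarith)]
    have u1 := up (by linarith)
    have u2 : R / δ ^ 2 ≤ (2 * c0 + θ) * N := by
      rw [div_le_iff₀ (by positivity)]
      have : t ^ 2 * ((2 * c0 + θ) * N) ≤ δ ^ 2 * ((2 * c0 + θ) * N) :=
        mul_le_mul_of_nonneg_right (pow_le_pow_left₀ ht.le hx 2) (by positivity)
      linarith
    have u3 : (δ - t) * (t / (t + (δ - t))) * A2 = (δ - t) / δ * (t * A2) := by
      rw [add_sub_cancel]; ring
    have u4 : (δ - t) / δ * ((4 * c0 - E) * N) ≤ E * N := by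
      have := mul_le_mul_of_nonneg_left b2 (div_nonneg (sub_nonneg.2 hx) hd.le)
      linarith [t1.2]
    have u5 : (δ - t) / δ * (4 * c0 - E) ≤ E := by
      rw [← mul_assoc] at u4
      exact le_of_mul_le_mul_right u4 N0
    rw [div_mul_eq_mul_div, div_le_iff₀ hd] at u5
    have u6 := mul_le_mul_of_nonneg_left (by linarith : 2 / 3 ≤ 4 * c0 - 2 * E) (sub_nonneg.2 hx)
    linarith only [u5, u6]
  · rw [abs_of_nonpos (by linarith)]
    have u2 : (2 * c0 - θ) * N ≤ R / δ ^ 2 := by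
      rw [le_div_iff₀ (by positivity)]
      have : δ ^ 2 * ((2 * c0 - θ) * N) ≤ t ^ 2 * ((2 * c0 - θ) * N) :=
        mul_le_mul_of_nonneg_right (pow_le_pow_left₀ hd.le hx 2)
          (mul_nonneg (by linarith) N0.le)
      linarith
    have u3 : (t - δ) * A2 ≤ E * N := by linarith [t1.1]
    have u4 : (t - δ) * ((4 * c0 - E) * N) ≤ t * (E * N) := by
      have := mul_le_mul_of_nonneg_left b2 (sub_nonneg.2 hx)
      have := mul_le_mul_of_nonneg_left u3 ht.le
      linarith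
    have u5 : (t - δ) * (4 * c0 - E) ≤ t * E := by
      refine le_of_mul_le_mul_right ?_ N0
      linarith only [u4]
    have u6 := mul_le_mul_of_nonneg_left (by linarith : 2 / 3 ≤ 4 * c0 - E) (sub_nonneg.2 hx)
    linarith only [u5, u6]

/-- **sharp tier**: the form `T1` of the recursion -/
theorem sharp_cap (h : Rigid w lam) (hn : 0 < n) (hw : 0 < w) (h1 : sc0 n w ≤ t) {θ : ℝ}
    (hθ : 0 ≤ θ) (hE : θ + √t + 20 * Edge.kap w ≤ 1 / 20) (hy : PC lam O t *ᵥ y = y)
    (hR : |F.sq y - 2 * c0 * (t * (n * (t * √t)))| ≤ θ * (t * (n * (t * √t)))) (u : Vec n)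
    {v : Vec n} (hv : PC lam O t *ᵥ v = v) :
    |t * ip u (Gr (JC lam O t) y *ᵥ v) - (ip u v - ip y u * ip y v / (2 * F.sq y))|
      ≤ 8 * (θ + √t + 20 * Edge.kap w) * nv u * nv v := by
  have ht : 0 < t := (sc0_pos hn hw).trans_le h1
  have hk0 := kap_pos hw
  have q0 : 0 < √t := Real.sqrt_pos.2 ht
  have qq : √t * √t = t := Real.mul_self_sqrt ht.le
  have ht1 : t ≤ √t := by nlinarith
  have hn' : (0 : ℝ) < n := by exact_mod_cast hn
  have c2 := le_c0
  have ha := top_of_rigid h hn hw (by linarith) h1 (by linarith)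
  have hc := cp_cap O y hn ha hy
  have hd := hc.dp
  have hr := dz_near O y h hn hw h1 hθ hE hy hR
  have t2 := h.trC_two hn hw h1 (by linarith)
  set E := θ + √t + 20 * Edge.kap w with hEd
  have E0 : 0 ≤ E := by positivity
  set M := t * (n * (t * √t)) with hM
  have M0 : 0 < M := by positivity
  have hb : |2 * F.sq y / M - 4 * c0| ≤ 2 * E := by
    have e : 2 * F.sq y / M - 4 * c0 = 2 * ((F.sq y - 2 * c0 * M) / M) := by field_simp; ring
    rw [e, abs_mul, abs_div, abs_of_pos M0, abs_two]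
    have : |F.sq y - 2 * c0 * M| / M ≤ θ := (div_le_iff₀ M0).2 hR
    linarith
  have R0 : 0 < F.sq y := by
    have a1 : 0 < 2 * F.sq y / M := by linarith [(abs_le.1 hb).1]
    have := (div_pos_iff_of_pos_right M0).1 a1
    linarith
  have hA : |t ^ 3 * trC 2 lam t 0 / M - 4 * c0| ≤ E := by
    have e0 : M = t ^ 3 * (n / √t) := by
      rw [hM, mul_div_assoc', eq_div_iff q0.ne']
      calc t * (n * (t * √t)) * √t = t ^ 2 * n * (√t * √t) := by ring
        _ = _ := by rw [qq]; ring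
    have p : 0 < (n : ℝ) / √t := by positivity
    have e : t ^ 3 * trC 2 lam t 0 / M - 4 * c0
        = (trC 2 lam t 0 - 4 * c0 * (n / √t)) / (n / √t) := by
      rw [e0]
      generalize (n : ℝ) / √t = m at *
      field_simp
    rw [e, abs_div, abs_of_pos p, div_le_iff₀ p]
    exact t2.trans (mul_le_mul_of_nonneg_right (by linarith) p.le)
  have hT := T2_cap O y hn (lam := lam) (t := t)
  have hD := hc.Dn_eq
  have hTp := hc.tp
  have key := hc.sharp (t := t) (η₁ := 2 * E) (η₂ := 6 * E) R0 ?_ ?_ u hv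
  · rw [show 8 * E = 2 * E + 6 * E by ring]
    exact key
  · have := scal1 E0 hE hr
    rwa [one_div_div] at this
  · rw [hD, hT]
    rw [hT] at hTp
    have A0 := trC_nonneg 2 lam (r := t) (x := 0) (by linarith)
    have hcase : (dz lam O t y / t * (t ^ 3 * trC 2 lam t 0 / M)
          ≤ dz lam O t y ^ 3 * trC 2 lam t (dz lam O t y - t) / M ∧
        dz lam O t y ^ 3 * trC 2 lam t (dz lam O t y - t) / M
          ≤ (dz lam O t y / t) ^ 3 * (t ^ 3 * trC 2 lam t 0 / M)) ∨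
        ((dz lam O t y / t) ^ 3 * (t ^ 3 * trC 2 lam t 0 / M)
          ≤ dz lam O t y ^ 3 * trC 2 lam t (dz lam O t y - t) / M ∧
        dz lam O t y ^ 3 * trC 2 lam t (dz lam O t y - t) / M
          ≤ dz lam O t y / t * (t ^ 3 * trC 2 lam t 0 / M)) := by
      generalize dz lam O t y = δ at *
      have e1 : δ / t * (t ^ 3 * trC 2 lam t 0 / M) = δ ^ 3 * (trC 2 lam t 0 / (δ / t) ^ 2) / M := by
        field_simp
      have e3 : (δ / t) ^ 3 * (t ^ 3 * trC 2 lam t 0 / M) = δ ^ 3 * trC 2 lam t 0 / M := by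
        field_simp
      have mono : ∀ {a b : ℝ}, a ≤ b → δ ^ 3 * a / M ≤ δ ^ 3 * b / M := fun hab =>
        div_le_div_of_nonneg_right (mul_le_mul_of_nonneg_left hab (by positivity)) M0.le
      rw [e1, e3]
      rcases le_total t δ with hx | hx
      · refine Or.inl ⟨mono ?_, mono (trC_anti 2 lam (by linarith) le_rfl (by linarith))⟩
        have a1 := scale_le_trC 2 lam (r := t) (x := δ - t) (θ := δ / t - 1)
          (by rw [sub_nonneg, le_div_iff₀ ht]; linarith) (by linarith)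
          (by rw [sub_mul, div_mul_cancel₀ _ ht.ne']; linarith)
        rwa [add_sub_cancel] at a1
      · refine Or.inr ⟨mono (trC_anti 2 lam (by linarith) le_rfl (by linarith)), mono ?_⟩
        have a1 := trC_le_scale 2 lam (r := t) (x := δ - t) (θ := 1 - δ / t) ht
          (by rw [sub_nonneg, div_le_iff₀ ht]; linarith)
          (by have := div_pos hd ht; linarith)
          (by rw [sub_mul, div_mul_cancel₀ _ ht.ne']; linarith)
        rwa [sub_sub_cancel] at a1
    have a6 := scal3 E0 hE hr (scal2 E0 hE hr hA hcase) hb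
    have e : t / dz lam O t y * (2 * F.sq y / (dz lam O t y ^ 3 *
        (trC 2 lam t (dz lam O t y - t) + 2 * F.sq y / dz lam O t y ^ 3)))
        = 1 / (dz lam O t y / t) * (2 * F.sq y / M /
          (dz lam O t y ^ 3 * trC 2 lam t (dz lam O t y - t) / M + 2 * F.sq y / M)) := by
      generalize trC 2 lam t (dz lam O t y - t) = T at *
      generalize dz lam O t y = δ at *
      field_simp
    rw [e]
    exact a6

end Cap

end Vale.Agent.N150.Rad
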