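import Vale.Agent.N150.CapGlue
import Vale.Agent.N150.AsmDef
import Vale.Agent.N150.RadCap

/-! P150: the tracker of the cap flow (early part, spherical part, mean field part). -/

open Matrix MeasureTheory Finset

namespace Vale.Agent.N150.Cap

open Vale.Agent.P150 Vale.Agent.P150.F Vale.Agent.P150.F.Ms Vale.Agent.N150.A1
  Vale.Agent.N150.Rec Vale.Agent.N150.Asm Vale.Agent.N150.Sp Vale.Agent.N150.Edge
  Vale.Agent.N150.Plant

variable {n : ℕ} {lam : Vec n} {t : ℕ → ℝ} {dl : ℝ}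

section traj

variable (hG : Grid lam t dl) (q : (OG n × Cfg n) × (ℕ → Vec n)) (k : ℕ)

theorem sk_trC : sk (Rec.trC hG q k) = k := by rw [Rec.trC, hG.traj_cap]; rfl
theorem sJ_trC : sJ (Rec.trC hG q k) = JC lam q.1.1 (t k) := by rw [Rec.trC, hG.traj_cap]; rfl
theorem R_trC : (up n hG.steps).R (Rec.trC hG q k) = capP lam t q.1.1 k := by
  rw [Rec.trC, hG.traj_cap]; rfl
theorem Q_trC : (up n hG.steps).Q (Rec.trC hG q k) = capP lam t q.1.1 k := by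
  rw [Rec.trC, hG.traj_cap]; exact hG.Q_cap _ _ _
theorem δ_trC : (up n hG.steps).δ (Rec.trC hG q k) = t (k + 1) - t k := by
  rw [Rec.trC, hG.traj_cap]; rfl
theorem sq_sy_trC :
    F.sq (sy (Rec.trC hG q k)) = F.sq (yF lam t (xt q.1.1 q.1.2) (rotN q.1.1 q.2) k) := by
  rw [Rec.trC, sy_traj hG, Rad.sq_tr]

end traj

theorem ms_sk (p : ℕ → Prop) : MeasurableSet {s : St n | p (sk s)} :=
  meas_sk (MeasurableSet.of_discrete (s := {k | p k}))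

/-- spherical reference before the index `c`, mean field reference from `c` on -/
noncomputable def capR0 (hG : Grid lam t dl) (h : St n → Vec n) (z : St n → ℝ) (c : ℕ) :
    Ref n n (St n) :=
  (radRef (up n hG.steps)).sw (tapRef (up n hG.steps) h z) {s | sk s < c}

/-- the tracker of the cap flow -/
noncomputable def capR (hG : Grid lam t dl) (h : St n → Vec n) (z : St n → ℝ) (K : ℝ)
    (k0 c : ℕ) : Ref n n (St n) :=
  (capR0 hG h z c).can (up n hG.steps) K dl {s | sk s < k0} {s | sk s + 1 = k0}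
    ((capR0 hG h z c).FormP (up n hG.steps) fun s => 2 / t (sk s))

theorem capR_OK (hG : Grid lam t dl) (hn : 0 < n) {h : St n → Vec n} {z : St n → ℝ}
    (hh : Measurable h) (hz : Measurable z) {K : ℝ} (hK : 2 ≤ K) (hnK : (n : ℝ) ≤ K)
    (hd : K ^ 8 * dl ≤ 1) (k0 c : ℕ) : (capR hG h z K k0 c).OK (up n hG.steps) K dl := by
  have h0 : (capR0 hG h z c).Pre :=
    (rad_pre hn _).sw (tap_pre _ (mvec_of hh) hz) (ms_sk fun k => k < c)
  exact h0.can_OK _ hK hnK hnK hd (ms_sk fun k => k < k0) (ms_sk fun k => k + 1 = k0)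
    (h0.ms_FormP _ ((measurable_from_nat (f := fun k => 2 / t k)).comp meas_sk))
    fun s hs => by
      have h1 : sk s + 1 = k0 := hs
      change sk s < k0
      omega

theorem capR_sch (hG : Grid lam t dl) (h : St n → Vec n) (z : St n → ℝ) (K : ℝ) (k0 c N : ℕ)
    (q : (OG n × Cfg n) × (ℕ → Vec n)) :
    (capR hG h z K k0 c).Sch (up n hG.steps) (Rec.trC hG q) t (capP lam t q.1.1) k0 N := by
  refine ⟨fun k _ => δ_trC hG q k, fun k _ => Q_trC hG q k, fun k hk => ?_, fun k hk ho => ?_,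
    fun k => ?_⟩
  · exact Ref.can_mh _ _ _ _ _ _ (show sk (Rec.trC hG q k) < k0 by rwa [sk_trC hG])
  · exact ho.1 (show sk (Rec.trC hG q k) < k0 by rwa [sk_trC hG])
  · change sk (Rec.trC hG q k) + 1 = k0 ↔ _
    rw [sk_trC hG]

variable {dl' sK ρ R₂ T η η₁ κ : ℝ} {J : ℕ}

/-- the bound of the form at the index `j` -/
noncomputable def cF (t : ℕ → ℝ) (k0 j : ℕ) : ℝ := if k0 ≤ j then 2 / t j else 0

theorem cF_nonneg (hp : Par t dl' sK ρ R₂ T η η₁ κ J) (j : ℕ) : 0 ≤ cF t (fi t sK) j := by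
  unfold cF
  split_ifs with hj
  · exact div_nonneg zero_le_two (hp.t_pos hj).le
  · exact le_rfl

theorem cF_step0 (hp : Par t dl' sK ρ R₂ T η η₁ κ J) (j : ℕ) :
    0 ≤ (t (j + 1) - t j) * cF t (fi t sK) j :=
  mul_nonneg (sub_nonneg.2 (hp.tm.mono j)) (cF_nonneg hp j)

theorem cF_step (hp : Par t dl' sK ρ R₂ T η η₁ κ J) (j : ℕ) :
    (t (j + 1) - t j) * cF t (fi t sK) j ≤ 1 / 2 := by
  unfold cF
  split_ifs with hj
  · have b1 := hp.step_le hj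
    have b2 := hp.t_pos hj
    have b3 := mul_le_mul_of_nonneg_right hp.eta1 b2.le
    rw [← mul_div_assoc, div_le_iff₀ b2]
    linarith
  · rw [mul_zero]; norm_num

theorem cF_prod (hp : Par t dl' sK ρ R₂ T η η₁ κ J) :
    ∏ j ∈ Ico 0 (fi t T), (1 - (t (j + 1) - t j) * cF t (fi t sK) j)⁻¹ ≤ sK⁻¹ ^ 8 := by
  refine (prod_inv_le (fun j _ => cF_step0 hp j) fun j _ => cF_step hp j).trans ?_
  have b1 : ∑ j ∈ Ico 0 (fi t T), (t (j + 1) - t j) * cF t (fi t sK) j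
      = 2 * ∑ j ∈ Ico (fi t sK) (fi t T), (t (j + 1) - t j) / t j := by
    rw [← Finset.sum_Ico_consecutive _ (Nat.zero_le (fi t sK)) hp.k0_le_N, Finset.mul_sum,
      Finset.sum_eq_zero fun j hj => by
        rw [cF, if_neg (not_le.2 (Finset.mem_Ico.1 hj).2), mul_zero], zero_add]
    refine Finset.sum_congr rfl fun j hj => ?_
    rw [cF, if_pos (Finset.mem_Ico.1 hj).1]
    ring
  have b2 := sum_rel_le hp.k0_le_N (fun k hk => hp.t_pos hk) hp.tm.mono fun k hk _ => by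
    have b3 := hp.step_le hk
    have b4 := hp.t_pos hk
    have b5 := mul_le_mul_of_nonneg_right hp.eta1 b4.le
    linarith
  have b3 := hp.sK_pos
  have b4 := hp.sK_le_t (le_refl (fi t sK))
  have b5 := hp.t_N_le.trans hp.T_le
  have b6 := hp.t_pos hp.k0_le_N
  have b7 : Real.log (t (fi t T) / t (fi t sK)) ≤ Real.log sK⁻¹ := by
    refine Real.log_le_log (div_pos b6 (b3.trans_le b4)) ?_
    rw [inv_eq_one_div]
    exact div_le_div₀ zero_le_one b5 b3 b4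
  have b8 : Real.exp ((8 : ℕ) * Real.log sK⁻¹) = sK⁻¹ ^ 8 := by
    rw [Real.exp_nat_mul, Real.exp_log (inv_pos.2 b3)]
  rw [← b8, b1]
  refine Real.exp_le_exp.2 ?_
  push_cast
  linarith

theorem Q_stS (hG : Grid lam t dl) (O : OG n) (j : ℕ) (y : Vec n) :
    (up n hG.steps).Q (stS (capJ lam t O) (capP lam t O) j y) = capP lam t O j := hG.Q_cap O j y

theorem step_cap (hG : Grid lam t dl) (hp : Par t dl' sK ρ R₂ T η η₁ κ J) (O : OG n)
    {r : Ref n n (St n)} {K d τ : ℝ} (h : r.OK (up n hG.steps) K d) (hτ : 0 < τ)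
    (hτ1 : τ ≤ 1) (hE : ∀ s ∈ r.ok, fi t sK ≤ sk s)
    (hF : ∀ s ∈ r.ok, s ∈ r.FormP (up n hG.steps) fun s => 2 / t (sk s)) (j : ℕ) :
    ∀ s ∈ LayS (capJ lam t O) (capP lam t O) j, ∀ z v,
      nv ((up n hG.steps).Q s *ᵥ (r.A (up n hG.steps) τ s *ᵥ v))
        ≤ (1 - (t (j + 1) - t j) * cF t (fi t sK) j)⁻¹
          * nv ((up n hG.steps).Q ((up n hG.steps).nxt s z) *ᵥ v) := by
  rintro s ⟨y, rfl⟩ z v
  have hfl := flag_capP hG O
  refine h.step_proj hτ hτ1 (c := cF t (fi t sK) j) ?_ ?_ (fun w => ?_) (cF_nonneg hp j) ?_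
    (fun ho u hu => ?_) v
  · rw [Q_stS hG]; exact hfl.symm j
  · rw [Q_stS hG]; exact hfl.idem j
  · rw [(hG.sched O).nxt, Q_stS hG, Q_stS hG]; exact hfl.nv_le_succ j w
  · exact (cF_step hp j).trans_lt (by norm_num)
  · have b1 : fi t sK ≤ j := hE _ ho
    rw [cF, if_pos b1]
    exact Ref.FormP.le (hF _ ho) u hu

theorem qf_trC (hG : Grid lam t dl) (O : OG n) (x : Cfg n) (ω : ℕ → Vec n) (k : ℕ) (v : Vec n) :
    (up n hG.steps).δ ((up n hG.steps).traj (capS lam t O 0 0) x ω k) *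
      qf ((up n hG.steps).Q ((up n hG.steps).traj (capS lam t O 0 0) x ω k)) v
      = (t (k + 1) - t k) * F.sq (capP lam t O k *ᵥ v) := by
  have hfl := flag_capP hG O
  rw [δ_trC hG ((O, x), ω) k, Q_trC hG ((O, x), ω) k, qf_proj (hfl.symm k) (hfl.idem k), nv_sq]

/-- the hypotheses of the tracking lemma for the cap flow -/
theorem track_cap (hG : Grid lam t dl) (hp : Par t dl' sK ρ R₂ T η η₁ κ J) (O : OG n)
    {r : Ref n n (St n)} {K d L τ : ℝ} (h : r.OK (up n hG.steps) K d) (hL : 0 ≤ L) (hτ : 0 < τ)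
    (hτ1 : τ ≤ 1) (hE : ∀ s ∈ r.ok, fi t sK ≤ sk s)
    (hF : ∀ s ∈ r.ok, s ∈ r.FormP (up n hG.steps) fun s => 2 / t (sk s))
    (hn : 0 < n) (hd : ((n : ℝ) * n) ^ 2 * dl ≤ 1) {l mm : ℕ → ℝ} (hl : ∀ k, 0 ≤ l k)
    (hmm : ∀ k, 0 ≤ mm k) {Good : Cfg n → (ℕ → Vec n) → Prop} {p : ℝ}
    (hp' : PE (gM (JO lam O) 0) (fun x ω => ¬Good x ω) ≤ p)
    (hV : ∀ x ω, Good x ω → ∀ k, k < fi t T → ∀ v, (t (k + 1) - t k) * F.sq (capP lam t O k *ᵥ
      r.Vp (up n hG.steps) τ (fi t T) (capS lam t O 0 0) x ω v k) ≤ l k * F.sq v)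
    (hW : ∀ x ω, Good x ω → ∀ k, k < fi t T → (t (k + 1) - t k) * F.sq (capP lam t O k *ᵥ
      r.Wp (up n hG.steps) K L τ (fi t T) (capS lam t O 0 0) x ω k) ≤ mm k) :
    Track (up n hG.steps) (r.A (up n hG.steps) τ) (r.mT K) (r.rem (up n hG.steps) K L τ)
      (LayS (capJ lam t O) (capP lam t O)) (capS lam t O 0 0) 0 (fi t T) 1 (n * n) dl
      (sK⁻¹ ^ 16 * (1 + ((1 + K) * √n + fi t T * Ref.rho n K L τ) ^ 2)) l mm fun _ => p := by
  have hfl := flag_capP hG O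
  have hn' : (0 : ℝ) < n := by exact_mod_cast hn
  have a1 : ∀ j, ∀ s ∈ LayS (capJ lam t O) (capP lam t O) j, ∀ v,
      nv ((up n hG.steps).Q s *ᵥ v) ≤ nv v := by
    rintro j s ⟨y, rfl⟩ v
    rw [Q_stS hG]; exact hfl.nv_le j v
  have a2 : ∀ j, ∀ s ∈ LayS (capJ lam t O) (capP lam t O) j, ∀ v,
      qf ((up n hG.steps).Q s) v ≤ 1 * nv ((up n hG.steps).Q s *ᵥ v) ^ 2 := by
    rintro j s ⟨y, rfl⟩ v
    rw [Q_stS hG, one_mul]
    exact (qf_proj (hfl.symm j) (hfl.idem j) v).le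
  have a3 : ∀ j, ∀ s ∈ LayS (capJ lam t O) (capP lam t O) j,
      (∀ i l, |(up n hG.steps).R s i l| ≤ 1) ∧ (up n hG.steps).δ s ≤ dl := by
    rintro j s ⟨y, rfl⟩
    exact ⟨abs_PC_le lam O _, hG.le j⟩
  have a4 : ∀ k, k < fi t T → PE ((up n hG.steps).law (capS lam t O 0 0)) (fun x ω => ¬
      ((∀ v, (up n hG.steps).δ ((up n hG.steps).traj (capS lam t O 0 0) x ω k) *
        qf ((up n hG.steps).Q ((up n hG.steps).traj (capS lam t O 0 0) x ω k))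
          (r.Ph (up n hG.steps) τ (fi t T - k) ((up n hG.steps).traj (capS lam t O 0 0) x ω k) x
            (shS k ω) *ᵥ v) ≤ l k * F.sq v) ∧
        (up n hG.steps).δ ((up n hG.steps).traj (capS lam t O 0 0) x ω k) *
          qf ((up n hG.steps).Q ((up n hG.steps).traj (capS lam t O 0 0) x ω k))
          (r.W (up n hG.steps) K L τ (fi t T - k) ((up n hG.steps).traj (capS lam t O 0 0) x ω k) x
            (shS k ω)) ≤ mm k)) ≤ p := by
    intro k hk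
    rw [hG.law_cap]
    refine le_trans (PE_mono (fun x => (gM_pos _ _ x).le) ?_) hp'
    intro x ω hb hg
    refine hb ⟨fun v => ?_, ?_⟩
    · rw [qf_trC hG]; exact hV x ω hg k hk v
    · rw [qf_trC hG]; exact hW x ω hg k hk
  have a5 : ∀ j, 1 ≤ (1 - (t (j + 1) - t j) * cF t (fi t sK) j)⁻¹ := fun j =>
    (one_le_inv₀ (by linarith [cF_step hp j])).2 (by linarith [cF_step0 hp j])
  have a6 : capS lam t O 0 0 ∈ LayS (capJ lam t O) (capP lam t O) 0 := stS_mem _ _ 0 0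
  have a7 : (n : ℝ) * (n * 1) ≤ n * n := by rw [mul_one]
  have key := h.track hL hτ hτ1 ((hG.sched O).lay hG.steps) (Nat.zero_le (fi t T)) a5
    (fun j _ _ => step_cap hG hp O h hτ hτ1 hE hF j) a1 (cF_prod hp) zero_le_one
    (fun j _ _ => a2 j) a6 zero_le_one (mul_pos hn' hn') a7 hd
    (fun j _ _ => a3 j) hl hmm (p := fun _ => p) fun k _ hk => a4 k hk
  rw [one_mul, ← pow_mul] at key
  exact key

/-- the good event of the cap flow, apart from the window events -/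
structure CapEv (hG : Grid lam t dl) (h : St n → Vec n) (z : St n → ℝ)
    (cen : Mat n → Vec n → Vec n) (K₀ L η e Kl ε X0 CT : ℝ) (k0 b c N : ℕ)
    (q : (OG n × Cfg n) × (ℕ → Vec n)) : Prop where
  tap : TapPath hG h z cen K₀ η e Kl c N q
  good : Path.CapGood lam ε t b N (xt q.1.1 q.1.2) (yF lam t (xt q.1.1 q.1.2) (rotN q.1.1 q.2))
  ybd : ∀ k, k0 ≤ k → k < c → nv (sy (Rec.trC hG q k)) ≤ K₀
  box : ∀ k, k0 ≤ k → k < N → q.2 k ∈ Box n L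
  hx : F.sq (capP lam t q.1.1 k0 *ᵥ sv q.1.2) ≤ X0
  term : F.sq (Br.eS cen (Rec.trC hG q N)) ≤ CT

/-- the numerical side conditions -/
structure CapNum (lam : Vec n) (t : ℕ → ℝ) (w sK T η K₀ L ε ζ Z M0 CT : ℝ) (c : ℕ) : Prop where
  npos : 0 < n
  rig : Rigid w lam
  wpos : 0 < w
  kap : Edge.kap w ≤ 1 / 1000
  sc : sc0 n w ≤ sK
  T_le : T ≤ 1 / 100
  K3 : 3 ≤ K₀
  nK : (n : ℝ) ≤ K₀
  L0 : 0 ≤ L
  LK : L ≤ K₀
  cN : c ≤ fi t T
  eps : 0 ≤ ε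
  sharp : ∀ k, k < c → 8 * (21 * ε + √(t k) + 20 * Edge.kap w) ≤ η
  cnt0 : 0 < cnt lam sK
  zeta : 2 / √(cnt lam sK) ≤ ζ
  Z0 : 0 ≤ Z
  jump : t c * (n * t c ^ (99 / 100 : ℝ)) ≤ Z ^ 2
  term : √(2 * T) * (√CT + 1) ≤ M0

theorem radSt_trC (hG : Grid lam t dl) (q : (OG n × Cfg n) × (ℕ → Vec n)) {w K : ℝ} {k : ℕ}
    (hn : 0 < n) (hR : Rigid w lam) (hK : 3 ≤ K) (hnK : (n : ℝ) ≤ K) (t0 : 0 < t k)
    (t1 : t k ≤ 1) (hy : nv (sy (Rec.trC hG q k)) ≤ K) :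
    RadSt K ((up n hG.steps).M (Rec.trC hG q k)) ((up n hG.steps).Q (Rec.trC hG q k))
      ((up n hG.steps).y (Rec.trC hG q k)) := by
  refine ⟨hn, by linarith, hnK, ⟨lamC lam (t k), dI lam (t k), q.1.1, sJ_trC hG q k,
    Q_trC hG q k, fun a => ?_, dI_nonneg lam _, fun a => (dI_le_one lam _ a).trans (by linarith)⟩,
    fun i => (abs_le_nv _ i).trans hy⟩
  refine abs_le.2 ⟨le_min (by linarith [(hR.1 a).1]) (by linarith), ?_⟩
  exact (min_le_right _ _).trans (by linarith)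

section fields

variable (hG : Grid lam t dl) (h : St n → Vec n) (z : St n → ℝ) (K : ℝ) {k0 c k : ℕ}
  (q : (OG n × Cfg n) × (ℕ → Vec n))

theorem mem_lt (hk : k < c) : Rec.trC hG q k ∈ {s : St n | sk s < c} :=
  show sk (Rec.trC hG q k) < c by rwa [sk_trC hG]

theorem not_lt' (hk : c ≤ k) : Rec.trC hG q k ∉ {s : St n | sk s < c} :=
  show ¬sk (Rec.trC hG q k) < c by rw [sk_trC hG]; omega

theorem mh_S (h0 : k0 ≤ k) (hk : k < c) : (capR hG h z K k0 c).mh (Rec.trC hG q k)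
    = (radRef (up n hG.steps)).mh (Rec.trC hG q k) :=
  (Ref.can_mh' _ _ _ _ _ _ (not_lt' hG q h0)).trans (Ref.sw_mh _ _ (mem_lt hG q hk))

theorem mh_T (h0 : k0 ≤ k) (hk : c ≤ k) : (capR hG h z K k0 c).mh (Rec.trC hG q k)
    = EC.tm (h (Rec.trC hG q k)) :=
  (Ref.can_mh' _ _ _ _ _ _ (not_lt' hG q h0)).trans (Ref.sw_mh' _ _ (not_lt' hG q hk))

theorem G_S (k0 : ℕ) (hk : k < c) : (capR hG h z K k0 c).G (Rec.trC hG q k)
    = Rad.Gr (JC lam q.1.1 (t k)) (sy (Rec.trC hG q k)) := by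
  rw [← sJ_trC hG]
  exact Ref.sw_G _ _ (mem_lt hG q hk)

theorem G_T (k0 : ℕ) (hk : c ≤ k) : (capR hG h z K k0 c).G (Rec.trC hG q k)
    = EC.Gm (sJ (Rec.trC hG q k)) (h (Rec.trC hG q k)) (z (Rec.trC hG q k)) :=
  Ref.sw_G' _ _ (not_lt' hG q hk)

theorem ka_S (k0 : ℕ) (hk : k < c) : (capR hG h z K k0 c).ka (Rec.trC hG q k)
    = Rad.kr (JC lam q.1.1 (t k)) (sy (Rec.trC hG q k)) (capP lam t q.1.1 k) := by
  rw [← sJ_trC hG, ← Q_trC hG]
  exact Ref.sw_ka _ _ (mem_lt hG q hk)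

theorem ka_T (k0 : ℕ) (hk : c ≤ k) : (capR hG h z K k0 c).ka (Rec.trC hG q k)
    = EC.ka (sJ (Rec.trC hG q k)) (h (Rec.trC hG q k)) (z (Rec.trC hG q k))
      (capP lam t q.1.1 k) := by
  rw [← Q_trC hG]
  exact Ref.sw_ka' _ _ (not_lt' hG q hk)

theorem abs_R_trC {K : ℝ} (hK : 1 ≤ K) (k : ℕ) (i j : Fin n) :
    |(up n hG.steps).R (Rec.trC hG q k) i j| ≤ K := by
  rw [R_trC hG]
  exact (abs_PC_le lam _ _ i j).trans hK

theorem mem_ok (h0 : k0 ≤ k) (t0 : 0 < t k)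
    (hB : (capR0 hG h z c).Bd (up n hG.steps) K dl (Rec.trC hG q k))
    (hF : Frm (t k) 2 (capP lam t q.1.1 k) ((capR hG h z K k0 c).G (Rec.trC hG q k))) :
    Rec.trC hG q k ∈ (capR hG h z K k0 c).ok := by
  refine ⟨not_lt' hG q h0, hB, Ref.mem_FormP ?_ fun u hu => ?_⟩
  · rw [Q_trC hG]; exact (flag_capP hG _).idem k
  · rw [Q_trC hG] at hu
    have h1 := hF u hu
    rw [sk_trC hG, div_mul_eq_mul_div, le_div_iff₀ t0, mul_comm]
    exact h1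

end fields

section main

variable {hG : Grid lam t dl} {h : St n → Vec n} {z : St n → ℝ} {cen : Mat n → Vec n → Vec n}
  {w K₀ L e Kl ε X0 CT ζ Z M0 : ℝ} {c : ℕ} {q : (OG n × Cfg n) × (ℕ → Vec n)}
  (hp : Par t dl' sK ρ R₂ T η η₁ κ J) (hN : CapNum lam t w sK T η K₀ L ε ζ Z M0 CT c)
  (hq : CapEv hG h z cen K₀ L η e Kl ε X0 CT (fi t sK) (wa t T ρ J) c (fi t T) q)

include hp hN

omit hp in
theorem t_le {k : ℕ} (h2 : k < fi t T) : t k ≤ 1 / 100 :=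
  (Tm.lt_of_lt_fi h2).le.trans hN.T_le

theorem capOK_trC {k : ℕ} (h1 : fi t sK ≤ k) (h2 : k < fi t T) :
    Rad.CapOK lam q.1.1 (t k) (sy (Rec.trC hG q k)) :=
  Rad.capOK _ _ hN.rig hN.npos hN.wpos hN.kap (hN.sc.trans (hp.sK_le_t h1)) (t_le hN h2)
    (mem_cap hG q.1.1 q.1.2 q.2 k)

include hq

theorem frm_cap (K : ℝ) {k : ℕ} (h1 : fi t sK ≤ k) (h2 : k < fi t T) :
    Frm (t k) 2 (capP lam t q.1.1 k) ((capR hG h z K (fi t sK) c).G (Rec.trC hG q k)) := by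
  rcases lt_or_ge k c with hk | hk
  · rw [G_S hG h z K q _ hk]
    exact (capOK_trC hp hN h1 h2).form
  · rw [G_T hG h z K q _ hk]
    exact (hq.tap.t1 k hk h2).frm.mono (by linarith [hp.eta1])

theorem t1f_cap (K : ℝ) {k : ℕ} (h1 : wa t T ρ J ≤ k) (h2 : k < fi t T) :
    T1F (t k) η (capP lam t q.1.1 k) ((capR hG h z K (fi t sK) c).G (Rec.trC hG q k))
      (sy (Rec.trC hG q k)) := by
  rcases lt_or_ge k c with hk | hk
  · rw [G_S hG h z K q _ hk]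
    intro u v _ hv
    have b0 := (hp.k0_le_wa (le_refl J)).trans h1
    have b1 := hN.sharp k hk
    have b2 := hq.good.sq k h1 h2.le
    rw [← sq_sy_trC hG] at b2
    have b3 := Rad.sharp_cap q.1.1 (sy (Rec.trC hG q k)) hN.rig hN.npos hN.wpos
      (hN.sc.trans (hp.sK_le_t b0)) (θ := 21 * ε) (by linarith [hN.eps])
      (by linarith [hp.eta1]) (mem_cap hG q.1.1 q.1.2 q.2 k) b2 u hv
    exact b3.trans (mul_le_mul_of_nonneg_right (mul_le_mul_of_nonneg_right b1 (nv_nonneg u))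
      (nv_nonneg v))
  · rw [G_T hG h z K q _ hk]
    exact hq.tap.t1 k hk h2

theorem ka_cap (K : ℝ) {k : ℕ} (h1 : fi t sK ≤ k) (h2 : k < fi t T) :
    t k * (√(t k) * nv (capP lam t q.1.1 k *ᵥ (capR hG h z K (fi t sK) c).ka (Rec.trC hG q k)))
      ≤ ζ + t k ^ e * √Kl := by
  have t0 := hp.t_pos h1
  have c0 := hN.cnt0
  have z0 : 0 ≤ 2 / √(cnt lam sK) := by positivity
  rcases lt_or_ge k c with hk | hk
  · rw [ka_S hG h z K q _ hk]
    have b0 := capOK_trC (hG := hG) (q := q) hp hN h1 h2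
    have b1 : cnt lam sK ≤ cnt lam (t k) := Edge.cnt_mono lam (hp.sK_le_t h1)
    have b2 := b0.nv_kr t0 (c0.trans_le b1)
    rw [le_div_iff₀ t0, mul_comm] at b2
    have b3 : 2 / √(cnt lam (t k)) ≤ 2 / √(cnt lam sK) :=
      div_le_div_of_nonneg_left zero_le_two (Real.sqrt_pos.2 c0) (Real.sqrt_le_sqrt b1)
    have b4 : 0 ≤ t k ^ e * √Kl := by positivity
    have b5 : capP lam t q.1.1 k *ᵥ
        Rad.kr (JC lam q.1.1 (t k)) (sy (Rec.trC hG q k)) (capP lam t q.1.1 k)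
        = Rad.kr (JC lam q.1.1 (t k)) (sy (Rec.trC hG q k)) (PC lam q.1.1 (t k)) := b0.kmem
    rw [b5]
    linarith [hN.zeta]
  · rw [ka_T hG h z K q _ hk, ← mul_assoc]
    linarith [hq.tap.ka k hk h2, hN.zeta]

theorem jump_cap {k : ℕ} (h1 : fi t sK ≤ k) (hk : k + 1 = c) :
    √(t k) * nv (capP lam t q.1.1 k *ᵥ (EC.tm (h (Rec.trC hG q (k + 1)))
      - (radRef (up n hG.steps)).mh (Rec.trC hG q (k + 1)))) ≤ Z := by
  subst hk
  have t0 := hp.t_pos h1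
  have t1 := hp.tm.mono k
  have b1 := hq.tap.jump
  have b2 := (flag_capP hG q.1.1).nv_le k (EC.tm (h (Rec.trC hG q (k + 1)))
      - (radRef (up n hG.steps)).mh (Rec.trC hG q (k + 1)))
  refine abs_le_of_sq_le_sq' ?_ hN.Z0 |>.2
  rw [mul_pow, Real.sq_sqrt t0.le]
  have b3 := pow_le_pow_left₀ (nv_nonneg _) b2 2
  rw [nv_sq (EC.tm _ - _)] at b3
  exact (mul_le_mul t1 (b3.trans b1) (sq_nonneg _) (t0.le.trans t1)).trans hN.jump

theorem term_cap {K : ℝ} (hK : 1 ≤ K) (L' τ : ℝ) :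
    √(t (fi t T)) * nv (capP lam t q.1.1 (fi t T) *ᵥ (capR hG h z K (fi t sK) c).Wp
      (up n hG.steps) K L' τ (fi t T) (capS lam t q.1.1 0 0) q.1.2 q.2 (fi t T)) ≤ M0 := by
  have e1 : (capR hG h z K (fi t sK) c).Wp (up n hG.steps) K L' τ (fi t T) (capS lam t q.1.1 0 0)
      q.1.2 q.2 (fi t T) = Br.eS cen (Rec.trC hG q (fi t T))
        - (EC.tm (h (Rec.trC hG q (fi t T)))
          - cen (sJ (Rec.trC hG q (fi t T))) (sy (Rec.trC hG q (fi t T)))) := by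
    have e2 := mh_T hG h z K q hp.k0_le_N hN.cN
    have e3 : (capR hG h z K (fi t sK) c).mT K (Rec.trC hG q (fi t T))
        = EC.tm (h (Rec.trC hG q (fi t T))) := by
      rw [Ref.mT_eq _ fun i => by rw [e2]; exact (abs_tm_le _ i).trans hK, e2]
    unfold Ref.Wp
    rw [Nat.sub_self]
    change mean (gM (sJ (Rec.trC hG q (fi t T))) (sy (Rec.trC hG q (fi t T))))
      - (capR hG h z K (fi t sK) c).mT K (Rec.trC hG q (fi t T)) = _
    rw [e3, Br.eS]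
    abel
  rw [e1]
  refine le_trans ?_ hN.term
  refine mul_le_mul (Real.sqrt_le_sqrt hp.t_N_le) (((flag_capP hG _).nv_le _ _).trans
    ((nv_sub_le _ _).trans (add_le_add ?_ hq.tap.cen))) (nv_nonneg _) (Real.sqrt_nonneg _)
  rw [nv_eq_sqrt]
  exact Real.sqrt_le_sqrt hq.term

end main

/-- good steps along the cap flow -/
theorem gd_cap : ∃ p : ℕ, 1 ≤ p ∧ ∀ {n : ℕ} {lam : Vec n} {t : ℕ → ℝ}
    {dl dl' sK ρ R₂ T η η₁ κ : ℝ} {J : ℕ} {hG : Grid lam t dl} {h : St n → Vec n} {z : St n → ℝ}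
    {cen : Mat n → Vec n → Vec n} {w K₀ L e Kl ε X0 CT ζ Z M0 : ℝ} {c : ℕ}
    {q : (OG n × Cfg n) × (ℕ → Vec n)}, Par t dl' sK ρ R₂ T η η₁ κ J →
    CapNum lam t w sK T η K₀ L ε ζ Z M0 CT c → K₀ ^ 8 * dl ≤ 1 →
    CapEv hG h z cen K₀ L η e Kl ε X0 CT (fi t sK) (wa t T ρ J) c (fi t T) q →
    (capR hG h z (K₀ ^ p) (fi t sK) c).Gd (up n hG.steps) (Rec.trC hG q) q.1.2 q.2 t
      (capP lam t q.1.1) (K₀ ^ p) L (K₀ ^ p * √dl) ζ Z (fun s => s ^ e * √Kl) (c - 1) (fi t sK)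
      (fi t T) := by
  obtain ⟨p1, h1⟩ := tap_bd
  obtain ⟨p2, h2⟩ := tap_stp
  obtain ⟨p3, h3⟩ := rad_bd
  obtain ⟨p4, h4⟩ := rad_stp
  refine ⟨p1 + p2 + p3 + p4 + 1, by omega, ?_⟩
  intro n lam t dl dl' sK ρ R₂ T η η₁ κ J hG h z cen w K₀ L e Kl ε X0 CT ζ Z M0 c q hp hN hd hq
  generalize hP : p1 + p2 + p3 + p4 + 1 = p
  have K1 : 1 ≤ K₀ := by linarith [hN.K3]
  have Kp : ∀ j, j ≤ p → K₀ ^ j ≤ K₀ ^ p := fun j hj => pow_le_pow_right₀ K1 hj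
  have KK : K₀ ≤ K₀ ^ p := le_self_pow₀ K1 (by omega)
  have hδ : ∀ k, (up n hG.steps).δ (Rec.trC hG q k) ≤ dl := fun k => by
    rw [δ_trC hG]; exact hG.le k
  have rad : ∀ k, fi t sK ≤ k → k < c → RadSt K₀ ((up n hG.steps).M (Rec.trC hG q k))
      ((up n hG.steps).Q (Rec.trC hG q k)) ((up n hG.steps).y (Rec.trC hG q k)) :=
    fun k a1 a2 => radSt_trC hG q hN.npos hN.rig hN.K3 hN.nK (hp.t_pos a1)
      ((t_le hN (a2.trans_le hN.cN)).trans (by norm_num)) (hq.ybd k a1 a2)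
  have box : ∀ k, fi t sK ≤ k → k < fi t T → q.2 k ∈ Box n K₀ :=
    fun k a1 a2 j => (hq.box k a1 a2 j).trans hN.LK
  have err : ∀ k j, j ≤ p → K₀ ^ j * ((up n hG.steps).δ (Rec.trC hG q k)
      * √((up n hG.steps).δ (Rec.trC hG q k))) ≤ K₀ ^ p * √dl * (t (k + 1) - t k) := by
    intro k j hj
    have b1 := Real.sqrt_le_sqrt (hδ k)
    rw [δ_trC hG] at b1 ⊢
    have b2 := hG.step_pos k
    rw [mul_comm (t (k + 1) - t k), ← mul_assoc]
    exact mul_le_mul_of_nonneg_right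
      (mul_le_mul (Kp j hj) b1 (Real.sqrt_nonneg _) (by positivity)) b2.le
  have zero : ∀ k, ∀ v : Vec n, √(t k) * nv (capP lam t q.1.1 k *ᵥ (v - v))
      ≤ if k = c - 1 then Z else 0 := fun k v => by
    rw [sub_self, Matrix.mulVec_zero, nv_zero, mul_zero]
    split_ifs
    · exact hN.Z0
    · exact le_rfl
  refine ⟨fun k a1 a2 => mem_ok hG h z _ q a1 (hp.t_pos a1) ?_ (frm_cap hp hN hq _ a1 a2), hq.box,
    fun k a1 _ i => ?_, fun k a1 a2 => ?_, fun k a1 a2 => ka_cap hp hN hq _ a1 a2⟩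
  · rcases lt_or_ge k c with hk | hk
    · exact ((h3 n n _ _ K₀ dl _ (rad k a1 hk) hN.nK (abs_R_trC hG q K1 k) (hδ k)).mono
        (Kp _ (by omega))).congr (Ref.sw_G _ _ (mem_lt hG q hk)) (Ref.sw_B _ _ (mem_lt hG q hk))
    · exact ((h1 n n _ _ h z K₀ dl _ (hq.tap.st k hk a2).loc hN.nK (abs_R_trC hG q K1 k)
        (hδ k)).mono (Kp _ (by omega))).congr (Ref.sw_G' _ _ (not_lt' hG q hk))
        (Ref.sw_B' _ _ (not_lt' hG q hk))
  · rcases lt_or_ge k c with hk | hk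
    · rw [mh_S hG h z _ q a1 hk]
      exact ((rad k a1 hk).abs_mr _ i).trans KK
    · rw [mh_T hG h z _ q a1 hk]
      exact (abs_tm_le _ i).trans (K1.trans KK)
  · rcases lt_or_ge k c with hk | hk
    · refine ⟨(radRef (up n hG.steps)).mh (Rec.trC hG q (k + 1)),
        ((h4 n n _ _ K₀ _ q.1.2 (q.2 k) (rad k a1 hk) hN.nK (abs_R_trC hG q K1 k)
          (box k a1 a2)).mono (err k _ (by omega))).congr (mh_S hG h z _ q a1 hk)
          (Ref.sw_G _ _ (mem_lt hG q hk)) (Ref.sw_B _ _ (mem_lt hG q hk))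
          (Ref.sw_ka _ _ (mem_lt hG q hk)), ?_⟩
      rcases lt_or_ge (k + 1) c with hk' | hk'
      · rw [mh_S hG h z _ q (by omega) hk']
        exact zero k _
      · rw [mh_T hG h z _ q (by omega) hk', if_pos (by omega)]
        exact jump_cap hp hN hq a1 (by omega)
    · have b1 := hq.tap.st k hk a2
      rw [← δ_trC hG q k] at b1
      refine ⟨EC.tm (h (Rec.trC hG q (k + 1))),
        ((h2 n n _ _ h z K₀ _ q.1.2 (q.2 k) _ _ b1
          ((mul_le_mul_of_nonneg_left (hδ k) (by positivity)).trans hd) hN.nK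
          (abs_R_trC hG q K1 k) (box k a1 a2)).mono (err k _ (by omega))).congr
          (mh_T hG h z _ q a1 hk) (Ref.sw_G' _ _ (not_lt' hG q hk))
          (Ref.sw_B' _ _ (not_lt' hG q hk)) (Ref.sw_ka' _ _ (not_lt' hG q hk)), ?_⟩
      rw [mh_T hG h z _ q (by omega) (by omega)]
      exact zero k _

/-- the window events of the tracker `r` -/
def Win (hG : Grid lam t dl) (r : Ref n n (St n)) (K L τ T ρ κ η₁ : ℝ) (J : ℕ)
    (q : (OG n × Cfg n) × (ℕ → Vec n)) : Prop :=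
  ∀ j, j < J →
    Rad t (capP lam t q.1.1) (fun k => sy (Rec.trC hG q k)) κ η₁ (wa t T ρ (j + 1)) (wa t T ρ j) ∧
    Comp t (capP lam t q.1.1) (fun k => sy (Rec.trC hG q k))
      (fun k => r.W (up n hG.steps) K L τ (fi t T - k) (Rec.trC hG q k) q.1.2 (shS k q.2)) κ
      (wa t T ρ (j + 1)) (wa t T ρ j)

/-- **the tracker of the cap flow**: pathwise hypotheses of the recursion, and the hypotheses of
the tracking lemma from the quenched probability of the good event -/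
theorem cap_track : ∃ p : ℕ, 1 ≤ p ∧ ∀ {n : ℕ} {lam : Vec n} {t : ℕ → ℝ}
    {dl dl' sK ρ R₂ T η η₁ κ : ℝ} {J : ℕ} (hG : Grid lam t dl) {h : St n → Vec n} {z : St n → ℝ}
    {cen : Mat n → Vec n → Vec n} {w K₀ L τ e Kl ε X0 CT ζ ζ₀ Z M0 Γ TA TB : ℝ} {c : ℕ},
    Par t dl' sK ρ R₂ T η η₁ κ J → CapNum lam t w sK T η K₀ L ε ζ Z M0 CT c →
    Measurable h → Measurable z → (K₀ ^ p) ^ 8 * dl ≤ 1 → 0 < τ → τ ≤ 1 → 0 ≤ e → 0 ≤ X0 →
    ζ + (K₀ ^ p * √dl + 8 * K₀ ^ p * Real.exp (n / 2 - L ^ 2 / 8)) * √n ≤ ζ₀ →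
    ∑ j ∈ range J, ((2 * (T / ρ ^ j)) ^ e * √Kl) ^ 2 ≤ Γ →
    totA (2 * ρ) M0 (zsum ρ ζ₀ Γ Z J) ≤ TA →
    totB (2 * ρ) M0 (zsum ρ ζ₀ Γ Z J) R₂ 3 (zet2 T ρ R₂ ζ₀ Z (fun s => s ^ e * √Kl) J) ≤ TB →
    (capR hG h z (K₀ ^ p) (fi t sK) c).OK (up n hG.steps) (K₀ ^ p) dl ∧
    ∃ l mm : ℕ → ℝ,
      (∀ k, mm k ≤ dl' * ((TA + 3 * TB) / sK + 3 * X0 + 3 * (τ ^ 2 * ((K₀ ^ p) ^ 2 * n)))) ∧
      ∑ k ∈ range (fi t T), mm k ≤ 2 * Real.log (2 * ρ) * TA + (2 * Real.log R₂ + 9) * TB +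
        9 * sK * (X0 + τ ^ 2 * ((K₀ ^ p) ^ 2 * n)) ∧
      ∑ k ∈ range (fi t T), l k ≤ (2 + 4 * R₂ ^ 6) * (sK⁻¹) ^ (1 + 4 * η) ∧
      ∀ (O : OG n) (pr : ℝ), PE (gM (JO lam O) 0) (fun x ω =>
          ¬(CapEv hG h z cen K₀ L η e Kl ε X0 CT (fi t sK) (wa t T ρ J) c (fi t T) ((O, x), ω) ∧
            Win hG (capR hG h z (K₀ ^ p) (fi t sK) c) (K₀ ^ p) L τ T ρ κ η₁ J ((O, x), ω))) ≤ pr →
        Track (up n hG.steps) ((capR hG h z (K₀ ^ p) (fi t sK) c).A (up n hG.steps) τ)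
          ((capR hG h z (K₀ ^ p) (fi t sK) c).mT (K₀ ^ p))
          ((capR hG h z (K₀ ^ p) (fi t sK) c).rem (up n hG.steps) (K₀ ^ p) L τ)
          (LayS (capJ lam t O) (capP lam t O)) (capS lam t O 0 0) 0 (fi t T) 1 (n * n) dl
          (sK⁻¹ ^ 16 * (1 + ((1 + K₀ ^ p) * √n + fi t T * Ref.rho n (K₀ ^ p) L τ) ^ 2)) l mm
          fun _ => pr := by
  obtain ⟨p, p1, hp1⟩ := gd_cap
  refine ⟨p, p1, ?_⟩
  intro n lam t dl dl' sK ρ R₂ T η η₁ κ J hG h z cen w K₀ L τ e Kl ε X0 CT ζ ζ₀ Z M0 Γ TA TB c hp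
    hN hh hz hd τ0 τ1 e0 hX hζ hΓ hA hB
  have K1 : 1 ≤ K₀ := by linarith [hN.K3]
  have KK : K₀ ≤ K₀ ^ p := le_self_pow₀ K1 (by omega)
  have K0 : 0 ≤ K₀ ^ p := by positivity
  have d0 := hG.dl_pos
  have n0 : (0 : ℝ) ≤ n := Nat.cast_nonneg n
  have hOK := capR_OK hG hN.npos hh hz (K := K₀ ^ p) (by linarith [hN.K3]) (hN.nK.trans KK) hd
    (fi t sK) c
  have d1 : K₀ ^ 8 * dl ≤ 1 :=
    (mul_le_mul_of_nonneg_right (pow_le_pow_left₀ (by linarith) KK 8) d0.le).trans hd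
  have d2 : ((n : ℝ) * n) ^ 2 * dl ≤ 1 := by
    refine le_trans (mul_le_mul_of_nonneg_right ?_ d0.le) d1
    calc ((n : ℝ) * n) ^ 2 = n ^ 4 := by ring
      _ ≤ K₀ ^ 4 := pow_le_pow_left₀ n0 hN.nK 4
      _ ≤ K₀ ^ 8 := pow_le_pow_right₀ K1 (by norm_num)
  have z0 : 0 ≤ ζ₀ := by
    have b1 : 0 ≤ 2 / √(cnt lam sK) := by positivity
    have b2 : 0 ≤ (K₀ ^ p * √dl + 8 * K₀ ^ p * Real.exp (n / 2 - L ^ 2 / 8)) * √n := by positivity
    linarith [hN.zeta]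
  obtain ⟨mm, m0, m1, m2, m3⟩ := num_W hp (τ := τ) (ζ₀ := ζ₀) (Z := Z) (M0 := M0) (X0 := X0)
    (X1 := τ ^ 2 * ((K₀ ^ p) ^ 2 * n)) (Γ := Γ) (g := fun s => s ^ e * √Kl) (c - 1) τ0.le τ1 z0
    hN.Z0 hX (by positivity) (fun s hs => by positivity)
    (fun s s' hs hs' => mul_le_mul_of_nonneg_right (Real.rpow_le_rpow hs.le hs' e0)
      (Real.sqrt_nonneg _)) hΓ hA hB
  obtain ⟨l, l0, l1, l2⟩ := num_V hp τ0.le τ1
  rw [← Finset.range_eq_Ico] at m2 l1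
  refine ⟨hOK, l, mm, m1, m2, l1, fun O pr hpr => ?_⟩
  have key := fun (x : Cfg n) (ω : ℕ → Vec n)
      (hq : CapEv hG h z cen K₀ L η e Kl ε X0 CT (fi t sK) (wa t T ρ J) c (fi t T) ((O, x), ω))
      (hw : Win hG (capR hG h z (K₀ ^ p) (fi t sK) c) (K₀ ^ p) L τ T ρ κ η₁ J ((O, x), ω)) =>
    hOK.wok hp hN.L0 (by positivity) τ0.ne' le_rfl (flag_capP hG O)
      (capR_sch hG h z (K₀ ^ p) (fi t sK) c (fi t T) ((O, x), ω)) (hp1 hp hN d1 hq) hζ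
      (y := fun k => sy (Rec.trC hG ((O, x), ω) k)) (fun k _ _ => mem_cap hG O x ω k)
      (fun k a1 a2 => frm_cap hp hN hq _ a1 (a2.trans_le (hp.wa_le_N J)))
      (fun k a1 a2 => t1f_cap hp hN hq _ a1 a2) hq.hx hw
      (term_cap hp hN hq (K1.trans KK) L τ)
  refine track_cap hG hp O hOK hN.L0 τ0 τ1 (fun s hs => not_lt.1 hs.1) (fun s hs => hs.2.2)
    hN.npos d2 l0 m0 hpr (fun x ω hg k hk v => ?_) fun x ω hg k hk => m3 (key x ω hg.1 hg.2) k hk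
  have b1 := l2 (hOK.vok hp τ0.ne' le_rfl
    (capR_sch hG h z (K₀ ^ p) (fi t sK) c (fi t T) ((O, x), ω)) (key x ω hg.1 hg.2) v) k hk
  have b2 : (capR hG h z (K₀ ^ p) (fi t sK) c).Vp (up n hG.steps) τ (fi t T) (capS lam t O 0 0)
      x ω v (fi t T) = v := by
    unfold Ref.Vp
    rw [Nat.sub_self]
    exact Matrix.one_mulVec v
  rw [b2] at b1
  exact b1

end Vale.Agent.N150.Cap
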