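import Vale.Agent.N150.AsmCn
import Vale.Agent.N150.AsmEv
import Vale.Agent.N150.CapMain

/-! P150 at the critical point: one level of the path assembly, for a free mesh `u ^ (-10)` and the
defect `u ^ (-4)`. -/

open Matrix MeasureTheory Filter Topology Finset

namespace Vale.Agent.N150.M0G

open Vale.Agent.P150 Vale.Agent.P150.F Vale.Agent.N150.Sp Vale.Agent.N150.Asm
  Vale.Agent.N150.Plant Vale.Agent.N150.Cap Vale.Agent.N150.Rec Vale.Agent.N150.Edge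

variable {n : ℕ}

/-- the facts on the dimension -/
structure Big (n : ℕ) (ε θ ρ η α β ν T CT : ℝ) : Prop where
  n0 : 40000 ≤ n
  w1 : 1 ≤ wn n
  kap : 20 * Edge.kap (wn n) ≤ η / 200
  sc : ∀ K : ℝ, Real.log n ≤ K → sc0 n (wn n) ≤ α * η / 6000 * sL n K
  th : 36 ≤ θ * Real.log n
  cn : 80 ≤ ν * α ^ 2 * Real.log n
  ct : (√CT + 1) ^ 2 ≤ ν * Real.log n
  an : 1000 ≤ α * n
  en : 2 ≤ η * α * n
  nn : 16 ≤ ν * n
  k0 : A1.K0 ≤ n
  l1 : Cn.cL ρ α β * (n : ℝ) ^ (2 / 3 * (1 + 4 * η)) * CT ≤ (n : ℝ) ^ (2 / 3 + ε)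
  l2 : Cn.cL ρ α β * (n : ℝ) ^ (2 / 3 * (1 + 4 * η)) ≤ (n : ℝ) ^ 2

/-- the polynomial scale `Y` and the exponential scale `u` -/
structure Sc (n : ℕ) (Y u K : ℝ) (N : ℕ) : Prop where
  n0 : (40000 : ℝ) ≤ n
  nY : (n : ℝ) ≤ Y
  Yu : Y ^ 32 ≤ u
  Ku : Real.exp (-K) ≤ (u ^ 100)⁻¹
  hN : (N : ℝ) + 1 ≤ 4 * u ^ 10

namespace Sc

variable {Y u K : ℝ} {N : ℕ} (s : Sc n Y u K N)
include s

theorem Y1 : 1 ≤ Y := by linarith [s.n0, s.nY]

theorem Yp {k : ℕ} (hk : k ≤ 32) : Y ^ k ≤ u := (pow_le_pow_right₀ s.Y1 hk).trans s.Yu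

theorem np {k : ℕ} (hk : k ≤ 32) : (n : ℝ) ^ k ≤ u :=
  (pow_le_pow_left₀ (Nat.cast_nonneg n) s.nY k).trans (s.Yp hk)

theorem cY {C : ℝ} (hC : C ≤ 40000) {k : ℕ} (hk : k + 1 ≤ 32) : C * Y ^ k ≤ u := by
  refine le_trans ?_ (s.Yp hk)
  rw [pow_succ']
  exact mul_le_mul_of_nonneg_right (by linarith [s.n0, s.nY]) (pow_nonneg (by linarith [s.Y1]) k)

theorem u4 : 40000 ≤ u := by simpa using s.cY (C := 40000) le_rfl (k := 0) (by norm_num)

theorem u0 : 0 < u := by linarith [s.u4]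

theorem up {a b : ℕ} (h : a ≤ b) : u ^ a ≤ u ^ b := pow_le_pow_right₀ (by linarith [s.u4]) h

theorem cu {C : ℝ} (hC : C ≤ 40000) {a b : ℕ} (h : a + 1 ≤ b) : C * u ^ a ≤ u ^ b := by
  refine le_trans ?_ (s.up h)
  rw [pow_succ']
  exact mul_le_mul_of_nonneg_right (hC.trans s.u4) (pow_nonneg s.u0.le a)

theorem mesh {x : ℝ} (hx : x ≤ u) : x * (u ^ 10)⁻¹ ≤ 1 := by
  rw [mul_inv_le_iff₀ (pow_pos s.u0 10), one_mul]
  exact hx.trans (by simpa using s.up (a := 1) (b := 10) (by norm_num))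

theorem sqrt_mesh : √((u ^ 10)⁻¹) = (u ^ 5)⁻¹ := by
  rw [show (u ^ 10)⁻¹ = ((u ^ 5)⁻¹) ^ 2 by rw [inv_pow, ← pow_mul]]
  exact Real.sqrt_sq (inv_nonneg.2 (pow_nonneg s.u0.le 5))

theorem sqrt_n : √(n : ℝ) ≤ Y :=
  le_trans (Real.sqrt_le_iff.2 ⟨Nat.cast_nonneg n, by nlinarith [s.n0]⟩) s.nY

theorem rho_le : Ref.rho n Y n (Y ^ 2)⁻¹ ≤ u := by
  have h1 := s.Y1
  have h2 := s.nY
  have h3 : (0 : ℝ) ≤ n := Nat.cast_nonneg n
  have h4 : (n : ℝ) ^ 2 ≤ Y ^ 2 := pow_le_pow_left₀ h3 h2 2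
  have a1 : Y ≤ Y ^ 3 := by simpa using pow_le_pow_right₀ h1 (show 1 ≤ 3 by norm_num)
  have a2 : Y ^ 2 ≤ Y ^ 3 := pow_le_pow_right₀ h1 (by norm_num)
  have h5 : 2 * Y + Y ^ 2 * (1 + Y) + 2 * (1 + n + (n : ℝ) ^ 2) ≤ 10 * Y ^ 3 := by nlinarith
  unfold Ref.rho
  rw [inv_inv]
  refine (mul_le_mul h5 s.sqrt_n (Real.sqrt_nonneg _) (by positivity)).trans ?_
  rw [mul_assoc, ← pow_succ]
  exact s.cY (by norm_num) (by norm_num)

theorem B_le {x : ℝ} (hx0 : 0 ≤ x) (hx : x ≤ Y ^ 2) :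
    x ^ 16 * (1 + ((1 + Y) * √n + N * Ref.rho n Y n (Y ^ 2)⁻¹) ^ 2) ≤ u ^ 26 := by
  have h1 := s.Y1
  have u0 := s.u0
  have a1 : x ^ 16 ≤ u := by
    refine (pow_le_pow_left₀ hx0 hx 16).trans ?_
    rw [← pow_mul]
    exact s.Yu
  have a2 : (1 + Y) * √n ≤ u := by
    refine (mul_le_mul (show 1 + Y ≤ 2 * Y by linarith) s.sqrt_n (Real.sqrt_nonneg _)
      (by linarith)).trans ?_
    rw [mul_assoc, ← pow_two]
    exact s.cY (by norm_num) (by norm_num)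
  have r0 : 0 ≤ Ref.rho n Y n (Y ^ 2)⁻¹ := by unfold Ref.rho; positivity
  have a3 : N * Ref.rho n Y n (Y ^ 2)⁻¹ ≤ 4 * u ^ 10 * u :=
    mul_le_mul (by linarith [s.hN]) s.rho_le r0 (by positivity)
  have a4 : u ≤ u ^ 11 := by simpa using s.up (a := 1) (b := 11) (by norm_num)
  have a5 := s.cu (C := 5) (by norm_num) (a := 11) (b := 12) le_rfl
  have a6 : (1 + Y) * √n + N * Ref.rho n Y n (Y ^ 2)⁻¹ ≤ u ^ 12 := by
    rw [mul_assoc, ← pow_succ] at a3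
    linarith
  have a7 := pow_le_pow_left₀ (by positivity) a6 2
  rw [← pow_mul] at a7
  have a8 : 1 ≤ u ^ 24 := one_le_pow₀ (by linarith [s.u4])
  have a9 := s.cu (C := 2) (by norm_num) (a := 24) (b := 25) le_rfl
  calc _ ≤ u * u ^ 25 := mul_le_mul a1 (by linarith) (by positivity) u0.le
    _ = _ := by ring

theorem fin {C : ℝ} (hC : C ≤ 10000) {a b : ℕ} (h : a + 5 ≤ b) :
    C * u ^ a * (u ^ b)⁻¹ ≤ (u ^ 4)⁻¹ / 3 := by
  have u0 := s.u0
  rw [mul_inv_le_iff₀ (pow_pos u0 b), div_mul_eq_mul_div, le_div_iff₀ (by norm_num),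
    le_inv_mul_iff₀ (pow_pos u0 4)]
  have h1 := s.cu (C := 3 * C) (by linarith) (a := a + 4) (b := b) h
  calc _ = 3 * C * u ^ (a + 4) := by ring
    _ ≤ _ := h1

theorem d1 {Λ x : ℝ} (hΛ : Λ ≤ (n : ℝ) ^ 2) (hK : 0 ≤ K) (hx : 8 * K ≤ x) :
    Λ * (Real.exp (2 * K) * Real.exp (-x) + Real.exp (-x)) ≤ (u ^ 4)⁻¹ / 3 := by
  have u0 := s.u0
  have h2 : Real.exp (2 * K) * Real.exp (-x) ≤ Real.exp (-K) := by
    rw [← Real.exp_add]; exact Real.exp_le_exp.2 (by linarith)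
  have h3 : Real.exp (-x) ≤ Real.exp (-K) := Real.exp_le_exp.2 (by linarith)
  calc _ ≤ u * (2 * (u ^ 100)⁻¹) :=
        mul_le_mul (hΛ.trans (s.np (by norm_num))) (by linarith [s.Ku]) (by positivity) u0.le
    _ = 2 * u ^ 1 * (u ^ 100)⁻¹ := by ring
    _ ≤ _ := s.fin (by norm_num) (by norm_num)

theorem d2 {B : ℝ} (hB0 : 0 ≤ B) (hB : B ≤ u ^ 26) :
    6 * (n + 1) * B * Real.exp K * (N * (2 * Real.exp (-(2 * K)))) ≤ (u ^ 4)⁻¹ / 3 := by
  have u0 := s.u0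
  have e : Real.exp K * Real.exp (-(2 * K)) = Real.exp (-K) := by
    rw [← Real.exp_add]; congr 1; ring
  have a1 : (n : ℝ) + 1 ≤ 2 * u := by
    have := s.np (k := 1) (by norm_num)
    rw [pow_one] at this
    linarith [s.u4]
  have a2 : (N : ℝ) ≤ 4 * u ^ 10 := by linarith [s.hN]
  have a3 := s.Ku
  calc _ = 12 * ((n + 1) * (B * (N * (Real.exp K * Real.exp (-(2 * K)))))) := by ring
    _ ≤ 12 * (2 * u * (u ^ 26 * (4 * u ^ 10 * (u ^ 100)⁻¹))) := by rw [e]; gcongr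
    _ = 96 * u ^ 37 * (u ^ 100)⁻¹ := by ring
    _ ≤ _ := s.fin (by norm_num) (by norm_num)

theorem d3 (hk : A1.K0 ≤ n) :
    N * (A1.K0 * ((n : ℝ) * n) ^ 3 * ((u ^ 10)⁻¹ * √((u ^ 10)⁻¹))) ≤ (u ^ 4)⁻¹ / 3 := by
  have u0 := s.u0
  have k0 := A1.K0_nonneg
  have a2 : (N : ℝ) ≤ 4 * u ^ 10 := by linarith [s.hN]
  have n0 : (0 : ℝ) ≤ n := Nat.cast_nonneg n
  have a3 : 12 * (A1.K0 * ((n : ℝ) * n) ^ 3) ≤ u := by
    refine le_trans ?_ (s.cY (C := 12) (by norm_num) (k := 7) (by norm_num))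
    have := s.nY
    calc _ ≤ 12 * (Y * (Y * Y) ^ 3) := by gcongr <;> linarith
      _ = _ := by ring
  rw [s.sqrt_mesh]
  calc _ ≤ 4 * u ^ 10 * (u / 12 * ((u ^ 10)⁻¹ * (u ^ 5)⁻¹)) := by gcongr; linarith
    _ = _ := by field_simp; norm_num

theorem z0 {ν : ℝ} (hν : 16 ≤ ν * n) (hK : 64 * K ≤ n) :
    √ν / 2 + (Y * √((u ^ 10)⁻¹) + 8 * Y * Real.exp (n / 2 - (n : ℝ) ^ 2 / 8)) * √n ≤ √ν := by
  have u0 := s.u0
  have h1 := s.Y1
  have n0 := s.n0
  have a1 : Real.exp (n / 2 - (n : ℝ) ^ 2 / 8) ≤ (u ^ 5)⁻¹ := by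
    refine le_trans (Real.exp_le_exp.2 (by nlinarith)) (s.Ku.trans ?_)
    exact inv_anti₀ (pow_pos u0 5) (s.up (by norm_num))
  have a2 : (Y * √((u ^ 10)⁻¹) + 8 * Y * Real.exp (n / 2 - (n : ℝ) ^ 2 / 8)) * √n
      ≤ 9 * Y ^ 2 * (u ^ 5)⁻¹ := by
    rw [s.sqrt_mesh]
    have := s.sqrt_n
    calc _ ≤ (Y * (u ^ 5)⁻¹ + 8 * Y * (u ^ 5)⁻¹) * Y := by gcongr
      _ = _ := by ring
  have a3 : 9 * Y ^ 2 * (u ^ 5)⁻¹ ≤ u⁻¹ := by
    rw [mul_inv_le_iff₀ (pow_pos u0 5), le_inv_mul_iff₀ u0]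
    have b1 := mul_le_mul_of_nonneg_left (s.cY (C := 9) (by norm_num) (k := 2) (by norm_num)) u0.le
    have b2 := s.up (a := 2) (b := 5) (by norm_num)
    nlinarith
  have a4 : u⁻¹ ≤ √ν / 2 := by
    have b1 := s.np (k := 1) (by norm_num)
    rw [pow_one] at b1
    have ν0 : 0 < ν := by
      by_contra hc
      nlinarith
    rw [le_div_iff₀ (by norm_num)]
    refine Real.le_sqrt_of_sq_le ?_
    rw [mul_pow, inv_pow, inv_mul_le_iff₀ (pow_pos u0 2)]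
    have b2 : ν * n ≤ ν * u := mul_le_mul_of_nonneg_left b1 ν0.le
    have b3 : ν * u ≤ u ^ 2 * ν := by nlinarith [s.u4, mul_pos ν0 u0]
    linarith
  linarith

theorem tot {J : ℕ} (hJ : (J : ℝ) ≤ n) {x : ℝ} (hx : 0 ≤ x) :
    Y * ((N : ℝ) + 1) ^ 2 * x + (31500 * n ^ 8 * (N + 1) ^ 2 * x + ((N + 1) * x + (N * x +
      (3000 * n ^ 8 * x + 2 * J * x)))) ≤ u ^ 23 * x := by
  have u0 := s.u0
  have u4 := s.u4
  have a1 : ((N : ℝ) + 1) ^ 2 ≤ u ^ 21 := by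
    refine (pow_le_pow_left₀ (by positivity) s.hN 2).trans ?_
    rw [mul_pow, ← pow_mul]
    exact s.cu (by norm_num) le_rfl
  have a2 : (1 : ℝ) ≤ ((N : ℝ) + 1) ^ 2 := one_le_pow₀ (by linarith [Nat.cast_nonneg (α := ℝ) N])
  have a3 : (N : ℝ) + 1 ≤ ((N : ℝ) + 1) ^ 2 := by nlinarith [Nat.cast_nonneg (α := ℝ) N]
  have a4 : Y ≤ u := by simpa using s.Yp (k := 1) (by norm_num)
  have a5 := s.np (k := 8) (by norm_num)
  have a6 : (n : ℝ) ≤ u := by simpa using s.np (k := 1) (by norm_num)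
  have a7 : u ≤ u * u ^ 21 := le_mul_of_one_le_right u0.le (a2.trans a1)
  have a8 : u ^ 21 ≤ u * u ^ 21 := le_mul_of_one_le_left (by positivity) (by linarith)
  have a9 := mul_le_mul a4 a1 (by positivity) u0.le
  have a10 := mul_le_mul a5 a1 (by positivity) u0.le
  have a11 := s.cu (C := 34505) (by norm_num) (a := 22) (b := 23) le_rfl
  have a12 : u * u ^ 21 = u ^ 22 := by ring
  have a13 : Y * ((N : ℝ) + 1) ^ 2 + (31500 * (n ^ 8 * (N + 1) ^ 2) + ((N + 1) + (N +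
      (3000 * n ^ 8 + 2 * J)))) ≤ u ^ 23 := by linarith
  have a14 := mul_le_mul_of_nonneg_right a13 hx
  linarith

end Sc

theorem tapPath_mono {lam : Vec n} {t : ℕ → ℝ} {dl : ℝ} {hG : Grid lam t dl} {h : St n → Vec n}
    {z : St n → ℝ} {cen : Mat n → Vec n → Vec n} {K₀ K₁ η e K : ℝ} {c N : ℕ}
    {q : (OG n × Cfg n) × (ℕ → Vec n)} (hq : TapPath hG h z cen K₀ η e K c N q) (hK : K₀ ≤ K₁) :
    TapPath hG h z cen K₁ η e K c N q := by
  refine ⟨fun k h1 h2 => ?_, hq.t1, hq.ka, hq.jump, hq.cen⟩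
  have a := hq.st k h1 h2
  have b : K₀ ^ 4 * √(t (k + 1) - t k) ≤ K₁ ^ 4 * √(t (k + 1) - t k) :=
    mul_le_mul_of_nonneg_right (pow_le_pow_left₀ (by linarith [a.loc.hK]) hK 4)
      (Real.sqrt_nonneg _)
  exact ⟨a.loc.mono hK, a.loc'.mono hK, fun i => (a.dh i).trans b, a.dz.trans b, a.r1, a.r2, a.r1',
    a.r2'⟩

section level

variable {ε θ ρ κ η e α β ν T CT c k₀ K : ℝ} (h : Cn ε θ ρ κ η e α β ν T CT c k₀)
  (E : Big n ε θ ρ η α β ν T CT) (hl : Real.log n ≤ K) (hk : K ≤ k₀ * n)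

include E in
theorem npos : 0 < n := by linarith [E.n0]

include E hl in
theorem K1 : 1 ≤ K := (A1.one_le_log (by linarith [E.n0])).trans hl

include h E in
theorem kap_le : Edge.kap (wn n) ≤ 1 / 1000 := by linarith [E.kap, h.eta1]

include E hl in
theorem sc_le : 30 * sc0 n (wn n) ≤ η / 200 * (α * sL n K) := by linarith [E.sc K hl]

include h E hl in
theorem sc_le' : 30 * sc0 n (wn n) ≤ α * sL n K := by
  have h1 := sc_le E hl
  have h2 := mul_pos h.al0 (sL_pos (npos E) (by linarith [K1 E hl] : 0 < K))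
  have h3 := mul_le_mul_of_nonneg_right (show η / 200 ≤ 1 by linarith [h.eta1]) h2.le
  linarith

include h E hl hk in
theorem sL_le : sL n K ≤ T / 6 := by
  have K0 : 0 < K := by linarith [K1 E hl]
  linarith [h.sL_le_sg' (npos E) K0 hk, h.sg_le_T (npos E) K0 hk]

include h E hl hk in
theorem cnt_ge {lam : Vec n} (hR : Rigid (wn n) lam) : 16 ≤ ν * cnt lam (α * sL n K) := by
  have K0 : 0 < K := by linarith [K1 E hl]
  have s0 := sL_pos (npos E) K0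
  have s1 := sL_le h E hl hk
  have a0 := h.al0
  have a1 := h.al1
  have T1 := h.T1
  have w0 : 0 < wn n := by linarith [E.w1]
  have c0' := sc0_pos (npos E) w0
  have b0 := sc_le' h E hl
  have b1 : α * sL n K ≤ 1 / 1000 := by nlinarith
  have h1 := hR.cnt_lower (npos E) w0 (s := α * sL n K) (by linarith) (by linarith) (by linarith)
  have h2 : α ^ 2 * K ≤ n * (α * sL n K * √(α * sL n K)) :=
    le_uu_small (npos E) K0 a0.le (by linarith) le_rfl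
  have h3 : 1 / 5 ≤ c0 * (1 - 3 / 20 * (α * sL n K)) - Edge.kap (wn n) := by
    nlinarith [le_c0, c0_le, kap_le h E, mul_pos a0 s0]
  have h4 := mul_le_mul h3 h2 (by positivity) (by linarith)
  have h5 := mul_le_mul_of_nonneg_left hl (show 0 ≤ ν * α ^ 2 by have := h.nu0; positivity)
  have h6 := mul_le_mul_of_nonneg_left (h4.trans h1) h.nu0.le
  linarith [E.cn]

include h E hl hk in
theorem capNum {lam : Vec n} (hR : Rigid (wn n) lam) (hk4 : 4 * k₀ ^ (149 / 10000 : ℝ) ≤ ν)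
    {t : ℕ → ℝ} {dl R₂ K₀ : ℝ} {J : ℕ} (hp : Par t dl (α * sL n K) ρ R₂ T η η κ J)
    (hK₀ : (n : ℝ) ≤ K₀) :
    CapNum lam t (wn n) (α * sL n K) T η K₀ n (η / 200) (√ν / 2) √(ν * K) √(ν * K) CT
      (fi t (sg n K)) := by
  have K0 : 0 < K := by linarith [K1 E hl]
  have n0 : (40000 : ℝ) ≤ n := by exact_mod_cast E.n0
  have s0 := sL_pos (npos E) K0
  have s1 := h.sL_le_sg' (npos E) K0 hk
  have s2 := h.sg_le_T (npos E) K0 hk
  have w0 : 0 < wn n := by linarith [E.w1]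
  have c0' := sc0_pos (npos E) w0
  have ν0 := h.nu0
  have hc := cnt_ge h E hl hk hR
  have hc0 : 0 < cnt lam (α * sL n K) := by
    by_contra hh
    nlinarith
  refine ⟨npos E, hR, w0, kap_le h E, by linarith [sc_le' h E hl], by linarith [h.T1], by linarith,
    hK₀, by linarith, hK₀, hp.tm.fi_mono (by linarith) le_rfl, by linarith [h.eta0],
    fun k hk => ?_, hc0, ?_, Real.sqrt_nonneg _, ?_, ?_⟩
  · have h1 := h.sqrt_T (s := t k) (by linarith [Tm.lt_of_lt_fi hk])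
    linarith [E.kap, h.eta0]
  · rw [div_le_div_iff₀ (Real.sqrt_pos.2 hc0) (by norm_num), ← Real.sqrt_mul ν0.le]
    exact Real.le_sqrt_of_sq_le (by linarith)
  · have h1 := hp.tm.fi_le_add (r := sg n K) (by linarith)
    have h2 := hp.tm.le_fi (r := sg n K) (by linarith)
    have h3 := hp.dl_le
    have h4 : α * sL n K ≤ sL n K := mul_le_of_le_one_left s0.le (by linarith [h.al1])
    have h5 := hp.tm.dl_pos
    have h6 := jump_le (npos E) K0 hk (a := t (fi t (sg n K)) / 2) (b := t (fi t (sg n K)))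
      (by linarith) (by linarith) (by linarith)
    have h7 := mul_le_mul_of_nonneg_right hk4 K0.le
    rw [Real.sq_sqrt (by positivity)]
    linarith
  · have h1 : √(2 * T) ≤ 1 := Real.sqrt_le_one.2 (by linarith [h.T1])
    refine (mul_le_of_le_one_left (by positivity) h1).trans (Real.le_sqrt_of_sq_le ?_)
    exact E.ct.trans (mul_le_mul_of_nonneg_left hl ν0.le)

include h E hl hk in
/-- the planted probability of the bad paths -/
theorem bad_le {lam : Vec n} (hR : Rigid (wn n) lam) {t : ℕ → ℝ} {dl R₂ K₀ Y u τ : ℝ} {J : ℕ}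
    (hG : Grid lam t dl) (hp : Par t dl (α * sL n K) ρ R₂ T η η κ J)
    (hJ : β * sL n K ≤ T / ρ ^ J) (hJ2 : (J : ℝ) ≤ 2 * K) (hK₀ : (n : ℝ) ≤ K₀)
    (s : Sc n Y u K (fi t T)) {hh : St n → Vec n} {z : St n → ℝ} {cen : Mat n → Vec n → Vec n}
    {cc : ℕ} {r : Ref n n (St n)} {d : ℝ} (hr : r.OK (up n hG.steps) Y d) (hτ : 0 < τ)
    (hτ1 : τ ≤ 1) (hcc : cc ≤ fi t T)
    (htap : (plN n (diagonal lam) 0).real {q | ¬TapPath hG hh z cen K₀ η e K cc (fi t T) q} ≤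
      Y * ((fi t T : ℝ) + 1) ^ 2 * Real.exp (-(5 * K))) :
    (plN n (diagonal lam) 0).real {q | F.sq (Br.eS cen (Rec.trC hG q (fi t T))) ≤ CT ∧
      ¬(CapEv hG hh z cen K₀ n η e K (η / 200) (42 * (n * √(sL n K))) CT (fi t (α * sL n K))
          (wa t T ρ J) cc (fi t T) q ∧ Win hG r Y n τ T ρ κ η J q)} ≤
      u ^ 23 * Real.exp (-(5 * K)) := by
  have K0 : 0 < K := by linarith [K1 E hl]
  have n0 := s.n0
  have s0 := sL_pos (npos E) K0
  have s1 := sL_le h E hl hk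
  have w0 : 0 < wn n := by linarith [E.w1]
  have c0' := sc0_pos (npos E) w0
  have b0 := sc_le E hl
  have b1 := sc_le' h E hl
  have b2 : α * sL n K ≤ 1 / 2000 * sL n K := mul_le_mul_of_nonneg_right h.al1 s0.le
  have e0 := h.eta0
  have e1 := h.eta1
  have T1 := h.T1
  have kp := kap_le h E
  have b6 := h.be6
  have Kn := h.K_le hk
  have tN := hp.t_N_le
  have u1 : β * K ≤ Path.uu n (T / ρ ^ J) := le_uu_big (npos E) K0 (by linarith) hJ
  have u2 : β * K ≤ Path.uu n (t (wa t T ρ J)) :=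
    le_uu_big (npos E) K0 (by linarith) (hJ.trans (hp.le_wa J))
  have u3 : 6 * K ≤ β * K := mul_le_mul_of_nonneg_right b6 K0.le
  have p1 := cap_tail_site hG hR (npos E) w0 (ε := η / 200) (z := 5 * K) (k₀ := wa t T ρ J)
    (N := fi t T) (by linarith) E.kap
    (b0.trans (mul_le_mul_of_nonneg_left (hp.low.trans (hp.le_wa J)) (by linarith)))
    (tN.trans h.T_le) (by linarith) (by
      have a1 := mul_le_mul_of_nonneg_left u2 (sq_nonneg (η / 200))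
      have a2 := mul_le_mul_of_nonneg_right h.be K0.le
      linarith)
  have p2 := ybd_tail hG (by linarith [E.n0]) (fun a => by linarith [hR.le_eps a])
    (N := fi t T) (by linarith) (diagonal lam) 0
  have p3 := box_tail (diagonal lam) (0 : Vec n) (by linarith [E.n0]) (fi t T)
  have p4 := mass_tail (t := t) hR (npos E) w0 (by linarith) (s := sL n K) (z := 5 * K)
    (by linarith) (by linarith) (by linarith)
    (by have := uu_sL (npos E) K0; unfold Path.uu at this; linarith)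
    (k₀ := fi t (α * sL n K)) (by linarith [hp.t_k0_le])
  have p5 := win_tail hG hR (npos E) w0 (by linarith) hp (by linarith) h.kr (ε := η / 200)
    (by linarith) (by linarith) (hp.k0_le_wa le_rfl) le_rfl le_rfl
    (Ψ := fun b s x ω => r.W (up n hG.steps) Y n τ (fi t T - b) s x ω)
    (fun b x => meas_refW hG hr (Nat.cast_nonneg n) hτ hτ1 (fi t T) b x) (x := 5 * K)
    (by linarith) (by linarith)
  have x1 : Real.exp (-(n : ℝ)) ≤ Real.exp (-(5 * K)) := Real.exp_le_exp.2 (by linarith)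
  have p2' := p2.trans (mul_le_mul_of_nonneg_left x1 (by positivity))
  have p3' := p3.trans (mul_le_mul_of_nonneg_left x1 (by positivity))
  refine le_trans ?_ (s.tot (J := J) (by linarith) (Real.exp_pos (-(5 * K))).le)
  refine (Tail.real_or_le _ (r := fun q => _ ∨ _ ∨ _ ∨ _ ∨ _) ?_).trans (add_le_add htap
    ((Tail.real_or_le _ fun _ hq => hq).trans (add_le_add p1
    ((Tail.real_or_le _ fun _ hq => hq).trans (add_le_add p2'
    ((Tail.real_or_le _ fun _ hq => hq).trans (add_le_add p3'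
    ((Tail.real_or_le _ fun _ hq => hq).trans (add_le_add p4 p5)))))))))
  intro q hq
  by_contra hc
  simp only [not_or, not_not, not_and] at hc
  obtain ⟨q1, q2, q3, q4, q5, q6⟩ := hc
  exact hq.2 ⟨⟨q1, q2, fun k _ k2 => (q3 k (by omega)).trans hK₀, fun k _ k2 => q4 k k2, q5, hq.1⟩,
    q6 q2⟩

end level

end Vale.Agent.N150.M0G
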