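import Vale.Agent.N150.AsmEv
import Vale.Agent.N150.CapMain
import Vale.Agent.N150.AsmCn

/-! P150 at the critical point: the good event of the cap flow under the planted law. -/

open Matrix MeasureTheory

namespace Vale.Agent.N150.Asm

open Vale.Agent.P150 Vale.Agent.P150.F Vale.Agent.N150.Sp Vale.Agent.N150.Cap
  Vale.Agent.N150.Rec Vale.Agent.N150.Edge Vale.Agent.N150.Plant

variable {n : ℕ} {lam : Vec n} {t : ℕ → ℝ} {dl w : ℝ} {h : St n → Vec n} {z : St n → ℝ}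
  {cen : Mat n → Vec n → Vec n}

/-- union bound for the good event, apart from the terminal bound -/
theorem capEv_tail (hG : Grid lam t dl) (hR : Rigid w lam) (hn : 14 ≤ n) (hw : 0 < w)
    {K₀ L η e Kl ε X0 CT s x a : ℝ} {k0 b c N : ℕ}
    (hε : ε ≤ 1 / 1000) (hk : 20 * Edge.kap w ≤ ε) (h0 : 30 * sc0 n w ≤ ε * t b) (hN : t N ≤ ε)
    (hx : 0 ≤ x) (hx1 : x ≤ ε ^ 2 * Path.uu n (t b)) (hs : 20 * sc0 n w ≤ s) (hs1 : s ≤ 1 / 16)
    (hx2 : x ≤ 6 * (n * (s * √s))) (ht : t k0 ≤ s - 2 * sc0 n w) (hX : 42 * (n * √s) ≤ X0)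
    (hK : (n : ℝ) ≤ K₀) (hL : (n : ℝ) ≤ L) (hc : c ≤ N)
    (ha : (plN n (diagonal lam) 0).real {q | ¬TapPath hG h z cen K₀ η e Kl c N q} ≤ a) :
    (plN n (diagonal lam) 0).real {q | F.sq (Br.eS cen (trC hG q N)) ≤ CT ∧
      ¬CapEv hG h z cen K₀ L η e Kl ε X0 CT k0 b c N q} ≤
      a + 35000 * n ^ 8 * (N + 1) ^ 2 * Real.exp (-x) := by
  have h14 : (14 : ℝ) ≤ n := by exact_mod_cast hn
  have n0 : 0 < n := by omega
  have s0 : 0 < sc0 n w := mul_pos hw (Real.rpow_pos_of_pos (by linarith) _)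
  have hl : ∀ a, lam a ≤ 5 / 2 := fun a => by
    have b1 : lam a ≤ 2 + sc0 n w := (hR.1 a).2
    linarith
  have xn : x ≤ n := by
    have b1 : √s ≤ 1 := Real.sqrt_le_one.2 (by linarith)
    have b2 : s * √s ≤ 1 / 16 * 1 := mul_le_mul hs1 b1 (Real.sqrt_nonneg _) (by norm_num)
    have b3 := mul_le_mul_of_nonneg_left b2 (show (0 : ℝ) ≤ n by linarith)
    linarith
  have e1 := cap_tail_site hG hR n0 hw hε hk h0 hN hx hx1
  have e2 := ybd_tail hG hn hl (N := N) (by linarith) (diagonal lam) 0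
  have e3 := box_tail (diagonal lam) 0 (by omega : 6 ≤ n) N
  have e4 := mass_tail (t := t) hR n0 hw (by linarith) hs hs1 hx hx2 ht
  have key : (plN n (diagonal lam) 0).real {q | F.sq (Br.eS cen (trC hG q N)) ≤ CT ∧
      ¬CapEv hG h z cen K₀ L η e Kl ε X0 CT k0 b c N q} ≤ a + (_ + (_ + (_ + _))) :=
    (Tail.real_or_le _ fun q hq => by
      by_contra hc'
      simp only [not_or, not_not] at hc'
      obtain ⟨c1, c2, c3, c4, c5⟩ := hc'
      exact hq.2 ⟨c1, c2, fun k _ b2 => (c3 k (b2.le.trans hc)).trans hK,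
        fun k _ b2 j => (c4 k b2 j).trans hL, c5.trans hX, hq.1⟩).trans
      (add_le_add ha ((Tail.real_or_le _ fun _ hq => hq).trans (add_le_add e1
        ((Tail.real_or_le _ fun _ hq => hq).trans (add_le_add e2
          ((Tail.real_or_le _ fun _ hq => hq).trans (add_le_add e3 e4)))))))
  refine key.trans (add_le_add le_rfl ?_)
  have b1 : Real.exp (-(n : ℝ)) ≤ Real.exp (-x) := Real.exp_le_exp.2 (by linarith)
  have b2 : (1 : ℝ) ≤ n ^ 8 := one_le_pow₀ (by linarith)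
  have b3 : (0 : ℝ) ≤ N := Nat.cast_nonneg N
  have b4 := Real.exp_pos (-x)
  have b5 : (N : ℝ) + 1 ≤ n ^ 8 * (N + 1) ^ 2 := by nlinarith
  have b6 : (n : ℝ) ^ 8 ≤ n ^ 8 * (N + 1) ^ 2 := le_mul_of_one_le_right (by linarith) (by nlinarith)
  have b7 := mul_le_mul b5 b1 (Real.exp_pos _).le (by positivity)
  have b8 := mul_le_mul_of_nonneg_right b6 b4.le
  have b9 := Real.exp_pos (-(n : ℝ))
  have b10 : 0 ≤ (n : ℝ) ^ 8 * (N + 1) ^ 2 * Real.exp (-x) := by positivity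
  linarith

/-- the same on a schedule, together with the window events -/
theorem capWin_tail (hG : Grid lam t dl) (hR : Rigid w lam) (hn : 14 ≤ n) (hw : 0 < w)
    {dl' sK ρ R₂ T η' η₁ κ : ℝ} {J : ℕ} (hp : Par t dl' sK ρ R₂ T η' η₁ κ J)
    {K₀ L η e Kl ε X0 CT s x a : ℝ} {c : ℕ} {r : Ref n n (St n)} {K d τ : ℝ}
    (hr : r.OK (up n hG.steps) K d) (hτ : 0 < τ) (hτ1 : τ ≤ 1)
    (hκ : 2300 ≤ κ ^ 2 * (ρ * √ρ)) (hη : 81 * ε ≤ η₁) (hsK : sc0 n w ≤ sK)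
    (hε : ε ≤ 1 / 1000) (hk : 20 * Edge.kap w ≤ ε) (h0 : 30 * sc0 n w ≤ ε * (T / ρ ^ J))
    (hN : 2 * T ≤ ε) (hx : 0 ≤ x) (hx1 : x ≤ ε ^ 2 * Path.uu n (T / ρ ^ J))
    (hs : 20 * sc0 n w ≤ s) (hs1 : s ≤ 1 / 16) (hx2 : x ≤ 6 * (n * (s * √s)))
    (ht : 2 * sK ≤ s - 2 * sc0 n w) (hX : 42 * (n * √s) ≤ X0)
    (hK : (n : ℝ) ≤ K₀) (hL : (n : ℝ) ≤ L) (hc : c ≤ fi t T)
    (ha : (plN n (diagonal lam) 0).real {q | ¬TapPath hG h z cen K₀ η e Kl c (fi t T) q} ≤ a) :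
    (plN n (diagonal lam) 0).real {q | F.sq (Br.eS cen (trC hG q (fi t T))) ≤ CT ∧
      ¬(CapEv hG h z cen K₀ L η e Kl ε X0 CT (fi t sK) (wa t T ρ J) c (fi t T) q ∧
        Win hG r K L τ T ρ κ η₁ J q)} ≤
      a + (35000 * n ^ 8 * (fi t T + 1) ^ 2 + 2 * J) * Real.exp (-x) := by
  have n0 : 0 < n := by omega
  have k0 : 0 < Edge.kap w := Real.rpow_pos_of_pos hw _
  have u0 : 0 < T / ρ ^ J := hp.sK_pos.trans_le hp.low
  have u1 : 0 ≤ Path.uu n (T / ρ ^ J) := by unfold Path.uu; positivity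
  have e1 := capEv_tail hG hR hn hw (L := L) (CT := CT) (k0 := fi t sK) (b := wa t T ρ J) hε hk
    (h0.trans (mul_le_mul_of_nonneg_left (hp.le_wa J) (by linarith))) (hp.t_N_le.trans hN) hx
    (hx1.trans (mul_le_mul_of_nonneg_left (Path.uu_mono n u0.le (hp.le_wa J)) (sq_nonneg ε)))
    hs hs1 hx2 (hp.t_k0_le.trans ht) hX hK hL hc ha
  have e2 := win_tail hG hR n0 hw (by linarith) hp hsK hκ hε hη (hp.k0_le_wa le_rfl) le_rfl le_rfl
    (Ψ := fun k s x ω => r.W (up n hG.steps) K L τ (fi t T - k) s x ω)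
    (fun b x => meas_refW hG hr ((Nat.cast_nonneg n).trans hL) hτ hτ1 (fi t T) b x) hx
    (hx1.trans (mul_le_of_le_one_left u1 (pow_le_one₀ (by linarith) (by linarith))))
  refine (Tail.real_or_le _ fun q hq => ?_).trans ((add_le_add e1 e2).trans (le_of_eq (by ring)))
  by_cases hE : CapEv hG h z cen K₀ L η e Kl ε X0 CT (fi t sK) (wa t T ρ J) c (fi t T) q
  · exact Or.inr ⟨hE.good, fun hW => hq.2 ⟨hE, hW⟩⟩
  · exact Or.inl ⟨hq.1, hE⟩

/-- the planted bound at the level `K` with the constants of the assembly -/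
theorem Cn.lev_tail {ε θ ρ κ η e α β ν T CT c₀ k₀ : ℝ} (hC : Cn ε θ ρ κ η e α β ν T CT c₀ k₀)
    (hG : Grid lam t dl) (hR : Rigid w lam) (hn : 14 ≤ n) (hw : 0 < w) {K dl' R₂ : ℝ} {J : ℕ}
    (hK : 1 ≤ K) (hk : K ≤ k₀ * n) (hp : Par t dl' (α * sL n K) ρ R₂ T η η κ J)
    (hJ : β * sL n K ≤ T / ρ ^ J) (hJ2 : (J : ℝ) ≤ 2 * K) (hsc : sc0 n w ≤ α * sL n K)
    (hkap : 20 * Edge.kap w ≤ η / 200) {K₀ L η' e' Kl CT' a : ℝ} {c : ℕ}
    {r : Ref n n (St n)} {K₁ d τ : ℝ} (hr : r.OK (up n hG.steps) K₁ d) (hτ : 0 < τ)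
    (hτ1 : τ ≤ 1) (hK₀ : (n : ℝ) ≤ K₀) (hL : (n : ℝ) ≤ L) (hc : c ≤ fi t T)
    (ha : (plN n (diagonal lam) 0).real {q | ¬TapPath hG h z cen K₀ η' e' Kl c (fi t T) q} ≤ a) :
    (plN n (diagonal lam) 0).real {q | F.sq (Br.eS cen (trC hG q (fi t T))) ≤ CT' ∧
      ¬(CapEv hG h z cen K₀ L η' e' Kl (η / 200) (42 * (n * √(sL n K))) CT' (fi t (α * sL n K))
          (wa t T ρ J) c (fi t T) q ∧ Win hG r K₁ L τ T ρ κ η J q)} ≤
      a + 36000 * n ^ 8 * (fi t T + 1) ^ 2 * Real.exp (-(5 * K)) := by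
  have h14 : (14 : ℝ) ≤ n := by exact_mod_cast hn
  have n0 : 0 < n := by omega
  have K0 : 0 < K := by linarith
  have s0 := sL_pos n0 K0
  have a1 := mul_le_mul_of_nonneg_right hC.al1 s0.le
  have e0 := hC.eta0
  have e1 := hC.eta1
  have b6 := hC.be6
  have u : (n : ℝ) * (sL n K * √(sL n K)) = K := uu_sL n0 K0
  have c1 : 6 ≤ η / 200 * β := by nlinarith [hC.be]
  have c2 : 30 * sc0 n w ≤ η / 200 * (T / ρ ^ J) := by
    have d1 := mul_le_mul_of_nonneg_left hJ (show 0 ≤ η / 200 by linarith)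
    have d2 := mul_le_mul_of_nonneg_right c1 s0.le
    linarith
  have c3 : 5 * K ≤ (η / 200) ^ 2 * Path.uu n (T / ρ ^ J) := by
    have d1 := Path.uu_mono n (by positivity) hJ
    have d2 : √(sL n K) ≤ √(β * sL n K) := Real.sqrt_le_sqrt (by nlinarith)
    have d3 : β * K ≤ Path.uu n (β * sL n K) := by
      have d4 := mul_le_mul_of_nonneg_left d2 (show 0 ≤ n * (β * sL n K) by positivity)
      have d7 : β * (n * (sL n K * √(sL n K))) = β * K := by rw [u]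
      unfold Path.uu
      linarith
    have d5 := mul_le_mul_of_nonneg_left (d3.trans d1) (sq_nonneg (η / 200))
    have d6 := mul_le_mul_of_nonneg_right hC.be K0.le
    linarith
  have c4 : sL n K ≤ 1 / 16 := by
    linarith [hC.sL_le_sg' n0 K0 hk, hC.sg_le_T n0 K0 hk, hC.T1]
  refine (capWin_tail hG hR hn hw hp hr hτ hτ1 hC.kr (by linarith) hsc (by linarith) hkap c2
    hC.T_le (by linarith) c3 (s := sL n K) (by linarith) c4 (by linarith) (by linarith) le_rfl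
    hK₀ hL hc ha).trans (add_le_add le_rfl (mul_le_mul_of_nonneg_right ?_ (Real.exp_pos _).le))
  have b1 := hC.K_le hk
  have b2 : (n : ℝ) ≤ n ^ 8 := le_self_pow₀ (by linarith) (by norm_num)
  have b3 : (0 : ℝ) ≤ fi t T := Nat.cast_nonneg _
  have b4 : (n : ℝ) ^ 8 ≤ n ^ 8 * (fi t T + 1) ^ 2 :=
    le_mul_of_one_le_right (by positivity) (by nlinarith)
  linarith

end Vale.Agent.N150.Asm
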