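import Vale.Agent.N150.AsmCn
import Vale.Agent.N150.AsmT
import Vale.Agent.N150.AsmEv
import Vale.Agent.N150.CapMain

/-! P150 at the critical point: the numerical facts and the planted bound at one level. -/

open Matrix MeasureTheory Filter Topology Finset

namespace Vale.Agent.N150.Asm

open Vale.Agent.P150 Vale.Agent.P150.F Vale.Agent.N150.Sp Vale.Agent.N150.Cap
  Vale.Agent.N150.Rec Vale.Agent.N150.Edge Vale.Agent.N150.Plant

/-- the facts which hold in large dimension -/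
structure Ev (ε θ ρ η α β ν T CT c : ℝ) (u n : ℕ) : Prop where
  big : (35000 : ℝ) ≤ n
  lg : 1 ≤ Real.log n
  w1 : 1 ≤ wn n
  kap : 20 * Edge.kap (wn n) ≤ η / 200
  sc1 : sc0 n (wn n) ≤ 1 / 2
  sc : ∀ K : ℝ, Real.log n ≤ K → sc0 n (wn n) ≤ α * η / 6000 * sL n K
  Tn : 1 ≤ T * n
  th : 36 ≤ θ * Real.log n
  al : 1000 ≤ α * n
  ea : 2 ≤ η * α * n
  cn : 96 ≤ ν * α ^ 2 * Real.log n
  ct : 4 * CT ≤ ν * Real.log n
  ex : 6 * (n : ℝ) ^ 3 ≤ Real.exp (c / 2 * n)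
  ex1 : 8 * (n : ℝ) ^ (2 * u + 1) ≤ Real.exp (1 * n)
  k0 : 9 * A1.K0 ≤ n
  nu : 4 ≤ √ν * n
  lin : Cn.cL ρ α β * (n : ℝ) ^ (2 / 3 * (1 + 4 * η)) * CT ≤ (n : ℝ) ^ (2 / 3 + ε) ∧
    Cn.cL ρ α β * (n : ℝ) ^ (2 / 3 * (1 + 4 * η)) ≤ (n : ℝ) ^ 2

variable {ε θ ρ κ η e α β ν T CT c k₀ : ℝ}

theorem Cn.ev (h : Cn ε θ ρ κ η e α β ν T CT c k₀) (u : ℕ) :
    ∀ᶠ n : ℕ in atTop, Ev ε θ ρ η α β ν T CT c u n := by
  have e0 := h.eta0
  have a0 := h.al0
  have n0 := h.nu0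
  have θ0 : 0 < θ := by linarith [h.alt]
  filter_upwards [ev_nat 35000, ev_lg 1, ev_wn_ge 1, ev_kap_le (c := η / 4000) (by positivity),
    ev_sc0_le (c := 1 / 2) (by norm_num), ev_sc0 (c := α * η / 6000) (by positivity),
    ev_mul_nat h.T0 1, ev_mul_lg θ0 36, ev_mul_nat a0 1000, ev_mul_nat (mul_pos e0 a0) 2,
    ev_mul_lg (a := ν * α ^ 2) (by positivity) 96, ev_mul_lg n0 (4 * CT),
    ev_ex (half_pos h.c0) 6 3, ev_ex one_pos 8 (2 * u + 1), ev_nat (9 * A1.K0),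
    ev_mul_nat (Real.sqrt_pos.2 n0) 4, h.ev_lin] with n b1 b2 b3 b4 b5 b6 b7 b8 b9 b10 b11 b12 b13
    b14 b15 b16 b17
  exact ⟨b1, b2, b3, by linarith, b5, b6, b7, b8, b9, b10, b11, b12, b13, b14, b15, b16, b17⟩

variable {n : ℕ} {lam : Vec n} {t : ℕ → ℝ} {dl : ℝ}

/-- the grid which serves all levels -/
theorem exists_gr {w X : ℝ} (hR : Rigid w lam) (h0 : 0 ≤ sc0 n w) (h1 : sc0 n w ≤ 1 / 2)
    (hT : 0 < T) (hT1 : T ≤ 1 / 2) (hn : (n : ℝ) ≤ X) (hX : 2 ≤ X) :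
    ∃ t : ℕ → ℝ, Grid lam t (X ^ 16)⁻¹ ∧ Tm t (X ^ 16)⁻¹ T ∧ t 0 = -sc0 n w ∧
      (fi t T : ℝ) + 1 ≤ 3 * X ^ 16 := by
  have h2 : X ≤ X ^ 16 := le_self_pow₀ (by linarith) (by norm_num)
  obtain ⟨t, N, g1, g2, g3, -, -, g4⟩ := exists_grid lam (dl := (X ^ 16)⁻¹) (s0 := -sc0 n w)
    (T := T) (by positivity) (inv_le_one_of_one_le₀ (by linarith))
    (fun a => by have := (hR.1 a).2; unfold sc0; linarith) (by linarith)
  refine ⟨t, g1, ⟨g1.lt, g1.le, by linarith, N, g3⟩, g2, ?_⟩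
  have h3 : (fi t T : ℝ) ≤ N := by exact_mod_cast Tm.fi_le g3
  rw [div_inv_eq_mul] at g4
  have h4 := mul_le_mul_of_nonneg_right (show T - -sc0 n w ≤ 1 by linarith)
    (show 0 ≤ X ^ 16 by positivity)
  linarith

theorem TapPath.mono {hG : Grid lam t dl} {h : St n → Vec n} {z : St n → ℝ}
    {cen : Mat n → Vec n → Vec n} {K₀ K₁ η e K : ℝ} {c N : ℕ}
    {q : (OG n × Cfg n) × (ℕ → Vec n)} (H : TapPath hG h z cen K₀ η e K c N q) (h0 : 0 ≤ K₀)
    (hK : K₀ ≤ K₁) : TapPath hG h z cen K₁ η e K c N q := by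
  refine ⟨fun k h1 h2 => ?_, H.t1, H.ka, H.jump, H.cen⟩
  have b := H.st k h1 h2
  have b1 := mul_le_mul_of_nonneg_right (pow_le_pow_left₀ h0 hK 4)
    (Real.sqrt_nonneg (t (k + 1) - t k))
  exact ⟨b.loc.mono hK, b.loc'.mono hK, fun i => (b.dh i).trans b1, b.dz.trans b1, b.r1, b.r2,
    b.r1', b.r2'⟩

theorem cnt_ge {w s : ℝ} (h : Rigid w lam) (hn : 0 < n) (hw : 0 < w) (hk : Edge.kap w ≤ 1 / 100)
    (hs : sc0 n w ≤ s) (hs1 : s ≤ 1) : 1 / 6 * Path.uu n s ≤ cnt lam s := by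
  have u1 := le_uu hn hw hk hs
  refine le_trans ?_ (h.cnt_lower hn hw hs (by linarith) (by linarith))
  refine mul_le_mul_of_nonneg_right ?_ (show 0 ≤ Path.uu n s by linarith)
  have h3 : c0 * (17 / 20) ≤ c0 * (1 - 3 / 20 * s) :=
    mul_le_mul_of_nonneg_left (by linarith) c0_pos.le
  linarith [le_c0]

theorem union6 {Ω : Type*} [MeasurableSpace Ω] (μ : Measure Ω) [IsFiniteMeasure μ]
    {p a b c d e f : Ω → Prop} (h : ∀ w, p w → a w ∨ b w ∨ c w ∨ d w ∨ e w ∨ f w) :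
    μ.real {w | p w} ≤ μ.real {w | a w} + (μ.real {w | b w} + (μ.real {w | c w} +
      (μ.real {w | d w} + (μ.real {w | e w} + μ.real {w | f w})))) :=
  (Tail.real_or_le μ h).trans (add_le_add le_rfl ((Tail.real_or_le μ fun _ h => h).trans
    (add_le_add le_rfl ((Tail.real_or_le μ fun _ h => h).trans (add_le_add le_rfl
      ((Tail.real_or_le μ fun _ h => h).trans (add_le_add le_rfl
        (Tail.real_or_le μ fun _ h => h))))))))

theorem sum6 {m X N A J E E' : ℝ} (h1 : 35000 ≤ m) (hX : m ≤ X) (h0 : 0 ≤ N) (hN : N + 1 ≤ X ^ 17)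
    (hA : A ≤ X) (hJ : J ≤ X) (hE : 0 ≤ E) (hE' : E' ≤ E) :
    A * (N + 1) ^ 2 * E + (31500 * m ^ 8 * (N + 1) ^ 2 * E + (2 * J * E + ((N + 1) * E' +
      (N * E' + 3000 * m ^ 8 * E)))) ≤ X ^ 43 * E := by
  have x1 : 1 ≤ X := by linarith
  have p : ∀ i, i ≤ 42 → X ^ i ≤ X ^ 42 := fun i hi => pow_le_pow_right₀ x1 hi
  have b1 : (N + 1) ^ 2 ≤ X ^ 34 := by
    rw [show X ^ 34 = (X ^ 17) ^ 2 by ring]; exact pow_le_pow_left₀ (by linarith) hN 2
  have b2 : m ^ 8 ≤ X ^ 8 := pow_le_pow_left₀ (by linarith) hX 8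
  have b3 : A * (N + 1) ^ 2 ≤ X ^ 35 := by
    rw [show X ^ 35 = X * X ^ 34 by ring]; exact mul_le_mul hA b1 (by positivity) (by linarith)
  have b4 : m ^ 8 * (N + 1) ^ 2 ≤ X ^ 42 := by
    rw [show X ^ 42 = X ^ 8 * X ^ 34 by ring]; exact mul_le_mul b2 b1 (by positivity) (by positivity)
  have b5 : 35000 * X ^ 42 ≤ X ^ 43 := by
    rw [show X ^ 43 = X * X ^ 42 by ring]
    exact mul_le_mul_of_nonneg_right (by linarith) (by positivity)
  have b6 := p 1 (by norm_num)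
  rw [pow_one] at b6
  have b7 : A * (N + 1) ^ 2 + 31500 * (m ^ 8 * (N + 1) ^ 2) + 2 * J + (N + 1) + N + 3000 * m ^ 8
      ≤ X ^ 43 := by linarith [p 35 (by norm_num), p 17 (by norm_num), p 8 (by norm_num)]
  have b8 := mul_le_mul_of_nonneg_right b7 hE
  have b9 := mul_le_mul_of_nonneg_left hE' h0
  linarith

/-- the size of the remainder constant -/
theorem B_le {m X N s : ℝ} (h1 : 35000 ≤ m) (hX : m ≤ X) (h0 : 0 ≤ N) (hN : N ≤ X ^ 17)
    (hs0 : 0 ≤ s) (hs : s ≤ m ^ 2) :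
    6 * (m + 1) * (s ^ 16 * (1 + ((1 + X) * √m + N *
      ((2 * X + ((X * X)⁻¹)⁻¹ * (1 + X) + 2 * (1 + m + m ^ 2)) * √m)) ^ 2)) * (N * 2) * (3 * m)
      ≤ X ^ 100 := by
  have x1 : 35000 ≤ X := by linarith
  have x0 : 0 < X := by linarith
  have r1 : √m ≤ X := Real.sqrt_le_iff.2 ⟨x0.le, by nlinarith⟩
  have r0 := Real.sqrt_nonneg m
  have q : ∀ i, 35000 * X ^ i ≤ X ^ (i + 1) := fun i => by
    rw [pow_succ']; exact mul_le_mul_of_nonneg_right x1 (by positivity)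
  have m2 : m ^ 2 ≤ X ^ 2 := pow_le_pow_left₀ (by linarith) hX 2
  have b1 : s ^ 16 ≤ X ^ 32 := by
    rw [show X ^ 32 = (X ^ 2) ^ 16 by ring]; exact pow_le_pow_left₀ hs0 (hs.trans m2) 16
  have b2 : 2 * X + ((X * X)⁻¹)⁻¹ * (1 + X) + 2 * (1 + m + m ^ 2) ≤ X ^ 4 := by
    rw [inv_inv]
    have a0 := q 0
    have a1 := q 1
    have a2 := q 2
    have a3 := q 3
    norm_num at a0 a1 a2 a3
    nlinarith
  have b3 : N * ((2 * X + ((X * X)⁻¹)⁻¹ * (1 + X) + 2 * (1 + m + m ^ 2)) * √m) ≤ X ^ 22 := by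
    rw [show X ^ 22 = X ^ 17 * (X ^ 4 * X) by ring]
    exact mul_le_mul hN (mul_le_mul b2 r1 r0 (by positivity)) (by positivity) (by positivity)
  have b4 : (1 + X) * √m ≤ X ^ 22 := by
    have a1 : (1 + X) * √m ≤ (2 * X) * X := mul_le_mul (by linarith) r1 r0 (by positivity)
    have a2 := q 2
    have a3 : X ^ (2 + 1) ≤ X ^ 22 := pow_le_pow_right₀ (by linarith) (by norm_num)
    nlinarith
  have b5 : 1 + ((1 + X) * √m + N *
      ((2 * X + ((X * X)⁻¹)⁻¹ * (1 + X) + 2 * (1 + m + m ^ 2)) * √m)) ^ 2 ≤ X ^ 45 := by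
    have a1 := pow_le_pow_left₀ (by positivity) (add_le_add b4 b3) 2
    have a2 : 35000 * X ^ 44 ≤ X ^ 45 := q 44
    have a3 : 1 ≤ X ^ 44 := one_le_pow₀ (by linarith)
    have a4 : (X ^ 22 + X ^ 22) ^ 2 = 4 * X ^ 44 := by ring
    exact (add_le_add a3 (a1.trans a4.le)).trans (by linarith only [a2, a3])
  have b6 := mul_le_mul b1 b5 (by positivity) (by positivity)
  have b7 : 6 * (m + 1) ≤ X ^ 2 := by nlinarith
  have b8 : N * 2 ≤ X ^ 18 := by
    have a2 : 35000 * X ^ 17 ≤ X ^ 18 := q 17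
    linarith only [a2, hN, h0]
  have b9 : 3 * m ≤ X ^ 2 := by nlinarith
  calc _ ≤ X ^ 2 * (X ^ 32 * X ^ 45) * X ^ 18 * X ^ 2 :=
        mul_le_mul (mul_le_mul (mul_le_mul b7 b6 (by positivity) (by positivity)) b8
          (by positivity) (by positivity)) b9 (by linarith) (by positivity)
    _ = X ^ 99 := by ring
    _ ≤ _ := pow_le_pow_right₀ (by linarith) (by norm_num)

theorem sqrt_dl {X : ℝ} (hX : 0 < X) : √(X ^ 16)⁻¹ = (X ^ 8)⁻¹ := by
  rw [Real.sqrt_inv, show X ^ 16 = (X ^ 8) ^ 2 by ring, Real.sqrt_sq (by positivity)]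

/-- the discretisation error -/
theorem disc_le {m X N A : ℝ} (h1 : 1 ≤ m) (hX : m ≤ X) (hN : N ≤ 3 * X ^ 16) (hA0 : 0 ≤ A)
    (hA : 9 * A ≤ m) : N * (A * (m * m) ^ 3 * ((X ^ 16)⁻¹ * √(X ^ 16)⁻¹)) ≤ 1 / m / 3 := by
  have x0 : 0 < X := by linarith
  have m0 : 0 < m := by linarith
  rw [sqrt_dl x0]
  have b1 : (X ^ 8)⁻¹ ≤ (m ^ 8)⁻¹ := inv_anti₀ (by positivity) (pow_le_pow_left₀ m0.le hX 8)
  calc _ ≤ 3 * X ^ 16 * (m / 9 * (m * m) ^ 3 * ((X ^ 16)⁻¹ * (m ^ 8)⁻¹)) := by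
        gcongr
        linarith
    _ = _ := by field_simp; norm_num

/-- the error of the drift -/
theorem drift_le {m X r : ℝ} (h1 : 12 ≤ m) (hX : m ≤ X) (he : 8 * (X ^ 2 * m) ≤ Real.exp m)
    (hr : 4 ≤ r * m) :
    r / 2 + (X * √(X ^ 16)⁻¹ + 8 * X * Real.exp (m / 2 - m ^ 2 / 8)) * √m ≤ r := by
  have x0 : 0 < X := by linarith
  have m0 : 0 < m := by linarith
  have r1 : √m ≤ X := Real.sqrt_le_iff.2 ⟨x0.le, by nlinarith⟩
  have b1 : X * (X ^ 8)⁻¹ * X ≤ m⁻¹ := by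
    rw [show X * (X ^ 8)⁻¹ * X = (X ^ 6)⁻¹ by field_simp]
    exact inv_anti₀ m0 (hX.trans (le_self_pow₀ (by linarith) (by norm_num)))
  have b2 : Real.exp (m / 2 - m ^ 2 / 8) ≤ (8 * (X ^ 2 * m))⁻¹ := by
    refine le_trans (Real.exp_le_exp.2 (show _ ≤ -m by nlinarith)) ?_
    rw [Real.exp_neg]
    exact inv_anti₀ (by positivity) he
  have b3 : 8 * X * Real.exp (m / 2 - m ^ 2 / 8) * X ≤ m⁻¹ := by
    refine le_trans (mul_le_mul_of_nonneg_right (mul_le_mul_of_nonneg_left b2 (by positivity))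
      x0.le) (le_of_eq ?_)
    field_simp
  have b4 : 4 * m⁻¹ ≤ r := by rw [← div_eq_mul_inv, div_le_iff₀ m0]; exact hr
  rw [sqrt_dl x0]
  have b5 := mul_le_mul_of_nonneg_left r1
    (show 0 ≤ X * (X ^ 8)⁻¹ + 8 * X * Real.exp (m / 2 - m ^ 2 / 8) by positivity)
  linarith

section level

variable {u J : ℕ} {K : ℝ} (h : Cn ε θ ρ κ η e α β ν T CT c k₀) (v : Ev ε θ ρ η α β ν T CT c u n)
  (hl : Real.log n ≤ K) (hk : K ≤ k₀ * n)

include v

theorem Ev.npos : 0 < n := by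
  have := v.big
  exact_mod_cast (show (0 : ℝ) < n by linarith)

theorem Ev.wpos : 0 < wn n := one_pos.trans_le v.w1

include hl

theorem Ev.K1 : 1 ≤ K := v.lg.trans hl

theorem Ev.sL0 : 0 < sL n K := sL_pos v.npos (by linarith [v.K1 hl])

include h

theorem Ev.sc' : 6000 * sc0 n (wn n) ≤ α * sL n K := by
  have h1 := v.sc K hl
  have h2 := mul_le_mul_of_nonneg_right h.eta1 (mul_pos h.al0 (v.sL0 hl)).le
  have h3 := mul_pos h.al0 (v.sL0 hl)
  nlinarith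

theorem Ev.sc_le : sc0 n (wn n) ≤ α * sL n K := by
  linarith [v.sc' h hl, sc0_pos v.npos v.wpos]

theorem Ev.M0 : (√CT + 1) ^ 2 ≤ ν * K := by
  have h1 : 1 ≤ √CT := Real.one_le_sqrt.2 h.CT1
  have h2 := Real.sq_sqrt (show 0 ≤ CT by linarith [h.CT1])
  have h3 := mul_le_mul_of_nonneg_left hl h.nu0.le
  nlinarith [v.ct]

include hk

theorem Ev.sL_le : 6 * sL n K ≤ T := by
  have K0 : 0 < K := by linarith [v.K1 hl]
  linarith [h.sL_le_sg' v.npos K0 hk, h.sg_le_T v.npos K0 hk]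

theorem Ev.capNum (hR : Rigid (wn n) lam)
    (hp : Par t dl (α * sL n K) ρ (2 * ρ * β / α) T η η κ J) {K₀ : ℝ} (hK : (n : ℝ) ≤ K₀) :
    CapNum lam t (wn n) (α * sL n K) T η K₀ n (η / 200) (√ν / 2) √(ν * K) (√CT + 1) CT
      (fi t (sg n K)) := by
  have K0 : 0 < K := by linarith [v.K1 hl]
  have s0 := v.sL0 hl
  have s1 := h.sL_le_sg' v.npos K0 hk
  have s2 := h.sg_le_T v.npos K0 hk
  have s3 := h.T1
  have a0 := h.al0
  have a1 := h.al1
  have e0 := h.eta0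
  have e1 := h.eta1
  have n0 := h.nu0
  have k1 := v.kap
  have s4 : α * sL n K ≤ sL n K := mul_le_of_le_one_left s0.le (by linarith)
  have c1 := cnt_ge hR v.npos v.wpos (by linarith) (v.sc_le h hl) (by linarith)
  have c2 := le_uu_small v.npos K0 a0.le (by linarith) (le_refl (α * sL n K))
  have c3 : 16 ≤ ν * cnt lam (α * sL n K) := by
    have b1 := mul_le_mul_of_nonneg_left hl (show 0 ≤ ν * α ^ 2 by positivity)
    have b2 := mul_le_mul_of_nonneg_left (show α ^ 2 * K ≤ 6 * cnt lam (α * sL n K) by linarith)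
      n0.le
    linarith [v.cn]
  have c4 : 0 < cnt lam (α * sL n K) := pos_of_mul_pos_left (by linarith) n0.le |> fun x => x
  refine ⟨v.npos, hR, v.wpos, by linarith, v.sc_le h hl, by linarith, by linarith [v.big], hK,
    Nat.cast_nonneg n, hK, hp.tm.fi_mono (by linarith) le_rfl, by linarith, fun k hk => ?_, c4, ?_,
    Real.sqrt_nonneg _, ?_, ?_⟩
  · have b1 := h.sqrt_T (s := t k) (by linarith [Tm.lt_of_lt_fi hk])
    linarith
  · rw [div_le_div_iff₀ (Real.sqrt_pos.2 c4) two_pos, ← Real.sqrt_mul n0.le]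
    exact Real.le_sqrt_of_sq_le (by linarith)
  · have b1 := hp.tm.fi_le_add (r := sg n K) (by linarith)
    have b2 := hp.tm.le_fi (r := sg n K) (by linarith)
    have b3 := hp.dl_le
    have b4 := jump_le v.npos K0 hk (a := t (fi t (sg n K)) / 2) (b := t (fi t (sg n K)))
      (by linarith) (by linarith) (by linarith)
    have b5 := mul_le_mul_of_nonneg_right h.kn K0.le
    rw [Real.sq_sqrt (by positivity)]
    linarith
  · have b1 := h.sqrt_T (le_refl (2 * T))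
    exact mul_le_of_le_one_left (by positivity) (by linarith)

/-- the good event without the terminal bound -/
structure Nice (hG : Grid lam t dl) (f : St n → Vec n) (z : St n → ℝ)
    (cen : Mat n → Vec n → Vec n) (r : Ref n n (St n)) (K₀ X τ η e K ρ κ T : ℝ) (k0 J : ℕ)
    (q : (OG n × Cfg n) × (ℕ → Vec n)) : Prop where
  tap : TapPath hG f z cen K₀ η e K (fi t (sg n K)) (fi t T) q
  good : Path.CapGood lam (η / 200) t (wa t T ρ J) (fi t T) (xt q.1.1 q.1.2)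
    (yF lam t (xt q.1.1 q.1.2) (rotN q.1.1 q.2))
  ybd : ∀ k, k ≤ fi t T → nv (sy (trC hG q k)) ≤ n
  box : ∀ k, k < fi t T → q.2 k ∈ A1.Box n n
  hx : F.sq (capP lam t q.1.1 k0 *ᵥ sv q.1.2) ≤ 42 * (n * √(sL n K))
  win : Win hG r X n τ T ρ κ η J q

theorem Ev.nice (hR : Rigid (wn n) lam) (hG : Grid lam t dl)
    (hp : Par t dl (α * sL n K) ρ (2 * ρ * β / α) T η η κ J) (hJ : β * sL n K ≤ T / ρ ^ J)
    (hJ2 : (J : ℝ) ≤ 2 * K) {f : St n → Vec n} {z : St n → ℝ} {cen : Mat n → Vec n → Vec n}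
    {r : Ref n n (St n)} {K₀ X τ : ℝ} (hr : r.OK (up n hG.steps) X dl) (τ0 : 0 < τ) (τ1 : τ ≤ 1)
    (hX : (n : ℝ) ≤ X) (hN : (fi t T : ℝ) + 1 ≤ X ^ 17) (hK : K₀ ≤ X)
    (ht : (plN n (diagonal lam) 0).real {q | ¬TapPath hG f z cen K₀ η e K (fi t (sg n K))
      (fi t T) q} ≤ K₀ * ((fi t T : ℕ) + 1 : ℝ) ^ 2 * Real.exp (-(5 * K))) :
    (plN n (diagonal lam) 0).real
      {q | ¬Nice hG f z cen r K₀ X τ η e K ρ κ T (fi t (α * sL n K)) J q} ≤
      X ^ 43 * Real.exp (-(5 * K)) := by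
  have K0 : 0 < K := by linarith [v.K1 hl]
  have n1 := v.big
  have s0 := v.sL0 hl
  have s1 := v.sL_le h hl hk
  have s2 := v.sc' h hl
  have s3 := h.T1
  have s5 := sc0_pos v.npos v.wpos
  have a1 := h.al1
  have e0 := h.eta0
  have e1 := h.eta1
  have b6 := h.be6
  have k1 := v.kap
  have s4 : α * sL n K ≤ 1 / 2000 * sL n K := mul_le_mul_of_nonneg_right a1 s0.le
  have u1 := le_uu_big v.npos K0 (by linarith) hJ
  have u2 := le_uu_big v.npos K0 (by linarith) (hJ.trans (hp.le_wa J))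
  have u3 : (n : ℝ) * (sL n K * √(sL n K)) = K := uu_sL v.npos K0
  have p1 := cap_tail_site hG hR v.npos v.wpos (ε := η / 200) (z := 5 * K) (k₀ := wa t T ρ J)
    (N := fi t T) (by linarith) k1 (by
      have b1 := mul_le_mul_of_nonneg_left (hp.low.trans (hp.le_wa J))
        (show 0 ≤ η / 200 by linarith)
      have b2 := v.sc K hl
      linarith) (hp.t_N_le.trans h.T_le) (by linarith) (by
      have b1 := mul_le_mul_of_nonneg_left u2 (sq_nonneg (η / 200))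
      have b2 := mul_le_mul_of_nonneg_right h.be K0.le
      linarith)
  have p2 := win_tail hG hR v.npos v.wpos (by linarith) hp (v.sc_le h hl) h.kr (ε := η / 200)
    (by linarith) (by linarith) (hp.k0_le_wa le_rfl) le_rfl le_rfl
    (Ψ := fun k s x ω => r.W (up n hG.steps) X n τ (fi t T - k) s x ω)
    (fun b x => meas_refW hG hr (Nat.cast_nonneg n) τ0 τ1 _ b x) (x := 5 * K) (by linarith)
    (by nlinarith)
  have p3 := ybd_tail hG (by exact_mod_cast (show ((14 : ℕ) : ℝ) ≤ n by push_cast; linarith))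
    (fun a => by have := (hR.1 a).2; have := v.sc1; unfold sc0 at *; linarith)
    (N := fi t T) (by linarith [hp.t_N_le]) (diagonal lam) 0
  have p4 := box_tail (diagonal lam) 0
    (by exact_mod_cast (show ((6 : ℕ) : ℝ) ≤ n by push_cast; linarith)) (fi t T)
  have p5 := mass_tail (t := t) hR v.npos v.wpos (by linarith) (s := sL n K) (z := 5 * K)
    (by linarith) (by linarith) (by linarith) (by linarith) (k₀ := fi t (α * sL n K))
    (by linarith [hp.t_k0_le])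
  have hE : Real.exp (-n) ≤ Real.exp (-(5 * K)) := Real.exp_le_exp.2 (by linarith [h.K_le hk])
  have hJ3 : (J : ℝ) ≤ X := by linarith [h.K_le hk]
  refine (union6 _ fun q hq => ?_).trans ((add_le_add ht (add_le_add p1 (add_le_add p2
    (add_le_add p3 (add_le_add p4 p5))))).trans (sum6 n1 hX (Nat.cast_nonneg _) hN hK hJ3
      (Real.exp_pos _).le hE))
  by_contra hc
  simp only [not_or, not_not, not_and] at hc
  exact hq ⟨hc.1, hc.2.1, hc.2.2.2.1, hc.2.2.2.2.1, hc.2.2.2.2.2, hc.2.2.1 hc.2.1⟩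

end level

end Vale.Agent.N150.Asm
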