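import Vale.Agent.N150.AsmCn
import Vale.Agent.N150.AsmT

/-! P150 at the critical point: the path assembly from the statement at one level. -/

open Matrix MeasureTheory Filter Topology Finset

namespace Vale.Agent.N150.Asm

open Vale.Agent.P150 Vale.Agent.P150.F Vale.Agent.N150.Sp Vale.Agent.N150.Cap
  Vale.Agent.N150.Rec Vale.Agent.N150.Edge Vale.Agent.N150.Plant

/-- the statement at one level, on a grid which serves all levels -/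
def LevStmt : Prop := ∀ p : ℕ, ∃ q : ℕ, 1 ≤ q ∧ ∀ ε θ ρ κ η e α β ν T CT c k₀ : ℝ,
  Cn ε θ ρ κ η e α β ν T CT c k₀ → ∀ᶠ n : ℕ in atTop, ∀ lam : Vec n, Rigid (wn n) lam →
    ∃ (t : ℕ → ℝ) (dl : ℝ) (hG : Grid lam t dl), ((n : ℝ) ^ p) ^ 8 * dl ≤ 1 ∧ n * dl ≤ 1 ∧
      T ≤ t (fi t T) ∧ t (fi t T) ≤ 2 * T ∧
      ∀ (cen : Mat n → Vec n → Vec n) (K : ℝ), q * Real.log n ≤ K → K ≤ k₀ * n →
        sg n K ≤ t (fi t (sg n K)) ∧ fi t (sg n K) ≤ fi t T ∧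
        ∀ (h : St n → Vec n) (z : St n → ℝ), Measurable h → Measurable z →
          (plN n (diagonal lam) 0).real {r | ¬TapPath hG h z cen ((n : ℝ) ^ p) η e K
            (fi t (sg n K)) (fi t T) r} ≤
              (n : ℝ) ^ p * ((fi t T : ℕ) + 1 : ℝ) ^ 2 * Real.exp (-(5 * K)) →
          LevQ lam (Br.TA hG (fi t T) cen CT CT (Real.exp (-(c * n)))) ((n : ℝ) ^ q) K
            fun O => A1.PathAt (gM (JO lam O) 0) K ((n : ℝ) ^ (2 / 3 + ε)) (θ * K) (1 / n)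

/-- the union over the dyadic levels -/
theorem haar_lev {n q : ℕ} (hn : 1 ≤ n) (lam : Vec n) (EG Q : OG n → Prop) {lo ε θ θ' k₀ d : ℝ}
    (hθ : θ ≤ θ') (hk : 64 * k₀ ≤ 1) (hd : 2 ≤ d * n)
    (h : ∀ K : ℝ, lo ≤ K → ((q + 2 : ℕ) : ℝ) * Real.log n ≤ K → K ≤ k₀ * n →
      LevQ lam Q ((n : ℝ) ^ q) K
        fun O => A1.PathAt (gM (JO lam O) 0) K ((n : ℝ) ^ (2 / 3 + ε)) (θ * K) (1 / n)) :
    (haar n).real {O | EG O ∧ ¬PrL lo (2 / 3) ε θ' ((q + 2 : ℕ) : ℝ) k₀ (gM (JO lam O) 0)} ≤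
      (haar n).real {O | EG O ∧ ¬Q O}
        + ((haar n).real {O | LR (diagonal lam) 0 O < 1 / 2} + d) := by
  have m0 : (0 : ℝ) < n := by exact_mod_cast hn
  have key := haar_le lam EG (Q := Q)
    (ok := fun j => lo ≤ 2 ^ j ∧ ((q + 2 : ℕ) : ℝ) * Real.log n ≤ 2 ^ j ∧ (2 : ℝ) ^ j ≤ k₀ * n)
    (Pr := fun j O => A1.PathAt (gM (JO lam O) 0) (2 ^ j) ((n : ℝ) ^ (2 / 3 + ε)) (θ * 2 ^ j)
      (1 / n)) (M := (n : ℝ) ^ q) (x := ((n : ℝ) ^ (q + 2))⁻¹) (by positivity) (by positivity)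
    (fun j hj => ⟨lt_of_pow_le (hj.2.2.trans (by nlinarith)), exp_neg_le hn hj.2.1⟩)
    fun j hj => h _ hj.1 hj.2.1 hj.2.2
  have h2 : 2 * (n : ℝ) * (n : ℝ) ^ q * ((n : ℝ) ^ (q + 2))⁻¹ ≤ d := by
    have e : 2 * (n : ℝ) * (n : ℝ) ^ q * ((n : ℝ) ^ (q + 2))⁻¹ = 2 / n := by field_simp; ring
    rw [e, div_le_iff₀ m0]
    exact hd
  refine le_trans (Tail.real_imp_le _ fun O hO => ?_) (key.trans (by linarith))
  refine ⟨hO.1, fun hc => hO.2 fun j j1 j2 j3 => ?_⟩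
  exact (hc j ⟨j1, j2, j3⟩).mono le_rfl (mul_le_mul_of_nonneg_right hθ (by positivity)) le_rfl

theorem pathH_of_lev (hL : LevStmt) {lo : ℕ → ℝ} {cen : ∀ n, Mat n → Vec n → Vec n}
    (hT : TapQ lo cen) (hE : TermQ cen) : PathH lo := by
  obtain ⟨p, hT⟩ := hT
  obtain ⟨T₁, hT₁, hE⟩ := hE
  obtain ⟨q, hq, hL⟩ := hL p
  refine ⟨((q + 2 : ℕ) : ℝ), fun ε θ' hε hθ' => ?_⟩
  obtain ⟨θ, ρ, κ, η, e, α, β, ν, T, CT, c, k₀, T₀, hC, h1, h2, hT, b, s, EG, e1, e4, hE⟩ :=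
    exists_Cn hε hθ' hT₁ hT (Q := fun T CT c => ∃ (b s : ℝ) (EG : ∀ n, Mat n → Mat n → Prop),
      b ^ 2 + s ^ 2 = 1 ∧ PairW EG ∧ ∀ d : ℝ, 0 < d → ∀ᶠ n : ℕ in atTop,
      ∀ (lam : Vec n) (J₁ W : Mat n), J₁ᵀ = J₁ → Wᵀ = W → Rigid (wn n) lam →
      b • J₁ + s • W = diagonal lam → ∀ (t : ℕ → ℝ) (dl : ℝ) (hG : Grid lam t dl) (N : ℕ),
      n * dl ≤ 1 → T ≤ t N → t N ≤ 2 * T →
      (haar n).real {O | EG n (Jr O J₁) (Jr O W) ∧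
        ¬Br.TA hG N (cen n) CT CT (Real.exp (-(c * n))) O} ≤ d) fun T t0 t1 => by
      obtain ⟨b, s, EG, CT, c, e1, e2, e3, e4, hE⟩ := hE T t0 t1
      exact ⟨CT, c, e2, e3, b, s, EG, e1, e4, hE⟩
  refine ⟨k₀, hC.k0, b, s, EG, e1, e4, fun d hd => ?_⟩
  have d3 : 0 < d / 3 := by positivity
  filter_upwards [hL _ _ _ _ _ _ _ _ _ _ _ _ _ hC, hT, hE _ d3, lowLR d3, ev_mul_nat d3 2,
    eventually_ge_atTop 1] with n hL hT hE hZ hn hn1 lam J₁ W s1 s2 hR hd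
  have l0 : 0 ≤ Real.log n := Real.log_natCast_nonneg n
  obtain ⟨t, dl, hG, g1, g2, g3, g4, hL⟩ := hL lam hR
  have h3 := hE lam J₁ W s1 s2 hR hd t dl hG (fi t T) g2 g3 g4
  have h4 := hZ lam hR
  refine (haar_lev hn1 lam _ (Br.TA hG (fi t T) (cen n) CT CT (Real.exp (-(c * n)))) h1 hC.k1 hn
    fun K k1 k2 k3 => ?_).trans (by linarith)
  have q1 : (1 : ℝ) ≤ q := by exact_mod_cast hq
  push_cast at k2
  obtain ⟨a1, a2, a3⟩ := hL (cen n) K (by nlinarith) k3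
  obtain ⟨h, z, mh, mz, hp⟩ := hT lam hR t dl hG g1 K k1 (by nlinarith) _ _ a1 a2 (g4.trans h2)
  exact a3 h z mh mz hp

end Vale.Agent.N150.Asm
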