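import Vale.Agent.N150.AsmLev
import Vale.Agent.N150.AsmMain0

/-! P150 at the critical point: the path assembly. -/

open Matrix MeasureTheory Filter Topology Finset

namespace Vale.Agent.N150.Asm

open Vale.Agent.P150 Vale.Agent.P150.F Vale.Agent.N150.Sp Vale.Agent.N150.Cap
  Vale.Agent.N150.Rec Vale.Agent.N150.Edge Vale.Agent.N150.Plant

variable {ε θ ρ κ η e α β ν T CT c k₀ : ℝ} {n : ℕ} {lam : Vec n} {t : ℕ → ℝ} {dl : ℝ}

theorem pe_le {hG : Grid lam t dl} {f : St n → Vec n} {z : St n → ℝ}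
    {cen : Mat n → Vec n → Vec n} {r : Ref n n (St n)} {K₀ X τ K a b : ℝ} {k0 J : ℕ} {O : OG n}
    (hK : (n : ℝ) ≤ K₀) (hc : fi t (sg n K) ≤ fi t T) (h1 : Br.TA hG (fi t T) cen CT CT a O)
    (h2 : PE (gM (JO lam O) 0) (fun x ω => ((O, x), ω) ∈
      {q | ¬Nice hG f z cen r K₀ X τ η e K ρ κ T k0 J q}) ≤ b) :
    PE (gM (JO lam O) 0) (fun x ω => ¬(CapEv hG f z cen K₀ n η e K (η / 200) (42 * (n * √(sL n K)))
      CT k0 (wa t T ρ J) (fi t (sg n K)) (fi t T) ((O, x), ω) ∧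
      Win hG r X n τ T ρ κ η J ((O, x), ω))) ≤ b + a := by
  have h0 : ∀ x, 0 ≤ gM (JO lam O) 0 x := fun x => (gM_pos _ _ x).le
  refine le_trans (PE_mono h0 fun x ω hx => ?_) ((PE_or_le h0 _ _).trans (add_le_add h2 h1.2))
  by_contra hn
  rw [not_or] at hn
  have h3 : Nice hG f z cen r K₀ X τ η e K ρ κ T k0 J ((O, x), ω) := not_not.1 hn.1
  exact hx ⟨⟨h3.tap, h3.good, fun k _ hk => (h3.ybd k (hk.le.trans hc)).trans hK,
    fun k _ hk => h3.box k hk, h3.hx, not_lt.1 hn.2⟩, h3.win⟩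

theorem levStmt : LevStmt := by
  obtain ⟨p₁, hp₁, hcap⟩ := cap_track
  intro p
  obtain ⟨u, hu⟩ : ∃ u, u = (p + 1) * p₁ := ⟨_, rfl⟩
  have u1 : 1 ≤ u := by rw [hu]; exact Nat.mul_pos (Nat.succ_pos p) hp₁
  refine ⟨100 * u, by omega, fun ε θ ρ κ η e α β ν T CT c k₀ h => ?_⟩
  filter_upwards [h.ev u] with n v lam hR
  have n1 := v.big
  have n0 : (0 : ℝ) < n := by linarith
  obtain ⟨K₀, hK₀⟩ : ∃ K₀ : ℝ, K₀ = (n : ℝ) ^ (p + 1) := ⟨_, rfl⟩
  obtain ⟨X, hX⟩ : ∃ X : ℝ, X = K₀ ^ p₁ := ⟨_, rfl⟩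
  have x1 : X = (n : ℝ) ^ u := by rw [hX, hK₀, hu, pow_mul]
  have k1 : (n : ℝ) ≤ K₀ := by rw [hK₀]; exact le_self_pow₀ (by linarith) (by omega)
  have k2 : (n : ℝ) ^ p ≤ K₀ := by rw [hK₀]; exact pow_le_pow_right₀ (by linarith) (by omega)
  have k3 : K₀ ≤ X := by rw [hX]; exact le_self_pow₀ (by linarith) (by omega)
  have x0 : 0 < X := by linarith
  have x2 : 1 ≤ X := by linarith
  have d0 : ∀ {y : ℝ} {i : ℕ}, 0 ≤ y → y ≤ X → i ≤ 16 → y ^ i * (X ^ 16)⁻¹ ≤ 1 :=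
    fun {y i} a1 a2 a3 => by
      rw [← div_eq_mul_inv, div_le_one (by positivity)]
      exact (pow_le_pow_left₀ a1 a2 i).trans (pow_le_pow_right₀ x2 a3)
  have T0 := h.T0
  have T1 := h.T1
  obtain ⟨t, hG, ht, t0, hN⟩ := exists_gr (T := T) (X := X) hR (sc0_pos v.npos v.wpos).le v.sc1 T0
    (by linarith) (by linarith) (by linarith)
  have d1 : (n : ℝ) * (X ^ 16)⁻¹ ≤ 1 := by
    simpa using d0 (y := n) (i := 1) n0.le (by linarith) (by norm_num)
  have d2 := d0 (y := n) (i := 2) n0.le (by linarith) (by norm_num)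
  have d3 := d0 (y := n) (i := 3) n0.le (by linarith) (by norm_num)
  have d8 := d0 (y := X) (i := 8) x0.le le_rfl (by norm_num)
  have dp := ht.dl_pos
  have hN1 : (fi t T : ℝ) + 1 ≤ X ^ 17 := hN.trans (by
    rw [pow_succ' X 16]; exact mul_le_mul_of_nonneg_right (by linarith) (by positivity))
  refine ⟨t, _, hG, d0 (by positivity) (by linarith) (by norm_num), d1, ht.le_fi le_rfl, ?_,
    fun cen K hq hk => ?_⟩
  · have b1 := ht.fi_le_add T0.le
    have b2 := mul_le_mul_of_nonneg_right v.Tn dp.le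
    have b3 := mul_le_mul_of_nonneg_left d1 T0.le
    linarith
  have hl : Real.log n ≤ K := by
    refine le_trans (le_mul_of_one_le_left (by linarith [v.lg]) ?_) hq
    exact_mod_cast (show 1 ≤ 100 * u by omega)
  have K1 := v.K1 hl
  have K0 : 0 < K := by linarith
  have s0 := v.sL0 hl
  have s1 := h.sL_le_sg' v.npos K0 hk
  have s2 := h.sg_le_T v.npos K0 hk
  have a0 := h.al0
  have e0 := h.eta0
  have hc : fi t (sg n K) ≤ fi t T := ht.fi_mono (by linarith) le_rfl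
  refine ⟨ht.le_fi (by linarith), hc, fun f z mf mz hT => ?_⟩
  obtain ⟨J, hp, j1, j2⟩ := h.par v.npos K1 hl hk ht (by linarith [v.sc_le h hl]) (by
    have b1 := mul_le_mul_of_nonneg_right v.ea (mul_pos dp n0).le
    have b2 := mul_le_mul_of_nonneg_left d2 (mul_pos e0 a0).le
    linarith)
  have τ0 : 0 < (X * X)⁻¹ := by positivity
  have τ1 : (X * X)⁻¹ ≤ 1 := inv_le_one_of_one_le₀ (one_le_mul_of_one_le_of_one_le x2 x2)
  have X1 : (X * X)⁻¹ ^ 2 * (X ^ 2 * n) ≤ 1 := by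
    rw [show (X * X)⁻¹ ^ 2 * (X ^ 2 * n) = n / X ^ 2 by field_simp, div_le_one (by positivity)]
    exact (k1.trans k3).trans (le_self_pow₀ x2 two_ne_zero)
  have g := h.gam K0.le J
  have tot := tot_le (ρ := ρ) (R₂ := 2 * ρ * β / α) (T := T) (g := fun s => s ^ e * √K)
    (Z := √(ν * K)) (ζ₀ := √ν) K1 h.nu0.le (v.M0 h hl) (Real.sq_sqrt h.nu0.le).le j2 le_rfl
    (Real.sq_sqrt (mul_pos h.nu0 K0).le).le g.2
  have key := hcap (cen := cen) (τ := (X * X)⁻¹) (X0 := 42 * (n * √(sL n K))) hG hp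
    (v.capNum h hl hk hR hp k1) mf mz (by rw [← hX]; exact d8) τ0 τ1 h.e0.le (by positivity)
    (by
      rw [← hX]
      refine drift_le (by linarith) (k1.trans k3) ?_ v.nu
      have b1 := v.ex1
      rw [one_mul, pow_succ, mul_comm 2 u, pow_mul, ← x1] at b1
      exact b1) g.1 tot.1 tot.2
  rw [← hX] at key
  obtain ⟨hOK, l, mm, m1, m2, m3, hTr⟩ := key
  have hE := exp_neg_le v.npos hq
  rw [mul_comm 100 u, pow_mul, ← x1] at hE ⊢
  have hT' : (plN n (diagonal lam) 0).real {q | ¬TapPath hG f z cen K₀ η e K (fi t (sg n K))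
      (fi t T) q} ≤ K₀ * ((fi t T : ℕ) + 1 : ℝ) ^ 2 * Real.exp (-(5 * K)) := by
    refine le_trans (Tail.real_imp_le _ fun q hq hc => ?_) (hT.trans (by gcongr))
    exact hq (TapPath.mono hc (by positivity) k2)
  refine ⟨_, (v.nice h hl hk hR hG hp j1 j2 hOK τ0 τ1 (k1.trans k3) hN1 k3 hT').trans
    (mul_le_mul_of_nonneg_right (pow_le_pow_right₀ x2 (by norm_num)) (Real.exp_pos _).le),
    fun O hO hP => ?_⟩
  have tm := h.term hk v.lin.2 v.npos K0.le v.ex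
  have b1 := hTr O _ ((pe_le k1 hc hO hP).trans (add_le_add le_rfl tm.2))
  beta_reduce
  rw [← hG.law_cap O]
  rw [Finset.range_eq_Ico] at m2 m3
  refine pathAt_of b1 hO.1 (by linarith [h.CT1]) (Real.exp_pos _).le
    (fun k _ => (m1 k).trans (h.step v.npos K1 hk X1 dp.le (by linarith) v.al))
    (le_trans (by linarith) (h.lin v.npos K1)) v.lin.1
    (m2.trans (h.cost v.npos K0 hk (v.th.trans (mul_le_mul_of_nonneg_left hl
      (by linarith [h.alt]))) X1)) tm.1 ?_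
    (disc_le (by linarith) (k1.trans k3) (by linarith) A1.K0_nonneg v.k0)
  have i1 : (α * sL n K)⁻¹ ≤ (n : ℝ) ^ 2 := by
    have c1 := mul_le_mul_of_nonneg_left (inv_le_sL v.npos K1 (by linarith [h.K_le hk])) n0.le
    rw [mul_inv_cancel₀ n0.ne'] at c1
    have c2 : 1 * 1 ≤ α * n * (n * sL n K) :=
      mul_le_mul (by linarith [v.al]) c1 zero_le_one (by positivity)
    rw [inv_eq_one_div, div_le_iff₀ (by positivity)]
    linarith
  have i2 := B_le n1 (k1.trans k3) (Nat.cast_nonneg (fi t T)) (by linarith) (by positivity) i1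
  have i3 : Real.exp K * Real.exp (-(2 * K)) = Real.exp (-K) := by
    rw [← Real.exp_add]; congr 1; ring
  unfold Ref.rho
  generalize (α * sL n K)⁻¹ ^ 16 * (1 + ((1 + X) * √n + (fi t T : ℕ) * ((2 * X + ((X * X)⁻¹)⁻¹ *
    (1 + X) + 2 * (1 + n + (n : ℝ) ^ 2)) * √n)) ^ 2) = B at i2 ⊢
  have i4 := mul_le_mul_of_nonneg_right i2 (Real.exp_pos (-K)).le
  have i5 := mul_le_mul_of_nonneg_left hE (show 0 ≤ X ^ 100 by positivity)
  rw [mul_inv_cancel₀ (by positivity)] at i5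
  rw [div_div, le_div_iff₀ (by positivity)]
  calc _ = 6 * (n + 1) * B * ((fi t T : ℕ) * 2) * (3 * n) * (Real.exp K * Real.exp (-(2 * K))) := by
        ring
    _ ≤ 1 := by rw [i3]; exact i4.trans i5

/-- **[PATH]** the tracked paths on all levels from the mean field tier and the terminal bounds -/
theorem pathH_of {lo : ℕ → ℝ} {cen : ∀ n, Mat n → Vec n → Vec n} (hT : TapQ lo cen)
    (hE : TermQ cen) : PathH lo := pathH_of_lev levStmt hT hE

end Vale.Agent.N150.Asm
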