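import Vale.Agent.N150.Rec2

set_option linter.all false

/-! P150 at the critical point: the time schedule of the cap flow (early part, crude tier, sharp
windows) and the deterministic bounds for the tracking functional and for the propagator. -/

open Finset
open scoped Matrix

namespace Vale.Agent.N150.Asm

open Vale.Agent.P150 Vale.Agent.P150.F Vale.Agent.N150.Rec

variable {n : ℕ}

/-- the first index at which the time reaches `r` -/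
noncomputable def fi (t : ℕ → ℝ) (r : ℝ) : ℕ := sInf {k | r ≤ t k}

/-- a strictly increasing time grid with mesh `dl` which starts below `0` and reaches `T` -/
structure Tm (t : ℕ → ℝ) (dl T : ℝ) : Prop where
  lt : ∀ k, t k < t (k + 1)
  le : ∀ k, t (k + 1) - t k ≤ dl
  neg : t 0 ≤ 0
  top : ∃ N, T ≤ t N

namespace Tm

variable {t : ℕ → ℝ} {dl T r r' : ℝ}

theorem mono (h : Tm t dl T) (k : ℕ) : t k ≤ t (k + 1) := (h.lt k).le

theorem mono' (h : Tm t dl T) {k l : ℕ} (hkl : k ≤ l) : t k ≤ t l := mono_le h.mono hkl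

theorem dl_pos (h : Tm t dl T) : 0 < dl := (sub_pos.2 (h.lt 0)).trans_le (h.le 0)

theorem le_fi (h : Tm t dl T) (hr : r ≤ T) : r ≤ t (fi t r) := by
  obtain ⟨N, hN⟩ := h.top
  exact Nat.sInf_mem (s := {k | r ≤ t k}) ⟨N, hr.trans hN⟩

theorem lt_of_lt_fi {j : ℕ} (hj : j < fi t r) : t j < r :=
  not_le.1 (Nat.notMem_of_lt_sInf (s := {k | r ≤ t k}) hj)

theorem fi_le {j : ℕ} (hj : r ≤ t j) : fi t r ≤ j := Nat.sInf_le (s := {k | r ≤ t k}) hj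

theorem fi_le_iff (h : Tm t dl T) (hr : r ≤ T) {j : ℕ} : fi t r ≤ j ↔ r ≤ t j :=
  ⟨fun hj => (h.le_fi hr).trans (h.mono' hj), fi_le⟩

theorem lt_fi_iff (h : Tm t dl T) (hr : r ≤ T) {j : ℕ} : j < fi t r ↔ t j < r := by
  rw [← not_le, h.fi_le_iff hr, not_le]

theorem fi_mono (h : Tm t dl T) (hr : r ≤ r') (hr' : r' ≤ T) : fi t r ≤ fi t r' :=
  fi_le (hr.trans (h.le_fi hr'))

theorem fi_pos (h : Tm t dl T) (hr0 : 0 < r) (hr : r ≤ T) : 0 < fi t r :=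
  (h.lt_fi_iff hr).2 (h.neg.trans_lt hr0)

theorem fi_le_add (h : Tm t dl T) (hr0 : 0 ≤ r) : t (fi t r) ≤ r + dl := by
  rcases Nat.eq_zero_or_pos (fi t r) with h0 | h0
  · rw [h0]; linarith [h.neg, h.dl_pos]
  · obtain ⟨j, hj⟩ : ∃ j, fi t r = j + 1 := ⟨fi t r - 1, by omega⟩
    have h1 : t j < r := lt_of_lt_fi (by omega)
    rw [hj]; linarith [h.le j]

end Tm

/-- the window ends -/
noncomputable def wa (t : ℕ → ℝ) (T ρ : ℝ) (j : ℕ) : ℕ := fi t (T / ρ ^ j)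

/-- the number of windows: the last end lies in `[s, ρ s)` -/
theorem exists_J {s T ρ : ℝ} (hs : 0 < s) (hsT : s ≤ T) (hρ : 2 ≤ ρ) :
    ∃ J : ℕ, s ≤ T / ρ ^ J ∧ T / ρ ^ J ≤ ρ * s ∧ (J : ℝ) ≤ 2 * Real.log (T / s) := by
  have hρ0 : 0 < ρ := by linarith
  have h1 : 1 ≤ T / s := by rw [le_div_iff₀ hs]; linarith
  obtain ⟨J, h2, h3⟩ := exists_nat_pow_near h1 (by linarith : 1 < ρ)
  have hp : 0 < ρ ^ J := pow_pos hρ0 J
  refine ⟨J, ?_, ?_, ?_⟩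
  · rw [le_div_iff₀ hp]; rw [le_div_iff₀ hs] at h2; linarith
  · rw [div_le_iff₀ hp]; rw [div_lt_iff₀ hs, pow_succ] at h3; nlinarith
  · have h4 : Real.log (ρ ^ J) ≤ Real.log (T / s) := Real.log_le_log hp h2
    rw [Real.log_pow] at h4
    have h5 : 1 / 2 ≤ Real.log ρ := by
      have h6 := Real.log_two_gt_d9
      have h7 : Real.log 2 ≤ Real.log ρ := Real.log_le_log (by norm_num) hρ
      linarith
    have h8 : (0 : ℝ) ≤ J := Nat.cast_nonneg J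
    nlinarith

/-- the numerical constraints on the schedule -/
structure Par (t : ℕ → ℝ) (dl sK ρ R₂ T η η₁ κ : ℝ) (J : ℕ) : Prop where
  tm : Tm t dl T
  sK_pos : 0 < sK
  start : -sK ≤ t 0
  rho : 2 ≤ ρ
  low : sK ≤ T / ρ ^ J
  up : 2 * (T / ρ ^ J) ≤ R₂ * sK
  T_le : 2 * T ≤ 1
  eta0 : 0 ≤ η
  eta1 : η ≤ 1 / 6
  mesh : 2 * dl ≤ η * sK
  kap : 0 ≤ κ
  etb0 : 0 ≤ η₁
  etb1 : η₁ ≤ 1 / 2
  th : √(2 * ρ) * (κ * (4 + Real.log (2 * ρ)) + 4 * η₁ * Real.log (2 * ρ)) ≤ 1 / 4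
  q : 6 * (2 * ρ) ^ 4 * η * Real.log (2 * ρ) ≤ 1 / 4

namespace Par

variable {t : ℕ → ℝ} {dl sK ρ R₂ T η η₁ κ : ℝ} {J : ℕ}

theorem div_anti (h : Par t dl sK ρ R₂ T η η₁ κ J) {i j : ℕ} (hij : i ≤ j) :
    T / ρ ^ j ≤ T / ρ ^ i := by
  have hρ : 1 ≤ ρ := by linarith [h.rho]
  have hT : 0 ≤ T := by
    have h1 : 0 < T / ρ ^ J := h.sK_pos.trans_le h.low
    exact (div_pos_iff_of_pos_right (by positivity)).1 h1 |>.le
  exact div_le_div_of_nonneg_left hT (by positivity) (pow_le_pow_right₀ hρ hij)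

theorem div_le_T (h : Par t dl sK ρ R₂ T η η₁ κ J) (j : ℕ) : T / ρ ^ j ≤ T := by
  simpa using h.div_anti (Nat.zero_le j)

theorem sK_le (h : Par t dl sK ρ R₂ T η η₁ κ J) {j : ℕ} (hj : j ≤ J) : sK ≤ T / ρ ^ j :=
  h.low.trans (h.div_anti hj)

theorem sK_le_T (h : Par t dl sK ρ R₂ T η η₁ κ J) : sK ≤ T := h.low.trans (h.div_le_T J)

theorem dl_le (h : Par t dl sK ρ R₂ T η η₁ κ J) : 12 * dl ≤ sK := by
  have := h.mesh; have := h.eta1; have := h.sK_pos; nlinarith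

theorem wa_zero (h : Par t dl sK ρ R₂ T η η₁ κ J) : wa t T ρ 0 = fi t T := by simp [wa]

theorem le_wa (h : Par t dl sK ρ R₂ T η η₁ κ J) (j : ℕ) : T / ρ ^ j ≤ t (wa t T ρ j) :=
  h.tm.le_fi (h.div_le_T j)

theorem wa_le (h : Par t dl sK ρ R₂ T η η₁ κ J) {j : ℕ} (hj : j ≤ J) :
    t (wa t T ρ j) ≤ 2 * (T / ρ ^ j) := by
  have h1 := h.sK_le hj
  have h2 := h.tm.fi_le_add (r := T / ρ ^ j) (by linarith [h.sK_pos])
  have h3 := h.dl_le
  have h4 := h.tm.dl_pos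
  unfold wa
  linarith

theorem wa_anti (h : Par t dl sK ρ R₂ T η η₁ κ J) {i j : ℕ} (hij : i ≤ j) :
    wa t T ρ j ≤ wa t T ρ i := h.tm.fi_mono (h.div_anti hij) (h.div_le_T i)

theorem wa_le_N (h : Par t dl sK ρ R₂ T η η₁ κ J) (j : ℕ) : wa t T ρ j ≤ fi t T := by
  rw [← h.wa_zero]; exact h.wa_anti (Nat.zero_le j)

theorem k0_le_wa (h : Par t dl sK ρ R₂ T η η₁ κ J) {j : ℕ} (hj : j ≤ J) :
    fi t sK ≤ wa t T ρ j := h.tm.fi_mono (h.sK_le hj) (h.div_le_T j)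

theorem k0_pos (h : Par t dl sK ρ R₂ T η η₁ κ J) : 0 < fi t sK := h.tm.fi_pos h.sK_pos h.sK_le_T

theorem k0_le_N (h : Par t dl sK ρ R₂ T η η₁ κ J) : fi t sK ≤ fi t T :=
  h.tm.fi_mono h.sK_le_T le_rfl

theorem sK_le_t (h : Par t dl sK ρ R₂ T η η₁ κ J) {k : ℕ} (hk : fi t sK ≤ k) : sK ≤ t k :=
  (h.tm.fi_le_iff h.sK_le_T).1 hk

theorem t_pos (h : Par t dl sK ρ R₂ T η η₁ κ J) {k : ℕ} (hk : fi t sK ≤ k) : 0 < t k :=
  h.sK_pos.trans_le (h.sK_le_t hk)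

theorem t_k0_le (h : Par t dl sK ρ R₂ T η η₁ κ J) : t (fi t sK) ≤ 2 * sK := by
  have h1 := h.tm.fi_le_add h.sK_pos.le
  have h2 := h.dl_le
  have h4 := h.tm.dl_pos
  linarith

theorem t_N_le (h : Par t dl sK ρ R₂ T η η₁ κ J) : t (fi t T) ≤ 2 * T := by
  have h1 := h.wa_le (Nat.zero_le J)
  rw [h.wa_zero] at h1
  simpa using h1

/-- upper ratio of a window -/
theorem ratio_le (h : Par t dl sK ρ R₂ T η η₁ κ J) {j : ℕ} (hj : j ≤ J) :
    t (wa t T ρ j) ≤ 2 * ρ * t (wa t T ρ (j + 1)) := by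
  have hρ : 0 < ρ := by linarith [h.rho]
  have h1 := h.wa_le hj
  have h2 := h.le_wa (j + 1)
  have h3 : T / ρ ^ j = ρ * (T / ρ ^ (j + 1)) := by rw [pow_succ]; field_simp
  rw [h3] at h1
  nlinarith

/-- lower ratio of a window -/
theorem le_ratio (h : Par t dl sK ρ R₂ T η η₁ κ J) {j : ℕ} (hj : j < J) :
    ρ / 2 * t (wa t T ρ (j + 1)) ≤ t (wa t T ρ j) := by
  have hρ : 0 < ρ := by linarith [h.rho]
  have h1 := h.wa_le (j := j + 1) hj
  have h2 := h.le_wa j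
  have h3 : T / ρ ^ j = ρ * (T / ρ ^ (j + 1)) := by rw [pow_succ]; field_simp
  rw [h3] at h2
  nlinarith

theorem crude_ratio (h : Par t dl sK ρ R₂ T η η₁ κ J) :
    t (wa t T ρ J) ≤ R₂ * t (fi t sK) := by
  have h1 := h.wa_le le_rfl
  have h2 := h.up
  have h3 := h.sK_le_t le_rfl
  have h4 : 0 ≤ R₂ := by
    by_contra h5
    push Not at h5
    have := h.low; have := h.sK_pos; nlinarith
  nlinarith

theorem one_le_R2 (h : Par t dl sK ρ R₂ T η η₁ κ J) : 1 ≤ R₂ := by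
  by_contra h5
  push Not at h5
  have := h.low; have := h.sK_pos; have := h.up; nlinarith

theorem step_le (h : Par t dl sK ρ R₂ T η η₁ κ J) {k : ℕ} (hk : fi t sK ≤ k) :
    2 * (t (k + 1) - t k) ≤ η * t k := by
  have h1 := h.tm.le k
  have h2 := h.mesh
  have h3 := mul_le_mul_of_nonneg_left (h.sK_le_t hk) h.eta0
  linarith

theorem early_sum (h : Par t dl sK ρ R₂ T η η₁ κ J) :
    ∑ k ∈ Ico 0 (fi t sK), (t (k + 1) - t k) ≤ 3 * sK := by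
  rw [sum_Ico_tele t (Nat.zero_le _)]
  linarith [h.t_k0_le, h.start]

end Par

/-- the budget of window `j` -/
noncomputable def zet (t : ℕ → ℝ) (T ρ ζ₀ Z : ℝ) (g : ℝ → ℝ) (c j : ℕ) : ℝ :=
  (ζ₀ + g (2 * (T / ρ ^ j))) * (2 * Real.log (2 * ρ)) +
    if wa t T ρ (j + 1) ≤ c ∧ c < wa t T ρ j then Z else 0

/-- bound for the sum of the squared budgets -/
noncomputable def zsum (ρ ζ₀ Γ Z : ℝ) (J : ℕ) : ℝ :=
  3 * (2 * Real.log (2 * ρ)) ^ 2 * (J * ζ₀ ^ 2 + Γ) + 3 * Z ^ 2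

theorem sum_zet {t : ℕ → ℝ} {dl sK ρ R₂ T η η₁ κ : ℝ} {J : ℕ} (h : Par t dl sK ρ R₂ T η η₁ κ J)
    {ζ₀ Z Γ : ℝ} {g : ℝ → ℝ} (c : ℕ) (hΓ : ∑ j ∈ range J, g (2 * (T / ρ ^ j)) ^ 2 ≤ Γ) :
    ∑ j ∈ range J, zet t T ρ ζ₀ Z g c j ^ 2 ≤ zsum ρ ζ₀ Γ Z J := by
  classical
  set ℓ := 2 * Real.log (2 * ρ) with hℓ
  have h1 : ∀ j, zet t T ρ ζ₀ Z g c j ^ 2 ≤ 3 * ℓ ^ 2 * (ζ₀ ^ 2 + g (2 * (T / ρ ^ j)) ^ 2) +
      3 * Z ^ 2 * (if wa t T ρ (j + 1) ≤ c ∧ c < wa t T ρ j then 1 else 0) := by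
    intro j
    unfold zet
    rw [← hℓ]
    split_ifs
    · nlinarith [sq_nonneg (ζ₀ * ℓ - g (2 * (T / ρ ^ j)) * ℓ), sq_nonneg (ζ₀ * ℓ - Z),
        sq_nonneg (g (2 * (T / ρ ^ j)) * ℓ - Z)]
    · nlinarith [sq_nonneg (ζ₀ * ℓ - g (2 * (T / ρ ^ j)) * ℓ), sq_nonneg (ζ₀ * ℓ),
        sq_nonneg (g (2 * (T / ρ ^ j)) * ℓ)]
  have h2 : ∑ j ∈ range J, (if wa t T ρ (j + 1) ≤ c ∧ c < wa t T ρ j then (1 : ℝ) else 0) ≤ 1 := by
    rw [Finset.sum_boole]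
    have h3 : ((range J).filter fun j => wa t T ρ (j + 1) ≤ c ∧ c < wa t T ρ j).card ≤ 1 := by
      refine Finset.card_le_one.2 fun i hi j hj => ?_
      have hi' := (Finset.mem_filter.1 hi).2
      have hj' := (Finset.mem_filter.1 hj).2
      by_contra hne
      rcases lt_or_gt_of_ne hne with h4 | h4
      · have := h.wa_anti (i := i + 1) (j := j) h4; omega
      · have := h.wa_anti (i := j + 1) (j := i) h4; omega
    exact_mod_cast h3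
  calc ∑ j ∈ range J, zet t T ρ ζ₀ Z g c j ^ 2
      ≤ ∑ j ∈ range J, (3 * ℓ ^ 2 * (ζ₀ ^ 2 + g (2 * (T / ρ ^ j)) ^ 2) +
        3 * Z ^ 2 * (if wa t T ρ (j + 1) ≤ c ∧ c < wa t T ρ j then 1 else 0)) :=
        Finset.sum_le_sum fun j _ => h1 j
    _ = 3 * ℓ ^ 2 * (J * ζ₀ ^ 2 + ∑ j ∈ range J, g (2 * (T / ρ ^ j)) ^ 2) +
        3 * Z ^ 2 * ∑ j ∈ range J,
          (if wa t T ρ (j + 1) ≤ c ∧ c < wa t T ρ j then (1 : ℝ) else 0) := by
        rw [Finset.sum_add_distrib, ← Finset.mul_sum, ← Finset.mul_sum, Finset.sum_add_distrib,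
          Finset.sum_const, Finset.card_range, nsmul_eq_mul]
    _ ≤ zsum ρ ζ₀ Γ Z J := by
        unfold zsum
        rw [← hℓ]
        have h3 := mul_le_mul_of_nonneg_left h2 (by positivity : 0 ≤ 3 * Z ^ 2)
        have h4 := mul_le_mul_of_nonneg_left hΓ (by positivity : 0 ≤ 3 * ℓ ^ 2)
        linarith

/-- geometric sum of the power budgets -/
theorem sum_pow_le {T ρ C c : ℝ} (hT : 0 ≤ T) (hρ : 1 < ρ) (hc : 0 < c) (J : ℕ) :
    ∑ j ∈ range J, (C * (2 * (T / ρ ^ j)) ^ c) ^ 2 ≤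
      C ^ 2 * ((2 * T) ^ c) ^ 2 * (1 - ((ρ ^ c) ^ 2)⁻¹)⁻¹ := by
  have hρ0 : 0 < ρ := by linarith
  have h1 : 1 < ρ ^ c := Real.one_lt_rpow hρ hc
  set x := ((ρ ^ c) ^ 2)⁻¹ with hx
  have hx0 : 0 ≤ x := by positivity
  have hx1 : x < 1 := inv_lt_one_of_one_lt₀ (by nlinarith)
  have h2 : ∀ j : ℕ, (C * (2 * (T / ρ ^ j)) ^ c) ^ 2 = C ^ 2 * ((2 * T) ^ c) ^ 2 * x ^ j := by
    intro j
    rw [← mul_div_assoc, Real.div_rpow (by positivity) (by positivity), ← Real.rpow_natCast ρ j,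
      ← Real.rpow_mul hρ0.le, mul_comm (j : ℝ) c, Real.rpow_mul hρ0.le, Real.rpow_natCast, hx,
      inv_pow, ← pow_mul, mul_comm 2 j, pow_mul]
    field_simp
  simp only [h2]
  rw [← Finset.mul_sum]
  refine mul_le_mul_of_nonneg_left ?_ (by positivity)
  rw [← tsum_geometric_of_lt_one hx0 hx1]
  exact (summable_geometric_of_lt_one hx0 hx1).sum_le_tsum _ fun j _ => pow_nonneg hx0 j

/-- the pathwise facts on the tracking functional -/
structure WOK (t : ℕ → ℝ) (sK ρ T η η₁ κ τ ζ₀ Z M0 X0 X1 : ℝ) (g : ℝ → ℝ) (J c : ℕ)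
    (P G : ℕ → Mat n) (y W src : ℕ → Vec n) (x mh : Vec n) : Prop where
  flag : Flag P
  e1 : ∀ k, k + 1 < fi t sK → W k = W (k + 1)
  e2 : W (fi t sK - 1) = τ • W (fi t sK) + (1 - τ) • x + τ • mh
  hx : F.sq (P (fi t sK) *ᵥ x) ≤ X0
  hm : τ ^ 2 * F.sq mh ≤ X1
  cr : Cr t P G W src 2 (fi t sK) (wa t T ρ J)
  sh : Sh t P G y W src η (wa t T ρ J) (fi t T)
  sr : ∀ k, fi t sK ≤ k → k < fi t T → √(t k) * nv (P k *ᵥ src k) ≤
    (ζ₀ + g (t k)) * ((t (k + 1) - t k) / t k) + if k = c then Z else 0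
  win : ∀ j, j < J → Rad t P y κ η₁ (wa t T ρ (j + 1)) (wa t T ρ j) ∧
    Comp t P y W κ (wa t T ρ (j + 1)) (wa t T ρ j)
  term : √(t (fi t T)) * nv (P (fi t T) *ᵥ W (fi t T)) ≤ M0

/-- the budget of the crude tier -/
noncomputable def zet2 (T ρ R₂ ζ₀ Z : ℝ) (g : ℝ → ℝ) (J : ℕ) : ℝ :=
  (ζ₀ + g (2 * (T / ρ ^ J))) * (2 * Real.log R₂) + Z

theorem flag_nv_le {P : ℕ → Mat n} (hP : Flag P) {k l : ℕ} (hkl : k ≤ l) (v : Vec n) :
    nv (P k *ᵥ v) ≤ nv (P l *ᵥ v) := by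
  induction l, hkl using Nat.le_induction with
  | base => exact le_rfl
  | succ l _ ih => exact ih.trans (hP.nv_le_succ l v)

theorem const_down {W : ℕ → Vec n} {k0 : ℕ} (h : ∀ k, k + 1 < k0 → W k = W (k + 1)) {k : ℕ}
    (hk : k < k0) : W k = W (k0 - 1) := by
  have key : ∀ j, j ≤ k0 - 1 → W (k0 - 1 - j) = W (k0 - 1) := by
    intro j
    induction j with
    | zero => intro _; rfl
    | succ j ih =>
      intro hj
      rw [h (k0 - 1 - (j + 1)) (by omega), ← ih (by omega)]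
      congr 1
      omega
  have := key (k0 - 1 - k) (by omega)
  rwa [show k0 - 1 - (k0 - 1 - k) = k by omega] at this

/-- MAIN for the tracking functional -/
theorem num_W {t : ℕ → ℝ} {dl sK ρ R₂ T η η₁ κ : ℝ} {J : ℕ} (h : Par t dl sK ρ R₂ T η η₁ κ J)
    {τ ζ₀ Z M0 X0 X1 Γ : ℝ} {g : ℝ → ℝ} (c : ℕ) (hτ0 : 0 ≤ τ) (hτ1 : τ ≤ 1) (hζ : 0 ≤ ζ₀)
    (hZ : 0 ≤ Z) (hX0 : 0 ≤ X0) (hX1 : 0 ≤ X1) (hg0 : ∀ r, 0 < r → 0 ≤ g r)
    (hg : ∀ r r', 0 < r → r ≤ r' → g r ≤ g r')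
    (hΓ : ∑ j ∈ range J, g (2 * (T / ρ ^ j)) ^ 2 ≤ Γ) {TA TB : ℝ}
    (hA : totA (2 * ρ) M0 (zsum ρ ζ₀ Γ Z J) ≤ TA)
    (hB : totB (2 * ρ) M0 (zsum ρ ζ₀ Γ Z J) R₂ 3 (zet2 T ρ R₂ ζ₀ Z g J) ≤ TB) :
    ∃ m : ℕ → ℝ, (∀ k, 0 ≤ m k) ∧ (∀ k, m k ≤ dl * ((TA + 3 * TB) / sK + 3 * X0 + 3 * X1)) ∧
      ∑ k ∈ Ico 0 (fi t T), m k ≤ 2 * Real.log (2 * ρ) * TA + (2 * Real.log R₂ + 9) * TB +
        9 * sK * (X0 + X1) ∧
      ∀ {n : ℕ} {P G : ℕ → Mat n} {y W src : ℕ → Vec n} {x mh : Vec n},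
        WOK t sK ρ T η η₁ κ τ ζ₀ Z M0 X0 X1 g J c P G y W src x mh →
        ∀ k, k < fi t T → (t (k + 1) - t k) * F.sq (P k *ᵥ W k) ≤ m k := by
  classical
  have hρ := h.rho
  have hsK := h.sK_pos
  have hdl := h.tm.dl_pos
  have hR21 := h.one_le_R2
  have hlog : 0 ≤ Real.log (2 * ρ) := Real.log_nonneg (by linarith)
  have hlog2 : 0 ≤ Real.log R₂ := Real.log_nonneg hR21
  have hΓ0 : 0 ≤ Γ := (Finset.sum_nonneg fun _ _ => sq_nonneg _).trans hΓ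
  have hzs : 0 ≤ zsum ρ ζ₀ Γ Z J := by unfold zsum; positivity
  have hA0 : 0 ≤ totA (2 * ρ) M0 (zsum ρ ζ₀ Γ Z J) := by unfold totA; positivity
  have hB0 : 0 ≤ totB (2 * ρ) M0 (zsum ρ ζ₀ Γ Z J) R₂ 3 (zet2 T ρ R₂ ζ₀ Z g J) := by
    unfold totB; positivity
  have hTA : 0 ≤ TA := hA0.trans hA
  have hTB : 0 ≤ TB := hB0.trans hB
  obtain ⟨m, hm1, hm2, hm3⟩ := rec_mainZ (t := t) (η := η) (η₁ := η₁) (κ := κ) (R := 2 * ρ)
    (M0 := M0) (R₂ := R₂) (L := 3) (Lam := 2) (Z := zsum ρ ζ₀ Γ Z J)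
    (ζ₂ := zet2 T ρ R₂ ζ₀ Z g J) (ζ := zet t T ρ ζ₀ Z g c) (a := wa t T ρ) (J := J)
    (k₀ := fi t sK) (fun j _ => h.wa_anti (Nat.le_succ j)) (h.k0_le_wa le_rfl) h.eta0 h.eta1 h.kap
    h.etb0 h.etb1 (by linarith) (by norm_num) (sum_zet h c hΓ) (fun k hk => h.t_pos hk) h.tm.mono
    (fun j hj => h.ratio_le hj.le) h.crude_ratio
    (fun k hk _ => by have := h.step_le hk; have := h.tm.mono k; linarith)
    (fun k hk _ => by
      have h1 := h.step_le hk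
      have h2 := mul_le_mul_of_nonneg_right h.eta1 (h.t_pos hk).le
      have := h.t_pos hk
      linarith) h.th h.q
  rw [h.wa_zero] at hm2 hm3
  set E := 3 * (TB / sK + X0 + X1) with hE
  have hE0 : 0 ≤ E := by positivity
  refine ⟨fun k => if k < fi t sK then (t (k + 1) - t k) * E else m k, fun k => ?_, fun k => ?_,
    ?_, ?_⟩
  · beta_reduce
    split_ifs with hk
    · exact mul_nonneg (sub_nonneg.2 (h.tm.mono k)) hE0
    · exact (hm1 k (not_lt.1 hk)).1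
  · beta_reduce
    split_ifs with hk
    · refine (mul_le_mul_of_nonneg_right (h.tm.le k) hE0).trans
        (mul_le_mul_of_nonneg_left ?_ hdl.le)
      have h1 : 0 ≤ TA / sK := by positivity
      rw [hE, add_div, mul_div_assoc]
      linarith
    · have hk' := not_lt.1 hk
      refine (hm1 k hk').2.trans ?_
      have h1 : (t (k + 1) - t k) / t k ≤ dl / sK :=
        div_le_div₀ hdl.le (h.tm.le k) hsK (h.sK_le_t hk')
      calc _ ≤ dl / sK * (TA + 3 * TB) :=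
            mul_le_mul h1 (by linarith) (by positivity) (by positivity)
        _ = dl * ((TA + 3 * TB) / sK) := by ring
        _ ≤ _ := mul_le_mul_of_nonneg_left (by linarith) hdl.le
  · rw [← Finset.sum_Ico_consecutive _ (Nat.zero_le (fi t sK)) h.k0_le_N]
    have h1 : ∑ k ∈ Ico 0 (fi t sK), (if k < fi t sK then (t (k + 1) - t k) * E else m k) ≤
        3 * sK * E := by
      rw [Finset.sum_congr rfl fun k hk => if_pos (Finset.mem_Ico.1 hk).2, ← Finset.sum_mul]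
      exact mul_le_mul_of_nonneg_right h.early_sum hE0
    have h2 : ∑ k ∈ Ico (fi t sK) (fi t T), (if k < fi t sK then (t (k + 1) - t k) * E else m k)
        = ∑ k ∈ Ico (fi t sK) (fi t T), m k :=
      Finset.sum_congr rfl fun k hk => if_neg (not_lt.2 (Finset.mem_Ico.1 hk).1)
    have h3 : 3 * sK * E = 9 * TB + 9 * sK * (X0 + X1) := by rw [hE]; field_simp; ring
    have h4 := mul_le_mul_of_nonneg_left hA (by positivity : 0 ≤ 2 * Real.log (2 * ρ))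
    have h5 := mul_le_mul_of_nonneg_left hB (by positivity : 0 ≤ 2 * Real.log R₂)
    rw [h2]
    linarith
  · intro n P G y W src x mh hW k hk
    have hx1 : ∀ k, fi t sK ≤ k → t (k + 1) - t k ≤ t k := fun k hk => by
      have h1 := h.step_le hk
      have h2 := mul_le_mul_of_nonneg_right h.eta1 (h.t_pos hk).le
      have := h.t_pos hk
      linarith
    have hbud : ∀ (a b j : ℕ) (R : ℝ), j ≤ J → fi t sK ≤ a → a ≤ b → b = wa t T ρ j →
        t b ≤ R * t a → Bud t P src ((ζ₀ + g (2 * (T / ρ ^ j))) * (2 * Real.log R) +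
          if a ≤ c ∧ c < b then Z else 0) a b := by
      intro a b j R hj ha hab hb hR
      have hp : 0 < 2 * (T / ρ ^ j) := by linarith [h.sK_le hj]
      refine bud_of hab (add_nonneg hζ (hg0 _ hp)) hZ (fun k hk => h.t_pos (by omega)) h.tm.mono hR
        (fun k h1 _ => hx1 k (by omega)) fun k h1 h2 => ?_
      have h3 : k < fi t T := by have := h.wa_le_N j; omega
      refine (hW.sr k (by omega) h3).trans (add_le_add ?_ le_rfl)
      have h4 := h.t_pos (k := k) (by omega)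
      refine mul_le_mul_of_nonneg_right (add_le_add le_rfl (hg _ _ h4 ?_))
        (div_nonneg (sub_nonneg.2 (h.tm.mono k)) h4.le)
      exact (h.tm.mono' (by omega : k ≤ wa t T ρ j)).trans (h.wa_le hj)
    have hb2 : Bud t P src (zet2 T ρ R₂ ζ₀ Z g J) (fi t sK) (wa t T ρ J) := by
      have h1 := hbud _ _ J R₂ le_rfl le_rfl (h.k0_le_wa le_rfl) rfl h.crude_ratio
      refine le_trans h1 (add_le_add le_rfl ?_)
      split_ifs; exacts [le_rfl, hZ]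
    obtain ⟨h1, h2⟩ := hm3 hW.flag hW.sh (fun j hj => ⟨hbud _ _ j (2 * ρ) hj.le
      (h.k0_le_wa hj) (h.wa_anti (Nat.le_succ j)) rfl (h.ratio_le hj.le), hW.win j hj⟩) hW.cr hb2
      hW.term
    by_cases hk0 : k < fi t sK
    · simp only [if_pos hk0]
      refine mul_le_mul_of_nonneg_left ?_ (sub_nonneg.2 (h.tm.mono k))
      rw [const_down hW.e1 hk0, hW.e2, Matrix.mulVec_add, Matrix.mulVec_add, Matrix.mulVec_smul,
        Matrix.mulVec_smul, Matrix.mulVec_smul, ← nv_sq]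
      have a1 := nv_add_le (τ • (P k *ᵥ W (fi t sK)) + (1 - τ) • (P k *ᵥ x)) (τ • (P k *ᵥ mh))
      have a2 := nv_add_le (τ • (P k *ᵥ W (fi t sK))) ((1 - τ) • (P k *ᵥ x))
      rw [nv_smul τ (P k *ᵥ mh), abs_of_nonneg hτ0] at a1
      rw [nv_smul, nv_smul, abs_of_nonneg hτ0, abs_of_nonneg (sub_nonneg.2 hτ1)] at a2
      have b1 := flag_nv_le hW.flag hk0.le (W (fi t sK))
      have b2 := flag_nv_le hW.flag hk0.le x
      have b3 := hW.flag.nv_le k mh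
      have c1 := nv_nonneg (P k *ᵥ W (fi t sK))
      have c2 := nv_nonneg (P k *ᵥ x)
      have c3 := nv_nonneg (P k *ᵥ mh)
      set u := nv (P (fi t sK) *ᵥ W (fi t sK))
      set v := nv (P (fi t sK) *ᵥ x)
      have d1 : τ * nv (P k *ᵥ W (fi t sK)) ≤ u := by nlinarith
      have d2 : (1 - τ) * nv (P k *ᵥ x) ≤ v := by nlinarith
      have d3 : τ * nv (P k *ᵥ mh) ≤ τ * nv mh := mul_le_mul_of_nonneg_left b3 hτ0
      have e1 : u ^ 2 ≤ TB / sK := by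
        rw [nv_sq, le_div_iff₀ hsK]
        have h3 := mul_le_mul_of_nonneg_right (h.sK_le_t le_rfl)
          (sqN_nonneg (P (fi t sK) *ᵥ W (fi t sK)))
        linarith
      have e2 : v ^ 2 ≤ X0 := by rw [nv_sq]; exact hW.hx
      have e3 : (τ * nv mh) ^ 2 ≤ X1 := by rw [mul_pow, nv_sq]; exact hW.hm
      have f1 := pow_le_pow_left₀ (nv_nonneg _) (show nv (τ • (P k *ᵥ W (fi t sK)) +
        (1 - τ) • (P k *ᵥ x) + τ • (P k *ᵥ mh)) ≤ u + v + τ * nv mh by linarith) 2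
      refine f1.trans ?_
      rw [hE]
      nlinarith [sq_nonneg (u - v), sq_nonneg (u - τ * nv mh), sq_nonneg (v - τ * nv mh)]
    · simp only [if_neg hk0]
      exact h1 k (not_lt.1 hk0) hk

/-- the pathwise facts on the propagator applied to a vector -/
structure VOK (t : ℕ → ℝ) (sK ρ T η τ : ℝ) (J : ℕ) (P G : ℕ → Mat n) (V : ℕ → Vec n) :
    Prop where
  flag : Flag P
  e1 : ∀ k, k + 1 < fi t sK → V k = V (k + 1)
  e2 : V (fi t sK - 1) = τ • V (fi t sK)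
  rc : ∀ k, fi t sK ≤ k → k < fi t T →
    V k - (t (k + 1) - t k) • (G k *ᵥ (P k *ᵥ V k)) = V (k + 1)
  f2 : ∀ k, fi t sK ≤ k → k < wa t T ρ J → ∀ u, P k *ᵥ u = u →
    t k * ip u (G k *ᵥ u) ≤ 2 * F.sq u
  f1 : ∀ k, wa t T ρ J ≤ k → k < fi t T → ∀ u, P k *ᵥ u = u →
    t k * ip u (G k *ᵥ u) ≤ (1 + η) * F.sq u

/-- MAIN for the propagator -/
theorem num_V {t : ℕ → ℝ} {dl sK ρ R₂ T η η₁ κ : ℝ} {J : ℕ} (h : Par t dl sK ρ R₂ T η η₁ κ J)
    {τ : ℝ} (hτ0 : 0 ≤ τ) (hτ1 : τ ≤ 1) :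
    ∃ l : ℕ → ℝ, (∀ k, 0 ≤ l k) ∧
      ∑ k ∈ Ico 0 (fi t T), l k ≤ (2 + 4 * R₂ ^ 6) * (sK⁻¹) ^ (1 + 4 * η) ∧
      ∀ {n : ℕ} {P G : ℕ → Mat n} {V : ℕ → Vec n}, VOK t sK ρ T η τ J P G V →
        ∀ k, k < fi t T → (t (k + 1) - t k) * F.sq (P k *ᵥ V k) ≤ l k * F.sq (V (fi t T)) := by
  classical
  have hsK := h.sK_pos
  have hη := h.eta0
  have hη1 := h.eta1
  obtain ⟨l, hl1, hl2, hl3⟩ := lin_main (t := t) (R₂ := R₂) (L := 3) (Lam := 2) (L₁ := 1 + 2 * η)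
    (Lam₁ := 1 + η) (k₀ := fi t sK) (c := wa t T ρ J) (N := fi t T) (h.k0_le_wa le_rfl)
    (h.wa_le_N J) (by norm_num) (by linarith) (fun k hk => h.t_pos hk) h.tm.mono h.crude_ratio
    (fun k hk _ => by
      have hk' := (h.k0_le_wa le_rfl).trans hk
      have h1 := h.step_le hk'
      have h2 := mul_le_mul_of_nonneg_right h.eta1 (h.t_pos hk').le
      have := h.t_pos hk'
      linarith)
    (fun k hk _ => by
      have hk' := (h.k0_le_wa le_rfl).trans hk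
      have h1 := h.step_le hk'
      have h2 : (1 + η) * (1 + 2 * η) ≤ 2 := by nlinarith
      have h3 := mul_le_mul_of_nonneg_right h2 (sub_nonneg.2 (h.tm.mono k))
      linarith)
    (fun k hk _ => by
      have h1 := h.step_le hk
      have h2 := mul_le_mul_of_nonneg_right h.eta1 (h.t_pos hk).le
      have := h.t_pos hk
      linarith)
  set tc := t (wa t T ρ J) with htc
  set tN := t (fi t T) with htN
  have hc : sK ≤ tc := h.sK_le_t (h.k0_le_wa le_rfl)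
  have hc0 : 0 < tc := hsK.trans_le hc
  have hN1 : tN ≤ 1 := h.t_N_le.trans h.T_le
  have hN0 : 0 < tN := h.t_pos h.k0_le_N
  set X := (tN / tc) ^ (1 + 2 * η) with hX
  have h3 : R₂ ^ (3 : ℝ) = R₂ ^ 3 := by
    rw [show (3 : ℝ) = ((3 : ℕ) : ℝ) by norm_num, Real.rpow_natCast]
  rw [h3] at hl1 hl2
  have hXb : tc * X ^ 2 ≤ (sK⁻¹) ^ (1 + 4 * η) := by
    have h1 : X ≤ (tc⁻¹) ^ (1 + 2 * η) := by
      refine Real.rpow_le_rpow (by positivity) ?_ (by linarith)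
      rw [div_eq_mul_inv]
      exact mul_le_of_le_one_left (by positivity) hN1
    have h2 : X ^ 2 ≤ ((tc⁻¹) ^ (1 + 2 * η)) ^ 2 :=
      pow_le_pow_left₀ (Real.rpow_nonneg (by positivity) _) h1 2
    have h4 : ((tc⁻¹) ^ (1 + 2 * η)) ^ 2 = tc⁻¹ * (tc⁻¹) ^ (1 + 4 * η) := by
      rw [← Real.rpow_natCast, ← Real.rpow_mul (by positivity),
        show (1 + 2 * η) * ((2 : ℕ) : ℝ) = 1 + (1 + 4 * η) by push_cast; ring,
        Real.rpow_add (by positivity), Real.rpow_one]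
    have h5 : (tc⁻¹) ^ (1 + 4 * η) ≤ (sK⁻¹) ^ (1 + 4 * η) :=
      Real.rpow_le_rpow (by positivity) (inv_anti₀ hsK hc) (by linarith)
    calc tc * X ^ 2 ≤ tc * (tc⁻¹ * (tc⁻¹) ^ (1 + 4 * η)) := by
          rw [← h4]; exact mul_le_mul_of_nonneg_left h2 hc0.le
      _ = (tc⁻¹) ^ (1 + 4 * η) := by field_simp
      _ ≤ _ := h5
  refine ⟨fun k => if k < fi t sK then (t (k + 1) - t k) * (R₂ ^ 3 * X) ^ 2 else
    if k ≤ fi t T then l k else 0, fun k => ?_, ?_, ?_⟩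
  · beta_reduce
    split_ifs with h1 h2
    · exact mul_nonneg (sub_nonneg.2 (h.tm.mono k)) (sq_nonneg _)
    · exact (hl1 k (not_lt.1 h1) h2).1
    · exact le_rfl
  · rw [← Finset.sum_Ico_consecutive _ (Nat.zero_le (fi t sK)) h.k0_le_N]
    have h1 : ∑ k ∈ Ico 0 (fi t sK), (if k < fi t sK then (t (k + 1) - t k) * (R₂ ^ 3 * X) ^ 2
        else if k ≤ fi t T then l k else 0) ≤ 3 * tc * (R₂ ^ 3 * X) ^ 2 := by
      rw [Finset.sum_congr rfl fun k hk => if_pos (Finset.mem_Ico.1 hk).2, ← Finset.sum_mul]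
      exact mul_le_mul_of_nonneg_right (h.early_sum.trans (by linarith)) (sq_nonneg _)
    have h2 : ∑ k ∈ Ico (fi t sK) (fi t T), (if k < fi t sK then
        (t (k + 1) - t k) * (R₂ ^ 3 * X) ^ 2 else if k ≤ fi t T then l k else 0) =
        ∑ k ∈ Ico (fi t sK) (fi t T), l k :=
      Finset.sum_congr rfl fun k hk => by
        rw [if_neg (not_lt.2 (Finset.mem_Ico.1 hk).1), if_pos (Finset.mem_Ico.1 hk).2.le]
    rw [h2]
    have h4 := mul_le_mul_of_nonneg_left hXb (by positivity : 0 ≤ 2 + 4 * R₂ ^ 6)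
    have h5 : 3 * tc * (R₂ ^ 3 * X) ^ 2 + (2 + (R₂ ^ 3) ^ 2) * tc * X ^ 2 =
        (2 + 4 * R₂ ^ 6) * (tc * X ^ 2) := by ring
    linarith
  · intro n P G V hV k hk
    have h1 := hl3 hV.flag hV.rc hV.f1 hV.f2
    have hPN : F.sq (P (fi t T) *ᵥ V (fi t T)) ≤ F.sq (V (fi t T)) := by
      rw [← nv_sq, ← nv_sq]
      exact pow_le_pow_left₀ (nv_nonneg _) (hV.flag.nv_le _ _) 2
    by_cases hk0 : k < fi t sK
    · simp only [if_pos hk0]
      rw [mul_assoc]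
      refine mul_le_mul_of_nonneg_left ?_ (sub_nonneg.2 (h.tm.mono k))
      have h2 := (h1 _ le_rfl h.k0_le_N).trans (mul_le_mul (hl1 _ le_rfl h.k0_le_N).2 hPN
        (sqN_nonneg _) (mul_nonneg (sub_nonneg.2 (h.tm.mono _)) (sq_nonneg _)))
      rw [mul_assoc] at h2
      have h4 := le_of_mul_le_mul_left h2 (sub_pos.2 (h.tm.lt _))
      refine le_trans ?_ h4
      rw [const_down hV.e1 hk0, hV.e2, Matrix.mulVec_smul, ← nv_sq, ← nv_sq, nv_smul,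
        abs_of_nonneg hτ0]
      have b1 := flag_nv_le hV.flag hk0.le (V (fi t sK))
      have c1 := nv_nonneg (P k *ᵥ V (fi t sK))
      exact pow_le_pow_left₀ (mul_nonneg hτ0 c1) (by nlinarith) 2
    · simp only [if_neg hk0, if_pos hk.le]
      exact (h1 k (not_lt.1 hk0) hk.le).trans
        (mul_le_mul_of_nonneg_left hPN (hl1 k (not_lt.1 hk0) hk.le).1)

end Vale.Agent.N150.Asm
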