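import Vale.Agent.N150.AsmCon

/-! P150 at the critical point: from planted bounds to the Haar measure, and from a tracked path to
the level statement. -/

open Matrix MeasureTheory Filter Topology Finset

namespace Vale.Agent.N150.Asm

open Vale.Agent.P150 Vale.Agent.P150.F Vale.Agent.N150.Sp Vale.Agent.N150.Plant

variable {n : ℕ}

/-- a planted bad set whose small quenched probability gives `Pr` -/
def LevQ (lam : Vec n) (Q : OG n → Prop) (M K : ℝ) (Pr : OG n → Prop) : Prop :=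
  ∃ Bad : Set ((OG n × Cfg n) × (ℕ → Vec n)),
    (plN n (diagonal lam) 0).real Bad ≤ M * Real.exp (-(5 * K)) ∧
    ∀ O, Q O → PE (gM (JO lam O) 0) (fun x ω => ((O, x), ω) ∈ Bad) ≤ Real.exp (-(2 * K)) → Pr O

theorem haar_le (lam : Vec n) (EG : OG n → Prop) {Q : OG n → Prop} {ok : ℕ → Prop}
    {Pr : ℕ → OG n → Prop} {M x : ℝ} (hM : 0 ≤ M) (hx : 0 ≤ x)
    (hok : ∀ j, ok j → j < n ∧ Real.exp (-(2 : ℝ) ^ j) ≤ x)
    (h : ∀ j, ok j → LevQ lam Q M (2 ^ j) (Pr j)) :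
    (haar n).real {O | EG O ∧ ¬∀ j, ok j → Pr j O} ≤ (haar n).real {O | EG O ∧ ¬Q O}
      + ((haar n).real {O | LR (diagonal lam) 0 O < 1 / 2} + 2 * n * M * x) := by
  classical
  choose! Bad h1 h2 using h
  set T := (range n).filter ok with hT
  have h3 := quenched_family (m := n) (diagonal lam) 0 T Bad (ε := 1 / 2) (by norm_num)
    (d := fun j => Real.exp (-(2 * 2 ^ j))) fun _ _ => Real.exp_pos _
  have h4 : ∑ j ∈ T, (plN n (diagonal lam) 0).real (Bad j) / (1 / 2 * Real.exp (-(2 * 2 ^ j)))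
      ≤ 2 * n * M * x := by
    have h5 : ∀ j ∈ T, (plN n (diagonal lam) 0).real (Bad j) / (1 / 2 * Real.exp (-(2 * 2 ^ j)))
        ≤ 2 * M * x := by
      intro j hj
      have hj' := (Finset.mem_filter.1 hj).2
      rw [div_le_iff₀ (by positivity)]
      refine (h1 j hj').trans ?_
      have h6 : Real.exp (-(5 * (2 : ℝ) ^ j)) ≤ x * Real.exp (-(2 * 2 ^ j)) := by
        refine le_trans ?_ (mul_le_mul_of_nonneg_right (hok j hj').2 (Real.exp_pos _).le)
        rw [← Real.exp_add]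
        have : (0 : ℝ) < 2 ^ j := by positivity
        exact Real.exp_le_exp.2 (by linarith)
      have h7 := mul_le_mul_of_nonneg_left h6 hM
      linarith
    refine (Finset.sum_le_sum h5).trans ?_
    rw [Finset.sum_const, nsmul_eq_mul]
    have h6 : (T.card : ℝ) ≤ n := by
      exact_mod_cast (Finset.card_filter_le _ _).trans (Finset.card_range n).le
    have h7 := mul_le_mul_of_nonneg_right h6 (show 0 ≤ 2 * M * x by positivity)
    linarith
  refine le_trans (Tail.real_or_le _ fun O hO => ?_) (add_le_add le_rfl (h3.trans (by linarith)))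
  by_cases hQ : Q O
  · right
    obtain ⟨j, hj⟩ := not_forall.1 hO.2
    obtain ⟨hj1, hj2⟩ := Classical.not_imp.1 hj
    refine ⟨j, Finset.mem_filter.2 ⟨Finset.mem_range.2 (hok j hj1).1, hj1⟩, ?_⟩
    rw [Matrix.mulVec_zero]
    exact (not_le.1 fun hc => hj2 (h2 j hj1 O hQ hc)).le
  · exact Or.inl ⟨hO.1, hQ⟩

/-- the final arithmetic at one level -/
theorem pathAt_of {m : ℕ} {S : Type} [MeasurableSpace S] {P : Proc n m S} {A : S → Mat n}
    {mh : S → Vec n} {rem : S → Cfg n → Vec m → Vec n} {Lay : ℕ → Set S} {s0 : S} {N : ℕ}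
    {C lam d B p CT θ K a mt η Λ : ℝ} {l mm : ℕ → ℝ}
    (hT : A1.Track P A mh rem Lay s0 0 N C lam d B l mm fun _ => p)
    (hE : A1.TermAt P s0 N CT θ θ) (hCT : 0 ≤ CT) (hθ : 0 ≤ θ) (hmm : ∀ k < N, mm k ≤ 1 / 6)
    (hl : 1 + 3 / 2 * ∑ k ∈ Ico 0 N, l k ≤ Λ) (ha : Λ * CT ≤ a) (hm : ∑ k ∈ Ico 0 N, mm k ≤ mt)
    (h1 : Λ * (Real.exp (2 * K) * θ + θ) ≤ η / 3)
    (h2 : 6 * (n + 1) * B * Real.exp K * (N * p) ≤ η / 3)
    (h3 : N * (A1.K0 * lam ^ 3 * (d * √d)) ≤ η / 3) : A1.PathAt (P.law s0) K a mt η := by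
  rw [← Finset.range_eq_Ico] at hl hm
  refine ⟨m, S, inferInstance, P, A, mh, rem, Lay, s0, N, C, lam, d, B, l, mm, fun _ => p, CT, θ, θ,
    rfl, hT, hE, hCT, hθ, hθ, hmm, (mul_le_mul_of_nonneg_right hl hCT).trans ha, hm, ?_⟩
  rw [Finset.sum_const, Finset.card_range, nsmul_eq_mul]
  have h4 := mul_le_mul_of_nonneg_right hl (show 0 ≤ Real.exp (2 * K) * θ + θ by positivity)
  linarith

theorem exp_neg_le {a : ℕ} {K : ℝ} (hn : 0 < n) (h : a * Real.log n ≤ K) :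
    Real.exp (-K) ≤ ((n : ℝ) ^ a)⁻¹ := by
  have h0 : (0 : ℝ) < n := by exact_mod_cast hn
  rw [← Real.exp_log (show 0 < (n : ℝ) ^ a by positivity), ← Real.exp_neg, Real.log_pow]
  exact Real.exp_le_exp.2 (by linarith)

theorem lt_of_pow_le {j : ℕ} (h : (2 : ℝ) ^ j ≤ n) : j < n := by
  have h1 : j < 2 ^ j := Nat.lt_two_pow_self
  have h2 : 2 ^ j ≤ n := by exact_mod_cast h
  omega

end Vale.Agent.N150.Asm
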