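import Mathlib
import Vale.Agent.N150.Red
import Vale.Agent.N150.EndDefs
import Vale.Agent.N150.A1Lev

/-! Reduction of the disorder to a Haar frame in the presence of a second independent GOE matrix
and of an auxiliary typical event; the upper bound from the path statement in the Haar frame. -/

open MeasureTheory ProbabilityTheory Matrix Filter Topology
open scoped ENNReal

namespace Vale.Agent.N150.Red

open Vale.Agent.P150 Vale.Agent.P150.F Vale.Agent.N150.Edge Vale.Agent.N150.Sp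
open Vale.Agent.N150.End (goe PW)

variable {n : ℕ}

/-! ### the action of the orthogonal group on the Gaussian coordinates -/

/-- the Gaussian coordinates of the GOE -/
abbrev Om (n : ℕ) : Type := (Pairs n → ℝ) × Vec n

instance : IsProbabilityMeasure (PW n) := by
  unfold PW disorder
  infer_instance

theorem goe_eq (w : Om n) : goe w = goeF w.1 w.2 := rfl

theorem continuous_goe : Continuous (goe : Om n → Mat n) := continuous_goeF

theorem goe_symm (w : Om n) : (goe w).IsSymm := by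
  ext a b
  rw [Matrix.transpose_apply, goe_eq, goeF_apply, goeF_apply, gsym_comm]
  by_cases h : a = b
  · subst h
    rfl
  · rw [if_neg h, if_neg (Ne.symm h)]

/-- the coordinates of a symmetric matrix -/
noncomputable def ungoe (J : Fin n → Fin n → ℝ) : Om n :=
  (fun p => √(n : ℝ) * J p.1.1 p.1.2, fun a => J a a / √(2 / (n : ℝ)))

theorem continuous_ungoe : Continuous (ungoe : (Fin n → Fin n → ℝ) → Om n) := by
  unfold ungoe
  fun_prop

theorem goe_ungoe {J : Mat n} (hJ : J.IsSymm) : goe (ungoe (ent J)) = J := by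
  ext a b
  have hn : (0 : ℝ) < n := by exact_mod_cast a.pos
  have h1 : √(n : ℝ) ≠ 0 := by positivity
  have h2 : √(2 / (n : ℝ)) ≠ 0 := by positivity
  rw [goe_eq, goeF_apply]
  unfold gsym ungoe ent
  rcases lt_trichotomy a b with h | h | h
  · rw [dif_pos h, if_neg h.ne]
    field_simp
    ring
  · subst h
    rw [dif_neg (lt_irrefl a), dif_neg (lt_irrefl a), if_pos rfl]
    field_simp
    ring
  · rw [dif_neg h.not_gt, dif_pos h, if_neg h.ne', ← hJ.apply a b]
    field_simp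
    ring

theorem ungoe_goe (w : Om n) : ungoe (ent (goe w)) = w := by
  refine Prod.ext (funext fun p => ?_) (funext fun a => ?_)
  · have hn : (0 : ℝ) < n := by exact_mod_cast p.1.1.pos
    have h1 : √(n : ℝ) ≠ 0 := by positivity
    show √(n : ℝ) * goeF w.1 w.2 p.1.1 p.1.2 = w.1 p
    rw [goeF_apply, if_neg p.2.ne]
    unfold gsym
    rw [dif_pos p.2]
    field_simp
    ring
  · have hn : (0 : ℝ) < n := by exact_mod_cast a.pos
    have h2 : √(2 / (n : ℝ)) ≠ 0 := by positivity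
    show goeF w.1 w.2 a a / √(2 / (n : ℝ)) = w.2 a
    rw [goeF_apply, if_pos rfl]
    unfold gsym
    rw [dif_neg (lt_irrefl a), dif_neg (lt_irrefl a)]
    field_simp
    ring

theorem isSymm_conj {J : Mat n} (hJ : J.IsSymm) (O : Mat n) : (Oᵀ * J * O).IsSymm := by
  unfold Matrix.IsSymm
  rw [Matrix.transpose_mul, Matrix.transpose_mul, Matrix.transpose_transpose, hJ.eq,
    Matrix.mul_assoc]

/-- conjugation by `O`, read on the coordinates -/
noncomputable def cj (O : OG n) (w : Om n) : Om n := ungoe (ent (O.1ᵀ * goe w * O.1))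

theorem goe_cj (O : OG n) (w : Om n) : goe (cj O w) = O.1ᵀ * goe w * O.1 :=
  goe_ungoe (isSymm_conj (goe_symm w) _)

theorem continuous_cj' {α : Type*} [TopologicalSpace α] {O : α → OG n} {w : α → Om n}
    (hO : Continuous O) (hw : Continuous w) : Continuous fun a => cj (O a) (w a) :=
  continuous_ungoe.comp (((continuous_val.comp hO).matrix_transpose.matrix_mul
    (continuous_goe.comp hw)).matrix_mul (continuous_val.comp hO))

theorem mp_cj (O : OG n) : MeasurePreserving (cj O) (PW n) (PW n) := by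
  have hc : Continuous (cj O) := continuous_cj' continuous_const continuous_id
  refine ⟨hc.measurable, Measure.ext fun s hs => ?_⟩
  have hu : Measurable (ungoe : (Fin n → Fin n → ℝ) → Om n) := continuous_ungoe.measurable
  have hcj : Continuous fun J : Fin n → Fin n → ℝ => ent (O.1ᵀ * Matrix.of J * O.1) :=
    (continuous_const.matrix_mul continuous_id).matrix_mul continuous_const
  have hΦ : Measurable fun J : Fin n → Fin n → ℝ => s.indicator (1 : Om n → ℝ≥0∞) (ungoe J) :=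
    (measurable_one.indicator hs).comp hu
  have e1 := lint_goeF hΦ
  have e2 := lint_goeF (hΦ.comp hcj.measurable)
  have hm : Measurable fun v : Fin n × Fin n → ℝ =>
      s.indicator (1 : Om n → ℝ≥0∞) (ungoe (ent (Law.toM v))) :=
    hΦ.comp (measurable_pi_iff.2 fun a => measurable_pi_iff.2 fun b => measurable_pi_apply (a, b))
  have e3 := Law.lintegral_goe_conj (goeFam_famA (n := n)) (O := O.1ᵀ)
    (by rw [Matrix.transpose_transpose]; exact OG.mul_transpose O)
    (G := fun J => s.indicator (1 : Om n → ℝ≥0∞) (ungoe (ent J))) hm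
  rw [Matrix.transpose_transpose] at e3
  rw [Measure.map_apply hc.measurable hs, ← lintegral_indicator_one (hc.measurable hs),
    ← lintegral_indicator_one hs]
  calc _ = _ := e2
    _ = _ := e3
    _ = _ := e1.symm
    _ = _ := lintegral_congr fun w => by rw [← goe_eq, ungoe_goe]

/-- averaging a set of pairs over the frame -/
theorem pair_avg {M : Set (Om n × Om n)} (hM : MeasurableSet M) :
    ((PW n).prod (PW n)) M =
      ∫⁻ p, haar n {O | (cj O p.1, cj O p.2) ∈ M} ∂((PW n).prod (PW n)) := by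
  have hc : Continuous fun q : (Om n × Om n) × OG n => (cj q.2 q.1.1, cj q.2 q.1.2) :=
    (continuous_cj' continuous_snd (continuous_fst.comp continuous_fst)).prodMk
      (continuous_cj' continuous_snd (continuous_snd.comp continuous_fst))
  have hS := hc.measurable hM
  have e1 := Measure.prod_apply (μ := (PW n).prod (PW n)) (ν := haar n) hS
  have e2 := Measure.prod_apply_symm (μ := (PW n).prod (PW n)) (ν := haar n) hS
  have e3 : ∀ O : OG n, ((PW n).prod (PW n)) ((fun p => (p, O)) ⁻¹'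
      ((fun q : (Om n × Om n) × OG n => (cj q.2 q.1.1, cj q.2 q.1.2)) ⁻¹' M)) =
      ((PW n).prod (PW n)) M := fun O =>
    ((mp_cj O).prod (mp_cj O)).measure_preimage hM.nullMeasurableSet
  simp only [e3, lintegral_const, measure_univ, mul_one] at e2
  rw [← e2, e1]
  rfl

theorem measurable_pair_avg {M : Set (Om n × Om n)} (hM : MeasurableSet M) :
    Measurable fun p : Om n × Om n => haar n {O | (cj O p.1, cj O p.2) ∈ M} := by
  have hc : Continuous fun q : (Om n × Om n) × OG n => (cj q.2 q.1.1, cj q.2 q.1.2) :=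
    (continuous_cj' continuous_snd (continuous_fst.comp continuous_fst)).prodMk
      (continuous_cj' continuous_snd (continuous_snd.comp continuous_fst))
  exact measurable_measure_prodMk_left (hc.measurable hM)

/-! ### the mixture of two independent GOE matrices -/

/-- the family of `b J₁ + σ W` -/
noncomputable def famB (n : ℕ) (b σ : ℝ) : (Pairs n ⊕ Fin n) ⊕ (Pairs n ⊕ Fin n) → Mat n :=
  Sum.elim (fun i => b • famA n i) (fun i => σ • famA n i)

theorem goeFam_famB {b σ : ℝ} (h : b ^ 2 + σ ^ 2 = 1) : GoeFam (famB n b σ) := by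
  have hA := goeFam_famA (n := n)
  refine ⟨fun i a c => ?_, fun a c d e => ?_⟩
  · rcases i with i | i <;>
      simp only [famB, Sum.elim_inl, Sum.elim_inr, Matrix.smul_apply, hA.symm i a c]
  · rw [Fintype.sum_sum_type, ← hA.cov a c d e, ← Finset.sum_add_distrib]
    refine Finset.sum_congr rfl fun i _ => ?_
    simp only [famB, Sum.elim_inl, Sum.elim_inr, Matrix.smul_apply, smul_eq_mul]
    linear_combination (famA n i a c * famA n i d e) * h

/-- the two halves of the coordinates -/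
def sp2 (ω : (Pairs n ⊕ Fin n) ⊕ (Pairs n ⊕ Fin n) → ℝ) : Om n × Om n :=
  ((fun p => ω (Sum.inl (Sum.inl p)), fun a => ω (Sum.inl (Sum.inr a))),
    (fun p => ω (Sum.inr (Sum.inl p)), fun a => ω (Sum.inr (Sum.inr a))))

theorem mp_sp2 : MeasurePreserving sp2 (gpi ((Pairs n ⊕ Fin n) ⊕ (Pairs n ⊕ Fin n)))
    ((PW n).prod (PW n)) :=
  (mp_split.prod mp_split).comp (measurePreserving_sumPiEquivProdPi
    (X := fun _ : (Pairs n ⊕ Fin n) ⊕ (Pairs n ⊕ Fin n) => ℝ) (fun _ => gaussianReal 0 1))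

theorem goeM_famB (b σ : ℝ) (ω : (Pairs n ⊕ Fin n) ⊕ (Pairs n ⊕ Fin n) → ℝ) :
    goeM (famB n b σ) ω = b • goe (sp2 ω).1 + σ • goe (sp2 ω).2 := by
  have e1 : goe (sp2 ω).1 = goeM (famA n) fun i => ω (Sum.inl i) :=
    (goeM_famA fun i => ω (Sum.inl i)).symm
  have e2 : goe (sp2 ω).2 = goeM (famA n) fun i => ω (Sum.inr i) :=
    (goeM_famA fun i => ω (Sum.inr i)).symm
  rw [e1, e2]
  unfold goeM
  rw [Fintype.sum_sum_type, Finset.smul_sum, Finset.smul_sum]
  simp only [famB, Sum.elim_inl, Sum.elim_inr, smul_comm b, smul_comm σ]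

/-- the mixture has the law of the GOE -/
theorem mix_eq {b σ : ℝ} (h : b ^ 2 + σ ^ 2 = 1) {Bad : Set (Fin n → Fin n → ℝ)}
    (hB : MeasurableSet Bad) :
    gpi (Pairs n ⊕ Fin n) {ω | ent (goeM (famA n) ω) ∈ Bad} =
      ((PW n).prod (PW n)) {p | ent (b • goe p.1 + σ • goe p.2) ∈ Bad} := by
  have hm : Measurable fun v : Fin n × Fin n → ℝ =>
      Bad.indicator (1 : (Fin n → Fin n → ℝ) → ℝ≥0∞) (ent (Law.toM v)) :=
    (measurable_one.indicator hB).comp
      (measurable_pi_iff.2 fun a => measurable_pi_iff.2 fun b => measurable_pi_apply (a, b))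
  have e := Law.lintegral_goe_eq (goeFam_famA (n := n)) (goeFam_famB (n := n) h)
    (G := fun J => Bad.indicator (1 : (Fin n → Fin n → ℝ) → ℝ≥0∞) (ent J)) hm
  have m1 : Measurable fun ω : Pairs n ⊕ Fin n → ℝ => ent (goeM (famA n) ω) :=
    measurable_ent (Law.continuous_goeM _)
  have m2 : Measurable fun ω => ent (goeM (famB n b σ) ω) := measurable_ent (Law.continuous_goeM _)
  have m3 : Measurable fun p : Om n × Om n => ent (b • goe p.1 + σ • goe p.2) :=
    measurable_ent (((continuous_goe.comp continuous_fst).const_smul b).add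
      ((continuous_goe.comp continuous_snd).const_smul σ))
  calc _ = _ := (lintegral_indicator_one (m1 hB)).symm
    _ = _ := e
    _ = gpi _ ((fun ω => ent (goeM (famB n b σ) ω)) ⁻¹' Bad) := lintegral_indicator_one (m2 hB)
    _ = _ := by
      refine Eq.trans ?_ (mp_sp2.measure_preimage (m3 hB).nullMeasurableSet)
      congr 1
      ext ω
      simp only [Set.mem_preimage, goeM_famB]
      rfl

/-- **reduction lemma for pairs**: `Bad` is a measurable set of matrices, `EG` any relation -/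
theorem pair_le {b σ : ℝ} (hb : b ^ 2 + σ ^ 2 = 1) {Bad : Set (Fin n → Fin n → ℝ)}
    (hB : MeasurableSet Bad) (EG : Mat n → Mat n → Prop) (S : Vec n → Prop) {c : ℝ≥0∞}
    (h : ∀ (lam : Vec n) (J W : Mat n), J.IsSymm → W.IsSymm → S lam →
      b • J + σ • W = Matrix.diagonal lam →
      haar n {O | EG (O.1ᵀ * J * O.1) (O.1ᵀ * W * O.1) ∧ ent (JO lam O) ∈ Bad} ≤ c) :
    gpi (Pairs n ⊕ Fin n) {ω | ent (goeM (famA n) ω) ∈ Bad} ≤
      ((PW n).prod (PW n)) {p | ¬ EG (goe p.1) (goe p.2)} + (c +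
        gpi _ {ω | ¬ ∀ O lam, IsEig (goeM (famB n b σ) ω) O lam → S lam}) := by
  set N := toMeasurable ((PW n).prod (PW n)) {p | ¬ EG (goe p.1) (goe p.2)} with hN
  have m3 : Measurable fun p : Om n × Om n => ent (b • goe p.1 + σ • goe p.2) :=
    measurable_ent (((continuous_goe.comp continuous_fst).const_smul b).add
      ((continuous_goe.comp continuous_snd).const_smul σ))
  set M : Set (Om n × Om n) := Nᶜ ∩ {p | ent (b • goe p.1 + σ • goe p.2) ∈ Bad} with hM
  have hMm : MeasurableSet M := (measurableSet_toMeasurable _ _).compl.inter (m3 hB)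
  have h1 : ((PW n).prod (PW n)) {p | ent (b • goe p.1 + σ • goe p.2) ∈ Bad} ≤
      ((PW n).prod (PW n)) N + ((PW n).prod (PW n)) M := by
    refine le_trans (measure_mono fun p hp => ?_) (measure_union_le _ _)
    by_cases hp' : p ∈ N
    · exact Or.inl hp'
    · exact Or.inr ⟨hp', hp⟩
  rw [mix_eq hb hB]
  refine h1.trans (add_le_add (measure_toMeasurable _).le ?_)
  set B := {ω | ¬ ∀ O lam, IsEig (goeM (famB n b σ) ω) O lam → S lam} with hBd
  have hBm := measurableSet_toMeasurable (gpi _) B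
  rw [pair_avg hMm, ← mp_sp2.lintegral_comp (measurable_pair_avg hMm), ← measure_toMeasurable B,
    ← lintegral_indicator_one hBm]
  have e : c = ∫⁻ _ω, c ∂(gpi ((Pairs n ⊕ Fin n) ⊕ (Pairs n ⊕ Fin n))) := by simp
  rw [e, ← lintegral_add_left measurable_const]
  refine lintegral_mono fun ω => ?_
  by_cases hω : ω ∈ toMeasurable (gpi _) B
  · rw [Set.indicator_of_mem hω]
    exact le_trans prob_le_one le_add_self
  · have h2 : ω ∉ B := fun h2 => hω (subset_toMeasurable _ _ h2)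
    rw [hBd, Set.mem_ofPred_eq, not_not] at h2
    obtain ⟨V, lam, hV⟩ := exists_isEig (M := goeM (famB n b σ) ω) (by
      ext a c
      exact Law.goeM_symm (goeFam_famB hb) ω c a)
    have hV' : V * Vᵀ = 1 := mul_eq_one_comm.1 hV.1
    set p := sp2 ω with hp
    have s1 : (V * goe p.1 * Vᵀ).IsSymm := by
      simpa only [Matrix.transpose_transpose] using isSymm_conj (goe_symm p.1) Vᵀ
    have s2 : (V * goe p.2 * Vᵀ).IsSymm := by
      simpa only [Matrix.transpose_transpose] using isSymm_conj (goe_symm p.2) Vᵀ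
    have s3 : b • (V * goe p.1 * Vᵀ) + σ • (V * goe p.2 * Vᵀ) = Matrix.diagonal lam := by
      have e0 : b • (V * goe p.1 * Vᵀ) + σ • (V * goe p.2 * Vᵀ) =
          V * (b • goe p.1 + σ • goe p.2) * Vᵀ := by
        rw [Matrix.mul_add, Matrix.add_mul, Matrix.mul_smul, Matrix.mul_smul, Matrix.smul_mul,
          Matrix.smul_mul]
      rw [e0, hp, ← goeM_famB, hV.2]
      simp only [← Matrix.mul_assoc, hV', Matrix.one_mul]
      rw [Matrix.mul_assoc, hV', Matrix.mul_one]
    refine le_trans ?_ (le_trans (h lam _ _ s1 s2 (h2 V lam hV) s3) le_self_add)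
    set U : OG n := OG.mk' V hV' with hU
    have key : {O : OG n | (cj O p.1, cj O p.2) ∈ M} ⊆ (fun O => U * O) ⁻¹'
        {O | EG (O.1ᵀ * (V * goe p.1 * Vᵀ) * O.1) (O.1ᵀ * (V * goe p.2 * Vᵀ) * O.1) ∧
          ent (JO lam O) ∈ Bad} := by
      intro O hO
      have t : ∀ X : Mat n, (U * O).1ᵀ * (V * X * Vᵀ) * (U * O).1 = O.1ᵀ * X * O.1 := by
        intro X
        rw [OG.coe_mul, hU, OG.mk'_val, Matrix.transpose_mul]
        simp only [← Matrix.mul_assoc]
        rw [Matrix.mul_assoc O.1ᵀ Vᵀ V, hV.1, Matrix.mul_one, Matrix.mul_assoc _ Vᵀ V, hV.1,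
          Matrix.mul_one]
      refine ⟨?_, ?_⟩
      · rw [t, t, ← goe_cj, ← goe_cj]
        by_contra hc
        exact hO.1 (subset_toMeasurable _ _ hc)
      · have h3 : ent (b • goe (cj O p.1) + σ • goe (cj O p.2)) ∈ Bad := hO.2
        unfold JO
        rw [← s3, Matrix.mul_add, Matrix.add_mul, Matrix.mul_smul, Matrix.mul_smul,
          Matrix.smul_mul, Matrix.smul_mul, t, t, ← goe_cj, ← goe_cj]
        exact h3
    exact (measure_mono key).trans (measure_preimage_mul (haar n) U _).le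

/-- the data of the reduction: the mixture, the rigidity scale, the auxiliary typical event -/
structure Aux (b σ : ℝ) (w : ℕ → ℝ) (EG : ∀ n : ℕ, Mat n → Mat n → Prop) : Prop where
  sq : b ^ 2 + σ ^ 2 = 1
  hw : Tendsto w atTop atTop
  hw1 : ∀ᶠ n : ℕ in atTop, w n * (n : ℝ) ^ (-(2 / 3 : ℝ)) ≤ 1
  eg : Tendsto (fun n => ((PW n).prod (PW n)) {p | ¬ EG n (goe p.1) (goe p.2)}) atTop (𝓝 0)

/-- uniformly over the frame data, `Bad` is unlikely on the auxiliary event -/
def Small (b σ : ℝ) (w : ℕ → ℝ) (EG : ∀ n : ℕ, Mat n → Mat n → Prop)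
    (Bad : ∀ n : ℕ, Vec n → OG n → Prop) : Prop :=
  ∀ δ : ℝ, 0 < δ → ∀ᶠ n : ℕ in atTop, ∀ (lam : Vec n) (J W : Mat n), J.IsSymm → W.IsSymm →
    Rigid (w n) lam → b • J + σ • W = Matrix.diagonal lam →
    (haar n).real {O | EG n (O.1ᵀ * J * O.1) (O.1ᵀ * W * O.1) ∧ Bad n lam O} ≤ δ

theorem Small.mono {b σ : ℝ} {w : ℕ → ℝ} {EG : ∀ n : ℕ, Mat n → Mat n → Prop}
    {Bad Bad' : ∀ n : ℕ, Vec n → OG n → Prop} (h : Small b σ w EG Bad)
    (h' : ∀ᶠ n : ℕ in atTop, ∀ lam O, Bad' n lam O → Bad n lam O) : Small b σ w EG Bad' := by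
  intro δ hδ
  filter_upwards [h δ hδ, h'] with n a1 a2 lam J W s1 s2 s3 s4
  refine le_trans (measureReal_mono ?_) (a1 lam J W s1 s2 s3 s4)
  exact fun O hO => ⟨hO.1, a2 lam O hO.2⟩

theorem rigid_tendsto' {ι : ℕ → Type} [∀ n, Fintype (ι n)] {A : ∀ n, ι n → Mat n}
    (hA : ∀ n, GoeFam (A n)) {w : ℕ → ℝ} (hw : Tendsto w atTop atTop)
    (hw1 : ∀ᶠ n : ℕ in atTop, w n * (n : ℝ) ^ (-(2 / 3 : ℝ)) ≤ 1) :
    Tendsto (fun n => gpi (ι n) {ω | ¬ RigidM (w n) (goeM (A n) ω)}) atTop (𝓝 0) := by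
  obtain ⟨C, -, hC⟩ := rigid_stmt
  have h1 : Tendsto (fun n => ENNReal.ofReal (C * w n ^ (-(1 / 4 : ℝ)))) atTop (𝓝 0) := by
    have h2 := ((tendsto_rpow_neg_atTop (y := 1 / 4) (by norm_num)).comp hw).const_mul C
    rw [mul_zero] at h2
    simpa using ENNReal.tendsto_ofReal h2
  refine tendsto_of_tendsto_of_tendsto_of_le_of_le' tendsto_const_nhds h1
    (Eventually.of_forall fun n => zero_le) ?_
  filter_upwards [hw.eventually_ge_atTop 1, hw1, eventually_gt_atTop 0] with n a1 a2 a3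
  exact hC (w n) n a1 a2 a3 _ _ (hA n)

/-- **reduction theorem with an auxiliary event**: a measurable set of matrices is typical for the
GOE as soon as leaving it is unlikely in the Haar frame, on the auxiliary event -/
theorem goe_tendsto {b σ : ℝ} {w : ℕ → ℝ} {EG : ∀ n : ℕ, Mat n → Mat n → Prop}
    (hA : Aux b σ w EG) {T : ∀ n : ℕ, Set (Fin n → Fin n → ℝ)} (hT : ∀ n, MeasurableSet (T n))
    (h : Small b σ w EG fun n lam O => ent (JO lam O) ∉ T n) :
    Tendsto (fun n => PW n {p | ent (goe p) ∉ T n}) atTop (𝓝 0) := by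
  rw [ENNReal.tendsto_nhds_zero]
  intro ε hε
  obtain ⟨δ, hδ0, hδ⟩ : ∃ δ : ℝ, 0 < δ ∧
      ENNReal.ofReal δ + (ENNReal.ofReal δ + ENNReal.ofReal δ) ≤ ε := by
    by_cases ht : ε = ⊤
    · exact ⟨1, one_pos, ht ▸ le_top⟩
    · have h0 := ENNReal.toReal_pos hε.ne' ht
      refine ⟨ε.toReal / 3, by positivity, le_of_eq ?_⟩
      rw [← ENNReal.ofReal_add (by positivity) (by positivity),
        ← ENNReal.ofReal_add (by positivity) (by positivity)]
      rw [show ε.toReal / 3 + (ε.toReal / 3 + ε.toReal / 3) = ε.toReal by ring,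
        ENNReal.ofReal_toReal ht]
  have h1 := (ENNReal.tendsto_nhds_zero.1 (rigid_tendsto' (fun n => goeFam_famB (n := n) hA.sq)
    hA.hw hA.hw1)) (ENNReal.ofReal δ) (ENNReal.ofReal_pos.2 hδ0)
  have h2 := (ENNReal.tendsto_nhds_zero.1 hA.eg) (ENNReal.ofReal δ) (ENNReal.ofReal_pos.2 hδ0)
  filter_upwards [h δ hδ0, h1, h2] with n a1 a2 a3
  have h3 := pair_le hA.sq (hT n).compl (EG n) (Rigid (w n)) (c := ENNReal.ofReal δ)
    fun lam J W s1 s2 s3 s4 =>
      (ENNReal.le_ofReal_iff_toReal_le (measure_ne_top _ _) hδ0.le).2 (a1 lam J W s1 s2 s3 s4)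
  have h4 : PW n {p | ent (goe p) ∉ T n} =
      gpi (Pairs n ⊕ Fin n) {ω | ent (goeM (famA n) ω) ∈ (T n)ᶜ} := by
    refine Eq.trans (mp_split.measure_preimage
      (measurable_ent continuous_goe (hT n).compl).nullMeasurableSet).symm ?_
    simp only [goeM_famA]
    rfl
  exact h4.le.trans (h3.trans ((add_le_add a3 (add_le_add le_rfl a2)).trans hδ))

/-- passing from the full matrix to the disorder -/
theorem whp_of_goe {T : ∀ n : ℕ, Mat n → Prop} {E : ∀ n : ℕ, Set (Pairs n → ℝ)}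
    (hE : ∀ n g d, T n (goe (g, d)) → g ∈ E n)
    (h : Tendsto (fun n => PW n {p | ¬ T n (goe p)}) atTop (𝓝 0)) : WHP E := by
  refine tendsto_of_tendsto_of_tendsto_of_le_of_le tendsto_const_nhds h (fun n => zero_le)
    fun n => ?_
  calc disorder n (E n)ᶜ = PW n ((E n)ᶜ ×ˢ Set.univ) := by
        unfold PW
        rw [Measure.prod_prod, measure_univ, mul_one]
    _ ≤ _ := measure_mono fun p hp hT => hp.1 (hE n p.1 p.2 hT)

theorem whp_of_small {b σ : ℝ} {w : ℕ → ℝ} {EG : ∀ n : ℕ, Mat n → Mat n → Prop}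
    (hA : Aux b σ w EG) {T : ∀ n : ℕ, Set (Fin n → Fin n → ℝ)} (hT : ∀ n, MeasurableSet (T n))
    {E : ∀ n : ℕ, Set (Pairs n → ℝ)} (hE : ∀ n g d, ent (goe (g, d)) ∈ T n → g ∈ E n)
    (h : Small b σ w EG fun n lam O => ent (JO lam O) ∉ T n) : WHP E :=
  whp_of_goe (T := fun n J => ent J ∈ T n) hE (goe_tendsto hA hT h)

/-- the one matrix form: `EG` is any typical property of the GOE matrix itself -/
theorem goe_tendsto_one {w : ℕ → ℝ} (hw : Tendsto w atTop atTop)
    (hw1 : ∀ᶠ n : ℕ in atTop, w n * (n : ℝ) ^ (-(2 / 3 : ℝ)) ≤ 1) {EG : ∀ n : ℕ, Mat n → Prop}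
    (hE : Tendsto (fun n => PW n {p | ¬ EG n (goe p)}) atTop (𝓝 0))
    {T : ∀ n : ℕ, Set (Fin n → Fin n → ℝ)} (hT : ∀ n, MeasurableSet (T n))
    (h : ∀ δ : ℝ, 0 < δ → ∀ᶠ n : ℕ in atTop, ∀ lam : Vec n, Rigid (w n) lam →
      (haar n).real {O | EG n (JO lam O) ∧ ent (JO lam O) ∉ T n} ≤ δ) :
    Tendsto (fun n => PW n {p | ent (goe p) ∉ T n}) atTop (𝓝 0) := by
  refine goe_tendsto (b := 1) (σ := 0) (EG := fun n J _ => EG n J) ⟨by norm_num, hw, hw1, ?_⟩ hT ?_
  · refine hE.congr fun n => ?_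
    have e : {p : Om n × Om n | ¬ EG n (goe p.1)} = {p | ¬ EG n (goe p)} ×ˢ Set.univ := by
      ext p
      simp
    rw [e, Measure.prod_prod, measure_univ, mul_one]
  · intro δ hδ
    filter_upwards [h δ hδ] with n a1 lam J W _ _ s3 s4
    rw [one_smul, zero_smul, add_zero] at s4
    subst s4
    exact a1 lam s3

/-! ### the two languages for the Gibbs measure -/

theorem gM_add_diag (J : Mat n) (D y : Vec n) : gM (J + Matrix.diagonal D) y = gM J y := by
  have h : ∀ x : Cfg n, qf (J + Matrix.diagonal D) (sv x) = qf J (sv x) + ∑ a, D a := by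
    intro x
    unfold qf ip
    rw [Matrix.add_mulVec, ← Finset.sum_add_distrib]
    refine Finset.sum_congr rfl fun a _ => ?_
    rw [Pi.add_apply, Matrix.mulVec_diagonal]
    have := sp_sq (x a)
    unfold sv
    linear_combination D a * this
  funext x
  unfold gM
  simp only [h, add_div, add_right_comm _ ((∑ a, D a) / 2), Real.exp_add _ ((∑ a, D a) / 2)]
  rw [← Finset.sum_mul, mul_div_mul_right _ _ (Real.exp_pos _).ne']

theorem gibbs_eq_gM {J : Mat n} (hJ : J.IsSymm) : gibbs J (fun _ => 0) = gM J 0 := by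
  set J0 : Mat n := J - Matrix.diagonal fun a => J a a with h0
  have e1 : gM J 0 = gM ((1 : ℝ) • J0) 0 := by
    rw [one_smul, ← gM_add_diag J0 fun a => J a a, h0, sub_add_cancel]
  have e2 := d8Bridge.gibbs_eq n J0 1 (fun a c => by
    rw [h0, Matrix.sub_apply, Matrix.sub_apply, hJ.apply a c]
    by_cases h : a = c
    · subst h
      rfl
    · rw [Matrix.diagonal_apply_ne _ h, Matrix.diagonal_apply_ne _ (Ne.symm h)])
    (fun a => by rw [h0, Matrix.sub_apply, Matrix.diagonal_apply_eq, sub_self])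
  rw [e1, ← e2]
  unfold gibbs
  rw [energy_congr (J := J) (J' := fun a c => 1 * J0 a c) fun a c h => by
    rw [h0, Matrix.sub_apply, Matrix.diagonal_apply_ne _ h, sub_zero, one_mul]]

theorem lev_iff_levM {J : Mat n} (hJ : J.IsSymm) (K E A : ℝ) :
    Lev J (fun _ => 0) K E A ↔ A1.LevM (gM J 0) K E A := by
  unfold Lev A1.LevM ex
  simp only [d8Bridge.dir_eq n J _ (fun a c => (hJ.apply a c).symm), gibbs_eq_gM hJ]
  rfl

theorem JO_symm (lam : Vec n) (O : OG n) : (JO lam O).IsSymm :=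
  isSymm_conj (Matrix.isSymm_diagonal lam) _

/-! ### the path statement in the Haar frame -/

/-- level inequalities for the disorder from tracked paths in the Haar frame, for any family of
levels -/
theorem whp_lev {b σ : ℝ} {w : ℕ → ℝ} {EG : ∀ n : ℕ, Mat n → Mat n → Prop} (hA : Aux b σ w EG)
    {ι : Type} (ok : ℕ → ι → Prop) (K a mt η : ℕ → ι → ℝ) (hK : ∀ n j, 0 ≤ K n j)
    (h : Small b σ w EG fun n lam O => ¬ ∀ j, ok n j →
      A1.PathAt (gM (JO lam O) 0) (K n j) (a n j) (mt n j) (η n j)) :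
    ∀ᶠ i in whpF, ∀ j, ok i.1 j →
      Lev (skJ 1 i.2) (fun _ => 0) (K i.1 j) (6 * mt i.1 j + η i.1 j) (a i.1 j) ∧
      Lev (skJ 1 i.2) (fun _ => 0) (K i.1 j) (Real.exp (6 * mt i.1 j) * η i.1 j)
        (Real.exp (6 * mt i.1 j) * a i.1 j) := by
  refine whp_of_small hA (T := fun n => {J | ∀ j, ok n j →
      Lev J (fun _ => 0) (K n j) (6 * mt n j + η n j) (a n j) ∧
      Lev J (fun _ => 0) (K n j) (Real.exp (6 * mt n j) * η n j) (Real.exp (6 * mt n j) * a n j)})
    (E := fun n => {g | ∀ j, ok n j →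
      Lev (skJ 1 g) (fun _ => 0) (K n j) (6 * mt n j + η n j) (a n j) ∧
      Lev (skJ 1 g) (fun _ => 0) (K n j) (Real.exp (6 * mt n j) * η n j)
        (Real.exp (6 * mt n j) * a n j)}) (fun n => ?_) ?_ (h.mono ?_)
  · refine IsClosed.measurableSet ?_
    simp only [Set.ofPred_forall]
    exact isClosed_iInter fun j => isClosed_iInter fun _ =>
      (isClosed_Lev _ _ _ _).inter (isClosed_Lev _ _ _ _)
  · intro n g d hd j hj
    exact ⟨(Lev_congr (goeF_off g d) _ _ _ _).1 (hd j hj).1,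
      (Lev_congr (goeF_off g d) _ _ _ _).1 (hd j hj).2⟩
  · refine Eventually.of_forall fun n lam O hO hP => hO fun j hj => ?_
    have h1 := (hP j hj).core (hK n j)
    exact ⟨(lev_iff_levM (JO_symm lam O) _ _ _).2 h1.1, (lev_iff_levM (JO_symm lam O) _ _ _).2 h1.2⟩

/-- the path statement in the Haar frame, with the exponent `γ`, on dyadic levels -/
def PathHg (γ : ℝ) : Prop := ∃ a0 : ℝ, ∀ ε θ : ℝ, 0 < ε → 0 < θ → ∃ k0 : ℝ, 0 < k0 ∧
  ∃ (b σ : ℝ) (w : ℕ → ℝ) (EG : ∀ n : ℕ, Mat n → Mat n → Prop), Aux b σ w EG ∧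
    Small b σ w EG fun n lam O => ¬ ∀ j : ℕ, a0 * Real.log n ≤ 2 ^ j → (2 : ℝ) ^ j ≤ k0 * n →
      A1.PathAt (gM (JO lam O) 0) (2 ^ j) ((n : ℝ) ^ (γ + ε)) (θ * 2 ^ j) (1 / n)

/-- the path statement in the Haar frame -/
def PathH : Prop := PathHg (2 / 3)

/-- the two level inequalities on dyadic levels -/
def CoreWg (γ : ℝ) : Prop := ∃ a0 : ℝ, ∀ ε θ : ℝ, 0 < ε → 0 < θ → ∃ k0 : ℝ, 0 < k0 ∧
  ∀ᶠ i in whpF, ∀ j : ℕ, a0 * Real.log i.1 ≤ 2 ^ j → (2 : ℝ) ^ j ≤ k0 * i.1 →
    Lev (skJ 1 i.2) (fun _ => 0) (2 ^ j) (6 * (θ * 2 ^ j) + 1 / i.1) ((i.1 : ℝ) ^ (γ + ε)) ∧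
    Lev (skJ 1 i.2) (fun _ => 0) (2 ^ j) (Real.exp (6 * (θ * 2 ^ j)) * (1 / i.1))
      (Real.exp (6 * (θ * 2 ^ j)) * (i.1 : ℝ) ^ (γ + ε))

theorem coreWg_of {γ : ℝ} (h : PathHg γ) : CoreWg γ := by
  obtain ⟨a0, h⟩ := h
  refine ⟨a0, fun ε θ hε hθ => ?_⟩
  obtain ⟨k0, hk0, b, σ, w, EG, hA, h1⟩ := h ε θ hε hθ
  refine ⟨k0, hk0, ?_⟩
  have h2 := whp_lev hA (fun n (j : ℕ) => a0 * Real.log n ≤ 2 ^ j ∧ (2 : ℝ) ^ j ≤ k0 * n)
    (fun _ j => 2 ^ j) (fun n _ => (n : ℝ) ^ (γ + ε)) (fun _ j => θ * 2 ^ j) (fun n _ => 1 / n)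
    (fun _ _ => by positivity)
    (h1.mono (Eventually.of_forall fun n lam O hO hP => hO fun j hj => hP j hj.1 hj.2))
  filter_upwards [h2] with i hi j j1 j2
  exact hi j ⟨j1, j2⟩

theorem levWg_of_core {γ : ℝ} (hγ : 0 ≤ γ) (h : CoreWg γ) : A1.LevWg γ := by
  intro ε hε
  obtain ⟨a0, h⟩ := h
  obtain ⟨k0, hk0, h1⟩ := h ε (1 / 200) hε (by norm_num)
  obtain ⟨A, _, h2⟩ := levTop (k0 / 16) (by positivity)
  refine ⟨max a0 16, ?_⟩
  have h3 : ∀ᶠ n : ℕ in atTop, A ≤ (n : ℝ) ^ (γ + ε) :=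
    ((tendsto_rpow_atTop (by linarith)).comp tendsto_natCast_atTop_atTop).eventually_ge_atTop A
  have key : ∀ᶠ i in whpF, ∀ K, max a0 16 * Real.log i.1 ≤ K →
      Lev (skJ 1 i.2) (fun _ => 0) K (K / 8) ((i.1 : ℝ) ^ (γ + ε)) := by
    filter_upwards [h1, h2, eventually_whpF_nat h3, eventually_whpF_nat (eventually_ge_atTop 3)]
      with i h1 h2 h3 hn K hK
    have hJ := skJ_symm' 1 i.2
    have hL := A1.one_le_log hn
    have hn1 : (1 : ℝ) ≤ i.1 := by exact_mod_cast (by omega : 1 ≤ i.1)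
    have h16 : 16 ≤ K := by nlinarith [le_max_right a0 16]
    rcases le_total (2 * K) (k0 * i.1) with hc | hc
    · obtain ⟨j, j1, j2⟩ := A1.exists_dyadic (show 1 ≤ K by linarith)
      have h4 := (h1 j (((mul_le_mul_of_nonneg_right (le_max_left _ _) (by linarith)).trans
        hK).trans j1) (j2.trans hc)).1
      refine Lev.mono hJ h4 j1 ?_ le_rfl
      have h5 : 1 / (i.1 : ℝ) ≤ 1 := by rw [div_le_one (by linarith)]; exact hn1
      linarith
    · intro f hf _ hf1
      refine (h2 f hf hf1).trans (add_le_add (by linarith) ?_)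
      exact mul_le_mul_of_nonneg_right h3 (D8M.dir_log_nonneg _ hJ hf)
  exact key

theorem lastWg_of_core {γ : ℝ} (h : CoreWg γ) : A1.LastWg γ := by
  have main : ∀ ε : ℝ, 0 < ε → ε ≤ 1 → ∀ a : ℝ, ∀ᶠ i in whpF,
      Lev (skJ 1 i.2) (fun _ => 0) (a * Real.log i.1) (1 / 100) ((i.1 : ℝ) ^ (γ + ε)) := by
    intro ε hε hε1 a
    obtain ⟨a0, h⟩ := h
    set b := max (max a a0) 1 with hb
    have hb1 : 1 ≤ b := le_max_right _ _
    have hba : a ≤ b := (le_max_left _ _).trans (le_max_left _ _)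
    have hb0 : a0 ≤ b := (le_max_right _ _).trans (le_max_left _ _)
    obtain ⟨k0, hk0, h1⟩ := h (ε / 2) (ε / (24 * b)) (half_pos hε) (by positivity)
    have h3 : ∀ᶠ n : ℕ in atTop, 2 * b * Real.log n ≤ k0 * n := by
      have h4 := Real.isLittleO_log_id_atTop.bound (show 0 < k0 / (2 * b) by positivity)
      filter_upwards [tendsto_natCast_atTop_atTop.eventually h4] with n hn
      simp only [id, Real.norm_eq_abs, Nat.abs_cast] at hn
      have h5 := mul_le_mul_of_nonneg_left ((le_abs_self _).trans hn)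
        (show 0 ≤ 2 * b by positivity)
      have e : 2 * b * (k0 / (2 * b) * n) = k0 * n := by field_simp
      linarith
    filter_upwards [h1, eventually_whpF_nat h3, eventually_whpF_nat (eventually_ge_atTop 10000)]
      with i h1 h3 hn
    have hJ := skJ_symm' 1 i.2
    have hL := A1.one_le_log (show 3 ≤ i.1 by omega)
    have hn1 : (10000 : ℝ) ≤ i.1 := by exact_mod_cast hn
    have hn0 : (0 : ℝ) < i.1 := by linarith
    obtain ⟨j, j1, j2⟩ := A1.exists_dyadic (show 1 ≤ b * Real.log i.1 by nlinarith)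
    have h4 := (h1 j ((mul_le_mul_of_nonneg_right hb0 (by linarith)).trans j1) (by linarith)).2
    have h5 : Real.exp (6 * (ε / (24 * b) * 2 ^ j)) ≤ (i.1 : ℝ) ^ (ε / 2) := by
      rw [Real.rpow_def_of_pos hn0]
      refine Real.exp_le_exp.2 ?_
      have h6 := mul_le_mul_of_nonneg_left j2 (show 0 ≤ ε / (24 * b) by positivity)
      have e : ε / (24 * b) * (2 * (b * Real.log i.1)) = Real.log i.1 * ε / 12 := by
        field_simp; ring
      linarith
    refine Lev.mono hJ h4 ((mul_le_mul_of_nonneg_right hba (by linarith)).trans j1) ?_ ?_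
    · have h6 : (i.1 : ℝ) ^ (ε / 2) ≤ (i.1 : ℝ) ^ (1 / 2 : ℝ) :=
        Real.rpow_le_rpow_of_exponent_le (by linarith) (by linarith)
      rw [← Real.sqrt_eq_rpow] at h6
      have h7 : 100 ≤ √(i.1 : ℝ) := Real.le_sqrt_of_sq_le (by linarith)
      have h8 := Real.mul_self_sqrt hn0.le
      rw [mul_one_div, div_le_iff₀ hn0]
      nlinarith
    · calc _ ≤ (i.1 : ℝ) ^ (ε / 2) * (i.1 : ℝ) ^ (γ + ε / 2) :=
            mul_le_mul_of_nonneg_right h5 (Real.rpow_nonneg hn0.le _)
        _ = _ := by rw [← Real.rpow_add hn0]; congr 1; ring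
  intro ε hε a
  have key : ∀ᶠ i in whpF,
      Lev (skJ 1 i.2) (fun _ => 0) (a * Real.log i.1) (1 / 100) ((i.1 : ℝ) ^ (γ + ε)) := by
    filter_upwards [main (min ε 1) (lt_min hε one_pos) (min_le_right _ _) a,
      eventually_whpF_nat (eventually_ge_atTop 1)] with i hi hn
    refine Lev.mono (skJ_symm' 1 i.2) hi le_rfl le_rfl ?_
    exact Real.rpow_le_rpow_of_exponent_le (by exact_mod_cast hn) (by linarith [min_le_left ε 1])
  exact key

/-- the upper bound with a general exponent from the path statement in the Haar frame -/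
theorem upper_of_pathHg {γ : ℝ} (hγ : 0 ≤ γ) (h : PathHg γ) {ε : ℝ} (hε : 0 < ε) :
    WHP (fun n => {g | tmix (skJ 1 g) (fun _ => 0) ≤ (n : ℝ) ^ (γ + ε) ∧
      (n : ℝ) ^ (-(γ + ε)) ≤ gap (skJ 1 g) (fun _ => 0) ∧
      ∀ t, (n : ℝ) ^ (γ + ε) ≤ t → ∀ x, tvDist (skJ 1 g) (fun _ => 0) t x ≤ 1 / 4}) :=
  A1.crit_upper_g (levWg_of_core hγ (coreWg_of h)) (lastWg_of_core (coreWg_of h)) hε

theorem levW_of_pathH (h : PathH) : LevW := levWg_of_core (by norm_num) (coreWg_of h)

theorem lastW_of_pathH (h : PathH) : LastW := lastWg_of_core (coreWg_of h)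

/-- the critical upper bound from the path statement in the Haar frame -/
theorem upStmt_of_pathH (h : PathH) : UpStmt := fun _ hε =>
  MainThm.whp_mono (crit_upper (levW_of_pathH h) (lastW_of_pathH h) hε)
    (Eventually.of_forall fun _ _ hg => hg.1)

end Vale.Agent.N150.Red
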