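import Vale.Agent.N150.AsmDef
import Vale.Agent.N150.Red2

/-! The output of the path assembly implies the critical upper bound. -/

open Matrix MeasureTheory Filter Topology

namespace Vale.Agent.N150.Asm

open Vale.Agent.P150 Vale.Agent.P150.F Vale.Agent.N150.Sp Vale.Agent.N150.Edge
  Vale.Agent.N150.Plant

theorem wn_small : ∀ᶠ n : ℕ in atTop, wn n * (n : ℝ) ^ (-(2 / 3 : ℝ)) ≤ 1 := by
  filter_upwards [eventually_ge_atTop 1] with n hn
  have h1 : (1 : ℝ) ≤ n := by exact_mod_cast hn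
  have h0 : (0 : ℝ) < n := by linarith
  have h2 : wn n ≤ (n : ℝ) ^ (2 / 3 : ℝ) := by
    unfold wn
    calc √(Real.log n) ≤ √(n : ℝ) := Real.sqrt_le_sqrt (Real.log_le_self h0.le)
      _ = (n : ℝ) ^ (1 / 2 : ℝ) := Real.sqrt_eq_rpow _
      _ ≤ _ := Real.rpow_le_rpow_of_exponent_le h1 (by norm_num)
  rw [Real.rpow_neg h0.le, ← div_eq_mul_inv, div_le_one (Real.rpow_pos_of_pos h0 _)]
  exact h2

theorem aux_of {b sg : ℝ} {EG : ∀ n, Mat n → Mat n → Prop} (h : b ^ 2 + sg ^ 2 = 1)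
    (hE : PairW EG) : Red.Aux b sg wn EG := by
  refine ⟨h, tendsto_wn, wn_small, ?_⟩
  have h1 := ENNReal.tendsto_ofReal hE
  rw [ENNReal.ofReal_zero] at h1
  exact h1.congr fun n => ofReal_measureReal (measure_ne_top _ _)

theorem pairW_iff {EG : ∀ n, Mat n → Mat n → Prop} : PairW EG ↔
    Tendsto (fun n : ℕ => ((End.PW n).prod (End.PW n))
      {p | ¬EG n (End.goe p.1) (End.goe p.2)}) atTop (𝓝 0) := by
  refine ⟨fun hE => ?_, fun hE => ?_⟩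
  · have h1 := ENNReal.tendsto_ofReal hE
    rw [ENNReal.ofReal_zero] at h1
    exact h1.congr fun n => ofReal_measureReal (measure_ne_top _ _)
  · exact (ENNReal.tendsto_toReal ENNReal.zero_ne_top).comp hE

theorem HaarW.small {b sg : ℝ} {EG : ∀ n, Mat n → Mat n → Prop}
    {Q : ∀ n, Vec n → OG n → Prop} (h : HaarW b sg EG Q) :
    Red.Small b sg wn EG fun n lam O => ¬Q n lam O := h

/-- the assembly statement with a logarithmic threshold gives the path statement -/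
theorem pathHg_of {lo : ℕ → ℝ} {a : ℝ} (hlo : ∀ᶠ n : ℕ in atTop, lo n ≤ a * Real.log n)
    (h : PathH lo) : Red.PathH := by
  obtain ⟨a0, h⟩ := h
  refine ⟨max a a0, fun ε θ hε hθ => ?_⟩
  obtain ⟨k0, hk0, b, sg, EG, h1, h2, h3⟩ := h ε θ hε hθ
  refine ⟨k0, hk0, b, sg, wn, EG, aux_of h1 h2, h3.small.mono ?_⟩
  filter_upwards [hlo] with n hn lam O hO hP
  refine hO fun j j1 j2 => ?_
  have hL : 0 ≤ Real.log n := Real.log_natCast_nonneg n
  exact hP j (hn.trans ((mul_le_mul_of_nonneg_right (le_max_left _ _) hL).trans j1))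
    ((mul_le_mul_of_nonneg_right (le_max_right _ _) hL).trans j1) j2

/-- the critical upper bound from the assembly statement -/
theorem upStmt_of_pathH {lo : ℕ → ℝ} {a : ℝ} (hlo : ∀ᶠ n : ℕ in atTop, lo n ≤ a * Real.log n)
    (h : PathH lo) : UpStmt := Red.upStmt_of_pathH (pathHg_of hlo h)

theorem upStmt_of_log {a : ℝ} (h : PathH fun n => a * Real.log n) : UpStmt :=
  upStmt_of_pathH (a := a) (Eventually.of_forall fun _ => le_rfl) h

/-- the level inequalities above an arbitrary threshold -/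
theorem lev_of_pathH {lo : ℕ → ℝ} (h : PathH lo) : ∃ a₀ : ℝ, ∀ ε θ : ℝ, 0 < ε → 0 < θ →
    ∃ k₀ : ℝ, 0 < k₀ ∧ ∀ᶠ i in whpF, ∀ j : ℕ, lo i.1 ≤ 2 ^ j → a₀ * Real.log i.1 ≤ 2 ^ j →
      (2 : ℝ) ^ j ≤ k₀ * i.1 →
      Lev (skJ 1 i.2) (fun _ => 0) (2 ^ j) (6 * (θ * 2 ^ j) + 1 / i.1)
        ((i.1 : ℝ) ^ (2 / 3 + ε)) ∧
      Lev (skJ 1 i.2) (fun _ => 0) (2 ^ j) (Real.exp (6 * (θ * 2 ^ j)) * (1 / i.1))
        (Real.exp (6 * (θ * 2 ^ j)) * (i.1 : ℝ) ^ (2 / 3 + ε)) := by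
  obtain ⟨a0, h⟩ := h
  refine ⟨a0, fun ε θ hε hθ => ?_⟩
  obtain ⟨k0, hk0, b, sg, EG, h1, h2, h3⟩ := h ε θ hε hθ
  refine ⟨k0, hk0, ?_⟩
  have h4 := Red.whp_lev (aux_of h1 h2)
    (fun n (j : ℕ) => lo n ≤ 2 ^ j ∧ a0 * Real.log n ≤ 2 ^ j ∧ (2 : ℝ) ^ j ≤ k0 * n)
    (fun _ j => 2 ^ j) (fun n _ => (n : ℝ) ^ (2 / 3 + ε)) (fun _ j => θ * 2 ^ j)
    (fun n _ => 1 / n) (fun _ _ => by positivity)
    (h3.small.mono (Eventually.of_forall fun n lam O hO hP =>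
      hO fun j hj => hP j hj.1 hj.2.1 hj.2.2))
  filter_upwards [h4] with i hi j j0 j1 j2
  exact hi j ⟨j0, j1, j2⟩

end Vale.Agent.N150.Asm
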