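import Vale.Agent.P146.Bdl.B25
import Vale.Agent.N150.EndGauss

/-!
Comparison of Gaussian free energies and the Guerra bound on subsets of the cube with arbitrary
site fields.
-/

open MeasureTheory ProbabilityTheory

namespace Vale.Agent.N150.Bc

set_option linter.unusedSectionVars false
set_option linter.unusedVariables false

open Vale.Agent.P157 Vale.Agent.P157.Lv Vale.Agent.P157.Lv.Sy
open Vale.Agent.P157.Par (cascade gstep gstepN topN lw incr gN Lip1 Path)
open Vale.Agent.P146.Ub (cv ls_pair ls_pair_sum ls_T_sq)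
open Vale.Agent.P150 (Cfg gpi)
open Vale.Agent.P150.F (sv ip qf Vec Mat)

/-- Weakly increasing exponents. -/
structure WM (K : ℕ) (m : ℕ → ℝ) : Prop where
  zero : m 0 = 0
  top : m (K + 1) = 1
  mono : ∀ l ≤ K, m l ≤ m (l + 1)
  pos : 0 < m 1

theorem WM.pos' {K : ℕ} {m : ℕ → ℝ} (hm : WM K m) : ∀ j ≤ K, 0 < m (j + 1) := by
  intro j hj
  induction j with
  | zero => exact hm.pos
  | succ j ih => exact (ih (by omega)).trans_le (hm.mono (j + 1) hj)

theorem WM.sum {K : ℕ} {m : ℕ → ℝ} (hm : WM K m) :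
    ∑ l ∈ Finset.range (K + 1), (m (l + 1) - m l) = 1 := by
  rw [Finset.sum_range_sub m, hm.top, hm.zero, sub_zero]

theorem WM.of_exp {K : ℕ} {m : ℕ → ℝ} (hm : Par.Exponents K m) : WM K m :=
  ⟨hm.1, hm.2.1, fun l hl => (hm.2.2 l hl).le, by
    have h := hm.2.2 0 (Nat.zero_le _)
    rw [hm.1] at h
    exact h⟩

section gen

variable {ι X : Type} [Fintype ι] [DecidableEq ι] [Fintype X] [DecidableEq X] [Nonempty X]
  {lev : ι → ℕ} {K : ℕ} {m : ℕ → ℝ}

/-- The linear system with a deterministic part. -/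
noncomputable def lc (lev : ι → ℕ) (K : ℕ) (m : ℕ → ℝ) (c : X → ℝ) (a : X → ι → ℝ) : Sy ι X :=
  ⟨lev, K, m, fun z x => c x + lin (a x) z⟩

theorem lc_regD (hm : WM K m) (hl : ∀ e, lev e ≤ K) (c : X → ℝ) (a : X → ι → ℝ) :
    (lc lev K m c a).RegD (fun e _ x => a x e) where
  m0 := hm.zero
  mK := hm.top
  mono := hm.mono
  pos := hm.pos
  lev := hl
  lip := fun x => by
    refine ⟨∑ e, |a x e|, Finset.sum_nonneg fun e _ => abs_nonneg _, fun y y' => ?_⟩
    show |c x + lin (a x) y - (c x + lin (a x) y')| ≤ _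
    rw [add_sub_add_left_eq_sub, li2_lin_sub]
    exact li2_lin (a x) (y - y')
  pd := fun e x => by
    have h := (PD.const (e := e) (c x)).add (lin_pd (a x) e)
    exact h.congr fun _ => zero_add _
  md := fun e x => measurable_const
  bd := ⟨∑ x, ∑ e, |a x e|, fun e z x => by
    have h1 : |a x e| ≤ ∑ e, |a x e| :=
      Finset.single_le_sum (f := fun e => |a x e|) (fun e _ => abs_nonneg _) (Finset.mem_univ e)
    exact h1.trans (Finset.single_le_sum (f := fun x => ∑ e, |a x e|)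
      (fun x _ => Finset.sum_nonneg fun e _ => abs_nonneg _) (Finset.mem_univ x))⟩

theorem pair_fst {R : Sy ι X} (hR : R.Reg) {l : ℕ} (hl : l ≤ R.K) (u : X → ℝ) :
    R.pairEx l (fun x _ => u x) = R.Ex (fun _ x => u x) := by
  have h := ls_pair hR hl u (fun _ => 1)
  simp only [hR.T_const hl, mul_one] at h
  exact h.symm

/-- **Interpolation** with a pointwise bound at each level. -/
theorem interp (hm : WM K m) (hl : ∀ e, lev e ≤ K) (c : X → ℝ) {α β : X → ι → ℝ}
    (hαβ : ∀ e x x', α x e * β x' e = 0) {B : ℕ → ℝ}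
    (hB : ∀ l ≤ K, ∀ x x', (∑ e, α x e ^ 2 - ∑ e, β x e ^ 2) -
      (cv lev l α α x x' - cv lev l β β x x') ≤ B l) :
    (lc lev K m c α).fe ≤ (lc lev K m c β).fe +
      (∑ l ∈ Finset.range (K + 1), (m (l + 1) - m l) * B l) / 2 := by
  have hR := lc_regD hm hl c (fun _ _ => 0)
  have hf : Pot (fun x : ℝ => x) (fun _ => 1) (fun _ => 0) 1 0 :=
    ⟨fun x => hasDerivAt_id x, fun x => hasDerivAt_const x 1, fun _ => by simp, fun _ => by simp⟩
  have hs : Lv.Sep (fun (e : ι) (_ : ι → ℝ) (x : X) => (0 : ℝ)) α β :=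
    ⟨hαβ, fun e x h z y => rfl⟩
  have hw : ∀ θ, (lc lev K m c (fun _ _ => 0)).wH
      (it (lc lev K m c (fun _ _ => 0)).H (fun x : ℝ => x) α β θ) =
      lc lev K m c (fun x e => Real.sin θ * α x e + Real.cos θ * β x e) := by
    intro θ
    unfold Sy.wH lc
    congr 1
    funext z x
    show c x + lin (fun _ => 0) z + itU α β θ z x = c x + lin _ z
    unfold itU
    rw [P146.Ub.lin_add', P146.Ub.lin_smul', P146.Ub.lin_smul']
    simp [lin]
  have hb : ∀ θ, 0 ≤ θ → θ ≤ Real.pi / 2 →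
      brk (lc lev K m c (fun _ _ => 0)) (fun x : ℝ => x) (fun _ => 1) (fun _ => 0) α β θ ≤
        ∑ l ∈ Finset.range (K + 1), (m (l + 1) - m l) * B l := by
    intro θ h0 h1
    unfold brk
    rw [hw θ]
    have hRθ := (lc_regD hm hl c (fun x e => Real.sin θ * α x e + Real.cos θ * β x e)).toReg
    obtain ⟨R, hRd⟩ : ∃ R, R = lc lev K m c
      (fun x e => Real.sin θ * α x e + Real.cos θ * β x e) := ⟨_, rfl⟩
    rw [← hRd] at hRθ ⊢
    have hK : R.K = K := by rw [hRd]; rfl
    have e0 : R.Ex (fun z x => ((0 : ℝ) + 1 ^ 2) * (∑ e, α x e ^ 2 - ∑ e, β x e ^ 2)) =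
        ∑ l ∈ Finset.range (K + 1), (m (l + 1) - m l) *
          R.pairEx l (fun x _ => ∑ e, α x e ^ 2 - ∑ e, β x e ^ 2) := by
      have e1 : ∀ l ∈ Finset.range (K + 1), (m (l + 1) - m l) *
          R.pairEx l (fun x _ => ∑ e, α x e ^ 2 - ∑ e, β x e ^ 2) = (m (l + 1) - m l) *
          R.Ex (fun _ x => ∑ e, α x e ^ 2 - ∑ e, β x e ^ 2) := by
        intro l hl'
        have := Finset.mem_range.1 hl'
        rw [pair_fst hRθ (by omega)]
      rw [Finset.sum_congr rfl e1, ← Finset.sum_mul, hm.sum, one_mul]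
      congr 1
      funext z x
      ring
    rw [e0]
    show _ - ∑ l ∈ Finset.range (K + 1), (m (l + 1) - m l) * _ ≤ _
    rw [← Finset.sum_sub_distrib]
    refine Finset.sum_le_sum fun l hl' => ?_
    have hlK : l ≤ K := by
      have := Finset.mem_range.1 hl'
      omega
    have hl'' : l ≤ R.K := by omega
    rw [← mul_sub]
    refine mul_le_mul_of_nonneg_left ?_ (sub_nonneg.2 (hm.mono l hlK))
    have e2 : (∑ e, if (lc lev K m c (fun _ _ => 0) : Sy ι X).lev e ≤ l then
        (R.Ex (fun z _ => R.T l (fun z x => 1 * α x e) z ^ 2) -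
          R.Ex (fun z _ => R.T l (fun z x => 1 * β x e) z ^ 2)) else 0) =
        R.pairEx l (fun x x' => cv lev l α α x x' - cv lev l β β x x') := by
      have e1 : (fun x x' => cv lev l α α x x' - cv lev l β β x x') =
          fun x x' => ∑ e, if lev e ≤ l then α x e * α x' e - β x e * β x' e else 0 := by
        funext x x'
        unfold cv
        rw [← Finset.sum_sub_distrib]
        refine Finset.sum_congr rfl fun e _ => ?_
        split_ifs
        · rfl
        · rw [sub_zero]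
      rw [e1, ls_pair_sum hRθ hl'']
      refine Finset.sum_congr rfl fun e _ => ?_
      show (if lev e ≤ l then _ else (0 : ℝ)) = _
      split_ifs
      · simp only [one_mul]
        rw [ls_T_sq hRθ hl'' (fun x => α x e), ls_T_sq hRθ hl'' (fun x => β x e)]
        have h5 := hRθ.pairEx_add hl'' (fun x x' => α x e * α x' e)
          (fun x x' => -1 * (β x e * β x' e))
        rw [hRθ.pairEx_const_mul l (-1)] at h5
        have e2 : (fun x x' => α x e * α x' e + -1 * (β x e * β x' e)) =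
            fun x x' => α x e * α x' e - β x e * β x' e := by
          funext x x'
          ring
        rw [e2] at h5
        rw [h5]
        ring
      · rw [hRθ.pairEx_const hl'']
    rw [e2]
    have h5 := hRθ.pairEx_add hl'' (fun x _ => ∑ e, α x e ^ 2 - ∑ e, β x e ^ 2)
      (fun x x' => -1 * (cv lev l α α x x' - cv lev l β β x x'))
    rw [hRθ.pairEx_const_mul l (-1)] at h5
    have h6 : R.pairEx l (fun x x' => (∑ e, α x e ^ 2 - ∑ e, β x e ^ 2) +
        -1 * (cv lev l α α x x' - cv lev l β β x x')) ≤ B l := by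
      rw [← hRθ.pairEx_const hl'' (B l)]
      refine hRθ.pairEx_mono hl'' fun x x' => ?_
      have := hB l hlK x x'
      linarith
    linarith
  have h := int_le hR hf hs hb
  rw [hw, hw] at h
  simp only [Real.sin_pi_div_two, Real.cos_pi_div_two, Real.sin_zero, Real.cos_zero, one_mul,
    zero_mul, add_zero, zero_add] at h
  linarith

/-- Monotonicity in the log-partition function. -/
theorem fe_mono_top {X' : Type} [Fintype X'] [Nonempty X'] {S : Sy ι X} {S' : Sy ι X'}
    (hS : S.Reg) (hS' : S'.Reg) (hlev : S.lev = S'.lev) (hK : S.K = S'.K) (hm : S.m = S'.m)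
    (h : ∀ z, S.top z ≤ S'.top z) : S.fe ≤ S'.fe := by
  have key : ∀ l ≤ S.K, ∀ z, S.lg l z ≤ S'.lg l z := by
    refine down_ind (P := fun l => ∀ z, S.lg l z ≤ S'.lg l z) ?_ ?_
    · intro z
      rw [lg_top S, hK, lg_top S']
      exact h z
    · intro l hl ih z
      rw [lg_step S hl, lg_step S' (by omega)]
      unfold Sy.stp
      rw [← hm, ← hlev]
      have hp : 0 < S.m (l + 1) := hS.m_pos (by omega) (by omega)
      have e1 := (hS.lip_lg (l := l + 1) hl).exp_eg (S.m (l + 1))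
      have e2 := (hS'.lip_lg (l := l + 1) (by omega)).exp_eg (S.m (l + 1))
      refine mul_le_mul_of_nonneg_left (Real.log_le_log (J_pos e1 (fun _ => Real.exp_pos _) z)
        (J_mono e1 e2 (fun y => ?_) z)) (by positivity)
      exact Real.exp_le_exp.2 (mul_le_mul_of_nonneg_left (ih y) hp.le)
  exact integral_mono (hS.lip_lg (Nat.zero_le _)).eg.integrable
    (hS'.lip_lg (Nat.zero_le _)).eg.integrable (key 0 (Nat.zero_le _))

end gen

/-- Restriction of the coordinates along an injection. -/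
theorem mp_restr {ι ι' : Type} [Fintype ι] [Fintype ι'] {f : ι → ι'} (hf : Function.Injective f) :
    MeasurePreserving (fun (z : ι' → ℝ) (i : ι) => z (f i)) (gpi ι') (gpi ι) := by
  have hm : Measurable (fun (z : ι' → ℝ) (i : ι) => z (f i)) :=
    measurable_pi_iff.2 fun i => measurable_pi_apply (f i)
  refine ⟨hm, ?_⟩
  have h : iIndepFun (fun (i : ι') (z : ι' → ℝ) => z i) (gpi ι') :=
    iIndepFun_pi (μ := fun _ : ι' => gaussianReal 0 1) (X := fun _ x => x) fun _ => aemeasurable_id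
  have h2 : iIndepFun (fun (i : ι) (z : ι' → ℝ) => z (f i)) (gpi ι') := h.precomp hf
  have h3 := (iIndepFun_iff_map_fun_eq_pi_map
    (fun i => (measurable_pi_apply (f i)).aemeasurable)).1 h2
  rw [h3]
  congr 1
  funext i
  exact (measurePreserving_eval (fun _ : ι' => gaussianReal 0 1) (f i)).map_eq

section fe

variable {ι ι' X : Type} [Fintype ι] [Fintype ι']

/-- The log-partition function on a finite set. -/
noncomputable def LZ (S : Finset X) (a : X → ι → ℝ) (c : X → ℝ) (z : ι → ℝ) : ℝ :=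
  Real.log (∑ x ∈ S, Real.exp (∑ e, a x e * z e + c x))

/-- The mean free energy. -/
noncomputable def FE (S : Finset X) (a : X → ι → ℝ) (c : X → ℝ) : ℝ :=
  ∫ z, Real.log (∑ x ∈ S, Real.exp (∑ e, a x e * z e + c x)) ∂(gpi ι)

/-- The covariance. -/
noncomputable def cov (a : X → ι → ℝ) (x y : X) : ℝ := ∑ e, a x e * a y e

theorem continuous_LZ {S : Finset X} (hS : S.Nonempty) (a : X → ι → ℝ) (c : X → ℝ) :
    Continuous (LZ S a c) := by
  unfold LZ
  refine Continuous.log ?_ fun z => (Finset.sum_pos (fun x _ => Real.exp_pos _) hS).ne'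
  exact continuous_finsetSum _ fun x _ => Real.continuous_exp.comp
    ((continuous_finsetSum _ fun e _ => continuous_const.mul (continuous_apply e)).add
      continuous_const)

/-- A system all of whose energy sits on the coordinates `f e` of level zero. -/
theorem fe_eq_FE [DecidableEq ι'] {S : Finset X} (hS : S.Nonempty) (a : X → ι → ℝ) (c : X → ℝ)
    {lev : ι' → ℕ} {K : ℕ} {m : ℕ → ℝ} (hm : WM K m) (hl : ∀ e, lev e ≤ K) {f : ι → ι'}
    (hf : Function.Injective f) (h0 : ∀ e, lev (f e) = 0) (α : S → ι' → ℝ)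
    (hα : ∀ (x : S) z, lin (α x) z = ∑ e, a x e * z (f e)) :
    (lc lev K m (fun x : S => c x) α).fe = FE S a c := by
  classical
  have : Nonempty S := hS.to_subtype
  have hR := (lc_regD hm hl (fun x : S => c x) α).toReg
  rw [fe_level_zero hR]
  · have e1 : ∀ z, (lc lev K m (fun x : S => c x) α).top z = LZ S a c (fun i => z (f i)) := by
      intro z
      show Real.log (∑ x : S, Real.exp (c x + lin (α x) z)) = _
      unfold LZ
      rw [← Finset.sum_coe_sort S]
      congr 1
      refine Finset.sum_congr rfl fun x _ => ?_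
      rw [hα, add_comm]
    simp only [e1]
    have h := mp_restr hf
    show _ = ∫ z, LZ S a c z ∂(gpi ι)
    rw [← h.map_eq, integral_map h.measurable.aemeasurable
      (continuous_LZ hS a c).aestronglyMeasurable]
  · intro x z w
    show c x + lin (α x) (mix lev 0 z w) = c x + lin (α x) z
    rw [hα, hα]
    congr 1
    refine Finset.sum_congr rfl fun e _ => ?_
    unfold mix
    rw [if_pos (h0 e).le]

theorem wm_zero : WM 0 (fun l => (l : ℝ)) :=
  ⟨by simp, by simp, fun l _ => by simp, by simp⟩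

theorem integrable_LZ {S : Finset X} (hS : S.Nonempty) (a : X → ι → ℝ) (c : X → ℝ) :
    Integrable (LZ S a c) (gpi ι) := by
  classical
  have : Nonempty S := hS.to_subtype
  have hR := (lc_regD (lev := fun _ : ι => 0) wm_zero (fun _ => le_rfl) (fun x : S => c x)
    (fun x : S => a x)).toReg
  have h := (hR.lip_lg (Nat.zero_le _)).eg.integrable
  refine h.congr (Filter.Eventually.of_forall fun z => ?_)
  show Real.log (∑ x : S, Real.exp (c x + lin (a x) z)) = _
  unfold LZ
  rw [← Finset.sum_coe_sort S]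
  congr 1
  refine Finset.sum_congr rfl fun x _ => ?_
  rw [add_comm]
  rfl

/-- **Comparison of two Gaussian free energies.** -/
theorem cmp {S : Finset X} (hS : S.Nonempty) (a : X → ι → ℝ) (a' : X → ι' → ℝ) (c : X → ℝ) {B : ℝ}
    (h : ∀ x ∈ S, ∀ y ∈ S, cov a x x - cov a' x x - (cov a x y - cov a' x y) ≤ B) :
    FE S a c ≤ FE S a' c + B / 2 := by
  classical
  have : Nonempty S := hS.to_subtype
  have hl : ∀ e : ι ⊕ ι', (fun _ => 0 : ι ⊕ ι' → ℕ) e ≤ 0 := fun _ => le_rfl
  have key := interp (X := S) (lev := fun _ : ι ⊕ ι' => 0) wm_zero hl (fun x : S => c x)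
    (α := fun x => Sum.elim (a x) 0) (β := fun x => Sum.elim 0 (a' x)) (B := fun _ => B)
    (by rintro (e | e) x x' <;> simp) (by
      intro l _ x x'
      have := h x x.2 x' x'.2
      simp only [cv, cov, Fintype.sum_sum_type, Sum.elim_inl, Sum.elim_inr, Pi.zero_apply,
        zero_le, if_true, mul_zero, Finset.sum_const_zero, add_zero, zero_add, sq] at this ⊢
      exact this)
  rw [fe_eq_FE hS a c wm_zero hl Sum.inl_injective (fun _ => rfl) _ (by
      intro x z
      simp [lin, Fintype.sum_sum_type]),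
    fe_eq_FE hS a' c wm_zero hl Sum.inr_injective (fun _ => rfl) _ (by
      intro x z
      simp [lin, Fintype.sum_sum_type])] at key
  simpa using key

/-- Covariances which agree up to a constant and an error. -/
theorem cmp_abs {S : Finset X} (hS : S.Nonempty) (a : X → ι → ℝ) (a' : X → ι' → ℝ) (c : X → ℝ)
    {C d : ℝ} (h : ∀ x ∈ S, ∀ y ∈ S, |cov a x y - cov a' x y - C| ≤ d) :
    FE S a c ≤ FE S a' c + d := by
  have := cmp hS a a' c (B := 2 * d) fun x hx y hy => by
    have h1 := abs_le.1 (h x hx x hx)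
    have h2 := abs_le.1 (h x hx y hy)
    linarith [h1.2, h2.1]
  linarith

theorem LZ_mono {S T : Finset X} (hS : S.Nonempty) (hST : S ⊆ T) (a : X → ι → ℝ) {c c' : X → ℝ}
    {t : ℝ} (h : ∀ x ∈ S, c x ≤ c' x + t) (z : ι → ℝ) : LZ S a c z ≤ LZ T a c' z + t := by
  unfold LZ
  have hT : T.Nonempty := hS.mono hST
  have h1 : 0 < ∑ x ∈ T, Real.exp (∑ e, a x e * z e + c' x) :=
    Finset.sum_pos (fun x _ => Real.exp_pos _) hT
  rw [← Real.log_exp t, ← Real.log_mul h1.ne' (Real.exp_pos _).ne']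
  refine Real.log_le_log (Finset.sum_pos (fun x _ => Real.exp_pos _) hS) ?_
  rw [Finset.sum_mul]
  refine le_trans (Finset.sum_le_sum fun x hx => ?_)
    (Finset.sum_le_sum_of_subset_of_nonneg hST fun x _ _ => by positivity)
  rw [← Real.exp_add]
  exact Real.exp_le_exp.2 (by linarith [h x hx])

/-- Monotonicity in the set and in the deterministic part. -/
theorem FE_mono {S T : Finset X} (hS : S.Nonempty) (hST : S ⊆ T) (a : X → ι → ℝ) {c c' : X → ℝ}
    {t : ℝ} (h : ∀ x ∈ S, c x ≤ c' x + t) : FE S a c ≤ FE T a c' + t := by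
  have h1 : ∫ z, LZ S a c z ∂(gpi ι) ≤ ∫ z, (LZ T a c' z + t) ∂(gpi ι) :=
    integral_mono (integrable_LZ hS a c)
      ((integrable_LZ (hS.mono hST) a c').add (integrable_const t)) (LZ_mono hS hST a h)
  rw [integral_add (integrable_LZ (hS.mono hST) a c') (integrable_const t)] at h1
  simp only [integral_const, probReal_univ, smul_eq_mul, one_mul] at h1
  exact h1

/-- The variance of the log-partition function. -/
theorem var_LZ {S : Finset X} (hS : S.Nonempty) (a : X → ι → ℝ) (c : X → ℝ) {V : ℝ}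
    (hV : ∀ x ∈ S, cov a x x ≤ V) :
    ∫ z, (LZ S a c z - FE S a c) ^ 2 ∂(gpi ι) ≤ 2 * V := by
  classical
  have : Nonempty S := hS.to_subtype
  have hl : ∀ e : ι, (fun _ => 0 : ι → ℕ) e ≤ 0 := fun _ => le_rfl
  have hR := lc_regD (lev := fun _ : ι => 0) wm_zero hl (fun x : S => c x) (fun x : S => a x)
  have h := hR.var_lg_zero (V := V) fun z x => by
    have := hV x x.2
    simpa [cov, sq, lc] using this
  rw [fe_eq_FE hS a c wm_zero hl Function.injective_id (fun _ => rfl) _ (fun x z => rfl)] at h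
  refine le_trans (le_of_eq ?_) h
  refine integral_congr_ae (Filter.Eventually.of_forall fun z => ?_)
  show (LZ S a c z - _) ^ 2 = (Real.log (∑ x : S, Real.exp (c x + lin (a x) z)) - _) ^ 2
  unfold LZ
  rw [← Finset.sum_coe_sort S]
  congr 3
  refine Finset.sum_congr rfl fun x _ => ?_
  rw [add_comm]
  rfl

end fe

/-! ### The Parisi recursion -/

/-- The solution of the recursion at the level `q 0`. -/
noncomputable def Phi (b : ℝ) (K : ℕ) (m q : ℕ → ℝ) : ℝ → ℝ :=
  cascade m (fun l => b ^ 2 * q l) K (fun x => Real.log (Real.cosh x))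

/-- Its extension by the heat flow to the level `r ≤ q 0`. -/
noncomputable def Ph (b : ℝ) (K : ℕ) (m q : ℕ → ℝ) (r y : ℝ) : ℝ :=
  ∫ z, Phi b K m q (y + √(b ^ 2 * (q 0 - r)) * z) ∂(gaussianReal 0 1)

/-- The constant of the functional. -/
noncomputable def I0 (b : ℝ) (K : ℕ) (m q : ℕ → ℝ) : ℝ :=
  Real.log 2 + b ^ 2 / 4 * (1 + ∑ l ∈ Finset.range (K + 1), (m (l + 1) - m l) * q l ^ 2) -
    b ^ 2 * q K / 2

theorem cascade_shift (m q : ℕ → ℝ) (u : ℝ) : ∀ (l : ℕ) (F : ℝ → ℝ),
    cascade m q l (fun y => F (y + u)) = fun y => cascade m q l F (y + u) := by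
  intro l
  induction l with
  | zero => intro F; rfl
  | succ l ih =>
    intro F
    rw [Par.cascade_succ_def, Par.cascade_succ_def, ← ih]
    congr 1
    funext y
    unfold gstep
    congr 3
    funext z
    rw [add_right_comm]

theorem cascade_incr {m q q' : ℕ → ℝ} : ∀ (l : ℕ) (F : ℝ → ℝ),
    (∀ j < l, q (j + 1) - q j = q' (j + 1) - q' j) → cascade m q l F = cascade m q' l F := by
  intro l
  induction l with
  | zero => intro F _; rfl
  | succ l ih =>
    intro F h
    rw [Par.cascade_succ_def, Par.cascade_succ_def, h l (Nat.lt_succ_self l)]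
    exact ih _ fun j hj => h j (by omega)

theorem lip1_cascade {m q : ℕ → ℝ} : ∀ (l : ℕ), (∀ j < l, 0 < m (j + 1)) → ∀ {F : ℝ → ℝ},
    Lip1 F → Lip1 (cascade m q l F) := by
  intro l
  induction l with
  | zero => intro _ F hF; exact hF
  | succ l ih =>
    intro hm F hF
    rw [Par.cascade_succ_def]
    exact ih (fun j hj => hm j (by omega)) (hF.gstep (hm l (Nat.lt_succ_self l)) _)

theorem gstepN_sum' {N : ℕ} {F : Fin N → ℝ → ℝ} (hF : ∀ i, Lip1 (F i)) (m v : ℝ) :
    gstepN (N := N) m v (fun y => ∑ i, F i (y i)) = fun y => ∑ i, gstep m v (F i) (y i) := by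
  funext y
  unfold gstepN gstep
  have h1 : ∀ z : Fin N → ℝ, Real.exp (m * ∑ i, F i ((y + √v • z) i)) =
      ∏ i, Real.exp (m * F i (y i + √v * z i)) := by
    intro z
    rw [← Real.exp_sum, Finset.mul_sum]
    simp
  simp only [h1]
  rw [integral_fintype_prod_eq_prod
    (fun (i : Fin N) (x : ℝ) => Real.exp (m * F i (y i + √v * x))),
    Real.log_prod (fun i _ => ((hF i).int_exp_pos m (y i) (√v)).ne'), Finset.mul_sum]

theorem topN_sum' {N : ℕ} {m r : ℕ → ℝ} : ∀ (l : ℕ), (∀ j < l, 0 < m (j + 1)) →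
    ∀ {F : Fin N → ℝ → ℝ}, (∀ i, Lip1 (F i)) →
    topN (N := N) m r l (fun y => ∑ i, F i (y i)) =
      ∑ i, ∫ z, cascade m r l (F i) (√(r 0) * z) ∂(gaussianReal 0 1) := by
  intro l
  induction l with
  | zero =>
    intro _ F hF
    unfold topN cascade
    have h0 : ∀ i, Integrable (fun x => F i (√(r 0) * x)) (gaussianReal 0 1) := fun i => by
      simpa using (hF i).integrable 0 (√(r 0))
    have hi : ∀ i : Fin N, ∫ z : Fin N → ℝ, F i (√(r 0) * z i) ∂(gN N) =
        ∫ x, F i (√(r 0) * x) ∂(gaussianReal 0 1) := fun i =>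
      integral_comp_eval (μ := fun _ : Fin N => gaussianReal 0 1) (i := i)
        (f := fun x => F i (√(r 0) * x)) (h0 i).aestronglyMeasurable
    simp only [Pi.smul_apply, smul_eq_mul]
    rw [integral_finsetSum _ (fun i _ => integrable_comp_eval
      (μ := fun _ : Fin N => gaussianReal 0 1) (i := i) (f := fun x => F i (√(r 0) * x)) (h0 i))]
    simp only [hi]
  | succ l ih =>
    intro hm F hF
    rw [Par.topN_succ_def, gstepN_sum' hF]
    simp only [Par.cascade_succ_def]
    exact ih (fun j hj => hm j (by omega)) fun i => (hF i).gstep (hm l (by omega)) _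

theorem lip1_shift {F : ℝ → ℝ} (hF : Lip1 F) (u : ℝ) : Lip1 fun y => F (y + u) := by
  obtain ⟨L, hL, h⟩ := hF
  refine ⟨L, hL, fun x x' => ?_⟩
  have := h (x + u) (x' + u)
  rwa [add_sub_add_right_eq_sub] at this

theorem sum_incr (q : ℕ → ℝ) (l : ℕ) : ∑ j ∈ Finset.range (l + 1), incr q j = q l := by
  induction l with
  | zero => simp [incr]
  | succ l ih => rw [Finset.sum_range_succ, ih, Par.incr_succ_def]; ring

theorem incr_nn {K : ℕ} {q : ℕ → ℝ} (hq : Path K q) {l : ℕ} (hl : l ≤ K) : 0 ≤ incr q l := by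
  cases l with
  | zero => exact hq.1
  | succ l => exact sub_nonneg.2 (hq.2 l hl)

variable {n : ℕ}

theorem sv_sq (x : Cfg n) (i : Fin n) : sv x i * sv x i = 1 := by
  unfold sv P150.sp
  split_ifs <;> norm_num

theorem ip_sv_self (x : Cfg n) : ip (sv x) (sv x) = n := by
  unfold ip
  simp [sv_sq]

/-- the levels of the Guerra system -/
def glev (ι : Type) (n K : ℕ) : ι ⊕ (Fin (K + 1) × Fin n) → ℕ
  | Sum.inl _ => 0
  | Sum.inr p => p.1

/-- the tree fields -/
noncomputable def gfd (ι : Type) (K : ℕ) (Q : ℕ → ℝ) (x : Cfg n) :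
    ι ⊕ (Fin (K + 1) × Fin n) → ℝ
  | Sum.inl _ => 0
  | Sum.inr p => √(incr Q p.1) * sv x p.2

theorem glev_le {ι : Type} {K : ℕ} (e : ι ⊕ (Fin (K + 1) × Fin n)) : glev ι n K e ≤ K := by
  rcases e with e | p
  · exact Nat.zero_le _
  · exact Nat.le_of_lt_succ p.1.2

theorem cv_gfd {ι : Type} [Fintype ι] {K : ℕ} {Q : ℕ → ℝ} (hQ : Path K Q) {l : ℕ} (hl : l ≤ K)
    (x y : Cfg n) : (∑ e, if glev ι n K e ≤ l then gfd ι K Q x e * gfd ι K Q y e else 0) =
      Q l * ip (sv x) (sv y) := by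
  rw [Fintype.sum_sum_type, Fintype.sum_prod_type]
  have h0 : ∑ e : ι, (if glev ι n K (Sum.inl e) ≤ l then
      gfd ι K Q x (Sum.inl e) * gfd ι K Q y (Sum.inl e) else 0) = 0 :=
    Finset.sum_eq_zero fun e _ => by simp [gfd]
  have h1 : ∀ j : Fin (K + 1), ∑ i : Fin n, (if glev ι n K (Sum.inr (j, i)) ≤ l then
      gfd ι K Q x (Sum.inr (j, i)) * gfd ι K Q y (Sum.inr (j, i)) else 0) =
      (fun j : ℕ => if j ≤ l then incr Q j * ip (sv x) (sv y) else 0) j := by
    intro j
    by_cases h : (j : ℕ) ≤ l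
    · simp only [if_pos h]
      unfold ip
      rw [Finset.mul_sum]
      refine Finset.sum_congr rfl fun i _ => ?_
      rw [if_pos (show glev ι n K (Sum.inr (j, i)) ≤ l from h)]
      have hs := Real.mul_self_sqrt (incr_nn hQ (h.trans hl))
      calc √(incr Q j) * sv x i * (√(incr Q j) * sv y i) =
          (√(incr Q j) * √(incr Q j)) * (sv x i * sv y i) := by ring
        _ = _ := by rw [hs]
    · simp only [if_neg h]
      exact Finset.sum_eq_zero fun i _ => if_neg (show ¬ glev ι n K (Sum.inr (j, i)) ≤ l from h)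
  rw [h0, zero_add, Finset.sum_congr rfl fun j _ => h1 j, Fin.sum_univ_eq_sum_range
    (fun j : ℕ => if j ≤ l then incr Q j * ip (sv x) (sv y) else 0) (K + 1), ← Finset.sum_filter]
  have h3 : (Finset.range (K + 1)).filter (fun i => i ≤ l) = Finset.range (l + 1) := by
    ext i
    simp only [Finset.mem_filter, Finset.mem_range]
    omega
  rw [h3, ← Finset.sum_mul, sum_incr]

theorem lw_field (u y : Vec n) :
    lw (X := Cfg n) sv 1 (fun x => ip u (sv x)) y =
      ∑ i, (Real.log 2 + Real.log (Real.cosh (y i + u i))) := by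
  have h := Par.lw_spin (N := n) (y + u)
  unfold lw at h ⊢
  rw [Finset.sum_add_distrib]
  have e1 : ∑ i, Real.log (Real.cosh (y i + u i)) = ∑ i, Real.log (Real.cosh ((y + u) i)) := rfl
  rw [e1, ← h]
  have e2 : ∀ x : Cfg n, Real.exp (ip u (sv x) + 1 * ∑ i, y i * sv x i) =
      Real.exp (n * Real.log 2) *
        Real.exp (-(n * Real.log 2) + 1 * ∑ i, (y + u) i * spin x i) := by
    intro x
    rw [← Real.exp_add]
    congr 1
    have e3 : ∑ i, (y + u) i * spin x i = ip u (sv x) + ∑ i, y i * sv x i := by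
      unfold ip
      rw [← Finset.sum_add_distrib]
      refine Finset.sum_congr rfl fun i _ => ?_
      show (y i + u i) * sv x i = _
      ring
    rw [e3]
    ring
  simp only [e2]
  rw [← Finset.mul_sum, Real.log_mul (Real.exp_pos _).ne'
    (Finset.sum_pos (fun x _ => Real.exp_pos _) Finset.univ_nonempty).ne', Real.log_exp]
  simp

/-- The free energy of the fields alone on the whole cube. -/
theorem fe_fields {ι : Type} [Fintype ι] [DecidableEq ι] {K : ℕ} {m Q : ℕ → ℝ} (hm : WM K m)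
    (hQ : Path K Q) (u : Vec n) :
    (lc (glev ι n K) K m (fun x : Cfg n => ip u (sv x)) (gfd ι K Q)).fe =
      ∑ i, (Real.log 2 + ∫ z, cascade m Q K (fun x => Real.log (Real.cosh x))
        (u i + √(Q 0) * z) ∂(gaussianReal 0 1)) := by
  have hR := lc_regD hm (glev_le (ι := ι) (n := n)) (fun x : Cfg n => ip u (sv x)) (gfd ι K Q)
  have key := fe_field hR (φ := sv) (u := fun x : Cfg n => ip u (sv x))
    (zc := fun l i => Sum.inr (Fin.ofNat (K + 1) l, i)) (s := fun l => √(incr Q l)) ?_ ?_ ?_ ?_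
  · rw [key]
    have hK : (lc (glev ι n K) K m (fun x : Cfg n => ip u (sv x)) (gfd ι K Q)).K = K := rfl
    have hmm : (lc (glev ι n K) K m (fun x : Cfg n => ip u (sv x)) (gfd ι K Q)).m = m := rfl
    rw [hK, hmm, funext (lw_field u)]
    have hp : ∀ j < K, 0 < m (j + 1) := fun j hj => hm.pos' j hj.le
    have hL : ∀ i, Lip1 fun y => Real.log (Real.cosh (y + u i)) := fun i =>
      lip1_shift Par.lip1_log_cosh (u i)
    have hL2 : ∀ i, Lip1 fun y => Real.log 2 + Real.log (Real.cosh (y + u i)) := fun i => by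
      obtain ⟨L, hL0, h⟩ := hL i
      refine ⟨L, hL0, fun x x' => ?_⟩
      rw [add_sub_add_left_eq_sub]
      exact h x x'
    rw [topN_sum' K hp hL2]
    refine Finset.sum_congr rfl fun i _ => ?_
    have h2 : ∀ l ≤ K, ∑ j ∈ Finset.range (l + 1), √(incr Q j) ^ 2 = Q l := by
      intro l hl
      rw [← sum_incr Q l]
      refine Finset.sum_congr rfl fun j hj => ?_
      have := Finset.mem_range.1 hj
      exact Real.sq_sqrt (incr_nn hQ (by omega))
    rw [br_cascade_congr (q' := Q) h2, h2 0 (Nat.zero_le _),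
      P146.Ub.cascade_add_const _ K hp (hL i),
      cascade_shift m Q (u i) K (fun x => Real.log (Real.cosh x))]
    have hI := (lip1_cascade (q := Q) K hp Par.lip1_log_cosh).integrable (u i) (√(Q 0))
    simp only [add_comm (√(Q 0) * _) (u i)]
    rw [integral_add (integrable_const _) hI]
    simp
  · intro l hl i
    have hl' : l ≤ K := hl
    show ((Fin.ofNat (K + 1) l : Fin (K + 1)) : ℕ) = l
    simp only [Fin.ofNat, Nat.mod_eq_of_lt (Nat.lt_succ_of_le hl')]
  · intro l hl i j hij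
    exact (Prod.ext_iff.1 (Sum.inr_injective hij)).2
  · intro l hl
    positivity
  · intro z x
    show ip u (sv x) + lin (gfd ι K Q x) z = _
    congr 1
    unfold lin
    rw [Fintype.sum_sum_type, Fintype.sum_prod_type]
    have h0 : ∑ e : ι, gfd ι K Q x (Sum.inl e) * z (Sum.inl e) = 0 :=
      Finset.sum_eq_zero fun e _ => by simp [gfd]
    rw [h0, zero_add]
    show _ = ∑ l ∈ Finset.range (K + 1), _
    rw [Finset.sum_range]
    refine Finset.sum_congr rfl fun l _ => ?_
    have h4 : (Fin.ofNat (K + 1) (l : ℕ)) = l := by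
      ext
      simp only [Fin.ofNat, Nat.mod_eq_of_lt l.2]
    rw [h4, Finset.mul_sum]
    refine Finset.sum_congr rfl fun i _ => ?_
    simp only [gfd]
    ring

/-- **The Guerra bound** for a process with covariance `n b² (R - r)² / 2` on a subset of the
cube, in an arbitrary field. -/
theorem guerra {ι : Type} [Fintype ι] (hn : 0 < n) {S : Finset (Cfg n)} (hS : S.Nonempty) {K : ℕ}
    {m q : ℕ → ℝ} (hm : WM K m) (hq : ∀ l < K, q l ≤ q (l + 1)) {r : ℝ} (hr : r ≤ q 0) (b : ℝ)
    (a : Cfg n → ι → ℝ) (u : Vec n) {C d : ℝ}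
    (h : ∀ x ∈ S, ∀ y ∈ S,
      |cov a x y - (n * b ^ 2 / 2 * (ip (sv x) (sv y) / n - r) ^ 2 + C)| ≤ d) :
    FE S a (fun x => ip u (sv x)) ≤ ∑ i, Ph b K m q r (u i) + n * I0 b K m q + d := by
  classical
  have : Nonempty S := hS.to_subtype
  have hn' : (0 : ℝ) < n := by exact_mod_cast hn
  obtain ⟨Q, hQd⟩ : ∃ Q : ℕ → ℝ, Q = fun l => b ^ 2 * (q l - r) := ⟨_, rfl⟩
  have hQ : Path K Q := by
    rw [hQd]
    exact ⟨mul_nonneg (sq_nonneg b) (sub_nonneg.2 hr), fun l hl =>
      mul_le_mul_of_nonneg_left (by linarith [hq l hl]) (sq_nonneg b)⟩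
  have hl := glev_le (ι := ι) (n := n) (K := K)
  have key := interp (X := S) (lev := glev ι n K) hm hl (fun x : S => ip u (sv x))
    (α := fun x => Sum.elim (a x) 0) (β := fun x => gfd ι K Q x)
    (B := fun l => n * b ^ 2 / 2 * (1 + q l ^ 2) - n * b ^ 2 * q K + 2 * d)
    (by rintro (e | e) x x' <;> simp [gfd]) (by
      intro l hlK x y
      have h1 := abs_le.1 (h x x.2 x x.2)
      have h2 := abs_le.1 (h x x.2 y y.2)
      have e1 : ∑ e, (Sum.elim (a x) 0 : ι ⊕ (Fin (K + 1) × Fin n) → ℝ) e ^ 2 = cov a x x := by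
        simp [cov, Fintype.sum_sum_type, sq]
      have e2 : cv (glev ι n K) l (fun x : S => Sum.elim (a x) 0) (fun x : S => Sum.elim (a x) 0)
          x y = cov a x y := by
        simp [cv, cov, Fintype.sum_sum_type, glev]
      have e3 : cv (glev ι n K) l (fun x : S => gfd ι K Q x) (fun x : S => gfd ι K Q x) x y =
          Q l * ip (sv (x : Cfg n)) (sv (y : Cfg n)) := cv_gfd hQ hlK (x : Cfg n) (y : Cfg n)
      have e4 : ∑ e, gfd ι K Q (x : Cfg n) e ^ 2 = Q K * n := by
        have := cv_gfd (ι := ι) hQ le_rfl (x : Cfg n) x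
        rw [ip_sv_self] at this
        rw [← this]
        exact Finset.sum_congr rfl fun e _ => by rw [if_pos (hl e), sq]
      rw [e1, e2, e3, e4]
      rw [ip_sv_self, div_self hn'.ne'] at h1
      obtain ⟨R, hR⟩ : ∃ R, R = ip (sv (x : Cfg n)) (sv (y : Cfg n)) / n := ⟨_, rfl⟩
      have e5 : ip (sv (x : Cfg n)) (sv (y : Cfg n)) = n * R := by
        rw [hR]; field_simp
      rw [← hR] at h2
      rw [e5, hQd]
      have h3 : 0 ≤ n * b ^ 2 / 2 * (R - q l) ^ 2 := by positivity
      simp only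
      nlinarith [h1.2, h2.1, h3])
  rw [fe_eq_FE hS a (fun x => ip u (sv x)) hm hl Sum.inl_injective (fun _ => rfl) _ (by
      intro x z
      simp [lin, Fintype.sum_sum_type])] at key
  have h2 : (lc (glev ι n K) K m (fun x : S => ip u (sv x)) (fun x : S => gfd ι K Q x)).fe ≤
      (lc (glev ι n K) K m (fun x : Cfg n => ip u (sv x)) (gfd ι K Q)).fe := by
    refine fe_mono_top (lc_regD hm hl _ _).toReg (lc_regD hm hl _ _).toReg rfl rfl rfl fun z => ?_
    show Real.log (∑ x : S, Real.exp (ip u (sv x) + lin (gfd ι K Q x) z)) ≤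
      Real.log (∑ x : Cfg n, Real.exp (ip u (sv x) + lin (gfd ι K Q x) z))
    refine Real.log_le_log (Finset.sum_pos (fun x _ => Real.exp_pos _) Finset.univ_nonempty) ?_
    rw [Finset.sum_coe_sort S (fun x => Real.exp (ip u (sv x) + lin (gfd ι K Q x) z))]
    exact Finset.sum_le_sum_of_subset_of_nonneg (Finset.subset_univ _) fun x _ _ =>
      (Real.exp_pos _).le
  rw [fe_fields hm hQ] at h2
  have e6 : ∀ i, ∫ z, cascade m Q K (fun x => Real.log (Real.cosh x)) (u i + √(Q 0) * z)
      ∂(gaussianReal 0 1) = Ph b K m q r (u i) := by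
    intro i
    unfold Ph Phi
    rw [cascade_incr (q' := fun l => b ^ 2 * q l) K _ (fun j _ => by rw [hQd]; ring), hQd]
  simp only [e6] at h2
  rw [Finset.sum_add_distrib] at h2
  have e7 : ∑ l ∈ Finset.range (K + 1), (m (l + 1) - m l) *
      (n * b ^ 2 / 2 * (1 + q l ^ 2) - n * b ^ 2 * q K + 2 * d) =
      (n * b ^ 2 / 2 - n * b ^ 2 * q K + 2 * d) * ∑ l ∈ Finset.range (K + 1), (m (l + 1) - m l) +
      n * b ^ 2 / 2 * ∑ l ∈ Finset.range (K + 1), (m (l + 1) - m l) * q l ^ 2 := by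
    rw [Finset.mul_sum, Finset.mul_sum, ← Finset.sum_add_distrib]
    exact Finset.sum_congr rfl fun l _ => by ring
  rw [e7, hm.sum] at key
  simp only [Finset.sum_const, Finset.card_univ, Fintype.card_fin, nsmul_eq_mul] at h2
  unfold I0
  linarith

/-! ### The GOE form -/

open Vale.Agent.N150.Edge (GoeFam goeM)

/-- The coefficients of `b / 2 * qf W (sv x - w)`. -/
noncomputable def ga {ι : Type} (A : ι → Mat n) (b : ℝ) (w : Vec n) (x : Cfg n) (e : ι) : ℝ :=
  b / 2 * ip (sv x - w) ((A e).mulVec (sv x - w))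

theorem ga_sum {ι : Type} [Fintype ι] (A : ι → Mat n) (b : ℝ) (w : Vec n) (x : Cfg n)
    (ω : ι → ℝ) : ∑ e, ga A b w x e * ω e = b / 2 * qf (goeM A ω) (sv x - w) := by
  unfold qf
  rw [Law.ip_goeM, Finset.mul_sum]
  exact Finset.sum_congr rfl fun e _ => by unfold ga; ring

theorem ip_symm (u v : Vec n) : ip u v = ip v u := by
  unfold ip
  exact Finset.sum_congr rfl fun i _ => mul_comm _ _

theorem cov_ga {ι : Type} [Fintype ι] {A : ι → Mat n} (hA : GoeFam A) (b : ℝ) (w : Vec n)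
    (x y : Cfg n) : cov (ga A b w) x y = b ^ 2 / (2 * n) * ip (sv x - w) (sv y - w) ^ 2 := by
  have h := Law.goe_bil hA (sv x - w) (sv x - w) (sv y - w) (sv y - w)
  have e : cov (ga A b w) x y = b ^ 2 / 4 * ∑ e, ip (sv x - w) ((A e).mulVec (sv x - w)) *
      ip (sv y - w) ((A e).mulVec (sv y - w)) := by
    unfold cov ga
    rw [Finset.mul_sum]
    exact Finset.sum_congr rfl fun e _ => by ring
  rw [e, h]
  ring

theorem FE_ga {ι : Type} [Fintype ι] (A : ι → Mat n) (b : ℝ) (w : Vec n) (S : Finset (Cfg n))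
    (c : Cfg n → ℝ) : FE S (ga A b w) c = ∫ ω, Real.log (∑ x ∈ S,
      Real.exp (b / 2 * qf (goeM A ω) (sv x - w) + c x)) ∂(gpi ι) := by
  unfold FE
  simp only [ga_sum]

theorem ip_sub_sub (x y w : Vec n) :
    ip (x - w) (y - w) = ip x y - ip w x - ip w y + P150.F.sq w := by
  unfold ip P150.F.sq
  rw [← Finset.sum_sub_distrib, ← Finset.sum_sub_distrib, ← Finset.sum_add_distrib]
  exact Finset.sum_congr rfl fun i _ => by simp only [Pi.sub_apply]; ring

theorem abs_ip_sv (x y : Cfg n) : |ip (sv x) (sv y)| ≤ n := by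
  unfold ip
  refine (Finset.abs_sum_le_sum_abs _ _).trans (le_of_eq ?_)
  have : ∀ i, |sv x i * sv y i| = 1 := by
    intro i
    unfold sv P150.sp
    split_ifs <;> norm_num
  simp [this]

/-- On a band the covariance is `n b² (R - r)² / 2` up to `11 b² e n`. -/
theorem cov_band {ι : Type} [Fintype ι] {A : ι → Mat n} (hA : GoeFam A) (hn : 0 < n) (b : ℝ)
    {w : Vec n} {r e : ℝ} (hr0 : 0 ≤ r) (hr1 : r ≤ 1) (he : e ≤ 1)
    (hw : |P150.F.sq w - n * r| ≤ e * n) {x y : Cfg n} (hx : |ip w (sv x) - n * r| ≤ e * n)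
    (hy : |ip w (sv y) - n * r| ≤ e * n) :
    |cov (ga A b w) x y - (n * b ^ 2 / 2 * (ip (sv x) (sv y) / n - r) ^ 2 + 0)| ≤
      11 * b ^ 2 * e * n := by
  have hn' : (0 : ℝ) < n := by exact_mod_cast hn
  have he0 : 0 ≤ e := by
    have := (abs_nonneg _).trans hw
    exact nonneg_of_mul_nonneg_left this hn'
  obtain ⟨R, hR⟩ : ∃ R, R = ip (sv x) (sv y) / n := ⟨_, rfl⟩
  have e5 : ip (sv x) (sv y) = n * R := by rw [hR]; field_simp
  have hR1 : |R| ≤ 1 := by
    rw [hR, abs_div, abs_of_pos hn', div_le_one hn']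
    exact abs_ip_sv x y
  obtain ⟨t, ht⟩ : ∃ t, t = (P150.F.sq w - ip w (sv x) - ip w (sv y) + n * r) / n := ⟨_, rfl⟩
  have ht1 : |t| ≤ 3 * e := by
    rw [ht, abs_div, abs_of_pos hn', div_le_iff₀ hn', abs_le]
    have a1 := abs_le.1 hw
    have a2 := abs_le.1 hx
    have a3 := abs_le.1 hy
    constructor <;> linarith [a1.1, a1.2, a2.1, a2.2, a3.1, a3.2]
  have e6 : ip (sv x - w) (sv y - w) = n * (R - r + t) := by
    rw [ip_sub_sub, e5, ht]
    field_simp
    ring
  rw [cov_ga hA, e6, ← hR]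
  have e7 : b ^ 2 / (2 * n) * (n * (R - r + t)) ^ 2 - (n * b ^ 2 / 2 * (R - r) ^ 2 + 0) =
      n * b ^ 2 / 2 * (t * (2 * (R - r) + t)) := by
    field_simp
    ring
  rw [e7, abs_mul, abs_of_nonneg (by positivity : 0 ≤ n * b ^ 2 / 2), abs_mul]
  have h1 : |2 * (R - r) + t| ≤ 7 := by
    have a1 := abs_le.1 hR1
    have a2 := abs_le.1 ht1
    rw [abs_le]
    constructor <;> linarith [a1.1, a1.2, a2.1, a2.2]
  have h2 : |t| * |2 * (R - r) + t| ≤ 3 * e * 7 :=
    mul_le_mul ht1 h1 (abs_nonneg _) (by positivity)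
  have h3 := mul_le_mul_of_nonneg_left h2 (by positivity : 0 ≤ n * b ^ 2 / 2)
  have h4 : 0 ≤ b ^ 2 * e * n := by positivity
  nlinarith [h3, h4]

/-- **The Guerra bound on a band around `w`.** -/
theorem guerra_band {ι : Type} [Fintype ι] {A : ι → Mat n} (hA : GoeFam A) (hn : 0 < n)
    {S : Finset (Cfg n)} (hS : S.Nonempty) {K : ℕ} {m q : ℕ → ℝ} (hm : WM K m)
    (hq : ∀ l < K, q l ≤ q (l + 1)) {r e : ℝ} (hr : r ≤ q 0) (hr0 : 0 ≤ r) (hr1 : r ≤ 1)
    (he : e ≤ 1) (b : ℝ) {w : Vec n} (hw : |P150.F.sq w - n * r| ≤ e * n)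
    (hx : ∀ x ∈ S, |ip w (sv x) - n * r| ≤ e * n) (u : Vec n) :
    FE S (ga A b w) (fun x => ip u (sv x)) ≤
      ∑ i, Ph b K m q r (u i) + n * I0 b K m q + 11 * b ^ 2 * e * n :=
  guerra hn hS hm hq hr b (ga A b w) u fun x hx' y hy' =>
    cov_band hA hn b hr0 hr1 he hw (hx x hx') (hx y hy')

/-- The same, written out. -/
theorem guerra_goe {ι : Type} [Fintype ι] {A : ι → Mat n} (hA : GoeFam A) (hn : 0 < n)
    {S : Finset (Cfg n)} (hS : S.Nonempty) {K : ℕ} {m q : ℕ → ℝ} (hm : WM K m)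
    (hq : ∀ l < K, q l ≤ q (l + 1)) {r e : ℝ} (hr : r ≤ q 0) (hr0 : 0 ≤ r) (hr1 : r ≤ 1)
    (he : e ≤ 1) (b : ℝ) {w : Vec n} (hw : |P150.F.sq w - n * r| ≤ e * n)
    (hx : ∀ x ∈ S, |ip w (sv x) - n * r| ≤ e * n) (u : Vec n) :
    ∫ ω, Real.log (∑ x ∈ S, Real.exp (b / 2 * qf (goeM A ω) (sv x - w) + ip u (sv x))) ∂(gpi ι) ≤
      ∑ i, Ph b K m q r (u i) + n * I0 b K m q + 11 * b ^ 2 * e * n := by
  rw [← FE_ga A b w S (fun x => ip u (sv x))]
  exact guerra_band hA hn hS hm hq hr hr0 hr1 he b hw hx u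

end Vale.Agent.N150.Bc
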