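import Vale.Agent.N150.BcG

/-!
The reference order parameter of the model with a small Gaussian field (statement, helper98).
-/

open MeasureTheory ProbabilityTheory Filter Set

namespace Vale.Agent.N150.Kkt

open Vale.Agent.P157.Par (Path Exponents)
open Vale.Agent.P150 (Cfg gpi)
open Vale.Agent.P150.F (sv ip Mat)
open Vale.Agent.N150.Edge (GoeFam)
open Vale.Agent.N150.Bc (Phi Ph I0 FE ga)

/-- The `j`-th derivative of `Ph b K m q r`, written as an average. -/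
noncomputable def dPh (b : ℝ) (K : ℕ) (m q : ℕ → ℝ) (j : ℕ) (r y : ℝ) : ℝ :=
  ∫ z, iteratedDeriv j (Phi b K m q) (y + √(b ^ 2 * (q 0 - r)) * z) ∂(gaussianReal 0 1)

/-- Its second moment at a centred Gaussian point of variance `V + b² r`. -/
noncomputable def mom (b : ℝ) (K : ℕ) (m q : ℕ → ℝ) (V : ℝ) (j : ℕ) (r : ℝ) : ℝ :=
  ∫ z, dPh b K m q j r (√(V + b ^ 2 * r) * z) ^ 2 ∂(gaussianReal 0 1)

/-- The reference data: exponents, path and field variance. -/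
structure Ref (b a C W η : ℝ) (K : ℕ) (m q : ℕ → ℝ) (V : ℝ) : Prop where
  exps : Exponents K m
  path : Path K q
  le_one : q 0 ≤ 1
  span : b ^ 2 * q K - b ^ 2 * q 0 ≤ b ^ 2 + 1
  low : W / 2 ≤ V
  upp : V ≤ 2 * W
  small : (V + b ^ 2 * q 0) ^ 3 ≤ C * W
  fix : mom b K m q V 1 (q 0) = q 0
  grow : ∀ r ∈ Icc 0 (q 0), a * (q 0 - r) ^ 3 - η ≤ mom b K m q V 1 r - r
  marg : ∀ r ∈ Icc 0 (q 0), |b ^ 2 * mom b K m q V 2 r - 1| ≤ C * (q 0 - r) + η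
  start : ∀ᶠ n : ℕ in atTop, ∀ (ι : Type) [Fintype ι] (A : ι → Mat n), GoeFam A →
    n * ((∫ z, Ph b K m q 0 (√V * z) ∂(gaussianReal 0 1)) + I0 b K m q - η) ≤
      ∫ z, FE Finset.univ (ga A b 0) (fun x : Cfg n => ip (√V • z) (sv x)) ∂(gpi (Fin n))

/-- Existence of the reference data for every small field and every precision. -/
def RefStmt : Prop :=
  ∀ b : ℝ, 1 < b → ∃ a C W0 : ℝ, 0 < a ∧ 1 ≤ C ∧ 0 < W0 ∧ W0 ≤ 1 ∧ ∀ W : ℝ, 0 < W → W ≤ W0 →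
    ∀ η : ℝ, 0 < η → ∃ (K : ℕ) (m q : ℕ → ℝ) (V : ℝ), Ref b a C W η K m q V

end Vale.Agent.N150.Kkt
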