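import Vale.Agent.N150.BcG

/-! Sequential pinning: the statement. -/

open MeasureTheory ProbabilityTheory Filter

namespace Vale.Agent.N150.Pin

open Vale.Agent.N150.Bc Vale.Agent.N150.Edge
open Vale.Agent.P157.Par (Exponents Path)
open Vale.Agent.P150 (Cfg gpi)
open Vale.Agent.P150.F (sv ip Vec Mat)

/-- the mean square magnetisation at the level `r` -/
noncomputable def psi (b : ℝ) (K : ℕ) (m q : ℕ → ℝ) (V r : ℝ) : ℝ :=
  ∫ z, deriv (Ph b K m q r) (√(V + b ^ 2 * r) * z) ^ 2 ∂(gaussianReal 0 1)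

/-- the band `|x · w - a| ≤ e` -/
noncomputable def band {n : ℕ} (w : Vec n) (a e : ℝ) : Finset (Cfg n) :=
  Finset.univ.filter fun x => |ip w (sv x) - a| ≤ e

/-- the free energy in an independent Gaussian field is almost the value of the functional -/
def Start (b : ℝ) (K : ℕ) (m q : ℕ → ℝ) (V η : ℝ) : Prop :=
  ∀ᶠ n : ℕ in atTop, ∀ (ι : Type) [Fintype ι] (A : ι → Mat n), GoeFam A →
    n * (∫ z, Ph b K m q 0 (√V * z) ∂(gaussianReal 0 1) + I0 b K m q - η) ≤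
      ∫ z, FE Finset.univ (ga A b 0) (fun x => ip (fun i => √V * z i) (sv x)) ∂(gpi (Fin n))

/-- the lower bound on the band around `w = F' (s z)`, for all fields `u` -/
def Band (b : ℝ) (F : ℝ → ℝ) (I s r e : ℝ) : Prop :=
  ∀ᶠ n : ℕ in atTop, ∀ (ι : Type) [Fintype ι] (A : ι → Mat n), GoeFam A →
    7 / 8 ≤ (gpi (Fin n)).real {z |
      (band (fun i => deriv F (s * z i)) (n * r) (e * n)).Nonempty ∧ ∀ u : Vec n,
        ∑ i, (2 * F (s * z i) - F (2 * (s * z i) - u i) + I - e) ≤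
          FE (band (fun i => deriv F (s * z i)) (n * r) (e * n))
            (ga A b fun i => deriv F (s * z i)) fun x => ip u (sv x)}

/-- the output of the pinning -/
def PinStmt : Prop :=
  ∀ b e : ℝ, 0 < e → ∃ η : ℝ, 0 < η ∧ ∀ (K : ℕ) (m q : ℕ → ℝ) (V : ℝ), Exponents K m → Path K q →
    q 0 ≤ 1 → 0 ≤ V → psi b K m q V (q 0) ≤ q 0 → Start b K m q V η →
    ∃ r : ℝ, 0 ≤ r ∧ r ≤ q 0 ∧ r ≤ psi b K m q V r ∧ psi b K m q V r ≤ r + e ∧
      Band b (Ph b K m q r) (I0 b K m q) (√(V + b ^ 2 * r)) r e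

end Vale.Agent.N150.Pin
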