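import Vale.Agent.N150.ScA
import Vale.Agent.P157.ParDefs

/-! Low temperature, one site calculus: the statements. -/

open MeasureTheory ProbabilityTheory

namespace Vale.Agent.N150.Sc

open Vale.Agent.N150.Sm2 (gam Shape Nrm)
open Vale.Agent.P157.Par (cascade Exponents Path)

/-- the derivatives of the function of the recursion -/
noncomputable def fam (n : ℕ) (m r : ℕ → ℝ) : ℕ → ℝ → ℝ :=
  fun j => iteratedDeriv j (cascade m r n fun x => Real.log (Real.cosh x))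

/-- The functions of the recursion, and their smoothings of small variance, are in one class. -/
def ClsStmt : Prop :=
  ∀ B : ℝ, ∃ K k v0 : ℝ, 0 < k ∧ 0 < v0 ∧ ∀ (n : ℕ) (m r : ℕ → ℝ), Exponents n m → Path n r →
    r n - r 0 ≤ B → Ch K (fam n m r) ∧ ∀ a : ℝ, a ^ 2 ≤ v0 → Cls K k (conv a (fam n m r))

/-- `q = E f'(s z) ^ 2` -/
noncomputable def qq (f : ℕ → ℝ → ℝ) (s : ℝ) : ℝ := ∫ z, f 1 (s * z) ^ 2 ∂gam

/-- the scale `c`, `c ^ 2 (1 - eps ^ 2) = q` -/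
noncomputable def cc (f : ℕ → ℝ → ℝ) (s eps : ℝ) : ℝ := √(qq f s / (1 - eps ^ 2))

/-- the normalised site function -/
noncomputable def WW (f : ℕ → ℝ → ℝ) (s eps : ℝ) (z : ℝ) : ℝ := f 1 (s * z) / cc f s eps

/-- `th = E z W` -/
noncomputable def thh (f : ℕ → ℝ → ℝ) (s eps : ℝ) : ℝ := ∫ z, z * WW f s eps z ∂gam

/-- the cubic coefficient -/
noncomputable def aa (f : ℕ → ℝ → ℝ) (s eps : ℝ) : ℝ := f 4 0 * s ^ 3 / (6 * cc f s eps)

/-- the planted eigenvalue -/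
noncomputable def lam (f : ℕ → ℝ → ℝ) (s eps : ℝ) : ℝ := thh f s eps - 30 * aa f s eps ^ 4

/-- the field -/
noncomputable def UU (b : ℝ) (f : ℕ → ℝ → ℝ) (s eps t : ℝ) (z : ℝ) : ℝ :=
  b * cc f s eps * z + t * f 1 (s * z)

/-- the hypotheses -/
structure Hyp (b eta : ℝ) (f : ℕ → ℝ → ℝ) (s r eps : ℝ) : Prop where
  s0 : 0 < s
  s1 : s ≤ eta
  mar : |1 - b ^ 2 * ∫ z, f 2 (s * z) ^ 2 ∂gam| ≤ eta * s ^ 4
  fix : |r - qq f s| ≤ s ^ 12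
  e0 : 0 < eps
  e1 : eps ^ 2 ≤ s ^ 12

/-- The shape and the normalisation of the site function, and crude bounds. -/
def ShapeStmt : Prop :=
  ∀ b K k : ℝ, 0 < b → 0 < k → ∃ L : ℝ, ∀ eta1 : ℝ, 0 < eta1 → ∃ eta : ℝ, 0 < eta ∧
    ∀ (f : ℕ → ℝ → ℝ) (s r eps : ℝ), Cls K k f → Hyp b eta f s r eps →
      eps < 1 ∧ s ^ 2 ≤ 4 * b ^ 2 * qq f s ∧ 0 < cc f s eps ∧ cc f s eps ≤ 1 ∧
      cc f s eps ^ 2 * (1 - eps ^ 2) = qq f s ∧ |lam f s eps| ≤ 2 ∧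
      ∃ (th0 : ℝ) (W1 : ℝ → ℝ), Shape L eta1 (aa f s eps) th0 (WW f s eps) W1 ∧
        Nrm (aa f s eps) eta1 eps (lam f s eps) (thh f s eps) (WW f s eps)

/-- The barrier: the slice at `39 / 40` against the band. -/
def SliceStmt : Prop :=
  ∀ b K k : ℝ, 0 < b → 0 < k → ∃ eta c0 : ℝ, 0 < eta ∧ 0 < c0 ∧
    ∀ (f : ℕ → ℝ → ℝ) (s r eps : ℝ), Cls K k f → Hyp b eta f s r eps →
      ∃ t : ℝ, |t| ≤ 1 ∧ (39 / 40) ^ 2 * qq f s ≤ r ∧
        ∫ z, conv (√(b ^ 2 * (r - (39 / 40) ^ 2 * qq f s))) f 0 (39 / 40 * UU b f s eps t z) ∂gam +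
            (1 - (39 / 40) ^ 2) * (b / 2 * (cc f s eps ^ 2 * thh f s eps -
              lam f s eps * qq f s) + t * qq f s) + c0 * s ^ 10 ≤
          ∫ z, f 0 (UU b f s eps t z) ∂gam - ∫ z, (UU b f s eps t z - s * z) ^ 2 ∂gam

end Vale.Agent.N150.Sc
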