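import Vale.Agent.N150.SlLowDef
import Vale.Agent.N150.ScDef
import Vale.Agent.N150.PinDef
import Vale.Agent.N150.KktDef

/-!
Low temperature: from the reference order parameter, the pinning, the one site calculus and the
second moment to a barrier of linear height.
-/

open MeasureTheory ProbabilityTheory Filter

namespace Vale.Agent.N150.Bc

set_option linter.unusedSectionVars false
set_option linter.unusedVariables false

open Vale.Agent.P157.Par (Path Exponents)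
open Vale.Agent.P150 (Cfg gpi)
open Vale.Agent.P150.F (sv ip Vec Mat)
open Vale.Agent.N150.Edge (GoeFam)
open Vale.Agent.N150.Sm2 (gam Shape Nrm TwoMW TwoMWStmt)
open Vale.Agent.N150.Sc (Ch Cls conv fam qq cc WW thh aa lam UU Hyp ClsStmt ShapeStmt SliceStmt)
open Vale.Agent.N150.Slow (Gu BandAt LowStmt Low FB slice)
open Vale.Agent.N150.Pin (psi band Start Band PinStmt)
open Vale.Agent.N150.Kkt (dPh mom Ref RefStmt)

/-- the derivatives of `Ph` -/
noncomputable def ff (b : ℝ) (K : ℕ) (m q : ℕ → ℝ) (r : ℝ) : ℕ → ℝ → ℝ :=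
  conv (√(b ^ 2 * (q 0 - r))) (fam K m fun l => b ^ 2 * q l)

theorem ff_zero (b : ℝ) (K : ℕ) (m q : ℕ → ℝ) (r : ℝ) : ff b K m q r 0 = Ph b K m q r := by
  funext y
  unfold ff conv fam Ph Phi
  simp only [iteratedDeriv_zero]

theorem ff_eq (b : ℝ) (K : ℕ) (m q : ℕ → ℝ) (r : ℝ) (j : ℕ) :
    ff b K m q r j = dPh b K m q j r := rfl

theorem deriv_Ph {b : ℝ} {K : ℕ} {m q : ℕ → ℝ} {C : ℝ} (h : Ch C (fam K m fun l => b ^ 2 * q l))
    (r : ℝ) : deriv (Ph b K m q r) = ff b K m q r 1 := by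
  funext y
  rw [← ff_zero]
  exact ((h.conv _).d0 y).deriv

theorem psi_eq {b : ℝ} {K : ℕ} {m q : ℕ → ℝ} {C : ℝ} (h : Ch C (fam K m fun l => b ^ 2 * q l))
    (V r : ℝ) : psi b K m q V r = mom b K m q V 1 r := by
  unfold psi mom
  rw [deriv_Ph h, ff_eq]

theorem qq_eq (b : ℝ) (K : ℕ) (m q : ℕ → ℝ) (V r : ℝ) :
    qq (ff b K m q r) (√(V + b ^ 2 * r)) = mom b K m q V 1 r := rfl

theorem ff_conv {b : ℝ} {K : ℕ} {m q : ℕ → ℝ} {C : ℝ} (h : Ch C (fam K m fun l => b ^ 2 * q l))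
    {r r' : ℝ} (hr : r ≤ q 0) (hr' : r' ≤ r) (y : ℝ) :
    conv (√(b ^ 2 * (r - r'))) (ff b K m q r) 0 y = Ph b K m q r' y := by
  rw [← ff_zero]
  refine h.conv_conv (j := 0) (by norm_num) y _ _ _ ?_
  have h1 : 0 ≤ b ^ 2 * (q 0 - r') := mul_nonneg (sq_nonneg b) (by linarith)
  have h2 : 0 ≤ b ^ 2 * (r - r') := mul_nonneg (sq_nonneg b) (by linarith)
  have h3 : 0 ≤ b ^ 2 * (q 0 - r) := mul_nonneg (sq_nonneg b) (by linarith)
  rw [Real.sq_sqrt h1, Real.sq_sqrt h2, Real.sq_sqrt h3]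
  ring

/-- the midpoint inequality of a function with second derivative at most one -/
theorem mid_le {C : ℝ} {f : ℕ → ℝ → ℝ} (h : Ch C f) (y u : ℝ) :
    f 0 u - (u - y) ^ 2 ≤ 2 * f 0 y - f 0 (2 * y - u) := by
  have hd : ∀ x, HasDerivAt (fun x => x ^ 2 / 2 - f 0 x) (x - f 1 x) x := by
    intro x
    have h1 := ((hasDerivAt_pow 2 x).div_const 2).sub (h.d0 x)
    refine h1.congr_deriv ?_
    norm_num
  have hm : Monotone (deriv fun x => x ^ 2 / 2 - f 0 x) := by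
    intro x x' hx
    rw [(hd x).deriv, (hd x').deriv]
    have h1 := Sc.tay1 h.d1 h.a2 x (x' - x)
    rw [add_sub_cancel, one_mul, abs_of_nonneg (sub_nonneg.2 hx)] at h1
    linarith [(abs_le.1 h1).2]
  have hc := hm.convexOn_univ_of_deriv fun x => (hd x).differentiableAt
  have h2 := hc.2 (Set.mem_univ u) (Set.mem_univ (2 * y - u))
    (by norm_num : (0 : ℝ) ≤ 1 / 2) (by norm_num : (0 : ℝ) ≤ 1 / 2) (by norm_num)
  have e : (1 / 2 : ℝ) • u + (1 / 2 : ℝ) • (2 * y - u) = y := by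
    simp only [smul_eq_mul]
    ring
  rw [e] at h2
  simp only [smul_eq_mul] at h2
  nlinarith

theorem gu {b : ℝ} {K : ℕ} {m q : ℕ → ℝ} (hm : Exponents K m) (hq : Path K q) {r : ℝ}
    (hr : r ≤ q 0) (hr0 : 0 ≤ r) (hr1 : r ≤ 1) :
    Gu b r (I0 b K m q) (11 * b ^ 2) (Ph b K m q r) := by
  intro n ι _ A S w u e hn hA hS he hw hx
  exact guerra_goe hA hn hS (WM.of_exp hm) (fun l hl => hq.2 l hl) hr hr0 hr1 he b hw hx u

theorem bandAt_of {b C I s r r' e : ℝ} {f : ℕ → ℝ → ℝ} (h : Ch C f)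
    (hB : Band b (f 0) I s r e) (hr : |r - r'| ≤ e) {w u : ℝ → ℝ} (hw : ∀ z, w z = f 1 (s * z)) :
    BandAt b r' (2 * e) w u (fun z => f 0 (u z) - (u z - s * z) ^ 2 + I - e) := by
  have hd : deriv (f 0) = f 1 := funext fun y => (h.d0 y).deriv
  filter_upwards [hB] with n hn
  intro ι _ A hA
  refine (hn ι A hA).trans (measureReal_mono ?_ (measure_ne_top _ _))
  intro z hz
  obtain ⟨h1, h2⟩ := hz
  have e1 : (fun i => deriv (f 0) (s * z i)) = w ∘ z := by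
    funext i
    rw [hd]
    exact (hw _).symm
  rw [e1] at h1 h2
  have hsub : band (w ∘ z) (n * r) (e * n) ⊆ slice (w ∘ z) (n * r') (2 * e * n) := by
    intro x hx
    unfold band at hx
    unfold slice
    rw [Finset.mem_filter] at hx ⊢
    refine ⟨hx.1, ?_⟩
    have a1 := abs_le.1 hx.2
    have a2 := abs_le.1 hr
    have hn0 : (0 : ℝ) ≤ n := Nat.cast_nonneg n
    have a3 := mul_le_mul_of_nonneg_left a2.1 hn0
    have a4 := mul_le_mul_of_nonneg_left a2.2 hn0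
    rw [abs_le]
    constructor <;> nlinarith [a1.1, a1.2]
  refine ⟨h1.mono hsub, ?_⟩
  have h3 := h2 (u ∘ z)
  have h4 := FE_mono h1 hsub (ga A b (w ∘ z)) (c := fun x => ip (u ∘ z) (sv x))
    (c' := fun x => ip (u ∘ z) (sv x)) (t := 0) fun x _ => by rw [add_zero]
  have h5 : FE (slice (w ∘ z) (n * r') (2 * e * n)) (ga A b (w ∘ z))
      (fun x => ip (u ∘ z) (sv x)) =
      FB b A (slice (w ∘ z) (n * r') (2 * e * n)) (w ∘ z) (u ∘ z) := FE_ga A b _ _ _
  rw [← h5]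
  refine le_trans (Finset.sum_le_sum fun i _ => ?_) (h3.trans (by linarith))
  have h6 := mid_le h (s * z i) (u (z i))
  simp only [Function.comp_apply]
  linarith

theorem int_comp {C : ℝ} {f : ℕ → ℝ → ℝ} (h : Ch C f) {u : ℝ → ℝ} (hu : Continuous u)
    {A B : ℝ} (hB : 0 ≤ B) (hb : ∀ z, |u z| ≤ A + B * |z|) :
    Integrable (fun z => f 0 (u z)) gam := by
  have h1 := Sc.int_lin (h := fun z => f 0 (u z)) ((h.cont (by norm_num)).comp hu)
    (A := |f 0 0| + C + A) hB (fun z => by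
      have h2 := h.lin (j := 0) (by norm_num) (u z)
      linarith [hb z]) 0 1
  simpa using h1

theorem int_sq {u : ℝ → ℝ} (hu : Continuous u) {A B : ℝ} (hb : ∀ z, |u z| ≤ A + B * |z|) :
    Integrable (fun z => u z ^ 2) gam := by
  refine ((integrable_const (2 * A ^ 2)).add ((Sc.int_pow 2).const_mul (2 * B ^ 2))).mono'
    (hu.pow 2).aestronglyMeasurable (Eventually.of_forall fun z => ?_)
  rw [Real.norm_eq_abs, abs_of_nonneg (sq_nonneg _), ← sq_abs (u z)]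
  have h1 := pow_le_pow_left₀ (abs_nonneg _) (hb z) 2
  have h2 : z ^ 2 = |z| ^ 2 := (sq_abs z).symm
  simp only [Pi.add_apply]
  rw [h2]
  nlinarith [sq_nonneg (A - B * |z|)]

theorem hyp_mono {b eta eta' : ℝ} {f : ℕ → ℝ → ℝ} {s r eps : ℝ} (h : Hyp b eta f s r eps)
    (he : eta ≤ eta') : Hyp b eta' f s r eps :=
  ⟨h.s0, h.s1.trans he, h.mar.trans (mul_le_mul_of_nonneg_right he (by positivity)), h.fix, h.e0,
    h.e1⟩

/-- the error constant -/
noncomputable def MM (b σ : ℝ) : ℝ := 4 * b + 2 + 11 * b ^ 2 + 1392 * b ^ 3 / σ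

/-- the barrier from one band -/
theorem low_band (hL : LowStmt) {b C I s r e eps σ c0 t : ℝ} {f : ℕ → ℝ → ℝ} {Φ : ℝ → ℝ}
    (hb : 0 < b) (h : Ch C f) (hσ : 0 < σ) (hs : σ ≤ s ^ 2) (hc0 : 0 < c0) (he0 : 0 < e)
    (heps0 : 0 < eps) (heps : eps ≤ 1 / 2) (hq : s ^ 2 ≤ 4 * b ^ 2 * qq f s)
    (hc : 0 < cc f s eps) (hc1 : cc f s eps ≤ 1)
    (hcq : cc f s eps ^ 2 * (1 - eps ^ 2) = qq f s) (hlam : |lam f s eps| ≤ 2)
    (hQ : ∫ z, WW f s eps z ^ 2 ∂gam = 1 - eps ^ 2)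
    (hT : TwoMW eps (lam f s eps) (thh f s eps) (WW f s eps))
    (hB : Band b (f 0) I s r e) (hr : |r - qq f s| ≤ e) (ht : |t| ≤ 1)
    (hG : Gu b ((39 / 40) ^ 2 * qq f s) I (11 * b ^ 2) Φ)
    (hΦ : ∀ y, conv (√(b ^ 2 * (r - (39 / 40) ^ 2 * qq f s))) f 0 y = Φ y)
    (hS : ∫ z, conv (√(b ^ 2 * (r - (39 / 40) ^ 2 * qq f s))) f 0
            (39 / 40 * UU b f s eps t z) ∂gam +
          (1 - (39 / 40) ^ 2) * (b / 2 * (cc f s eps ^ 2 * thh f s eps -
            lam f s eps * qq f s) + t * qq f s) + c0 * s ^ 10 ≤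
        ∫ z, f 0 (UU b f s eps t z) ∂gam - ∫ z, (UU b f s eps t z - s * z) ^ 2 ∂gam)
    (e1 : e ≤ 1 / 2) (e2 : 320 * b ^ 2 * e ≤ σ) (e3 : (2 * MM b σ + 1) * e ≤ c0 * σ ^ 5 / 4)
    (e4 : 27 * b * eps ≤ c0 * σ ^ 5 / 4) :
    ∀ del : ℝ, 0 < del → Low b (c0 * σ ^ 5 / 4) del := by
  obtain ⟨ρ, hρ⟩ : ∃ ρ, ρ = cc f s eps := ⟨_, rfl⟩
  obtain ⟨la, hla⟩ : ∃ la, la = lam f s eps := ⟨_, rfl⟩
  obtain ⟨Q, hQd⟩ : ∃ Q, Q = qq f s := ⟨_, rfl⟩
  obtain ⟨th, hth⟩ : ∃ th, th = thh f s eps := ⟨_, rfl⟩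
  have hw : ∀ z, ρ * WW f s eps z = f 1 (s * z) := by
    intro z
    unfold WW
    rw [← hρ]
    have : ρ ≠ 0 := by rw [hρ]; exact hc.ne'
    field_simp
  have hc1' : Continuous (f 1) := h.cont (by norm_num)
  have hWc : Continuous (WW f s eps) := by
    unfold WW
    exact (hc1'.comp (continuous_const.mul continuous_id)).div_const _
  have hU : ∀ z, b * (ρ * (z + la * WW f s eps z)) - (b * la - t) * (ρ * WW f s eps z) =
      UU b f s eps t z := by
    intro z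
    unfold UU
    rw [← hw, ← hρ]
    ring
  have hU' : ∀ z, b * (39 / 40) * (ρ * (z + la * WW f s eps z)) +
      -(39 / 40 * (b * la - t)) * (ρ * WW f s eps z) = 39 / 40 * UU b f s eps t z := by
    intro z
    rw [← hU]
    ring
  have hUc : Continuous (UU b f s eps t) := by
    unfold UU
    exact (continuous_const.mul continuous_id).add
      (continuous_const.mul (hc1'.comp (continuous_const.mul continuous_id)))
  have hUb : ∀ z, |UU b f s eps t z| ≤ 1 + b * |z| := by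
    intro z
    unfold UU
    have a1 := abs_add_le (b * cc f s eps * z) (t * f 1 (s * z))
    rw [abs_mul, abs_mul, abs_mul, abs_of_pos hb, abs_of_pos hc] at a1
    have a2 : |t| * |f 1 (s * z)| ≤ 1 * 1 := mul_le_mul ht (h.b1 _) (abs_nonneg _) zero_le_one
    have a3 : b * cc f s eps * |z| ≤ b * 1 * |z| :=
      mul_le_mul_of_nonneg_right (mul_le_mul_of_nonneg_left hc1 hb.le) (abs_nonneg _)
    linarith
  have i1 : Integrable (fun z => f 0 (UU b f s eps t z)) gam := int_comp h hUc hb.le hUb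
  have i2 : Integrable (fun z => (UU b f s eps t z - s * z) ^ 2) gam :=
    int_sq (u := fun z => UU b f s eps t z - s * z)
      (hUc.sub (continuous_const.mul continuous_id)) (A := 1) (B := b + |s|) fun z => by
        have a1 := abs_sub (UU b f s eps t z) (s * z)
        rw [abs_mul] at a1
        linarith [hUb z]
  have i3 : Integrable (fun z => conv (√(b ^ 2 * (r - (39 / 40) ^ 2 * qq f s))) f 0
      (39 / 40 * UU b f s eps t z)) gam :=
    int_comp (h.conv _) (u := fun z => 39 / 40 * UU b f s eps t z) (continuous_const.mul hUc)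
      hb.le (A := 1) fun z => by
        rw [abs_mul, abs_of_pos (by norm_num : (0 : ℝ) < 39 / 40)]
        linarith [hUb z, abs_nonneg (UU b f s eps t z)]
  simp only [hΦ] at hS i3
  rw [← hρ, ← hla, ← hQd, ← hth] at hS
  rw [← hQd] at hq hr hG
  rw [← hρ, ← hQd] at hcq
  rw [← hρ] at hc hc1
  rw [← hla, ← hth] at hT
  rw [← hla] at hlam
  have hb2 : 0 < b ^ 2 := by positivity
  have hQσ : σ ≤ 4 * b ^ 2 * Q := hs.trans hq
  have hQ0 : 0 < Q := by
    by_contra hn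
    have : 4 * b ^ 2 * Q ≤ 0 := mul_nonpos_of_nonneg_of_nonpos (by positivity) (not_lt.1 hn)
    linarith
  have hQe : 80 * e ≤ Q := by
    have : 4 * b ^ 2 * (80 * e) ≤ 4 * b ^ 2 * Q := by linarith
    exact le_of_mul_le_mul_left this (by positivity)
  have hBA := bandAt_of h hB hr (w := fun z => ρ * WW f s eps z)
    (u := fun z => b * (ρ * (z + la * WW f s eps z)) - (b * la - t) * (ρ * WW f s eps z)) hw
  have iG : Integrable (fun z => f 0 (UU b f s eps t z) - (UU b f s eps t z - s * z) ^ 2 + I - e)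
      gam := ((i1.sub i2).add (integrable_const I)).sub (integrable_const e)
  have vG : ∫ z, (f 0 (UU b f s eps t z) - (UU b f s eps t z - s * z) ^ 2 + I - e) ∂gam =
      ∫ z, f 0 (UU b f s eps t z) ∂gam - ∫ z, (UU b f s eps t z - s * z) ^ 2 ∂gam + I - e := by
    have j1 : Integrable (fun z => f 0 (UU b f s eps t z) - (UU b f s eps t z - s * z) ^ 2) gam :=
      i1.sub i2
    have j2 : Integrable
        (fun z => f 0 (UU b f s eps t z) - (UU b f s eps t z - s * z) ^ 2 + I) gam :=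
      j1.add (integrable_const I)
    rw [integral_sub j2 (integrable_const e), integral_add j1 (integrable_const I),
      integral_sub i1 i2]
    simp
  refine hL b eps la th ρ (|s| / ρ) Q (2 * e) (39 / 40) (b * la - t) (-(39 / 40 * (b * la - t))) I
    (11 * b ^ 2) (c0 * σ ^ 5 / 4) (WW f s eps) _ Φ hb hT hWc ?_ (by rw [hth]; rfl) hQ heps0 heps
    hlam hc ?_ (by norm_num) (by norm_num) hQ0 (by positivity) (by linarith) (by linarith)
    (by linarith) ?_ hG hBA ?_ ?_ ?_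
  · intro z
    have a1 := h.le1 (s * z)
    rw [← hw, abs_mul, abs_mul, abs_of_pos hc] at a1
    rw [div_mul_eq_mul_div, le_div_iff₀ hc]
    linarith
  · intro z
    rw [hw]
    exact h.b1 _
  · rw [hcq, sub_self, abs_zero]
    positivity
  · simp only [hU]
    exact iG
  · simp only [hU']
    exact i3
  · simp only [hU, hU']
    rw [vG]
    have k1 : |b * la - t| ≤ 2 * b + 1 := by
      have a1 := abs_sub (b * la) t
      rw [abs_mul, abs_of_pos hb] at a1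
      have a2 := mul_le_mul_of_nonneg_left hlam hb.le
      linarith
    have k2 : |-(39 / 40 * (b * la - t))| ≤ 2 * b + 1 := by
      rw [abs_neg, abs_mul, abs_of_pos (by norm_num : (0 : ℝ) < 39 / 40)]
      linarith [abs_nonneg (b * la - t)]
    have k3 : 24 * b * (5 / 2 + 4 * ρ ^ 2 + 2 * la ^ 2) / Q ≤ 1392 * b ^ 3 / σ := by
      rw [div_le_div_iff₀ hQ0 hσ]
      have a1 : ρ ^ 2 ≤ 1 := pow_le_one₀ hc.le hc1
      have a2 : la ^ 2 ≤ 4 := by
        have := pow_le_pow_left₀ (abs_nonneg _) hlam 2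
        rw [sq_abs] at this
        linarith
      have a3 : 24 * b * (5 / 2 + 4 * ρ ^ 2 + 2 * la ^ 2) ≤ 24 * b * (29 / 2) :=
        mul_le_mul_of_nonneg_left (by linarith) (by positivity)
      have a4 : 24 * b * (5 / 2 + 4 * ρ ^ 2 + 2 * la ^ 2) * σ ≤ 24 * b * (29 / 2) * (4 * b ^ 2 * Q) :=
        mul_le_mul a3 hQσ hσ.le (by positivity)
      linarith
    have k4 : (|b * la - t| + |-(39 / 40 * (b * la - t))| + 11 * b ^ 2 +
        24 * b * (5 / 2 + 4 * ρ ^ 2 + 2 * la ^ 2) / Q) * (2 * e) ≤ MM b σ * (2 * e) := by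
      refine mul_le_mul_of_nonneg_right ?_ (by positivity)
      unfold MM
      linarith
    have k5 : c0 * σ ^ 5 ≤ c0 * s ^ 10 := by
      refine mul_le_mul_of_nonneg_left ?_ hc0.le
      have := pow_le_pow_left₀ hσ.le hs 5
      rw [← pow_mul] at this
      exact this
    have k6 : 0 < c0 * σ ^ 5 := by positivity
    have k7 : b / 2 * (1 - (39 / 40) ^ 2) * (ρ ^ 2 * (th + la * (1 - eps ^ 2))) -
        (b * la - t + -(39 / 40 * (b * la - t)) * (39 / 40)) * Q =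
        (1 - (39 / 40) ^ 2) * (b / 2 * (ρ ^ 2 * th - la * Q) + t * Q) := by
      rw [← hcq]
      ring
    linarith

theorem start_of {b a C W η η' : ℝ} {K : ℕ} {m q : ℕ → ℝ} {V : ℝ} (h : Ref b a C W η K m q V)
    (hη : η ≤ η') : Start b K m q V η' := by
  filter_upwards [h.start] with n hn
  intro ι _ A hA
  refine le_trans ?_ (hn ι A hA)
  exact mul_le_mul_of_nonneg_left (by linarith) (Nat.cast_nonneg n)

/-- **A barrier of linear height at every low temperature.** -/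
theorem low_all (hR : RefStmt) (hP : PinStmt) (hC : ClsStmt) (hSh : ShapeStmt) (hSl : SliceStmt)
    (hT : TwoMWStmt) (hL : LowStmt) {b : ℝ} (hb1 : 1 < b) :
    ∃ c : ℝ, 0 < c ∧ ∀ del : ℝ, 0 < del → Low b c del := by
  have hb : 0 < b := by linarith
  have hb2 : 0 < b ^ 2 := by positivity
  obtain ⟨a, C, W0, ha, hC1, hW0, hW1, hR⟩ := hR b hb1
  obtain ⟨Kc, k, v0, hk, hv0, hC⟩ := hC (b ^ 2 + 1)
  obtain ⟨L, hSh⟩ := hSh b Kc k hb hk
  obtain ⟨eta1, heta1, hT⟩ := hT L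
  obtain ⟨etaS, hetaS, hSh⟩ := hSh eta1 heta1
  obtain ⟨etaL, c0, hetaL, hc0, hSl⟩ := hSl b Kc k hb hk
  obtain ⟨eta, heta, hS1, hS2⟩ : ∃ eta : ℝ, 0 < eta ∧ eta ≤ etaS ∧ eta ≤ etaL :=
    ⟨min etaS etaL, lt_min hetaS hetaL, min_le_left _ _, min_le_right _ _⟩
  have hC0 : 0 < C := by linarith
  obtain ⟨W, hW, hWa, hWb⟩ : ∃ W : ℝ, 0 < W ∧ W ≤ W0 ∧ C * W ≤ eta ^ 6 :=
    ⟨min W0 (eta ^ 6 / C), lt_min hW0 (by positivity), min_le_left _ _, by
      have := min_le_right W0 (eta ^ 6 / C)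
      rw [le_div_iff₀ hC0] at this
      linarith⟩
  obtain ⟨σ, hσd⟩ : ∃ σ : ℝ, σ = W / 2 := ⟨_, rfl⟩
  have hσ : 0 < σ := by rw [hσd]; positivity
  have hσ1 : σ ≤ 1 / 2 := by rw [hσd]; linarith
  obtain ⟨p0, hp0, hpa, hpb⟩ : ∃ p0 : ℝ, 0 < p0 ∧ C * p0 ≤ eta * σ ^ 2 / 2 ∧ b ^ 2 * p0 ≤ v0 :=
    ⟨min (eta * σ ^ 2 / 2 / C) (v0 / b ^ 2), lt_min (by positivity) (by positivity), by
      have := min_le_left (eta * σ ^ 2 / 2 / C) (v0 / b ^ 2)
      rw [le_div_iff₀ hC0] at this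
      linarith, by
      have := min_le_right (eta * σ ^ 2 / 2 / C) (v0 / b ^ 2)
      rw [le_div_iff₀ hb2] at this
      linarith⟩
  have hM : 0 < 2 * MM b σ + 1 := by unfold MM; positivity
  obtain ⟨e, he, e1, e2, e3, e5, e6⟩ : ∃ e : ℝ, 0 < e ∧ e ≤ 1 / 2 ∧ 320 * b ^ 2 * e ≤ σ ∧
      (2 * MM b σ + 1) * e ≤ c0 * σ ^ 5 / 4 ∧ e ≤ σ ^ 6 ∧ e ≤ a * p0 ^ 3 / 2 := by
    have h1 : ∀ᶠ e : ℝ in nhdsWithin 0 (Set.Ioi 0), e ≤ 1 / 2 ∧ e ≤ σ / (320 * b ^ 2) ∧
        e ≤ c0 * σ ^ 5 / 4 / (2 * MM b σ + 1) ∧ e ≤ σ ^ 6 ∧ e ≤ a * p0 ^ 3 / 2 := by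
      refine eventually_nhdsWithin_of_eventually_nhds ?_
      refine (eventually_le_nhds (by positivity)).and ((eventually_le_nhds (by positivity)).and
        ((eventually_le_nhds (by positivity)).and ((eventually_le_nhds (by positivity)).and
          (eventually_le_nhds (by positivity)))))
    obtain ⟨e, ⟨h2, h3, h4, h5, h6⟩, h7⟩ := (h1.and self_mem_nhdsWithin).exists
    rw [le_div_iff₀ (by positivity)] at h3
    rw [le_div_iff₀ hM] at h4
    exact ⟨e, h7, h2, by linarith, by linarith, h5, h6⟩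
  obtain ⟨eps, heps, f1, f2⟩ : ∃ eps : ℝ, 0 < eps ∧ eps ≤ σ ^ 3 ∧
      27 * b * eps ≤ c0 * σ ^ 5 / 4 :=
    ⟨min (σ ^ 3) (c0 * σ ^ 5 / 4 / (27 * b)), lt_min (by positivity) (by positivity),
      min_le_left _ _, by
      have := min_le_right (σ ^ 3) (c0 * σ ^ 5 / 4 / (27 * b))
      rw [le_div_iff₀ (by positivity)] at this
      linarith⟩
  have heps2 : eps ≤ 1 / 2 := by
    have h1 := pow_le_pow_left₀ hσ.le hσ1 3
    norm_num at h1
    linarith
  obtain ⟨ηp, hηp, hP⟩ := hP b e he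
  obtain ⟨tol, htol, t1, t2, t3⟩ : ∃ tol : ℝ, 0 < tol ∧ tol ≤ ηp ∧ tol ≤ a * p0 ^ 3 / 2 ∧
      tol ≤ eta * σ ^ 2 / 2 :=
    ⟨min ηp (min (a * p0 ^ 3 / 2) (eta * σ ^ 2 / 2)),
      lt_min hηp (lt_min (by positivity) (by positivity)), min_le_left _ _,
      (min_le_right _ _).trans (min_le_left _ _), (min_le_right _ _).trans (min_le_right _ _)⟩
  obtain ⟨K, m, q, V, hR⟩ := hR W hW hWa tol htol
  have hq' : Path K fun l => b ^ 2 * q l :=
    ⟨mul_nonneg hb2.le hR.path.1, fun l hl => mul_le_mul_of_nonneg_left (hR.path.2 l hl) hb2.le⟩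
  obtain ⟨hch, hcl⟩ := hC K m _ hR.exps hq' hR.span
  have hV : σ ≤ V := by rw [hσd]; exact hR.low
  obtain ⟨r, hr0, hrq, hr1, hr2, hB⟩ := hP K m q V hR.exps hR.path hR.le_one (by linarith)
    (by rw [psi_eq hch, hR.fix]) (start_of hR t1)
  rw [psi_eq hch] at hr1 hr2
  have hp : q 0 - r ≤ p0 := by
    have h1 := hR.grow r ⟨hr0, hrq⟩
    have h2 : a * (q 0 - r) ^ 3 ≤ a * p0 ^ 3 := by linarith
    have h3 := le_of_mul_le_mul_left h2 ha
    exact le_of_pow_le_pow_left₀ (by norm_num) hp0.le h3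
  have hp' : 0 ≤ b ^ 2 * (q 0 - r) := mul_nonneg hb2.le (by linarith)
  have hcls : Cls Kc k (ff b K m q r) := hcl _ (by
    rw [Real.sq_sqrt hp']
    exact (mul_le_mul_of_nonneg_left hp hb2.le).trans hpb)
  obtain ⟨s, hsd⟩ : ∃ s : ℝ, s = √(V + b ^ 2 * r) := ⟨_, rfl⟩
  have hbr : 0 ≤ b ^ 2 * r := mul_nonneg hb2.le hr0
  have hs2 : s ^ 2 = V + b ^ 2 * r := by rw [hsd, Real.sq_sqrt (by linarith)]
  have hs0 : 0 < s := by rw [hsd]; exact Real.sqrt_pos.2 (by linarith)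
  have hσs : σ ≤ s ^ 2 := by linarith
  have hσ6 : σ ^ 6 ≤ s ^ 12 := by
    have := pow_le_pow_left₀ hσ.le hσs 6
    rwa [← pow_mul] at this
  have hqq : qq (ff b K m q r) s = mom b K m q V 1 r := by rw [hsd]; rfl
  have hfix : |r - qq (ff b K m q r) s| ≤ e := by
    rw [hqq, abs_le]
    constructor <;> linarith
  have hH : Hyp b eta (ff b K m q r) s r eps := by
    refine ⟨hs0, ?_, ?_, hfix.trans (e5.trans hσ6), heps, ?_⟩
    · have h1 : (s ^ 2) ^ 3 ≤ (V + b ^ 2 * q 0) ^ 3 := by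
        refine pow_le_pow_left₀ (sq_nonneg s) ?_ 3
        rw [hs2]
        linarith [mul_le_mul_of_nonneg_left hrq hb2.le]
      rw [← pow_mul] at h1
      exact le_of_pow_le_pow_left₀ (n := 6) (by norm_num) heta.le ((h1.trans hR.small).trans hWb)
    · have h1 := hR.marg r ⟨hr0, hrq⟩
      have h2 : ∫ z, ff b K m q r 2 (s * z) ^ 2 ∂gam = mom b K m q V 2 r := by rw [hsd]; rfl
      rw [h2, abs_sub_comm]
      have h3 : σ ^ 2 ≤ s ^ 4 := by
        have := pow_le_pow_left₀ hσ.le hσs 2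
        rwa [← pow_mul] at this
      have h4 := mul_le_mul_of_nonneg_left h3 heta.le
      have h5 := mul_le_mul_of_nonneg_left hp hC0.le
      linarith
    · have h1 := pow_le_pow_left₀ heps.le f1 2
      rw [← pow_mul] at h1
      exact h1.trans hσ6
  obtain ⟨-, g2, g3, g4, g5, g6, th0, W1, g7, g8⟩ := hSh _ s r eps hcls (hyp_mono hH hS1)
  obtain ⟨t, k1, k2, k3⟩ := hSl _ s r eps hcls (hyp_mono hH hS2)
  have hQ0 : 0 ≤ qq (ff b K m q r) s := by rw [hqq]; linarith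
  refine ⟨c0 * σ ^ 5 / 4, by positivity, ?_⟩
  refine low_band hL (I := I0 b K m q) (Φ := Ph b K m q ((39 / 40) ^ 2 * qq (ff b K m q r) s))
    hb hcls.ch hσ hσs hc0 he heps heps2 g2 g3 g4 g5 g6 g8.hQ (hT _ _ _ _ _ _ _ g7 g8) ?_ hfix k1
    (gu hR.exps hR.path (k2.trans hrq) (by positivity) ((k2.trans hrq).trans hR.le_one))
    (fun y => ff_conv hch hrq k2 y) k3 e1 e2 e3 f2
  rw [ff_zero, hsd]
  exact hB

/-- Exponentially slow mixing at every low temperature, from the blocks. -/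
theorem slow_all (hR : RefStmt) (hP : PinStmt) (hC : ClsStmt) (hSh : ShapeStmt) (hSl : SliceStmt)
    (hT : TwoMWStmt) (hL : LowStmt) {b : ℝ} (hb1 : 1 < b) :
    ∃ c : ℝ, 0 < c ∧ Slow.SlowAt b c := by
  obtain ⟨c, hc, h⟩ := low_all hR hP hC hSh hSl hT hL hb1
  have hb : 0 < b := by linarith
  refine ⟨c / 4, by positivity, Slow.slow_of hb hc (δ := c ^ 2 / (256 * b ^ 2)) ?_
    (h _ (by positivity))⟩
  have e : 128 * b ^ 2 * (c ^ 2 / (256 * b ^ 2)) = c ^ 2 / 2 := by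
    field_simp
    ring
  rw [e]
  have : 0 < c ^ 2 := by positivity
  linarith

end Vale.Agent.N150.Bc
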