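import Vale.Agent.N150.BcSDef

/-!
The start of the pinning: a lower bound on the free energy with a Gaussian field.
-/

open MeasureTheory ProbabilityTheory Filter

namespace Vale.Agent.N150.Bc

set_option linter.unusedSectionVars false
set_option linter.unusedVariables false

open Vale.Agent.P157.Par (Path)
open Vale.Agent.P146 (Pair)
open Vale.Agent.P146.Ub (me bu bu_cast rc_pair_sq)
open Vale.Agent.P146.Ub.Ld.F4 (PSV rate_fld)
open Vale.Agent.P150 (Cfg gpi)
open Vale.Agent.P150.F (sv ip Vec Mat ed)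
open Vale.Agent.N150.Edge (GoeFam)

section gen

variable {ι ι' X : Type} [Fintype ι] [Fintype ι']

theorem LZ_le {S : Finset X} (hS : S.Nonempty) (a : X → ι → ℝ) (c : X → ℝ) {t : ℝ}
    {w w' : ι → ℝ} (h : ∀ x ∈ S, ∑ e, a x e * w e ≤ ∑ e, a x e * w' e + t) :
    LZ S a c w ≤ LZ S a c w' + t := by
  unfold LZ
  have h1 : 0 < ∑ x ∈ S, Real.exp (∑ e, a x e * w' e + c x) :=
    Finset.sum_pos (fun x _ => Real.exp_pos _) hS
  rw [← Real.log_exp t, ← Real.log_mul h1.ne' (Real.exp_pos _).ne']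
  refine Real.log_le_log (Finset.sum_pos (fun x _ => Real.exp_pos _) hS) ?_
  rw [Finset.sum_mul]
  refine Finset.sum_le_sum fun x hx => ?_
  rw [← Real.exp_add]
  exact Real.exp_le_exp.2 (by linarith [h x hx])

theorem lin_le_ed (u w w' : ι → ℝ) {V : ℝ} (hV : ∑ e, u e * u e ≤ V) :
    |∑ e, u e * w e - ∑ e, u e * w' e| ≤ √V * ed w w' := by
  rw [← Finset.sum_sub_distrib]
  have e : ∀ e, u e * w e - u e * w' e = u e * (w e - w' e) := fun e => by ring
  simp only [e]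
  have h := Finset.sum_mul_sq_le_sq_mul_sq Finset.univ u (fun e => w e - w' e)
  have h2 : ∑ e, u e ^ 2 ≤ V := by
    refine le_trans (le_of_eq ?_) hV
    exact Finset.sum_congr rfl fun e _ => sq _
  have h3 : 0 ≤ ∑ e, (w e - w' e) ^ 2 := Finset.sum_nonneg fun e _ => sq_nonneg _
  have h4 : 0 ≤ ∑ e, u e ^ 2 := Finset.sum_nonneg fun e _ => sq_nonneg _
  unfold ed
  rw [← Real.sqrt_mul (h4.trans h2)]
  refine Real.abs_le_sqrt ?_
  exact h.trans (mul_le_mul_of_nonneg_right h2 h3)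

/-- The log-partition function is Lipschitz. -/
theorem lip_LZ {S : Finset X} (hS : S.Nonempty) (a : X → ι → ℝ) (c : X → ℝ) {V : ℝ}
    (hV : ∀ x ∈ S, cov a x x ≤ V) : P150.F.Lip (√V) (LZ S a c) := by
  intro w w'
  have h1 := LZ_le hS a c (w := w) (w' := w') (t := √V * ed w w') fun x hx => by
    have := abs_le.1 (lin_le_ed (a x) w w' (hV x hx))
    linarith [this.2]
  have h2 := LZ_le hS a c (w := w') (w' := w) (t := √V * ed w w') fun x hx => by
    have := abs_le.1 (lin_le_ed (a x) w w' (hV x hx))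
    linarith [this.1]
  rw [abs_le]
  constructor <;> linarith

/-- From a fractional moment to the mean. -/
theorem mom_le {L : ℝ} {f : (ι → ℝ) → ℝ} (hf : P150.F.Lip L f) {x : ℝ} (hx : 0 < x) :
    Real.log (∫ w, Real.exp (x * f w) ∂(gpi ι)) / x ≤ ∫ w, f w ∂(gpi ι) + x * L ^ 2 := by
  obtain ⟨E, hE⟩ : ∃ E, E = ∫ w, f w ∂(gpi ι) := ⟨_, rfl⟩
  have h1 := hf.mgf_le x
  rw [← hE] at h1 ⊢
  have e : ∀ w, Real.exp (x * f w) = Real.exp (x * E) * Real.exp (x * (f w - E)) := by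
    intro w
    rw [← Real.exp_add]
    congr 1
    ring
  have h2 : ∫ w, Real.exp (x * f w) ∂(gpi ι) ≤ Real.exp (x * E + x ^ 2 * L ^ 2) := by
    simp only [e]
    rw [integral_const_mul, Real.exp_add]
    exact mul_le_mul_of_nonneg_left h1 (Real.exp_pos _).le
  have h3 : 0 < ∫ w, Real.exp (x * f w) ∂(gpi ι) :=
    integral_exp_pos (hf.integrable_exp x)
  have h4 := Real.log_le_log h3 h2
  rw [Real.log_exp] at h4
  rw [div_le_iff₀ hx]
  nlinarith

theorem LZ_sum (S : Finset X) (a : X → ι → ℝ) (a' : X → ι' → ℝ) (c : X → ℝ) (w : ι → ℝ)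
    (w' : ι' → ℝ) : LZ S (fun x => Sum.elim (a x) (a' x)) c (Sum.elim w w') =
      LZ S a (fun x => c x + ∑ e, a' x e * w' e) w := by
  unfold LZ
  congr 1
  refine Finset.sum_congr rfl fun x _ => ?_
  congr 1
  rw [Fintype.sum_sum_type]
  simp only [Sum.elim_inl, Sum.elim_inr]
  ring

/-- Fubini for the mean free energy. -/
theorem FE_sum {S : Finset X} (hS : S.Nonempty) (a : X → ι → ℝ) (a' : X → ι' → ℝ) (c : X → ℝ) :
    FE S (fun x => Sum.elim (a x) (a' x)) c =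
      ∫ z, FE S a (fun x => c x + ∑ e, a' x e * z e) ∂(gpi ι') := by
  have h2 := P146.H9.mp_sum (α := ι) (γ := ι')
  have hi := integrable_LZ hS (fun x => (Sum.elim (a x) (a' x) : ι ⊕ ι' → ℝ)) c
  have hm := (continuous_LZ hS (fun x => (Sum.elim (a x) (a' x) : ι ⊕ ι' → ℝ)) c).measurable
  have h3 : Integrable (fun q : (ι → ℝ) × (ι' → ℝ) =>
      LZ S (fun x => Sum.elim (a x) (a' x)) c (Sum.elim q.1 q.2)) ((gpi ι).prod (gpi ι')) :=
    MeasurePreserving.integrable_comp_of_integrable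
      (g := LZ S (fun x => Sum.elim (a x) (a' x)) c) h2 hi
  have h4 : ∫ w, LZ S (fun x => Sum.elim (a x) (a' x)) c w ∂(gpi (ι ⊕ ι')) =
      ∫ q : (ι → ℝ) × (ι' → ℝ), LZ S (fun x => Sum.elim (a x) (a' x)) c (Sum.elim q.1 q.2)
        ∂((gpi ι).prod (gpi ι')) := by
    have h5 : gpi (ι ⊕ ι') = Measure.map
        (fun q : (ι → ℝ) × (ι' → ℝ) => (Sum.elim q.1 q.2 : ι ⊕ ι' → ℝ))
          ((gpi ι).prod (gpi ι')) := h2.map_eq.symm
    rw [h5, integral_map h2.measurable.aemeasurable hm.aestronglyMeasurable]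
  have h6 : FE S (fun x => Sum.elim (a x) (a' x)) c =
      ∫ w, LZ S (fun x => Sum.elim (a x) (a' x)) c w ∂(gpi (ι ⊕ ι')) := rfl
  rw [h6, h4, integral_prod_symm _ h3]
  refine integral_congr_ae (Eventually.of_forall fun z => ?_)
  simp only [LZ_sum]
  rfl

theorem cov_sum (a : X → ι → ℝ) (a' : X → ι' → ℝ) (x y : X) :
    cov (fun x => Sum.elim (a x) (a' x)) x y = cov a x y + cov a' x y := by
  unfold cov
  rw [Fintype.sum_sum_type]
  rfl

end gen

variable {n : ℕ}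

/-- The coefficients of a Gaussian field of variance `V`. -/
noncomputable def fa (V : ℝ) (x : Cfg n) (i : Fin n) : ℝ := √V * sv x i

theorem cov_fa {V : ℝ} (hV : 0 ≤ V) (x y : Cfg n) : cov (fa V) x y = V * ip (sv x) (sv y) := by
  unfold cov fa ip
  rw [Finset.mul_sum]
  refine Finset.sum_congr rfl fun i _ => ?_
  have := Real.mul_self_sqrt hV
  calc √V * sv x i * (√V * sv y i) = (√V * √V) * (sv x i * sv y i) := by ring
    _ = _ := by rw [this]

theorem fa_sum (V : ℝ) (x : Cfg n) (z : Fin n → ℝ) :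
    ∑ i, fa V x i * z i = ip (√V • z) (sv x) := by
  unfold fa ip
  refine Finset.sum_congr rfl fun i _ => ?_
  simp only [Pi.smul_apply, smul_eq_mul]
  ring

/-- The mean over a Gaussian field as one free energy. -/
theorem FE_fa {ι : Type} [Fintype ι] {S : Finset (Cfg n)} (hS : S.Nonempty) (a : Cfg n → ι → ℝ)
    (c : Cfg n → ℝ) (V : ℝ) : FE S (fun x => Sum.elim (a x) (fa V x)) c =
      ∫ z, FE S a (fun x => c x + ip (√V • z) (sv x)) ∂(gpi (Fin n)) := by
  rw [FE_sum hS]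
  simp only [fa_sum]

/-- The coefficients of the model with independent pair couplings. -/
noncomputable def sa (b : ℝ) (x : Cfg n) (p : Pair n) : ℝ := b / √n * (sv x p.1.1 * sv x p.1.2)

theorem cov_sa (hn : 0 < n) (b : ℝ) (x y : Cfg n) :
    cov (sa b) x y = b ^ 2 / (2 * n) * ip (sv x) (sv y) ^ 2 - b ^ 2 / 2 := by
  have hn' : (0 : ℝ) < n := by exact_mod_cast hn
  have h := rc_pair_sq (n := n) fun i => sv x i * sv y i
  have e1 : ∑ i, sv x i * sv y i * (sv x i * sv y i) = n := by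
    have : ∀ i, sv x i * sv y i * (sv x i * sv y i) = 1 := by
      intro i
      calc sv x i * sv y i * (sv x i * sv y i) = (sv x i * sv x i) * (sv y i * sv y i) := by ring
        _ = 1 := by rw [sv_sq, sv_sq, one_mul]
    simp [this]
  rw [e1] at h
  have e2 : cov (sa b) x y =
      b ^ 2 / n * ∑ p : Pair n, sv x p.1.1 * sv y p.1.1 * (sv x p.1.2 * sv y p.1.2) := by
    unfold cov sa
    rw [Finset.mul_sum]
    refine Finset.sum_congr rfl fun p _ => ?_
    have e3 : b / √n * (b / √n) = b ^ 2 / n := by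
      rw [div_mul_div_comm, Real.mul_self_sqrt hn'.le, sq]
    rw [← e3]
    ring
  rw [e2, h]
  unfold ip
  field_simp

theorem Fv_eq (b W : ℝ) : P146.H9.Fv n b W =
    LZ Finset.univ (fun x : Cfg n => Sum.elim (sa b x) (fa W x)) (fun _ => 0) := by
  funext w
  unfold P146.H9.Fv P146.H332.lz P146.H325.Zp P146.H325.ez LZ
  congr 1
  rw [← Equiv.sum_comp (Equiv.arrowCongr (Equiv.refl (Fin n)) bu)]
  refine Finset.sum_congr rfl fun x _ => ?_
  congr 1
  rw [one_mul, add_zero]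
  have e3 : ∀ i : Fin n, P146.H325.sp (Equiv.arrowCongr (Equiv.refl (Fin n)) bu x) i =
      sv x i := fun i => bu_cast (x i)
  refine Finset.sum_congr rfl fun e _ => ?_
  congr 1
  rcases e with p | i
  · show b / √n * P146.H325.SkS p _ = sa b x p
    unfold P146.H325.SkS sa
    rw [e3, e3]
  · show √W * P146.H325.sp _ i = fa W x i
    rw [e3]
    rfl

/-- The fractional moment is at most the mean free energy of the orthogonal model. -/
theorem phn_le {ι : Type} [Fintype ι] {A : ι → Mat n} (hA : GoeFam A) (hn : 0 < n) (b : ℝ)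
    {x W V η : ℝ} (hx : 0 < x) (hW : 0 ≤ W) (hV : 0 ≤ V) (hVW : |V - W| ≤ η) :
    P146.H9.Phn n b x W ≤
      ∫ z, FE Finset.univ (ga A b 0) (fun x : Cfg n => ip (√V • z) (sv x)) ∂(gpi (Fin n)) +
        n * η + x * (n * (b ^ 2 / 2 + W)) := by
  have hn' : (0 : ℝ) < n := by exact_mod_cast hn
  have hS : (Finset.univ : Finset (Cfg n)).Nonempty := Finset.univ_nonempty
  have hvar : ∀ y ∈ (Finset.univ : Finset (Cfg n)),
      cov (fun y : Cfg n => Sum.elim (sa b y) (fa W y)) y y ≤ n * (b ^ 2 / 2 + W) := by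
    intro y _
    rw [cov_sum, cov_sa hn, cov_fa hW, ip_sv_self]
    have e : b ^ 2 / (2 * n) * (n : ℝ) ^ 2 = n * (b ^ 2 / 2) := by field_simp
    rw [e]
    nlinarith [sq_nonneg b]
  have h1 := mom_le (lip_LZ hS _ (fun _ => 0) hvar) hx
  rw [Real.sq_sqrt (by positivity)] at h1
  have h2 : P146.H9.Phn n b x W = Real.log (∫ w, Real.exp (x *
      LZ Finset.univ (fun y : Cfg n => Sum.elim (sa b y) (fa W y)) (fun _ => 0) w)
        ∂(gpi (Pair n ⊕ Fin n))) / x := by
    unfold P146.H9.Phn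
    rw [P146.H9.LPhi_eq, Fv_eq]
  have h3 := cmp_abs hS (fun y : Cfg n => Sum.elim (sa b y) (fa W y))
    (fun y : Cfg n => Sum.elim (ga A b 0 y) (fa V y)) (fun _ => 0) (C := -(b ^ 2 / 2))
    (d := n * η) fun y _ y' _ => by
      rw [cov_sum, cov_sum, cov_sa hn, cov_fa hW, cov_fa hV, cov_ga hA, sub_zero, sub_zero]
      have e : b ^ 2 / (2 * n) * ip (sv y) (sv y') ^ 2 - b ^ 2 / 2 + W * ip (sv y) (sv y') -
          (b ^ 2 / (2 * n) * ip (sv y) (sv y') ^ 2 + V * ip (sv y) (sv y')) - -(b ^ 2 / 2) =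
            -((V - W) * ip (sv y) (sv y')) := by ring
      rw [e, abs_neg, abs_mul, mul_comm]
      exact mul_le_mul (abs_ip_sv y y') hVW (abs_nonneg _) hn'.le
  rw [FE_fa hS (ga A b 0)] at h3
  simp only [zero_add] at h3
  have h4 : FE Finset.univ (fun y : Cfg n => Sum.elim (sa b y) (fa W y)) (fun _ => 0) =
      ∫ w, LZ Finset.univ (fun y : Cfg n => Sum.elim (sa b y) (fa W y)) (fun _ => 0) w
        ∂(gpi (Pair n ⊕ Fin n)) := rfl
  rw [h2]
  linarith

/-- The start of the pinning, uniform form. -/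
theorem start_unif {b : ℝ} (hb : 0 < b) {η : ℝ} (hη : 0 < η) : ∃ K0 : ℕ, ∀ K : ℕ, K0 ≤ K →
    ∀ n : ℕ, (K + 1) ^ 18 ≤ n → ∀ W V Lb : ℝ, 0 ≤ W → W ≤ 1 → 0 ≤ V → |V - W| ≤ η →
    (∀ q : ℕ → ℝ, Path K q → q K = 1 → (∀ l < 1, q l = 0) → Lb ≤ PSV b K 1 (me K) W q) →
    ∀ (ι : Type) [Fintype ι] (A : ι → Mat n), GoeFam A →
      n * (Real.log 2 + Lb - 3 * η) ≤
        ∫ z, FE Finset.univ (ga A b 0) (fun x : Cfg n => ip (√V • z) (sv x)) ∂(gpi (Fin n)) := by
  obtain ⟨C, hC, h⟩ := rate_fld hb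
  obtain ⟨K0, hK0⟩ := exists_nat_ge ((C / η) ^ 2 + (b ^ 2 / 2 + 1) / η + 1)
  refine ⟨K0, fun K hK n hn W V Lb hW hW1 hV hVW hLb ι _ A hA => ?_⟩
  have a1 : 0 ≤ (C / η) ^ 2 := sq_nonneg _
  have a2 : 0 ≤ (b ^ 2 / 2 + 1) / η := by positivity
  have hKr : (K0 : ℝ) ≤ K := by exact_mod_cast hK
  have hK1 : 1 ≤ K := by
    have : (1 : ℝ) ≤ K := by linarith
    exact_mod_cast this
  have hn0 : 0 < n := lt_of_lt_of_le (by positivity) hn
  have hn' : (0 : ℝ) < n := by exact_mod_cast hn0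
  obtain ⟨l, hl⟩ : ∃ l : ℝ, l = ((K + 1 : ℕ) : ℝ) := ⟨_, rfl⟩
  have hlK : l = K + 1 := by rw [hl]; push_cast; ring
  have hl0 : 0 < l := by rw [hlK]; positivity
  have hsl : 0 < √l := Real.sqrt_pos.2 hl0
  have hme : me K 1 = 1 / l := by
    unfold me
    rw [hl, Nat.cast_one]
  have h1 := h K 1 W Lb le_rfl hK1 hW hW1 hLb n hn
  rw [← hl, hme] at h1
  have h2 := phn_le hA hn0 b (x := 1 / l) (by positivity) hW hV hVW
  have b1 : C / √l ≤ η := by
    rw [div_le_iff₀ hsl]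
    have : C / η ≤ √l := Real.le_sqrt_of_sq_le (by linarith)
    rw [div_le_iff₀ hη] at this
    linarith
  have b2 : (b ^ 2 / 2 + 1) / l ≤ η := by
    rw [div_le_iff₀ hl0]
    have : (b ^ 2 / 2 + 1) / η ≤ l := by linarith
    rw [div_le_iff₀ hη] at this
    linarith
  have c1 : C * (n / √l) ≤ n * η := by
    have : C * (n / √l) = n * (C / √l) := by ring
    rw [this]
    exact mul_le_mul_of_nonneg_left b1 hn'.le
  have c2 : 1 / l * (n * (b ^ 2 / 2 + W)) ≤ n * η := by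
    have e : 1 / l * (n * (b ^ 2 / 2 + W)) = n * ((b ^ 2 / 2 + W) / l) := by ring
    rw [e]
    refine mul_le_mul_of_nonneg_left (le_trans ?_ b2) hn'.le
    exact div_le_div_of_nonneg_right (by linarith) hl0.le
  linarith

/-- **The start of the pinning.** -/
theorem start : StartStmt := by
  intro b hb η hη
  obtain ⟨K0, h⟩ := start_unif hb hη
  refine ⟨K0, fun K hK W V Lb hW hW1 hV hVW hLb => ?_⟩
  filter_upwards [eventually_ge_atTop ((K + 1) ^ 18)] with n hn
  intro ι _ A hA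
  exact h K hK n hn W V Lb hW hW1 hV hVW hLb ι A hA

end Vale.Agent.N150.Bc
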