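import Vale.Agent.N150.BcG
import Vale.Agent.P146.H420B.FldRate

/-!
The start of the pinning: a lower bound on the free energy with a Gaussian field (statement).
-/

open MeasureTheory ProbabilityTheory Filter

namespace Vale.Agent.N150.Bc

open Vale.Agent.P157.Par (Path)
open Vale.Agent.P146.Ub (me)
open Vale.Agent.P146.Ub.Ld.F4 (PSV)
open Vale.Agent.P150 (Cfg gpi)
open Vale.Agent.P150.F (sv ip Mat)
open Vale.Agent.N150.Edge (GoeFam)

/-- The mean free energy with the Gaussian field of variance `V` is bounded below by any lower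
bound of the functional at a nearby variance `W`. -/
def StartStmt : Prop :=
  ∀ b : ℝ, 0 < b → ∀ η : ℝ, 0 < η → ∃ K0 : ℕ, ∀ K : ℕ, K0 ≤ K → ∀ W V Lb : ℝ,
    0 ≤ W → W ≤ 1 → 0 ≤ V → |V - W| ≤ η →
    (∀ q : ℕ → ℝ, Path K q → q K = 1 → (∀ l < 1, q l = 0) → Lb ≤ PSV b K 1 (me K) W q) →
    ∀ᶠ n : ℕ in atTop, ∀ (ι : Type) [Fintype ι] (A : ι → Mat n), GoeFam A →
      n * (Real.log 2 + Lb - 3 * η) ≤
        ∫ z, FE Finset.univ (ga A b 0) (fun x : Cfg n => ip (√V • z) (sv x)) ∂(gpi (Fin n))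

end Vale.Agent.N150.Bc
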