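import Mathlib
import Vale.Agent.N150.Plant
import Vale.Agent.N150.Fib1

/-! The planted law: disintegration along the frame spins (Haar measure on a fibre), the frame
process, the Cameron-Martin identity and the Markov property of the planted law. -/

open MeasureTheory ProbabilityTheory Matrix
open scoped ENNReal

namespace Vale.Agent.N150.Plant

open Vale.Agent.P150 Vale.Agent.P150.F

variable {n m : ℕ}

/-! ### the fibre `O v = u` -/

/-- the Haar measure on the fibre `{O | O v = u}` -/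
noncomputable def fibM (v u : Vec n) : Measure (OG n) :=
  (haarH (Fib.rm 1 v)).map fun U => rflG (v - u) * U

instance (v u : Vec n) : IsProbabilityMeasure (fibM v u) :=
  Measure.isProbabilityMeasure_map (measurable_const_mul _).aemeasurable

theorem isProj_rm_one (v : Vec n) : Fib.IsProj (Fib.rm 1 v) := Fib.isProj_one.rm v

theorem one_sub_rm (v : Vec n) : 1 - Fib.rm 1 v = Fib.pj v := by
  unfold Fib.rm
  rw [Matrix.one_mulVec, sub_sub_cancel]

theorem trace_rm_one (v : Vec n) : (n : ℝ) - 1 ≤ (Fib.rm 1 v).trace := by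
  have h := Fib.trace_rm_ge (1 : Mat n) v
  rwa [Matrix.trace_one, Fintype.card_fin] at h

theorem mem_HG_iff {v : Vec n} {U : OG n} : U ∈ HG (Fib.rm 1 v) ↔ U.1 *ᵥ v = v := by
  refine ⟨fun h => HG_mulVec h (Fib.isProj_one.rm_mulVec_self v), fun h => ?_⟩
  rw [mem_HG, one_sub_rm]
  exact Fib.mul_pj h

theorem rflG_swap {v u : Vec n} (h : F.sq u = F.sq v) : (rflG (v - u)).1 *ᵥ v = u := by
  rw [rflG_val]
  refine rfl'_swap ?_
  rw [← sq_eq_dot, ← sq_eq_dot, h]

theorem lint_fibM (v u : Vec n) {G : OG n → ℝ≥0∞} (hG : Measurable G) :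
    ∫⁻ O, G O ∂fibM v u = ∫⁻ U, G (rflG (v - u) * U) ∂haarH (Fib.rm 1 v) :=
  lintegral_map hG (measurable_const_mul _)

/-- any base point of the fibre can be used -/
theorem lint_fibM_of {v u : Vec n} {T : OG n} (hT : T.1 *ᵥ v = u) {G : OG n → ℝ≥0∞}
    (hG : Measurable G) : ∫⁻ O, G O ∂fibM v u = ∫⁻ U, G (T * U) ∂haarH (Fib.rm 1 v) := by
  have hs : F.sq u = F.sq v := by rw [← hT, sq_mulVec_orth (OG.transpose_mul T)]
  have h1 : (rflG (v - u))⁻¹ * T ∈ HG (Fib.rm 1 v) := by
    rw [mem_HG_iff, OG.coe_mul, ← Matrix.mulVec_mulVec, hT, OG.coe_inv]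
    have h := OG.tr_mulVec_mulVec (rflG (v - u)) v
    rwa [rflG_swap hs] at h
  have h2 := (invOn_haarH (Fib.rm 1 v)).lint_left h1 (f := fun U => G (rflG (v - u) * U))
    (hG.comp (measurable_const_mul _))
  rw [lint_fibM v u hG, ← h2]
  simp only [← mul_assoc, mul_inv_cancel, one_mul]

theorem fibM_eq {v u : Vec n} {T : OG n} (hT : T.1 *ᵥ v = u) :
    fibM v u = (haarH (Fib.rm 1 v)).map fun U => T * U := by
  ext s hs
  rw [← lintegral_indicator_one hs, ← lintegral_indicator_one hs,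
    lintegral_map (measurable_one.indicator hs) (measurable_const_mul T)]
  exact lint_fibM_of hT (measurable_one.indicator hs)

theorem ae_fibM {v u : Vec n} (h : F.sq u = F.sq v) : ∀ᵐ O ∂fibM v u, O.1 *ᵥ v = u := by
  have hm : Measurable fun O : OG n => O.1 *ᵥ v := measurable_mulVecG measurable_id measurable_const
  unfold fibM
  rw [ae_map_iff (measurable_const_mul _).aemeasurable (measurableSet_eq_fun hm measurable_const)]
  filter_upwards [(invOn_haarH (Fib.rm 1 v)).ae] with U hU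
  rw [OG.coe_mul, ← Matrix.mulVec_mulVec, mem_HG_iff.1 hU, rflG_swap h]

/-- the fibre measure is an exploration in which only the site vector `v` is explored -/
theorem explo_fibM (v u : Vec n) : Fib.Explo (fibM v u) fun _ => Fib.rm 1 v := by
  refine ⟨fun _ => isProj_rm_one v, Fib.MM.const _, Fib.Adapted.const _, fun G hG => ?_⟩
  have hm : Measurable fun O : OG n => ∫⁻ U, G (O * U) ∂haarH (Fib.rm 1 v) :=
    (Fib.measurable_uncurry_mul hG).lintegral_prod_right
  rw [lint_fibM v u hm, lint_fibM v u hG]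
  have h := (invOn_haarH (Fib.rm 1 v)).lint_fibre (invOn_haarH (Fib.rm 1 v)) le_rfl
    (F := fun U => G (rflG (v - u) * U)) (hG.comp (measurable_const_mul _))
  simpa only [mul_assoc] using h

theorem measurable_lint_fibM {α : Type*} [MeasurableSpace α] (v : Vec n) {u : α → Vec n}
    (hu : Measurable u) {G : α × OG n → ℝ≥0∞} (hG : Measurable G) :
    Measurable fun a => ∫⁻ O, G (a, O) ∂fibM v (u a) := by
  have e : ∀ a, ∫⁻ O, G (a, O) ∂fibM v (u a) =
      ∫⁻ U, G (a, rflG (v - u a) * U) ∂haarH (Fib.rm 1 v) := fun a =>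
    lint_fibM v (u a) (G := fun O => G (a, O)) (hG.comp measurable_prodMk_left)
  simp only [e]
  have h1 : Measurable fun p : α × OG n => G (p.1, rflG (v - u p.1) * p.2) :=
    hG.comp (measurable_fst.prodMk ((measurable_rflG
      (measurable_const.sub (hu.comp measurable_fst))).mul measurable_snd))
  exact h1.lintegral_prod_right'

/-- disintegration of the Haar measure along `O ↦ O v` -/
theorem lint_haar_fib (v : Vec n) {G : Vec n × OG n → ℝ≥0∞} (hG : Measurable G) :
    ∫⁻ O, G (O.1 *ᵥ v, O) ∂haar n = ∫⁻ u, ∫⁻ O, G (u, O) ∂fibM v u ∂sph n (F.sq v) := by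
  have hm : Measurable fun O : OG n => G (O.1 *ᵥ v, O) :=
    hG.comp ((measurable_mulVecG measurable_id measurable_const).prodMk measurable_id)
  have hH := measurable_lint_fibM v measurable_id hG
  rw [← invOn_haar.lint_fibre (invOn_haarH (Fib.rm 1 v)) le_top hm,
    ← lint_haar_sph v (G := fun u => ∫⁻ O, G (u, O) ∂fibM v u) hH]
  refine lintegral_congr fun O => ?_
  rw [lint_fibM_of (T := O) rfl (G := fun O' => G (O.1 *ᵥ v, O')) (hG.comp measurable_prodMk_left)]
  refine lintegral_congr_ae ?_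
  filter_upwards [(invOn_haarH (Fib.rm 1 v)).ae] with U hU
  rw [OG.coe_mul, ← Matrix.mulVec_mulVec, mem_HG_iff.1 hU]

theorem ofReal_half (a b : ℝ) :
    ENNReal.ofReal (a / (2 ^ n * b)) = (2 ^ n : ℝ≥0∞)⁻¹ * ENNReal.ofReal (a / b) := by
  rw [mul_comm ((2 : ℝ) ^ n), ← div_div, ENNReal.ofReal_div_of_pos (by positivity),
    ENNReal.ofReal_pow zero_le_two, ENNReal.ofReal_ofNat, ENNReal.div_eq_inv_mul]

/-- (P1) the planted law: uniform spins, spherical Gibbs frame spins, Haar rotation on the fibre -/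
theorem lint_plM_fib (M : Mat n) (y : Vec n) {G : Cfg n → Vec n × OG n → ℝ≥0∞}
    (hG : ∀ x, Measurable (G x)) :
    ∫⁻ p, G p.2 (xt p.1 p.2, p.1) ∂plM M y =
      ∑ x, (2 ^ n : ℝ≥0∞)⁻¹ * ∫⁻ u, ∫⁻ O, G x (u, O) ∂fibM (sv x) u ∂spM M y := by
  have h0 : Measurable fun r : Cfg n × (Vec n × OG n) => G r.1 r.2 :=
    measurable_from_prod_countable_right hG
  have h1 : Measurable fun p : OG n × Cfg n => G p.2 (xt p.1 p.2, p.1) :=
    h0.comp (measurable_snd.prodMk (measurable_xt.prodMk measurable_fst))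
  have h2 : ∀ x, Measurable fun r : Vec n × OG n =>
      ENNReal.ofReal (Real.exp (HM M y r.1) / ISM M y) * G x r := fun x =>
    ((measurable_sdens M y).comp measurable_fst).mul (hG x)
  have h3 : ∀ x, Measurable fun O : OG n =>
      ENNReal.ofReal (Real.exp (HM M y (xt O x)) / ISM M y) * G x (xt O x, O) := fun x => by
    have ha : Measurable fun O : OG n => (xt O x, O) := (measurable_xt_left x).prodMk measurable_id
    have hb := (h2 x).comp ha
    exact hb
  have h5 : ∀ x, ∫⁻ O, ENNReal.ofReal (Real.exp (HM M y (xt O x)) / ISM M y) * G x (xt O x, O)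
      ∂haar n = ∫⁻ u, ∫⁻ O, G x (u, O) ∂fibM (sv x) u ∂spM M y := by
    intro x
    have h4 := lint_haar_fib (sv x) (h2 x)
    rw [sq_sv] at h4
    have h6 := lint_spM M y (G := fun u => ∫⁻ O, G x (u, O) ∂fibM (sv x) u)
      (measurable_lint_fibM (sv x) measurable_id (hG x))
    rw [h6]
    refine h4.trans (lintegral_congr fun u => ?_)
    dsimp only
    exact lintegral_const_mul (f := fun O => G x (u, O)) _ ((hG x).comp measurable_prodMk_left)
  have h7 := lint_plM M y h1
  have h8 : ∀ (O : OG n) (x : Cfg n),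
      ENNReal.ofReal (Real.exp (HM M y (xt O x)) / (2 ^ n * ISM M y)) * G x (xt O x, O) =
      (2 ^ n : ℝ≥0∞)⁻¹ *
        (ENNReal.ofReal (Real.exp (HM M y (xt O x)) / ISM M y) * G x (xt O x, O)) := by
    intro O x
    rw [ofReal_half, mul_assoc]
  have h9 := lintegral_finsetSum (μ := haar n) Finset.univ (f := fun x O => (2 ^ n : ℝ≥0∞)⁻¹ *
        (ENNReal.ofReal (Real.exp (HM M y (xt O x)) / ISM M y) * G x (xt O x, O)))
    fun x _ => (h3 x).const_mul _
  refine h7.trans ((lintegral_congr fun O => Finset.sum_congr rfl fun x _ => h8 O x).trans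
    (h9.trans (Finset.sum_congr rfl fun x _ => ?_)))
  rw [lintegral_const_mul _ (h3 x), h5]

theorem lint_plN_fib (M : Mat n) (y : Vec n)
    {G : Cfg n → (Vec n × (ℕ → Vec m)) × OG n → ℝ≥0∞} (hG : ∀ x, Measurable (G x)) :
    ∫⁻ q, G q.1.2 ((xt q.1.1 q.1.2, q.2), q.1.1) ∂plN m M y =
      ∑ x, (2 ^ n : ℝ≥0∞)⁻¹ * ∫⁻ r, ∫⁻ O, G x (r, O) ∂fibM (sv x) r.1 ∂spN m M y := by
  have h0 : Measurable fun r : Cfg n × ((Vec n × (ℕ → Vec m)) × OG n) => G r.1 r.2 :=
    measurable_from_prod_countable_right hG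
  have h1 : Measurable fun q : (OG n × Cfg n) × (ℕ → Vec m) =>
      G q.1.2 ((xt q.1.1 q.1.2, q.2), q.1.1) :=
    h0.comp ((measurable_snd.comp measurable_fst).prodMk
      (((measurable_xt.comp measurable_fst).prodMk measurable_snd).prodMk
        (measurable_fst.comp measurable_fst)))
  have h2 : ∀ x, Measurable fun r : Vec n × (ℕ → Vec m) => ∫⁻ O, G x (r, O) ∂fibM (sv x) r.1 :=
    fun x => measurable_lint_fibM (sv x) measurable_fst (hG x)
  unfold plN spN
  rw [lintegral_prod_symm _ h1.aemeasurable]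
  have h3 : ∀ ω : ℕ → Vec m, ∫⁻ p, G p.2 ((xt p.1 p.2, ω), p.1) ∂plM M y =
      ∑ x, (2 ^ n : ℝ≥0∞)⁻¹ * ∫⁻ u, ∫⁻ O, G x ((u, ω), O) ∂fibM (sv x) u ∂spM M y := fun ω =>
    lint_plM_fib M y (G := fun x r => G x ((r.1, ω), r.2)) fun x =>
      (hG x).comp ((measurable_fst.prodMk measurable_const).prodMk measurable_snd)
  simp only [h3]
  rw [lintegral_finsetSum _ fun x _ => ((h2 x).lintegral_prod_left').const_mul _]
  refine Finset.sum_congr rfl fun x _ => ?_
  rw [lintegral_const_mul _ (h2 x).lintegral_prod_left', lintegral_prod_symm _ (h2 x).aemeasurable]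

theorem ae_spM (hn : 0 < n) (M : Mat n) (y : Vec n) : ∀ᵐ u ∂spM M y, F.sq u = n :=
  (withDensity_absolutelyContinuous _ _).ae_le (ae_sph hn (Nat.cast_nonneg n))

theorem ae_spN (hn : 0 < n) (M : Mat n) (y : Vec n) : ∀ᵐ r ∂spN m M y, F.sq r.1 = n :=
  (Measure.quasiMeasurePreserving_fst (μ := spM M y) (ν := PN m)).ae (ae_spM hn M y)

/-- (P1, event form) a bound on every fibre over the frame event `E` bounds the planted
probability -/
theorem fib_le (hn : 0 < n) (M : Mat n) (y : Vec n) {E : Set (Vec n × (ℕ → Vec m))}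
    (hE : MeasurableSet E) {Bad : Cfg n → Set ((Vec n × (ℕ → Vec m)) × OG n)}
    (hB : ∀ x, MeasurableSet (Bad x)) {p : ℝ≥0∞}
    (hp : ∀ x, ∀ r ∈ E, F.sq r.1 = n → fibM (sv x) r.1 {O | (r, O) ∈ Bad x} ≤ p) :
    plN m M y {q | (xt q.1.1 q.1.2, q.2) ∈ E ∧ ((xt q.1.1 q.1.2, q.2), q.1.1) ∈ Bad q.1.2} ≤ p := by
  set B : Cfg n → Set ((Vec n × (ℕ → Vec m)) × OG n) := fun x => Prod.fst ⁻¹' E ∩ Bad x with hBd
  have hBm : ∀ x, MeasurableSet (B x) := fun x => (measurable_fst hE).inter (hB x)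
  have hG : ∀ x, Measurable ((B x).indicator (1 : (Vec n × (ℕ → Vec m)) × OG n → ℝ≥0∞)) :=
    fun x => measurable_one.indicator (hBm x)
  have h1 := lint_plN_fib M y hG
  calc _ ≤ ∫⁻ q, (B q.1.2).indicator 1 ((xt q.1.1 q.1.2, q.2), q.1.1) ∂plN m M y := by
        refine meas_le_lintegral₀ ?_ fun q hq => ?_
        · have h0 : Measurable fun r : Cfg n × ((Vec n × (ℕ → Vec m)) × OG n) =>
              (B r.1).indicator (1 : (Vec n × (ℕ → Vec m)) × OG n → ℝ≥0∞) r.2 :=
            measurable_from_prod_countable_right hG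
          exact (h0.comp ((measurable_snd.comp measurable_fst).prodMk
            (((measurable_xt.comp measurable_fst).prodMk measurable_snd).prodMk
              (measurable_fst.comp measurable_fst)))).aemeasurable
        · have hq' : ((xt q.1.1 q.1.2, q.2), q.1.1) ∈ B q.1.2 := hq
          rw [Set.indicator_of_mem hq']
          exact le_rfl
    _ ≤ ∑ _x : Cfg n, (2 ^ n : ℝ≥0∞)⁻¹ * p := by
        rw [h1]
        refine Finset.sum_le_sum fun x _ => ?_
        gcongr
        calc _ ≤ ∫⁻ _, p ∂spN m M y := by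
              refine lintegral_mono_ae ?_
              filter_upwards [ae_spN hn M y] with r hr
              by_cases hrE : r ∈ E
              · refine le_trans (le_of_eq ?_) (hp x r hrE hr)
                have hs : MeasurableSet {O : OG n | (r, O) ∈ Bad x} :=
                  measurable_prodMk_left (hB x)
                rw [← lintegral_indicator_one hs]
                refine lintegral_congr fun O => ?_
                by_cases hO : (r, O) ∈ Bad x
                · rw [Set.indicator_of_mem (show (r, O) ∈ B x from ⟨hrE, hO⟩),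
                    Set.indicator_of_mem (show O ∈ {O : OG n | (r, O) ∈ Bad x} from hO)]
                  rfl
                · rw [Set.indicator_of_notMem (show (r, O) ∉ B x from fun h => hO h.2),
                    Set.indicator_of_notMem (show O ∉ {O : OG n | (r, O) ∈ Bad x} from hO)]
              · have e : ∀ O : OG n, (B x).indicator
                    (1 : (Vec n × (ℕ → Vec m)) × OG n → ℝ≥0∞) (r, O) = 0 := fun O =>
                  Set.indicator_of_notMem (fun h => hrE h.1) _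
                simp only [e, lintegral_zero, zero_le]
          _ = p := by simp only [lintegral_const, measure_univ, mul_one]
    _ = p := by
        rw [Finset.sum_const, Finset.card_univ, card_Cfg, nsmul_eq_mul, ← mul_assoc]
        push_cast
        rw [ENNReal.mul_inv_cancel (by simp) (by simp), one_mul]

/-! ### the frame process -/

variable {S : Type} [MeasurableSpace S]

/-- the label for a general spin vector `u` -/
noncomputable def obsU (R : Matrix (Fin n) (Fin m) ℝ) (δ : ℝ) (u : Vec n) (ξ : Vec m) : Vec n :=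
  δ • ((R * Rᵀ) *ᵥ u) + √δ • (R *ᵥ ξ)

/-- one step driven by a general spin vector -/
noncomputable def nxU (P : Proc n m S) (s : S) (u : Vec n) (ξ : Vec m) : S :=
  P.nxt s (obsU (P.R s) (P.δ s) u ξ)

/-- trajectory driven by a general spin vector -/
noncomputable def trU (P : Proc n m S) (s : S) (u : Vec n) (ω : ℕ → Vec m) : ℕ → S
  | 0 => s
  | (k + 1) => nxU P (trU P s u ω k) u (ω k)

theorem obs_eq (R : Matrix (Fin n) (Fin m) ℝ) (δ : ℝ) (x : Cfg n) (ξ : Vec m) :
    obs R δ x ξ = obsU R δ (sv x) ξ := rfl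

theorem traj_eq (P : Proc n m S) (s : S) (x : Cfg n) (ω : ℕ → Vec m) (k : ℕ) :
    P.traj s x ω k = trU P s (sv x) ω k := by
  induction k with
  | zero => rfl
  | succ k ih => rw [Proc.traj_succ, ih]; rfl

theorem trU_consS (P : Proc n m S) (s : S) (u : Vec n) (ξ : Vec m) (ω : ℕ → Vec m) (k : ℕ) :
    trU P s u (consS ξ ω) (k + 1) = trU P (nxU P s u ξ) u ω k := by
  induction k with
  | zero => rfl
  | succ k ih => rw [trU, ih, consS_succ]; rfl

theorem trU_add (P : Proc n m S) (s : S) (u : Vec n) (ω : ℕ → Vec m) (k j : ℕ) :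
    trU P s u ω (k + j) = trU P (trU P s u ω k) u (shS k ω) j := by
  induction j with
  | zero => rfl
  | succ j ih => rw [← add_assoc, trU, ih]; rfl

theorem measurable_mulVecM {α : Type*} [MeasurableSpace α] {a b : ℕ}
    {A : α → Matrix (Fin a) (Fin b) ℝ} {v : α → Fin b → ℝ}
    (hA : ∀ i j, Measurable fun t => A t i j) (hv : Measurable v) :
    Measurable fun t => A t *ᵥ v t := by
  refine measurable_pi_lambda _ fun i => ?_
  unfold Matrix.mulVec dotProduct
  exact Finset.measurable_fun_sum _ fun j _ => (hA i j).mul ((measurable_pi_apply j).comp hv)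

theorem measurable_mulM {α : Type*} [MeasurableSpace α] {a b c : ℕ}
    {A : α → Matrix (Fin a) (Fin b) ℝ} {B : α → Matrix (Fin b) (Fin c) ℝ}
    (hA : ∀ i j, Measurable fun t => A t i j) (hB : ∀ i j, Measurable fun t => B t i j)
    (i : Fin a) (j : Fin c) : Measurable fun t => (A t * B t) i j := by
  simp only [Matrix.mul_apply]
  exact Finset.measurable_fun_sum _ fun k _ => (hA i k).mul (hB k j)

theorem measurable_nxU (P : Proc n m S) {α : Type*} [MeasurableSpace α] {s : α → S}
    {u : α → Vec n} {ξ : α → Vec m} (hs : Measurable s) (hu : Measurable u) (hξ : Measurable ξ) :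
    Measurable fun a => nxU P (s a) (u a) (ξ a) := by
  have hR : ∀ i j, Measurable fun a => P.R (s a) i j := fun i j => (P.measR i j).comp hs
  have hd : Measurable fun a => P.δ (s a) := P.measδ.comp hs
  have h1 : Measurable fun a => obsU (P.R (s a)) (P.δ (s a)) (u a) (ξ a) :=
    (hd.smul (measurable_mulVecM (measurable_mulM hR fun i j => hR j i) hu)).add
      ((Real.continuous_sqrt.measurable.comp hd).smul (measurable_mulVecM hR hξ))
  exact P.measnxt.comp (hs.prodMk h1)

theorem measurable_trU (P : Proc n m S) {α : Type*} [MeasurableSpace α] {s : α → S}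
    {u : α → Vec n} {ω : α → ℕ → Vec m} (hs : Measurable s) (hu : Measurable u)
    (hω : Measurable ω) (k : ℕ) : Measurable fun a => trU P (s a) (u a) (ω a) k := by
  induction k with
  | zero => exact hs
  | succ k ih => exact measurable_nxU P ih hu ((measurable_pi_apply k).comp hω)

/-- the site process of a frame process -/
noncomputable def rot (P : Proc n m S) (O : OG n) : Proc n m S where
  δ := P.δ
  hδ := P.hδ
  hδ1 := P.hδ1
  M s := Jr O (P.M s)
  y s := O.1ᵀ *ᵥ P.y s
  R s := O.1ᵀ * P.R s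
  nxt s z := P.nxt s (O.1 *ᵥ z)
  measδ := P.measδ
  measM := measurable_mulM (measurable_mulM (fun _ _ => measurable_const) P.measM)
    fun _ _ => measurable_const
  measy i := (measurable_pi_apply i).comp (measurable_mulVecM (A := fun _ => O.1ᵀ)
    (fun _ _ => measurable_const) (measurable_pi_lambda _ P.measy))
  measR := measurable_mulM (fun _ _ => measurable_const) P.measR
  measnxt := P.measnxt.comp (measurable_fst.prodMk (measurable_mulVecM (A := fun _ => O.1)
    (fun _ _ => measurable_const) measurable_snd))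
  hM s z := by
    unfold Jr
    rw [P.hM, Matrix.mul_sub, Matrix.sub_mul, Matrix.transpose_mul, Matrix.transpose_transpose,
      Matrix.mul_smul, Matrix.smul_mul]
    simp only [Matrix.mul_assoc]
  hy s z := by rw [P.hy, Matrix.mulVec_add, OG.tr_mulVec_mulVec]

theorem mulVec_obsU (O : OG n) (R : Matrix (Fin n) (Fin m) ℝ) (δ : ℝ) (v : Vec n) (ξ : Vec m) :
    O.1 *ᵥ obsU (O.1ᵀ * R) δ v ξ = obsU R δ (O.1 *ᵥ v) ξ := by
  unfold obsU
  rw [Matrix.mulVec_add, Matrix.mulVec_smul, Matrix.mulVec_smul, Matrix.transpose_mul,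
    Matrix.transpose_transpose]
  simp only [Matrix.mulVec_mulVec, ← Matrix.mul_assoc, OG.mul_transpose, Matrix.one_mul]

theorem rot_trU (P : Proc n m S) (O : OG n) (s : S) (v : Vec n) (ω : ℕ → Vec m) (k : ℕ) :
    trU (rot P O) s v ω k = trU P s (O.1 *ᵥ v) ω k := by
  induction k with
  | zero => rfl
  | succ k ih =>
    rw [trU, trU, ih]
    exact congrArg (P.nxt _) (mulVec_obsU O _ _ v _)

/-- the trajectory of the site process is the frame trajectory of the frame spins -/
theorem rot_traj (P : Proc n m S) (O : OG n) (s : S) (x : Cfg n) (ω : ℕ → Vec m) (k : ℕ) :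
    (rot P O).traj s x ω k = trU P s (xt O x) ω k := by
  rw [traj_eq, rot_trU]; rfl

theorem rot_law (P : Proc n m S) (O : OG n) (s : S) :
    (rot P O).law s = gM (Jr O (P.M s)) (O.1ᵀ *ᵥ P.y s) := rfl

theorem rot_Q (P : Proc n m S) (O : OG n) (s : S) : (rot P O).Q s = Jr O (P.Q s) := by
  show (O.1ᵀ * P.R s) * (O.1ᵀ * P.R s)ᵀ = O.1ᵀ * (P.R s * (P.R s)ᵀ) * O.1
  rw [Matrix.transpose_mul, Matrix.transpose_transpose]
  simp only [Matrix.mul_assoc]

/-- equivariance: a relation between states which is kept by rotated labels is kept along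
rotated trajectories -/
theorem trU_rel (P : Proc n m S) (R : OG n) (T : OG m) {Rel : S → S → Prop}
    (hδ : ∀ s s', Rel s s' → P.δ s' = P.δ s)
    (hR : ∀ s s', Rel s s' → P.R s' * T.1 = R.1 * P.R s)
    (hn : ∀ s s' z, Rel s s' → Rel (P.nxt s z) (P.nxt s' (R.1 *ᵥ z)))
    {s s' : S} (h : Rel s s') (u : Vec n) (ω : ℕ → Vec m) (k : ℕ) :
    Rel (trU P s u ω k) (trU P s' (R.1 *ᵥ u) (rotN T ω) k) := by
  induction k with
  | zero => exact h
  | succ k ih =>
    have h1 := hR _ _ ih
    have h2 : P.R (trU P s' (R.1 *ᵥ u) (rotN T ω) k) = R.1 * P.R (trU P s u ω k) * T.1ᵀ := by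
      rw [← h1, Matrix.mul_assoc, OG.mul_transpose, Matrix.mul_one]
    have h3 : obsU (P.R (trU P s' (R.1 *ᵥ u) (rotN T ω) k))
        (P.δ (trU P s' (R.1 *ᵥ u) (rotN T ω) k)) (R.1 *ᵥ u) (rotN T ω k) =
        R.1 *ᵥ obsU (P.R (trU P s u ω k)) (P.δ (trU P s u ω k)) u (ω k) := by
      rw [hδ _ _ ih, h2]
      unfold obsU rotN
      rw [Matrix.mulVec_add, Matrix.mulVec_smul, Matrix.mulVec_smul, Matrix.transpose_mul,
        Matrix.transpose_mul, Matrix.transpose_transpose]
      simp only [Matrix.mulVec_mulVec, Matrix.mul_assoc, OG.transpose_mul, Matrix.mul_one]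
      rw [← Matrix.mul_assoc T.1ᵀ, OG.transpose_mul, Matrix.one_mul]
    rw [trU, trU]
    unfold nxU
    rw [h3]
    exact hn _ _ _ ih

/-! ### Cameron-Martin -/

theorem lint_shift (a : Vec m) {G : Vec m → ℝ≥0∞} (hG : Measurable G) :
    ∫⁻ g, G (a + g) ∂gpi (Fin m) =
      ∫⁻ g, ENNReal.ofReal (Real.exp (ip a g - F.sq a / 2)) * G g ∂gpi (Fin m) := by
  have h := lintegral_tilt (w := fun _ : Fin m => (1 : ℝ)) a (fun _ => one_pos) hG
  have e : ∀ g : Vec m, aff (fun _ => (1 : ℝ)) a g = a + g := fun g => by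
    funext i; simp [aff]
  simp only [e, sub_self, zero_mul, zero_div, zero_add, Real.log_one, Finset.sum_const_zero,
    neg_zero, div_one] at h
  have hE : Measurable fun g : Vec m => ENNReal.ofReal (Real.exp (∑ i, a i * g i)) * G g :=
    (by fun_prop : Measurable fun g : Vec m => ENNReal.ofReal (Real.exp (∑ i, a i * g i))).mul hG
  have e2 : ∀ g : Vec m, ENNReal.ofReal (Real.exp (ip a g - F.sq a / 2)) * G g =
      ENNReal.ofReal (Real.exp (-(F.sq a / 2))) *
        (ENNReal.ofReal (Real.exp (∑ i, a i * g i)) * G g) := fun g => by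
    rw [← mul_assoc, ← ENNReal.ofReal_mul (Real.exp_pos _).le, ← Real.exp_add]
    congr 3
    unfold ip
    ring
  simp only [e2]
  rw [lintegral_const_mul _ hE, h, ← mul_assoc, ← ENNReal.ofReal_mul (Real.exp_pos _).le,
    ← Real.exp_add]
  unfold F.sq
  rw [neg_add_cancel, Real.exp_zero, ENNReal.ofReal_one, one_mul]

/-- the Gibbs weight of a state -/
noncomputable def eH (P : Proc n m S) (s : S) (u : Vec n) : ℝ≥0∞ :=
  ENNReal.ofReal (Real.exp (HM (P.M s) (P.y s) u))

theorem measurable_eH (P : Proc n m S) {α : Type*} [MeasurableSpace α] {s : α → S}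
    {u : α → Vec n} (hs : Measurable s) (hu : Measurable u) :
    Measurable fun a => eH P (s a) (u a) :=
  ENNReal.measurable_ofReal.comp (Real.measurable_exp.comp (measurable_HM3
    (fun i j => (P.measM i j).comp hs) (fun i => (P.measy i).comp hs) hu))

theorem cm_step (P : Proc n m S) (s : S) (u : Vec n) {Φ : S → ℝ≥0∞} (hΦ : Measurable Φ) :
    eH P s u * ∫⁻ ξ, Φ (nxU P s u ξ) ∂gpi (Fin m) =
      ∫⁻ ξ, eH P (nxU P s 0 ξ) u * Φ (nxU P s 0 ξ) ∂gpi (Fin m) := by
  have hd := (P.hδ s).le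
  set a : Vec m := √(P.δ s) • ((P.R s)ᵀ *ᵥ u) with ha
  have h0 : Measurable fun ξ => Φ (nxU P s 0 ξ) :=
    hΦ.comp (measurable_nxU P measurable_const measurable_const measurable_id)
  have e1 : ∀ ξ, nxU P s u ξ = nxU P s 0 (a + ξ) := fun ξ => by
    unfold nxU obsU
    rw [Matrix.mulVec_zero, smul_zero, zero_add, Matrix.mulVec_add, smul_add, ha,
      Matrix.mulVec_smul, smul_smul, Real.mul_self_sqrt hd, Matrix.mulVec_mulVec]
  simp only [e1]
  have hE : Measurable fun g : Vec m => ENNReal.ofReal (Real.exp (ip a g - F.sq a / 2)) := by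
    unfold ip
    fun_prop
  have hE0 : Measurable fun g : Vec m =>
      ENNReal.ofReal (Real.exp (ip a g - F.sq a / 2)) * Φ (nxU P s 0 g) := hE.mul h0
  rw [lint_shift a h0, ← lintegral_const_mul _ hE0]
  refine lintegral_congr fun ξ => ?_
  rw [← mul_assoc]
  congr 1
  unfold eH
  rw [← ENNReal.ofReal_mul (Real.exp_pos _).le, ← Real.exp_add]
  congr 2
  have e2 : F.sq a = P.δ s * qf (P.R s * (P.R s)ᵀ) u := by
    have h1 : F.sq a = P.δ s * ((P.R s)ᵀ *ᵥ u ⬝ᵥ (P.R s)ᵀ *ᵥ u) := by
      rw [ha, sq_smul', Real.sq_sqrt hd, sq_eq_dot]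
    rw [h1]
    unfold qf
    rw [ip_eq_dot, ← Matrix.mulVec_mulVec, Matrix.dotProduct_mulVec u, Matrix.mulVec_transpose]
  have e3 : ip a ξ = ip (√(P.δ s) • (P.R s *ᵥ ξ)) u := by
    rw [ip_eq_dot, ip_eq_dot, ha, smul_dotProduct, smul_dotProduct, dotProduct_comm (P.R s *ᵥ ξ),
      Matrix.dotProduct_mulVec, Matrix.mulVec_transpose]
  unfold nxU obsU HM
  rw [P.hM, P.hy, e2, e3, Matrix.mulVec_zero, smul_zero, zero_add]
  unfold qf
  simp only [ip_eq_dot, Matrix.sub_mulVec, Matrix.smul_mulVec, dotProduct_sub, dotProduct_smul,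
    add_dotProduct, smul_eq_mul]
  ring

/-- Cameron-Martin identity along the path: the weight of the first state times the driven path is
the driftless path times the weight of the last state -/
theorem cm (P : Proc n m S) (u : Vec n) {Φ : S × (ℕ → Vec m) → ℝ≥0∞} (hΦ : Measurable Φ)
    (k : ℕ) (s : S) :
    eH P s u * ∫⁻ ω, Φ (trU P s u ω k, shS k ω) ∂PN m =
      ∫⁻ ω, eH P (trU P s 0 ω k) u * ∫⁻ ω', Φ (trU P s 0 ω k, ω') ∂PN m ∂PN m := by
  induction k generalizing s with
  | zero =>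
    simp only [shS_zero, trU, lintegral_const, measure_univ, mul_one]
  | succ k ih =>
    have hm1 : Measurable fun p : S × (ℕ → Vec m) => Φ (trU P p.1 u p.2 k, shS k p.2) :=
      hΦ.comp ((measurable_trU P measurable_fst measurable_const measurable_snd k).prodMk
        ((measurable_shS k).comp measurable_snd))
    have hm2 : Measurable fun ω => Φ (trU P s u ω (k + 1), shS (k + 1) ω) :=
      hΦ.comp ((measurable_trU P measurable_const measurable_const measurable_id _).prodMk
        (measurable_shS _))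
    have ht : Measurable fun ω => trU P s 0 ω (k + 1) :=
      measurable_trU P measurable_const measurable_const measurable_id _
    have hm3 : Measurable fun ω =>
        eH P (trU P s 0 ω (k + 1)) u * ∫⁻ ω', Φ (trU P s 0 ω (k + 1), ω') ∂PN m :=
      (measurable_eH P ht measurable_const).mul (hΦ.lintegral_prod_right'.comp ht)
    rw [lintegral_consS hm2, lintegral_consS hm3]
    simp only [trU_consS, shS_succ_consS]
    rw [cm_step P s u (Φ := fun s' => ∫⁻ ω, Φ (trU P s' u ω k, shS k ω) ∂PN m)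
      hm1.lintegral_prod_right']
    exact lintegral_congr fun ξ => ih _

/-! ### the Markov property of the planted law -/

/-- law of the frame state after `k` steps -/
noncomputable def stL (P : Proc n m S) (s : S) (k : ℕ) : Measure S :=
  (spN m (P.M s) (P.y s)).map fun r => trU P s r.1 r.2 k

theorem measurable_trU_r (P : Proc n m S) (s : S) (k : ℕ) :
    Measurable fun r : Vec n × (ℕ → Vec m) => trU P s r.1 r.2 k :=
  measurable_trU P measurable_const measurable_fst measurable_snd k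

theorem measurable_trU_q (P : Proc n m S) (s : S) (k : ℕ) :
    Measurable fun q : (OG n × Cfg n) × (ℕ → Vec m) => trU P s (xt q.1.1 q.1.2) q.2 k :=
  measurable_trU P measurable_const (measurable_xt.comp measurable_fst) measurable_snd k

instance (P : Proc n m S) (s : S) (k : ℕ) : IsProbabilityMeasure (stL P s k) :=
  Measure.isProbabilityMeasure_map (measurable_trU_r P s k).aemeasurable

/-- the spherical integral of a state -/
noncomputable def iS (P : Proc n m S) (s : S) : ℝ≥0∞ := ENNReal.ofReal (ISM (P.M s) (P.y s))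

theorem iS_ne_zero (P : Proc n m S) (s : S) : iS P s ≠ 0 :=
  (ENNReal.ofReal_pos.2 (ISM_pos _ _)).ne'

theorem iS_ne_top (P : Proc n m S) (s : S) : iS P s ≠ ∞ := ENNReal.ofReal_ne_top

theorem measurable_iS (P : Proc n m S) : Measurable (iS P) :=
  ENNReal.measurable_ofReal.comp (measurable_ISM P.measM P.measy)

theorem lint_eH (P : Proc n m S) (s : S) : ∫⁻ u, eH P s u ∂sph n n = iS P s :=
  (ofReal_ISM _ _).symm

theorem sdens_eq (P : Proc n m S) (s : S) (u : Vec n) :
    ENNReal.ofReal (Real.exp (HM (P.M s) (P.y s) u) / ISM (P.M s) (P.y s)) =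
      (iS P s)⁻¹ * eH P s u := by
  rw [ENNReal.ofReal_div_of_pos (ISM_pos _ _), ENNReal.div_eq_inv_mul]
  rfl

/-- abstract form: a base measure `ρ`, a spin vector `X` -/
theorem cm_base (P : Proc n m S) {A : Type*} [MeasurableSpace A] (ρ : Measure A) [SFinite ρ]
    {X : A → Vec n} (hX : Measurable X) {Φ : S × (A × (ℕ → Vec m)) → ℝ≥0∞} (hΦ : Measurable Φ)
    (k : ℕ) (s : S) :
    ∫⁻ a, eH P s (X a) * ∫⁻ ω, Φ (trU P s (X a) ω k, (a, shS k ω)) ∂PN m ∂ρ =
      ∫⁻ ω, ∫⁻ a, eH P (trU P s 0 ω k) (X a) *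
        ∫⁻ ω', Φ (trU P s 0 ω k, (a, ω')) ∂PN m ∂ρ ∂PN m := by
  have h1 : ∀ a, eH P s (X a) * ∫⁻ ω, Φ (trU P s (X a) ω k, (a, shS k ω)) ∂PN m =
      ∫⁻ ω, eH P (trU P s 0 ω k) (X a) * ∫⁻ ω', Φ (trU P s 0 ω k, (a, ω')) ∂PN m ∂PN m :=
    fun a => cm P (X a) (Φ := fun t => Φ (t.1, (a, t.2)))
      (hΦ.comp (measurable_fst.prodMk (measurable_const.prodMk measurable_snd))) k s
  simp only [h1]
  have ht : Measurable fun t : A × (ℕ → Vec m) => trU P s 0 t.2 k :=
    measurable_trU P measurable_const measurable_const measurable_snd k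
  have h2 : Measurable fun t : (A × (ℕ → Vec m)) × (ℕ → Vec m) =>
      Φ (trU P s 0 t.1.2 k, (t.1.1, t.2)) :=
    hΦ.comp ((ht.comp measurable_fst).prodMk
      ((measurable_fst.comp measurable_fst).prodMk measurable_snd))
  have h3 : Measurable fun t : A × (ℕ → Vec m) =>
      eH P (trU P s 0 t.2 k) (X t.1) * ∫⁻ ω', Φ (trU P s 0 t.2 k, (t.1, ω')) ∂PN m :=
    (measurable_eH P ht (hX.comp measurable_fst)).mul h2.lintegral_prod_right'
  exact lintegral_lintegral_swap h3.aemeasurable

theorem lint_spN_eH (P : Proc n m S) (s : S) {G : Vec n × (ℕ → Vec m) → ℝ≥0∞}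
    (hG : Measurable G) : ∫⁻ r, G r ∂spN m (P.M s) (P.y s) =
      (iS P s)⁻¹ * ∫⁻ u, eH P s u * ∫⁻ ω, G (u, ω) ∂PN m ∂sph n n := by
  have h1 : Measurable fun u => eH P s u * ∫⁻ ω, G (u, ω) ∂PN m :=
    (measurable_eH P measurable_const measurable_id).mul hG.lintegral_prod_right'
  unfold spN
  rw [lintegral_prod _ hG.aemeasurable, lint_spM _ _ hG.lintegral_prod_right',
    ← lintegral_const_mul _ h1]
  refine lintegral_congr fun u => ?_
  rw [sdens_eq, mul_assoc]

theorem lint_plN_eH (P : Proc n m S) (s : S) {G : (OG n × Cfg n) × (ℕ → Vec m) → ℝ≥0∞}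
    (hG : Measurable G) : ∫⁻ q, G q ∂plN m (P.M s) (P.y s) =
      (iS P s)⁻¹ * ((2 ^ n : ℝ≥0∞)⁻¹ * ∫⁻ p, eH P s (xt p.1 p.2) * ∫⁻ ω, G (p, ω) ∂PN m
        ∂(haar n).prod Measure.count) := by
  have h0 : Measurable fun p : OG n × Cfg n => ∫⁻ ω, G (p, ω) ∂PN m := hG.lintegral_prod_right'
  have h1 : Measurable fun p : OG n × Cfg n => eH P s (xt p.1 p.2) * ∫⁻ ω, G (p, ω) ∂PN m :=
    (measurable_eH P measurable_const measurable_xt).mul h0
  unfold plN plM
  rw [lintegral_prod _ hG.aemeasurable,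
    lintegral_withDensity_eq_lintegral_mul _ (measurable_dens _ _) h0, ← mul_assoc,
    ← lintegral_const_mul _ h1]
  refine lintegral_congr fun p => ?_
  rw [Pi.mul_apply, ofReal_half, sdens_eq]
  ring

/-- the law of the frame state has the density `iS s_k / iS s` with respect to the driftless path -/
theorem lint_stL (P : Proc n m S) (s : S) (k : ℕ) {H : S → ℝ≥0∞} (hH : Measurable H) :
    ∫⁻ t, H t ∂stL P s k =
      (iS P s)⁻¹ * ∫⁻ ω, iS P (trU P s 0 ω k) * H (trU P s 0 ω k) ∂PN m := by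
  unfold stL
  rw [lintegral_map hH (measurable_trU_r P s k),
    lint_spN_eH P s (G := fun r => H (trU P s r.1 r.2 k)) (hH.comp (measurable_trU_r P s k))]
  congr 1
  have h := cm_base P (sph n n) measurable_id (Φ := fun t => H t.1) (hH.comp measurable_fst) k s
  refine h.trans (lintegral_congr fun ω => ?_)
  simp only [lintegral_const, measure_univ, mul_one, id]
  rw [lintegral_mul_const (f := fun a => eH P (trU P s 0 ω k) a) _
    (measurable_eH P measurable_const measurable_id), lint_eH]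

theorem measurable_lint_plN (P : Proc n m S)
    {Φ : S × ((OG n × Cfg n) × (ℕ → Vec m)) → ℝ≥0∞} (hΦ : Measurable Φ) :
    Measurable fun t => ∫⁻ q, Φ (t, q) ∂plN m (P.M t) (P.y t) := by
  have e : ∀ t, ∫⁻ q, Φ (t, q) ∂plN m (P.M t) (P.y t) = _ := fun t =>
    lint_plN_eH P t (G := fun q => Φ (t, q)) (hΦ.comp measurable_prodMk_left)
  simp only [e]
  have h1 : Measurable fun r : (S × (OG n × Cfg n)) × (ℕ → Vec m) => Φ (r.1.1, (r.1.2, r.2)) :=
    hΦ.comp ((measurable_fst.comp measurable_fst).prodMk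
      ((measurable_snd.comp measurable_fst).prodMk measurable_snd))
  have h2 : Measurable fun r : S × (OG n × Cfg n) =>
      eH P r.1 (xt r.2.1 r.2.2) * ∫⁻ ω, Φ (r.1, (r.2, ω)) ∂PN m :=
    (measurable_eH P measurable_fst (measurable_xt.comp measurable_snd)).mul
      h1.lintegral_prod_right'
  exact (measurable_iS P).inv.mul (h2.lintegral_prod_right'.const_mul _)

theorem measurable_lint_spN (P : Proc n m S)
    {Φ : S × (Vec n × (ℕ → Vec m)) → ℝ≥0∞} (hΦ : Measurable Φ) :
    Measurable fun t => ∫⁻ r, Φ (t, r) ∂spN m (P.M t) (P.y t) := by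
  have e : ∀ t, ∫⁻ r, Φ (t, r) ∂spN m (P.M t) (P.y t) = _ := fun t =>
    lint_spN_eH P t (G := fun r => Φ (t, r)) (hΦ.comp measurable_prodMk_left)
  simp only [e]
  have h1 : Measurable fun r : (S × Vec n) × (ℕ → Vec m) => Φ (r.1.1, (r.1.2, r.2)) :=
    hΦ.comp ((measurable_fst.comp measurable_fst).prodMk
      ((measurable_snd.comp measurable_fst).prodMk measurable_snd))
  have h2 : Measurable fun r : S × Vec n => eH P r.1 r.2 * ∫⁻ ω, Φ (r.1, (r.2, ω)) ∂PN m :=
    (measurable_eH P measurable_fst measurable_snd).mul h1.lintegral_prod_right'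
  exact (measurable_iS P).inv.mul h2.lintegral_prod_right'

/-- Markov property: given the frame state at time `k`, rotation and spins have the planted law of
that state and the future noise is independent -/
theorem markov (P : Proc n m S) (s : S) (k : ℕ)
    {Φ : S × ((OG n × Cfg n) × (ℕ → Vec m)) → ℝ≥0∞} (hΦ : Measurable Φ) :
    ∫⁻ q, Φ (trU P s (xt q.1.1 q.1.2) q.2 k, (q.1, shS k q.2)) ∂plN m (P.M s) (P.y s) =
      ∫⁻ t, ∫⁻ q, Φ (t, q) ∂plN m (P.M t) (P.y t) ∂stL P s k := by
  have h0 : Measurable fun q : (OG n × Cfg n) × (ℕ → Vec m) =>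
      Φ (trU P s (xt q.1.1 q.1.2) q.2 k, (q.1, shS k q.2)) :=
    hΦ.comp ((measurable_trU_q P s k).prodMk
      (measurable_fst.prodMk ((measurable_shS k).comp measurable_snd)))
  rw [lint_stL P s k (measurable_lint_plN P hΦ), lint_plN_eH P s h0]
  congr 1
  have h := cm_base P ((haar n).prod Measure.count) measurable_xt hΦ k s
  have e : ∀ t, iS P t * ∫⁻ q, Φ (t, q) ∂plN m (P.M t) (P.y t) =
      (2 ^ n : ℝ≥0∞)⁻¹ * ∫⁻ p, eH P t (xt p.1 p.2) * ∫⁻ ω, Φ (t, (p, ω)) ∂PN m
        ∂(haar n).prod Measure.count := fun t => by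
    rw [lint_plN_eH P t (G := fun q => Φ (t, q)) (hΦ.comp measurable_prodMk_left), ← mul_assoc,
      ENNReal.mul_inv_cancel (iS_ne_zero P t) (iS_ne_top P t), one_mul]
  simp only [e]
  rw [lintegral_const_mul' _ _ (by simp), ← h]

/-- the same for the frame variables -/
theorem markov_sp (P : Proc n m S) (s : S) (k : ℕ)
    {Φ : S × (Vec n × (ℕ → Vec m)) → ℝ≥0∞} (hΦ : Measurable Φ) :
    ∫⁻ r, Φ (trU P s r.1 r.2 k, (r.1, shS k r.2)) ∂spN m (P.M s) (P.y s) =
      ∫⁻ t, ∫⁻ r, Φ (t, r) ∂spN m (P.M t) (P.y t) ∂stL P s k := by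
  have h0 : Measurable fun r : Vec n × (ℕ → Vec m) => Φ (trU P s r.1 r.2 k, (r.1, shS k r.2)) :=
    hΦ.comp ((measurable_trU_r P s k).prodMk
      (measurable_fst.prodMk ((measurable_shS k).comp measurable_snd)))
  rw [lint_stL P s k (measurable_lint_spN P hΦ), lint_spN_eH P s h0]
  congr 1
  have h := cm_base P (sph n n) measurable_id hΦ k s
  have e : ∀ t, iS P t * ∫⁻ r, Φ (t, r) ∂spN m (P.M t) (P.y t) =
      ∫⁻ u, eH P t u * ∫⁻ ω, Φ (t, (u, ω)) ∂PN m ∂sph n n := fun t => by
    rw [lint_spN_eH P t (G := fun q => Φ (t, q)) (hΦ.comp measurable_prodMk_left), ← mul_assoc,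
      ENNReal.mul_inv_cancel (iS_ne_zero P t) (iS_ne_top P t), one_mul]
  simp only [e]
  exact h

/-- event form: a bound at every state of `A` bounds the planted probability -/
theorem markov_le (P : Proc n m S) (s : S) (k : ℕ) {A : Set S} (hA : MeasurableSet A)
    {B : Set (S × ((OG n × Cfg n) × (ℕ → Vec m)))} (hB : MeasurableSet B) {p : ℝ≥0∞}
    (hp : ∀ t ∈ A, plN m (P.M t) (P.y t) {q | (t, q) ∈ B} ≤ p) :
    plN m (P.M s) (P.y s) {q | trU P s (xt q.1.1 q.1.2) q.2 k ∈ A ∧
      (trU P s (xt q.1.1 q.1.2) q.2 k, (q.1, shS k q.2)) ∈ B} ≤ p := by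
  set B' : Set (S × ((OG n × Cfg n) × (ℕ → Vec m))) := Prod.fst ⁻¹' A ∩ B with hB'
  have hm : MeasurableSet B' := (measurable_fst hA).inter hB
  have h0 : Measurable fun q : (OG n × Cfg n) × (ℕ → Vec m) =>
      (trU P s (xt q.1.1 q.1.2) q.2 k, (q.1, shS k q.2)) :=
    (measurable_trU_q P s k).prodMk
      (measurable_fst.prodMk ((measurable_shS k).comp measurable_snd))
  have h1 := markov P s k (measurable_one.indicator hm)
  have hq : MeasurableSet {q : (OG n × Cfg n) × (ℕ → Vec m) |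
      trU P s (xt q.1.1 q.1.2) q.2 k ∈ A ∧
      (trU P s (xt q.1.1 q.1.2) q.2 k, (q.1, shS k q.2)) ∈ B} := h0 hm
  rw [← lintegral_indicator_one hq]
  refine le_trans (le_of_eq (Eq.trans rfl h1)) ?_
  calc _ ≤ ∫⁻ _, p ∂stL P s k := by
        refine lintegral_mono fun t => ?_
        have ht : MeasurableSet {q | (t, q) ∈ B'} := measurable_prodMk_left hm
        have e : ∫⁻ q, B'.indicator 1 (t, q) ∂plN m (P.M t) (P.y t) =
            plN m (P.M t) (P.y t) {q | (t, q) ∈ B'} := by
          rw [← lintegral_indicator_one ht]; rfl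
        rw [e]
        by_cases htA : t ∈ A
        · exact (measure_mono fun q hq => hq.2).trans (hp t htA)
        · have e2 : {q | (t, q) ∈ B'} = ∅ :=
            Set.eq_empty_of_forall_notMem fun q hq => htA hq.1
          rw [e2, measure_empty]
          exact zero_le
    _ = p := by simp only [lintegral_const, measure_univ, mul_one]

/-- (P3) one-time transfer to the free Haar measure -/
theorem transfer_at (P : Proc n m S) (s : S) (k : ℕ) {A : Set S} (hA : MeasurableSet A)
    {B : Set (S × OG n)} (hB : MeasurableSet B) {C p : ℝ}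
    (hC : ∀ t ∈ A, ∫ O, LR (P.M t) (P.y t) O ^ 2 ∂haar n ≤ C)
    (hp : ∀ t ∈ A, (haar n).real {O | (t, O) ∈ B} ≤ p) :
    (plN m (P.M s) (P.y s)).real {q | trU P s (xt q.1.1 q.1.2) q.2 k ∈ A ∧
      (trU P s (xt q.1.1 q.1.2) q.2 k, q.1.1) ∈ B} ≤ √(C * p) := by
  have hpr : Measurable fun r : S × ((OG n × Cfg n) × (ℕ → Vec m)) => (r.1, r.2.1.1) :=
    measurable_fst.prodMk (measurable_fst.comp (measurable_fst.comp measurable_snd))
  refine ENNReal.toReal_le_of_le_ofReal (Real.sqrt_nonneg _)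
    (markov_le P s k hA (hpr hB) fun t ht => ?_)
  have h := transfer (m := m) (P.M t) (P.y t) {O | (t, O) ∈ B} (hC t ht)
  have hC0 : 0 ≤ C := (integral_nonneg fun O => sq_nonneg _).trans (hC t ht)
  refine (ENNReal.le_ofReal_iff_toReal_le (measure_ne_top _ _) (Real.sqrt_nonneg _)).2
    (h.trans (Real.sqrt_le_sqrt (mul_le_mul_of_nonneg_left (hp t ht) hC0)))

/-- (P4) compression form: at every state `t ∈ A` a probability `ν t` on the symmetries of the
state; past frame state fixed, rotation and future noise rotated -/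
theorem sym_at (P : Proc n n S) (s : S) (k : ℕ) {A : Set S} (hA : MeasurableSet A)
    {B : Set (S × ((OG n × Cfg n) × (ℕ → Vec n)))} (hB : MeasurableSet B) {p : ℝ≥0∞}
    (ν : S → Measure (OG n)) (hν : ∀ t, IsProbabilityMeasure (ν t))
    (hS : ∀ t ∈ A, ∀ᵐ R ∂ν t, Sym (P.M t) (P.y t) R)
    (hp : ∀ t ∈ A, ∀ q : (OG n × Cfg n) × (ℕ → Vec n),
      ν t {R | (t, ((R * q.1.1, q.1.2), rotN R q.2)) ∈ B} ≤ p) :
    plN n (P.M s) (P.y s) {q | trU P s (xt q.1.1 q.1.2) q.2 k ∈ A ∧
      (trU P s (xt q.1.1 q.1.2) q.2 k, (q.1, shS k q.2)) ∈ B} ≤ p :=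
  markov_le P s k hA hB fun t ht =>
    haveI := hν t
    sym_le (ν t) (hS t ht) measurable_id (measurable_prodMk_left hB) (hp t ht)

end Vale.Agent.N150.Plant
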