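import Vale.Agent.N150.BrSite
import Vale.Agent.N150.Plant2
import Vale.Agent.N150.Tail

/-! P150, bridge: under the planted law the path on the bridge is good with high probability. -/

open Matrix MeasureTheory Finset

namespace Vale.Agent.N150.Br

open Vale.Agent.P150 Vale.Agent.P150.F Vale.Agent.P150.F.Ms Vale.Agent.N150.A1
open Vale.Agent.N150.Cap Vale.Agent.N150.EC Vale.Agent.N150.T1 Vale.Agent.N150.Plant
open Vale.Agent.N150.Sp

variable {n : ℕ}

/-! ### conjugation -/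

theorem Jr_tr (O : OG n) (A : Mat n) : (Jr O A)ᵀ = Jr O Aᵀ := by
  unfold Jr
  rw [Matrix.transpose_mul, Matrix.transpose_mul, Matrix.transpose_transpose, Matrix.mul_assoc]

theorem Jr_RR (O : OG n) (A : Mat n) : Jr O A * (Jr O A)ᵀ = Jr O (A * Aᵀ) := by
  rw [Jr_tr]
  unfold Jr
  calc _ = O.1ᵀ * (A * (O.1 * O.1ᵀ) * Aᵀ) * O.1 := by simp only [Matrix.mul_assoc]
    _ = _ := by rw [OG.mul_transpose, Matrix.mul_one]

theorem Jr_sub (O : OG n) (A B : Mat n) : Jr O (A - B) = Jr O A - Jr O B := by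
  unfold Jr
  rw [Matrix.mul_sub, Matrix.sub_mul]

theorem Jr_smul (O : OG n) (c : ℝ) (A : Mat n) : Jr O (c • A) = c • Jr O A := by
  unfold Jr
  rw [Matrix.mul_smul, Matrix.smul_mul]

theorem Jr_mv (O : OG n) (A : Mat n) (v : Vec n) :
    Jr O A *ᵥ (O.1ᵀ *ᵥ v) = O.1ᵀ *ᵥ (A *ᵥ v) := by
  unfold Jr
  rw [← Matrix.mulVec_mulVec, OG.mulVec_tr_mulVec, ← Matrix.mulVec_mulVec]

theorem opLe_Jr (O : OG n) {A : Mat n} {c : ℝ} (h : OpLe A c) : OpLe (Jr O A) c := by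
  have h1 := (Law.opLe_conj_iff (O := O.1ᵀ)
    (by rw [Matrix.transpose_transpose, OG.mul_transpose])).2 h
  rwa [Matrix.transpose_transpose] at h1

theorem Jr_inv (U O : OG n) (A : Mat n) : Jr (U * O) (Jr U⁻¹ A) = Jr O A := by
  rw [← Jr_mul, inv_mul_cancel_left]

theorem sched_Jr (O : OG n) (A : Mat n) (dl : ℕ → ℝ) (R : ℕ → Mat n) :
    Sched dl (fun k => Jr O (A - QS dl R k)) fun k => Jr O (R k) := fun k => by
  dsimp only
  rw [Jr_RR, ← Jr_smul, ← Jr_sub, QS_succ, sub_sub]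

theorem pathU_Jr (O : OG n) (dl : ℕ → ℝ) (R : ℕ → Mat n) (u : Vec n) (ω : ℕ → Vec n) (k : ℕ) :
    pathU dl (fun j => Jr O (R j)) (O.1ᵀ *ᵥ u) (fun j => O.1ᵀ *ᵥ ω j) k
      = O.1ᵀ *ᵥ pathU dl R u ω k := by
  induction k with
  | zero => simp [pathU, QS]
  | succ k ih =>
    rw [pathU_succ, pathU_succ, ih, Jr_RR, Jr_mv, Jr_mv, Matrix.mulVec_add, Matrix.mulVec_add,
      Matrix.mulVec_smul, Matrix.mulVec_smul]

theorem QS_tr (dl : ℕ → ℝ) (R : ℕ → Mat n) (k : ℕ) : (QS dl R k)ᵀ = QS dl R k := by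
  unfold QS
  rw [Matrix.transpose_sum]
  exact Finset.sum_congr rfl fun j _ => by
    rw [Matrix.transpose_smul, Matrix.transpose_mul, Matrix.transpose_transpose]

/-! ### measurability -/

section meas

variable {α : Type} [MeasurableSpace α]

theorem ms_fa {ι : Type} [Countable ι] {p : ι → α → Prop} (h : ∀ i, MeasurableSet {a | p i a}) :
    MeasurableSet {a | ∀ i, p i a} := by
  rw [Set.ofPred_forall]
  exact MeasurableSet.iInter h

theorem ms_imp (c : Prop) {p : α → Prop} (h : MeasurableSet {a | p a}) :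
    MeasurableSet {a | c → p a} := by
  by_cases hc : c
  · simpa only [hc, true_imp_iff] using h
  · simp only [hc, false_imp_iff]
    exact MeasurableSet.univ

theorem ms_opLe {A : α → Mat n} (hA : MMat A) (c : ℝ) : MeasurableSet {a | OpLe (A a) c} :=
  ms_all (f := fun a v => F.sq (A a *ᵥ v)) (g := fun _ v => c ^ 2 * F.sq v)
    (fun v => (hA.mulVec (MVec.const v)).sq) (fun _ => measurable_const)
    (fun _ => cont_sq (cont_mv _ continuous_id))
    (fun _ => continuous_const.mul (cont_sq continuous_id))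

theorem ms_GS (K Λ δ : ℝ) {J J' : α → Mat n} {y y' h h' : α → Vec n} (hJ : MMat J)
    (hJ' : MMat J') (hy : MVec y) (hy' : MVec y') (hh : MVec h) (hh' : MVec h') :
    MeasurableSet {a | GS K Λ δ (J a) (J' a) (y a) (y' a) (h a) (h' a)} := by
  have z := ms_zh hJ hh
  have z' := ms_zh hJ' hh'
  exact ((ms_Loc K hJ hh z).inter ((ms_Loc K hJ' hh' z').inter
    ((ms_fa fun i => measurableSet_le ((hh' i).sub (hh i)).abs
      (measurable_const (a := K ^ 4 * √δ))).inter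
    ((measurableSet_le (z'.sub z).abs (measurable_const (a := K ^ 4 * √δ))).inter
    ((ms_fa fun i => measurableSet_le (mv_rs1 hJ hy hh i).abs (measurable_const (a := δ ^ 2))).inter
    ((measurableSet_eq_fun (ms_res2 hJ hh z) (measurable_const (a := 0))).inter
    ((ms_fa fun i => measurableSet_le (mv_rs1 hJ' hy' hh' i).abs
      (measurable_const (a := δ ^ 2))).inter
    ((measurableSet_eq_fun (ms_res2 hJ' hh' z') (measurable_const (a := 0))).inter
    (ms_opLe (mm_Gm hJ hh z) Λ))))))))).congr (Set.ext fun a =>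
      ⟨fun ⟨g1, g2, g3, g4, g5, g6, g7, g8, g9⟩ => ⟨g1, g2, g3, g4, g5, g6, g7, g8, g9⟩,
        fun g => ⟨g.loc, g.loc', g.dh, g.dz, g.r1, g.r2, g.r1', g.r2', g.gm⟩⟩)

theorem ms_SG (K Λ κ δ : ℝ) {J J' Q : α → Mat n} {y y' ξ : α → Vec n} (hJ : MMat J)
    (hJ' : MMat J') (hQ : MMat Q) (hy : MVec y) (hy' : MVec y') (hξ : MVec ξ) :
    MeasurableSet {a | SG K Λ κ δ (J a) (J' a) (Q a) (y a) (y' a) (ξ a)} := by
  have hh := mv_it hJ hy (n + 3)
  exact ((ms_GS K Λ δ hJ hJ' hy hy' hh (mv_it hJ' hy' (n + 3))).inter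
    ((measurableSet_le (mv_k0 hJ hh (ms_zh hJ hh) hQ).nv (measurable_const (a := κ))).inter
    (measurableSet_le hξ.nv (measurable_const (a := (n : ℝ)))))).congr (Set.ext fun a =>
      ⟨fun ⟨g1, g2, g3⟩ => ⟨g1, g2, g3⟩, fun g => ⟨g.gs, g.src, g.nz⟩⟩)

theorem ms_PG (K Λ κ δ : ℝ) {sel cen : Mat n → Vec n → Vec n} {J : α → ℕ → Mat n} {Q : α → Mat n}
    (N M : ℕ) {Y ω : α → ℕ → Vec n} (hJ : ∀ k, MMat fun a => J a k) (hQ : MMat Q)
    (hY : ∀ k, MVec fun a => Y a k) (hω : ∀ k, MVec fun a => ω a k)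
    (hs : MVec fun a => sel (J a N) (Y a N))
    (hc : MVec fun a => cen (J a (N + M)) (Y a (N + M))) :
    MeasurableSet {a | PG K Λ κ δ sel cen (J a) (Q a) N M (Y a) (ω a)} :=
  ((ms_fa fun k => ms_imp (N ≤ k) (ms_imp (k < N + M)
    (ms_SG K Λ κ δ (hJ k) (hJ (k + 1)) hQ (hY k) (hY (k + 1)) (hω k)))).inter
    ((measurableSet_le (hs.sub (mv_tm (mv_it (hJ N) (hY N) (n + 3)))).nv
      (measurable_const (a := 1))).inter
    (measurableSet_le (hc.sub (mv_tm (mv_it (hJ _) (hY _) (n + 3)))).nv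
      (measurable_const (a := 1))))).congr (Set.ext fun _ =>
      ⟨fun ⟨g1, g2, g3⟩ => ⟨g1, g2, g3⟩, fun ⟨g1, g2, g3⟩ => ⟨g1, g2, g3⟩⟩)

theorem mv_pathU (dl : ℕ → ℝ) (R : ℕ → Mat n) {u : α → Vec n} {ω : α → ℕ → Vec n} (hu : MVec u)
    (hω : ∀ k, MVec fun a => ω a k) (k : ℕ) : MVec fun a => pathU dl R (u a) (ω a) k := by
  induction k with
  | zero => simpa [pathU, QS] using MVec.const (S := α) (0 : Vec n)
  | succ k ih =>
    simp only [pathU_succ]
    exact mv_add (mv_add ih (mv_smul measurable_const ((MMat.const _).mulVec hu)))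
      (mv_smul measurable_const ((MMat.const _).mulVec (hω k)))

end meas

/-! ### fibres -/

theorem fib_map (U : OG n) {v u : Vec n} (h : F.sq u = F.sq v) (p : OG n → Prop) :
    (fibM v u).real {O | p (U * O)} ≤ (fibM v (U.1 *ᵥ u)).real {O | p O} := by
  have hT : (U * rflG (v - u)).1 *ᵥ v = U.1 *ᵥ u := by
    rw [OG.coe_mul, ← Matrix.mulVec_mulVec, rflG_swap h]
  have e : (fibM v u).map (fun O => U * O) = fibM v (U.1 *ᵥ u) := by
    rw [fibM_eq hT]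
    unfold fibM
    rw [Measure.map_map (measurable_const_mul U) (measurable_const_mul _)]
    congr 1
    funext V
    exact (mul_assoc _ _ _).symm
  refine ENNReal.toReal_mono (measure_ne_top _ _) ?_
  rw [← e]
  exact Measure.le_map_apply (measurable_const_mul U).aemeasurable _

theorem fibL (x : Cfg n) {u : Vec n} (hu : F.sq u = n) : FibL (fibM (sv x) u) (sv x) u :=
  ⟨fun i => mul_self_eq_one_iff.1 (sp_sq (x i)), inferInstance, explo_fibM _ _,
    ae_fibM (hu.trans (Plant.sq_sv x).symm)⟩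

/-- fibre bounds outside any set of frame data bound the planted probability -/
theorem plant_le (hn : 0 < n) (A0 : Mat n) (A : Set (Vec n × (ℕ → Vec n)))
    {B : Set ((Vec n × (ℕ → Vec n)) × OG n)} (hB : MeasurableSet B) {p : ℝ} (hp0 : 0 ≤ p)
    (hp : ∀ x : Cfg n, ∀ r ∉ A, F.sq r.1 = n → (fibM (sv x) r.1).real {O | (r, O) ∈ B} ≤ p) :
    (plN n A0 0).real {q | ((xt q.1.1 q.1.2, rotN q.1.1 q.2), q.1.1) ∈ B}
      ≤ (spN n A0 0).real A + p := by
  have h1 := Cap.plN_rot_le A0 0 {q | ((xt q.1.1 q.1.2, q.2), q.1.1) ∈ B}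
  have h2 := fib_le hn A0 0 (measurableSet_toMeasurable (spN n A0 0) A).compl
    (Bad := fun _ => B) (fun _ => hB) (p := ENNReal.ofReal p) fun x r hr hs =>
      (ENNReal.le_ofReal_iff_toReal_le (measure_ne_top _ _) hp0).2
        (hp x r (fun h => hr (subset_toMeasurable _ _ h)) hs)
  have h3 := Plant.plN_frame_le A0 0 (toMeasurable (spN n A0 0) A)
  rw [measure_toMeasurable] at h3
  refine (ENNReal.toReal_mono (measure_ne_top _ _) h1).trans ?_
  refine (Tail.real_or_le (plN n A0 0)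
    (q := fun q => (xt q.1.1 q.1.2, q.2) ∈ toMeasurable (spN n A0 0) A)
    (r := fun q => (xt q.1.1 q.1.2, q.2) ∈ (toMeasurable (spN n A0 0) A)ᶜ ∧
      ((xt q.1.1 q.1.2, q.2), q.1.1) ∈ B) fun q hq => ?_).trans (add_le_add
      (ENNReal.toReal_mono (measure_ne_top _ _) h3) (ENNReal.toReal_le_of_le_ofReal hp0 h2))
  exact (em _).imp id fun h => ⟨h, hq⟩

theorem noise_le (A0 : Mat n) (k : ℕ) :
    (spN n A0 0).real {r | 2 * n + 4 * (n : ℝ) ≤ F.sq (r.2 k)} ≤ Real.exp (-(n : ℝ)) := by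
  have h1 : MeasurePreserving (fun r : Vec n × (ℕ → Vec n) => r.2 k) (spN n A0 0) (gpi (Fin n)) :=
    (measurePreserving_eval_infinitePi _ k).comp measurePreserving_snd
  have h2 := h1.measureReal_preimage (s := {g | 2 * n + 4 * (n : ℝ) ≤ F.sq g})
    (measurableSet_le measurable_const measurable_sq).nullMeasurableSet
  have h3 := Tail.chi_set_lin (Finset.univ : Finset (Fin n)) (x := n)
  rw [Finset.card_univ, Fintype.card_fin] at h3
  exact (le_of_eq h2).trans h3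

/-- **the bridge, planted part** -/
theorem planted {L t K Λ κ δ p1 p2 pA : ℝ} {sel cen : Mat n → Vec n → Vec n} (hn : 6 ≤ n)
    {A0 Rb : Mat n} {dl : ℕ → ℝ} {R : ℕ → Mat n} {N M : ℕ} (hA : A0ᵀ = A0)
    (hc : ∀ j, N ≤ j → dl j = δ ∧ R j = Rb) (hRs : Rbᵀ = Rb) (hRo : OpLe Rb 1)
    (ms : ∀ (α : Type) [MeasurableSpace α] (J : α → Mat n) (y : α → Vec n), MMat J → MVec y →
      MVec fun a => sel (J a) (y a))
    (mc : ∀ (α : Type) [MeasurableSpace α] (J : α → Mat n) (y : α → Vec n), MMat J → MVec y →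
      MVec fun a => cen (J a) (y a)) (hp1 : 0 ≤ p1) (hp2 : 0 ≤ p2)
    (hT : ∀ (S : Dat n) (x xt : Vec n) (μ : Measure (OG n)), Adm L t S → AdmX L t S xt →
      FibL μ x xt → μ.real {O | ¬Good t S O} ≤ p1)
    (hK : ∀ (S : Dat n) (x xt : Vec n) (μ : Measure (OG n)) (Q : Mat n),
      Adm L t S → AdmX L t S xt → FibL μ x xt → Qᵀ = Q → OpLe Q 1 →
      μ.real {O | Good t S O ∧ κ < nv (k0 (S.J O) (S.h O (n + 3)) (zh (S.J O) (S.h O (n + 3)))
        (Jr O Q))} ≤ p2)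
    (hs : ∀ (S : Dat n) (O : OG n), Adm L t S → Good t S O →
      nv (sel (S.J O) (S.y O) - mT (n + 3) (S.J O) (S.y O)) ≤ 1)
    (hcen : ∀ (S : Dat n) (O : OG n), Adm L t S → Good t S O →
      nv (cen (S.J O) (S.y O) - mT (n + 3) (S.J O) (S.y O)) ≤ 1)
    (hD : ∀ (S S' : Dat n) (O O' : OG n) (R : Mat n) (x ξ : Vec n),
      Adm L t S → Good t S O → Adm L t S' → Good t S' O' → Rᵀ = R → OpLe R 1 →
      (∀ i, |x i| ≤ 1) → nv ξ ≤ n → S'.J O' = S.J O - δ • (R * Rᵀ) →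
      S'.y O' = S.y O + δ • ((R * Rᵀ) *ᵥ x) + √δ • (R *ᵥ ξ) →
      GS K Λ δ (S.J O) (S'.J O') (S.y O) (S'.y O') (S.h O (n + 3)) (S'.h O' (n + 3)))
    (hAd : ∀ k, N ≤ k → k ≤ N + M → ∀ (U : OG n) (mu : Vec n), A0 - QS dl R k = JO mu U →
      (spN n A0 0).real {r | ¬∃ gam z0 : ℝ,
        Adm L t ⟨gam, z0, mu, U.1 *ᵥ pathU dl R r.1 r.2 k⟩ ∧
        AdmX L t ⟨gam, z0, mu, U.1 *ᵥ pathU dl R r.1 r.2 k⟩ (U.1 *ᵥ r.1)} ≤ pA) :
    (plN n A0 0).real {q | ¬PG K Λ κ δ sel cen (fun k => Jr q.1.1 (A0 - QS dl R k))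
      (Jr q.1.1 Rb * (Jr q.1.1 Rb)ᵀ) N M (pathU dl (fun k => Jr q.1.1 (R k)) (sv q.1.2) q.2) q.2}
      ≤ (M + 1) * (pA + Real.exp (-(n : ℝ)) + (p1 + p2)) := by
  choose mu U hU using fun k => exists_JO (J := A0 - QS dl R k)
    (by rw [Matrix.transpose_sub, hA, QS_tr])
  have hn' : (6 : ℝ) ≤ n := by exact_mod_cast hn
  have card : ∀ c : ℝ, ∑ _k ∈ Icc N (N + M), c = (M + 1) * c := fun c => by
    rw [Finset.sum_const, Nat.card_Icc, nsmul_eq_mul, show N + M + 1 - N = M + 1 by omega]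
    push_cast
    rfl
  have mO : MMat fun a : (Vec n × (ℕ → Vec n)) × OG n => a.2.1 := fun i j =>
    (Fib.mm_val i j).comp measurable_snd
  have mJ : ∀ A : Mat n, MMat fun a : (Vec n × (ℕ → Vec n)) × OG n => Jr a.2 A := fun A =>
    mm_mul (mm_mul (mm_transpose mO) (MMat.const A)) mO
  have mω : ∀ k, MVec fun a : (Vec n × (ℕ → Vec n)) × OG n => a.1.2 k := fun k =>
    mvec_of ((measurable_pi_apply k).comp (measurable_snd.comp measurable_fst))
  have mY : ∀ k, MVec fun a : (Vec n × (ℕ → Vec n)) × OG n =>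
      a.2.1ᵀ *ᵥ pathU dl R a.1.1 a.1.2 k := fun k => (mm_transpose mO).mulVec
    (mv_pathU dl R (mvec_of (measurable_fst.comp measurable_fst)) mω k)
  have hB := (ms_PG K Λ κ δ (sel := sel) (cen := cen)
    (J := fun (a : (Vec n × (ℕ → Vec n)) × OG n) k => Jr a.2 (A0 - QS dl R k)) N M
    (Y := fun a k => a.2.1ᵀ *ᵥ pathU dl R a.1.1 a.1.2 k) (ω := fun a k => a.2.1ᵀ *ᵥ a.1.2 k)
    (fun k => mJ _) (mJ (Rb * Rbᵀ)) mY (fun k => (mm_transpose mO).mulVec (mω k))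
    (ms _ _ _ (mJ _) (mY _)) (mc _ _ _ (mJ _) (mY _))).compl
  have key := plant_le (by omega) A0 {r | ∃ k ∈ Icc N (N + M), (¬∃ gam z0 : ℝ,
        Adm L t ⟨gam, z0, mu k, (U k).1 *ᵥ pathU dl R r.1 r.2 k⟩ ∧
        AdmX L t ⟨gam, z0, mu k, (U k).1 *ᵥ pathU dl R r.1 r.2 k⟩ ((U k).1 *ᵥ r.1)) ∨
        2 * n + 4 * (n : ℝ) ≤ F.sq (r.2 k)} hB (p := (M + 1) * (p1 + p2)) (by positivity) ?_
  · have h1 := Tail.real_exists_le (spN n A0 0) (Icc N (N + M)) _
      (fun _ => pA + Real.exp (-(n : ℝ))) fun k hk =>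
      (Tail.real_or_le (spN n A0 0) fun _ h => h).trans (add_le_add
        (hAd k (Finset.mem_Icc.1 hk).1 (Finset.mem_Icc.1 hk).2 (U k) (mu k) (hU k)) (noise_le A0 k))
    rw [card] at h1
    refine le_trans (le_of_eq ?_) (key.trans ((add_le_add h1 le_rfl).trans (le_of_eq (by ring))))
    congr 1
    ext q
    have e1 : (fun j => q.1.1.1ᵀ *ᵥ rotN q.1.1 q.2 j) = q.2 :=
      funext fun j => OG.tr_mulVec_mulVec _ _
    have e2 : (fun k => q.1.1.1ᵀ *ᵥ pathU dl R (xt q.1.1 q.1.2) (rotN q.1.1 q.2) k)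
        = pathU dl (fun k => Jr q.1.1 (R k)) (sv q.1.2) q.2 :=
      funext fun k => by rw [← pathU_Jr, tr_xt, e1]
    simp only [Set.mem_compl_iff, Set.mem_ofPred_eq]
    rw [e1, e2, Jr_RR]
  · intro x r hr hsq
    have h0 : ∀ k, ∃ gam z0 : ℝ, k ∈ Icc N (N + M) →
        (Adm L t ⟨gam, z0, mu k, (U k).1 *ᵥ pathU dl R r.1 r.2 k⟩ ∧
        AdmX L t ⟨gam, z0, mu k, (U k).1 *ᵥ pathU dl R r.1 r.2 k⟩ ((U k).1 *ᵥ r.1)) ∧
        nv (r.2 k) ≤ n := fun k => by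
      by_cases hk : k ∈ Icc N (N + M)
      · have h1 := fun h => hr ⟨k, hk, h⟩
        rw [imp_false, not_or, not_not, not_le] at h1
        obtain ⟨⟨gam, z0, h2⟩, h3⟩ := h1
        exact ⟨gam, z0, fun _ => ⟨h2, nv_le_of_sq_le (by linarith) (by nlinarith)⟩⟩
      · exact ⟨0, 0, fun h => absurd h hk⟩
    choose gam z0 h0 using h0
    obtain ⟨S, hS⟩ : ∃ S : ℕ → Dat n, ∀ k,
        S k = ⟨gam k, z0 k, mu k, (U k).1 *ᵥ pathU dl R r.1 r.2 k⟩ := ⟨_, fun _ => rfl⟩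
    simp only [← hS] at h0
    have eJ : ∀ k O, (S k).J (U k * O) = Jr O (A0 - QS dl R k) := fun k O => by
      rw [hU, hS]
      exact Jr_mul (U k) O (diagonal (mu k))
    have ey : ∀ k O, (S k).y (U k * O) = O.1ᵀ *ᵥ pathU dl R r.1 r.2 k := fun k O => by
      rw [hS]
      unfold Dat.y
      rw [OG.coe_mul, Matrix.transpose_mul, ← Matrix.mulVec_mulVec, OG.tr_mulVec_mulVec]
    have hx : F.sq r.1 = F.sq (sv x) := hsq.trans (Plant.sq_sv x).symm
    have hF : ∀ k, FibL (fibM (sv x) ((U k).1 *ᵥ r.1)) (sv x) ((U k).1 *ᵥ r.1) := fun k =>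
      fibL x ((sq_mulVec_orth (OG.transpose_mul _) _).trans hsq)
    have h1 := Tail.real_exists_le (fibM (sv x) r.1) (Icc N (N + M)) _ (fun _ => p1 + p2)
      fun k hk => (Tail.real_or_le (fibM (sv x) r.1) fun _ h => h).trans (add_le_add
        ((fib_map (U k) hx _).trans (hT _ _ _ _ (h0 k hk).1.1 (h0 k hk).1.2 (hF k)))
        ((fib_map (U k) hx _).trans (hK _ _ _ _ (Jr (U k)⁻¹ (Rb * Rbᵀ)) (h0 k hk).1.1
          (h0 k hk).1.2 (hF k) (by rw [Jr_tr, Matrix.transpose_mul, Matrix.transpose_transpose])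
          (opLe_Jr _ (opLe_RR hRs hRo)))))
    rw [card] at h1
    refine le_trans (ENNReal.toReal_mono (measure_ne_top _ _) (measure_mono_ae ?_)) h1
    filter_upwards [ae_fibM hx] with O hO hb
    by_contra hcon
    have g : ∀ k, k ∈ Icc N (N + M) → Good t (S k) (U k * O) ∧
        nv (k0 ((S k).J (U k * O)) ((S k).h (U k * O) (n + 3))
          (zh ((S k).J (U k * O)) ((S k).h (U k * O) (n + 3))) (Jr O (Rb * Rbᵀ))) ≤ κ :=
      fun k hk => by
        have h2 := fun h => hcon ⟨k, hk, h⟩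
        rw [imp_false, not_or, not_not, not_and, not_lt, Jr_inv] at h2
        exact ⟨h2.1, h2.2 h2.1⟩
    have m1 : N ∈ Icc N (N + M) := Finset.mem_Icc.2 ⟨le_rfl, by omega⟩
    have m2 : N + M ∈ Icc N (N + M) := Finset.mem_Icc.2 ⟨by omega, le_rfl⟩
    refine hb ⟨fun k hk hk' => ?_, ?_, ?_⟩
    · have k1 : k ∈ Icc N (N + M) := Finset.mem_Icc.2 ⟨hk, by omega⟩
      have k2 : k + 1 ∈ Icc N (N + M) := Finset.mem_Icc.2 ⟨by omega, by omega⟩
      have hξ : nv (O.1ᵀ *ᵥ r.2 k) ≤ n := by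
        rw [nv_eq_sqrt, sq_mulVec_orth (by rw [Matrix.transpose_transpose, OG.mul_transpose]),
          ← nv_eq_sqrt]
        exact (h0 k k1).2
      have a1 := hD (S k) (S (k + 1)) (U k * O) (U (k + 1) * O) (Jr O Rb) (sv x) (O.1ᵀ *ᵥ r.2 k)
        (h0 k k1).1.1 (g k k1).1 (h0 _ k2).1.1 (g _ k2).1 (by rw [Jr_tr, hRs]) (opLe_Jr O hRo)
        (fun i => abs_le_one_iff_mul_self_le_one.2 (sp_sq (x i)).le) hξ
        (by
          have a2 := sched_Jr O A0 dl R k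
          dsimp only at a2
          rw [eJ, eJ, a2, (hc k hk).1, (hc k hk).2])
        (by
          rw [ey, ey, ← pathU_Jr, ← pathU_Jr, pathU_succ, (hc k hk).1, (hc k hk).2, ← hO,
            OG.tr_mulVec_mulVec])
      have a3 := (g k k1).2
      unfold Dat.h at a1 a3
      rw [eJ, ey] at a3
      rw [eJ, eJ, ey, ey] at a1
      exact ⟨a1, a3, hξ⟩
    · have a1 := hs _ _ (h0 _ m1).1.1 (g _ m1).1
      rwa [eJ, ey] at a1
    · have a1 := hcen _ _ (h0 _ m2).1.1 (g _ m2).1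
      rwa [eJ, ey] at a1

end Vale.Agent.N150.Br
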