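import Vale.Agent.N150.CapRef
import Vale.Agent.N150.A1Br

/-! P150, bridge: terminal bounds are carried back through a window of length at most one on which
the reference has bounded response and bounded drift. -/

open Matrix MeasureTheory Finset

namespace Vale.Agent.N150.Br

open Vale.Agent.P150 Vale.Agent.P150.F Vale.Agent.P150.F.Ms Vale.Agent.N150.A1
open Vale.Agent.N150.Cap

variable {n m : ℕ} {S : Type} [MeasurableSpace S]

/-- good steps on the window `[N, N + M)` -/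
def GP (r : Ref n m S) (P : Proc n m S) (L E κ : ℝ) (s0 : S) (N M : ℕ) (x : Cfg n)
    (ω : ℕ → Vec m) : Prop :=
  ∀ j, N ≤ j → j < N + M → P.traj s0 x ω j ∈ r.ok ∧ ω j ∈ Box m L ∧
    r.Stp P (P.traj s0 x ω j) x (ω j) (r.mh (P.traj s0 x ω (j + 1))) E ∧
    nv (r.ka (P.traj s0 x ω j)) ≤ κ

/-- the bound of the propagator -/
noncomputable def cG (Λ : ℝ) : ℝ := Real.exp (2 * Λ)

/-- the bound of the squared remainder -/
noncomputable def cW (Λ C κ : ℝ) : ℝ := (cG Λ * (C + κ + 1)) ^ 2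

/-- the amplification constant -/
noncomputable def cB (Λ C κ : ℝ) : ℝ :=
  (1 + 6 * cW Λ C κ) * (Real.exp (6 * cW Λ C κ) * (1 + 3 / 2 * cG Λ ^ 2)) + 3 * cG Λ ^ 2

/-- the crude bound -/
noncomputable def cC (n M : ℕ) (Λ K L : ℝ) : ℝ :=
  cG Λ ^ 2 * (1 + (2 * √n + M * Ref.rho n K L 1) ^ 2)

/-- standing hypotheses on the window -/
structure Win (r : Ref n m S) (P : Proc n m S) (Lay : ℕ → Set S) (s0 : S) (N M : ℕ)
    (K d δ Λ L E lam : ℝ) : Prop where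
  ok : r.OK P K d
  mh1 : ∀ s i, |r.mh s i| ≤ 1
  hLay : ∀ k s z, s ∈ Lay k → P.nxt s z ∈ Lay (k + 1)
  hs0 : s0 ∈ Lay 0
  hδ : ∀ j, N ≤ j → ∀ s ∈ Lay j, P.δ s = δ
  hR : ∀ j, N ≤ j → ∀ s ∈ Lay j, ∀ a b, |P.R s a b| ≤ 1
  hQ : ∀ j, N ≤ j → ∀ s ∈ Lay j, ∀ v, qf (P.Q s) v ≤ F.sq v
  hG : ∀ s ∈ r.ok, OpLe (r.G s * P.Q s) Λ
  hΛ : 0 ≤ Λ
  hL : 0 ≤ L
  δ0 : 0 < δ
  Mδ : M * δ ≤ 1
  δΛ : δ * Λ ≤ 1 / 2
  err : M * ((|E| + 8 * (δ * K) * Real.exp (m / 2 - L ^ 2 / 8)) * √n) ≤ 1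
  lam0 : 0 < lam
  hlam : (m : ℝ) * (n * 1) ≤ lam
  lamδ : lam ^ 2 * δ ≤ 1

theorem PE_not_le {μ : Cfg n → ℝ} (hμ : ∀ x, 0 ≤ μ x) {A B : Cfg n → (ℕ → Vec m) → Prop} {p : ℝ}
    (hp : PE μ (fun x ω => ¬A x ω) ≤ p) (h : ∀ x ω, A x ω → B x ω) :
    PE μ (fun x ω => ¬B x ω) ≤ p :=
  le_trans (PE_mono hμ fun x ω hb ha => hb (h x ω ha)) hp

theorem one_le_cG {Λ : ℝ} (h : 0 ≤ Λ) : 1 ≤ cG Λ := Real.one_le_exp (by linarith)

theorem cW_nonneg (Λ C κ : ℝ) : 0 ≤ cW Λ C κ := sq_nonneg _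

theorem cC_nonneg (n M : ℕ) (Λ K L : ℝ) : 0 ≤ cC n M Λ K L := by unfold cC; positivity

theorem le_cB (Λ C κ : ℝ) : (1 + 6 * cW Λ C κ) * Real.exp (6 * cW Λ C κ) ≤ cB Λ C κ := by
  have h1 := cW_nonneg Λ C κ
  have h2 : 0 ≤ (1 + 6 * cW Λ C κ) * Real.exp (6 * cW Λ C κ) * cG Λ ^ 2 := by positivity
  have h3 := sq_nonneg (cG Λ)
  unfold cB
  linarith

theorem one_le_cB (Λ C κ : ℝ) : 1 ≤ cB Λ C κ := by
  have h1 := cW_nonneg Λ C κ
  have h2 : 1 ≤ Real.exp (6 * cW Λ C κ) := Real.one_le_exp (by linarith)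
  exact le_trans (one_le_mul_of_one_le_of_one_le (by linarith) h2) (le_cB Λ C κ)

namespace Win

variable {r : Ref n m S} {P : Proc n m S} {Lay : ℕ → Set S} {s0 : S} {N M : ℕ}
  {K d δ Λ L E lam : ℝ} (h : Win r P Lay s0 N M K d δ Λ L E lam)

include h

theorem mT_eq : r.mT K = r.mh :=
  funext fun s => r.mT_eq fun i => (h.mh1 s i).trans h.ok.K1

theorem one_le_al : 1 ≤ (1 - δ * Λ)⁻¹ :=
  (one_le_inv₀ (by linarith [h.δΛ])).2 (by linarith [mul_nonneg h.δ0.le h.hΛ])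

theorem step {j : ℕ} (hj : N ≤ j) {s : S} (hs : s ∈ Lay j) (v : Vec n) :
    nv (r.A P 1 s *ᵥ v) ≤ (1 - δ * Λ)⁻¹ * nv v := by
  have h1 := h.ok.step_op one_pos le_rfl (s := s) h.hΛ
    (by rw [h.hδ j hj s hs]; linarith [h.δΛ]) (h.hG s) v
  rwa [h.hδ j hj s hs] at h1

theorem pow_le {j : ℕ} (hj : j ≤ M) : (1 - δ * Λ)⁻¹ ^ j ≤ cG Λ := by
  have h0 := mul_nonneg h.δ0.le h.hΛ
  have h1 := prod_inv_le (a := fun _ => δ * Λ) (k := 0) (N := j) (fun _ _ => h0)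
    (fun _ _ => h.δΛ)
  rw [Finset.prod_const, Finset.sum_const, Nat.card_Ico, Nat.sub_zero, nsmul_eq_mul] at h1
  refine h1.trans (Real.exp_le_exp.2 ?_)
  have h2 : (j : ℝ) * δ ≤ M * δ := mul_le_mul_of_nonneg_right (by exact_mod_cast hj) h.δ0.le
  have h3 := mul_le_mul_of_nonneg_right (h2.trans h.Mδ) h.hΛ
  linarith

theorem mem_traj (x : Cfg n) (ω : ℕ → Vec m) (k : ℕ) : P.traj s0 x ω k ∈ Lay k := by
  have h1 := traj_mem P h.hLay h.hs0 x ω k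
  rwa [Nat.zero_add] at h1

theorem nv_Ph {k : ℕ} (hk : N ≤ k) (hk' : k ≤ N + M) {s : S} (hs : s ∈ Lay k) (x : Cfg n)
    (ω : ℕ → Vec m) (v : Vec n) :
    nv (Phi P (r.A P 1) (N + M - k) s x ω *ᵥ v) ≤ cG Λ * nv v := by
  have h1 := crude_Phi P (L := fun _ => (1 : Mat n)) (al := fun _ => (1 - δ * Λ)⁻¹) (k0 := N)
    (N := N + M) h.hLay (fun _ => h.one_le_al)
    (fun j hj _ s hs z v => by simp only [Matrix.one_mulVec]; exact h.step hj hs v) x hk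
    (r := N + M - k) (by omega) hs ω v
  simp only [Matrix.one_mulVec] at h1
  rw [Finset.prod_const, Nat.card_Ico] at h1
  exact h1.trans (mul_le_mul_of_nonneg_right (h.pow_le (by omega)) (nv_nonneg v))

theorem nv_W {k : ℕ} (hk : N ≤ k) (hk' : k ≤ N + M) {s : S} (hs : s ∈ Lay k) (x : Cfg n)
    (ω : ℕ → Vec m) : nv (Wf P (r.A P 1) (eN P (r.mT K)) (r.rem P K L 1) (N + M - k) s x ω)
      ≤ cG Λ * (2 * √n + M * Ref.rho n K L 1) := by
  have K0 := h.ok.K0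
  have hL := h.hL
  have hρ : 0 ≤ Ref.rho n K L 1 := by unfold Ref.rho; positivity
  have h1 := crude_W P (L := fun _ => (1 : Mat n)) (al := fun _ => (1 - δ * Λ)⁻¹) (k0 := N)
    (N := N + M) (e := eN P (r.mT K)) (ρ := fun _ => Ref.rho n K L 1) h.hLay
    (fun _ => h.one_le_al) (fun _ => hρ)
    (fun j hj _ s hs z v => by simp only [Matrix.one_mulVec]; exact h.step hj hs v) (x := x)
    (fun j _ _ s _ ξ => by
      simp only [Matrix.one_mulVec]; exact h.ok.nv_rem hL one_pos le_rfl s x ξ)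
    (N + M - k) k hk (by omega) s hs ω
  simp only [Matrix.one_mulVec] at h1
  rw [Finset.prod_const, Finset.sum_const, Nat.card_Ico, nsmul_eq_mul] at h1
  have h2 : nv (eN P (r.mT K) (P.traj s x ω (N + M - k)) x) ≤ (1 + 1) * √n := by
    rw [h.mT_eq]; exact nv_eN_le P h.mh1 zero_le_one _ x
  have h3 : ((N + M - k : ℕ) : ℝ) * Ref.rho n K L 1 ≤ M * Ref.rho n K L 1 :=
    mul_le_mul_of_nonneg_right (by exact_mod_cast (by omega : N + M - k ≤ M)) hρ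
  refine h1.trans (mul_le_mul (h.pow_le (by omega)) (by linarith)
    (add_nonneg (nv_nonneg _) (by positivity)) (zero_le_one.trans (one_le_cG h.hΛ)))

/-- the remainder along a good path -/
theorem nv_W_good {κ C : ℝ} (hκ : 0 ≤ κ) (hC : 0 ≤ C) {x : Cfg n} {ω : ℕ → Vec m}
    (hg : GP r P L E κ s0 N M x ω) (he : nv (eN P r.mh (P.traj s0 x ω (N + M)) x) ≤ C)
    {k : ℕ} (hk : N ≤ k) (hk' : k ≤ N + M) :
    nv (Wf P (r.A P 1) (eN P (r.mT K)) (r.rem P K L 1) (N + M - k) (P.traj s0 x ω k) x (shS k ω))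
      ≤ cG Λ * (C + κ + 1) := by
  set e := (|E| + 8 * (δ * K) * Real.exp (m / 2 - L ^ 2 / 8)) * √n with hed
  have hδ := h.δ0.le
  have K0 := h.ok.K0
  have he0 : 0 ≤ e := by positivity
  have hal := h.one_le_al
  have key : ∀ j k, N ≤ k → k + j = N + M →
      nv (Wf P (r.A P 1) (eN P (r.mT K)) (r.rem P K L 1) j (P.traj s0 x ω k) x (shS k ω))
        ≤ (1 - δ * Λ)⁻¹ ^ j * (C + j * (δ * κ + e)) := by
    intro j
    induction j with
    | zero =>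
      intro k _ hk
      obtain rfl : k = N + M := by omega
      simpa [Wf, h.mT_eq] using he
    | succ j ih =>
      intro k hk hkj
      obtain ⟨a1, a2, a3, a4⟩ := hg k hk (by omega)
      have b1 := ih (k + 1) (by omega) (by omega)
      have b2 := h.ok.nv_src h.hL 1 a1 a2 (fun i => (h.mh1 _ i).trans h.ok.K1)
        (fun i => (h.mh1 _ i).trans h.ok.K1) a3
      rw [← P.traj_succ, sub_self, sub_zero, h.hδ k hk _ (h.mem_traj x ω k)] at b2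
      have b3 := nv_add_le (r.rem P K L 1 (P.traj s0 x ω k) x (ω k) - δ • r.ka (P.traj s0 x ω k))
        (δ • r.ka (P.traj s0 x ω k))
      rw [sub_add_cancel, nv_smul, abs_of_nonneg hδ] at b3
      have b4 := mul_le_mul_of_nonneg_left a4 hδ
      have b5 : 1 ≤ (1 - δ * Λ)⁻¹ ^ j := one_le_pow₀ hal
      have b6 : 0 ≤ δ * κ + e := by positivity
      have b7 := mul_le_mul_of_nonneg_right b5 b6
      rw [Wf_path]
      refine (h.step hk (h.mem_traj x ω k) _).trans ?_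
      rw [pow_succ', mul_assoc]
      refine mul_le_mul_of_nonneg_left ((nv_add_le _ _).trans ?_) (zero_le_one.trans hal)
      push_cast
      linarith
  refine (key (N + M - k) k hk (by omega)).trans (mul_le_mul (h.pow_le (by omega)) ?_
    (by positivity) (zero_le_one.trans (one_le_cG h.hΛ)))
  have h3 : ((N + M - k : ℕ) : ℝ) ≤ M := by exact_mod_cast (by omega : N + M - k ≤ M)
  have h4 := mul_le_mul_of_nonneg_right h3 (show 0 ≤ δ * κ + e by positivity)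
  have h5 := mul_le_mul_of_nonneg_right h.Mδ hκ
  have h6 := h.err
  linarith

theorem sq_le {v : Vec n} {c : ℝ} (hv : nv v ≤ c) : F.sq v ≤ c ^ 2 := by
  have _h := h
  rw [← nv_sq]
  exact pow_le_pow_left₀ (nv_nonneg v) hv 2

theorem dq_le {j : ℕ} (hj : N ≤ j) {s : S} (hs : s ∈ Lay j) {v : Vec n} {c : ℝ} (hv : nv v ≤ c) :
    P.δ s * qf (P.Q s) v ≤ δ * c ^ 2 := by
  rw [h.hδ j hj s hs]
  exact mul_le_mul_of_nonneg_left ((h.hQ j hj s hs v).trans (h.sq_le hv)) h.δ0.le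

theorem c1 (v : Vec n) : (cG Λ * nv v) ^ 2 = cG Λ ^ 2 * F.sq v := by
  have _h := h
  rw [mul_pow, nv_sq]

theorem c2 (v : Vec n) : (cG Λ * nv v) ^ 2 ≤ cC n M Λ K L * F.sq v := by
  rw [h.c1]
  exact mul_le_mul_of_nonneg_right (le_mul_of_one_le_right (sq_nonneg _)
    (le_add_of_nonneg_right (sq_nonneg _))) (sq_nonneg' v)

theorem c3 : (cG Λ * (2 * √(n : ℝ) + M * Ref.rho n K L 1)) ^ 2 ≤ cC n M Λ K L := by
  have _h := h
  rw [mul_pow]
  exact mul_le_mul_of_nonneg_left (le_add_of_nonneg_left zero_le_one) (sq_nonneg _)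

theorem track {κ C p : ℝ} (hκ : 0 ≤ κ) (hC : 0 ≤ C)
    (hp : PE (P.law s0) (fun x ω => ¬(GP r P L E κ s0 N M x ω ∧
      nv (eN P r.mh (P.traj s0 x ω (N + M)) x) ≤ C)) ≤ p) :
    Track P (r.A P 1) (r.mT K) (r.rem P K L 1) Lay s0 N (N + M) 1 lam δ (cC n M Λ K L)
      (fun _ => δ * cG Λ ^ 2) (fun _ => δ * cW Λ C κ) (fun _ => p) where
  hA := h.ok.bm_A one_pos le_rfl
  hmh := h.ok.bm_mT
  hr := h.ok.bm_rem h.hL one_pos le_rfl
  hLay := h.hLay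
  hs0 := h.hs0
  hk := Nat.le_add_right N M
  hId _ _ _ s _ := h.ok.idOn h.hL one_pos s
  hC := zero_le_one
  hlam0 := h.lam0
  hlam := h.hlam
  hd := h.lamδ
  hR k hk _ s hs := ⟨h.hR k hk s hs, (h.hδ k hk s hs).le⟩
  hB := cC_nonneg n M Λ K L
  crude k hk hk' s hs x ω := by
    have d1 : δ ≤ 1 := by rw [← h.hδ k hk s hs]; exact P.hδ1 s
    exact ⟨fun v => (h.dq_le hk hs (h.nv_Ph hk hk'.le hs x ω v)).trans
        ((mul_le_of_le_one_left (sq_nonneg _) d1).trans (h.c2 v)),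
      (h.dq_le hk hs (h.nv_W hk hk'.le hs x ω)).trans
        ((mul_le_of_le_one_left (sq_nonneg _) d1).trans h.c3)⟩
  hl _ := mul_nonneg h.δ0.le (sq_nonneg _)
  hmm _ := mul_nonneg h.δ0.le (sq_nonneg _)
  good k hk hk' := by
    refine PE_not_le (P.law_isProb s0).1 hp fun x ω hg => ?_
    have hs := h.mem_traj x ω k
    refine ⟨fun v => ?_, h.dq_le hk hs (h.nv_W_good hκ hC hg.1 hg.2 hk hk'.le)⟩
    have h1 := h.dq_le hk hs (h.nv_Ph hk hk'.le hs x (shS k ω) v)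
    rwa [h.c1, ← mul_assoc] at h1

theorem test {κ C p : ℝ} (hκ : 0 ≤ κ) (hC : 0 ≤ C)
    (hp : PE (P.law s0) (fun x ω => ¬(GP r P L E κ s0 N M x ω ∧
      nv (eN P r.mh (P.traj s0 x ω (N + M)) x) ≤ C)) ≤ p) :
    Test P (r.A P 1) (r.mT K) (r.rem P K L 1) Lay s0 N (N + M) (fun _ => (1 : Mat n))
      (cC n M Λ K L) (cG Λ ^ 2) (cW Λ C κ) p where
  hA := h.ok.bm_A one_pos le_rfl
  hmh := h.ok.bm_mT
  hr := h.ok.bm_rem h.hL one_pos le_rfl
  hLay := h.hLay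
  hs0 := h.hs0
  hk := Nat.le_add_right N M
  hId _ _ _ s _ := h.ok.idOn h.hL one_pos s
  hRt _ _ := BM.const _
  hB := cC_nonneg n M Λ K L
  hl := sq_nonneg _
  hM := sq_nonneg _
  crude s hs x ω := by
    simp only [Matrix.one_mulVec]
    exact ⟨fun v => (h.sq_le (h.nv_Ph le_rfl (Nat.le_add_right N M) hs x ω v)).trans (h.c2 v),
      (h.sq_le (h.nv_W le_rfl (Nat.le_add_right N M) hs x ω)).trans h.c3⟩
  good := by
    refine PE_not_le (P.law_isProb s0).1 hp fun x ω hg => ?_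
    simp only [Matrix.one_mulVec]
    exact ⟨fun v => (h.sq_le (h.nv_Ph le_rfl (Nat.le_add_right N M) (h.mem_traj x ω N) x
      (shS N ω) v)).trans (h.c1 v).le,
      h.sq_le (h.nv_W_good hκ hC hg.1 hg.2 le_rfl (Nat.le_add_right N M))⟩

/-- **the bridge, soft part** -/
theorem back {κ C C' θ p : ℝ} (hκ : 0 ≤ κ) (hC : 0 ≤ C) (hC' : 0 ≤ C') (hθ : 0 ≤ θ)
    (hsm : δ * cW Λ C κ ≤ 1 / 6) {Gd : Set S} (hGd : MeasurableSet Gd)
    (hT : ∀ s ∈ Gd, End.Term C' θ (P.law s))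
    (hp : PE (P.law s0) (fun x ω => ¬(GP r P L E κ s0 N M x ω ∧ P.traj s0 x ω (N + M) ∈ Gd ∧
      nv (eN P r.mh (P.traj s0 x ω (N + M)) x) ≤ C)) ≤ p) :
    TermAt P s0 N (cB Λ C κ * C')
      (cB Λ C κ * (θ + (18 * (n + 1) * (M + 1) * (cC n M Λ K L + 1)) * p))
      (cB Λ C κ * (K0 * lam ^ 3 * √δ)) ∧
    PE (P.law s0) (fun x ω => cW Λ C κ + 1 < F.sq (eN P r.mh (P.traj s0 x ω N) x))
      ≤ cC n M Λ K L * p := by
  have hμ := (P.law_isProb s0).1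
  have hp0 : 0 ≤ p :=
    le_trans (Finset.sum_nonneg fun x _ => mul_nonneg (hμ x) measureReal_nonneg) hp
  have hδ := h.δ0.le
  have hB := cC_nonneg n M Λ K L
  have hW := cW_nonneg Λ C κ
  have hp' : PE (P.law s0) (fun x ω => ¬(GP r P L E κ s0 N M x ω ∧
      nv (eN P r.mh (P.traj s0 x ω (N + M)) x) ≤ C)) ≤ p :=
    PE_not_le hμ hp fun x ω hg => ⟨hg.1, hg.2.2⟩
  have htr := h.track hκ hC hp'
  have hte := h.test hκ hC hp'
  have hta := termAt_of_term P hGd hC' hθ hT (s0 := s0) (N := N + M) (p := p)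
    (PE_not_le hμ hp fun x ω hg => hg.2.1)
  have e0 : ((N + M - N : ℕ) : ℝ) = M := by rw [Nat.add_sub_cancel_left]
  have s1 : ∀ a : ℝ, ∑ _j ∈ Ico N (N + M), a = M * a := fun a => by
    rw [Finset.sum_const, Nat.card_Ico, nsmul_eq_mul, e0]
  have s2 : ∀ a : ℝ, 0 ≤ a → (M : ℝ) * (δ * a) ≤ a := fun a ha => by
    have := mul_le_mul_of_nonneg_right h.Mδ ha
    linarith
  have hfin := htr.term (fun _ _ _ => hsm) hte hta hC' (by positivity) le_rfl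
    (E := Real.exp (6 * cW Λ C κ))
    (C1 := Real.exp (6 * cW Λ C κ) * (1 + 3 / 2 * cG Λ ^ 2))
    (by rw [s1]; exact Real.exp_le_exp.2 (by linarith [s2 _ hW]))
    (by
      rw [s1]
      exact mul_le_mul_of_nonneg_left (by linarith [s2 _ (sq_nonneg (cG Λ))]) (Real.exp_pos _).le)
  refine ⟨hfin.mono le_rfl ?_ ?_, ?_⟩
  · rw [s1]
    have f0 := one_le_cB Λ C κ
    have f1 := le_cB Λ C κ
    have hn : (0 : ℝ) ≤ n := Nat.cast_nonneg n
    have hM : (0 : ℝ) ≤ M := Nat.cast_nonneg M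
    have f2 := mul_le_mul_of_nonneg_right f1
      (show 0 ≤ 6 * ((n : ℝ) + 1) * cC n M Λ K L * (M * p) by positivity)
    have f3 := mul_le_mul_of_nonneg_right f0
      (show 0 ≤ 12 * ((n : ℝ) + 1) * cC n M Λ K L * p by positivity)
    have f4 : (4 * (n : ℝ) + 2) * p + 6 * (n + 1) * cC n M Λ K L * (M * p)
        + 12 * (n + 1) * cC n M Λ K L * p ≤ 18 * (n + 1) * (M + 1) * (cC n M Λ K L + 1) * p := by
      have g1 : 0 ≤ ((n : ℝ) + 1) * cC n M Λ K L * (M * p) := by positivity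
      have g2 : 0 ≤ ((n : ℝ) + 1) * cC n M Λ K L * p := by positivity
      have g3 : 0 ≤ ((n : ℝ) + 1) * (M * p) := by positivity
      have g4 : 0 ≤ (n : ℝ) * p := by positivity
      linarith
    have f5 := mul_le_mul_of_nonneg_left f4 (zero_le_one.trans f0)
    have e1 : (1 + 6 * cW Λ C κ) * (Real.exp (6 * cW Λ C κ) * (1 + 3 / 2 * cG Λ ^ 2))
        + 3 * cG Λ ^ 2 = cB Λ C κ := rfl
    rw [e1]
    linarith
  · rw [mul_zero, zero_add, e0]
    have hK0 := K0_nonneg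
    have hl := h.lam0.le
    have f1 : (M : ℝ) * (K0 * lam ^ 3 * (δ * √δ)) ≤ K0 * lam ^ 3 * √δ := by
      have := s2 (K0 * lam ^ 3 * √δ) (by positivity)
      linarith
    exact mul_le_mul (le_cB Λ C κ) f1 (by positivity) (zero_le_one.trans (one_le_cB Λ C κ))
  · have h9 := hte.tail
    simp only [Matrix.one_mulVec] at h9
    rwa [h.mT_eq] at h9

end Win

end Vale.Agent.N150.Br
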