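import Vale.Agent.N150.KBDef
import Vale.Agent.N150.T1Def

/-! The source bound on the fibre of the base program of T1: statements. -/

namespace Vale.Agent.N150.KB

open Matrix MeasureTheory Set
open Vale.Agent.P150 Vale.Agent.P150.F
open Vale.Agent.N150.EC (wb k0)
open Vale.Agent.N150.T1
open Vale.Agent.N150.Wd (fr)

/-- **[KB-det]** the hypotheses of `KBStmt` at the points near the reference point, with
`B = t⁻¹ ^ 300000`, `B1 = t⁻¹ ^ 200`, `B2 = t⁻¹ ^ 144300` -/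
def KBDetStmt : Prop := Ev fun L t => ∀ (n : ℕ) (S : Dat n) (O : OG n), Adm L t S → Good t S O →
  (∀ h : Vec n, nv (h - S.hc t O) ≤ √n * t ^ 252000 / 2 →
    Pt (t⁻¹ ^ 300000) (t⁻¹ ^ 200) (t⁻¹ ^ 144300) (S.J O) h (zh (S.J O) h) ∧
    Gd (t⁻¹ ^ 300000) (t⁻¹ ^ 200) (t⁻¹ ^ 144300) (S.J O) h (zh (S.J O) h)) ∧
  (∀ h h' : Vec n, nv (h - S.hc t O) ≤ √n * t ^ 252000 / 2 →
    nv (h' - S.hc t O) ≤ √n * t ^ 252000 / 2 →
    |zh (S.J O) h - zh (S.J O) h'| ≤ t⁻¹ ^ 300000 * |wb h - wb h'|) ∧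
  ∀ j, nv (S.h O (j + 3) - S.hc t O) ≤ √n * t ^ 252000 / 2

/-- **[KB-T1]** = T2 on the bridge = T2-LITE: for every frame precision `Qt`, the source at the
Picard iterates is bounded by a power of `t⁻¹` -/
def KBT1Stmt : Prop := ∃ C p : ℕ, Ev fun L t => ∀ (n : ℕ) (S : Dat n) (x xt : Vec n)
  (μ : Measure (OG n)) (Qt : Mat n) (j : ℕ), Adm L t S → AdmX L t S xt → FibL μ x xt →
  Qtᵀ = Qt → OpLe Qt t⁻¹ →
    μ.real {O | t⁻¹ ^ p < nv (k0 (S.J O) (S.h O (j + 3)) (zh (S.J O) (S.h O (j + 3))) (fr Qt O))} ≤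
      (n : ℝ) ^ C * Real.exp (-(n * t ^ 431998))

end Vale.Agent.N150.KB
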