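import Vale.Agent.N150.BrDef
import Vale.Agent.N150.KBT1Def

set_option linter.all false

/-! The source bound on the bridge from the source bound on the fibre of T1. -/

namespace Vale.Agent.N150.Br

open Matrix MeasureTheory Set Filter Topology
open Vale.Agent.P150 Vale.Agent.P150.F
open Vale.Agent.N150.T1 Vale.Agent.N150.KB

theorem ev_pow_exp (C : ℕ) {a : ℝ} (ha : 0 < a) :
    ∀ᶠ n : ℕ in atTop, (n : ℝ) ^ C * Real.exp (-(n * a)) ≤ Real.exp (-(a / 2 * n)) := by
  have h1 : Tendsto (fun x : ℝ => x ^ C * Real.exp (-x)) atTop (𝓝 0) :=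
    Real.tendsto_pow_mul_exp_neg_atTop_nhds_zero C
  have h2 : Tendsto (fun n : ℕ => a / 2 * (n : ℝ)) atTop atTop :=
    tendsto_natCast_atTop_atTop.const_mul_atTop (by positivity)
  have h3 := (h1.comp h2).eventually (gt_mem_nhds (by positivity : (0 : ℝ) < (a / 2) ^ C))
  filter_upwards [h3] with n hn
  simp only [Function.comp, mul_pow] at hn
  have h4 : (n : ℝ) ^ C * Real.exp (-(a / 2 * n)) ≤ 1 := by
    have h5 : (0 : ℝ) < (a / 2) ^ C := by positivity
    rw [mul_assoc] at hn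
    exact ((mul_lt_iff_lt_one_right h5).1 hn).le
  have e : Real.exp (-(n * a)) = Real.exp (-(a / 2 * n)) * Real.exp (-(a / 2 * n)) := by
    rw [← Real.exp_add]
    congr 1
    ring
  rw [e, ← mul_assoc]
  exact mul_le_of_le_one_left (Real.exp_pos _).le h4

theorem kbb_of (h : KBT1Stmt) : KBB := by
  obtain ⟨C, p, h⟩ := h
  intro L hL
  have ht2 : ∀ᶠ t in 𝓝[>] (0 : ℝ), t ∈ Ioo (0 : ℝ) 1 := Ioo_mem_nhdsGT (by norm_num)
  filter_upwards [h L hL, ht2] with t h ht
  obtain ⟨ht0, ht1⟩ := ht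
  refine ⟨t⁻¹ ^ p, by positivity, t ^ 431998 / 2, by positivity, ?_⟩
  filter_upwards [ev_pow_exp C (pow_pos ht0 431998)] with n hn S x xt μ Q hA hAX hF hQ hQb
  have := hF.prob
  have hti : (1 : ℝ) ≤ t⁻¹ := one_le_inv_iff₀.2 ⟨ht0, ht1.le⟩
  have h2 := h n S x xt μ Q n hA hAX hF hQ (hQb.monoN (by norm_num) hti)
  refine le_trans (measureReal_mono ?_ (measure_ne_top _ _)) (h2.trans hn)
  intro O hO
  exact hO.2

end Vale.Agent.N150.Br
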