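import Vale.Agent.N150.BrFib
import Vale.Agent.N150.BrKB

/-! P150, bridge: the terminal bound at the end of the cap flow. -/

open Matrix MeasureTheory Finset Filter Topology

namespace Vale.Agent.N150.Br

open Vale.Agent.P150 Vale.Agent.P150.F Vale.Agent.P150.F.Ms Vale.Agent.N150.A1
open Vale.Agent.N150.Cap Vale.Agent.N150.EC Vale.Agent.N150.T1 Vale.Agent.N150.Plant
open Vale.Agent.N150.Sp

variable {n : ℕ}

/-! ### two schedules which agree before the time `N` -/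

theorem path_congr {dl dl' : ℕ → ℝ} {R R' : ℕ → Mat n} {k : ℕ}
    (h : ∀ i < k, dl i = dl' i ∧ R i = R' i) (u : Vec n) (ω : ℕ → Vec n) :
    QS dl R k = QS dl' R' k ∧ pathU dl R u ω k = pathU dl' R' u ω k := by
  induction k with
  | zero => exact ⟨rfl, rfl⟩
  | succ k ih =>
    obtain ⟨a, b⟩ := ih fun i hi => h i (by omega)
    obtain ⟨c, d⟩ := h k (by omega)
    rw [QS_succ, QS_succ, pathU_succ, pathU_succ, a, b, c, d]
    exact ⟨rfl, rfl⟩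

theorem switch {dl dl' : ℕ → ℝ} (h : Steps dl) (h' : Steps dl') {J R J' R' : ℕ → Mat n}
    (hS : Sched dl J R) (hS' : Sched dl' J' R') {N : ℕ} (hJ : J 0 = J' 0)
    (hR : ∀ i < N, dl i = dl' i ∧ R i = R' i) {CT θ ζ : ℝ} (sel : Mat n → Vec n → Vec n) :
    (TermAt (up n h') (stS J' R' 0 0) N CT θ ζ → TermAt (up n h) (stS J R 0 0) N CT θ ζ) ∧
    ∀ x ω, eS sel ((up n h).traj (stS J R 0 0) x ω N)
      = eS sel ((up n h').traj (stS J' R' 0 0) x ω N) := by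
  have e1 : ∀ x ω, sJ ((up n h).traj (stS J R 0 0) x ω N)
      = sJ ((up n h').traj (stS J' R' 0 0) x ω N) := fun x ω => by
    rw [hS.traj0, hS'.traj0, sJ_stS, sJ_stS, hS.J_eq, hS'.J_eq N, hJ]
    exact congrArg _ (path_congr hR 0 ω).1
  have e2 : ∀ x ω, sy ((up n h).traj (stS J R 0 0) x ω N)
      = sy ((up n h').traj (stS J' R' 0 0) x ω N) := fun x ω => by
    rw [hS.traj0, hS'.traj0, sy_stS, sy_stS, pathY_eq, pathY_eq]
    exact (path_congr hR _ ω).2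
  have e3 : ∀ x ω, (up n h).law ((up n h).traj (stS J R 0 0) x ω N)
      = (up n h').law ((up n h').traj (stS J' R' 0 0) x ω N) := fun x ω => by
    rw [up_law, up_law, e1, e2]
  have e0 : (up n h).law (stS J R 0 0) = (up n h').law (stS J' R' 0 0) := by
    rw [up_law, up_law, sJ_stS, sJ_stS, hJ]; rfl
  refine ⟨fun hT f Fm hF hf hfF => ?_, fun x ω => by unfold eS; rw [e1, e2]⟩
  have h1 := hT f Fm hF hf hfF
  rw [it_eq_ET _ (Proc.bm_ent _ hf), it_eq_ET _ (bm_errU _ hf)] at h1 ⊢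
  unfold errU A1.uu Proc.ent Proc.ep Proc.nuf Proc.wt at h1 ⊢
  simp only [e3, e0]
  exact h1

theorem QS_Jr (O : OG n) (dl : ℕ → ℝ) (R : ℕ → Mat n) (k : ℕ) :
    QS dl (fun j => Jr O (R j)) k = Jr O (QS dl R k) := by
  unfold QS
  simp only [Jr_RR, ← Jr_smul]
  unfold Jr
  rw [Matrix.mul_sum, Matrix.sum_mul]

/-! ### the schedule of the bridge -/

open scoped MatrixOrder in
theorem exists_rt {Q : Mat n} (hs : Qᵀ = Q) (hQ : ∀ v, 0 ≤ qf Q v) :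
    ∃ R : Mat n, Rᵀ = R ∧ R * Rᵀ = Q := by
  have hpsd : Q.PosSemidef := by
    refine Matrix.PosSemidef.of_dotProduct_mulVec_nonneg ?_ fun v => ?_
    · rwa [Matrix.IsHermitian, Matrix.conjTranspose_eq_transpose_of_trivial]
    · rw [star_trivial]
      exact hQ v
  have h1 := (CFC.sqrt_nonneg Q).posSemidef.isHermitian
  rw [Matrix.IsHermitian, Matrix.conjTranspose_eq_transpose_of_trivial] at h1
  exact ⟨_, h1, by rw [h1]; exact CFC.sqrt_mul_sqrt_self Q hpsd.nonneg⟩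

theorem exists_sched {lam : Vec n} {t : ℕ → ℝ} {d : ℝ} (hG : Grid lam t d) (N : ℕ) {M : ℕ}
    (hM : 0 < M) {Q : Mat n} (hs : Qᵀ = Q) (h1 : ∀ v, qf (diagonal (pr lam (t N))) v ≤ qf Q v)
    (h2 : ∀ v, qf Q v ≤ F.sq v) :
    ∃ (dl : ℕ → ℝ) (R : ℕ → Mat n) (Rb : Mat n), Steps dl ∧
      (∀ j, N ≤ j → dl j = (M : ℝ)⁻¹ ∧ R j = Rb) ∧
      (∀ i < N, t (i + 1) - t i = dl i ∧ diagonal (dI lam (t i)) = R i) ∧ Rbᵀ = Rb ∧ OpLe Rb 1 ∧
      QS dl R (N + M) = Q ∧ ∀ k, N ≤ k → k ≤ N + M → ∀ v,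
        qf (diagonal (pr lam (t N))) v ≤ qf (QS dl R k) v ∧ qf (QS dl R k) v ≤ qf Q v := by
  have M1 : (1 : ℝ) ≤ M := by exact_mod_cast hM
  have hD : ∀ v, 0 ≤ qf (Q - diagonal (pr lam (t N))) v := fun v => by
    rw [Adm.qf_sub']; linarith [h1 v]
  obtain ⟨Rb, hR1, hR2⟩ := exists_rt
    (by rw [Matrix.transpose_sub, hs, Matrix.diagonal_transpose]) hD
  obtain ⟨dl, hdl⟩ : ∃ dl : ℕ → ℝ, ∀ k, dl k = if k < N then t (k + 1) - t k else (M : ℝ)⁻¹ :=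
    ⟨_, fun _ => rfl⟩
  obtain ⟨R, hR⟩ : ∃ R : ℕ → Mat n, ∀ k, R k = if k < N then diagonal (dI lam (t k)) else Rb :=
    ⟨_, fun _ => rfl⟩
  have a1 : ∀ j, N ≤ j → dl j = (M : ℝ)⁻¹ ∧ R j = Rb := fun j hj => by
    rw [hdl, hR, if_neg (by omega), if_neg (by omega)]; exact ⟨rfl, rfl⟩
  have a2 : ∀ i < N, t (i + 1) - t i = dl i ∧ diagonal (dI lam (t i)) = R i := fun i hi => by
    rw [hdl, hR, if_pos hi, if_pos hi]; exact ⟨rfl, rfl⟩
  have a3 : ∀ j : ℕ, QS dl R (N + j)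
      = diagonal (pr lam (t N)) + (j * (M : ℝ)⁻¹) • (Q - diagonal (pr lam (t N))) := fun j => by
    induction j with
    | zero =>
      rw [Nat.add_zero, ← (path_congr a2 0 0).1, ← nzM_QS fun j => (hG.step_pos j).le,
        Adm.nzM_cap hG]
      simp
    | succ j ih =>
      rw [← Nat.add_assoc, QS_succ, ih, (a1 _ (by omega)).1, (a1 _ (by omega)).2, hR2, add_assoc,
        ← add_smul]
      push_cast
      rw [add_mul, one_mul]
  refine ⟨dl, R, Rb, fun k => ?_, a1, a2, hR1, fun v => ?_, ?_, fun k hk hk' v => ?_⟩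
  · rw [hdl]
    split_ifs
    · exact hG.steps k
    · exact ⟨by positivity, inv_le_one_of_one_le₀ M1⟩
  · have b1 : F.sq (Rb *ᵥ v) = qf (Q - diagonal (pr lam (t N))) v := by
      rw [← hR2]
      unfold qf
      rw [← Matrix.mulVec_mulVec, hR1, ← Plant.ip_tr, hR1, ipN_self]
    have b2 : 0 ≤ qf (diagonal (pr lam (t N))) v := by
      rw [Adm.qf_diag]
      exact Finset.sum_nonneg fun a _ => mul_nonneg (pr_nonneg _ _ a) (sq_nonneg _)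
    rw [b1, Adm.qf_sub']
    linarith [h2 v]
  · rw [a3, mul_inv_cancel₀ (by positivity), one_smul, add_sub_cancel]
  · obtain ⟨j, rfl⟩ := Nat.exists_eq_add_of_le hk
    have b1 : (j : ℝ) * (M : ℝ)⁻¹ ≤ 1 := by
      rw [← div_eq_mul_inv, div_le_one (by positivity)]
      exact_mod_cast (by omega : j ≤ M)
    have b2 := mul_le_mul_of_nonneg_right b1 (hD v)
    have b3 : 0 ≤ (j : ℝ) * (M : ℝ)⁻¹ * qf (Q - diagonal (pr lam (t N))) v :=
      mul_nonneg (by positivity) (hD v)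
    have b4 : ∀ A B : Mat n, qf (A + B) v = qf A v + qf B v := fun A B => by
      unfold qf; rw [Matrix.add_mulVec, ip_add_right]
    rw [a3, b4, A1.qf_smul]
    rw [one_mul, Adm.qf_sub' Q] at b2
    rw [Adm.qf_sub' Q] at b3 ⊢
    constructor <;> linarith

/-! ### numbers -/

theorem ev_root {q : ℕ} (hq : q ≠ 0) {p : ℝ → Prop} (h : ∀ᶠ t in 𝓝[>] (0 : ℝ), p t) :
    ∃ T0 > (0 : ℝ), 100 * T0 ≤ 1 ∧ ∀ T, 0 < T → T ≤ T0 → ∃ t, t ^ q = T ∧ 0 < t ∧ p t := by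
  obtain ⟨u, hu, hs⟩ := mem_nhdsGT_iff_exists_Ioc_subset.1 h
  refine ⟨min (u ^ q) (1 / 100), lt_min (pow_pos hu _) (by norm_num),
    by linarith [min_le_right (u ^ q) (1 / 100)], fun T h0 h1 => ?_⟩
  have e : (T ^ (q : ℝ)⁻¹) ^ q = T := Real.rpow_inv_natCast_pow h0.le hq
  refine ⟨_, e, Real.rpow_pos_of_pos h0 _, hs ⟨Real.rpow_pos_of_pos h0 _, ?_⟩⟩
  refine (pow_le_pow_iff_left₀ (Real.rpow_pos_of_pos h0 _).le (le_of_lt hu) hq).1 ?_
  rw [e]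
  exact h1.trans (min_le_left _ _)

theorem num {u m B k Kp n1 θ : ℝ} (u0 : 0 < u) (m0 : 0 ≤ m) (hm : m * u ^ 4 ≤ 3) (B1 : 1 ≤ B)
    (k0 : 0 ≤ k) (K1 : 1 ≤ Kp) (N1 : 1 ≤ n1) (hθ : θ ≤ u ^ 40)
    (hW : 2000 * (B * (k + 1) * (n1 * Kp)) * u ≤ 1) :
    2 * u ≤ 1 ∧ B * (θ + 18 * n1 * m ^ 3 * Kp * (u ^ 20 + θ)) ≤ u ∧ B * (k * (Kp * u ^ 2)) ≤ u ∧
      m ^ 2 * Kp * (u ^ 20 + θ) + u ^ 20 ≤ u ∧
      m * (u ^ 40 + u ^ 40 + (u ^ 40 + u ^ 40)) ≤ u * u ^ 20 ∧ Kp * u ^ 2 ≤ 1 := by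
  have a0 : 1 ≤ n1 * Kp := one_le_mul_of_one_le_of_one_le N1 K1
  have a1 : 1 ≤ B * (n1 * Kp) := one_le_mul_of_one_le_of_one_le B1 a0
  have a2 : B * (n1 * Kp) ≤ B * (k + 1) * (n1 * Kp) := by nlinarith
  have a3 : B ≤ B * (n1 * Kp) := le_mul_of_one_le_right (by linarith) a0
  have a4 : Kp ≤ B * (n1 * Kp) :=
    (le_mul_of_one_le_left (by linarith) N1).trans (le_mul_of_one_le_left (by linarith) B1)
  have a5 : B * (k * Kp) ≤ B * (k + 1) * (n1 * Kp) := by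
    rw [mul_assoc]
    exact mul_le_mul_of_nonneg_left (mul_le_mul (by linarith)
      (le_mul_of_one_le_left (by linarith) N1) (by linarith) (by linarith)) (by linarith)
  set X := B * (k + 1) * (n1 * Kp)
  set Y := B * (n1 * Kp) with hY
  have b0 : 2000 * u ≤ 1 := by nlinarith
  have u1 : u ≤ 1 := by linarith
  have pw : ∀ i j : ℕ, i ≤ j → u ^ j ≤ u ^ i := fun i j h => pow_le_pow_of_le_one u0.le u1 h
  have b1 : u ^ 20 + θ ≤ 2 * u ^ 20 := by linarith [pw 20 40 (by norm_num)]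
  have b2 : (m * u ^ 4) ^ 3 ≤ 3 ^ 3 := pow_le_pow_left₀ (by positivity) hm 3
  have b3 : (m * u ^ 4) ^ 2 ≤ 3 ^ 2 := pow_le_pow_left₀ (by positivity) hm 2
  have b4 : 2000 * (X * u ^ 2) ≤ u := by nlinarith
  have b5 : ∀ Z, Z ≤ X → ∀ j : ℕ, 2 ≤ j → 2000 * (Z * u ^ j) ≤ u := fun Z hZ j hj => by
    have := mul_le_mul hZ (pw 2 j hj) (by positivity) (by linarith)
    linarith
  refine ⟨by linarith, ?_, ?_, ?_, ?_, ?_⟩
  · have c1 := mul_le_mul_of_nonneg_left hθ (show 0 ≤ B by linarith)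
    have c2 := mul_le_mul_of_nonneg_left b1 (show 0 ≤ B * (18 * n1 * m ^ 3 * Kp) by positivity)
    have c3 := mul_le_mul_of_nonneg_left b2 (show 0 ≤ Y * u ^ 8 by positivity)
    have c4 : B * (18 * n1 * m ^ 3 * Kp) * (2 * u ^ 20) = 36 * (Y * u ^ 8 * (m * u ^ 4) ^ 3) := by
      rw [hY]; ring
    linarith [b5 B (a3.trans a2) 40 (by norm_num), b5 Y a2 8 (by norm_num)]
  · linarith [b5 _ a5 2 le_rfl]
  · have c2 := mul_le_mul_of_nonneg_left b1 (show 0 ≤ m ^ 2 * Kp by positivity)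
    have c3 := mul_le_mul_of_nonneg_left b3 (show 0 ≤ Kp * u ^ 12 by positivity)
    linarith [b5 Kp (a4.trans a2) 12 (by norm_num), b5 1 (a1.trans a2) 20 (by norm_num)]
  · have c1 := mul_le_mul_of_nonneg_right hm (show 0 ≤ u ^ 36 by positivity)
    have c2 := mul_le_mul_of_nonneg_right (b5 1 (a1.trans a2) 16 (by norm_num))
      (show 0 ≤ u ^ 20 by positivity)
    have c3 : 0 ≤ u ^ 36 := by positivity
    linarith
  · linarith [b5 Kp (a4.trans a2) 2 le_rfl]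

theorem GS.mono {K K' Λ δ : ℝ} {J J' : Mat n} {y y' h h' : Vec n} (g : GS K Λ δ J J' y y' h h')
    (hK : K ≤ K') : GS K' Λ δ J J' y y' h h' := by
  have e : K ^ 4 * √δ ≤ K' ^ 4 * √δ := mul_le_mul_of_nonneg_right
    (pow_le_pow_left₀ (by linarith [g.loc.hK]) hK 4) (Real.sqrt_nonneg δ)
  exact ⟨g.loc.mono hK, g.loc'.mono hK, fun i => (g.dh i).trans e, g.dz.trans e, g.r1, g.r2, g.r1',
    g.r2', g.gm⟩

theorem par {η B θ u K : ℝ} {a p : ℕ} (hn : 6 ≤ n) (η0 : 0 < η) (η5 : 40 * η ≤ 1) (B1 : 1 ≤ B)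
    (v2 : (n : ℝ) ^ (2 + (a + 1) * (p + 8)) * Real.exp (-(n * η)) ≤ Real.exp (-(η / 2 * n)))
    (v3 : 4000 * (B * (K0 + 1)) ≤ n) (hu : u = Real.exp (-(η * n))) (hθ : θ ≤ u ^ 40)
    (hKd : K = n ^ (a + 1)) : ∃ M : ℕ, 0 < M ∧ K ^ p * √(M : ℝ)⁻¹ ≤ 1 ∧
      Real.exp (-(n : ℝ)) ≤ (M : ℝ)⁻¹ ∧ ((n : ℝ) ^ a) ^ 8 * (M : ℝ)⁻¹ ≤ 1 ∧
      B * (θ + 18 * (n + 1) * (M + 1) ^ 3 * K ^ p * (u ^ 20 + θ)) ≤ u ∧
      B * (K0 * (K ^ p * √(M : ℝ)⁻¹)) ≤ u ∧ (M + 1) ^ 2 * K ^ p * (u ^ 20 + θ) + u ^ 20 ≤ u ∧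
      (M + 1) * (u ^ 40 + Real.exp (-(n : ℝ)) + (u ^ 40 + u ^ 40)) ≤ u * u ^ 20 := by
  have n6 : (6 : ℝ) ≤ n := by exact_mod_cast hn
  have n1 : (1 : ℝ) ≤ n := by linarith
  have u0 : 0 < u := hu ▸ Real.exp_pos _
  have ex1 : Real.exp (-(n : ℝ)) ≤ u ^ 40 := by
    rw [hu, ← Real.exp_nat_mul]
    exact Real.exp_le_exp.2 (by push_cast; nlinarith)
  have nK : (n : ℝ) ≤ K := hKd ▸ le_self_pow₀ n1 (by omega)
  have aK : (n : ℝ) ^ a ≤ K := hKd ▸ pow_le_pow_right₀ n1 (by omega)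
  have K0' : 0 ≤ K := by linarith
  have k0 := K0_nonneg
  have hX : ∀ j ≤ p + 8, 2000 * (B * (K0 + 1) * ((n + 1) * K ^ j)) * u ≤ 1 := fun j hj => by
    have a1 : K ^ j ≤ K ^ (p + 8) := pow_le_pow_right₀ (by linarith) hj
    have a3 : (n + 1) * K ^ j ≤ 2 * n * K ^ (p + 8) :=
      mul_le_mul (by linarith) a1 (by positivity) (by positivity)
    have a4 := mul_le_mul v3 a3 (by positivity) (by positivity)
    refine le_trans (mul_le_mul_of_nonneg_right (c := (n : ℝ) ^ (2 + (a + 1) * (p + 8))) ?_ u0.le)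
      (le_trans ?_ (v2.trans (Real.exp_le_one_iff.2 (by nlinarith))))
    · rw [pow_add, pow_mul, ← hKd]
      linarith
    · rw [hu, mul_comm η]
  obtain ⟨M, hM⟩ : ∃ M : ℕ, M = ⌈(u ^ 4)⁻¹⌉₊ := ⟨_, rfl⟩
  have u4 : 0 < u ^ 4 := by positivity
  have M1 : 1 ≤ M * u ^ 4 := by
    rw [← inv_le_iff_one_le_mul₀ u4, hM]; exact Nat.le_ceil _
  have M0 : 0 < M := Nat.pos_of_ne_zero fun h => by rw [h] at M1; norm_num at M1
  have M0' : (0 : ℝ) < M := by exact_mod_cast M0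
  have u1 : u ≤ 1 := hu ▸ Real.exp_le_one_iff.2 (by nlinarith)
  have M2 : (M + 1) * u ^ 4 ≤ 3 := by
    have a1 : (M : ℝ) ≤ (u ^ 4)⁻¹ + 1 := hM ▸ (Nat.ceil_lt_add_one (by positivity)).le
    have a2 := mul_le_mul_of_nonneg_right a1 u4.le
    rw [add_mul, inv_mul_cancel₀ u4.ne'] at a2
    linarith [pow_le_one₀ (n := 4) u0.le u1]
  have d1 : (M : ℝ)⁻¹ ≤ u ^ 4 := by rwa [inv_le_iff_one_le_mul₀' M0']
  have d2 : √(M : ℝ)⁻¹ ≤ u ^ 2 := Real.sqrt_le_iff.2 ⟨by positivity, by rw [← pow_mul]; exact d1⟩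
  have d3 := mul_le_mul_of_nonneg_left d2 (pow_nonneg K0' p)
  have K1 : ∀ j : ℕ, 1 ≤ K ^ j := fun j => one_le_pow₀ (by linarith)
  obtain ⟨q0, q1, q2, q3, q4, q5⟩ := num u0 (by positivity) M2 B1 k0 (K1 p) (by linarith) hθ
    (hX p (by omega))
  have q6 := (num u0 (by positivity) M2 B1 k0 (K1 8) (by linarith) hθ (hX 8 (by omega))).2.2.2.2.2
  refine ⟨M, M0, d3.trans q5, ex1.trans ?_, (mul_le_mul (pow_le_pow_left₀ (by positivity) aK 8)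
    (d1.trans (pow_le_pow_of_le_one u0.le u1 (by norm_num))) (by positivity)
    (by positivity)).trans q6, q1, (mul_le_mul_of_nonneg_left (mul_le_mul_of_nonneg_left d3 k0)
    (by linarith)).trans q2, q3, (mul_le_mul_of_nonneg_left
    (add_le_add (add_le_add le_rfl ex1) le_rfl) (by positivity)).trans q4⟩
  rw [le_inv_comm₀ (by positivity) M0', ← one_div, le_div_iff₀ (by positivity)]
  have a1 : (2 * u) ^ 2 ≤ 1 := pow_le_one₀ (by positivity) q0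
  have a2 : u ^ 40 ≤ u ^ 6 := pow_le_pow_of_le_one u0.le u1 (by norm_num)
  have a3 := mul_le_mul_of_nonneg_left a2 M0'.le
  have a4 := mul_le_mul_of_nonneg_right M2 (sq_nonneg u)
  have a5 : 0 ≤ u ^ 6 := by positivity
  linarith

theorem pr_le {w T s : ℝ} {lam : Vec n} (hR : Edge.Rigid w lam) (hT : 0 ≤ T)
    (h : Edge.sc0 n w ≤ T) (hs : s ≤ 2 * T) (v : Vec n) :
    qf (diagonal (pr lam s)) v ≤ 3 * T * F.sq v := by
  rw [Adm.qf_diag]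
  unfold F.sq
  rw [Finset.mul_sum]
  exact Finset.sum_le_sum fun b _ => mul_le_mul_of_nonneg_right
    (max_le (by linarith [hR.le_eps b]) (by linarith)) (sq_nonneg _)

/-- **[BRIDGE]** -/
theorem brStmt_of {sel cen : Sel} (h1 : T1Stmt) (hD : DetStmt) (hA : AdmB) (hK : KBB)
    (hs : SelOK sel) (hc : SelOK cen) : BrStmt sel cen := by
  obtain ⟨p, hp⟩ := site
  obtain ⟨C1, h1⟩ := h1
  obtain ⟨a, hD⟩ := hD
  obtain ⟨L, hL, hA⟩ := hA
  obtain ⟨T0, hT0, hT1, hev⟩ := ev_root (q := 288000) (by norm_num) ((h1 L hL).and ((hD L hL).and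
    (hA.and ((hK L hL).and ((hs.2 L hL).and (hc.2 L hL))))))
  refine ⟨T0, hT0, fun T hT hTT C c hC hc0 => ?_⟩
  obtain ⟨τ, hτ, τ0, g1, ⟨Λ, hΛ, g2⟩, ⟨cA, hcA, g3⟩, ⟨κ, hκ, cK, hcK, g4⟩, g5, g6⟩ := hev T hT hTT
  have hb : 0 < τ ^ 431998 := pow_pos τ0 _
  obtain ⟨η, η0, η1, η2, η3, η4, η5, η6⟩ : ∃ η > (0 : ℝ), 40 * η ≤ τ ^ 431998 / 2 ∧ 40 * η ≤ cK ∧
      40 * η ≤ cA ∧ 40 * η ≤ c ∧ 40 * η ≤ 1 ∧ 40 * η ≤ T := by
    refine ⟨min (min (τ ^ 431998 / 2) cK) (min (min cA c) (min 1 T)) / 40, by positivity, ?_⟩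
    rw [mul_div_cancel₀ _ (by norm_num)]
    simp only [min_le_iff, le_refl, true_or, or_true, and_self]
  have ηA : η ≤ cA := by linarith only [η0, η3]
  have ηT : η ≤ T := by linarith only [η0, η6]
  have T1 : 100 * T ≤ 1 := by linarith only [hT1, hTT]
  obtain ⟨B, hB⟩ : ∃ B, B = cB Λ (C + 1) (Λ * κ) := ⟨_, rfl⟩
  obtain ⟨W, hW⟩ : ∃ W, W = cW Λ (C + 1) (Λ * κ) := ⟨_, rfl⟩
  have B1 : 1 ≤ B := hB ▸ one_le_cB _ _ _
  refine ⟨max (B * C) (2 * W + 4), lt_max_of_lt_left (mul_pos (one_pos.trans_le B1) hC), η, η0, ?_⟩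
  filter_upwards [g2, g3, g4, g5, g6, ev_pow_exp C1 hb, ev_pow_exp (2 + (a + 1) * (p + 8)) η0,
    eventually_ge_atTop 6, tendsto_natCast_atTop_atTop.eventually_ge_atTop
      (max (max Λ W) (4000 * (B * (K0 + 1))))] with n g2 g3 g4 g5 g6 v1 v2 hn v3
  intro w lam hR hw hk hsc t d hG N hN1 hN2 Q hQ hQ1 hQ2 i i' ε hε
  have n2 : (2 : ℝ) ≤ n := by exact_mod_cast (by omega : 2 ≤ n)
  rw [max_le_iff, max_le_iff] at v3
  obtain ⟨u, hu⟩ : ∃ u, u = Real.exp (-(η * n)) := ⟨_, rfl⟩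
  have u0 : 0 < u := hu ▸ Real.exp_pos _
  have u40 := (pow_pos u0 40).le
  have ex : ∀ b : ℝ, 40 * η ≤ b → Real.exp (-(b * n)) ≤ u ^ 40 := fun b h => by
    rw [hu, ← Real.exp_nat_mul]
    have := mul_le_mul_of_nonneg_right h (Nat.cast_nonneg n)
    exact Real.exp_le_exp.2 (by push_cast; linarith only [this])
  obtain ⟨K, hKd⟩ : ∃ K : ℝ, K = n ^ (a + 1) := ⟨_, rfl⟩
  have nK : (n : ℝ) ≤ K := hKd ▸ le_self_pow₀ (one_le_two.trans n2) (by omega)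
  have aK : (n : ℝ) ^ a ≤ K := hKd ▸ pow_le_pow_right₀ (one_le_two.trans n2) (by omega)
  obtain ⟨M, M0, q5, d3, d4, q1, q2, q3, q4⟩ := par hn η0 η5 B1 v2 v3.2 hu (ex c η4) hKd
  obtain ⟨dl, R, Rb, hdl, s1, s2, s3, s4, s5, s6⟩ := exists_sched hG N M0 hQ
    (fun v => (pr_le hR hT.le (hsc.trans ηT) hN2 v).trans (hQ1 v)) fun v =>
    (hQ2 v).trans (mul_le_of_le_one_left (sq_nonneg' v) T1)
  have hPl := planted (L := L) (t := τ) (K := K) (Λ := Λ) (κ := κ) (p1 := u ^ 40) (p2 := u ^ 40)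
    (pA := u ^ 40) (sel := sel n i) (cen := cen n i') (M := M) hn (Matrix.diagonal_transpose lam)
    s1 s3 s4 (hs.1 n i) (hc.1 n i') u40 u40
    (fun S x xt μ a1 a2 a3 => (g1 n S x xt μ a1 a2 a3).trans (v1.trans (ex _ η1)))
    (fun S x xt μ Q a1 a2 a3 a4 a5 => (g4 S x xt μ Q a1 a2 a3 a4 a5).trans (ex _ η2))
    (g5 i) (g6 i')
    (fun S S' O O' R x ξ a1 a2 a3 a4 a5 a6 a7 a8 a9 a10 =>
      (g2 S S' O O' R x ξ _ a1 a2 a3 a4 a5 a6 a7 a8 d3 d4 a9 a10).mono aK)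
    (fun k k1 k2 U mu e => by
      have z := nzM_QS (fun j => (hdl j).1.le) R k
      have a1 := g3 w (t N) lam hR hw (hk.trans ηA) (hsc.trans ηA) (hτ.trans_le hN1)
        (by rwa [hτ]) _ (Adm.nzM (fun j => √(dl j)) R k) U mu (by rwa [z])
        (fun v => by rw [z]; exact (s6 k k1 k2 v).1)
        (fun v => by
          rw [z]
          exact (s6 k k1 k2 v).2.trans ((hQ2 v).trans (mul_le_mul_of_nonneg_right
            (mul_le_mul_of_nonneg_left hN1 (by norm_num)) (sq_nonneg' v))))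
      rw [z] at a1
      simp only [pathU_eq]
      exact (ENNReal.toReal_mono (measure_ne_top _ _) (Adm.spN_le _ _ k _)).trans
        (a1.trans (ex _ η3)))
  have hq := (quenched_le (diagonal lam) 0 _ hε (pow_pos u0 20)).trans
    (div_le_div_of_nonneg_right (hPl.trans q4) (mul_pos hε (pow_pos u0 20)).le)
  rw [mul_div_mul_right _ _ (pow_pos u0 20).ne'] at hq
  rw [← hu]
  refine le_trans (measureReal_mono ?_ (measure_ne_top _ _)) hq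
  intro O hO
  refine ⟨hO.1, ?_⟩
  by_contra hcon
  have e0 : Jr O (diagonal lam - QS dl R 0) = JO lam O := by
    rw [show QS dl R 0 = 0 from rfl, sub_zero]; rfl
  have key := hp n dl hdl (fun k => Jr O (diagonal lam - QS dl R k)) (fun k => Jr O (R k)) N M K Λ κ
    (M : ℝ)⁻¹ C (Real.exp (-(c * n))) (u ^ 20) (Jr O Rb) (sel n i) (cen n i') (sched_Jr O _ dl R)
    (fun j hj => ⟨(s1 j hj).1, by rw [(s1 j hj).2]⟩) (by rw [Jr_tr, s3]) (opLe_Jr O s4)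
    (n2.trans nK) nK hΛ (v3.1.1.trans nK) hκ.le hC.le (hW ▸ v3.1.2.trans nK)
    (mul_inv_cancel₀ (Nat.cast_ne_zero.2 M0.ne')).le q5
    (by rw [e0, QS_Jr, s5]; exact hO.2.1)
    (by
      rw [e0]
      rw [not_le, Matrix.mulVec_zero] at hcon
      exact hcon.le)
  rw [← hB, ← hW, e0] at key
  obtain ⟨w1, w2⟩ := switch hG.steps hdl (hG.sched O) (sched_Jr O (diagonal lam) dl R) (N := N)
    ((hG.JC_zero O).trans e0.symm) (fun j hj => ⟨(s2 j hj).1, by rw [← (s2 j hj).2]; rfl⟩) (sel n i)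
  refine hO.2.2 ⟨(w1 key.1).mono (le_max_left _ _) q1 q2, le_trans
    (PE_mono (fun x => (gM_pos _ _ x).le) fun x ω h => ?_) (key.2.trans q3)⟩
  rw [← w2]
  exact (le_max_right _ _).trans_lt h

/-- the bridge from the source bound on the fibre of T1 -/
theorem brStmt_of_kb {sel cen : Sel} (h1 : T1Stmt) (hD : DetStmt) (hA : AdmB) (hK : KB.KBT1Stmt)
    (hs : SelOK sel) (hc : SelOK cen) : BrStmt sel cen := brStmt_of h1 hD hA (kbb_of hK) hs hc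

end Vale.Agent.N150.Br
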