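import Vale.Agent.N150.ECStep
import Vale.Agent.P150.Bdl.B23

set_option linter.all false

/-! Auxiliary facts on the EC-TAP reference: symmetry, Gaussian mean of the quadratic term,
measurability, crude bounds, `Loc` from operator bounds. -/

open Matrix Finset MeasureTheory

namespace Vale.Agent.N150.EC

open Vale.Agent.P150 Vale.Agent.P150.F Vale.Agent.P150.F.Ms Vale.Agent.P150.F.L6b

variable {n : ℕ}

/-! ### symmetry -/

theorem Nm_symm {J : Mat n} (hJ : J.IsSymm) (z : ℝ) : (Nm J z).IsSymm := by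
  unfold Nm Matrix.IsSymm
  rw [Matrix.transpose_sub, Matrix.transpose_smul, Matrix.transpose_one, hJ.eq]

theorem G0_symm {J : Mat n} (hJ : J.IsSymm) (z : ℝ) : (G0 J z).IsSymm := by
  unfold G0 Matrix.IsSymm
  rw [Matrix.transpose_nonsing_inv, (Nm_symm hJ z).eq]

theorem Bm_symm {J : Mat n} (hJ : J.IsSymm) (h : Vec n) (z : ℝ) : (Bm J h z).IsSymm := by
  unfold Bm Matrix.IsSymm
  rw [Matrix.transpose_add, Matrix.transpose_sub, (Nm_symm hJ z).eq, Matrix.transpose_smul,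
    Matrix.transpose_smul, Matrix.transpose_one, Matrix.transpose_vecMulVec]

theorem Gm_symm {J : Mat n} (hJ : J.IsSymm) (h : Vec n) (z : ℝ) : (Gm J h z).IsSymm := by
  by_cases hL : IsUnit (Lm J h z).det
  · have hLt : IsUnit (Lm J h z)ᵀ.det := by rwa [Matrix.det_transpose]
    have e : (Lm J h z)ᵀ * diagonal (dv h) = diagonal (dv h) * Lm J h z := by
      rw [Lm, Matrix.transpose_add, Matrix.transpose_mul, Matrix.transpose_one,
        (Bm_symm hJ h z).eq, Matrix.diagonal_transpose]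
      noncomm_ring
    unfold Gm Gam Matrix.IsSymm
    rw [Matrix.transpose_mul, Matrix.transpose_nonsing_inv, Matrix.diagonal_transpose]
    calc (Lm J h z)ᵀ⁻¹ * diagonal (dv h)
        = (Lm J h z)ᵀ⁻¹ * (diagonal (dv h) * Lm J h z) * (Lm J h z)⁻¹ := by
          rw [Matrix.mul_assoc, Matrix.mul_assoc, Matrix.mul_nonsing_inv _ hL, Matrix.mul_one]
      _ = _ := by
          rw [← e, ← Matrix.mul_assoc, Matrix.nonsing_inv_mul _ hLt, Matrix.one_mul]
  · unfold Gm Gam Matrix.IsSymm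
    rw [Matrix.nonsing_inv_apply_not_isUnit _ hL, Matrix.mul_zero, Matrix.transpose_zero]

/-! ### Gaussian mean of the quadratic term -/

section gauss

variable {m : ℕ}

theorem integrable_lin_mul (a b : Fin m → ℝ) :
    Integrable (fun g : Fin m → ℝ => (∑ i, a i * g i) * (∑ i, b i * g i)) (gpi (Fin m)) :=
  (memLp_lin_gauss a).integrable_mul (memLp_lin_gauss b)

theorem integral_lin_mul (a b : Fin m → ℝ) :
    ∫ g : Fin m → ℝ, (∑ i, a i * g i) * (∑ i, b i * g i) ∂gpi (Fin m) = ∑ i, a i * b i := by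
  have e : ∀ g : Fin m → ℝ, (∑ i, a i * g i) * (∑ i, b i * g i)
      = (1 / 4) * (∑ i, (a i + b i) * g i) ^ 2 - (1 / 4) * (∑ i, (a i - b i) * g i) ^ 2 := by
    intro g
    simp only [add_mul, sub_mul, Finset.sum_add_distrib, Finset.sum_sub_distrib]
    ring
  simp_rw [e]
  rw [integral_sub ((integrable_lin_sq _).const_mul _) ((integrable_lin_sq _).const_mul _),
    integral_const_mul, integral_const_mul, integral_lin_sq, integral_lin_sq, Finset.mul_sum,
    Finset.mul_sum, ← Finset.sum_sub_distrib]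
  exact Finset.sum_congr rfl fun i _ => by ring

theorem integrable_mv_mul (A B : Matrix (Fin n) (Fin m) ℝ) (i j : Fin n) :
    Integrable (fun g : Fin m → ℝ => (A *ᵥ g) i * (B *ᵥ g) j) (gpi (Fin m)) :=
  integrable_lin_mul (A i) (B j)

theorem integral_mv_mul (A B : Matrix (Fin n) (Fin m) ℝ) (i j : Fin n) :
    ∫ g : Fin m → ℝ, (A *ᵥ g) i * (B *ᵥ g) j ∂gpi (Fin m) = (A * Bᵀ) i j :=
  integral_lin_mul (A i) (B j)

theorem bq_entry (J : Mat n) (h : Vec n) (z : ℝ) (R : Matrix (Fin n) (Fin m) ℝ) (g : Fin m → ℝ)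
    (i : Fin n) : bq J h z (R *ᵥ g) i
      = tm h i * (((Gam J h z * R) *ᵥ g) i * ((Gam J h z * R) *ᵥ g) i)
        + (cc J h z / 2 * tm h i) * ∑ k, ((Gm J h z * R) *ᵥ g) k * ((Gm J h z * R) *ᵥ g) k
        + (c3 J h z * tm h i) * ∑ k, ∑ l, (tm h k * tm h l)
            * (((Gm J h z * R) *ᵥ g) k * ((Gm J h z * R) *ᵥ g) l)
        + cc J h z * ∑ k, tm h k * (((Gm J h z * R) *ᵥ g) i * ((Gm J h z * R) *ᵥ g) k) := by
  simp only [bq, Matrix.mulVec_mulVec, F.sq, ip]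
  have e1 : (∑ k, tm h k * ((Gm J h z * R) *ᵥ g) k) ^ 2 = ∑ k, ∑ l, (tm h k * tm h l)
      * (((Gm J h z * R) *ᵥ g) k * ((Gm J h z * R) *ᵥ g) l) := by
    rw [pow_two, Finset.sum_mul_sum]
    exact Finset.sum_congr rfl fun k _ => Finset.sum_congr rfl fun l _ => by ring
  have e2 : (∑ k, tm h k * ((Gm J h z * R) *ᵥ g) k) * ((Gm J h z * R) *ᵥ g) i
      = ∑ k, tm h k * (((Gm J h z * R) *ᵥ g) i * ((Gm J h z * R) *ᵥ g) k) := by
    rw [Finset.sum_mul]
    exact Finset.sum_congr rfl fun k _ => by ring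
  have e3 : ∑ k, ((Gm J h z * R) *ᵥ g) k ^ 2
      = ∑ k, ((Gm J h z * R) *ᵥ g) k * ((Gm J h z * R) *ᵥ g) k :=
    Finset.sum_congr rfl fun k _ => by ring
  rw [e1, mul_assoc (cc J h z) (∑ k, tm h k * ((Gm J h z * R) *ᵥ g) k), e2, e3]
  ring

theorem integrable_bq (J : Mat n) (h : Vec n) (z : ℝ) (R : Matrix (Fin n) (Fin m) ℝ) (i : Fin n) :
    Integrable (fun g => bq J h z (R *ᵥ g) i) (gpi (Fin m)) := by
  simp_rw [bq_entry]
  refine ((((integrable_mv_mul _ _ i i).const_mul _).add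
    ((integrable_finsetSum _ fun k _ => integrable_mv_mul _ _ k k).const_mul _)).add
    ((integrable_finsetSum _ fun k _ => integrable_finsetSum _ fun l _ =>
      (integrable_mv_mul _ _ k l).const_mul _).const_mul _)).add
    ((integrable_finsetSum _ fun k _ => (integrable_mv_mul _ _ i k).const_mul _).const_mul _)

/-- `E bq (R g) = eb (R Rᵀ)` -/
theorem integral_bq (J : Mat n) (h : Vec n) (z : ℝ) (R : Matrix (Fin n) (Fin m) ℝ) (i : Fin n) :
    ∫ g, bq J h z (R *ᵥ g) i ∂gpi (Fin m) = eb J h z (R * Rᵀ) i := by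
  simp_rw [bq_entry]
  have i1 := (integrable_mv_mul (Gam J h z * R) (Gam J h z * R) i i).const_mul (tm h i)
  have i2 := (integrable_finsetSum Finset.univ fun k _ =>
    integrable_mv_mul (Gm J h z * R) (Gm J h z * R) k k).const_mul (cc J h z / 2 * tm h i)
  have i3 := (integrable_finsetSum Finset.univ fun k _ => integrable_finsetSum Finset.univ fun l _ =>
    (integrable_mv_mul (Gm J h z * R) (Gm J h z * R) k l).const_mul (tm h k * tm h l)).const_mul
      (c3 J h z * tm h i)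
  have i4 := (integrable_finsetSum Finset.univ fun k _ =>
    (integrable_mv_mul (Gm J h z * R) (Gm J h z * R) i k).const_mul (tm h k)).const_mul (cc J h z)
  have i12 := Integrable.fun_add i1 i2
  have i123 := Integrable.fun_add i12 i3
  rw [integral_add i123 i4, integral_add i12 i3, integral_add i1 i2,
    integral_const_mul, integral_const_mul, integral_const_mul, integral_const_mul,
    integral_finsetSum _ fun k _ => integrable_mv_mul _ _ k k,
    integral_finsetSum _ fun k _ => integrable_finsetSum _ fun l _ =>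
      (integrable_mv_mul _ _ k l).const_mul _,
    integral_finsetSum _ fun k _ => (integrable_mv_mul _ _ i k).const_mul _]
  have e3 : ∀ k, ∫ g, ∑ l, (tm h k * tm h l) * (((Gm J h z * R) *ᵥ g) k * ((Gm J h z * R) *ᵥ g) l)
      ∂gpi (Fin m) = ∑ l, (tm h k * tm h l) * (Gm J h z * R * (Gm J h z * R)ᵀ) k l := by
    intro k
    rw [integral_finsetSum _ fun l _ => (integrable_mv_mul _ _ k l).const_mul _]
    exact Finset.sum_congr rfl fun l _ => by rw [integral_const_mul, integral_mv_mul]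
  simp_rw [e3, integral_const_mul, integral_mv_mul]
  have a1 : Gam J h z * R * (Gam J h z * R)ᵀ = Gam J h z * (R * Rᵀ) * (Gam J h z)ᵀ := by
    rw [Matrix.transpose_mul]; simp only [Matrix.mul_assoc]
  have a2 : Gm J h z * R * (Gm J h z * R)ᵀ = Gm J h z * (R * Rᵀ) * (Gm J h z)ᵀ := by
    rw [Matrix.transpose_mul]; simp only [Matrix.mul_assoc]
  rw [a1, a2]
  set S := Gm J h z * (R * Rᵀ) * (Gm J h z)ᵀ
  have b1 : S.trace = ∑ k, S k k := rfl
  have b2 : qf S (tm h) = ∑ k, ∑ l, tm h k * tm h l * S k l := by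
    simp only [qf, ip, Matrix.mulVec, dotProduct, Finset.mul_sum]
    exact Finset.sum_congr rfl fun k _ => Finset.sum_congr rfl fun l _ => by ring
  have b3 : (S *ᵥ tm h) i = ∑ k, tm h k * S i k := by
    simp only [Matrix.mulVec, dotProduct]
    exact Finset.sum_congr rfl fun k _ => by ring
  simp only [eb]
  rw [b1, b2, b3]
  ring

end gauss

/-! ### measurability -/

section meas

variable {S : Type*} [MeasurableSpace S]

theorem mm_add {α β : Type*} {H K : S → Matrix α β ℝ} (hH : MMat H) (hK : MMat K) :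
    MMat fun s => H s + K s := fun i j => (hH i j).add (hK i j)

theorem mm_mul {α β γ : Type*} [Fintype β] {H : S → Matrix α β ℝ} {K : S → Matrix β γ ℝ}
    (hH : MMat H) (hK : MMat K) : MMat fun s => H s * K s := fun i j => by
  simp only [Matrix.mul_apply]
  exact Finset.measurable_fun_sum _ fun k _ => (hH i k).mul (hK k j)

theorem mm_transpose {α β : Type*} {H : S → Matrix α β ℝ} (hH : MMat H) :
    MMat fun s => (H s)ᵀ := fun i j => hH j i

theorem mm_trace {H : S → Mat n} (hH : MMat H) : Measurable fun s => (H s).trace :=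
  Finset.measurable_fun_sum _ fun i _ => hH i i

theorem mm_diagonal {v : S → Vec n} (hv : MVec v) : MMat fun s => diagonal (v s) := fun i j => by
  simp only [Matrix.diagonal_apply]
  split_ifs
  · exact hv i
  · exact measurable_const

theorem mm_vecMulVec {u v : S → Vec n} (hu : MVec u) (hv : MVec v) :
    MMat fun s => vecMulVec (u s) (v s) := fun i j => (hu i).mul (hv j)

theorem mm_det {H : S → Mat n} (hH : MMat H) : Measurable fun s => (H s).det := by
  simp only [Matrix.det_apply']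
  exact Finset.measurable_fun_sum _ fun σ _ => measurable_const.mul
    (Finset.measurable_fun_prod _ fun i _ => hH _ _)

theorem mm_adjugate {H : S → Mat n} (hH : MMat H) : MMat fun s => (H s).adjugate := fun i j => by
  simp only [Matrix.adjugate_apply]
  refine mm_det fun a b => ?_
  simp only [Matrix.updateRow_apply]
  split_ifs
  · exact measurable_const
  · exact hH a b

theorem mm_inv {H : S → Mat n} (hH : MMat H) : MMat fun s => (H s)⁻¹ := fun i j => by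
  simp only [Matrix.inv_def, Ring.inverse_eq_inv', Matrix.smul_apply, smul_eq_mul]
  exact (mm_det hH).inv.mul (mm_adjugate hH i j)

theorem mv_add {α : Type*} {u v : S → α → ℝ} (hu : MVec u) (hv : MVec v) :
    MVec fun s => u s + v s := fun i => (hu i).add (hv i)

theorem mv_neg {α : Type*} {u : S → α → ℝ} (hu : MVec u) : MVec fun s => -u s :=
  fun i => (hu i).neg

theorem mv_smul {α : Type*} {c : S → ℝ} (hc : Measurable c) {v : S → α → ℝ} (hv : MVec v) :
    MVec fun s => c s • v s := fun i => hc.mul (hv i)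

variable {J Q : S → Mat n} {y h a : S → Vec n} {z : S → ℝ}

theorem mv_tm (hh : MVec h) : MVec fun s => tm (h s) := hh.tanh
theorem mv_dv (hh : MVec h) : MVec fun s => dv (h s) := fun i =>
  measurable_const.sub ((hh.tanh i).pow_const 2)
theorem ms_wb (hh : MVec h) : Measurable fun s => wb (h s) :=
  (Finset.measurable_fun_sum _ fun i _ => mv_dv hh i).div_const _
theorem mm_Nm (hJ : MMat J) (hz : Measurable z) : MMat fun s => Nm (J s) (z s) :=
  (MMat.smul hz (MMat.const 1)).sub hJ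
theorem mm_G0 (hJ : MMat J) (hz : Measurable z) : MMat fun s => G0 (J s) (z s) :=
  mm_inv (mm_Nm hJ hz)
theorem ms_T2 (hJ : MMat J) (hz : Measurable z) : Measurable fun s => T2 (J s) (z s) :=
  mm_trace (mm_mul (mm_G0 hJ hz) (mm_G0 hJ hz))
theorem ms_T3 (hJ : MMat J) (hz : Measurable z) : Measurable fun s => T3 (J s) (z s) :=
  mm_trace (mm_mul (mm_mul (mm_G0 hJ hz) (mm_G0 hJ hz)) (mm_G0 hJ hz))
theorem ms_cc (hJ : MMat J) (hh : MVec h) (hz : Measurable z) :
    Measurable fun s => cc (J s) (h s) (z s) :=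
  (measurable_const.div (ms_T2 hJ hz)).sub
    (measurable_const.div (measurable_const.mul ((ms_wb hh).pow_const 2)))
theorem ms_c3 (hJ : MMat J) (hh : MVec h) (hz : Measurable z) :
    Measurable fun s => c3 (J s) (h s) (z s) :=
  measurable_const.mul (((ms_T3 hJ hz).div ((ms_T2 hJ hz).pow_const 3)).sub
    (measurable_const.div (measurable_const.mul ((ms_wb hh).pow_const 3))))
theorem mm_Bm (hJ : MMat J) (hh : MVec h) (hz : Measurable z) :
    MMat fun s => Bm (J s) (h s) (z s) :=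
  mm_add ((mm_Nm hJ hz).sub (MMat.smul (ms_wb hh).inv (MMat.const 1)))
    (MMat.smul (ms_cc hJ hh hz) (mm_vecMulVec (mv_tm hh) (mv_tm hh)))
theorem mm_Lm (hJ : MMat J) (hh : MVec h) (hz : Measurable z) :
    MMat fun s => Lm (J s) (h s) (z s) :=
  mm_add (MMat.const 1) (mm_mul (mm_Bm hJ hh hz) (mm_diagonal (mv_dv hh)))
theorem mm_Gam (hJ : MMat J) (hh : MVec h) (hz : Measurable z) :
    MMat fun s => Gam (J s) (h s) (z s) := mm_inv (mm_Lm hJ hh hz)
theorem mm_Gm (hJ : MMat J) (hh : MVec h) (hz : Measurable z) :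
    MMat fun s => Gm (J s) (h s) (z s) := mm_mul (mm_diagonal (mv_dv hh)) (mm_Gam hJ hh hz)
theorem mv_res1 (hJ : MMat J) (hy : MVec y) (hh : MVec h) (hz : Measurable z) :
    MVec fun s => res1 (J s) (y s) (h s) (z s) :=
  (mv_add hh (((mm_Nm hJ hz).sub (MMat.smul (ms_wb hh).inv (MMat.const 1))).mulVec
    (mv_tm hh))).sub hy
theorem ms_res2 (hJ : MMat J) (hh : MVec h) (hz : Measurable z) :
    Measurable fun s => res2 (J s) (h s) (z s) :=
  (mm_trace (mm_G0 hJ hz)).sub (Finset.measurable_fun_sum _ fun i _ => mv_dv hh i)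
theorem mv_bq (hJ : MMat J) (hh : MVec h) (hz : Measurable z) (ha : MVec a) :
    MVec fun s => bq (J s) (h s) (z s) (a s) := fun i => by
  have g1 := (mm_Gam hJ hh hz).mulVec ha
  have g2 := (mm_Gm hJ hh hz).mulVec ha
  have p := (mv_tm hh).ip g2
  exact (((mv_tm hh i).mul ((g1 i).pow_const 2)).add
    (((((ms_cc hJ hh hz).div_const 2).mul g2.sq).add ((ms_c3 hJ hh hz).mul (p.pow_const 2))).mul
      (mv_tm hh i))).add (((ms_cc hJ hh hz).mul p).mul (g2 i))
theorem mv_eb (hJ : MMat J) (hh : MVec h) (hz : Measurable z) (hQ : MMat Q) :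
    MVec fun s => eb (J s) (h s) (z s) (Q s) := fun i => by
  have g1 := mm_mul (mm_mul (mm_Gam hJ hh hz) hQ) (mm_transpose (mm_Gam hJ hh hz))
  have g2 := mm_mul (mm_mul (mm_Gm hJ hh hz) hQ) (mm_transpose (mm_Gm hJ hh hz))
  have g3 := g2.mulVec (mv_tm hh)
  exact (((mv_tm hh i).mul (g1 i i)).add
    (((((ms_cc hJ hh hz).div_const 2).mul (mm_trace g2)).add
      ((ms_c3 hJ hh hz).mul ((mv_tm hh).ip g3))).mul (mv_tm hh i))).add
    ((ms_cc hJ hh hz).mul (g3 i))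
theorem mv_k0 (hJ : MMat J) (hh : MVec h) (hz : Measurable z) (hQ : MMat Q) :
    MVec fun s => k0 (J s) (h s) (z s) (Q s) :=
  (mv_eb hJ hh hz hQ).sub (mv_smul ((mm_trace (mm_mul (mm_mul (mm_G0 hJ hz) hQ)
    (mm_G0 hJ hz))).div (ms_T2 hJ hz)) (mv_tm hh))
theorem mv_ka (hJ : MMat J) (hh : MVec h) (hz : Measurable z) (hQ : MMat Q) :
    MVec fun s => ka (J s) (h s) (z s) (Q s) :=
  mv_neg ((mm_Gm hJ hh hz).mulVec (mv_k0 hJ hh hz hQ))

theorem ms_MB {m : ℕ} {A : S → Matrix (Fin n) (Fin m) ℝ} (hA : MMat A) {K : S → ℝ}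
    (hK : Measurable K) : MeasurableSet {s | MB (A s) (K s)} := by
  simp only [MB, Set.setOf_forall]
  exact MeasurableSet.iInter fun i => MeasurableSet.iInter fun j =>
    measurableSet_le (hA i j).abs hK

theorem ms_unit {A : S → Mat n} (hA : MMat A) : MeasurableSet {s | IsUnit (A s).det} := by
  simp only [isUnit_iff_ne_zero]
  exact ((mm_det hA) (measurableSet_singleton 0)).compl

/-- the set of locally good points is measurable -/
theorem ms_Loc (K : ℝ) (hJ : MMat J) (hh : MVec h) (hz : Measurable z) :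
    MeasurableSet {s | Loc K (J s) (h s) (z s)} := by
  have e : {s | Loc K (J s) (h s) (z s)} = {_s | 2 ≤ K ∧ (n : ℝ) ≤ K ∧ 0 < n}
      ∩ ({s | IsUnit (Nm (J s) (z s)).det} ∩ ({s | MB (Nm (J s) (z s)) K}
      ∩ ({s | MB (G0 (J s) (z s)) K} ∩ ({s | 1 ≤ K * wb (h s)} ∩ ({s | 1 ≤ K * T2 (J s) (z s)}
      ∩ ({s | IsUnit (Lm (J s) (h s) (z s)).det} ∩ {s | MB (Gam (J s) (h s) (z s)) K})))))) := by
    ext s
    exact ⟨fun L => ⟨⟨L.hK, L.hn, L.npos⟩, L.uN, L.bN, L.bG0, L.bw, L.bT, L.uL, L.bGam⟩,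
      fun ⟨⟨a, b, c⟩, d, e, f, g, h, i, j⟩ => ⟨a, b, c, d, e, f, g, h, i, j⟩⟩
  rw [e]
  exact (MeasurableSet.const _).inter ((ms_unit (mm_Nm hJ hz)).inter
    ((ms_MB (mm_Nm hJ hz) measurable_const).inter ((ms_MB (mm_G0 hJ hz) measurable_const).inter
    ((measurableSet_le measurable_const (measurable_const.mul (ms_wb hh))).inter
    ((measurableSet_le measurable_const (measurable_const.mul (ms_T2 hJ hz))).inter
    ((ms_unit (mm_Lm hJ hh hz)).inter (ms_MB (mm_Gam hJ hh hz) measurable_const)))))))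

end meas

/-! ### crude bounds -/

namespace PD

variable {X : Type} {F : Frame X} (P : PD F)

open Frame

theorem bq_ord {j : ℕ} {a : ∀ x, Vec (F.n x)} (ha : F.V j a) :
    F.V (j + j) (fun x => bq (P.J x) (P.h x) (P.z x) (a x)) :=
  (P.SS_ord (P.Gam0.zmulVec ha)).congr' fun x => bq_eq _ _ _ _

theorem eb_ord {j : ℕ} {Q : ∀ x, Mat (F.n x)} (hQ : F.M j Q) :
    F.V j (fun x => eb (P.J x) (P.h x) (P.z x) (Q x)) := by
  have g1 := ((P.Gam0.zmul hQ).mul P.Gam0.transpose).diagV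
  have g2 := (P.Gm0.zmul hQ).mul P.Gm0.transpose
  have g3 := g2.mulVec P.m0
  have a1 := P.m0.zmul g1
  have a2 := V.smul (((P.cc0.cmul (1 / 2)).zmul g2.trace).add (P.c30.zmul (P.m0.zip g3))) P.m0
  have a3 := V.zsmul P.cc0 g3
  refine ((a1.add a2).add a3).congr fun x i => ?_
  simp only [eb, qf, Pi.add_apply, Pi.smul_apply, smul_eq_mul]
  ring

theorem k0_ord {j : ℕ} {Q : ∀ x, Mat (F.n x)} (hQ : F.M j Q) :
    F.V j (fun x => k0 (P.J x) (P.h x) (P.z x) (Q x)) :=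
  ((P.eb_ord hQ).sub (V.smul (((P.G00.zmul hQ).mul P.G00).trace.mulz P.Ti0) P.m0)).congr' fun x => by
    simp only [k0, div_eq_mul_inv]

theorem ka_ord {j : ℕ} {Q : ∀ x, Mat (F.n x)} (hQ : F.M j Q) :
    F.V j (fun x => ka (P.J x) (P.h x) (P.z x) (Q x)) := (P.Gm0.zmulVec (P.k0_ord hQ)).neg

end PD

/-- context for the crude bounds -/
structure BCtx where
  n : ℕ
  K : ℝ
  J : Mat n
  Q : Mat n
  h : Vec n
  a : Vec n
  z : ℝ
  L : Loc K J h z
  hQ : MB Q K
  ha : ∀ i, |a i| ≤ 1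

noncomputable abbrev BCtx.FF : Frame BCtx where
  K := BCtx.K
  t := fun _ => 1
  n := BCtx.n
  hK c := c.L.hK
  hn c := c.L.hn
  ht0 := fun _ => zero_le_one
  ht1 := fun _ => le_rfl

def BCtx.P0 : PD BCtx.FF := ⟨fun c => c.J, fun c => c.h, fun c => c.z, fun c => c.L⟩

/-- polynomial bounds at a locally good point -/
theorem crude : ∃ p : ℕ, ∀ (n : ℕ) (K : ℝ) (J Q : Mat n) (h : Vec n) (z : ℝ), Loc K J h z → MB Q K →
    MB (Gm J h z) (K ^ p) ∧ MB (Gm J h z * Q) (K ^ p) ∧ (∀ i, |ka J h z Q i| ≤ K ^ p)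
      ∧ (∀ i, |(Gm J h z *ᵥ eb J h z Q) i| ≤ K ^ p)
      ∧ ∀ (a : Vec n) (t : ℝ), (∀ i, |a i| ≤ t) →
        ∀ i, |(Gm J h z *ᵥ bq J h z a) i| ≤ K ^ p * t ^ 2 := by
  have hQ : BCtx.FF.M 0 (fun c => c.Q) := Frame.M.of_K fun c => c.hQ
  have ha : BCtx.FF.V 0 (fun c => c.a) := Frame.V.of_one fun c => c.ha
  obtain ⟨p1, h1⟩ := BCtx.P0.Gm0.out
  obtain ⟨p2, h2⟩ := (BCtx.P0.Gm0.mul hQ).out
  obtain ⟨p3, h3⟩ := (BCtx.P0.ka_ord hQ).out
  obtain ⟨p4, h4⟩ := (BCtx.P0.Gm0.mulVec (BCtx.P0.eb_ord hQ)).out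
  obtain ⟨p5, h5⟩ := (BCtx.P0.Gm0.mulVec (BCtx.P0.bq_ord ha)).out
  refine ⟨p1 + p2 + p3 + p4 + p5, fun n K J Q h z L hQ => ?_⟩
  have K1 : 1 ≤ K := by linarith [L.hK]
  have hp : ∀ q, q ≤ p1 + p2 + p3 + p4 + p5 → ∀ j : ℕ,
      K ^ q * (1 : ℝ) ^ j ≤ K ^ (p1 + p2 + p3 + p4 + p5) := fun q hq j => by
    rw [one_pow, mul_one]; exact pow_le_pow_right₀ K1 hq
  let c0 : BCtx := ⟨n, K, J, Q, h, 0, z, L, hQ, fun i => by simp⟩
  refine ⟨fun i j => (h1 c0 i j).trans (hp _ (by omega) _),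
    fun i j => (h2 c0 i j).trans (hp _ (by omega) _),
    fun i => (h3 c0 i).trans (hp _ (by omega) _),
    fun i => (h4 c0 i).trans (hp _ (by omega) _), fun a t hat i => ?_⟩
  have t0 : 0 ≤ t := (abs_nonneg _).trans (hat i)
  rcases t0.eq_or_lt with rfl | t0
  · have : a = (0 : ℝ) • a := by
      funext j
      have := hat j
      simpa using this
    rw [this, bq_smul]
    simp
  · have e : a = t • (t⁻¹ • a) := by rw [smul_smul, mul_inv_cancel₀ t0.ne', one_smul]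
    let c1 : BCtx := ⟨n, K, J, Q, h, t⁻¹ • a, z, L, hQ, fun j => by
      rw [Pi.smul_apply, smul_eq_mul, abs_mul, abs_of_pos (inv_pos.2 t0), inv_mul_le_iff₀ t0,
        mul_one]
      exact hat j⟩
    have := (h5 c1 i).trans (hp _ (by omega) _)
    change |(Gm J h z *ᵥ bq J h z (t⁻¹ • a)) i| ≤ _ at this
    rw [e, bq_smul, Matrix.mulVec_smul, Pi.smul_apply, smul_eq_mul, abs_mul,
      abs_of_nonneg (sq_nonneg t), mul_comm]
    exact mul_le_mul_of_nonneg_right this (sq_nonneg t)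

/-! ### `Loc` from operator bounds -/

theorem MB.mono {m : ℕ} {A : Matrix (Fin n) (Fin m) ℝ} {a b : ℝ} (h : MB A a) (hab : a ≤ b) :
    MB A b := fun i j => (h i j).trans hab

theorem MB_of_opLe {A : Mat n} {C : ℝ} (h : OpLe A C) (hC : 0 ≤ C) : MB A C := fun i j => by
  have h1 := h.nv_le hC (Pi.single j 1)
  have h2 : nv (Pi.single j (1 : ℝ) : Vec n) = 1 := by
    rw [nv_eq_sqrt]
    have : F.sq (Pi.single j (1 : ℝ) : Vec n) = 1 := by
      simp [F.sq, Pi.single_apply]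
    rw [this, Real.sqrt_one]
  rw [h2, mul_one] at h1
  have h3 := abs_le_nv (A *ᵥ Pi.single j 1) i
  have h4 : (A *ᵥ Pi.single j 1) i = A i j := by simp
  rw [h4] at h3
  exact h3.trans h1

theorem isUnit_of_low {A : Mat n} {C : ℝ} (h : ∀ w, nv w ≤ C * nv (A *ᵥ w)) : IsUnit A.det := by
  rw [← Matrix.isUnit_iff_isUnit_det, ← Matrix.mulVec_injective_iff_isUnit]
  intro u v huv
  have h1 := h (u - v)
  have h2 : A *ᵥ (u - v) = 0 := by
    rw [Matrix.mulVec_sub]; exact sub_eq_zero.2 huv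
  rw [h2, nv_zero, mul_zero] at h1
  funext i
  have := (abs_le_nv (u - v) i).trans h1
  exact sub_eq_zero.1 (abs_nonpos_iff.1 this)

theorem opLe_inv_of_low {A : Mat n} {C : ℝ} (h : ∀ w, nv w ≤ C * nv (A *ᵥ w)) : OpLe A⁻¹ C := by
  refine opLe_of_nv fun v => ?_
  have := h (A⁻¹ *ᵥ v)
  rwa [Matrix.mulVec_mulVec, Matrix.mul_nonsing_inv _ (isUnit_of_low h), Matrix.one_mulVec] at this

theorem low_of_pos {A : Mat n} {C : ℝ} (hC : 0 ≤ C) (h : ∀ w, F.sq w ≤ C * qf A w) (w : Vec n) :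
    nv w ≤ C * nv (A *ᵥ w) := by
  have h1 := h w
  have h2 : qf A w ≤ nv w * nv (A *ᵥ w) := ip_le _ _
  rw [← nv_sq] at h1
  rcases (nv_nonneg w).eq_or_lt with h0 | h0
  · rw [← h0]; exact mul_nonneg hC (nv_nonneg _)
  · have : nv w * nv w ≤ nv w * (C * nv (A *ᵥ w)) := by nlinarith
    exact le_of_mul_le_mul_left this h0

theorem sq_trace_le {G : Mat n} (hG : G.IsSymm) : G.trace ^ 2 ≤ n * (G * G).trace := by
  have h1 : G.trace ^ 2 ≤ n * ∑ i, G i i ^ 2 := by
    have := sq_sum_le_card_mul_sum_sq (s := Finset.univ) (f := fun i : Fin n => G i i)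
    rw [Finset.card_univ, Fintype.card_fin] at this
    exact this
  refine h1.trans (mul_le_mul_of_nonneg_left ?_ (Nat.cast_nonneg _))
  change _ ≤ ∑ i, (G * G) i i
  refine Finset.sum_le_sum fun i _ => ?_
  rw [Matrix.mul_apply]
  have e : ∀ j, G i j * G j i = G i j ^ 2 := fun j => by rw [hG.apply i j]; ring
  simp_rw [e]
  exact Finset.single_le_sum (f := fun j => G i j ^ 2) (fun j _ => sq_nonneg _) (Finset.mem_univ i)

theorem Loc.mono {K K' : ℝ} {J : Mat n} {h : Vec n} {z : ℝ} (L : Loc K J h z) (hK : K ≤ K') :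
    Loc K' J h z :=
  ⟨L.hK.trans hK, L.hn.trans hK, L.npos, L.uN, L.bN.mono hK, L.bG0.mono hK,
    L.bw.trans (mul_le_mul_of_nonneg_right hK L.wb_pos.le),
    L.bT.trans (mul_le_mul_of_nonneg_right hK L.T2_pos.le), L.uL, L.bGam.mono hK⟩

/-- `Loc` from operator bounds at an exact solution of the trace equation -/
theorem loc_of_op {K : ℝ} {J : Mat n} {h : Vec n} {z : ℝ} (hK : 2 ≤ K) (hn : (n : ℝ) ≤ K)
    (npos : 0 < n) (hJ : J.IsSymm) (hN : OpLe (Nm J z) K)
    (hpos : ∀ w, F.sq w ≤ K * qf (Nm J z) w) (hw : 1 ≤ K * wb h) (hres : res2 J h z = 0)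
    (hL : ∀ w, nv w ≤ K * nv (Lm J h z *ᵥ w)) : Loc (K ^ 2) J h z := by
  have K0 : 0 ≤ K := by linarith
  have K2 : K ≤ K ^ 2 := by nlinarith
  have hl := low_of_pos K0 hpos
  have wpos : 0 < wb h := by
    by_contra hc
    have := mul_nonpos_of_nonneg_of_nonpos K0 (not_lt.1 hc)
    linarith
  refine ⟨hK.trans K2, hn.trans K2, npos, isUnit_of_low hl, (MB_of_opLe hN K0).mono K2,
    (MB_of_opLe (opLe_inv_of_low hl) K0).mono K2,
    hw.trans (mul_le_mul_of_nonneg_right K2 wpos.le), ?_, isUnit_of_low hL,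
    (MB_of_opLe (opLe_inv_of_low hL) K0).mono K2⟩
  have h1 := sq_trace_le (G0_symm hJ z)
  have n1 : (1 : ℝ) ≤ n := by exact_mod_cast npos
  have h2 : (G0 J z).trace = n * wb h := by
    have : (G0 J z).trace = ∑ i, dv h i := sub_eq_zero.1 hres
    rw [this, wb]; field_simp
  rw [h2] at h1
  change _ ≤ n * T2 J z at h1
  have h3 : n * wb h ^ 2 ≤ T2 J z := by
    have : n * (n * wb h ^ 2) ≤ n * T2 J z := by nlinarith
    exact le_of_mul_le_mul_left this (by linarith)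
  have h4 : 1 ≤ (K * wb h) ^ 2 := one_le_pow₀ hw
  have h5 : wb h ^ 2 ≤ T2 J z := by nlinarith [sq_nonneg (wb h)]
  calc 1 ≤ K ^ 2 * wb h ^ 2 := by rw [← mul_pow]; exact h4
    _ ≤ K ^ 2 * T2 J z := by gcongr

/-! ### a priori bound on the change of `z` -/

theorem qf_inv_nonneg {N : Mat n} (hN : IsUnit N.det) (hp : ∀ w, 0 ≤ qf N w) (w : Vec n) :
    0 ≤ qf N⁻¹ w := by
  have := hp (N⁻¹ *ᵥ w)
  rw [qf, Matrix.mulVec_mulVec, Matrix.mul_nonsing_inv _ hN, Matrix.one_mulVec, ipN_comm] at this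
  exact this

theorem trace_conj_nonneg {A G : Mat n} (hp : ∀ w, 0 ≤ qf G w) : 0 ≤ (Aᵀ * G * A).trace := by
  change 0 ≤ ∑ i, (Aᵀ * G * A) i i
  refine Finset.sum_nonneg fun i _ => ?_
  have e : (Aᵀ * G * A) i i = qf G (fun k => A k i) := by
    simp only [qf, ip, Matrix.mul_apply, Matrix.transpose_apply, Matrix.mulVec, dotProduct,
      Finset.mul_sum, Finset.sum_mul]
    rw [Finset.sum_comm]
    exact Finset.sum_congr rfl fun k _ => Finset.sum_congr rfl fun l _ => by ring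
  rw [e]; exact hp _

theorem trace_inv_ge {N E : Mat n} (sN : N.IsSymm) (sE : E.IsSymm) (hN : IsUnit N.det)
    (hN' : IsUnit (N + E).det) (hp : ∀ w, 0 ≤ qf (N + E) w) :
    N⁻¹.trace - (N⁻¹ * E * N⁻¹).trace ≤ (N + E)⁻¹.trace := by
  have a := Matrix.nonsing_inv_mul N hN
  have a' := Matrix.mul_nonsing_inv N hN
  have b := Matrix.mul_nonsing_inv (N + E) hN'
  have b' := Matrix.nonsing_inv_mul (N + E) hN'
  have sG : N⁻¹ᵀ = N⁻¹ := by rw [Matrix.transpose_nonsing_inv, sN.eq]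
  set G := N⁻¹
  set G' := (N + E)⁻¹
  have h1 : G' = G - G * E * G' := by
    calc G' = G * N * G' := by rw [a, Matrix.one_mul]
      _ = G * ((N + E) * G') - G * E * G' := by noncomm_ring
      _ = _ := by rw [b, Matrix.mul_one]
  have h2 : G' = G - G' * E * G := by
    calc G' = G' * (N * G) := by rw [a', Matrix.mul_one]
      _ = (G' * (N + E)) * G - G' * E * G := by noncomm_ring
      _ = _ := by rw [b', Matrix.one_mul]
  have h3 : G' = G - G * E * G + (E * G)ᵀ * G' * (E * G) := by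
    rw [Matrix.transpose_mul, sG, sE.eq]
    calc G' = G - G * E * G' := h1
      _ = G - G * E * (G - G' * E * G) := congrArg (fun A => G - G * E * A) h2
      _ = _ := by noncomm_ring
  have h4 := trace_conj_nonneg (A := E * G) (qf_inv_nonneg hN' hp)
  have h5 := congrArg Matrix.trace h3
  rw [Matrix.trace_add, Matrix.trace_sub] at h5
  linarith

/-- context for the bound on `z' - z` -/
structure ZCtx where
  n : ℕ
  K : ℝ
  t : ℝ
  J : Mat n
  Δ : Mat n
  h : Vec n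
  h' : Vec n
  z : ℝ
  z' : ℝ
  L : Loc K J h z
  L' : Loc K (J - Δ) h' z'
  sJ : J.IsSymm
  sΔ : Δ.IsSymm
  pN : ∀ w, 0 ≤ qf (Nm J z) w
  pN' : ∀ w, 0 ≤ qf (Nm (J - Δ) z') w
  t0 : 0 ≤ t
  t1 : t ≤ 1
  dh : ∀ i, |h' i - h i| ≤ t
  dΔ : MB Δ t
  r2 : |res2 J h z| ≤ t
  r2' : |res2 (J - Δ) h' z'| ≤ t

abbrev ZCtx.FF : Frame ZCtx where
  K := ZCtx.K
  t := ZCtx.t
  n := ZCtx.n
  hK c := c.L.hK
  hn c := c.L.hn
  ht0 := ZCtx.t0
  ht1 := ZCtx.t1

def ZCtx.P0 : PD ZCtx.FF := ⟨fun c => c.J, fun c => c.h, fun c => c.z, fun c => c.L⟩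
def ZCtx.P1 : PD ZCtx.FF := ⟨fun c => c.J - c.Δ, fun c => c.h', fun c => c.z', fun c => c.L'⟩

theorem ZCtx.main : ZCtx.FF.O 1 (fun c => c.z' - c.z) := by
  have hΔ : FF.M 1 (fun c => c.Δ) := Frame.M.of_t fun c i j => by rw [pow_one]; exact c.dΔ i j
  have r2 : FF.O 1 (fun c => res2 c.J c.h c.z) := Frame.O.of_t fun c => by
    rw [pow_one]; exact c.r2
  have r2' : FF.O 1 (fun c => res2 (c.J - c.Δ) c.h' c.z') := Frame.O.of_t fun c => by
    rw [pow_one]; exact c.r2'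
  have dd : FF.V 1 (fun c => dv c.h - dv c.h') := Frame.V.of_t fun c i => by
    rw [pow_one]
    have e : (dv c.h - dv c.h') i = Real.tanh (c.h' i) ^ 2 - Real.tanh (c.h i) ^ 2 := by
      simp only [dv, Pi.sub_apply]; ring
    rw [e]
    exact (abs_tanh_sq_sub_le _ _).trans (c.dh i)
  have a := (dd.sum.add r2).sub r2'
  have q := ((P0.G00.zmul hΔ).mul P0.G00).trace
  have q' := ((P1.G00.zmul hΔ).mul P1.G00).trace
  have lo := P0.Ti0.zmul (a.sub q)
  have hi := P1.Ti0.zmul (a.sub q')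
  obtain ⟨p1, h1⟩ := lo.out
  obtain ⟨p2, h2⟩ := hi.out
  refine Frame.O.of_bd (q := p1 + p2) fun c => ?_
  have b1 := (h1 c).trans (Frame.pow_mono c (Nat.le_add_right p1 p2) 1)
  have b2 := (h2 c).trans (Frame.pow_mono c (Nat.le_add_left p2 p1) 1)
  set E : Mat c.n := (c.z' - c.z) • (1 : Mat c.n) + c.Δ with hE
  have sE : E.IsSymm := by
    unfold Matrix.IsSymm
    rw [hE, Matrix.transpose_add, Matrix.transpose_smul, Matrix.transpose_one, c.sΔ.eq]
  have sE' : (-E).IsSymm := by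
    unfold Matrix.IsSymm
    rw [Matrix.transpose_neg, sE.eq]
  have e1 : Nm (c.J - c.Δ) c.z' = Nm c.J c.z + E := by
    simp only [Nm, hE, sub_smul]; abel
  have e2 : Nm c.J c.z = Nm (c.J - c.Δ) c.z' + -E := by rw [e1]; abel
  have sJ' : (c.J - c.Δ).IsSymm := by
    unfold Matrix.IsSymm
    rw [Matrix.transpose_sub, c.sJ.eq, c.sΔ.eq]
  have i1 := trace_inv_ge (Nm_symm c.sJ c.z) sE c.L.uN (e1 ▸ c.L'.uN) (e1 ▸ c.pN')
  have i2 := trace_inv_ge (Nm_symm sJ' c.z') sE' c.L'.uN (e2 ▸ c.L.uN) (e2 ▸ c.pN)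
  rw [← e1] at i1
  rw [← e2] at i2
  have x1 : ∀ G : Mat c.n, (G * E * G).trace = (c.z' - c.z) * (G * G).trace
      + (G * c.Δ * G).trace := fun G => by
    simp only [hE, Matrix.mul_add, Matrix.add_mul, Matrix.mul_smul, Matrix.smul_mul,
      Matrix.mul_one, Matrix.trace_add, Matrix.trace_smul, smul_eq_mul]
  rw [x1] at i1
  rw [Matrix.mul_neg, Matrix.neg_mul, Matrix.trace_neg, x1] at i2
  have ea : (∑ i, (dv c.h - dv c.h') i) + res2 c.J c.h c.z - res2 (c.J - c.Δ) c.h' c.z'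
      = (G0 c.J c.z).trace - (G0 (c.J - c.Δ) c.z').trace := by
    simp only [res2, Pi.sub_apply, Finset.sum_sub_distrib]; ring
  change |(T2 c.J c.z)⁻¹ * ((∑ i, (dv c.h - dv c.h') i) + res2 c.J c.h c.z
    - res2 (c.J - c.Δ) c.h' c.z' - (G0 c.J c.z * c.Δ * G0 c.J c.z).trace)| ≤ _ at b1
  change |(T2 (c.J - c.Δ) c.z')⁻¹ * ((∑ i, (dv c.h - dv c.h') i) + res2 c.J c.h c.z
    - res2 (c.J - c.Δ) c.h' c.z'
    - (G0 (c.J - c.Δ) c.z' * c.Δ * G0 (c.J - c.Δ) c.z').trace)| ≤ _ at b2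
  rw [ea] at b1 b2
  have T := c.L.T2_pos
  have T' := c.L'.T2_pos
  have j1 : (T2 c.J c.z)⁻¹ * ((G0 c.J c.z).trace - (G0 (c.J - c.Δ) c.z').trace
      - (G0 c.J c.z * c.Δ * G0 c.J c.z).trace) ≤ c.z' - c.z := by
    rw [inv_mul_le_iff₀ T]
    change (G0 c.J c.z).trace - ((c.z' - c.z) * T2 c.J c.z
      + (G0 c.J c.z * c.Δ * G0 c.J c.z).trace) ≤ (G0 (c.J - c.Δ) c.z').trace at i1
    linarith
  have j2 : c.z' - c.z ≤ (T2 (c.J - c.Δ) c.z')⁻¹ * ((G0 c.J c.z).trace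
      - (G0 (c.J - c.Δ) c.z').trace
      - (G0 (c.J - c.Δ) c.z' * c.Δ * G0 (c.J - c.Δ) c.z').trace) := by
    rw [le_inv_mul_iff₀ T']
    change (G0 (c.J - c.Δ) c.z').trace - -((c.z' - c.z) * T2 (c.J - c.Δ) c.z'
      + (G0 (c.J - c.Δ) c.z' * c.Δ * G0 (c.J - c.Δ) c.z').trace) ≤ (G0 c.J c.z).trace at i2
    linarith
  exact abs_le.2 ⟨(neg_le_of_abs_le b1).trans j1, j2.trans (le_of_abs_le b2)⟩

/-- a priori bound on `z' - z` from positivity -/
theorem dz_le : ∃ p : ℕ, ∀ (n : ℕ) (K t : ℝ) (J Δ : Mat n) (h h' : Vec n) (z z' : ℝ),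
    Loc K J h z → Loc K (J - Δ) h' z' → J.IsSymm → Δ.IsSymm → (∀ w, 0 ≤ qf (Nm J z) w) →
    (∀ w, 0 ≤ qf (Nm (J - Δ) z') w) → 0 ≤ t → t ≤ 1 → (∀ i, |h' i - h i| ≤ t) → MB Δ t →
    |res2 J h z| ≤ t → |res2 (J - Δ) h' z'| ≤ t → |z' - z| ≤ K ^ p * t := by
  obtain ⟨p, hp⟩ := ZCtx.main.out
  refine ⟨p, fun n K t J Δ h h' z z' L L' sJ sΔ pN pN' t0 t1 dh dΔ r2 r2' => ?_⟩
  have := hp ⟨n, K, t, J, Δ, h, h', z, z', L, L', sJ, sΔ, pN, pN', t0, t1, dh, dΔ, r2, r2'⟩
  rwa [pow_one] at this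

end Vale.Agent.N150.EC
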