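import Vale.Agent.N150.T1Kit
import Vale.Agent.N150.ECAux
import Vale.Agent.N150.Tail2

/-! Block T1: joint measurability of the roots and of the Picard iterates, the statement `ZStmt`,
assembly of THEOREM T1. -/

open Matrix MeasureTheory Filter Topology

namespace Vale.Agent.N150.T1

open Vale.Agent.P150 Vale.Agent.P150.F Vale.Agent.N150.EC Vale.Agent.N150.Sp Vale.Agent.N150.Fib
open Vale.Agent.P150.F.Ms

variable {n : ℕ}

theorem exists_JO {J : Mat n} (hJ : Jᵀ = J) : ∃ (lam : Vec n) (O : OG n), J = JO lam O := by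
  obtain ⟨U, lam, h1, h2, h3⟩ := Tail.exists_eig J hJ
  refine ⟨lam, OG.mk' Uᵀ (by rw [transpose_transpose, h2]), ?_⟩
  unfold JO
  rw [OG.mk'_val, transpose_transpose, h3]

theorem symm_of_posDef {J : Mat n} {z : ℝ} (h : (Nm J z).PosDef) : Jᵀ = J := by
  have h1 : (Nm J z)ᵀ = Nm J z := by
    have := h.isHermitian
    rwa [Matrix.IsHermitian, Matrix.conjTranspose_eq_transpose_of_trivial] at this
  unfold Nm at h1
  rw [transpose_sub, transpose_smul, transpose_one] at h1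
  exact sub_right_injective h1

/-- monotonicity in `z` above the spectrum -/
theorem up_mono {J : Mat n} {z z' : ℝ} (h : (Nm J z).PosDef) (hz : z ≤ z') (y : Vec n) :
    (Nm J z').PosDef ∧ (G0 J z').trace ≤ (G0 J z).trace ∧
      F.sq (G0 J z' *ᵥ y) ≤ F.sq (G0 J z *ᵥ y) := by
  obtain ⟨lam, O, rfl⟩ := exists_JO (symm_of_posDef h)
  rw [posDef_Nm] at h
  have h' : ∀ a, lam a < z' := fun a => (h a).trans_le hz
  refine ⟨(posDef_Nm O).2 h', ?_, ?_⟩
  · rw [trace_G0 h, trace_G0 h']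
    exact Finset.sum_le_sum fun a _ => inv_anti₀ (sub_pos.2 (h a)) (by linarith)
  · rw [← OG.tr_mulVec_mulVec O y, sq_G0 h, sq_G0 h']
    exact sum_sq_le h hz _

theorem diag_lt_of_posDef {J : Mat n} {z : ℝ} (h : (Nm J z).PosDef) (i : Fin n) : J i i < z := by
  have := h.diag_pos (i := i)
  simpa [Nm] using this

section meas

variable {X : Type*} [MeasurableSpace X]

theorem ms_posDef {A : X → Mat n} (hA : MMat A) : MeasurableSet {x | (A x).PosDef} := by
  have e : {x | (A x).PosDef} = {x | IsUnit (A x).det} ∩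
      (fun x => (fun i j => A x i j : Fin n → Fin n → ℝ)) ⁻¹'
        {M | (∀ i j, M j i = M i j) ∧ ∀ v : Vec n, 0 ≤ ∑ i, v i * ∑ j, M i j * v j} := by
    ext x
    simp only [Set.mem_ofPred_eq, Set.mem_inter_iff, Set.mem_preimage]
    constructor
    · intro h
      refine ⟨(Matrix.isUnit_iff_isUnit_det _).1 h.isUnit, fun i j => ?_, fun v => ?_⟩
      · simpa using h.isHermitian.apply i j
      · simpa [dotProduct, Matrix.mulVec] using h.posSemidef.dotProduct_mulVec_nonneg v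
    · rintro ⟨h1, h2, h3⟩
      have hp : (A x).PosSemidef := by
        rw [Matrix.posSemidef_iff_dotProduct_mulVec]
        refine ⟨?_, fun v => by simpa [dotProduct, Matrix.mulVec] using h3 v⟩
        ext i j
        simpa using h2 i j
      exact hp.posDef_iff_isUnit.2 ((Matrix.isUnit_iff_isUnit_det _).2 h1)
  rw [e]
  refine (ms_unit hA).inter ((measurable_pi_iff.2 fun i => measurable_pi_iff.2 fun j => hA i j) ?_)
  refine IsClosed.measurableSet ?_
  simp only [Set.ofPred_and, Set.ofPred_forall]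
  refine IsClosed.inter (isClosed_iInter fun i => isClosed_iInter fun j => isClosed_eq ?_ ?_)
    (isClosed_iInter fun v => isClosed_le continuous_const ?_) <;> fun_prop

/-- the infimum of a measurable family of upper sets which are bounded below -/
theorem measurable_sInf_up {T : X → Set ℝ} (hm : ∀ q : ℚ, MeasurableSet {x | (q : ℝ) ∈ T x})
    (hu : ∀ x z z', z ∈ T x → z ≤ z' → z' ∈ T x) (hb : ∀ x, BddBelow (T x)) :
    Measurable fun x => sInf (T x) := by
  refine measurable_of_Iio fun c => ?_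
  have e : (fun x => sInf (T x)) ⁻¹' Set.Iio c = (⋃ q : ℚ, {x | (q : ℝ) < c} ∩ {x | (q : ℝ) ∈ T x}) ∪
      ((⋃ q : ℚ, {x | (q : ℝ) ∈ T x})ᶜ ∩ {_x | 0 < c}) := by
    ext x
    simp only [Set.mem_preimage, Set.mem_Iio, Set.mem_union, Set.mem_iUnion, Set.mem_inter_iff,
      Set.mem_ofPred_eq, Set.mem_compl_iff, not_exists]
    rcases (T x).eq_empty_or_nonempty with h0 | h0
    · simp [h0]
    · rw [csInf_lt_iff (hb x) h0]
      constructor
      · rintro ⟨z, hz, hc⟩
        obtain ⟨q, h1, h2⟩ := exists_rat_btwn hc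
        exact Or.inl ⟨q, h2, hu x z q hz h1.le⟩
      · rintro (⟨q, h1, h2⟩ | ⟨h1, -⟩)
        · exact ⟨q, h2, h1⟩
        · obtain ⟨z, hz⟩ := h0
          obtain ⟨q, hq⟩ := exists_rat_gt z
          exact absurd (hu x z q hz hq.le) (h1 q)
  rw [e]
  exact (MeasurableSet.iUnion fun q => (MeasurableSet.const _).inter (hm q)).union
    ((MeasurableSet.iUnion hm).compl.inter (MeasurableSet.const _))

theorem sInf_zero_dim {T : Set ℝ} (h : ∀ z z', z ∈ T → z' ∈ T) : sInf T = 0 := by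
  rcases T.eq_empty_or_nonempty with h0 | ⟨z, hz⟩
  · rw [h0, Real.sInf_empty]
  · rw [Set.eq_univ_of_forall fun z' => h z z' hz, Real.sInf_univ]

variable {J : X → Mat n} {y h : X → Vec n}

theorem ms_zr (hJ : MMat J) {τ : X → ℝ} (hτ : Measurable τ) :
    Measurable fun x => zr (J x) (τ x) := by
  rcases Nat.eq_zero_or_pos n with rfl | hn
  · have e : (fun x => zr (J x) (τ x)) = fun _ => 0 := funext fun x =>
      sInf_zero_dim fun z z' hz => ⟨by rw [Subsingleton.elim (Nm (J x) z') (Nm (J x) z)]; exact hz.1,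
        by rw [Subsingleton.elim (G0 (J x) z') (G0 (J x) z)]; exact hz.2⟩
    rw [e]
    exact measurable_const
  · refine measurable_sInf_up (fun q => ?_) (fun x z z' hz hle => ?_) fun x => ?_
    · exact (ms_posDef (mm_Nm hJ measurable_const)).inter
        (measurableSet_le (mm_trace (mm_G0 hJ measurable_const)) hτ)
    · exact ⟨(up_mono hz.1 hle 0).1, (up_mono hz.1 hle 0).2.1.trans hz.2⟩
    · exact ⟨J x ⟨0, hn⟩ ⟨0, hn⟩, fun z hz => (diag_lt_of_posDef hz.1 _).le⟩

theorem ms_sq {v : X → Vec n} (hv : MVec v) : Measurable fun x => F.sq (v x) :=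
  Finset.measurable_fun_sum _ fun i _ => (hv i).pow_const 2

theorem ms_ip {u v : X → Vec n} (hu : MVec u) (hv : MVec v) : Measurable fun x => ip (u x) (v x) :=
  Finset.measurable_fun_sum _ fun i _ => (hu i).mul (hv i)

theorem ms_nv {v : X → Vec n} (hv : MVec v) : Measurable fun x => nv (v x) := by
  simp only [nv_eq_sqrt]
  exact (ms_sq hv).sqrt

theorem ms_zs (hJ : MMat J) (hy : MVec y) : Measurable fun x => zs (J x) (y x) := by
  rcases Nat.eq_zero_or_pos n with rfl | hn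
  · have e : (fun x => zs (J x) (y x)) = fun _ => 0 := funext fun x =>
      sInf_zero_dim fun z z' hz => ⟨by rw [Subsingleton.elim (Nm (J x) z') (Nm (J x) z)]; exact hz.1,
        by rw [Subsingleton.elim (G0 (J x) z') (G0 (J x) z)]; exact hz.2⟩
    rw [e]
    exact measurable_const
  · refine measurable_sInf_up (fun q => ?_) (fun x z z' hz hle => ?_) fun x => ?_
    · exact (ms_posDef (mm_Nm hJ measurable_const)).inter
        (measurableSet_le ((mm_trace (mm_G0 hJ measurable_const)).add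
          (ms_sq ((mm_G0 hJ measurable_const).mulVec hy))) measurable_const)
    · have := up_mono hz.1 hle (y x)
      exact ⟨this.1, (add_le_add this.2.1 this.2.2).trans hz.2⟩
    · exact ⟨J x ⟨0, hn⟩ ⟨0, hn⟩, fun z hz => (diag_lt_of_posDef hz.1 _).le⟩

theorem ms_zh (hJ : MMat J) (hh : MVec h) : Measurable fun x => zh (J x) (h x) :=
  ms_zr hJ (Finset.measurable_fun_sum _ fun i _ => mv_dv hh i)

theorem mv_chi (hh : MVec h) : MVec fun x => chi (h x) :=
  (mv_smul (ms_wb hh).inv (mv_tm hh)).sub hh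

theorem mv_rs1 (hJ : MMat J) (hy : MVec y) (hh : MVec h) : MVec fun x => rs1 (J x) (y x) (h x) :=
  mv_res1 hJ hy hh (ms_zh hJ hh)

theorem mv_Psi (hJ : MMat J) (hy : MVec y) (hh : MVec h) : MVec fun x => Psi (J x) (y x) (h x) :=
  (mm_G0 hJ (ms_zh hJ hh)).mulVec (mv_rs1 hJ hy hh)

theorem mm_G00 (hJ : MMat J) (hy : MVec y) : MMat fun x => G00 (J x) (y x) :=
  mm_G0 hJ (ms_zs hJ hy)

theorem mv_h0 (hJ : MMat J) (hy : MVec y) : MVec fun x => h0 (J x) (y x) :=
  (mm_G00 hJ hy).mulVec hy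

theorem ms_w0 (hJ : MMat J) (hy : MVec y) : Measurable fun x => w0 (J x) (y x) :=
  (mm_trace (mm_G00 hJ hy)).div_const _

theorem ms_T20 (hJ : MMat J) (hy : MVec y) : Measurable fun x => T20 (J x) (y x) :=
  ms_T2 hJ (ms_zs hJ hy)

theorem mm_AA (hJ : MMat J) (hy : MVec y) : MMat fun x => AA (J x) (y x) :=
  mm_add (MMat.smul (ms_w0 hJ hy) (MMat.const 1))
    (MMat.smul (measurable_const.div (ms_T20 hJ hy))
      (mm_vecMulVec ((mm_G00 hJ hy).mulVec (mv_h0 hJ hy)) (mv_h0 hJ hy)))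

theorem mm_Gs (hJ : MMat J) (hy : MVec y) : MMat fun x => Gs (J x) (y x) :=
  (mm_G00 hJ hy).sub (MMat.smul (measurable_const.div ((ms_T20 hJ hy).add
    (measurable_const.mul (ms_ip (mv_h0 hJ hy) ((mm_G00 hJ hy).mulVec (mv_h0 hJ hy))))))
    (mm_vecMulVec ((mm_G00 hJ hy).mulVec (mv_h0 hJ hy)) ((mm_G00 hJ hy).mulVec (mv_h0 hJ hy))))

theorem mv_Pic (hJ : MMat J) (hy : MVec y) (hh : MVec h) : MVec fun x => Pic (J x) (y x) (h x) :=
  hh.sub ((mm_inv (mm_AA hJ hy)).mulVec (mv_Psi hJ hy hh))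

theorem mv_it (hJ : MMat J) (hy : MVec y) (j : ℕ) : MVec fun x => it (J x) (y x) j := by
  induction j with
  | zero => exact mv_h0 hJ hy
  | succ j ih =>
    simp only [it_succ]
    exact mv_Pic hJ hy ih

theorem measurable_it (hJ : Fib.MM J) (hy : Measurable y) (j : ℕ) :
    Measurable fun x => it (J x) (y x) j := (mv_it hJ (mvec_of hy) j).measurable

theorem mv_clip (θ : ℝ) (hh : MVec h) : MVec fun x => clip θ (h x) := fun i =>
  measurable_const.max (measurable_const.min (hh i))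

theorem ms_ddt {a b : X → ℝ} (ha : Measurable a) (hb : Measurable b) :
    Measurable fun x => ddt (a x) (b x) := by
  have ht : Measurable Real.tanh := by
    have e : Real.tanh = fun x => Real.sinh x / Real.cosh x := funext Real.tanh_eq_sinh_div_cosh
    rw [e]
    fun_prop
  unfold ddt
  exact Measurable.ite (measurableSet_eq_fun ha hb)
    (measurable_const.sub ((ht.comp ha).pow_const 2))
    (((ht.comp ha).sub (ht.comp hb)).div (ha.sub hb))

theorem mm_VW {h' : X → Vec n} (hh : MVec h) (hh' : MVec h') : MMat fun x => VW (h x) (h' x) :=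
  mm_add (mm_diagonal fun i => (ms_ddt (hh i) (hh' i)).sub (ms_wb hh))
    (MMat.smul (measurable_const.div (measurable_const.mul (ms_wb hh')))
      (mm_vecMulVec (mv_tm hh') fun i =>
        (((mv_tm hh i).add (mv_tm hh' i)).mul (ms_ddt (hh i) (hh' i))).div_const 2))

end meas

theorem mm_JO (u : Vec n) : Fib.MM fun O : OG n => JO u O :=
  (mm_val.transpose.mul (Fib.MM.const _)).mul mm_val

namespace Dat

variable (S : Dat n)

theorem mm_J : Fib.MM S.J := mm_JO _

theorem measurable_y : Measurable S.y := mm_val.transpose.mulVec measurable_const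

theorem measurable_h (j : ℕ) : Measurable fun O => S.h O j := measurable_it S.mm_J S.measurable_y j

theorem measurable_hc (t : ℝ) : Measurable (S.hc t) :=
  (mv_clip _ (mvec_of (S.measurable_h 3))).measurable

theorem measurable_zh (j : ℕ) : Measurable fun O => zh (S.J O) (S.h O j) :=
  ms_zh S.mm_J (mvec_of (S.measurable_h j))

end Dat

/-! ### zero field -/

theorem chi_zero : chi (0 : Vec n) = 0 := by
  funext i
  simp [chi, tm]

theorem it_zero (J : Mat n) (j : ℕ) : it J 0 j = 0 := by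
  induction j with
  | zero => simp [it, h0]
  | succ j ih =>
    have e : tm (0 : Vec n) = 0 := by
      funext i
      simp [tm]
    rw [it_succ, ih]
    simp [Pic, Psi, rs1, res1, e]

/-! ### location of `z(h)` -/

theorem sum_dv (hn : 0 < n) (h : Vec n) : ∑ i, dv h i = n * wb h := by
  unfold wb
  rw [mul_div_cancel₀ _ (by exact_mod_cast hn.ne')]

namespace Adm

variable {L t : ℝ} {S : Dat n} (h : Adm L t S) (hs : Sm L t)
include h hs

omit hs in
/-- comparison of the resolvents near the saddle -/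
theorem gap_near {z : ℝ} (hz : |z - S.z0| ≤ t ^ 288000 / L) (a : Fin n) :
    (S.z0 - S.lam a) / 2 ≤ z - S.lam a ∧ z - S.lam a ≤ 3 / 2 * (S.z0 - S.lam a) := by
  have e := h.gap_ge a
  rw [mul_div_assoc] at e
  have e2 := abs_le.1 hz
  constructor <;> linarith [e2.1, e2.2]

theorem lt_near {z : ℝ} (hz : |z - S.z0| ≤ t ^ 288000 / L) (a : Fin n) : S.lam a < z := by
  linarith [(h.gap_near hz a).1, h.gap_pos hs a]

theorem inv_near {z : ℝ} (hz : |z - S.z0| ≤ t ^ 288000 / L) (a : Fin n) :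
    2 / 3 * S.g a ≤ (z - S.lam a)⁻¹ ∧ (z - S.lam a)⁻¹ ≤ 2 * S.g a := by
  have e := h.gap_near hz a
  have p := h.gap_pos hs a
  have p' := sub_pos.2 (h.lt_near hs hz a)
  unfold Dat.g
  constructor
  · rw [← div_eq_mul_inv, ← one_div, div_le_div_iff₀ p p']
    linarith [e.2]
  · rw [← div_eq_mul_inv, ← one_div, div_le_div_iff₀ p' p]
    linarith [e.1]

theorem tr_sub {z : ℝ} (hz : |z - S.z0| ≤ t ^ 288000 / L) :
    ∑ a, S.g a - ∑ a, (z - S.lam a)⁻¹ = (z - S.z0) * ∑ a, S.g a * (z - S.lam a)⁻¹ := by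
  rw [← Finset.sum_sub_distrib, Finset.mul_sum]
  refine Finset.sum_congr rfl fun a _ => ?_
  have p := (h.gap_pos hs a).ne'
  have p' := (sub_pos.2 (h.lt_near hs hz a)).ne'
  unfold Dat.g
  field_simp
  ring

theorem cross_ge {z : ℝ} (hz : |z - S.z0| ≤ t ^ 288000 / L) :
    (n : ℝ) ≤ 2 * L * t ^ 144000 * ∑ a, S.g a * (z - S.lam a)⁻¹ := by
  have e : 1 / 2 * ∑ a, S.g a ^ 2 ≤ ∑ a, S.g a * (z - S.lam a)⁻¹ := by
    rw [Finset.mul_sum]
    refine Finset.sum_le_sum fun a _ => ?_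
    nlinarith [(h.inv_near hs hz a).1, h.g_pos hs a]
  have e2 := mul_le_mul_of_nonneg_left e (mul_pos hs.L0 (hs.p0 144000)).le
  linarith [h.t2lo]

/-- the root of the trace equation for `w` close to `w0` -/
theorem root {w : ℝ} (hw : |w - S.w| ≤ t ^ 144010) :
    ∃ z, |z - S.z0| ≤ t ^ 288000 / L ∧ ∑ a, (z - S.lam a)⁻¹ = n * w ∧
      |z - S.z0| ≤ t ^ 143999 * |w - S.w| := by
  have hn := h.npos'
  have L0 := hs.L0
  set δ := t ^ 288000 / L with hδ
  have δ0 : 0 < δ := div_pos (hs.p0 _) L0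
  have sg : ∑ a, S.g a = n * S.w := by
    unfold Dat.w
    rw [mul_div_cancel₀ _ hn.ne']
  have key : ∀ z, |z - S.z0| = δ → n * t ^ 144010 ≤ δ * ∑ a, S.g a * (z - S.lam a)⁻¹ := by
    intro z hz
    have e := h.cross_ge hs hz.le
    set c := ∑ a, S.g a * (z - S.lam a)⁻¹
    have c0 : 0 ≤ c := by
      by_contra hc
      have := mul_pos (mul_pos (mul_pos two_pos L0) (hs.p0 144000)) (neg_pos.2 (not_le.1 hc))
      linarith
    have e1 := hs.cLp (C := 2) (k := 2) (by norm_num) (by norm_num) (a := 288010) (b := 288000)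
      (by norm_num)
    have e2 : 2 * L * t ^ 144000 * t ^ 144010 ≤ δ := by
      rw [hδ, le_div_iff₀ L0]
      calc 2 * L * t ^ 144000 * t ^ 144010 * L = 2 * L ^ 2 * t ^ 288010 := by ring
        _ ≤ _ := e1
    calc n * t ^ 144010 ≤ 2 * L * t ^ 144000 * c * t ^ 144010 :=
          mul_le_mul_of_nonneg_right e (hs.p0 _).le
      _ = 2 * L * t ^ 144000 * t ^ 144010 * c := by ring
      _ ≤ δ * c := mul_le_mul_of_nonneg_right e2 c0
  have a1 : |S.z0 - δ - S.z0| = δ := by rw [sub_sub_cancel_left, abs_neg, abs_of_pos δ0]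
  have a2 : |S.z0 + δ - S.z0| = δ := by rw [add_sub_cancel_left, abs_of_pos δ0]
  have hw' := abs_le.1 hw
  have cont : ContinuousOn (fun z => ∑ a, (z - S.lam a)⁻¹) (Set.Icc (S.z0 - δ) (S.z0 + δ)) := by
    refine continuousOn_finsetSum _ fun a _ => ContinuousOn.inv₀ (by fun_prop) fun z hz => ?_
    exact (sub_pos.2 (h.lt_near hs (abs_le.2 ⟨by linarith [hz.1], by linarith [hz.2]⟩) a)).ne'
  have mem : (n : ℝ) * w ∈ Set.Icc (∑ a, (S.z0 + δ - S.lam a)⁻¹) (∑ a, (S.z0 - δ - S.lam a)⁻¹) := by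
    have b1 := h.tr_sub hs a1.le
    have b2 := h.tr_sub hs a2.le
    have k1 := key _ a1
    have k2 := key _ a2
    rw [sub_sub_cancel_left] at b1
    rw [add_sub_cancel_left] at b2
    constructor <;> nlinarith [hw'.1, hw'.2]
  obtain ⟨z, hz, e⟩ := intermediate_value_Icc' (by linarith) cont mem
  have hz' : |z - S.z0| ≤ δ := abs_le.2 ⟨by linarith [hz.1], by linarith [hz.2]⟩
  refine ⟨z, hz', e, ?_⟩
  have b := h.tr_sub hs hz'
  have e' : ∑ a, (z - S.lam a)⁻¹ = n * w := e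
  rw [sg, e'] at b
  have c1 := h.cross_ge hs hz'
  set c := ∑ a, S.g a * (z - S.lam a)⁻¹
  have c0 : 0 < c := by
    by_contra hc
    have := mul_nonneg (mul_pos (mul_pos two_pos L0) (hs.p0 144000)).le (neg_nonneg.2 (not_lt.1 hc))
    linarith
  have b' : |z - S.z0| * c = n * |w - S.w| := by
    rw [← abs_of_pos c0, ← abs_mul, ← b, ← mul_sub, abs_mul, abs_of_pos hn, abs_sub_comm]
  have e3 := hs.cLp (C := 2) (k := 1) (by norm_num) (by norm_num) (a := 144000) (b := 143999)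
    (by norm_num)
  rw [pow_one] at e3
  refine le_of_mul_le_mul_right ?_ c0
  rw [b']
  calc n * |w - S.w| ≤ t ^ 143999 * c * |w - S.w| :=
        mul_le_mul_of_nonneg_right (c1.trans (mul_le_mul_of_nonneg_right e3 c0.le)) (abs_nonneg _)
    _ = _ := by ring

/-- location of `z(h)` -/
theorem zh_spec (O : OG n) {v : Vec n} (hw : |wb v - S.w| ≤ t ^ 144010) :
    |zh (S.J O) v - S.z0| ≤ t ^ 288000 / L ∧ ∑ a, (zh (S.J O) v - S.lam a)⁻¹ = n * wb v ∧
      |zh (S.J O) v - S.z0| ≤ t ^ 143999 * |wb v - S.w| := by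
  obtain ⟨z, h1, h2, h3⟩ := h.root hs hw
  have e : zh (S.J O) v = z := zr_eq h.npos (h.lt_near hs h1) (by rw [h2, sum_dv h.npos]) O
  rw [e]
  exact ⟨h1, h2, h3⟩

theorem G0_zh (O : OG n) {v : Vec n} (hw : |wb v - S.w| ≤ t ^ 144010) :
    G0 (S.J O) (zh (S.J O) v) = JO (fun a => (zh (S.J O) v - S.lam a)⁻¹) O :=
  G0_JO (h.lt_near hs (h.zh_spec hs O hw).1) O

theorem posDef_zh (O : OG n) {v : Vec n} (hw : |wb v - S.w| ≤ t ^ 144010) :
    (Nm (S.J O) (zh (S.J O) v)).PosDef := (posDef_Nm O).2 (h.lt_near hs (h.zh_spec hs O hw).1)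

theorem res2_zh (O : OG n) {v : Vec n} (hw : |wb v - S.w| ≤ t ^ 144010) :
    res2 (S.J O) v (zh (S.J O) v) = 0 := by
  unfold res2
  rw [h.G0_zh hs O hw, trace_JO, (h.zh_spec hs O hw).2.1, sum_dv h.npos, sub_self]

end Adm

theorem zStmt : ZStmt := ev_of_sm fun _ _ hs _ _ O h =>
  ⟨h.zs_eq hs O, h.G00_eq hs O, h.w0_eq hs O, h.T20_eq hs O, h.w_ge, h.w_le,
    fun _ hw => ⟨h.posDef_zh hs O hw, h.res2_zh hs O hw, (h.zh_spec hs O hw).2.2⟩⟩

/-! ### assembly of THEOREM T1 -/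

theorem Adm.three_le {L t : ℝ} {S : Dat n} (h : Adm L t S) (hs : Sm L t) : (3 : ℝ) ≤ n :=
  (hs.c_inv (by norm_num)).trans (by
    simpa using (hs.iw (a := 1) (b := 431998) (by norm_num)).trans (h.inv_le_n hs))

theorem t1_of (h3 : X3Stmt) (h4 : X4Stmt) (h8 : SprStmt) : T1Stmt := by
  obtain ⟨C3, h3⟩ := h3
  obtain ⟨C4, h4⟩ := h4
  obtain ⟨C8, h8⟩ := h8
  refine ⟨C3 + C4 + C8 + 1, (((ev_sm.and h3).and h4).and h8).mono ?_⟩
  rintro L t - ⟨⟨⟨hs, h3⟩, h4⟩, h8⟩ n S x xt μ hA hX hF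
  obtain ⟨P, E, F', hB, b3⟩ := h3 n S x xt μ hA hX hF
  have b4 := h4 n S x xt μ P E F' hA hX hF hB
  have b8 := h8 n S x xt μ hA hF
  have := hF.prob
  have n3 := hA.three_le hs
  have n1 : (1 : ℝ) ≤ n := by linarith
  have sub : {O | ¬Good t S O} ⊆ ({O | ¬(Base t S O ∧ BS t S O x (E O) (F' O) (S.hc t O))} ∪
      {O | BS t S O x (E O) (F' O) (S.hc t O) ∧ ¬StrA t (t ^ 4000) (t⁻¹ ^ 10) S O (S.hc t O)}) ∪
      {O | ¬Spr t t⁻¹ S O} := by
    intro O hO
    by_contra hc
    simp only [Set.mem_union, Set.mem_ofPred_eq, not_or, not_not] at hc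
    exact hO ⟨hc.1.1.1, not_not.1 fun h => hc.1.2 ⟨hc.1.1.2, h⟩, hc.2⟩
  have e0 := Real.exp_pos (-(n * t ^ 431998))
  have m3 : (n : ℝ) ^ C3 ≤ n ^ (C3 + C4 + C8) := pow_le_pow_right₀ n1 (by omega)
  have m4 : (n : ℝ) ^ C4 ≤ n ^ (C3 + C4 + C8) := pow_le_pow_right₀ n1 (by omega)
  have m8 : (n : ℝ) ^ C8 ≤ n ^ (C3 + C4 + C8) := pow_le_pow_right₀ n1 (by omega)
  have m0 : (0 : ℝ) ≤ n ^ (C3 + C4 + C8) := by positivity
  calc μ.real {O | ¬Good t S O} ≤ _ := measureReal_mono sub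
    _ ≤ _ := measureReal_union_le _ _
    _ ≤ _ := add_le_add (measureReal_union_le _ _) le_rfl
    _ ≤ ((n : ℝ) ^ C3 + n ^ C4 + n ^ C8) * Real.exp (-(n * t ^ 431998)) := by linarith
    _ ≤ _ := by
      refine mul_le_mul_of_nonneg_right ?_ e0.le
      rw [pow_succ]
      nlinarith

end Vale.Agent.N150.T1
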