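import Vale.Agent.N150.BrDef
import Vale.Agent.N150.T1Meas

/-! Joint measurability of the reference point of the bridge. -/

namespace Vale.Agent.N150.Br

theorem measStmt : MeasStmt := fun _ _ _ _ _ hJ hy =>
  ⟨fun r => T1.mv_it hJ hy r, T1.ms_zh hJ hy⟩

end Vale.Agent.N150.Br
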