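import Vale.Agent.N150.BrDef
import Vale.Agent.N150.BrGen
import Vale.Agent.N150.CapTap
import Vale.Agent.N150.T1Meas
import Vale.Agent.N150.Adm1
import Vale.Agent.N150.EndGauss

/-! P150, bridge: the quenched part, for a fixed schedule of matrices. -/

open Matrix MeasureTheory Finset

namespace Vale.Agent.N150.Br

open Vale.Agent.P150 Vale.Agent.P150.F Vale.Agent.P150.F.Ms Vale.Agent.N150.A1
open Vale.Agent.N150.Cap Vale.Agent.N150.EC Vale.Agent.N150.T1 Vale.Agent.N150.Plant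

variable {n : ℕ}

/-! ### the field in closed form -/

/-- the accumulated precision -/
noncomputable def QS (dl : ℕ → ℝ) (R : ℕ → Mat n) (k : ℕ) : Mat n :=
  ∑ j ∈ range k, dl j • (R j * (R j)ᵀ)

/-- the field driven by the vector `u` -/
noncomputable def pathU (dl : ℕ → ℝ) (R : ℕ → Mat n) (u : Vec n) (ω : ℕ → Vec n) (k : ℕ) :
    Vec n := QS dl R k *ᵥ u + ∑ j ∈ range k, √(dl j) • (R j *ᵥ ω j)

theorem QS_succ (dl : ℕ → ℝ) (R : ℕ → Mat n) (k : ℕ) :
    QS dl R (k + 1) = QS dl R k + dl k • (R k * (R k)ᵀ) := Finset.sum_range_succ _ _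

theorem pathU_succ (dl : ℕ → ℝ) (R : ℕ → Mat n) (u : Vec n) (ω : ℕ → Vec n) (k : ℕ) :
    pathU dl R u ω (k + 1)
      = pathU dl R u ω k + dl k • ((R k * (R k)ᵀ) *ᵥ u) + √(dl k) • (R k *ᵥ ω k) := by
  unfold pathU
  rw [QS_succ, Finset.sum_range_succ, Matrix.add_mulVec, Matrix.smul_mulVec]
  abel

theorem pathY_eq (dl : ℕ → ℝ) (R : ℕ → Mat n) (x : Cfg n) (ω : ℕ → Vec n) (k : ℕ) :
    pathY dl R 0 0 x ω k = pathU dl R (sv x) ω k := by
  induction k with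
  | zero => simp [pathY, pathU, QS]
  | succ k ih => rw [pathU_succ, pathY, ih, Nat.zero_add, Cap.obs_eq, add_assoc]

theorem nzM_QS {dl : ℕ → ℝ} (h : ∀ j, 0 ≤ dl j) (R : ℕ → Mat n) (k : ℕ) :
    Adm.nzM (fun j => √(dl j)) R k * (Adm.nzM (fun j => √(dl j)) R k)ᵀ = QS dl R k := by
  rw [Adm.nzM_mul]
  exact Finset.sum_congr rfl fun j _ => by rw [Real.sq_sqrt (h j)]

theorem pathU_eq (dl : ℕ → ℝ) (R : ℕ → Mat n) (u : Vec n) (ω : ℕ → Vec n) (k : ℕ) :
    pathU dl R u ω k = QS dl R k *ᵥ u + Adm.nzM (fun j => √(dl j)) R k *ᵥ Adm.unc k ω := by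
  rw [Adm.nzM_mulVec]; rfl

/-- the law of the field at one time is the law of a one-shot label -/
theorem PE_path {dl : ℕ → ℝ} (h : ∀ j, 0 ≤ dl j) (R : ℕ → Mat n) (k : ℕ) {Rt : Mat n}
    (hRt : Rt * Rtᵀ = QS dl R k) (μ : Cfg n → ℝ) {B : Set (Vec n)} (hB : MeasurableSet B) :
    PE μ (fun x ω => pathU dl R (sv x) ω k ∈ B) = End.PY μ Rt 1 B := by
  unfold PE End.PY
  refine Finset.sum_congr rfl fun x _ => ?_
  congr 1
  have hm : MeasurableSet {v : Vec n | QS dl R k *ᵥ sv x + v ∈ B} :=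
    (measurable_id.const_add _) hB
  have h1 := Law.map_mulVec_eq ((nzM_QS h R k).trans hRt.symm)
  have h2 := (Adm.mp_unc (n := n) k).measure_preimage
    (measurable_matVec (Adm.nzM (fun j => √(dl j)) R k) hm).nullMeasurableSet
  have h3 := Measure.map_apply (μ := gpi (↥(range k) × Fin n))
    (measurable_matVec (Adm.nzM (fun j => √(dl j)) R k)) hm
  have h4 := Measure.map_apply (μ := gpi (Fin n)) (measurable_matVec Rt) hm
  have e1 : {ω | pathU dl R (sv x) ω k ∈ B} = Adm.unc k ⁻¹'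
      ((fun w => Adm.nzM (fun j => √(dl j)) R k *ᵥ w) ⁻¹' {v | QS dl R k *ᵥ sv x + v ∈ B}) := by
    ext ω; rw [Set.mem_ofPred_eq, pathU_eq]; rfl
  have e2 : {ξ | obs Rt 1 x ξ ∈ B} = (fun w => Rt *ᵥ w) ⁻¹' {v | QS dl R k *ᵥ sv x + v ∈ B} := by
    ext ξ
    rw [Set.mem_ofPred_eq, Cap.obs_eq, Real.sqrt_one, one_smul, one_smul, hRt]; rfl
  rw [Measure.real, Measure.real, e1, e2, h2, ← h3, ← h4, h1]

/-! ### good paths -/

/-- the reference point -/
noncomputable def hP (J : Mat n) (y : Vec n) : Vec n := it J y (n + 3)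

/-- a good step -/
structure SG (K Λ κ δ : ℝ) (J J' Q : Mat n) (y y' ξ : Vec n) : Prop where
  gs : GS K Λ δ J J' y y' (hP J y) (hP J' y')
  src : nv (k0 J (hP J y) (zh J (hP J y)) Q) ≤ κ
  nz : nv ξ ≤ n

/-- a good path -/
structure PG (K Λ κ δ : ℝ) (sel cen : Mat n → Vec n → Vec n) (J : ℕ → Mat n) (Q : Mat n)
    (N M : ℕ) (Y ω : ℕ → Vec n) : Prop where
  step : ∀ k, N ≤ k → k < N + M → SG K Λ κ δ (J k) (J (k + 1)) Q (Y k) (Y (k + 1)) (ω k)
  first : nv (sel (J N) (Y N) - mT (n + 3) (J N) (Y N)) ≤ 1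
  last : nv (cen (J (N + M)) (Y (N + M)) - mT (n + 3) (J (N + M)) (Y (N + M))) ≤ 1

theorem cC_le {M : ℕ} {Λ X : ℝ} (hX : 2 ≤ X) (hn : (n : ℝ) ≤ X) (hG : cG Λ ^ 2 ≤ X) :
    cC n M Λ X X + 1 ≤ (M + 1) ^ 2 * X ^ 15 := by
  have X1 : 1 ≤ X := by linarith
  have X0 : 0 ≤ X := by linarith
  have hM : (0 : ℝ) ≤ M := Nat.cast_nonneg M
  have h1 : √(n : ℝ) ≤ X := Real.sqrt_le_iff.2 ⟨X0, hn.trans (le_self_pow₀ X1 two_ne_zero)⟩
  have h8 : 8 ≤ X ^ 3 := le_trans (by norm_num) (pow_le_pow_left₀ zero_le_two hX 3)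
  have h2 : Ref.rho n X X 1 ≤ X ^ 6 := by
    unfold Ref.rho
    have a1 : 2 * X + (1 : ℝ)⁻¹ * (1 + X) + 2 * (1 + X + X ^ 2) ≤ 6 * X ^ 2 := by
      rw [inv_one]; nlinarith
    have a2 := mul_le_mul a1 h1 (Real.sqrt_nonneg _) (by positivity)
    have a3 := mul_le_mul_of_nonneg_right h8 (pow_nonneg X0 3)
    have a4 := pow_nonneg X0 3
    calc _ ≤ _ := a2
      _ = 6 * X ^ 3 := by ring
      _ ≤ X ^ 3 * X ^ 3 := by linarith
      _ = X ^ 6 := by ring
  have h3 : 2 * √(n : ℝ) ≤ X ^ 6 := by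
    have a1 := mul_le_mul hX h1 (Real.sqrt_nonneg _) X0
    have a2 : X ^ 2 ≤ X ^ 6 := pow_le_pow_right₀ X1 (by norm_num)
    linarith [pow_two X]
  have h4 : 2 * √(n : ℝ) + M * Ref.rho n X X 1 ≤ (M + 1) * X ^ 6 := by
    linarith [mul_le_mul_of_nonneg_left h2 hM]
  have h5 : (2 * √(n : ℝ) + M * Ref.rho n X X 1) ^ 2 ≤ ((M + 1) * X ^ 6) ^ 2 :=
    pow_le_pow_left₀ (by unfold Ref.rho; positivity) h4 2
  set W := ((M + 1) * X ^ 6) ^ 2 with hW
  have h6 : 1 ≤ W := one_le_pow₀ (one_le_mul_of_one_le_of_one_le (by linarith) (one_le_pow₀ X1))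
  have h7 : cC n M Λ X X ≤ X * (2 * W) :=
    mul_le_mul hG (by linarith) (by positivity) X0
  have h9 : 1 ≤ X * W := one_le_mul_of_one_le_of_one_le X1 h6
  have h10 : 4 ≤ X ^ 2 := by nlinarith
  have h11 := mul_le_mul_of_nonneg_right h10 (zero_le_one.trans h9)
  calc _ ≤ X ^ 2 * (X * W) := by linarith
    _ = _ := by rw [hW]; ring

theorem err_le {M a b : ℕ} {K δ : ℝ} (hK : 2 ≤ K) (hn : (n : ℝ) ≤ K) (hδ : 0 < δ)
    (hM : M * δ ≤ 1) (hb : 10 ≤ b) (hs : K ^ (a + 2) * √δ ≤ 1) :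
    M * ((|K ^ a * (δ * √δ)| + 8 * (δ * K ^ b) * Real.exp (n / 2 - (K ^ b) ^ 2 / 8)) * √n) ≤ 1 := by
  have K1 : 1 ≤ K := by linarith
  have K0 : 0 < K := by linarith
  have h1 : √(n : ℝ) ≤ K := Real.sqrt_le_iff.2 ⟨K0.le, hn.trans (le_self_pow₀ K1 two_ne_zero)⟩
  set X := K ^ b with hX
  have X0 : 0 < X := pow_pos K0 b
  have h2 : 512 * K ≤ X := by
    have a1 : (2 : ℝ) ^ 9 ≤ K ^ 9 := pow_le_pow_left₀ zero_le_two hK 9
    have a2 : K ^ 10 ≤ X := pow_le_pow_right₀ K1 hb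
    have a3 := mul_le_mul_of_nonneg_right a1 K0.le
    have a4 : K ^ 9 * K = K ^ 10 := by ring
    linarith
  have h3 : Real.exp (n / 2 - X ^ 2 / 8) ≤ 16 / X ^ 2 := by
    have a1 : (n : ℝ) / 2 - X ^ 2 / 8 ≤ -(X ^ 2 / 16) := by nlinarith
    refine (Real.exp_le_exp.2 a1).trans ?_
    rw [Real.exp_neg, inv_le_comm₀ (Real.exp_pos _) (by positivity), inv_div]
    linarith [Real.add_one_le_exp (X ^ 2 / 16)]
  have h4 : 8 * X * Real.exp (n / 2 - X ^ 2 / 8) * √n ≤ 1 / 2 := by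
    calc _ ≤ 8 * X * (16 / X ^ 2) * K := by gcongr
      _ = 128 * K / X := by field_simp; norm_num
      _ ≤ 1 / 2 := by rw [div_le_iff₀ X0]; linarith
  have h5 : K ^ a * √δ * √n ≤ 1 / 2 := by
    have a1 : K ^ a * √δ * √n ≤ K ^ a * √δ * K := by gcongr
    have a2 : 0 ≤ K ^ a * √δ * K := by positivity
    have a3 := mul_le_mul_of_nonneg_left hK a2
    have a4 : K ^ a * √δ * K * K = K ^ (a + 2) * √δ := by ring
    linarith
  rw [abs_of_nonneg (by positivity)]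
  have h6 : 0 ≤ K ^ a * √δ * √n + 8 * X * Real.exp (n / 2 - X ^ 2 / 8) * √n := by positivity
  have h7 := mul_le_mul_of_nonneg_right hM h6
  linarith

theorem nv_le_abs {ξ : Vec n} {K : ℝ} (h : nv ξ ≤ K) : ξ ∈ Box n K :=
  fun j => (abs_le_nv ξ j).trans h

theorem opLe_RR {R : Mat n} (hs : Rᵀ = R) (h : OpLe R 1) : OpLe (R * Rᵀ) 1 := by
  rw [hs]
  refine opLe_of_nv fun v => ?_
  rw [← Matrix.mulVec_mulVec]
  exact (h.nv_le zero_le_one _).trans (by rw [one_mul]; exact h.nv_le zero_le_one v)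

theorem qf_le_of_opLe {Q : Mat n} (h : OpLe Q 1) (v : Vec n) : qf Q v ≤ F.sq v := by
  have h1 := h.nv_le zero_le_one v
  have h2 := (le_abs_self _).trans (F.abs_ip_le v (Q *ᵥ v))
  have h3 := mul_le_mul_of_nonneg_left h1 (nv_nonneg v)
  rw [← nv_sq]
  unfold qf
  linarith [pow_two (nv v)]

/-- the reference on the bridge -/
noncomputable def rB {dl : ℕ → ℝ} (h : Steps dl) (X δ Λ : ℝ) : Ref n n (St n) :=
  (tapRef (up n h) (fun s => hP (sJ s) (sy s)) fun s => zh (sJ s) (hP (sJ s) (sy s))).can (up n h)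
    X δ ∅ ∅ ((tapRef (up n h) (fun s => hP (sJ s) (sy s))
      fun s => zh (sJ s) (hP (sJ s) (sy s))).FormO (up n h) fun _ => Λ)

theorem rB_mh {dl : ℕ → ℝ} (h : Steps dl) (X δ Λ : ℝ) (s : St n) :
    (rB h X δ Λ).mh s = mT (n + 3) (sJ s) (sy s) :=
  Ref.can_mh' _ _ _ _ _ _ (Set.notMem_empty s)

theorem rB_pre {dl : ℕ → ℝ} (h : Steps dl) : (tapRef (up n h) (fun s => hP (sJ s) (sy s))
    fun s => zh (sJ s) (hP (sJ s) (sy s))).Pre :=
  tap_pre _ (mv_it mm_sJ mv_sy _) (ms_zh mm_sJ (mv_it mm_sJ mv_sy _))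

theorem rB_ok {dl : ℕ → ℝ} (h : Steps dl) {X δ : ℝ} (Λ : ℝ) (hX : 2 ≤ X) (hn : (n : ℝ) ≤ X)
    (hd : X ^ 8 * δ ≤ 1) : (rB (n := n) h X δ Λ).OK (up n h) X δ :=
  (rB_pre h).can_OK _ hX hn hn hd MeasurableSet.empty MeasurableSet.empty
    ((rB_pre h).ms_FormO _ measurable_const) le_rfl

theorem sq_add_le {u v : Vec n} {a : ℝ} (hu : F.sq u ≤ a) (hv : nv v ≤ 1) :
    F.sq (u - v) ≤ 2 * a + 2 := by
  have h1 := nv_sub_le u v
  have h2 := pow_le_pow_left₀ (nv_nonneg _) h1 2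
  have h3 := pow_le_pow_left₀ (nv_nonneg _) hv 2
  rw [nv_sq] at h2
  rw [← nv_sq] at hu
  nlinarith [sq_nonneg (nv u - nv v)]

/-- **the bridge, quenched part** -/
theorem site : ∃ p : ℕ, ∀ (n : ℕ) (dl : ℕ → ℝ) (h : Steps dl) (J R : ℕ → Mat n) (N M : ℕ)
    (K Λ κ δ C θ p0 : ℝ) (Rb : Mat n) (sel cen : Mat n → Vec n → Vec n), Sched dl J R →
    (∀ j, N ≤ j → dl j = δ ∧ R j = Rb) → Rbᵀ = Rb → OpLe Rb 1 → 2 ≤ K → (n : ℝ) ≤ K → 1 ≤ Λ →
    Λ ≤ K → 0 ≤ κ → 0 ≤ C → cW Λ (C + 1) (Λ * κ) ≤ K → M * δ ≤ 1 → K ^ p * √δ ≤ 1 →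
    EndAt C θ cen (J 0) (QS dl R (N + M)) →
    PE (gM (J 0) 0) (fun x ω =>
      ¬PG K Λ κ δ sel cen J (Rb * Rbᵀ) N M (pathU dl R (sv x) ω) ω) ≤ p0 →
    TermAt (up n h) (stS J R 0 0) N (cB Λ (C + 1) (Λ * κ) * C)
      (cB Λ (C + 1) (Λ * κ) * (θ + 18 * (n + 1) * (M + 1) ^ 3 * K ^ p * (p0 + θ)))
      (cB Λ (C + 1) (Λ * κ) * (K0 * (K ^ p * √δ))) ∧
    PE (gM (J 0) 0) (fun x ω => 2 * cW Λ (C + 1) (Λ * κ) + 4
      < F.sq (eS sel ((up n h).traj (stS J R 0 0) x ω N)))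
      ≤ (M + 1) ^ 2 * K ^ p * (p0 + θ) + p0 := by
  obtain ⟨p1, hp1⟩ := tap_bd
  obtain ⟨p2, hp2⟩ := tap_stp
  refine ⟨15 * (p1 + 10) + p2 + 2, ?_⟩
  intro n dl h J R N M K Λ κ δ C θ p0 Rb sel cen hS hc hRs hRo hK hn hΛ hΛK hκ hC hWK hM hs hE hp
  obtain ⟨Rt, B, hRt, hB, hPY, hBg⟩ := hE
  have K1 : 1 ≤ K := by linarith
  have K0' : 0 ≤ K := by linarith
  have δ0 : 0 < δ := (hc N le_rfl).1 ▸ (h N).1
  have δ1 : δ ≤ 1 := (hc N le_rfl).1 ▸ (h N).2
  have hsq : δ ≤ √δ := Real.le_sqrt_of_sq_le (by nlinarith)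
  have sm' : ∀ j, j ≤ 15 * (p1 + 10) + p2 + 2 → K ^ j * √δ ≤ 1 := fun j hj =>
    (mul_le_mul_of_nonneg_right (pow_le_pow_right₀ K1 hj) (Real.sqrt_nonneg δ)).trans hs
  have sm : ∀ j, j ≤ 15 * (p1 + 10) + p2 + 2 → K ^ j * δ ≤ 1 := fun j hj =>
    (mul_le_mul_of_nonneg_left hsq (pow_nonneg K0' j)).trans (sm' j hj)
  set X := K ^ (p1 + 10) with hX
  have KX : K ≤ X := le_self_pow₀ K1 (by omega)
  have Xp : ∀ j, j ≤ 15 → X ^ j ≤ K ^ (15 * (p1 + 10) + p2 + 2) := fun j hj => by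
    rw [hX, ← pow_mul]
    exact pow_le_pow_right₀ K1 (by nlinarith)
  have sX : ∀ j, j ≤ 15 → X ^ j * δ ≤ 1 := fun j hj =>
    (mul_le_mul_of_nonneg_right (Xp j hj) δ0.le).trans (sm _ le_rfl)
  have K8 : 8 * K * δ ≤ 1 := by
    have a1 : (2 : ℝ) ^ 3 ≤ K ^ 3 := pow_le_pow_left₀ zero_le_two hK 3
    have a2 := mul_le_mul_of_nonneg_right a1 (mul_nonneg K0' δ0.le)
    have a3 := sm 4 (by omega)
    linarith
  have hQo := opLe_RR hRs hRo
  have hlay : ∀ j, N ≤ j → ∀ s ∈ LayS J R j, (up n h).δ s = δ ∧ (up n h).R s = Rb := by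
    rintro j hj s ⟨y, rfl⟩
    exact hc j hj
  have hW : Win (rB h X δ Λ) (up n h) (LayS J R) (stS J R 0 0) N M X δ δ Λ X
      (K ^ p2 * (δ * √δ)) (X ^ 2) :=
    { ok := rB_ok h Λ (hK.trans KX) (hn.trans KX) (sX 8 (by norm_num))
      mh1 := fun s i => by rw [rB_mh]; exact EC.abs_tm_le _ i
      hLay := hS.lay h
      hs0 := stS_mem J R 0 0
      hδ := fun j hj s hs => (hlay j hj s hs).1
      hR := fun j hj s hs => by rw [(hlay j hj s hs).2]; exact MB_of_opLe hRo zero_le_one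
      hQ := fun j hj s hs v => by
        unfold Proc.Q
        rw [(hlay j hj s hs).2]
        exact qf_le_of_opLe hQo v
      hG := fun s hs => hs.2.2
      hΛ := by linarith
      hL := K0'.trans KX
      δ0 := δ0
      Mδ := hM
      δΛ := by linarith [mul_le_mul_of_nonneg_left hΛK δ0.le, mul_nonneg K0' δ0.le]
      err := err_le hK hn δ0 hM (by omega) (sm' _ (by omega))
      lam0 := by positivity
      hlam := by
        rw [mul_one, pow_two]
        exact mul_le_mul (hn.trans KX) (hn.trans KX) (Nat.cast_nonneg n) (K0'.trans KX)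
      lamδ := by rw [← pow_mul]; exact sX 4 (by norm_num) }
  have hJ : J (N + M) = J 0 - QS dl R (N + M) := hS.J_eq (N + M)
  have tr : ∀ x ω k, (up n h).traj (stS J R 0 0) x ω k = stS J R k (pathU dl R (sv x) ω k) :=
    fun x ω k => by rw [hS.traj0, pathY_eq]
  have hθ : 0 ≤ θ := le_trans
    (Finset.sum_nonneg fun x _ => mul_nonneg (gM_pos _ _ x).le measureReal_nonneg) hPY
  have hμ : ∀ x, 0 ≤ gM (J 0) 0 x := fun x => (gM_pos _ _ x).le
  have hGd : MeasurableSet {s : St n | sJ s = J (N + M) ∧ sy s ∈ B} := by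
    refine MeasurableSet.inter ?_ (meas_sy hB)
    have e : {s : St n | sJ s = J (N + M)} = ⋂ i, ⋂ j, {s | sJ s i j = J (N + M) i j} := by
      ext s
      simp only [Set.mem_ofPred_eq, Set.mem_iInter, ← Matrix.ext_iff]
    change MeasurableSet {s : St n | sJ s = J (N + M)}
    rw [e]
    exact MeasurableSet.iInter fun i => MeasurableSet.iInter fun j =>
      measurableSet_eq_fun (mm_sJ i j) measurable_const
  have hPB : PE (gM (J 0) 0) (fun x ω => pathU dl R (sv x) ω (N + M) ∈ Bᶜ) ≤ θ := by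
    rw [PE_path (fun j => (h j).1.le) R (N + M) hRt _ hB.compl]; exact hPY
  have hor := (PE_or_le hμ _ _).trans (add_le_add hp hPB)
  have key := hW.back (κ := Λ * κ) (C := C + 1) (C' := C) (θ := θ) (p := p0 + θ)
    (by positivity) (by positivity) hC hθ
    (by linarith [mul_le_mul_of_nonneg_left hWK δ0.le, mul_nonneg K0' δ0.le]) hGd
    (fun s hs => by rw [up_law, hs.1, hJ]; exact (hBg _ hs.2).2)
    (le_trans (PE_mono hμ fun x ω hb => ?_) hor)
  · obtain ⟨k1, k2⟩ := key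
    have hp0 : 0 ≤ p0 :=
      le_trans (Finset.sum_nonneg fun x _ => mul_nonneg (hμ x) measureReal_nonneg) hp
    have c0 := zero_le_one.trans (one_le_cB Λ (C + 1) (Λ * κ))
    have c1 : cG Λ ^ 2 ≤ X := by
      refine le_trans ?_ (hWK.trans KX)
      have := one_le_cG (zero_le_one.trans hΛ)
      exact pow_le_pow_left₀ (by linarith) (le_mul_of_one_le_right (by linarith)
        (by linarith [mul_nonneg (zero_le_one.trans hΛ) hκ])) 2
    have c2 := (cC_le (M := M) (hK.trans KX) (hn.trans KX) c1).trans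
      (mul_le_mul_of_nonneg_left (Xp 15 le_rfl) (sq_nonneg _))
    refine ⟨k1.mono le_rfl (mul_le_mul_of_nonneg_left (add_le_add le_rfl
      (mul_le_mul_of_nonneg_right ?_ (by positivity))) c0) (mul_le_mul_of_nonneg_left ?_ c0), ?_⟩
    · refine (mul_le_mul_of_nonneg_left c2 (by positivity)).trans (le_of_eq (by ring))
    · rw [mul_assoc, ← pow_mul]
      exact mul_le_mul_of_nonneg_left (mul_le_mul_of_nonneg_right (Xp 6 (by norm_num))
        (Real.sqrt_nonneg δ)) K0_nonneg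
    · have c3 : cC n M Λ X X * (p0 + θ)
          ≤ (M + 1) ^ 2 * K ^ (15 * (p1 + 10) + p2 + 2) * (p0 + θ) :=
        mul_le_mul_of_nonneg_right (by linarith) (by positivity)
      refine le_trans (PE_mono hμ fun x ω hb => ?_)
        ((PE_or_le hμ _ _).trans (add_le_add (k2.trans c3) hp))
      by_contra hcon
      rw [not_or, not_lt, not_not] at hcon
      have c4 := sq_add_le hcon.1 hcon.2.first
      rw [tr] at c4 hb
      unfold eN at c4
      rw [rB_mh, up_law] at c4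
      simp only [sJ_stS, sy_stS, eS] at c4 hb
      rw [sub_sub, add_sub_cancel] at c4
      linarith
  · by_contra hcon
    rw [not_or, not_not, Set.mem_compl_iff, not_not] at hcon
    obtain ⟨hg, hy⟩ := hcon
    refine hb ⟨fun j hj hj' => ?_, ?_, ?_⟩
    · obtain ⟨g, g1, g2⟩ := hg.step j hj hj'
      have e1 : (up n h).nx (stS J R j (pathU dl R (sv x) ω j)) x (ω j)
          = stS J R (j + 1) (pathU dl R (sv x) ω (j + 1)) := by
        rw [← tr, ← tr, Proc.traj_succ]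
      obtain ⟨e2, e3⟩ := hlay j hj _ (stS_mem J R j (pathU dl R (sv x) ω j))
      have e4 : (up n h).Q (stS J R j (pathU dl R (sv x) ω j)) = Rb * Rbᵀ := by
        unfold Proc.Q; rw [e3]
      have hRK : ∀ a b, |(up n h).R (stS J R j (pathU dl R (sv x) ω j)) a b| ≤ K := by
        rw [e3]; exact fun a b => (MB_of_opLe hRo zero_le_one a b).trans K1
      have d2 : (0 : ℝ) ≤ δ ^ 2 := sq_nonneg δ
      rw [tr, tr]
      refine ⟨⟨Set.notMem_empty _, (hp1 n n _ (up n h) (fun s => hP (sJ s) (sy s))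
        (fun s => zh (sJ s) (hP (sJ s) (sy s))) K δ (stS J R j (pathU dl R (sv x) ω j))
        g.loc hn hRK e2.le).mono
        (pow_le_pow_right₀ K1 (by omega)), ?_⟩, nv_le_abs (g2.trans (hn.trans KX)), ?_, ?_⟩
      · change OpLe (Gm (J j) _ _ * (up n h).Q _) Λ
        rw [e4]
        refine opLe_of_nv fun v => ?_
        rw [← Matrix.mulVec_mulVec]
        refine (g.gm.nv_le (by linarith) _).trans (mul_le_mul_of_nonneg_left ?_ (by linarith))
        simpa using hQo.nv_le zero_le_one v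
      · have a1 := hp2 n n _ (up n h) (fun s => hP (sJ s) (sy s))
          (fun s => zh (sJ s) (hP (sJ s) (sy s))) K (stS J R j (pathU dl R (sv x) ω j)) x (ω j)
          (hP (J (j + 1)) (pathU dl R (sv x) ω (j + 1)))
          (zh (J (j + 1)) (hP (J (j + 1)) (pathU dl R (sv x) ω (j + 1))))
          (by
            rw [e1, e2]
            exact ⟨g.loc, g.loc', g.dh, g.dz, g.r1, by
              change |res2 (J j) _ _| ≤ _
              rw [sJ_stS, sy_stS, g.r2, abs_zero]; exact d2, g.r1', by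
              change |res2 (J (j + 1)) _ _| ≤ _
              rw [g.r2', abs_zero]; exact d2⟩)
          (by rw [e2]; exact sm 8 (by omega)) hn hRK (nv_le_abs (g2.trans hn))
        rw [e2] at a1
        rw [rB_mh]
        exact a1.congr (rB_mh h X δ Λ _) rfl rfl rfl
      · change nv (ka (J j) _ _ ((up n h).Q _)) ≤ _
        rw [e4]
        unfold ka
        rw [nv_neg]
        exact (g.gm.nv_le (by linarith) _).trans (mul_le_mul_of_nonneg_left g1 (by linarith))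
    · rw [tr]; exact ⟨rfl, hy⟩
    · rw [tr]
      unfold eN
      rw [rB_mh, up_law, sJ_stS, sy_stS]
      have a1 := (hBg _ hy).1
      rw [← hJ] at a1
      have a2 := nv_add_le (mean (gM (J (N + M)) (pathU dl R (sv x) ω (N + M)))
        - cen (J (N + M)) (pathU dl R (sv x) ω (N + M)))
        (cen (J (N + M)) (pathU dl R (sv x) ω (N + M))
          - mT (n + 3) (J (N + M)) (pathU dl R (sv x) ω (N + M)))
      rw [sub_add_sub_cancel] at a2
      linarith [hg.last]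

end Vale.Agent.N150.Br
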