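import Vale.Agent.N150.CapTap
import Vale.Agent.N150.AsmNum

/-! P150: from facts along one path to the hypotheses of the deterministic recursion. -/

open Matrix MeasureTheory Finset

namespace Vale.Agent.N150.Cap

open Vale.Agent.P150 Vale.Agent.P150.F Vale.Agent.P150.F.Ms Vale.Agent.N150.A1
  Vale.Agent.N150.Rec Vale.Agent.N150.Asm

variable {n m : ℕ} {S : Type} [MeasurableSpace S]

namespace Ref

variable (r : Ref n m S) (P : Proc n m S)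

/-- the tracking functional along a path, horizon `M` -/
noncomputable abbrev Wp (K L τ : ℝ) (M : ℕ) (s0 : S) (x : Cfg n) (ω : ℕ → Vec m) : ℕ → Vec n :=
  fun k => r.W P K L τ (M - k) (P.traj s0 x ω k) x (shS k ω)

/-- the propagator along a path, applied to a vector -/
noncomputable abbrev Vp (τ : ℝ) (M : ℕ) (s0 : S) (x : Cfg n) (ω : ℕ → Vec m) (v : Vec n) :
    ℕ → Vec n := fun k => r.Ph P τ (M - k) (P.traj s0 x ω k) x (shS k ω) *ᵥ v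

/-- the response along a path -/
noncomputable abbrev Gp (s0 : S) (x : Cfg n) (ω : ℕ → Vec m) : ℕ → Mat n :=
  fun k => r.Gt (P.traj s0 x ω k)

/-- the sources along a path -/
noncomputable abbrev Sp (K L τ : ℝ) (s0 : S) (x : Cfg n) (ω : ℕ → Vec m) : ℕ → Vec n :=
  fun k => r.rem P K L τ (P.traj s0 x ω k) x (ω k)

/-- the schedule seen along a sequence of states; the early part is `[0, k0)` -/
structure Sch (s : ℕ → S) (t : ℕ → ℝ) (Pk : ℕ → Mat n) (k0 N : ℕ) : Prop where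
  hδ : ∀ k, k < N → P.δ (s k) = t (k + 1) - t k
  hQ : ∀ k, k < N → P.Q (s k) = Pk k
  e0 : ∀ k, k < k0 → r.mh (s k) = 0
  e1 : ∀ k, k < k0 → s k ∉ r.ok
  hl : ∀ k, s k ∈ r.lst ↔ k + 1 = k0

/-- good steps on the index range `[a, b)`, with one jump of the reference at the index `c` -/
structure Gd (s : ℕ → S) (x : Cfg n) (ω : ℕ → Vec m) (t : ℕ → ℝ) (Pk : ℕ → Mat n)
    (K L E ζ Z : ℝ) (g : ℝ → ℝ) (c a b : ℕ) : Prop where
  ok : ∀ k, a ≤ k → k < b → s k ∈ r.ok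
  box : ∀ k, a ≤ k → k < b → ω k ∈ Box m L
  bd : ∀ k, a ≤ k → k ≤ b → ∀ i, |r.mh (s k) i| ≤ K
  stp : ∀ k, a ≤ k → k < b → ∃ m1, r.Stp P (s k) x (ω k) m1 (E * (t (k + 1) - t k)) ∧
    √(t k) * nv (Pk k *ᵥ (r.mh (s (k + 1)) - m1)) ≤ if k = c then Z else 0
  ka : ∀ k, a ≤ k → k < b → t k * (√(t k) * nv (Pk k *ᵥ r.ka (s k))) ≤ ζ + g (t k)

namespace OK

variable {r P} {K d : ℝ} (h : r.OK P K d) {s0 : S} {x : Cfg n} {ω : ℕ → Vec m} {t : ℕ → ℝ}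
  {Pk : ℕ → Mat n} {k0 N M : ℕ} {τ : ℝ}

include h

theorem rcW (hτ : τ ≠ 0) (L : ℝ) (hS : r.Sch P (P.traj s0 x ω) t Pk k0 N) (hM : N ≤ M) {k : ℕ}
    (h1 : k0 ≤ k) (h2 : k < N) :
    r.Wp P K L τ M s0 x ω k - (t (k + 1) - t k) •
      (r.Gp P s0 x ω k *ᵥ (Pk k *ᵥ r.Wp P K L τ M s0 x ω k))
      = r.Wp P K L τ M s0 x ω (k + 1) + r.Sp P K L τ s0 x ω k := by
  have h3 := h.W_rec hτ L s0 x ω k (M - (k + 1)) fun hl => by have := (hS.hl k).1 hl; omega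
  rw [hS.hδ k h2, hS.hQ k h2, show M - (k + 1) + 1 = M - k by omega] at h3
  exact h3

theorem rcV (hτ : τ ≠ 0) (hS : r.Sch P (P.traj s0 x ω) t Pk k0 N) (hM : N ≤ M) (v : Vec n)
    {k : ℕ} (h1 : k0 ≤ k) (h2 : k < N) :
    r.Vp P τ M s0 x ω v k - (t (k + 1) - t k) •
      (r.Gp P s0 x ω k *ᵥ (Pk k *ᵥ r.Vp P τ M s0 x ω v k)) = r.Vp P τ M s0 x ω v (k + 1) := by
  have h3 := h.Ph_rec hτ s0 x ω k (M - (k + 1)) v fun hl => by have := (hS.hl k).1 hl; omega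
  rw [hS.hδ k h2, hS.hQ k h2, show M - (k + 1) + 1 = M - k by omega, add_zero] at h3
  exact h3

omit h in
theorem e1W (K L : ℝ) (hS : r.Sch P (P.traj s0 x ω) t Pk k0 N) (hM : k0 ≤ M) {k : ℕ}
    (h1 : k + 1 < k0) : r.Wp P K L τ M s0 x ω k = r.Wp P K L τ M s0 x ω (k + 1) := by
  have h3 := W_early (r := r) (P := P) (K := K) τ L s0 x ω k (M - (k + 1))
    (fun hl => by have := (hS.hl k).1 hl; omega) (hS.e1 k (by omega))
    (by rw [hS.e0 k (by omega), hS.e0 (k + 1) h1])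
  rw [show M - (k + 1) + 1 = M - k by omega] at h3
  exact h3

omit h in
theorem e1V (hS : r.Sch P (P.traj s0 x ω) t Pk k0 N) (hM : k0 ≤ M) (v : Vec n) {k : ℕ}
    (h1 : k + 1 < k0) : r.Vp P τ M s0 x ω v k = r.Vp P τ M s0 x ω v (k + 1) := by
  have h3 := Ph_early (r := r) (P := P) τ s0 x ω k (M - (k + 1))
    (fun hl => by have := (hS.hl k).1 hl; omega) (hS.e1 k (by omega))
  rw [show M - (k + 1) + 1 = M - k by omega] at h3
  exact congrArg (fun A : Mat n => A *ᵥ v) h3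

theorem e2W (hτ : τ ≠ 0) (L : ℝ) (hS : r.Sch P (P.traj s0 x ω) t Pk k0 N) (hM : k0 ≤ M)
    (h0 : 0 < k0) : r.Wp P K L τ M s0 x ω (k0 - 1) = τ • r.Wp P K L τ M s0 x ω k0
      + (1 - τ) • sv x + τ • r.mT K (P.traj s0 x ω k0) := by
  obtain ⟨k, rfl⟩ : ∃ k, k0 = k + 1 := ⟨k0 - 1, by omega⟩
  have h3 := h.W_lst hτ L s0 x ω k (M - (k + 1)) ((hS.hl k).2 rfl) (hS.e0 k (by omega))
  rw [show M - (k + 1) + 1 = M - k by omega] at h3
  rw [Nat.add_sub_cancel]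
  refine h3.trans ?_
  rw [smul_add]
  abel

omit h in
theorem e2V (hτ : τ ≠ 0) (hS : r.Sch P (P.traj s0 x ω) t Pk k0 N) (hM : k0 ≤ M) (h0 : 0 < k0)
    (v : Vec n) : r.Vp P τ M s0 x ω v (k0 - 1) = τ • r.Vp P τ M s0 x ω v k0 := by
  obtain ⟨k, rfl⟩ : ∃ k, k0 = k + 1 := ⟨k0 - 1, by omega⟩
  have h3 := Ph_lst (r := r) (P := P) hτ s0 x ω k (M - (k + 1)) ((hS.hl k).2 rfl)
  rw [show M - (k + 1) + 1 = M - k by omega] at h3
  rw [Nat.add_sub_cancel]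
  refine (congrArg (fun A : Mat n => A *ᵥ v) h3).trans ?_
  exact Matrix.smul_mulVec _ _ _

/-- the size of the sources on good steps -/
theorem srcW {L E ζ ζ₀ Z : ℝ} {g : ℝ → ℝ} {c a b : ℕ} (hL : 0 ≤ L) (hE : 0 ≤ E) (τ : ℝ)
    (hP : Flag Pk) (hS : r.Sch P (P.traj s0 x ω) t Pk k0 N)
    (hG : r.Gd P (P.traj s0 x ω) x ω t Pk K L E ζ Z g c a b)
    (hζ : ζ + (E + 8 * K * Real.exp (m / 2 - L ^ 2 / 8)) * √n ≤ ζ₀) {k : ℕ} (h1 : a ≤ k)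
    (h2 : k < b) (h3 : k < N) (t0 : 0 < t k) (t1 : t k ≤ 1) :
    √(t k) * nv (Pk k *ᵥ r.Sp P K L τ s0 x ω k)
      ≤ (ζ₀ + g (t k)) * ((t (k + 1) - t k) / t k) + if k = c then Z else 0 := by
  obtain ⟨m1, a1, a2⟩ := hG.stp k h1 h2
  have hδ := P.hδ (P.traj s0 x ω k)
  have a3 := h.nv_src hL τ (hG.ok k h1 h2) (hG.box k h1 h2) (hG.bd k h1 h2.le)
    (hG.bd (k + 1) (by omega) h2) a1
  have a4 := hG.ka k h1 h2
  rw [← P.traj_succ] at a3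
  rw [hS.hδ k h3] at a3 hδ
  set δ := t (k + 1) - t k with hd
  set e := (E + 8 * K * Real.exp (m / 2 - L ^ 2 / 8)) * √n with he
  set u := r.mh (P.traj s0 x ω (k + 1)) - m1 with hu
  set w := r.ka (P.traj s0 x ω k) with hw
  set q := r.rem P K L τ (P.traj s0 x ω k) x (ω k) with hq
  have K0 := h.K0
  have e0 : 0 ≤ e := by positivity
  have a5 : nv (q - δ • w - u) ≤ e * δ := by
    refine a3.trans (le_of_eq ?_)
    rw [abs_of_nonneg (mul_nonneg hE hδ.le), he]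
    ring
  have a6 : Pk k *ᵥ q = Pk k *ᵥ (q - δ • w - u) + δ • (Pk k *ᵥ w) + Pk k *ᵥ u := by
    rw [← Matrix.mulVec_smul, ← Matrix.mulVec_add, ← Matrix.mulVec_add]
    congr 1
    abel
  have a7 : nv (Pk k *ᵥ q) ≤ e * δ + δ * nv (Pk k *ᵥ w) + nv (Pk k *ᵥ u) := by
    rw [a6]
    have b1 := nv_add_le (Pk k *ᵥ (q - δ • w - u) + δ • (Pk k *ᵥ w)) (Pk k *ᵥ u)
    have b2 := nv_add_le (Pk k *ᵥ (q - δ • w - u)) (δ • (Pk k *ᵥ w))
    have b3 := hP.nv_le k (q - δ • w - u)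
    rw [nv_smul, abs_of_pos hδ] at b2
    linarith
  have s0' := Real.sqrt_nonneg (t k)
  have s1 : √(t k) ≤ 1 := Real.sqrt_le_one.2 t1
  have a8 := mul_le_mul_of_nonneg_left a7 s0'
  have a9 : δ ≤ δ / t k := by rw [le_div_iff₀ t0]; nlinarith
  have a10 : √(t k) * (e * δ) ≤ e * (δ / t k) :=
    (mul_le_of_le_one_left (mul_nonneg e0 hδ.le) s1).trans (mul_le_mul_of_nonneg_left a9 e0)
  have a11 : √(t k) * (δ * nv (Pk k *ᵥ w)) ≤ (ζ + g (t k)) * (δ / t k) := by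
    have b1 : √(t k) * (δ * nv (Pk k *ᵥ w)) = t k * (√(t k) * nv (Pk k *ᵥ w)) * (δ / t k) := by
      field_simp
    rw [b1]
    exact mul_le_mul_of_nonneg_right a4 (by positivity)
  have a12 := mul_le_mul_of_nonneg_right hζ (show 0 ≤ δ / t k by positivity)
  change √(t k) * nv (Pk k *ᵥ q) ≤ _
  linarith

variable {dl sK ρ R₂ T η η₁ κ : ℝ} {J : ℕ}

/-- the hypotheses of the recursion for the tracking functional -/
theorem wok (hp : Par t dl sK ρ R₂ T η η₁ κ J) {L E ζ ζ₀ Z M0 X0 : ℝ} {g : ℝ → ℝ} {c : ℕ}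
    (hL : 0 ≤ L) (hE : 0 ≤ E) (hτ : τ ≠ 0) (hM : fi t T ≤ M) (hP : Flag Pk)
    (hS : r.Sch P (P.traj s0 x ω) t Pk (fi t sK) (fi t T))
    (hG : r.Gd P (P.traj s0 x ω) x ω t Pk K L E ζ Z g c (fi t sK) (fi t T))
    (hζ : ζ + (E + 8 * K * Real.exp (m / 2 - L ^ 2 / 8)) * √n ≤ ζ₀) {y : ℕ → Vec n}
    (mem : ∀ k, wa t T ρ J ≤ k → k ≤ fi t T → Pk k *ᵥ y k = y k)
    (f2 : ∀ k, fi t sK ≤ k → k < wa t T ρ J → ∀ u, Pk k *ᵥ u = u →
      t k * ip u (r.G (P.traj s0 x ω k) *ᵥ u) ≤ 2 * F.sq u)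
    (f1 : ∀ k, wa t T ρ J ≤ k → k < fi t T → ∀ u v, Pk k *ᵥ u = u → Pk k *ᵥ v = v →
      |t k * ip u (r.G (P.traj s0 x ω k) *ᵥ v)
        - (ip u v - ip (y k) u * ip (y k) v / (2 * F.sq (y k)))| ≤ η * nv u * nv v)
    (hx : F.sq (Pk (fi t sK) *ᵥ sv x) ≤ X0)
    (win : ∀ j, j < J → Rad t Pk y κ η₁ (wa t T ρ (j + 1)) (wa t T ρ j) ∧
      Comp t Pk y (r.Wp P K L τ M s0 x ω) κ (wa t T ρ (j + 1)) (wa t T ρ j))
    (term : √(t (fi t T)) * nv (Pk (fi t T) *ᵥ r.Wp P K L τ M s0 x ω (fi t T)) ≤ M0) :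
    WOK t sK ρ T η η₁ κ τ ζ₀ Z M0 X0 (τ ^ 2 * (K ^ 2 * n)) g J c Pk (r.Gp P s0 x ω) y
      (r.Wp P K L τ M s0 x ω) (r.Sp P K L τ s0 x ω) (sv x)
      (r.mT K (P.traj s0 x ω (fi t sK))) := by
  have b1 := hp.k0_le_wa (le_refl J)
  have b2 := hp.wa_le_N J
  refine ⟨hP, fun k hk => e1W K L hS (by omega) hk, h.e2W hτ L hS (by omega) hp.k0_pos, hx, ?_,
    ⟨fun k h1 h2 => h.rcW hτ L hS hM h1 (by omega), fun k h1 h2 u hu => ?_⟩,
    ⟨mem, fun k h1 h2 => h.rcW hτ L hS hM (by omega) h2, fun k h1 h2 u v hu hv => ?_⟩,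
    fun k h1 h2 => h.srcW hL hE τ hP hS hG hζ h1 h2 h2 (hp.t_pos h1) ?_, win, term⟩
  · refine mul_le_mul_of_nonneg_left ?_ (sq_nonneg τ)
    have h1 := nv_le_sqrt h.K0 (h.abs_mT (P.traj s0 x ω (fi t sK)))
    have h2 := pow_le_pow_left₀ (nv_nonneg _) h1 2
    rwa [nv_sq, mul_pow, Real.sq_sqrt (Nat.cast_nonneg n)] at h2
  · change t k * ip u (r.Gt (P.traj s0 x ω k) *ᵥ u) ≤ _
    rw [r.Gt_ok (hG.ok k h1 (by omega))]
    exact f2 k h1 h2 u hu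
  · change |t k * ip u (r.Gt (P.traj s0 x ω k) *ᵥ v) - _| ≤ _
    rw [r.Gt_ok (hG.ok k (by omega) h2)]
    exact f1 k h1 h2 u v hu hv
  · have h3 := Tm.lt_of_lt_fi h2
    have h4 := hp.T_le
    have h5 := hp.t_pos h1
    linarith

/-- the hypotheses of the recursion for the propagator follow from those for the functional -/
theorem vok (hp : Par t dl sK ρ R₂ T η η₁ κ J) (hτ : τ ≠ 0) (hM : fi t T ≤ M)
    (hS : r.Sch P (P.traj s0 x ω) t Pk (fi t sK) (fi t T)) {ζ₀ Z M0 X0 X1 : ℝ} {g : ℝ → ℝ}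
    {c : ℕ} {y W src : ℕ → Vec n} {x' mh : Vec n}
    (hW : WOK t sK ρ T η η₁ κ τ ζ₀ Z M0 X0 X1 g J c Pk (r.Gp P s0 x ω) y W src x' mh)
    (v : Vec n) : VOK t sK ρ T η τ J Pk (r.Gp P s0 x ω) (r.Vp P τ M s0 x ω v) := by
  have b1 := hp.k0_le_N
  exact ⟨hW.flag, fun k hk => e1V hS (by omega) v hk, e2V hτ hS (by omega) hp.k0_pos v,
    fun k h1 h2 => h.rcV hτ hS hM v h1 h2, hW.cr.form, fun k h1 h2 => hW.sh.form h1 h2⟩

end OK

end Ref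

end Vale.Agent.N150.Cap
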