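import Vale.Agent.N150.CapU
import Vale.Agent.N150.A1Id
import Vale.Agent.N150.ECAux

/-! P150: the tracker built from reference data, for a general channel process. -/

open Matrix MeasureTheory Finset

namespace Vale.Agent.N150.Cap

open Vale.Agent.P150 Vale.Agent.P150.F Vale.Agent.P150.F.Ms Vale.Agent.N150.A1

variable {n m : ℕ} {S : Type}

/-- truncation at the level `K` -/
def clp (K x : ℝ) : ℝ := max (-K) (min K x)

theorem abs_clp_le {K : ℝ} (hK : 0 ≤ K) (x : ℝ) : |clp K x| ≤ K :=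
  abs_le.2 ⟨le_max_left _ _, max_le (by linarith) (min_le_left _ _)⟩

theorem clp_of_abs_le {K x : ℝ} (h : |x| ≤ K) : clp K x = x := by
  unfold clp
  rw [min_eq_right (abs_le.1 h).2, max_eq_right (abs_le.1 h).1]

theorem measurable_clp (K : ℝ) : Measurable (clp K) :=
  measurable_const.max (measurable_const.min measurable_id)

theorem abs_mv_le {a b : ℕ} {A : Matrix (Fin a) (Fin b) ℝ} {v : Fin b → ℝ} {c e : ℝ}
    (hA : ∀ i j, |A i j| ≤ c) (hv : ∀ j, |v j| ≤ e) (hc : 0 ≤ c) (i : Fin a) :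
    |(A *ᵥ v) i| ≤ b * (c * e) := by
  simp only [Matrix.mulVec, dotProduct]
  refine (Finset.abs_sum_le_sum_abs _ _).trans ?_
  calc ∑ j, |A i j * v j| ≤ ∑ _j : Fin b, c * e := by
        refine Finset.sum_le_sum fun j _ => ?_
        rw [abs_mul]
        exact mul_le_mul (hA i j) (hv j) (abs_nonneg _) hc
    _ = _ := by simp

theorem abs_mm_le {a b l : ℕ} {A : Matrix (Fin a) (Fin b) ℝ} {B : Matrix (Fin b) (Fin l) ℝ}
    {c e : ℝ} (hA : ∀ i j, |A i j| ≤ c) (hB : ∀ i j, |B i j| ≤ e) (hc : 0 ≤ c) (i : Fin a)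
    (j : Fin l) : |(A * B) i j| ≤ b * (c * e) :=
  abs_mv_le (v := fun k => B k j) hA (fun k => hB k j) hc i

theorem nv_mv_le {A : Mat n} {c : ℝ} (hA : ∀ i j, |A i j| ≤ c) (hc : 0 ≤ c) (v : Vec n) :
    nv (A *ᵥ v) ≤ n * c * nv v := by
  have h1 : ∀ i, |(A *ᵥ v) i| ≤ c * √n * nv v := fun i =>
    (F.abs_ip_le (A i) v).trans
      (mul_le_mul_of_nonneg_right (nv_le_sqrt hc (hA i)) (nv_nonneg v))
  have h2 := nv_le_sqrt (by have := nv_nonneg v; positivity) h1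
  calc _ ≤ _ := h2
    _ = c * nv v * (√n * √n) := by ring
    _ = _ := by rw [Real.mul_self_sqrt (Nat.cast_nonneg n)]; ring

theorem sq_le_of_box {L : ℝ} {ξ : Vec m} (h : ξ ∈ Box m L) : F.sq ξ ≤ m * L ^ 2 := by
  unfold F.sq
  calc ∑ j, ξ j ^ 2 ≤ ∑ _j : Fin m, L ^ 2 := Finset.sum_le_sum fun j _ => by
        rw [← sq_abs]; exact pow_le_pow_left₀ (abs_nonneg _) (h j) 2
    _ = _ := by simp

/-- a linear function of the noise, truncated to the box, has mean zero -/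
theorem integral_box_lin {a : ℕ} (M : Matrix (Fin a) (Fin m) ℝ) (L : ℝ) (i : Fin a) :
    ∫ ξ, (Box m L).indicator (fun ξ => (M *ᵥ ξ) i) ξ ∂gpi (Fin m) = 0 := by
  set φ : Vec m → ℝ := (Box m L).indicator fun ξ => (M *ᵥ ξ) i with hφ
  have hm : Measurable φ :=
    ((measurable_pi_apply i).comp (measurable_matVec M)).indicator (meas_Box m L)
  have mp := mp_mulVec (A := (-1 : Matrix (Fin m) (Fin m) ℝ)) (by simp)
  have h1 : ∫ ξ, φ ξ ∂gpi (Fin m)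
      = ∫ ξ, φ ((-1 : Matrix (Fin m) (Fin m) ℝ) *ᵥ ξ) ∂gpi (Fin m) := by
    conv_lhs => rw [← mp.map_eq]
    exact integral_map mp.measurable.aemeasurable hm.aestronglyMeasurable
  have h2 : ∀ ξ, φ ((-1 : Matrix (Fin m) (Fin m) ℝ) *ᵥ ξ) = -φ ξ := by
    intro ξ
    rw [Matrix.neg_mulVec, Matrix.one_mulVec]
    by_cases h : ξ ∈ Box m L
    · have h' : -ξ ∈ Box m L := fun j => by rw [Pi.neg_apply, abs_neg]; exact h j
      rw [hφ, Set.indicator_of_mem h, Set.indicator_of_mem h', Matrix.mulVec_neg, Pi.neg_apply]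
    · have h' : -ξ ∉ Box m L := fun h' => h fun j => by
        have := h' j
        rwa [Pi.neg_apply, abs_neg] at this
      rw [hφ, Set.indicator_of_notMem h, Set.indicator_of_notMem h', neg_zero]
  simp only [h2, integral_neg] at h1
  linarith

/-- reference data: mean, response, centred quadratic noise term, drift, locally good states,
last states of the early part -/
structure Ref (n m : ℕ) (S : Type) where
  mh : S → Vec n
  G : S → Mat n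
  B : S → Vec m → Vec n
  ka : S → Vec n
  ok : Set S
  lst : Set S

namespace Ref

variable [MeasurableSpace S] (r : Ref n m S) (P : Proc n m S)

/-- the truncated mean -/
def mT (K : ℝ) (s : S) : Vec n := fun i => clp K (r.mh s i)

open Classical in
/-- the response, set to zero on locally bad states -/
noncomputable def Gt (s : S) : Mat n := if s ∈ r.ok then r.G s else 0

open Classical in
/-- the linear part of the prediction -/
noncomputable def H (τ : ℝ) (s : S) : Mat n :=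
  if s ∈ r.lst then (1 - τ⁻¹) • (1 : Mat n) else P.δ s • (r.Gt s * P.Q s)

/-- the one step propagator -/
noncomputable def A (τ : ℝ) (s : S) : Mat n := (1 - r.H P τ s)⁻¹

open Classical in
/-- the noise part of the prediction -/
noncomputable def Z (s : S) (_x : Cfg n) (ξ : Vec m) : Vec n :=
  if s ∈ r.ok then √(P.δ s) • (r.G s *ᵥ (P.R s *ᵥ ξ)) + P.δ s • r.B s ξ else 0

/-- the remainder -/
noncomputable def rem (K L τ : ℝ) : S → Cfg n → Vec m → Vec n :=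
  remZ P (r.H P τ) (r.mT K) (r.Z P) L

/-- the anticipating remainder with `j` steps to go -/
noncomputable def W (K L τ : ℝ) (j : ℕ) (s : S) (x : Cfg n) (ω : ℕ → Vec m) : Vec n :=
  Wf P (r.A P τ) (eN P (r.mT K)) (r.rem P K L τ) j s x ω

/-- the propagator with `j` steps to go -/
noncomputable def Ph (τ : ℝ) (j : ℕ) (s : S) (x : Cfg n) (ω : ℕ → Vec m) : Mat n :=
  Phi P (r.A P τ) j s x ω

/-- measurability and polynomial bounds on the locally good states -/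
structure OK (K d : ℝ) : Prop where
  hK : 2 ≤ K
  hn : (n : ℝ) ≤ K
  hm : (m : ℝ) ≤ K
  hd : K ^ 8 * d ≤ 1
  mmh : MVec r.mh
  mG : MMat r.G
  mB : ∀ i, Measurable fun q : S × Vec m => r.B q.1 q.2 i
  mok : MeasurableSet r.ok
  mlst : MeasurableSet r.lst
  disj : ∀ s ∈ r.lst, s ∉ r.ok
  bδ : ∀ s ∈ r.ok, P.δ s ≤ d
  bR : ∀ s ∈ r.ok, ∀ i j, |P.R s i j| ≤ K
  bG : ∀ s ∈ r.ok, ∀ i j, |r.G s i j| ≤ K
  bB : ∀ s ∈ r.ok, ∀ ξ i, |r.B s ξ i| ≤ K * (1 + F.sq ξ)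
  cB : ∀ s ∈ r.ok, ∀ i, ∫ ξ, r.B s ξ i ∂gpi (Fin m) = 0

/-- one step expansion of the reference, with the next value `m1` and the error `E` -/
def Stp (s : S) (x : Cfg n) (ξ : Vec m) (m1 : Vec n) (E : ℝ) : Prop :=
  ∀ i, |(m1 - r.mh s - r.G s *ᵥ (P.δ s • (P.Q s *ᵥ (sv x - r.mh s)) + √(P.δ s) • (P.R s *ᵥ ξ))
    - P.δ s • r.ka s - P.δ s • r.B s ξ) i| ≤ E

/-- the crude bound of the remainder -/
noncomputable def rho (n : ℕ) (K L τ : ℝ) : ℝ :=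
  (2 * K + τ⁻¹ * (1 + K) + 2 * (1 + L + L ^ 2)) * √n

omit [MeasurableSpace S] in
theorem mT_eq {K : ℝ} {s : S} (h : ∀ i, |r.mh s i| ≤ K) : r.mT K s = r.mh s :=
  funext fun i => clp_of_abs_le (h i)

omit [MeasurableSpace S] in
theorem Gt_ok {s : S} (h : s ∈ r.ok) : r.Gt s = r.G s := if_pos h

omit [MeasurableSpace S] in
theorem Gt_not {s : S} (h : s ∉ r.ok) : r.Gt s = 0 := if_neg h

theorem H_lst (τ : ℝ) {s : S} (h : s ∈ r.lst) : r.H P τ s = (1 - τ⁻¹) • (1 : Mat n) := if_pos h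

theorem H_not (τ : ℝ) {s : S} (h : s ∉ r.lst) : r.H P τ s = P.δ s • (r.Gt s * P.Q s) := if_neg h

theorem Z_ok {s : S} (h : s ∈ r.ok) (x : Cfg n) (ξ : Vec m) :
    r.Z P s x ξ = √(P.δ s) • (r.G s *ᵥ (P.R s *ᵥ ξ)) + P.δ s • r.B s ξ := if_pos h

theorem Z_not {s : S} (h : s ∉ r.ok) (x : Cfg n) (ξ : Vec m) : r.Z P s x ξ = 0 := if_neg h

theorem A_lst {τ : ℝ} (hτ : τ ≠ 0) {s : S} (h : s ∈ r.lst) : r.A P τ s = τ • (1 : Mat n) := by
  unfold A
  refine Matrix.inv_eq_left_inv ?_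
  rw [r.H_lst P τ h, Matrix.smul_mul, Matrix.one_mul, sub_smul, one_smul, sub_sub_cancel,
    smul_smul, mul_inv_cancel₀ hτ, one_smul]

theorem H_bad (τ : ℝ) {s : S} (h : s ∉ r.lst) (h' : s ∉ r.ok) : r.H P τ s = 0 := by
  rw [r.H_not P τ h, r.Gt_not h', Matrix.zero_mul, smul_zero]

theorem A_bad (τ : ℝ) {s : S} (h : s ∉ r.lst) (h' : s ∉ r.ok) : r.A P τ s = 1 := by
  unfold A
  rw [r.H_bad P τ h h', sub_zero, inv_one]

theorem trZ_not (L : ℝ) {s : S} (h : s ∉ r.ok) (x : Cfg n) (ξ : Vec m) :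
    trZ (r.Z P) L s x ξ = 0 := by
  by_cases hξ : ξ ∈ Box m L
  · rw [trZ_of_mem hξ, r.Z_not P h]
  · exact trZ_of_not hξ

theorem cZ_not (L : ℝ) {s : S} (h : s ∉ r.ok) (x : Cfg n) : cZ (r.Z P) L s x = 0 := by
  funext i
  unfold cZ
  simp only [r.trZ_not P L h, Pi.zero_apply, integral_zero]

theorem rem_bad (K L τ : ℝ) {s : S} (h : s ∉ r.lst) (h' : s ∉ r.ok) (x : Cfg n) (ξ : Vec m) :
    r.rem P K L τ s x ξ = r.mT K (P.nx s x ξ) - r.mT K s := by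
  unfold rem remZ
  rw [r.H_bad P τ h h', r.trZ_not P L h', r.cZ_not P L h', Matrix.zero_mulVec]
  simp

namespace OK

variable {r P} {K d : ℝ} (h : r.OK P K d)

include h

theorem K0 : 0 ≤ K := by linarith [h.hK]

theorem K1 : 1 ≤ K := by linarith [h.hK]

theorem pow_d {s : S} (hs : s ∈ r.ok) {j : ℕ} (hj : j ≤ 8) : P.δ s * K ^ j ≤ 1 := by
  have h1 := pow_le_pow_right₀ h.K1 hj
  have h2 := mul_le_mul (h.bδ s hs) h1 (pow_nonneg h.K0 j) ((P.hδ s).le.trans (h.bδ s hs))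
  linarith [h.hd]

theorem bQ {s : S} (hs : s ∈ r.ok) (i j : Fin n) : |P.Q s i j| ≤ K ^ 3 := by
  have h1 := abs_mm_le (B := (P.R s)ᵀ) (h.bR s hs) (fun a b => h.bR s hs b a) h.K0 i j
  have h2 := mul_le_mul_of_nonneg_right h.hm (mul_nonneg h.K0 h.K0)
  calc _ ≤ _ := h1
    _ ≤ K * (K * K) := h2
    _ = K ^ 3 := by ring

theorem nv_H (τ : ℝ) {s : S} (hs : s ∉ r.lst) (v : Vec n) :
    nv (r.H P τ s *ᵥ v) ≤ 1 / 4 * nv v := by
  by_cases ho : s ∈ r.ok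
  · have K0 := h.K0
    have h1 : ∀ i j, |(r.G s * P.Q s) i j| ≤ K ^ 5 := fun i j =>
      (abs_mm_le (h.bG s ho) (h.bQ ho) K0 i j).trans
        ((mul_le_mul_of_nonneg_right h.hn (by positivity)).trans (le_of_eq (by ring)))
    have h2 := nv_mv_le h1 (by positivity) v
    have h3 : (n : ℝ) * K ^ 5 ≤ K ^ 6 :=
      (mul_le_mul_of_nonneg_right h.hn (by positivity)).trans (le_of_eq (by ring))
    have h4 : P.δ s * K ^ 6 ≤ 1 / 4 := by
      have h5 := h.pow_d ho (j := 8) le_rfl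
      have h6 : 4 ≤ K ^ 2 := by nlinarith [h.hK]
      have h7 : 0 ≤ P.δ s * K ^ 6 := mul_nonneg (P.hδ s).le (by positivity)
      have h8 : P.δ s * K ^ 8 = P.δ s * K ^ 6 * K ^ 2 := by ring
      nlinarith
    rw [r.H_not P τ hs, r.Gt_ok ho, Matrix.smul_mulVec, nv_smul, abs_of_pos (P.hδ s)]
    have h9 := mul_le_mul_of_nonneg_right h3 (nv_nonneg v)
    have h10 := mul_le_mul_of_nonneg_left (h2.trans h9) (P.hδ s).le
    have h11 := mul_le_mul_of_nonneg_right h4 (nv_nonneg v)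
    linarith
  · rw [r.H_bad P τ hs ho, Matrix.zero_mulVec, nv_zero]
    have := nv_nonneg v
    positivity

theorem low (τ : ℝ) {s : S} (hs : s ∉ r.lst) (v : Vec n) :
    nv v ≤ 2 * nv ((1 - r.H P τ s) *ᵥ v) := by
  have h1 := h.nv_H τ hs v
  have h2 := nv_add_le ((1 - r.H P τ s) *ᵥ v) (r.H P τ s *ᵥ v)
  rw [← Matrix.add_mulVec, sub_add_cancel, Matrix.one_mulVec] at h2
  have := nv_nonneg v
  have := nv_nonneg ((1 - r.H P τ s) *ᵥ v)
  linarith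

theorem A_mul {τ : ℝ} (hτ : τ ≠ 0) (s : S) : r.A P τ s * (1 - r.H P τ s) = 1 := by
  by_cases hs : s ∈ r.lst
  · rw [r.A_lst P hτ hs, r.H_lst P τ hs, Matrix.smul_mul, Matrix.one_mul, sub_smul, one_smul,
      sub_sub_cancel, smul_smul, mul_inv_cancel₀ hτ, one_smul]
  · exact Matrix.nonsing_inv_mul _ (EC.isUnit_of_low (h.low τ hs))

theorem nv_A {τ : ℝ} (hτ : 0 < τ) (hτ1 : τ ≤ 1) (s : S) (v : Vec n) :
    nv (r.A P τ s *ᵥ v) ≤ 2 * nv v := by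
  by_cases hs : s ∈ r.lst
  · rw [r.A_lst P hτ.ne' hs, Matrix.smul_mulVec, Matrix.one_mulVec, nv_smul, abs_of_pos hτ]
    exact mul_le_mul_of_nonneg_right (by linarith) (nv_nonneg v)
  · exact (EC.opLe_inv_of_low (h.low τ hs)).nv_le zero_le_two v

theorem nv_H' {τ : ℝ} (hτ : 0 < τ) (hτ1 : τ ≤ 1) (s : S) (v : Vec n) :
    nv (r.H P τ s *ᵥ v) ≤ τ⁻¹ * nv v := by
  have h1 : 1 ≤ τ⁻¹ := (one_le_inv₀ hτ).2 hτ1
  by_cases hs : s ∈ r.lst
  · rw [r.H_lst P τ hs, Matrix.smul_mulVec, Matrix.one_mulVec, nv_smul,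
      abs_of_nonpos (by linarith)]
    exact mul_le_mul_of_nonneg_right (by linarith) (nv_nonneg v)
  · exact (h.nv_H τ hs v).trans (mul_le_mul_of_nonneg_right (by linarith) (nv_nonneg v))

theorem mm_Gt : MMat r.Gt := fun i j => by
  classical
  have e : (fun s => r.Gt s i j) = fun s => if s ∈ r.ok then r.G s i j else 0 := by
    funext s; unfold Gt; split_ifs <;> rfl
  rw [e]
  exact Measurable.ite h.mok (h.mG i j) measurable_const

theorem mm_H (τ : ℝ) : MMat (r.H P τ) := fun i j => by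
  classical
  have e : (fun s => r.H P τ s i j) = fun s => if s ∈ r.lst then ((1 - τ⁻¹) • (1 : Mat n)) i j
      else (P.δ s • (r.Gt s * P.Q s)) i j := by
    funext s; unfold H; split_ifs <;> rfl
  rw [e]
  exact Measurable.ite h.mlst measurable_const (MMat.smul P.measδ
    (EC.mm_mul h.mm_Gt (EC.mm_mul P.measR (EC.mm_transpose P.measR))) i j)

theorem bm_H {τ : ℝ} (hτ : 0 < τ) (hτ1 : τ ≤ 1) (i j : Fin n) : BM fun s => r.H P τ s i j :=
  ⟨h.mm_H τ i j, τ⁻¹, fun s =>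
    EC.MB_of_opLe (opLe_of_nv (h.nv_H' hτ hτ1 s)) (inv_nonneg.2 hτ.le) i j⟩

theorem bm_A {τ : ℝ} (hτ : 0 < τ) (hτ1 : τ ≤ 1) (i j : Fin n) : BM fun s => r.A P τ s i j :=
  ⟨EC.mm_inv ((MMat.const 1).sub (h.mm_H τ)) i j, 2, fun s =>
    EC.MB_of_opLe (opLe_of_nv (h.nv_A hτ hτ1 s)) zero_le_two i j⟩

theorem abs_mT (s : S) (i : Fin n) : |r.mT K s i| ≤ K := abs_clp_le h.K0 _

theorem bm_mT (i : Fin n) : BM fun s => r.mT K s i :=
  ⟨(measurable_clp K).comp (h.mmh i), K, fun s => h.abs_mT s i⟩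

theorem meas_Z (x : Cfg n) (i : Fin n) : Measurable fun q : S × Vec m => r.Z P q.1 x q.2 i := by
  classical
  have e : (fun q : S × Vec m => r.Z P q.1 x q.2 i) = fun q : S × Vec m => if q.1 ∈ r.ok then
      √(P.δ q.1) * (r.G q.1 *ᵥ (P.R q.1 *ᵥ q.2)) i + P.δ q.1 * r.B q.1 q.2 i else 0 := by
    funext q; unfold Z; split_ifs <;> rfl
  have hδ : Measurable fun q : S × Vec m => P.δ q.1 := P.measδ.comp measurable_fst
  have hG : MMat fun q : S × Vec m => r.G q.1 := fun a b => (h.mG a b).comp measurable_fst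
  have hR : MMat fun q : S × Vec m => P.R q.1 := fun a b => (P.measR a b).comp measurable_fst
  rw [e]
  exact Measurable.ite (measurable_fst h.mok)
    ((hδ.sqrt.mul (hG.mulVec (hR.mulVec (mvec_of measurable_snd)) i)).add (hδ.mul (h.mB i)))
    measurable_const

theorem abs_Z {L : ℝ} (hL : 0 ≤ L) (s : S) (x : Cfg n) {ξ : Vec m} (hξ : ξ ∈ Box m L)
    (i : Fin n) : |r.Z P s x ξ i| ≤ 1 + L + L ^ 2 := by
  by_cases ho : s ∈ r.ok
  · have K0 := h.K0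
    have hδ := (P.hδ s).le
    have h1 : ∀ j, |(P.R s *ᵥ ξ) j| ≤ K * (K * L) := fun j =>
      (abs_mv_le (h.bR s ho) hξ K0 j).trans (mul_le_mul_of_nonneg_right h.hm (by positivity))
    have h2 : |(r.G s *ᵥ (P.R s *ᵥ ξ)) i| ≤ K ^ 4 * L :=
      (abs_mv_le (h.bG s ho) h1 K0 i).trans
        ((mul_le_mul_of_nonneg_right h.hn (by positivity)).trans (le_of_eq (by ring)))
    have h3 : √(P.δ s) * K ^ 4 ≤ 1 := by
      have h4 : (√(P.δ s) * K ^ 4) ^ 2 ≤ 1 := by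
        rw [mul_pow, Real.sq_sqrt hδ, ← pow_mul]
        exact h.pow_d ho le_rfl
      exact (pow_le_one_iff_of_nonneg (by positivity) two_ne_zero).1 h4
    have h5 : |r.B s ξ i| ≤ K * (1 + K * L ^ 2) := by
      refine (h.bB s ho ξ i).trans (mul_le_mul_of_nonneg_left ?_ K0)
      have := (sq_le_of_box hξ).trans (mul_le_mul_of_nonneg_right h.hm (sq_nonneg L))
      linarith
    have h6 := h.pow_d ho (j := 1) (by norm_num)
    have h7 := mul_le_mul_of_nonneg_right (h.pow_d ho (j := 2) (by norm_num)) (sq_nonneg L)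
    have h8 := mul_le_mul_of_nonneg_left h5 hδ
    have h9 := mul_le_mul_of_nonneg_left h2 (Real.sqrt_nonneg (P.δ s))
    have h10 := mul_le_mul_of_nonneg_right h3 hL
    rw [r.Z_ok P ho, Pi.add_apply, Pi.smul_apply, Pi.smul_apply, smul_eq_mul, smul_eq_mul]
    refine (abs_add_le _ _).trans ?_
    rw [abs_mul, abs_mul, abs_of_nonneg (Real.sqrt_nonneg _), abs_of_nonneg hδ]
    nlinarith
  · rw [r.Z_not P ho, Pi.zero_apply, abs_zero]
    positivity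

theorem abs_trZ {L : ℝ} (hL : 0 ≤ L) (s : S) (x : Cfg n) (ξ : Vec m) (i : Fin n) :
    |trZ (r.Z P) L s x ξ i| ≤ 1 + L + L ^ 2 := by
  by_cases hξ : ξ ∈ Box m L
  · rw [trZ_of_mem hξ]; exact h.abs_Z hL s x hξ i
  · rw [trZ_of_not hξ, Pi.zero_apply, abs_zero]; positivity

theorem bm_trZ' {L : ℝ} (hL : 0 ≤ L) (x : Cfg n) (i : Fin n) :
    BM fun q : S × Vec m => trZ (r.Z P) L q.1 x q.2 i :=
  bm_trZ h.meas_Z ⟨1 + L + L ^ 2, fun s x _ i hξ => h.abs_Z hL s x hξ i⟩ x i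

theorem abs_cZ {L : ℝ} (hL : 0 ≤ L) (s : S) (x : Cfg n) (i : Fin n) :
    |cZ (r.Z P) L s x i| ≤ 1 + L + L ^ 2 := by
  unfold cZ
  rw [← Real.norm_eq_abs]
  refine (norm_integral_le_of_norm_le_const (C := 1 + L + L ^ 2)
    (Filter.Eventually.of_forall fun ξ => ?_)).trans (by simp)
  rw [Real.norm_eq_abs]
  exact h.abs_trZ hL s x ξ i

theorem bm_rem {L τ : ℝ} (hL : 0 ≤ L) (hτ : 0 < τ) (hτ1 : τ ≤ 1) (x : Cfg n) (i : Fin n) :
    BM fun q : S × Vec m => r.rem P K L τ q.1 x q.2 i :=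
  bm_remZ P (h.bm_H hτ hτ1) h.bm_mT (h.bm_trZ' hL) x i

/-- the tracking identity holds at every state -/
theorem idOn {L τ : ℝ} (hL : 0 ≤ L) (hτ : 0 < τ) (s : S) :
    IdOn P (r.A P τ) (r.mT K) (r.rem P K L τ) s :=
  idOn_remZ P (h.bm_trZ' hL) (h.A_mul hτ.ne' s)

theorem bm_W {L τ : ℝ} (hL : 0 ≤ L) (hτ : 0 < τ) (hτ1 : τ ≤ 1) (j : ℕ) (x : Cfg n) (i : Fin n) :
    BM fun p : S × (ℕ → Vec m) => r.W P K L τ j p.1 x p.2 i :=
  bm_Wf P (h.bm_A hτ hτ1) (bm_eN P h.bm_mT) (h.bm_rem hL hτ hτ1) j x i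

theorem bm_Ph {τ : ℝ} (hτ : 0 < τ) (hτ1 : τ ≤ 1) (j : ℕ) (x : Cfg n) (i l : Fin n) :
    BM fun p : S × (ℕ → Vec m) => r.Ph P τ j p.1 x p.2 i l :=
  bm_Phi P (h.bm_A hτ hτ1) j x i l

/-- crude bound of the remainder, on all paths -/
theorem nv_rem {L τ : ℝ} (hL : 0 ≤ L) (hτ : 0 < τ) (hτ1 : τ ≤ 1) (s : S) (x : Cfg n) (ξ : Vec m) :
    nv (r.rem P K L τ s x ξ) ≤ rho n K L τ := by
  have K0 := h.K0
  have h1 := nv_le_sqrt K0 (h.abs_mT (P.nx s x ξ))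
  have h2 := nv_le_sqrt K0 (h.abs_mT s)
  have h3 := nv_le_sqrt (by positivity) (h.abs_trZ hL s x ξ)
  have h4 := nv_le_sqrt (by positivity) (h.abs_cZ hL s x)
  have h5 := h.nv_H' hτ hτ1 s (sv x - r.mT K s)
  have h6 : nv (sv x - r.mT K s) ≤ (1 + K) * √n := by
    have := nv_sub_le (sv x) (r.mT K s)
    have := nv_le_sqrt_n (m := sv x) fun i => (abs_sv x i).le
    linarith
  have h7 := mul_le_mul_of_nonneg_left h6 (inv_nonneg.2 hτ.le)
  unfold rem remZ rho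
  have a1 := nv_add_le (r.mT K (P.nx s x ξ) - r.mT K s - r.H P τ s *ᵥ (sv x - r.mT K s)
    - trZ (r.Z P) L s x ξ) (cZ (r.Z P) L s x)
  have a2 := nv_sub_le (r.mT K (P.nx s x ξ) - r.mT K s - r.H P τ s *ᵥ (sv x - r.mT K s))
    (trZ (r.Z P) L s x ξ)
  have a3 := nv_sub_le (r.mT K (P.nx s x ξ) - r.mT K s) (r.H P τ s *ᵥ (sv x - r.mT K s))
  have a4 := nv_sub_le (r.mT K (P.nx s x ξ)) (r.mT K s)
  linarith

/-- the mean of the truncated noise term is of order `δ` times a tiny number -/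
theorem abs_cZ_ok {L : ℝ} (hL : 0 ≤ L) {s : S} (hs : s ∈ r.ok) (x : Cfg n) (i : Fin n) :
    |cZ (r.Z P) L s x i| ≤ 8 * (P.δ s * K) * Real.exp (m / 2 - L ^ 2 / 8) := by
  have hδ := (P.hδ s).le
  have hm2 : Measurable fun ξ : Vec m => (P.δ s • r.B s ξ) i :=
    ((h.mB i).comp (measurable_const.prodMk measurable_id)).const_mul _
  have hb2 : ∀ ξ, |(P.δ s • r.B s ξ) i| ≤ P.δ s * K * (1 + F.sq ξ) := fun ξ => by
    rw [Pi.smul_apply, smul_eq_mul, abs_mul, abs_of_nonneg hδ, mul_assoc]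
    exact mul_le_mul_of_nonneg_left (h.bB s hs ξ i) hδ
  have key := abs_cZ_le (Z := fun s _ ξ => P.δ s • r.B s ξ) (s := s) (x := x) (i := i) hL
    (mul_nonneg hδ h.K0) hm2 (by
      simp only [Pi.smul_apply, smul_eq_mul]
      rw [integral_const_mul, h.cB s hs i, mul_zero]) hb2
  set M : Matrix (Fin n) (Fin m) ℝ := √(P.δ s) • (r.G s * P.R s) with hM
  have i1 : Integrable (fun ξ : Vec m => (M *ᵥ ξ) i) (gpi (Fin m)) := by
    simp only [Matrix.mulVec, dotProduct]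
    exact integrable_finsetSum _ fun j _ => (A1.integrable_coord j).const_mul _
  have i2 : Integrable (fun ξ : Vec m => (P.δ s • r.B s ξ) i) (gpi (Fin m)) :=
    (integrable_sq_gauss.const_mul _).mono' hm2.aestronglyMeasurable
      (Filter.Eventually.of_forall fun ξ => by rw [Real.norm_eq_abs]; exact hb2 ξ)
  have e1 : ∀ ξ, trZ (r.Z P) L s x ξ i = (Box m L).indicator (fun ξ => (M *ᵥ ξ) i) ξ
      + (Box m L).indicator (fun ξ => (P.δ s • r.B s ξ) i) ξ := by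
    intro ξ
    by_cases hξ : ξ ∈ Box m L
    · rw [trZ_of_mem hξ, Set.indicator_of_mem hξ, Set.indicator_of_mem hξ, r.Z_ok P hs, hM,
        Matrix.smul_mulVec, Matrix.mulVec_mulVec]
      rfl
    · rw [trZ_of_not hξ, Set.indicator_of_notMem hξ, Set.indicator_of_notMem hξ]
      simp
  have e2 : ∀ ξ, trZ (fun s (_ : Cfg n) ξ => P.δ s • r.B s ξ) L s x ξ i
      = (Box m L).indicator (fun ξ => (P.δ s • r.B s ξ) i) ξ := by
    intro ξ
    by_cases hξ : ξ ∈ Box m L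
    · rw [trZ_of_mem hξ, Set.indicator_of_mem hξ]
    · rw [trZ_of_not hξ, Set.indicator_of_notMem hξ]; rfl
  unfold cZ at key ⊢
  simp only [e2] at key
  simp only [e1]
  rw [integral_add (i1.indicator (meas_Box m L)) (i2.indicator (meas_Box m L)),
    integral_box_lin, zero_add]
  exact key

/-- on a good step the remainder is the drift, the jump of the reference and a small error -/
theorem nv_src {L : ℝ} (hL : 0 ≤ L) (τ : ℝ) {s : S} (hs : s ∈ r.ok) {x : Cfg n} {ξ : Vec m}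
    (hξ : ξ ∈ Box m L) (h0 : ∀ i, |r.mh s i| ≤ K) (h1 : ∀ i, |r.mh (P.nx s x ξ) i| ≤ K)
    {m1 : Vec n} {E : ℝ} (hE : r.Stp P s x ξ m1 E) :
    nv (r.rem P K L τ s x ξ - P.δ s • r.ka s - (r.mh (P.nx s x ξ) - m1))
      ≤ (|E| + 8 * (P.δ s * K) * Real.exp (m / 2 - L ^ 2 / 8)) * √n := by
  have hl : s ∉ r.lst := fun hl => h.disj s hl hs
  have hδ := (P.hδ s).le
  have K0 := h.K0
  refine nv_le_sqrt (by positivity) fun i => ?_
  have e : r.rem P K L τ s x ξ - P.δ s • r.ka s - (r.mh (P.nx s x ξ) - m1)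
      = (m1 - r.mh s - r.G s *ᵥ (P.δ s • (P.Q s *ᵥ (sv x - r.mh s)) + √(P.δ s) • (P.R s *ᵥ ξ))
        - P.δ s • r.ka s - P.δ s • r.B s ξ) + cZ (r.Z P) L s x := by
    unfold rem remZ
    rw [r.mT_eq h0, r.mT_eq h1, trZ_of_mem hξ, r.Z_ok P hs, r.H_not P τ hl, r.Gt_ok hs,
      Matrix.smul_mulVec, ← Matrix.mulVec_mulVec, Matrix.mulVec_add, Matrix.mulVec_smul,
      Matrix.mulVec_smul]
    abel
  rw [e, Pi.add_apply]
  exact (abs_add_le _ _).trans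
    (add_le_add ((hE i).trans (le_abs_self E)) (h.abs_cZ_ok hL hs x i))

/-- the recursion along a path, in the form used by the deterministic recursion -/
theorem W_rec {τ : ℝ} (hτ : τ ≠ 0) (L : ℝ) (s : S) (x : Cfg n) (ω : ℕ → Vec m) (k j : ℕ)
    (hl : P.traj s x ω k ∉ r.lst) :
    r.W P K L τ (j + 1) (P.traj s x ω k) x (shS k ω) - P.δ (P.traj s x ω k) •
      (r.Gt (P.traj s x ω k) *ᵥ (P.Q (P.traj s x ω k) *ᵥ
        r.W P K L τ (j + 1) (P.traj s x ω k) x (shS k ω)))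
      = r.W P K L τ j (P.traj s x ω (k + 1)) x (shS (k + 1) ω)
        + r.rem P K L τ (P.traj s x ω k) x (ω k) := by
  have h1 := Wf_rec P (e := eN P (r.mT K)) (rem := r.rem P K L τ) s x ω k j (h.A_mul hτ _)
  rw [r.H_not P τ hl, Matrix.smul_mulVec, ← Matrix.mulVec_mulVec] at h1
  exact h1

theorem Ph_rec {τ : ℝ} (hτ : τ ≠ 0) (s : S) (x : Cfg n) (ω : ℕ → Vec m) (k j : ℕ) (v : Vec n)
    (hl : P.traj s x ω k ∉ r.lst) :
    r.Ph P τ (j + 1) (P.traj s x ω k) x (shS k ω) *ᵥ v - P.δ (P.traj s x ω k) •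
      (r.Gt (P.traj s x ω k) *ᵥ (P.Q (P.traj s x ω k) *ᵥ
        (r.Ph P τ (j + 1) (P.traj s x ω k) x (shS k ω) *ᵥ v)))
      = r.Ph P τ j (P.traj s x ω (k + 1)) x (shS (k + 1) ω) *ᵥ v + 0 := by
  have h1 := Phi_rec P s x ω k j v (h.A_mul hτ _)
  rw [r.H_not P τ hl, Matrix.smul_mulVec, ← Matrix.mulVec_mulVec] at h1
  rw [add_zero]
  exact h1

/-- the last step of the early part -/
theorem W_lst {τ : ℝ} (hτ : τ ≠ 0) (L : ℝ) (s : S) (x : Cfg n) (ω : ℕ → Vec m) (k j : ℕ)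
    (hl : P.traj s x ω k ∈ r.lst) (h0 : r.mh (P.traj s x ω k) = 0) :
    r.W P K L τ (j + 1) (P.traj s x ω k) x (shS k ω) = (1 - τ) • sv x
      + τ • (r.W P K L τ j (P.traj s x ω (k + 1)) x (shS (k + 1) ω)
        + r.mT K (P.traj s x ω (k + 1))) := by
  have h1 : r.mT K (P.traj s x ω k) = 0 := by
    rw [r.mT_eq fun i => by rw [h0, Pi.zero_apply, abs_zero]; exact h.K0, h0]
  have h2 := h.disj _ hl
  unfold W
  rw [Wf_path, r.A_lst P hτ hl, Matrix.smul_mulVec, Matrix.one_mulVec]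
  unfold rem remZ
  rw [r.trZ_not P L h2, r.cZ_not P L h2, r.H_lst P τ hl, h1, Matrix.smul_mulVec,
    Matrix.one_mulVec, ← P.traj_succ]
  funext i
  simp only [Pi.add_apply, Pi.sub_apply, Pi.smul_apply, smul_eq_mul, Pi.zero_apply]
  field_simp
  ring

omit h in
theorem Ph_lst {τ : ℝ} (hτ : τ ≠ 0) (s : S) (x : Cfg n) (ω : ℕ → Vec m) (k j : ℕ)
    (hl : P.traj s x ω k ∈ r.lst) :
    r.Ph P τ (j + 1) (P.traj s x ω k) x (shS k ω)
      = τ • r.Ph P τ j (P.traj s x ω (k + 1)) x (shS (k + 1) ω) := by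
  unfold Ph
  rw [Phi_path, r.A_lst P hτ hl, Matrix.smul_mul, Matrix.one_mul]

omit h in
/-- an inner step of the early part -/
theorem W_early (τ L : ℝ) (s : S) (x : Cfg n) (ω : ℕ → Vec m) (k j : ℕ)
    (hl : P.traj s x ω k ∉ r.lst) (ho : P.traj s x ω k ∉ r.ok)
    (h0 : r.mh (P.traj s x ω (k + 1)) = r.mh (P.traj s x ω k)) :
    r.W P K L τ (j + 1) (P.traj s x ω k) x (shS k ω)
      = r.W P K L τ j (P.traj s x ω (k + 1)) x (shS (k + 1) ω) := by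
  unfold W
  rw [Wf_path, r.A_bad P τ hl ho, Matrix.one_mulVec, r.rem_bad P K L τ hl ho, ← P.traj_succ]
  unfold mT
  rw [h0, sub_self, add_zero]

omit h in
theorem Ph_early (τ : ℝ) (s : S) (x : Cfg n) (ω : ℕ → Vec m) (k j : ℕ)
    (hl : P.traj s x ω k ∉ r.lst) (ho : P.traj s x ω k ∉ r.ok) :
    r.Ph P τ (j + 1) (P.traj s x ω k) x (shS k ω)
      = r.Ph P τ j (P.traj s x ω (k + 1)) x (shS (k + 1) ω) := by
  unfold Ph
  rw [Phi_path, r.A_bad P τ hl ho, Matrix.one_mul]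

/-- crude bounds on all paths, in a family of contractive seminorms -/
theorem crude {L τ : ℝ} (hL : 0 ≤ L) (hτ : 0 < τ) (hτ1 : τ ≤ 1) {Lay : ℕ → Set S}
    (hLay : ∀ k s z, s ∈ Lay k → P.nxt s z ∈ Lay (k + 1)) {T : S → Mat n} {al : ℕ → ℝ}
    {k0 N : ℕ} {Γ : ℝ} (hal : ∀ j, 1 ≤ al j)
    (hstep : ∀ j, k0 ≤ j → j < N → ∀ s ∈ Lay j, ∀ z v,
      nv (T s *ᵥ (r.A P τ s *ᵥ v)) ≤ al j * nv (T (P.nxt s z) *ᵥ v))
    (hT : ∀ j, ∀ s ∈ Lay j, ∀ v, nv (T s *ᵥ v) ≤ nv v)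
    (hΓ : ∏ j ∈ Ico k0 N, al j ≤ Γ) {k : ℕ} (hk0 : k0 ≤ k) (hk : k ≤ N) {s : S} (hs : s ∈ Lay k)
    (x : Cfg n) (ω : ℕ → Vec m) :
    (∀ v, nv (T s *ᵥ (r.Ph P τ (N - k) s x ω *ᵥ v)) ≤ Γ * nv v) ∧
      nv (T s *ᵥ r.W P K L τ (N - k) s x ω) ≤ Γ * ((1 + K) * √n + N * rho n K L τ) := by
  have K0 := h.K0
  have hρ : 0 ≤ rho n K L τ := by unfold rho; positivity
  have h1 : ∏ j ∈ Ico k N, al j ≤ Γ := le_trans (Finset.prod_le_prod_of_subset_of_one_le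
    (Finset.Ico_subset_Ico hk0 le_rfl) (fun j _ => zero_le_one.trans (hal j))
    fun j _ _ => hal j) hΓ
  have h2 : 0 ≤ ∏ j ∈ Ico k N, al j := Finset.prod_nonneg fun j _ => zero_le_one.trans (hal j)
  have h3 := traj_mem P hLay hs x ω (N - k)
  refine ⟨fun v => ?_, ?_⟩
  · refine (crude_Phi P hLay hal hstep x hk0 (by omega) hs ω v).trans ?_
    exact mul_le_mul h1 (hT _ _ h3 v) (nv_nonneg _) (h2.trans h1)
  · refine (crude_W P (e := eN P (r.mT K)) (ρ := fun _ => rho n K L τ) hLay hal (fun _ => hρ) hstep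
      (x := x) (fun j _ _ s hs ξ => (hT _ _ (hLay j s _ hs) _).trans (h.nv_rem hL hτ hτ1 s x ξ))
      (N - k) k hk0 (by omega) s hs ω).trans ?_
    refine mul_le_mul h1 (add_le_add ((hT _ _ h3 _).trans (nv_eN_le P h.abs_mT K0 _ x)) ?_)
      (add_nonneg (nv_nonneg _) (Finset.sum_nonneg fun _ _ => hρ)) (h2.trans h1)
    rw [Finset.sum_const, Nat.card_Ico, nsmul_eq_mul]
    exact mul_le_mul_of_nonneg_right (by exact_mod_cast Nat.sub_le N k) hρ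

/-- the hypotheses of the tracking lemma, from crude bounds and the probability of the good event -/
theorem track {L τ : ℝ} (hL : 0 ≤ L) (hτ : 0 < τ) (hτ1 : τ ≤ 1) {Lay : ℕ → Set S}
    (hLay : ∀ k s z, s ∈ Lay k → P.nxt s z ∈ Lay (k + 1)) {T : S → Mat n} {al : ℕ → ℝ}
    {k0 N : ℕ} {Γ Cq : ℝ} (hk : k0 ≤ N) (hal : ∀ j, 1 ≤ al j)
    (hstep : ∀ j, k0 ≤ j → j < N → ∀ s ∈ Lay j, ∀ z v,
      nv (T s *ᵥ (r.A P τ s *ᵥ v)) ≤ al j * nv (T (P.nxt s z) *ᵥ v))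
    (hT : ∀ j, ∀ s ∈ Lay j, ∀ v, nv (T s *ᵥ v) ≤ nv v)
    (hΓ : ∏ j ∈ Ico k0 N, al j ≤ Γ) (hCq : 0 ≤ Cq)
    (hQ : ∀ j, k0 ≤ j → j < N → ∀ s ∈ Lay j, ∀ v, qf (P.Q s) v ≤ Cq * nv (T s *ᵥ v) ^ 2)
    {s0 : S} (hs0 : s0 ∈ Lay 0) {C lam d' : ℝ} (hC : 0 ≤ C) (hlam0 : 0 < lam)
    (hlam : m * (n * C) ≤ lam) (hd : lam ^ 2 * d' ≤ 1)
    (hR : ∀ k, k0 ≤ k → k < N → ∀ s ∈ Lay k, (∀ i j, |P.R s i j| ≤ C) ∧ P.δ s ≤ d')
    {l mm p : ℕ → ℝ} (hl : ∀ k, 0 ≤ l k) (hmm : ∀ k, 0 ≤ mm k)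
    (good : ∀ k, k0 ≤ k → k < N → PE (P.law s0) (fun x ω => ¬
      ((∀ v, P.δ (P.traj s0 x ω k) * qf (P.Q (P.traj s0 x ω k))
          (r.Ph P τ (N - k) (P.traj s0 x ω k) x (shS k ω) *ᵥ v) ≤ l k * F.sq v) ∧
        P.δ (P.traj s0 x ω k) * qf (P.Q (P.traj s0 x ω k))
          (r.W P K L τ (N - k) (P.traj s0 x ω k) x (shS k ω)) ≤ mm k)) ≤ p k) :
    Track P (r.A P τ) (r.mT K) (r.rem P K L τ) Lay s0 k0 N C lam d'
      (Cq * Γ ^ 2 * (1 + ((1 + K) * √n + N * rho n K L τ) ^ 2)) l mm p := by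
  refine ⟨h.bm_A hτ hτ1, h.bm_mT, h.bm_rem hL hτ hτ1, hLay, hs0, hk,
    fun k _ _ s _ => h.idOn hL hτ s, hC, hlam0, hlam, hd, hR, by positivity, ?_, hl, hmm, good⟩
  intro k h1 h2 s hs x ω
  obtain ⟨a1, a2⟩ := h.crude hL hτ hτ1 hLay hal hstep hT hΓ h1 h2.le hs x ω
  have key : ∀ (w : Vec n) (b : ℝ), nv (T s *ᵥ w) ≤ b → P.δ s * qf (P.Q s) w ≤ Cq * b ^ 2 := by
    intro w b hb
    have b1 := (hQ k h1 h2 s hs w).trans
      (mul_le_mul_of_nonneg_left (pow_le_pow_left₀ (nv_nonneg _) hb 2) hCq)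
    have b2 : 0 ≤ Cq * b ^ 2 := by positivity
    have b3 := mul_le_mul_of_nonneg_left b1 (P.hδ s).le
    have b4 := mul_le_mul_of_nonneg_right (P.hδ1 s) b2
    linarith
  set Y := (1 + K) * √n + N * rho n K L τ with hY
  have c0 : 0 ≤ Cq * Γ ^ 2 := by positivity
  refine ⟨fun v => (key _ _ (a1 v)).trans ?_, (key _ _ a2).trans ?_⟩
  · rw [mul_pow, nv_sq]
    have c1 := mul_nonneg (mul_nonneg c0 (sq_nonneg Y)) (sqN_nonneg v)
    linarith
  · rw [mul_pow]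
    linarith

/-- the step bound for a projection valued covariance -/
theorem step_proj {τ : ℝ} (hτ : 0 < τ) (hτ1 : τ ≤ 1) {s : S} {Q' : Mat n} {c : ℝ}
    (hQs : (P.Q s)ᵀ = P.Q s) (hQ : P.Q s * P.Q s = P.Q s)
    (hQ' : ∀ v, nv (P.Q s *ᵥ v) ≤ nv (Q' *ᵥ v)) (hc0 : 0 ≤ c) (hc : P.δ s * c < 1)
    (hG : s ∈ r.ok → ∀ u, P.Q s *ᵥ u = u → ip u (r.G s *ᵥ u) ≤ c * F.sq u) (v : Vec n) :
    nv (P.Q s *ᵥ (r.A P τ s *ᵥ v)) ≤ (1 - P.δ s * c)⁻¹ * nv (Q' *ᵥ v) := by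
  have _h := h
  have hδ := P.hδ s
  have h1 : 1 ≤ (1 - P.δ s * c)⁻¹ :=
    (one_le_inv₀ (by linarith)).2 (by linarith [mul_nonneg hδ.le hc0])
  have h2 := mul_le_mul_of_nonneg_right h1 (nv_nonneg (Q' *ᵥ v))
  have h3 := hQ' v
  by_cases hl : s ∈ r.lst
  · rw [r.A_lst P hτ.ne' hl, Matrix.smul_mulVec, Matrix.one_mulVec, Matrix.mulVec_smul, nv_smul,
      abs_of_pos hτ]
    have h4 := mul_le_mul_of_nonneg_right hτ1 (nv_nonneg (P.Q s *ᵥ v))
    linarith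
  · by_cases ho : s ∈ r.ok
    · unfold A
      rw [r.H_not P τ hl, r.Gt_ok ho]
      exact ((inv_step hQs hQ hδ.le hc (hG ho)).2 v).trans
        (mul_le_mul_of_nonneg_left h3 (zero_le_one.trans h1))
    · rw [r.A_bad P τ hl ho, Matrix.one_mulVec]
      linarith

/-- the step bound in the Euclidean norm -/
theorem step_op {τ : ℝ} (hτ : 0 < τ) (hτ1 : τ ≤ 1) {s : S} {c : ℝ} (hc0 : 0 ≤ c)
    (hc : P.δ s * c < 1) (hG : s ∈ r.ok → OpLe (r.G s * P.Q s) c) (v : Vec n) :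
    nv (r.A P τ s *ᵥ v) ≤ (1 - P.δ s * c)⁻¹ * nv v := by
  have hδ := P.hδ s
  have h1 : 1 ≤ (1 - P.δ s * c)⁻¹ :=
    (one_le_inv₀ (by linarith)).2 (by linarith [mul_nonneg hδ.le hc0])
  have h2 := mul_le_mul_of_nonneg_right h1 (nv_nonneg v)
  by_cases hl : s ∈ r.lst
  · rw [r.A_lst P hτ.ne' hl, Matrix.smul_mulVec, Matrix.one_mulVec, nv_smul, abs_of_pos hτ]
    have h4 := mul_le_mul_of_nonneg_right hτ1 (nv_nonneg v)
    linarith
  · by_cases ho : s ∈ r.ok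
    · set w := r.A P τ s *ᵥ v with hw
      have h3 : (1 - r.H P τ s) *ᵥ w = v := by
        rw [hw, Matrix.mulVec_mulVec, mul_eq_one_comm.1 (h.A_mul hτ.ne' s), Matrix.one_mulVec]
      rw [Matrix.sub_mulVec, Matrix.one_mulVec, r.H_not P τ hl, r.Gt_ok ho,
        Matrix.smul_mulVec] at h3
      have h4 := nv_add_le v (P.δ s • ((r.G s * P.Q s) *ᵥ w))
      rw [nv_smul, abs_of_pos hδ, ← sub_eq_iff_eq_add.1 h3] at h4
      have h5 := mul_le_mul_of_nonneg_left ((hG ho).nv_le hc0 w) hδ.le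
      rw [le_inv_mul_iff₀ (by linarith)]
      linarith
    · rw [r.A_bad P τ hl ho, Matrix.one_mulVec]
      linarith

end OK

end Ref

/-- products of the step factors -/
theorem prod_inv_le {a : ℕ → ℝ} {k N : ℕ} (h0 : ∀ j ∈ Ico k N, 0 ≤ a j)
    (h1 : ∀ j ∈ Ico k N, a j ≤ 1 / 2) :
    ∏ j ∈ Ico k N, (1 - a j)⁻¹ ≤ Real.exp (2 * ∑ j ∈ Ico k N, a j) := by
  rw [Finset.mul_sum, Real.exp_sum]
  refine Finset.prod_le_prod (fun j hj => inv_nonneg.2 (by linarith [h1 j hj])) fun j hj => ?_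
  have b0 := h0 j hj
  have b1 := h1 j hj
  rw [inv_le_iff_one_le_mul₀ (by linarith)]
  nlinarith [Real.add_one_le_exp (2 * a j)]

end Vale.Agent.N150.Cap
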