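import Mathlib
import Vale.Agent.N150.Rip
import Vale.Agent.N150.Tail2
import Vale.Agent.N150.Fib1

/-! Compressions and restricted isometry on the fibres of an exploration. -/

open MeasureTheory ProbabilityTheory Matrix Module Real
open scoped ENNReal

namespace Vale.Agent.N150.Rip

open Vale.Agent.P150 Vale.Agent.P150.F Vale.Agent.N150.Fib

variable {n : ℕ}

/-! ### one vector on a fibre -/

/-- the subgroup `S` of the stabiliser acts transitively on the spheres of the range of `P` -/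
structure Trans (S : Subgroup (OG n)) (P : Mat n) : Prop where
  le : S ≤ HG P
  ex : ∀ a b : Vec n, P *ᵥ a = a → P *ᵥ b = b → F.sq a = F.sq b → ∃ R ∈ S, R.1 *ᵥ a = b

theorem trans_HG {P : Mat n} (hP : IsProj P) : Trans (HG P) P := by
  refine ⟨le_rfl, fun a b ha hb h => ?_⟩
  obtain ⟨R, h1, h2, h3⟩ := exists_orth hP ha hb h
  exact ⟨OG.mk' R (mul_eq_one_comm.1 h1), h2, h3⟩

theorem trans_SG {P : Mat n} (hP : IsProj P) (h2 : 1 < P.trace) : Trans (SG P) P := by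
  refine ⟨SG_le_HG, fun a b ha hb h => ?_⟩
  obtain ⟨R, h1, h2, h3, h4⟩ := exists_orth_det hP h2 ha hb h
  exact ⟨OG.mk' R (mul_eq_one_comm.1 h1), ⟨h2, h3⟩, h4⟩

theorem gpi_mulVec_ne {P : Mat n} {v : Vec n} (hv : P *ᵥ v ≠ 0) :
    ∀ᵐ g ∂(gpi (Fin n)), P *ᵥ g ≠ 0 := by
  have h1 : (volume : Measure (Vec n)) (LinearMap.ker (Matrix.toLin' P)) = 0 := by
    refine Measure.addHaar_submodule _ _ fun h => hv ?_
    have : v ∈ LinearMap.ker (Matrix.toLin' P) := by rw [h]; trivial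
    simpa using this
  have h2 : gpi (Fin n) ≪ volume := by
    rw [gpi_eq]
    exact withDensity_absolutelyContinuous _ _
  have h3 := h2 h1
  rw [ae_iff]
  refine le_antisymm (le_trans (measure_mono fun g hg => ?_) h3.le) zero_le
  simpa using hg

theorem proj_HG {P : Mat n} (hP : IsProj P) {U : OG n} (hU : U ∈ HG P) (g : Vec n) :
    U.1 *ᵥ (P *ᵥ g) = P *ᵥ (U.1 *ᵥ g) := by
  rw [Matrix.mulVec_mulVec, Matrix.mulVec_mulVec, HG_comm hP.symm hU]

/-- The image of a fixed nonzero vector of the range of `P` hits a measurable cone with the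
probability of the projected Gaussian vector. -/
theorem fib_cone {S : Subgroup (OG n)} {ν : Measure (OG n)} {P : Mat n} (hν : InvOn S ν)
    (hP : IsProj P) (hT : Trans S P) {C : Set (Vec n)} (hC : MeasurableSet C)
    (hcone : ∀ c : ℝ, 0 < c → ∀ v, c • v ∈ C ↔ v ∈ C) {u : Vec n} (hPu : P *ᵥ u = u)
    (hu : u ≠ 0) : ν {U | U.1 *ᵥ u ∈ C} = gpi (Fin n) {g | P *ᵥ g ∈ C} := by
  have := hν.prob
  have hmP : Measurable fun g : Vec n => P *ᵥ g := measurable_matVec P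
  have hm : MeasurableSet {p : OG n × Vec n | p.1.1 *ᵥ (P *ᵥ p.2) ∈ C} :=
    measurable_mulVecG measurable_fst (hmP.comp measurable_snd) hC
  have h1 := Measure.prod_apply (μ := ν) (ν := gpi (Fin n)) hm
  have h2 := Measure.prod_apply_symm (μ := ν) (ν := gpi (Fin n)) hm
  have h3 : ∀ᵐ O ∂ν,
      gpi (Fin n) (Prod.mk O ⁻¹' {p : OG n × Vec n | p.1.1 *ᵥ (P *ᵥ p.2) ∈ C}) =
        gpi (Fin n) {g | P *ᵥ g ∈ C} := by
    filter_upwards [hν.ae] with O hO
    rw [← (Tail.rot_mp O.1 (OG.mul_transpose O)).measure_preimage (s := {g | P *ᵥ g ∈ C})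
      (hmP hC).nullMeasurableSet]
    congr 1
    ext g
    simp only [Set.mem_preimage, Set.mem_ofPred_eq]
    rw [proj_HG hP (hT.le hO)]
  have h4 : ∀ᵐ g ∂(gpi (Fin n)),
      ν ((fun O => (O, g)) ⁻¹' {p : OG n × Vec n | p.1.1 *ᵥ (P *ᵥ p.2) ∈ C}) =
        ν {O | O.1 *ᵥ u ∈ C} := by
    filter_upwards [gpi_mulVec_ne (P := P) (v := u) (by rwa [hPu])] with g hg
    have hu' := nv_pos hu
    have hg' := nv_pos hg
    set c := nv (P *ᵥ g) / nv u with hc
    have hc0 : 0 < c := div_pos hg' hu'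
    have hd : F.sq (c • u) = F.sq (P *ᵥ g) := by
      rw [← nv_sq, ← nv_sq, nv_smul, abs_of_pos hc0, hc, div_mul_cancel₀ _ hu'.ne']
    obtain ⟨R, hR, hRu⟩ := hT.ex (c • u) (P *ᵥ g) (by rw [Matrix.mulVec_smul, hPu])
      (hP.mulVec_mulVec g) hd
    have h5 := hν.meas_right hR {O : OG n | O.1 *ᵥ (c • u) ∈ C}
    have e1 : {U : OG n | U * R ∈ {O : OG n | O.1 *ᵥ (c • u) ∈ C}} =
        (fun O => (O, g)) ⁻¹' {p : OG n × Vec n | p.1.1 *ᵥ (P *ᵥ p.2) ∈ C} := by
      ext U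
      simp only [Set.mem_ofPred_eq, Set.mem_preimage, OG.coe_mul]
      rw [← Matrix.mulVec_mulVec, hRu]
    have e2 : {O : OG n | O.1 *ᵥ (c • u) ∈ C} = {O | O.1 *ᵥ u ∈ C} := by
      ext O
      simp only [Set.mem_ofPred_eq]
      rw [Matrix.mulVec_smul]
      exact hcone c hc0 _
    rw [← e1, h5, e2]
  rw [lintegral_congr_ae h3, lintegral_const, measure_univ, mul_one] at h1
  rw [lintegral_congr_ae h4, lintegral_const, measure_univ, mul_one] at h2
  rw [← h1, h2]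

theorem inv_real_tr {S : Subgroup (OG n)} {ν : Measure (OG n)} (hν : InvOn S ν)
    (p : Mat n → Prop) : ν.real {O | p O.1ᵀ} = ν.real {O | p O.1} := by
  have h := hν.meas_inv {O : OG n | p O.1}
  simp only [Set.mem_ofPred_eq, OG.coe_inv] at h
  exact congrArg ENNReal.toReal h

theorem qf_conj_proj {P : Mat n} (hP : Pᵀ = P) (C : Mat n) (g : Vec n) :
    qf (P * C * P) g = qf C (P *ᵥ g) := by
  unfold qf
  rw [← Matrix.mulVec_mulVec, ← Matrix.mulVec_mulVec, ip_mulVec_tr, hP, ipN_comm]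

theorem qf_sub_smul (A B : Mat n) (t : ℝ) (g : Vec n) :
    qf (A - t • B) g = qf A g - t * qf B g := by
  unfold qf
  rw [Matrix.sub_mulVec, Matrix.smul_mulVec, ip_sub_right, ip_smul_right]

theorem qf_proj {P : Mat n} (hP : IsProj P) (g : Vec n) : qf P g = F.sq (P *ᵥ g) := by
  rw [hP.sq_eq]
  exact dotProduct_comm _ _

theorem qf_one (g : Vec n) : qf (1 : Mat n) g = F.sq g := by
  unfold qf
  rw [Matrix.one_mulVec, ipN_self]

theorem conj_symm {P C : Mat n} (hP : Pᵀ = P) (hC : Cᵀ = C) : (P * C * P)ᵀ = P * C * P := by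
  rw [Matrix.transpose_mul, Matrix.transpose_mul, hP, hC, Matrix.mul_assoc]

theorem hsq_nonneg (A : Mat n) : 0 ≤ hsq A :=
  Finset.sum_nonneg fun _ _ => Finset.sum_nonneg fun _ _ => sq_nonneg _

theorem hsq_sub_smul {P C : Mat n} (hP : IsProj P) (hC : Cᵀ = C) (t : ℝ) :
    hsq (P * C * P - t • P) =
      hsq (P * C * P) - 2 * t * (P * C * P).trace + t ^ 2 * P.trace := by
  have h1 : P * C * P * P = P * C * P := by rw [Matrix.mul_assoc, hP.idem]
  have h2 : P * (P * C * P) = P * C * P := by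
    rw [← Matrix.mul_assoc, ← Matrix.mul_assoc, hP.idem]
  rw [Tail.hsq_eq_trace, Tail.hsq_eq_trace, Matrix.transpose_sub, Matrix.transpose_smul,
    conj_symm hP.symm hC, hP.symm, sub_mul, mul_sub, mul_sub, Matrix.mul_smul, Matrix.smul_mul,
    Matrix.smul_mul, Matrix.mul_smul, h1, h2, hP.idem]
  simp only [Matrix.trace_sub, Matrix.trace_smul, smul_eq_mul]
  ring

/-- Gaussian form of the quadratic cone tail -/
theorem gauss_qf_cone {P C : Mat n} (hP : IsProj P) (hC : Cᵀ = C) (htr : (P * C * P).trace = 0)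
    {V M x : ℝ} (hV0 : 0 ≤ V) (hM0 : 0 ≤ M) (hV : hsq (P * C * P) ≤ V ^ 2)
    (hM : ∀ v, qf C (P *ᵥ v) ≤ M * F.sq (P *ᵥ v)) (hx : 0 ≤ x) :
    (gpi (Fin n)).real {g | (6 * V * √x + 32 * M * x) * F.sq (P *ᵥ g) <
      P.trace * qf C (P *ᵥ g)} ≤ exp (-x) := by
  set m := P.trace with hm
  have hm0 : 0 ≤ m := hP.trace_nonneg
  have hsx := sqrt_nonneg x
  have hsx2 : √x ^ 2 = x := sq_sqrt hx
  have hemp : ∀ p : Vec n → Prop, (∀ g, ¬ p g) → (gpi (Fin n)).real {g | p g} ≤ exp (-x) := by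
    intro p hp
    have : {g | p g} = ∅ := Set.eq_empty_of_forall_notMem hp
    rw [this, measureReal_empty]
    exact (exp_pos _).le
  by_cases hbig : m ≤ 32 * x
  · refine hemp _ fun g => not_lt.2 ?_
    have h4 := mul_le_mul_of_nonneg_left (hM g) hm0
    have h5 := sqN_nonneg (P *ᵥ g)
    have h6 := mul_le_mul_of_nonneg_right hbig (mul_nonneg hM0 h5)
    have h7 : 0 ≤ 6 * V * √x * F.sq (P *ᵥ g) := by positivity
    linarith
  push Not at hbig
  have hn' : 0 < m := lt_of_le_of_lt (by positivity) hbig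
  set t := (6 * V * √x + 32 * M * x) / m with ht
  have ht0 : 0 ≤ t := by positivity
  have hnt : m * t = 6 * V * √x + 32 * M * x := by rw [ht]; field_simp
  have e : ∀ g, qf (P * C * P - t • P) g = qf C (P *ᵥ g) - t * F.sq (P *ᵥ g) := fun g => by
    rw [qf_sub_smul, qf_conj_proj hP.symm, qf_proj hP]
  have e1 : ∀ g, (6 * V * √x + 32 * M * x) * F.sq (P *ᵥ g) < m * qf C (P *ᵥ g) →
      0 < qf (P * C * P - t • P) g := by
    intro g hg
    rw [e, sub_pos]
    rw [← hnt, mul_assoc] at hg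
    exact lt_of_mul_lt_mul_left hg hm0
  have hsq' : hsq (P * C * P - t • P) ≤ V ^ 2 + m * t ^ 2 := by
    rw [hsq_sub_smul hP hC, htr]
    linarith
  by_cases hz : V ^ 2 + m * t ^ 2 = 0
  · refine hemp _ fun g hg => ?_
    have h1 := e1 g hg
    have h2 : P * C * P - t • P = 0 := by
      ext i j
      have h3 : (P * C * P - t • P) i j ^ 2 ≤ hsq (P * C * P - t • P) :=
        (Finset.single_le_sum (f := fun j => (P * C * P - t • P) i j ^ 2)
          (fun j _ => sq_nonneg _) (Finset.mem_univ j)).trans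
          (Finset.single_le_sum (f := fun i => ∑ j, (P * C * P - t • P) i j ^ 2)
            (fun i _ => Finset.sum_nonneg fun j _ => sq_nonneg _) (Finset.mem_univ i))
      exact pow_eq_zero_iff (two_ne_zero) |>.1 (le_antisymm (by linarith) (sq_nonneg _))
    rw [h2] at h1
    simp [qf, ip] at h1
  have hpos : 0 < V ^ 2 + m * t ^ 2 := lt_of_le_of_ne (by positivity) (Ne.symm hz)
  have h2 := Tail.hw_tail (A := P * C * P - t • P)
    (by rw [Matrix.transpose_sub, Matrix.transpose_smul, conj_symm hP.symm hC, hP.symm])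
    hpos hM0 hx hsq' (fun v => by
      rw [e]
      have h3 := hM v
      have h4 := mul_le_mul_of_nonneg_left (hP.sq_le v) hM0
      have h5 := mul_nonneg ht0 (sqN_nonneg (P *ᵥ v))
      linarith)
  refine (Tail.real_imp_le _ fun g hg => ?_).trans h2
  have hg' := e1 g hg
  rw [Matrix.trace_sub, Matrix.trace_smul, htr, smul_eq_mul, ← hm]
  have h5 : √(2 * (V ^ 2 + m * t ^ 2) * x) ≤ 3 / 2 * V * √x + m * t / 4 := by
    refine sqrt_le_iff.2 ⟨by positivity, ?_⟩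
    have h6 : 2 * (m * t ^ 2) * x ≤ (m * t / 4) ^ 2 := by
      have : m * t ^ 2 * (32 * x) ≤ m * t ^ 2 * m :=
        mul_le_mul_of_nonneg_left hbig.le (by positivity)
      nlinarith
    have h7 : 2 * V ^ 2 * x ≤ (3 / 2 * V * √x) ^ 2 := by
      rw [mul_pow, hsx2]
      nlinarith [mul_nonneg (sq_nonneg V) hx]
    have h8 : 0 ≤ 3 / 2 * V * √x * (m * t / 4) := by positivity
    nlinarith
  have h9 : 0 ≤ M * x := mul_nonneg hM0 hx
  linarith

section OneFibre

variable {S : Subgroup (OG n)} {ν : Measure (OG n)} {P : Mat n}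

/-- centred quadratic forms of `U u`, upper tail -/
theorem fib_qf_tail (hν : InvOn S ν) (hP : IsProj P) (hT : Trans S P) {C : Mat n} (hC : Cᵀ = C)
    (htr : (P * C * P).trace = 0) {V M x m : ℝ} (hV0 : 0 ≤ V) (hM0 : 0 ≤ M)
    (hV : hsq (P * C * P) ≤ V ^ 2) (hM : ∀ v, qf C (P *ᵥ v) ≤ M * F.sq (P *ᵥ v)) (hx : 0 ≤ x)
    (hm0 : 0 ≤ m) (hm : m ≤ P.trace) {u : Vec n} (hPu : P *ᵥ u = u) :
    ν.real {U | (6 * V * √x + 32 * M * x) * F.sq u < m * qf C (U.1 *ᵥ u)} ≤ exp (-x) := by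
  have := hν.prob
  by_cases hu : u = 0
  · have : {U : OG n | (6 * V * √x + 32 * M * x) * F.sq u < m * qf C (U.1 *ᵥ u)} = ∅ := by
      refine Set.eq_empty_of_forall_notMem fun U hU => ?_
      simp [hu, qf, ip, F.sq] at hU
    rw [this, measureReal_empty]
    exact (exp_pos _).le
  have h1 := fib_cone hν hP hT
    (C := {ξ | (6 * V * √x + 32 * M * x) * F.sq ξ < P.trace * qf C ξ})
    (measurableSet_lt (measurable_sq.const_mul _) ((Tail.measurable_qf C).const_mul _))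
    (fun c hc v => by
      simp only [Set.mem_ofPred_eq]
      rw [sq_smul, qf_smul, mul_left_comm _ (c ^ 2), mul_left_comm _ (c ^ 2)]
      exact mul_lt_mul_iff_right₀ (pow_pos hc 2)) hPu hu
  have h2 := gauss_qf_cone hP hC htr hV0 hM0 hV hM hx
  refine le_trans ?_ ((congrArg ENNReal.toReal h1).le.trans h2)
  refine Tail.real_imp_le _ fun U hU => ?_
  simp only [Set.mem_ofPred_eq]
  rw [sq_orth]
  have h3 : 0 ≤ (6 * V * √x + 32 * M * x) * F.sq u := mul_nonneg (by positivity) (sqN_nonneg u)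
  have h4 : 0 ≤ qf C (U.1 *ᵥ u) := by
    by_contra h5
    have := mul_nonpos_of_nonneg_of_nonpos hm0 (not_le.1 h5).le
    linarith
  exact hU.trans_le (mul_le_mul_of_nonneg_right hm h4)

/-- centred quadratic forms of `U u`, both tails -/
theorem fib_qf_abs (hν : InvOn S ν) (hP : IsProj P) (hT : Trans S P) {C : Mat n} (hC : Cᵀ = C)
    (htr : (P * C * P).trace = 0) {V M x m : ℝ} (hV0 : 0 ≤ V) (hM0 : 0 ≤ M)
    (hV : hsq (P * C * P) ≤ V ^ 2) (hM : ∀ v, |qf C (P *ᵥ v)| ≤ M * F.sq (P *ᵥ v)) (hx : 0 ≤ x)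
    (hm0 : 0 ≤ m) (hm : m ≤ P.trace) {u : Vec n} (hPu : P *ᵥ u = u) :
    ν.real {U | (6 * V * √x + 32 * M * x) * F.sq u < m * |qf C (U.1 *ᵥ u)|} ≤ 2 * exp (-x) := by
  have := hν.prob
  have h1 := fib_qf_tail hν hP hT hC htr hV0 hM0 hV (fun v => (abs_le.1 (hM v)).2) hx hm0 hm hPu
  have e : P * -C * P = -(P * C * P) := by rw [Matrix.mul_neg, Matrix.neg_mul]
  have h2 := fib_qf_tail hν hP hT (C := -C) (by rw [Matrix.transpose_neg, hC])
    (by rw [e, Matrix.trace_neg, htr, neg_zero]) hV0 hM0 (by rwa [e, Tail.hsq_neg])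
    (fun v => by rw [Tail.qf_neg]; linarith [(abs_le.1 (hM v)).1]) hx hm0 hm hPu
  refine (Tail.real_or_le _ fun U hU => ?_).trans ((add_le_add h1 h2).trans (le_of_eq (by ring)))
  rw [Tail.qf_neg]
  rcases abs_cases (qf C (U.1 *ᵥ u)) with h | h
  · exact Or.inl (by rwa [h.1] at hU)
  · exact Or.inr (by rwa [h.1] at hU)

end OneFibre

/-- the mean of `B` on the range of `P` -/
noncomputable def avg (P B : Mat n) : ℝ := (P * B * P).trace / P.trace

/-- the centred matrix -/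
noncomputable def cen (P B : Mat n) : Mat n := B - avg P B • (1 : Mat n)

theorem conj_cen {P : Mat n} (hP : IsProj P) (B : Mat n) :
    P * cen P B * P = P * B * P - avg P B • P := by
  unfold cen
  rw [Matrix.mul_sub, Matrix.sub_mul, Matrix.mul_smul, Matrix.smul_mul, Matrix.mul_one, hP.idem]

theorem cen_symm (P : Mat n) {B : Mat n} (hB : Bᵀ = B) : (cen P B)ᵀ = cen P B := by
  unfold cen
  rw [Matrix.transpose_sub, Matrix.transpose_smul, Matrix.transpose_one, hB]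

theorem avg_mul {P : Mat n} (h0 : P.trace ≠ 0) (B : Mat n) :
    avg P B * P.trace = (P * B * P).trace := div_mul_cancel₀ _ h0

theorem trace_cen {P : Mat n} (hP : IsProj P) (h0 : P.trace ≠ 0) (B : Mat n) :
    (P * cen P B * P).trace = 0 := by
  rw [conj_cen hP, Matrix.trace_sub, Matrix.trace_smul, smul_eq_mul, avg_mul h0, sub_self]

theorem hsq_cen_le {P : Mat n} (hP : IsProj P) (h0 : P.trace ≠ 0) {B : Mat n} (hB : Bᵀ = B) :
    hsq (P * cen P B * P) ≤ hsq (P * B * P) := by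
  rw [conj_cen hP, hsq_sub_smul hP hB, ← avg_mul h0]
  nlinarith [mul_nonneg (sq_nonneg (avg P B)) hP.trace_nonneg]

theorem qf_cen (P B : Mat n) (v : Vec n) : qf (cen P B) v = qf B v - avg P B * F.sq v := by
  unfold cen
  rw [qf_sub_smul, qf_one]

theorem hsq_eq_sum_col (A : Mat n) : hsq A = ∑ j, F.sq (A *ᵥ Pi.single j 1) := by
  unfold hsq F.sq
  rw [Finset.sum_comm]
  simp only [Matrix.mulVec_single_one]
  rfl

theorem hsq_transpose (A : Mat n) : hsq Aᵀ = hsq A := by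
  unfold hsq
  rw [Finset.sum_comm]
  rfl

theorem hsq_mul_le {A : Mat n} {L : ℝ} (hA : OpLe A L) (B : Mat n) :
    hsq (A * B) ≤ L ^ 2 * hsq B := by
  rw [hsq_eq_sum_col, hsq_eq_sum_col, Finset.mul_sum]
  refine Finset.sum_le_sum fun j _ => ?_
  rw [← Matrix.mulVec_mulVec]
  exact hA _

theorem opLe_transpose {A : Mat n} {L : ℝ} (hA : OpLe A L) (hL : 0 ≤ L) : OpLe Aᵀ L := by
  refine opLe_of_nv fun v => ?_
  have h1 : nv (Aᵀ *ᵥ v) ^ 2 ≤ L * nv v * nv (Aᵀ *ᵥ v) := by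
    rw [nv_sq, ← ipN_self, ← ip_mulVec_tr]
    have h2 := ip_le v (A *ᵥ (Aᵀ *ᵥ v))
    have h3 := mul_le_mul_of_nonneg_left (hA.nv_le hL (Aᵀ *ᵥ v)) (nv_nonneg v)
    linarith
  rcases (nv_nonneg (Aᵀ *ᵥ v)).eq_or_lt with h | h
  · rw [← h]
    exact mul_nonneg hL (nv_nonneg v)
  · rw [pow_two] at h1
    exact le_of_mul_le_mul_right h1 h

theorem hsq_mul_le' (A : Mat n) {B : Mat n} {L : ℝ} (hB : OpLe B L) (hL : 0 ≤ L) :
    hsq (A * B) ≤ L ^ 2 * hsq A := by
  rw [← hsq_transpose, Matrix.transpose_mul, ← hsq_transpose A]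
  exact hsq_mul_le (opLe_transpose hB hL) _

theorem opLe_proj {P : Mat n} (hP : IsProj P) : OpLe P 1 := fun v => by
  rw [one_pow, one_mul]
  exact hP.sq_le v

theorem opLe_orth (O : OG n) : OpLe O.1 1 := fun v => by
  rw [one_pow, one_mul, sq_orth]

theorem opLe_orth_tr (O : OG n) : OpLe O.1ᵀ 1 := opLe_transpose (opLe_orth O) zero_le_one

theorem hsq_conj_le {P : Mat n} (hP : IsProj P) (B : Mat n) : hsq (P * B * P) ≤ hsq B := by
  have h1 := hsq_mul_le' (P * B) (opLe_proj hP) zero_le_one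
  have h2 := hsq_mul_le (opLe_proj hP) B
  linarith

theorem trace_conj_eq_sum {P : Mat n} (hP : IsProj P) (B : Mat n) :
    (P * B * P).trace = ∑ j, qf B (P *ᵥ Pi.single j 1) := by
  simp only [← qf_conj_proj hP.symm]
  unfold qf ip
  simp only [Matrix.mulVec_single_one, Matrix.trace, Matrix.diag, Pi.single_apply, ite_mul,
    one_mul, zero_mul, Finset.sum_ite_eq', Finset.mem_univ, if_true]
  rfl

theorem abs_avg_le {P : Mat n} (hP : IsProj P) {B : Mat n} {M : ℝ} (hM0 : 0 ≤ M)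
    (hM : ∀ v, |qf B (P *ᵥ v)| ≤ M * F.sq (P *ᵥ v)) : |avg P B| ≤ M := by
  unfold avg
  rcases hP.trace_nonneg.eq_or_lt with h | h
  · rw [← h, div_zero, abs_zero]
    exact hM0
  · rw [abs_div, abs_of_pos h, div_le_iff₀ h, trace_conj_eq_sum hP]
    refine (Finset.abs_sum_le_sum_abs _ _).trans ((Finset.sum_le_sum fun j _ => hM _).trans ?_)
    have h1 := trace_conj_eq_sum hP 1
    rw [Matrix.mul_one, hP.idem] at h1
    simp only [qf_one] at h1
    rw [← Finset.mul_sum, ← h1]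

section OneFibre2

variable {S : Subgroup (OG n)} {ν : Measure (OG n)} {P : Mat n}

/-- quadratic forms of `U u` around their mean -/
theorem fib_qf_avg (hν : InvOn S ν) (hP : IsProj P) (hT : Trans S P) {B : Mat n} (hB : Bᵀ = B)
    {V M x m : ℝ} (hV0 : 0 ≤ V) (hM0 : 0 ≤ M) (hV : hsq (P * B * P) ≤ V ^ 2)
    (hM : ∀ v, |qf B (P *ᵥ v)| ≤ M * F.sq (P *ᵥ v)) (hx : 0 ≤ x) (hm0 : 0 < m)
    (hm : m ≤ P.trace) {u : Vec n} (hPu : P *ᵥ u = u) :
    ν.real {U | (6 * V * √x + 64 * M * x) * F.sq u <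
      m * |qf B (U.1 *ᵥ u) - avg P B * F.sq u|} ≤ 2 * exp (-x) := by
  have h0 : P.trace ≠ 0 := (hm0.trans_le hm).ne'
  have h1 := fib_qf_abs hν hP hT (cen_symm P hB) (trace_cen hP h0 B) hV0 (M := 2 * M)
    (by positivity) ((hsq_cen_le hP h0 hB).trans hV) (fun v => by
      rw [qf_cen]
      refine (abs_sub _ _).trans ?_
      have h2 := mul_le_mul_of_nonneg_right (abs_avg_le hP hM0 hM) (sqN_nonneg (P *ᵥ v))
      rw [abs_mul, abs_of_nonneg (sqN_nonneg _)]
      linarith [hM v]) hx hm0.le hm hPu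
  simp only [qf_cen, sq_orth] at h1
  refine le_trans (le_of_eq ?_) h1
  congr 1
  ext U
  simp only [Set.mem_ofPred_eq]
  rw [show 32 * (2 * M) * x = 64 * M * x by ring]

/-- norms of `R U u` -/
theorem fib_norm_tail (hν : InvOn S ν) (hP : IsProj P) (hT : Trans S P) {R : Mat n}
    {D L x m : ℝ} (hD0 : 0 ≤ D) (hL0 : 0 ≤ L) (hD : hsq (R * P) ≤ D ^ 2) (hL : OpLe (R * P) L)
    (hx : 0 ≤ x) (hm0 : 0 < m) (hm : m ≤ P.trace) {u : Vec n} (hPu : P *ᵥ u = u) :
    ν.real {U | (D + 6 * L * √x) ^ 2 * F.sq u < m * F.sq (R *ᵥ (U.1 *ᵥ u))} ≤ exp (-x) := by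
  have := hν.prob
  have h0 : 0 < P.trace := hm0.trans_le hm
  have hB : (Rᵀ * R)ᵀ = Rᵀ * R := by rw [Matrix.transpose_mul, Matrix.transpose_transpose]
  have e1 : P * (Rᵀ * R) * P = (R * P)ᵀ * (R * P) := by
    rw [Matrix.transpose_mul, hP.symm]
    simp only [Matrix.mul_assoc]
  have htr : (P * (Rᵀ * R) * P).trace = hsq (R * P) := by
    rw [e1, Tail.hsq_eq_trace, Matrix.trace_mul_comm]
  have hav0 : 0 ≤ avg P (Rᵀ * R) := by
    unfold avg
    rw [htr]
    exact div_nonneg (hsq_nonneg _) h0.le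
  have hav : P.trace * avg P (Rᵀ * R) ≤ D ^ 2 := by
    rw [mul_comm, avg_mul h0.ne', htr]
    exact hD
  have h1 := fib_qf_tail hν hP hT (cen_symm P hB) (trace_cen hP h0.ne' _) (V := L * D)
    (M := L ^ 2) (by positivity) (by positivity)
    ((hsq_cen_le hP h0.ne' hB).trans (by
      rw [e1, mul_pow]
      exact (hsq_mul_le (opLe_transpose hL hL0) _).trans
        (mul_le_mul_of_nonneg_left hD (sq_nonneg L))))
    (fun v => by
      rw [qf_cen, ← Tail.sq_mulVec_eq_qf]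
      have h2 := hL (P *ᵥ v)
      rw [← Matrix.mulVec_mulVec, hP.mulVec_mulVec] at h2
      have h3 := mul_nonneg hav0 (sqN_nonneg (P *ᵥ v))
      linarith) hx h0.le le_rfl hPu
  refine (Tail.real_imp_le _ fun U hU => ?_).trans h1
  rw [qf_cen, ← Tail.sq_mulVec_eq_qf, sq_orth]
  have h2 := mul_le_mul_of_nonneg_right hm (sqN_nonneg (R *ᵥ (U.1 *ᵥ u)))
  have h3 := mul_le_mul_of_nonneg_right hav (sqN_nonneg u)
  have hs := sqrt_nonneg x
  have h4 : D ^ 2 + (6 * (L * D) * √x + 32 * L ^ 2 * x) ≤ (D + 6 * L * √x) ^ 2 := by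
    have e : (D + 6 * L * √x) ^ 2 = D ^ 2 + 12 * (L * D) * √x + 36 * L ^ 2 * x := by
      rw [add_sq, mul_pow, sq_sqrt hx]
      ring
    have h5 : 0 ≤ L * D * √x := by positivity
    have h6 : 0 ≤ L ^ 2 * x := by positivity
    linarith
  have h5 := mul_le_mul_of_nonneg_right h4 (sqN_nonneg u)
  linarith

theorem isProj_res (S : Finset (Fin n)) : IsProj (res S) := by
  refine ⟨Matrix.diagonal_transpose _, ?_⟩
  unfold res
  rw [Matrix.diagonal_mul_diagonal]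
  congr 1
  funext i
  split_ifs <;> simp

theorem hsq_res (S : Finset (Fin n)) : hsq (res S) = S.card := by
  rw [Tail.hsq_eq_trace, (isProj_res S).symm, (isProj_res S).idem]
  unfold res
  rw [Matrix.trace_diagonal]
  simp

/-- cone tail on a fibre of dimension at least `n / 2`, seen through a contraction `Q` -/
theorem fib_cone_tail (hν : InvOn S ν) (hP : IsProj P) (hT : Trans S P) (hm : n ≤ 2 * P.trace)
    {Q : Mat n} (hQ : OpLe Q 1) {u : Vec n} (hPu : P *ᵥ u = u) (hu : F.sq u ≤ 1)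
    (T : Finset (Fin n)) {t : ℝ} (ht : 0 ≤ t) :
    ν.real {U | t < ∑ i ∈ T, ((1 / 5 : ℝ) • (Q *ᵥ (U.1 *ᵥ u))) i ^ 2} ≤
      exp (T.card - n * t / 6) := by
  have := hν.prob
  by_cases hx : n * t / 6 ≤ T.card
  · exact measureReal_le_one.trans (one_le_exp (by linarith))
  push Not at hx
  have hT0 : (0 : ℝ) ≤ T.card := Nat.cast_nonneg _
  have hn : (0 : ℝ) < n := by
    by_contra h
    have h1 : (n : ℝ) = 0 := le_antisymm (not_lt.1 h) (Nat.cast_nonneg n)
    rw [h1] at hx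
    linarith
  have hop : OpLe (res T * Q * P) 1 := by
    have h1 := ((opLe_proj (isProj_res T)).mulN hQ zero_le_one zero_le_one).mulN (opLe_proj hP)
      (by norm_num) zero_le_one
    simpa using h1
  have hhs : hsq (res T * Q * P) ≤ √(T.card) ^ 2 := by
    rw [sq_sqrt hT0, ← hsq_res]
    have h1 := hsq_mul_le' (res T * Q) (opLe_proj hP) zero_le_one
    have h2 := hsq_mul_le' (res T) hQ zero_le_one
    linarith
  have h1 := fib_norm_tail hν hP hT (R := res T * Q) (x := n * t / 6 - T.card) (m := n / 2)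
    (sqrt_nonneg _) zero_le_one hhs hop (by linarith) (by positivity) (by linarith) hPu
  rw [neg_sub] at h1
  refine (Tail.real_imp_le _ fun U hU => ?_).trans h1
  rw [← sq_res, Matrix.mulVec_smul, sq_smul, Matrix.mulVec_mulVec] at hU
  set y := √(n * t / 6 - T.card) with hy
  have hy2 : y ^ 2 = n * t / 6 - T.card := sq_sqrt (by linarith)
  have ha2 : √(T.card : ℝ) ^ 2 = T.card := sq_sqrt hT0
  have h2 : (√(T.card : ℝ) + 6 * 1 * y) ^ 2 ≤ 12 * n * t := by
    nlinarith [sq_nonneg (√(T.card : ℝ) - 6 * y)]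
  have h3 : (√(T.card : ℝ) + 6 * 1 * y) ^ 2 * F.sq u ≤ 12 * n * t :=
    (mul_le_of_le_one_right (sq_nonneg _) hu).trans h2
  have h4 := mul_lt_mul_of_pos_left hU hn
  have h5 : 0 ≤ n * t := by positivity
  linarith

end OneFibre2

/-! ### adapted forms -/

theorem real_restrict {Ω : Type*} [MeasurableSpace Ω] (μ : Measure Ω) {A : Set Ω}
    (hA : MeasurableSet A) (p : Ω → Prop) :
    (μ.restrict A).real {ω | p ω} = μ.real {ω | ω ∈ A ∧ p ω} := by
  rw [measureReal_def, measureReal_def, Measure.restrict_apply' hA]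
  congr 2
  ext ω
  simp only [Set.mem_inter_iff, Set.mem_ofPred_eq]
  exact and_comm

/-- the fresh part of a frame vector, on the site side -/
def Fr (P : OG n → Mat n) (O : OG n) : Mat n := P O * O.1ᵀ

/-- the fresh part of a site vector, on the frame side -/
def St (P : OG n → Mat n) (O : OG n) : Mat n := O.1 * P O

theorem measurable_qf2 {X : Type*} [MeasurableSpace X] {B : X → Mat n} {v : X → Vec n}
    (hB : MM B) (hv : Measurable v) : Measurable fun x => qf (B x) (v x) :=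
  measurable_dot hv (hB.mulVec hv)

theorem meas_and_lt {X : Type*} [MeasurableSpace X] {A : Set X} (hA : MeasurableSet A)
    {f g : X → ℝ} (hf : Measurable f) (hg : Measurable g) :
    MeasurableSet {x | x ∈ A ∧ f x < g x} := hA.inter (measurableSet_lt hf hg)

theorem measurable_avg {X : Type*} [MeasurableSpace X] {P B : X → Mat n} (hP : MM P)
    (hB : MM B) : Measurable fun x => avg (P x) (B x) :=
  ((hP.mul hB).mul hP).trace.div hP.trace

theorem hsq_mul_orth (A : Mat n) (O : OG n) : hsq (A * O.1) = hsq A := OG.hs_mul_right O A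

theorem hsq_orth_mul (A : Mat n) (O : OG n) : hsq (O.1 * A) = hsq A := OG.hs_mul_left O A

theorem hsq_mul_orth_tr (A : Mat n) (O : OG n) : hsq (A * O.1ᵀ) = hsq A := by
  rw [← OG.coe_inv, hsq_mul_orth]

theorem qf_conj_tr (A B : Mat n) (v : Vec n) : qf (Aᵀ * B * A) v = qf B (A *ᵥ v) := by
  unfold qf
  rw [← Matrix.mulVec_mulVec, ← Matrix.mulVec_mulVec, ip_mulVec_tr, Matrix.transpose_transpose,
    ipN_comm]

theorem conj_conj (O : OG n) (P B : Mat n) :
    O.1 * (P * (O.1ᵀ * B * O.1) * P) * O.1ᵀ = O.1 * P * O.1ᵀ * B * (O.1 * P * O.1ᵀ) := by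
  simp only [Matrix.mul_assoc]

theorem avg_conj (O : OG n) (P B : Mat n) :
    avg P (O.1ᵀ * B * O.1) = avg (O.1 * P * O.1ᵀ) B := by
  unfold avg
  rw [← conj_conj, Fib.trace_conj (OG.transpose_mul O), Fib.trace_conj (OG.transpose_mul O)]

section Ex

variable {μ : Measure (OG n)} [IsProbabilityMeasure μ] {P : OG n → Mat n}

omit [IsProbabilityMeasure μ] in
theorem mm_Fr (h : Explo μ P) : MM (Fr P) := h.mm.mul mm_val.transpose

omit [IsProbabilityMeasure μ] in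
theorem mm_St (h : Explo μ P) : MM (St P) := mm_val.mul h.mm

omit [IsProbabilityMeasure μ] in
theorem proj_Fr (h : Explo μ P) (O : OG n) (a : Vec n) :
    P O *ᵥ (Fr P O *ᵥ a) = Fr P O *ᵥ a := by
  unfold Fr
  rw [← Matrix.mulVec_mulVec, (h.proj O).mulVec_mulVec]

omit [IsProbabilityMeasure μ] in
theorem sq_Fr_le (h : Explo μ P) (O : OG n) (a : Vec n) : F.sq (Fr P O *ᵥ a) ≤ F.sq a := by
  unfold Fr
  rw [← Matrix.mulVec_mulVec]
  have h1 := opLe_orth_tr O a
  have h2 := (h.proj O).sq_le (O.1ᵀ *ᵥ a)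
  linarith

theorem sq_St (P : OG n → Mat n) (O : OG n) (v : Vec n) :
    F.sq (St P O *ᵥ v) = F.sq (P O *ᵥ v) := by
  unfold St
  rw [← Matrix.mulVec_mulVec, sq_orth]

omit [IsProbabilityMeasure μ] in
theorem Fr_fibre (h : Explo μ P) {O U : OG n} (hU : U ∈ HG (P O)) (a : Vec n) :
    Fr P (O * U) *ᵥ a = U.1ᵀ *ᵥ (Fr P O *ᵥ a) := by
  unfold Fr
  have h1 := HG_comm (h.proj O).symm ((HG (P O)).inv_mem hU)
  rw [OG.coe_inv] at h1
  rw [h.adapted O U hU, OG.coe_mul, Matrix.transpose_mul, Matrix.mulVec_mulVec,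
    ← Matrix.mul_assoc, ← Matrix.mul_assoc, h1]

omit [IsProbabilityMeasure μ] in
theorem St_fibre (h : Explo μ P) {O U : OG n} (hU : U ∈ HG (P O)) (v : Vec n) :
    St P (O * U) *ᵥ v = O.1 *ᵥ (U.1 *ᵥ (P O *ᵥ v)) := by
  unfold St
  rw [h.adapted O U hU, OG.coe_mul, Matrix.mulVec_mulVec, Matrix.mulVec_mulVec]

/-- events for the fresh part of an adapted frame vector -/
theorem fr_event (h : Explo μ P) {E : OG n → Vec n → Prop} (hE : Adapted P E)
    {a : OG n → Vec n} (ha : Adapted P a) (hm : MeasurableSet {O | E O (Fr P O *ᵥ a O)}) {p : ℝ}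
    (h0 : 0 ≤ p) (hp : ∀ O, (haarH (P O)).real {U | E O (U.1 *ᵥ (Fr P O *ᵥ a O))} ≤ p) :
    μ.real {O | E O (Fr P O *ᵥ a O)} ≤ p := by
  refine h.real_le famH hm h0 fun O => le_trans (le_of_eq ?_) (hp O)
  rw [← inv_real_tr (invOn_haarH (P O)) fun A => E O (A *ᵥ (Fr P O *ᵥ a O))]
  refine measureReal_congr ?_
  filter_upwards [(invOn_haarH (P O)).ae] with U hU
  change E (O * U) (Fr P (O * U) *ᵥ a (O * U)) = E O (U.1ᵀ *ᵥ (Fr P O *ᵥ a O))
  rw [hE O U hU, ha O U hU, Fr_fibre h hU]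

/-- events for the fresh part of an adapted site vector -/
theorem st_event (h : Explo μ P) {E : OG n → Vec n → Prop} (hE : Adapted P E)
    {v : OG n → Vec n} (hv : Adapted P v) (hm : MeasurableSet {O | E O (St P O *ᵥ v O)}) {p : ℝ}
    (h0 : 0 ≤ p)
    (hp : ∀ O, (haarH (P O)).real {U | E O (O.1 *ᵥ (U.1 *ᵥ (P O *ᵥ v O)))} ≤ p) :
    μ.real {O | E O (St P O *ᵥ v O)} ≤ p := by
  refine h.real_le famH hm h0 fun O => le_trans (le_of_eq ?_) (hp O)
  refine measureReal_congr ?_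
  filter_upwards [(invOn_haarH (P O)).ae] with U hU
  change E (O * U) (St P (O * U) *ᵥ v (O * U)) = E O (O.1 *ᵥ (U.1 *ᵥ (P O *ᵥ v O)))
  rw [hE O U hU, hv O U hU, St_fibre h hU]

theorem real_and_le {Ω : Type*} [MeasurableSpace Ω] (ν : Measure Ω) [IsFiniteMeasure ν]
    {q : Prop} {E E' : Ω → Prop} {p : ℝ} (h0 : 0 ≤ p) (h : q → ν.real {ω | E' ω} ≤ p)
    (hE : ∀ ω, E ω → E' ω) : ν.real {ω | q ∧ E ω} ≤ p := by
  by_cases hq : q
  · exact (Tail.real_imp_le _ fun ω hω => hE ω hω.2).trans (h hq)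
  · simpa [hq] using h0

variable {A : Set (OG n)}

/-- `|R ξ|` for the fresh part `ξ` of an adapted frame vector, `R` adapted -/
theorem fr_norm_tail (h : Explo μ P) (hA : MeasurableSet A) (hAa : Adapted P fun O => O ∈ A)
    {R : OG n → Mat n} (hR : MM R) (hRa : Adapted P R) {a : OG n → Vec n} (ha : Measurable a)
    (haa : Adapted P a) {D L x m : ℝ} (hD0 : 0 ≤ D) (hL0 : 0 ≤ L) (hx : 0 ≤ x) (hm0 : 0 < m)
    (hb : ∀ O ∈ A, hsq (R O * P O) ≤ D ^ 2 ∧ OpLe (R O * P O) L ∧ m ≤ (P O).trace) :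
    μ.real {O | O ∈ A ∧
      (D + 6 * L * √x) ^ 2 * F.sq (a O) < m * F.sq (R O *ᵥ (Fr P O *ᵥ a O))} ≤ exp (-x) := by
  refine fr_event h (E := fun O ξ => O ∈ A ∧ (D + 6 * L * √x) ^ 2 * F.sq (a O) <
    m * F.sq (R O *ᵥ ξ)) (fun O U hU => by simp only [hAa O U hU, hRa O U hU, haa O U hU]) haa
    (meas_and_lt hA ((measurable_sq.comp ha).const_mul _)
      ((measurable_sq.comp (hR.mulVec ((mm_Fr h).mulVec ha))).const_mul _)) (exp_pos _).le
    fun O => real_and_le _ (exp_pos _).le (fun hO => fib_norm_tail (invOn_haarH _) (h.proj O)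
      (trans_HG (h.proj O)) hD0 hL0 (hb O hO).1 (hb O hO).2.1 hx hm0 (hb O hO).2.2
      (proj_Fr h O (a O))) fun U hU =>
      (mul_le_mul_of_nonneg_left (sq_Fr_le h O _) (sq_nonneg _)).trans_lt hU

/-- `|R ξ|` for the fresh part `ξ` of an adapted site vector, `R` adapted -/
theorem st_norm_tail (h : Explo μ P) (hA : MeasurableSet A) (hAa : Adapted P fun O => O ∈ A)
    {R : OG n → Mat n} (hR : MM R) (hRa : Adapted P R) {v : OG n → Vec n} (hv : Measurable v)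
    (hva : Adapted P v) {D L x m : ℝ} (hD0 : 0 ≤ D) (hL0 : 0 ≤ L) (hx : 0 ≤ x) (hm0 : 0 < m)
    (hb : ∀ O ∈ A, hsq (R O * Pt P O) ≤ D ^ 2 ∧ OpLe (R O * Pt P O) L ∧ m ≤ (P O).trace) :
    μ.real {O | O ∈ A ∧
      (D + 6 * L * √x) ^ 2 * F.sq (v O) < m * F.sq (R O *ᵥ (St P O *ᵥ v O))} ≤ exp (-x) := by
  have e : ∀ O : OG n, R O * O.1 * P O = R O * Pt P O * O.1 := fun O => by
    unfold Pt
    simp only [Matrix.mul_assoc, OG.transpose_mul, Matrix.mul_one]
  refine st_event h (E := fun O ξ => O ∈ A ∧ (D + 6 * L * √x) ^ 2 * F.sq (v O) <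
    m * F.sq (R O *ᵥ ξ)) (fun O U hU => by simp only [hAa O U hU, hRa O U hU, hva O U hU]) hva
    (meas_and_lt hA ((measurable_sq.comp hv).const_mul _)
      ((measurable_sq.comp (hR.mulVec ((mm_St h).mulVec hv))).const_mul _)) (exp_pos _).le
    fun O => real_and_le _ (exp_pos _).le (fun hO => fib_norm_tail (invOn_haarH _) (h.proj O)
      (trans_HG (h.proj O)) (R := R O * O.1) hD0 hL0
      (by rw [e, hsq_mul_orth]; exact (hb O hO).1)
      (by
        rw [e]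
        simpa using (hb O hO).2.1.mulN (opLe_orth O) hL0 zero_le_one) hx hm0 (hb O hO).2.2
      ((h.proj O).mulVec_mulVec (v O))) fun U hU => by
      rw [← Matrix.mulVec_mulVec]
      exact (mul_le_mul_of_nonneg_left ((h.proj O).sq_le _) (sq_nonneg _)).trans_lt hU

/-- quadratic forms of the fresh part of an adapted frame vector -/
theorem fr_qf_tail (h : Explo μ P) (hA : MeasurableSet A) (hAa : Adapted P fun O => O ∈ A)
    {B : OG n → Mat n} (hB : MM B) (hBa : Adapted P B) (hBs : ∀ O, (B O)ᵀ = B O)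
    {a : OG n → Vec n} (ha : Measurable a) (haa : Adapted P a) {V M x m : ℝ} (hV0 : 0 ≤ V)
    (hM0 : 0 ≤ M) (hx : 0 ≤ x) (hm0 : 0 < m)
    (hb : ∀ O ∈ A, hsq (P O * B O * P O) ≤ V ^ 2 ∧
      (∀ v, |qf (B O) (P O *ᵥ v)| ≤ M * F.sq (P O *ᵥ v)) ∧ m ≤ (P O).trace) :
    μ.real {O | O ∈ A ∧ (6 * V * √x + 64 * M * x) * F.sq (a O) <
      m * |qf (B O) (Fr P O *ᵥ a O) - avg (P O) (B O) * F.sq (Fr P O *ᵥ a O)|} ≤
        2 * exp (-x) := by
  have hF := (mm_Fr h).mulVec ha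
  refine fr_event h (E := fun O ξ => O ∈ A ∧ (6 * V * √x + 64 * M * x) * F.sq (a O) <
    m * |qf (B O) ξ - avg (P O) (B O) * F.sq ξ|)
    (fun O U hU => by simp only [hAa O U hU, hBa O U hU, haa O U hU, h.adapted O U hU]) haa
    (hA.inter (measurableSet_lt ((measurable_sq.comp ha).const_mul _)
      (((measurable_qf2 hB hF).sub ((measurable_avg h.mm hB).mul
        (measurable_sq.comp hF))).abs.const_mul _))) (by positivity)
    fun O => real_and_le _ (by positivity) (fun hO => fib_qf_avg (invOn_haarH _) (h.proj O)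
      (trans_HG (h.proj O)) (hBs O) hV0 hM0 (hb O hO).1 (hb O hO).2.1 hx hm0 (hb O hO).2.2
      (proj_Fr h O (a O))) fun U hU => by
      rw [sq_orth] at hU
      exact (mul_le_mul_of_nonneg_left (sq_Fr_le h O _) (by positivity)).trans_lt hU

/-- quadratic forms of the fresh part of an adapted site vector -/
theorem st_qf_tail (h : Explo μ P) (hA : MeasurableSet A) (hAa : Adapted P fun O => O ∈ A)
    {B : OG n → Mat n} (hB : MM B) (hBa : Adapted P B) (hBs : ∀ O, (B O)ᵀ = B O)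
    {v : OG n → Vec n} (hv : Measurable v) (hva : Adapted P v) {V M x m : ℝ} (hV0 : 0 ≤ V)
    (hM0 : 0 ≤ M) (hx : 0 ≤ x) (hm0 : 0 < m)
    (hb : ∀ O ∈ A, hsq (Pt P O * B O * Pt P O) ≤ V ^ 2 ∧
      (∀ w, |qf (B O) (Pt P O *ᵥ w)| ≤ M * F.sq (Pt P O *ᵥ w)) ∧ m ≤ (P O).trace) :
    μ.real {O | O ∈ A ∧ (6 * V * √x + 64 * M * x) * F.sq (v O) <
      m * |qf (B O) (St P O *ᵥ v O) - avg (Pt P O) (B O) * F.sq (St P O *ᵥ v O)|} ≤
        2 * exp (-x) := by
  have hF := (mm_St h).mulVec hv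
  have e : ∀ (O : OG n) (w : Vec n), O.1 *ᵥ (P O *ᵥ w) = Pt P O *ᵥ (O.1 *ᵥ w) := fun O w => by
    unfold Pt
    simp only [Matrix.mulVec_mulVec, Matrix.mul_assoc, OG.transpose_mul, Matrix.mul_one]
  refine st_event h (E := fun O ξ => O ∈ A ∧ (6 * V * √x + 64 * M * x) * F.sq (v O) <
    m * |qf (B O) ξ - avg (Pt P O) (B O) * F.sq ξ|)
    (fun O U hU => by simp only [hAa O U hU, hBa O U hU, hva O U hU, h.adapted_Pt O U hU]) hva
    (hA.inter (measurableSet_lt ((measurable_sq.comp hv).const_mul _)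
      (((measurable_qf2 hB hF).sub ((measurable_avg h.mm_Pt hB).mul
        (measurable_sq.comp hF))).abs.const_mul _))) (by positivity)
    fun O => real_and_le _ (by positivity) (fun hO => fib_qf_avg (invOn_haarH _) (h.proj O)
      (trans_HG (h.proj O)) (B := O.1ᵀ * B O * O.1)
      (by rw [Matrix.transpose_mul, Matrix.transpose_mul, Matrix.transpose_transpose, hBs,
        Matrix.mul_assoc]) hV0 hM0
      (by
        rw [← hsq_orth_mul _ O, ← hsq_mul_orth_tr _ O, conj_conj]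
        exact (hb O hO).1)
      (fun w => by
        rw [qf_conj_tr, ← sq_orth O, e]
        exact (hb O hO).2.1 _) hx hm0 (hb O hO).2.2
      ((h.proj O).mulVec_mulVec (v O))) fun U hU => by
      rw [sq_orth, sq_orth] at hU
      rw [qf_conj_tr, avg_conj]
      exact (mul_le_mul_of_nonneg_left ((h.proj O).sq_le _) (by positivity)).trans_lt hU

end Ex

/-! ### nets of a fixed subspace, mapped by an adapted contraction -/

section Generic

variable {Ω : Type*} [MeasurableSpace Ω] (μ : Measure Ω) [IsFiniteMeasure μ] {A : Set Ω}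

theorem net_sq_on (hA : MeasurableSet A) (W : Submodule ℝ (Vec n)) (Z : Ω → Mat n)
    {c m p : ℝ} (hc : 0 ≤ c) (hm : 0 < m) (hp : 0 ≤ p)
    (h : ∀ u ∈ W, nv u = 1 → μ.real {ω | ω ∈ A ∧ c < m * F.sq (Z ω *ᵥ u)} ≤ p) :
    μ.real {ω | ω ∈ A ∧ ¬ ∀ u ∈ W, m * F.sq (Z ω *ᵥ u) ≤ 4 * c * F.sq u} ≤
      exp (2 * finrank ℝ W) * p := by
  have h1 := net_norm (μ.restrict A) W Z (a := √(c / m)) (sqrt_nonneg _) hp fun u hu hu1 => by
    rw [real_restrict μ hA]
    refine (Tail.real_imp_le _ fun ω hω => ⟨hω.1, ?_⟩).trans (h u hu hu1)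
    have h2 := hω.2
    rw [nv_eq_sqrt, sqrt_lt_sqrt_iff (by positivity), div_lt_iff₀ hm] at h2
    linarith
  rw [real_restrict μ hA] at h1
  refine (Tail.real_imp_le _ fun ω hω => ⟨hω.1, fun h2 => hω.2 fun u hu => ?_⟩).trans h1
  have h3 := sq_le_of_nv_le (h2 u hu)
  rw [mul_pow, mul_pow, sq_sqrt (by positivity), nv_sq] at h3
  have h4 := mul_le_mul_of_nonneg_left h3 hm.le
  refine h4.trans (le_of_eq ?_)
  field_simp
  ring

theorem net_qf_on (hA : MeasurableSet A) (W : Submodule ℝ (Vec n)) (Z : Ω → Mat n)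
    (hZ : ∀ ω, (Z ω).IsSymm) {c m p : ℝ} (hc : 0 ≤ c) (hm : 0 < m) (hp : 0 ≤ p)
    (h : ∀ u ∈ W, nv u = 1 → μ.real {ω | ω ∈ A ∧ c < m * |qf (Z ω) u|} ≤ p) :
    μ.real {ω | ω ∈ A ∧ ¬ ∀ u ∈ W, m * |qf (Z ω) u| ≤ 2 * c * F.sq u} ≤
      exp (3 * finrank ℝ W) * p := by
  have h1 := net_qf (μ.restrict A) W Z hZ (a := c / m) (by positivity) hp fun u hu hu1 => by
    rw [real_restrict μ hA]
    refine (Tail.real_imp_le _ fun ω hω => ⟨hω.1, ?_⟩).trans (h u hu hu1)
    have h2 := hω.2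
    rw [div_lt_iff₀ hm] at h2
    linarith
  rw [real_restrict μ hA] at h1
  refine (Tail.real_imp_le _ fun ω hω => ⟨hω.1, fun h2 => hω.2 fun u hu => ?_⟩).trans h1
  refine (mul_le_mul_of_nonneg_left (h2 u hu) hm.le).trans (le_of_eq ?_)
  field_simp

end Generic

theorem sq_le_one_of {T : Mat n} (hT : OpLe T 1) {u : Vec n} (hu : nv u = 1) :
    F.sq (T *ᵥ u) ≤ 1 := by
  have h := hT u
  rwa [← nv_sq u, hu, one_pow, mul_one] at h

theorem symm_conj {Z B : Mat n} (hB : Bᵀ = B) : (Zᵀ * B * Z).IsSymm := by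
  unfold Matrix.IsSymm
  rw [Matrix.transpose_mul, Matrix.transpose_mul, Matrix.transpose_transpose, hB,
    Matrix.mul_assoc]

section Ex2

variable {μ : Measure (OG n)} [IsProbabilityMeasure μ] {P : OG n → Mat n} {A : Set (OG n)}

theorem adapted_mulVec {T : OG n → Mat n} (hT : Adapted P T) (u : Vec n) :
    Adapted P fun O => T O *ᵥ u := hT.comp fun M => M *ᵥ u

theorem fr_norm_comp (h : Explo μ P) (hA : MeasurableSet A) (hAa : Adapted P fun O => O ∈ A)
    {R T : OG n → Mat n} (hR : MM R) (hRa : Adapted P R) (hT : MM T) (hTa : Adapted P T)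
    (W : Submodule ℝ (Vec n)) {D L x m : ℝ} (hD0 : 0 ≤ D) (hL0 : 0 ≤ L) (hx : 0 ≤ x)
    (hm0 : 0 < m) (hT1 : ∀ O ∈ A, OpLe (T O) 1)
    (hb : ∀ O ∈ A, hsq (R O * P O) ≤ D ^ 2 ∧ OpLe (R O * P O) L ∧ m ≤ (P O).trace) :
    μ.real {O | O ∈ A ∧ ¬ ∀ u ∈ W, m * F.sq (R O *ᵥ (Fr P O *ᵥ (T O *ᵥ u))) ≤
      4 * (D + 6 * L * √x) ^ 2 * F.sq u} ≤ exp (2 * finrank ℝ W - x) := by
  have h1 := net_sq_on μ hA W (fun O => R O * Fr P O * T O) (c := (D + 6 * L * √x) ^ 2)
    (sq_nonneg _) hm0 (exp_pos (-x)).le fun u _ hu => by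
      refine (Tail.real_imp_le _ fun O hO => ⟨hO.1, ?_⟩).trans (fr_norm_tail h hA hAa hR hRa
        (hT.mulVec measurable_const) (adapted_mulVec hTa u) hD0 hL0 hx hm0 hb)
      have h2 := hO.2
      rw [← Matrix.mulVec_mulVec, ← Matrix.mulVec_mulVec] at h2
      exact (mul_le_of_le_one_right (sq_nonneg _) (sq_le_one_of (hT1 O hO.1) hu)).trans_lt h2
  simp only [← Matrix.mulVec_mulVec] at h1
  rwa [sub_eq_add_neg, exp_add]

theorem st_norm_comp (h : Explo μ P) (hA : MeasurableSet A) (hAa : Adapted P fun O => O ∈ A)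
    {R T : OG n → Mat n} (hR : MM R) (hRa : Adapted P R) (hT : MM T) (hTa : Adapted P T)
    (W : Submodule ℝ (Vec n)) {D L x m : ℝ} (hD0 : 0 ≤ D) (hL0 : 0 ≤ L) (hx : 0 ≤ x)
    (hm0 : 0 < m) (hT1 : ∀ O ∈ A, OpLe (T O) 1)
    (hb : ∀ O ∈ A, hsq (R O * Pt P O) ≤ D ^ 2 ∧ OpLe (R O * Pt P O) L ∧ m ≤ (P O).trace) :
    μ.real {O | O ∈ A ∧ ¬ ∀ u ∈ W, m * F.sq (R O *ᵥ (St P O *ᵥ (T O *ᵥ u))) ≤
      4 * (D + 6 * L * √x) ^ 2 * F.sq u} ≤ exp (2 * finrank ℝ W - x) := by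
  have h1 := net_sq_on μ hA W (fun O => R O * St P O * T O) (c := (D + 6 * L * √x) ^ 2)
    (sq_nonneg _) hm0 (exp_pos (-x)).le fun u _ hu => by
      refine (Tail.real_imp_le _ fun O hO => ⟨hO.1, ?_⟩).trans (st_norm_tail h hA hAa hR hRa
        (hT.mulVec measurable_const) (adapted_mulVec hTa u) hD0 hL0 hx hm0 hb)
      have h2 := hO.2
      rw [← Matrix.mulVec_mulVec, ← Matrix.mulVec_mulVec] at h2
      exact (mul_le_of_le_one_right (sq_nonneg _) (sq_le_one_of (hT1 O hO.1) hu)).trans_lt h2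
  simp only [← Matrix.mulVec_mulVec] at h1
  rwa [sub_eq_add_neg, exp_add]

theorem fr_qf_comp (h : Explo μ P) (hA : MeasurableSet A) (hAa : Adapted P fun O => O ∈ A)
    {B T : OG n → Mat n} (hB : MM B) (hBa : Adapted P B) (hBs : ∀ O, (B O)ᵀ = B O) (hT : MM T)
    (hTa : Adapted P T) (W : Submodule ℝ (Vec n)) {V M x m : ℝ} (hV0 : 0 ≤ V) (hM0 : 0 ≤ M)
    (hx : 0 ≤ x) (hm0 : 0 < m) (hT1 : ∀ O ∈ A, OpLe (T O) 1)
    (hb : ∀ O ∈ A, hsq (P O * B O * P O) ≤ V ^ 2 ∧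
      (∀ v, |qf (B O) (P O *ᵥ v)| ≤ M * F.sq (P O *ᵥ v)) ∧ m ≤ (P O).trace) :
    μ.real {O | O ∈ A ∧ ¬ ∀ u ∈ W, m * |qf (cen (P O) (B O)) (Fr P O *ᵥ (T O *ᵥ u))| ≤
      (12 * V * √x + 128 * M * x) * F.sq u} ≤ 2 * exp (3 * finrank ℝ W - x) := by
  have h1 := net_qf_on μ hA W (fun O => (Fr P O * T O)ᵀ * cen (P O) (B O) * (Fr P O * T O))
    (fun O => symm_conj (cen_symm _ (hBs O))) (c := 6 * V * √x + 64 * M * x) (by positivity) hm0
    (p := 2 * exp (-x)) (by positivity) fun u _ hu => by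
      refine (Tail.real_imp_le _ fun O hO => ⟨hO.1, ?_⟩).trans (fr_qf_tail h hA hAa hB hBa hBs
        (hT.mulVec measurable_const) (adapted_mulVec hTa u) hV0 hM0 hx hm0 hb)
      have h2 := hO.2
      rw [qf_conj_tr, qf_cen, ← Matrix.mulVec_mulVec] at h2
      exact (mul_le_of_le_one_right (by positivity) (sq_le_one_of (hT1 O hO.1) hu)).trans_lt h2
  simp only [qf_conj_tr, ← Matrix.mulVec_mulVec] at h1
  rw [show 2 * (6 * V * √x + 64 * M * x) = 12 * V * √x + 128 * M * x by ring] at h1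
  refine h1.trans (le_of_eq ?_)
  rw [sub_eq_add_neg, exp_add]
  ring

theorem st_qf_comp (h : Explo μ P) (hA : MeasurableSet A) (hAa : Adapted P fun O => O ∈ A)
    {B T : OG n → Mat n} (hB : MM B) (hBa : Adapted P B) (hBs : ∀ O, (B O)ᵀ = B O) (hT : MM T)
    (hTa : Adapted P T) (W : Submodule ℝ (Vec n)) {V M x m : ℝ} (hV0 : 0 ≤ V) (hM0 : 0 ≤ M)
    (hx : 0 ≤ x) (hm0 : 0 < m) (hT1 : ∀ O ∈ A, OpLe (T O) 1)
    (hb : ∀ O ∈ A, hsq (Pt P O * B O * Pt P O) ≤ V ^ 2 ∧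
      (∀ w, |qf (B O) (Pt P O *ᵥ w)| ≤ M * F.sq (Pt P O *ᵥ w)) ∧ m ≤ (P O).trace) :
    μ.real {O | O ∈ A ∧ ¬ ∀ u ∈ W, m * |qf (cen (Pt P O) (B O)) (St P O *ᵥ (T O *ᵥ u))| ≤
      (12 * V * √x + 128 * M * x) * F.sq u} ≤ 2 * exp (3 * finrank ℝ W - x) := by
  have h1 := net_qf_on μ hA W (fun O => (St P O * T O)ᵀ * cen (Pt P O) (B O) * (St P O * T O))
    (fun O => symm_conj (cen_symm _ (hBs O))) (c := 6 * V * √x + 64 * M * x) (by positivity) hm0
    (p := 2 * exp (-x)) (by positivity) fun u _ hu => by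
      refine (Tail.real_imp_le _ fun O hO => ⟨hO.1, ?_⟩).trans (st_qf_tail h hA hAa hB hBa hBs
        (hT.mulVec measurable_const) (adapted_mulVec hTa u) hV0 hM0 hx hm0 hb)
      have h2 := hO.2
      rw [qf_conj_tr, qf_cen, ← Matrix.mulVec_mulVec] at h2
      exact (mul_le_of_le_one_right (by positivity) (sq_le_one_of (hT1 O hO.1) hu)).trans_lt h2
  simp only [qf_conj_tr, ← Matrix.mulVec_mulVec] at h1
  rw [show 2 * (6 * V * √x + 64 * M * x) = 12 * V * √x + 128 * M * x by ring] at h1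
  refine h1.trans (le_of_eq ?_)
  rw [sub_eq_add_neg, exp_add]
  ring

/-- from quadratic to bilinear bounds -/
theorem bil_of_qf {W : Submodule ℝ (Vec n)} {C Z : Mat n} (hC : Cᵀ = C) {c m : ℝ} (hm : 0 < m)
    (h : ∀ u ∈ W, m * |qf C (Z *ᵥ u)| ≤ c * F.sq u) :
    ∀ u ∈ W, ∀ v ∈ W, m * |ip (Z *ᵥ u) (C *ᵥ (Z *ᵥ v))| ≤ c * (nv u * nv v) := by
  intro u hu v hv
  have h1 := abs_ip_le_of_qf (W := W) (symm_conj (Z := Z) hC) (M := c / m) (fun w hw => by
    rw [qf_conj_tr, div_mul_eq_mul_div, le_div_iff₀ hm, mul_comm]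
    exact h w hw) u hu v hv
  rw [← Matrix.mulVec_mulVec, ← Matrix.mulVec_mulVec, ip_mulVec_tr, Matrix.transpose_transpose,
    ipN_comm, div_mul_eq_mul_div, le_div_iff₀ hm, mul_comm] at h1
  exact h1

theorem measurable_sumsq {X : Type*} [MeasurableSpace X] {v : X → Vec n} (hv : Measurable v)
    (S : Finset (Fin n)) : Measurable fun x => ∑ i ∈ S, v x i ^ 2 :=
  Finset.measurable_sum _ fun i _ => ((measurable_pi_apply i).comp hv).pow_const 2

theorem Spread.of_fifth {c K : ℝ} {v : Vec n} (h : Spread c K ((1 / 5 : ℝ) • v)) :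
    Spread (25 * c) K v := by
  intro l S
  have h1 := h l S
  have e : ∑ i ∈ S, ((1 / 5 : ℝ) • v) i ^ 2 = (∑ i ∈ S, v i ^ 2) / 25 := by
    rw [Finset.sum_div]
    exact Finset.sum_congr rfl fun i _ => by simp only [Pi.smul_apply, smul_eq_mul]; ring
  rw [e] at h1
  linarith

/-- restricted isometry for the fresh parts of the frame vectors `T u`, `u ∈ W` -/
theorem fr_rip (h : Explo μ P) (hA : MeasurableSet A) (hAa : Adapted P fun O => O ∈ A)
    {T : OG n → Mat n} (hT : MM T) (hTa : Adapted P T) (W : Submodule ℝ (Vec n)) {K : ℝ}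
    (hK : 0 ≤ K) (hb : ∀ O ∈ A, OpLe (T O) 1 ∧ n ≤ 2 * (P O).trace) :
    μ.real {O | O ∈ A ∧ ¬ ∀ u ∈ W, Spread (600 * F.sq u) K (Fr P O *ᵥ (T O *ᵥ u))} ≤
      exp (2 * finrank ℝ W - K) := by
  have h1 := rip_tail (μ.restrict A) W (fun O => (1 / 5 : ℝ) • (Fr P O * T O)) (fun u _ hu S t ht => by
    rw [real_restrict μ hA]
    simp only [Matrix.smul_mulVec, ← Matrix.mulVec_mulVec]
    exact fr_event h (E := fun O ξ => O ∈ A ∧ t < ∑ i ∈ S, ((1 / 5 : ℝ) • ξ) i ^ 2)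
      (fun O U hU => by simp only [hAa O U hU]) (adapted_mulVec hTa u)
      (hA.inter (measurableSet_lt measurable_const (measurable_sumsq
        (((mm_Fr h).mulVec (hT.mulVec measurable_const)).const_smul (1 / 5 : ℝ)) S)))
      (exp_pos _).le fun O => real_and_le _ (exp_pos _).le (fun hO =>
        fib_cone_tail (invOn_haarH _) (h.proj O) (trans_HG (h.proj O)) (hb O hO).2 opLe_one
          (proj_Fr h O _) ((sq_Fr_le h O _).trans (sq_le_one_of (hb O hO).1 hu)) S ht)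
        fun U hU => by rwa [Matrix.one_mulVec]) hK
  rw [real_restrict μ hA] at h1
  refine (Tail.real_imp_le _ fun O hO => ⟨hO.1, fun h2 => hO.2 fun u hu => ?_⟩).trans h1
  have h3 := h2 u hu
  rw [Matrix.smul_mulVec, ← Matrix.mulVec_mulVec] at h3
  have h4 := h3.of_fifth
  rwa [show 25 * (24 * F.sq u) = 600 * F.sq u by ring] at h4

/-- restricted isometry for the fresh parts of the site vectors `T u`, `u ∈ W` -/
theorem st_rip (h : Explo μ P) (hA : MeasurableSet A) (hAa : Adapted P fun O => O ∈ A)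
    {T : OG n → Mat n} (hT : MM T) (hTa : Adapted P T) (W : Submodule ℝ (Vec n)) {K : ℝ}
    (hK : 0 ≤ K) (hb : ∀ O ∈ A, OpLe (T O) 1 ∧ n ≤ 2 * (P O).trace) :
    μ.real {O | O ∈ A ∧ ¬ ∀ u ∈ W, Spread (600 * F.sq u) K (St P O *ᵥ (T O *ᵥ u))} ≤
      exp (2 * finrank ℝ W - K) := by
  have h1 := rip_tail (μ.restrict A) W (fun O => (1 / 5 : ℝ) • (St P O * T O)) (fun u _ hu S t ht => by
    rw [real_restrict μ hA]
    simp only [Matrix.smul_mulVec, ← Matrix.mulVec_mulVec]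
    exact st_event h (E := fun O ξ => O ∈ A ∧ t < ∑ i ∈ S, ((1 / 5 : ℝ) • ξ) i ^ 2)
      (fun O U hU => by simp only [hAa O U hU]) (adapted_mulVec hTa u)
      (hA.inter (measurableSet_lt measurable_const (measurable_sumsq
        (((mm_St h).mulVec (hT.mulVec measurable_const)).const_smul (1 / 5 : ℝ)) S)))
      (exp_pos _).le fun O => real_and_le _ (exp_pos _).le (fun hO =>
        fib_cone_tail (invOn_haarH _) (h.proj O) (trans_HG (h.proj O)) (hb O hO).2 (opLe_orth O)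
          ((h.proj O).mulVec_mulVec _) (((h.proj O).sq_le _).trans (sq_le_one_of (hb O hO).1 hu))
          S ht) fun U hU => hU) hK
  rw [real_restrict μ hA] at h1
  refine (Tail.real_imp_le _ fun O hO => ⟨hO.1, fun h2 => hO.2 fun u hu => ?_⟩).trans h1
  have h3 := h2 u hu
  rw [Matrix.smul_mulVec, ← Matrix.mulVec_mulVec] at h3
  have h4 := h3.of_fifth
  rwa [show 25 * (24 * F.sq u) = 600 * F.sq u by ring] at h4

end Ex2

/-! ### sums, perturbations, flat vectors -/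

theorem Spread.add {c c' K : ℝ} {u v : Vec n} (hu : Spread c K u) (hv : Spread c' K v) :
    Spread (2 * c + 2 * c') K (u + v) := by
  intro l S
  have h1 := hu l S
  have h2 := hv l S
  have h3 : ∑ i ∈ S, (u + v) i ^ 2 ≤ 2 * ∑ i ∈ S, u i ^ 2 + 2 * ∑ i ∈ S, v i ^ 2 := by
    rw [Finset.mul_sum, Finset.mul_sum, ← Finset.sum_add_distrib]
    refine Finset.sum_le_sum fun i _ => ?_
    simp only [Pi.add_apply]
    nlinarith [sq_nonneg (u i - v i)]
  have h4 := mul_le_mul_of_nonneg_left h3 (Nat.cast_nonneg n : (0 : ℝ) ≤ n)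
  linarith

theorem Spread.smul {c K : ℝ} {v : Vec n} (h : Spread c K v) (a : ℝ) :
    Spread (a ^ 2 * c) K (a • v) := by
  intro l S
  have e : ∑ i ∈ S, (a • v) i ^ 2 = a ^ 2 * ∑ i ∈ S, v i ^ 2 := by
    rw [Finset.mul_sum]
    exact Finset.sum_congr rfl fun i _ => by simp only [Pi.smul_apply, smul_eq_mul]; ring
  have h1 := mul_le_mul_of_nonneg_left (h l S) (sq_nonneg a)
  rw [e]
  linarith

/-- flat vectors are spread -/
theorem spread_of_flat {v : Vec n} {c K : ℝ} (hc : 0 ≤ c) (hK : 0 ≤ K)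
    (h : ∀ i, n * v i ^ 2 ≤ c) : Spread c K v := by
  intro l S
  have h1 : n * ∑ i ∈ S, v i ^ 2 ≤ c * S.card := by
    rw [Finset.mul_sum, mul_comm c, ← nsmul_eq_mul]
    exact Finset.sum_le_card_nsmul _ _ _ fun i _ => h i
  refine h1.trans (mul_le_mul_of_nonneg_left ?_ hc)
  unfold lev
  have h2 : (0 : ℝ) ≤ l * S.card := by positivity
  have h3 : (0 : ℝ) ≤ n * exp (-(l : ℝ)) := by positivity
  have h4 : (0 : ℝ) ≤ l := Nat.cast_nonneg l
  linarith

/-- short vectors are spread -/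
theorem spread_of_small {v : Vec n} {c K : ℝ} (hc : 0 ≤ c) (h : n * F.sq v ≤ c * K) :
    Spread c K v := by
  intro l S
  have h1 : ∑ i ∈ S, v i ^ 2 ≤ F.sq v :=
    Finset.sum_le_sum_of_subset_of_nonneg (Finset.subset_univ S) fun i _ _ => sq_nonneg _
  refine (mul_le_mul_of_nonneg_left h1 (Nat.cast_nonneg n)).trans
    (h.trans (mul_le_mul_of_nonneg_left ?_ hc))
  unfold lev
  have h2 : (0 : ℝ) ≤ (l + 1) * S.card := by positivity
  have h3 : (0 : ℝ) ≤ n * exp (-(l : ℝ)) := by positivity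
  have h4 : (0 : ℝ) ≤ l := Nat.cast_nonneg l
  linarith

theorem spread_pj {x : Vec n} (hx : ∀ i, x i ^ 2 = 1) (v : Vec n) {K : ℝ} (hK : 0 ≤ K) :
    Spread (F.sq v) K (pj x *ᵥ v) := by
  refine spread_of_flat (sqN_nonneg v) hK fun i => ?_
  have hn : (0 : ℝ) < n := by exact_mod_cast i.pos
  have hs : F.sq x = n := by
    unfold F.sq
    simp [hx]
  have h1 : (x ⬝ᵥ v) ^ 2 ≤ n * F.sq v := by
    rw [← hs, ← nv_sq, ← nv_sq, ← mul_pow, ← sq_abs]
    exact pow_le_pow_left₀ (abs_nonneg _) (abs_ip_le x v) 2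
  rw [pj_mulVec, Pi.smul_apply, smul_eq_mul, mul_pow, hx, mul_one, hs, div_pow, ← mul_div_assoc,
    div_le_iff₀ (by positivity)]
  nlinarith

/-- RIP for `Oᵀ` when only the sign vector `x` has been explored -/
theorem rip_sign {μ : Measure (OG n)} [IsProbabilityMeasure μ] {x : Vec n}
    (hx : ∀ i, x i ^ 2 = 1) (hn : 2 ≤ n) (h : Explo μ fun _ => rm 1 x)
    (W : Submodule ℝ (Vec n)) {K : ℝ} (hK : 0 ≤ K) :
    μ.real {O | ¬ ∀ u ∈ W, Spread (1202 * F.sq u) K (O.1ᵀ *ᵥ u)} ≤ exp (2 * finrank ℝ W - K) := by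
  have h1 := fr_rip h MeasurableSet.univ (Adapted.const _) (MM.const 1) (Adapted.const _) W hK
    (fun O _ => ⟨opLe_one, by
      have h2 := trace_rm_ge (1 : Mat n) x
      have h3 : (2 : ℝ) ≤ n := by exact_mod_cast hn
      rw [Matrix.trace_one, Fintype.card_fin] at h2
      linarith⟩)
  refine (Tail.real_imp_le _ fun O hO => ⟨Set.mem_univ _, fun h2 => hO fun u hu => ?_⟩).trans h1
  have h3 := (spread_pj hx (O.1ᵀ *ᵥ u) hK).add (h2 u hu)
  have e : pj x *ᵥ (O.1ᵀ *ᵥ u) + Fr (fun _ => rm 1 x) O *ᵥ ((1 : Mat n) *ᵥ u) = O.1ᵀ *ᵥ u := by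
    unfold Fr rm
    rw [Matrix.one_mulVec, Matrix.one_mulVec, ← Matrix.mulVec_mulVec, Matrix.sub_mulVec,
      Matrix.one_mulVec, add_sub_cancel]
  have e2 : F.sq (O.1ᵀ *ᵥ u) = F.sq u := by rw [← OG.coe_inv, sq_orth]
  rw [e, e2] at h3
  rwa [show 2 * F.sq u + 2 * (600 * F.sq u) = 1202 * F.sq u by ring] at h3

end Vale.Agent.N150.Rip
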