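import Vale.Agent.N150.Red2
import Vale.Agent.N150.Final

/-! P150 at the critical point: the final forms, for the dynamics run by Poisson clocks. -/

open MeasureTheory Filter Topology

namespace Vale.Agent.N150

open Vale.Agent.P150 Vale.Agent.P150W

/-- the three upper bounds, matrix forms -/
def UpFull : Prop := ∀ ε : ℝ, 0 < ε →
  WHP (fun n => {g | tmix (skJ 1 g) (fun _ => 0) ≤ (n : ℝ) ^ (2 / 3 + ε) ∧
    (n : ℝ) ^ (-(2 / 3 + ε)) ≤ gap (skJ 1 g) (fun _ => 0) ∧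
    ∀ t, (n : ℝ) ^ (2 / 3 + ε) ≤ t → ∀ x, tvDist (skJ 1 g) (fun _ => 0) t x ≤ 1 / 4})

theorem upFull_of (h : Red.PathHg (2 / 3)) : UpFull := fun _ hε =>
  Red.upper_of_pathHg (by norm_num) h hε

theorem skJ_sym {n : ℕ} (β : ℝ) (g : Pairs n → ℝ) (a b : Fin n) : skJ β g a b = skJ β g b a := by
  simp only [skJ, gsym_comm]

/-- the upper bounds for the dynamics run by clocks -/
theorem up_clock (h : UpFull) (ε : ℝ) (hε : 0 < ε) : WHP (fun n => {g |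
    (n : ℝ) ^ (-(2 / 3 + ε)) ≤ gapL (skJ 1 g) (fun _ => 0) ∧
    mix (skJ 1 g) (fun _ => 0) ≤ (n : ℝ) ^ (2 / 3 + ε) ∧
    ∀ t, (n : ℝ) ^ (2 / 3 + ε) ≤ t → ∀ x, tv (skJ 1 g) (fun _ => 0) t x ≤ 1 / 4}) := by
  refine MainThm.whp_mono (h ε hε) ?_
  filter_upwards [eventually_gt_atTop 0] with n hn g hg
  obtain ⟨a1, a2, a3⟩ := hg
  refine ⟨?_, ?_, fun t ht x => ?_⟩
  · rw [gapL_eq (skJ_sym 1 g) hn]
    exact a2
  · rw [mix_eq]
    exact a1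
  · rw [tv_eq ((Real.rpow_nonneg (Nat.cast_nonneg n) _).trans ht)]
    exact a3 t ht x

theorem log_ratio {n : ℕ} (hn : 2 ≤ n) {x ε : ℝ} (h1 : (n : ℝ) ^ (2 / 3 - ε) ≤ x)
    (h2 : x ≤ (n : ℝ) ^ (2 / 3 + ε)) : |Real.log x / Real.log n - 2 / 3| ≤ ε := by
  have h0 : (1 : ℝ) < n := by exact_mod_cast hn
  have hL : 0 < Real.log n := Real.log_pos h0
  have hp : (0 : ℝ) < n := by linarith
  have h3 := Real.log_le_log (Real.rpow_pos_of_pos hp _) h1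
  have h4 := Real.log_le_log ((Real.rpow_pos_of_pos hp _).trans_le h1) h2
  rw [Real.log_rpow hp] at h3 h4
  rw [abs_le]
  constructor
  · rw [le_sub_iff_add_le, le_div_iff₀ hL]
    linarith
  · rw [sub_le_iff_le_add, div_le_iff₀ hL]
    linarith

theorem ev_log (C : ℝ) {ε : ℝ} (hε : 0 < ε) :
    ∀ᶠ n : ℕ in atTop, 2 * (C * Real.log n ^ 4) ≤ (n : ℝ) ^ ε := by
  have h3 := (isLittleO_log_rpow_rpow_atTop (4 : ℝ) hε).const_mul_left (2 * C)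
  have h4 := (h3.comp_tendsto tendsto_natCast_atTop_atTop).bound one_pos
  filter_upwards [h4] with n hn
  simp only [Function.comp, Real.norm_eq_abs, one_mul] at hn
  rw [show (4 : ℝ) = ((4 : ℕ) : ℝ) by norm_num, Real.rpow_natCast] at hn
  rw [← mul_assoc]
  exact (le_abs_self _).trans (hn.trans (le_of_eq
    (abs_of_nonneg (Real.rpow_nonneg (Nat.cast_nonneg _) _))))

/-- the lower bounds at the critical point -/
def LowFull : Prop := ∃ C : ℝ, 0 < C ∧ WHP (fun n => {g |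
  gap (skJ 1 g) (fun _ => 0) ≤ C * Real.log n ^ 4 * (n : ℝ) ^ (-(2 / 3 : ℝ)) ∧
  Real.log 2 / (C * Real.log n ^ 4) * (n : ℝ) ^ (2 / 3 : ℝ) ≤ tmix (skJ 1 g) (fun _ => 0)})

theorem lowFull_of {A : ℝ → ∀ n : ℕ, (Pairs n → ℝ) → Prop}
    (h : ∃ C : ℝ, 0 < C ∧ WHP (fun n => {g |
      gap (skJ 1 g) (fun _ => 0) ≤ C * Real.log n ^ 4 * (n : ℝ) ^ (-(2 / 3 : ℝ)) ∧
      Real.log 2 / (C * Real.log n ^ 4) * (n : ℝ) ^ (2 / 3 : ℝ) ≤ tmix (skJ 1 g) (fun _ => 0) ∧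
      A C n g})) : LowFull :=
  h.imp fun _ h => ⟨h.1, MainThm.whp_mono h.2 (Eventually.of_forall fun _ _ hg => ⟨hg.1, hg.2.1⟩)⟩

/-- the two-sided statement at the critical point, matrix forms -/
theorem crit_mat (h : UpFull) (h3 : LowFull) :
    ∃ C : ℝ, 0 < C ∧ ∀ ε : ℝ, 0 < ε → WHP (fun n => {g |
      (n : ℝ) ^ (-(2 / 3 + ε)) ≤ gap (skJ 1 g) (fun _ => 0) ∧
      gap (skJ 1 g) (fun _ => 0) ≤ C * Real.log n ^ 4 * (n : ℝ) ^ (-(2 / 3 : ℝ)) ∧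
      Real.log 2 / (C * Real.log n ^ 4) * (n : ℝ) ^ (2 / 3 : ℝ) ≤ tmix (skJ 1 g) (fun _ => 0) ∧
      tmix (skJ 1 g) (fun _ => 0) ≤ (n : ℝ) ^ (2 / 3 + ε) ∧
      (∀ t, (n : ℝ) ^ (2 / 3 + ε) ≤ t → ∀ x, tvDist (skJ 1 g) (fun _ => 0) t x ≤ 1 / 4) ∧
      |Real.log (tmix (skJ 1 g) (fun _ => 0)) / Real.log n - 2 / 3| ≤ ε ∧
      |Real.log (gap (skJ 1 g) (fun _ => 0))⁻¹ / Real.log n - 2 / 3| ≤ ε}) := by
  obtain ⟨C, hC, h4⟩ := h3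
  refine ⟨C, hC, fun ε hε => MainThm.whp_mono (MainThm.whp_inter h4 (h ε hε)) ?_⟩
  filter_upwards [eventually_ge_atTop 2, ev_log C hε] with n hn hl g hg
  obtain ⟨⟨a1, a2⟩, b2, b1, b3⟩ := hg
  have h0 : (1 : ℝ) < n := by exact_mod_cast hn
  have hp : (0 : ℝ) < n := by linarith
  have hL : 0 < Real.log n := Real.log_pos h0
  have hD : 0 < C * Real.log n ^ 4 := by positivity
  have he : 0 < (n : ℝ) ^ ε := Real.rpow_pos_of_pos hp _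
  have ht : 0 < (n : ℝ) ^ (2 / 3 : ℝ) := Real.rpow_pos_of_pos hp _
  have e1 : (n : ℝ) ^ (2 / 3 - ε) = (n : ℝ) ^ (2 / 3 : ℝ) / (n : ℝ) ^ ε := Real.rpow_sub hp _ _
  have hg0 : 0 < gap (skJ 1 g) (fun _ => 0) := (Real.rpow_pos_of_pos hp _).trans_le b1
  refine ⟨b1, a1, a2, b2, b3, log_ratio hn (le_trans ?_ a2) b2, log_ratio hn ?_ ?_⟩
  · rw [e1, div_le_iff₀ he, mul_right_comm]
    refine le_mul_of_one_le_left ht.le ?_
    rw [div_mul_eq_mul_div, le_div_iff₀ hD]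
    have h9 := Real.log_two_gt_d9
    nlinarith
  · rw [e1, le_inv_comm₀ (div_pos ht he) hg0, inv_div]
    refine a1.trans ?_
    rw [Real.rpow_neg hp.le, div_eq_mul_inv]
    exact mul_le_mul_of_nonneg_right (by linarith) (inv_pos.2 ht).le
  · rw [inv_le_comm₀ hg0 (Real.rpow_pos_of_pos hp _), ← Real.rpow_neg hp.le]
    exact b1

/-- the two-sided statement at the critical point, for the dynamics run by clocks -/
theorem crit_two (h : UpFull) (h3 : LowFull) :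
    ∃ C : ℝ, 0 < C ∧ ∀ ε : ℝ, 0 < ε → WHP (fun n => {g |
      (n : ℝ) ^ (-(2 / 3 + ε)) ≤ gapL (skJ 1 g) (fun _ => 0) ∧
      gapL (skJ 1 g) (fun _ => 0) ≤ C * Real.log n ^ 4 * (n : ℝ) ^ (-(2 / 3 : ℝ)) ∧
      Real.log 2 / (C * Real.log n ^ 4) * (n : ℝ) ^ (2 / 3 : ℝ) ≤ mix (skJ 1 g) (fun _ => 0) ∧
      mix (skJ 1 g) (fun _ => 0) ≤ (n : ℝ) ^ (2 / 3 + ε) ∧
      (∀ t, (n : ℝ) ^ (2 / 3 + ε) ≤ t → ∀ x, tv (skJ 1 g) (fun _ => 0) t x ≤ 1 / 4) ∧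
      |Real.log (mix (skJ 1 g) (fun _ => 0)) / Real.log n - 2 / 3| ≤ ε ∧
      |Real.log (gapL (skJ 1 g) (fun _ => 0))⁻¹ / Real.log n - 2 / 3| ≤ ε}) := by
  obtain ⟨C, hC, h4⟩ := crit_mat h h3
  refine ⟨C, hC, fun ε hε => MainThm.whp_mono (h4 ε hε) ?_⟩
  filter_upwards [eventually_gt_atTop 0] with n hn g hg
  obtain ⟨a1, a2, a3, a4, a5, a6, a7⟩ := hg
  rw [Set.mem_ofPred_eq, gapL_eq (skJ_sym 1 g) hn, mix_eq]
  refine ⟨a1, a2, a3, a4, fun t ht x => ?_, a6, a7⟩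
  rw [tv_eq ((Real.rpow_nonneg (Nat.cast_nonneg n) _).trans ht)]
  exact a5 t ht x

end Vale.Agent.N150
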