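import Vale.Agent.P150.Bdl.B1

/-! T1, block D5: the third power of the Picard linearisation is small (abstract normed ring),
and its consequences: Neumann inverse, low block of the inverse, three step contraction. -/

namespace Vale.Agent.N150.Cube

section Ring

variable {R : Type*} [NormedRing R]

theorem nm {a b : R} {x y : ℝ} (ha : ‖a‖ ≤ x) (hb : ‖b‖ ≤ y) : ‖a * b‖ ≤ x * y :=
  (norm_mul_le a b).trans (mul_le_mul ha hb (norm_nonneg _) ((norm_nonneg _).trans ha))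

theorem na {a b : R} {x y : ℝ} (ha : ‖a‖ ≤ x) (hb : ‖b‖ ≤ y) : ‖a + b‖ ≤ x + y :=
  (norm_add_le a b).trans (add_le_add ha hb)

theorem ns {a b : R} {x y : ℝ} (ha : ‖a‖ ≤ x) (hb : ‖b‖ ≤ y) : ‖a - b‖ ≤ x + y :=
  (norm_sub_le a b).trans (add_le_add ha hb)

theorem nn {a : R} {x : ℝ} (ha : ‖a‖ ≤ x) : ‖-a‖ ≤ x := by rwa [norm_neg]

/-- The block structure: `P` low projection, `Q` high projection, `Y` commutes with both,
`X` the centre operator, `I`, `I'` the embedding of the exceptional sites and its adjoint. -/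
structure Blk (P Q Y X I I' : R) (K e : ℝ) : Prop where
  K1 : 1 ≤ K
  e0 : 0 ≤ e
  e1 : e ≤ 1
  sum : P + Q = 1
  PQ : P * Q = 0
  QP : Q * P = 0
  YP : Y * P = P * Y
  nP : ‖P‖ ≤ 1
  nQ : ‖Q‖ ≤ 1
  nY : ‖Y‖ ≤ K
  E1 : ‖P * X * P‖ ≤ e
  E2 : ‖Q * X * Q‖ ≤ e
  E3 : ‖P * X * Q‖ ≤ K
  E3' : ‖Q * X * P‖ ≤ K
  E4 : ‖P * X * (Q * Y) * X * P‖ ≤ e
  E5 : ‖P * I‖ ≤ e
  E5' : ‖I' * P‖ ≤ e
  E5h : ‖Q * I‖ ≤ K
  E5h' : ‖I' * Q‖ ≤ K
  E6 : ‖I' * (Q * Y) * I‖ ≤ e
  E7 : ‖P * X * (Q * Y) * I‖ ≤ e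
  E7' : ‖I' * (Q * Y) * X * P‖ ≤ e

/-- `T` has the form `- Y (X + I S I') + D` with `‖S‖ ≤ 1`, `‖D‖ ≤ e`. -/
def Form (Y X I I' : R) (e : ℝ) (T : R) : Prop :=
  ∃ S D : R, ‖S‖ ≤ 1 ∧ ‖D‖ ≤ e ∧ T = -(Y * (X + I * S * I')) + D

/-- high to low part -/
def al (P Q Y X : R) : R := Y * (P * X * Q)
/-- low to high part -/
def be (P Q Y X : R) : R := Y * (Q * X * P)
/-- exceptional sites, high to high -/
def ga (Q Y I I' S : R) : R := Y * (Q * I * S * (I' * Q))
/-- the main part -/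
def core (P Q Y X I I' S : R) : R := al P Q Y X + be P Q Y X + ga Q Y I I' S

namespace Blk

variable {P Q Y X I I' : R} {K e : ℝ} (h : Blk P Q Y X I I' K e)
include h

theorem K0 : 0 ≤ K := zero_le_one.trans h.K1

theorem Qeq : Q = 1 - P := by rw [← h.sum]; abel

theorem PP : P * P = P := by
  have h1 : P * (P + Q) = P := by rw [h.sum, mul_one]
  rwa [mul_add, h.PQ, add_zero] at h1

theorem QQ : Q * Q = Q := by
  have h1 : Q * (P + Q) = Q := by rw [h.sum, mul_one]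
  rwa [mul_add, h.QP, zero_add] at h1

theorem YQ : Y * Q = Q * Y := by
  rw [h.Qeq, mul_sub, sub_mul, h.YP, mul_one, one_mul]

theorem QYP : Q * Y * P = 0 := by rw [mul_assoc, h.YP, ← mul_assoc, h.QP, zero_mul]

theorem PYQ : P * Y * Q = 0 := by rw [mul_assoc, h.YQ, ← mul_assoc, h.PQ, zero_mul]

theorem QYQ : Q * Y * Q = Q * Y := by rw [mul_assoc, h.YQ, ← mul_assoc, h.QQ]

theorem PYP : P * Y * P = Y * P := by rw [← h.YP, mul_assoc, h.PP]

theorem al_al : al P Q Y X * al P Q Y X = 0 := by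
  have : al P Q Y X * al P Q Y X = Y * P * X * (Q * Y * P) * (X * Q) := by
    unfold al; noncomm_ring
  rw [this, h.QYP]; simp

theorem be_be : be P Q Y X * be P Q Y X = 0 := by
  have : be P Q Y X * be P Q Y X = Y * Q * X * (P * Y * Q) * (X * P) := by
    unfold be; noncomm_ring
  rw [this, h.PYQ]; simp

theorem be_ga (S : R) : be P Q Y X * ga Q Y I I' S = 0 := by
  have : be P Q Y X * ga Q Y I I' S = Y * Q * X * (P * Y * Q) * (I * S * (I' * Q)) := by
    unfold be ga; noncomm_ring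
  rw [this, h.PYQ]; simp

theorem ga_al (S : R) : ga Q Y I I' S * al P Q Y X = 0 := by
  have : ga Q Y I I' S * al P Q Y X = Y * Q * I * S * I' * (Q * Y * P) * (X * Q) := by
    unfold al ga; noncomm_ring
  rw [this, h.QYP]; simp

theorem n_al : ‖al P Q Y X‖ ≤ K * K := nm h.nY h.E3

theorem n_be : ‖be P Q Y X‖ ≤ K * K := nm h.nY h.E3'

theorem n_ga {S : R} (hS : ‖S‖ ≤ 1) : ‖ga Q Y I I' S‖ ≤ K * (K * 1 * K) :=
  nm h.nY (nm (nm h.E5h hS) h.E5h')

theorem n_al_be : ‖al P Q Y X * be P Q Y X‖ ≤ K * e := by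
  have : al P Q Y X * be P Q Y X = Y * (P * X * (Q * Y * Q) * X * P) := by
    unfold al be; noncomm_ring
  rw [this, h.QYQ]
  exact nm h.nY h.E4

theorem n_al_ga {S : R} (hS : ‖S‖ ≤ 1) :
    ‖al P Q Y X * ga Q Y I I' S‖ ≤ K * (e * 1 * K) := by
  have : al P Q Y X * ga Q Y I I' S = Y * (P * X * (Q * Y * Q) * I * S * (I' * Q)) := by
    unfold al ga; noncomm_ring
  rw [this, h.QYQ]
  exact nm h.nY (nm (nm h.E7 hS) h.E5h')

theorem n_ga_be {S : R} (hS : ‖S‖ ≤ 1) :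
    ‖ga Q Y I I' S * be P Q Y X‖ ≤ K * (K * 1 * e) := by
  have : ga Q Y I I' S * be P Q Y X = Y * (Q * I * S * (I' * (Q * Y * Q) * X * P)) := by
    unfold be ga; noncomm_ring
  rw [this, h.QYQ]
  exact nm h.nY (nm (nm h.E5h hS) h.E7')

theorem n_ga_ga {S S' : R} (hS : ‖S‖ ≤ 1) (hS' : ‖S'‖ ≤ 1) :
    ‖ga Q Y I I' S * ga Q Y I I' S'‖ ≤ K * (K * 1 * e * 1 * K) := by
  have : ga Q Y I I' S * ga Q Y I I' S'
      = Y * (Q * I * S * (I' * (Q * Y * Q) * I) * S' * (I' * Q)) := by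
    unfold ga; noncomm_ring
  rw [this, h.QYQ]
  exact nm h.nY (nm (nm (nm (nm h.E5h hS) h.E6) hS') h.E5h')

theorem pw (a b : ℕ) (hab : a ≤ b) : K ^ a ≤ K ^ b := pow_le_pow_right₀ h.K1 hab

theorem n_core {S : R} (hS : ‖S‖ ≤ 1) : ‖core P Q Y X I I' S‖ ≤ 3 * K ^ 3 := by
  have h1 := na (na h.n_al h.n_be) (h.n_ga hS)
  have h2 := h.pw 2 3 (by norm_num)
  unfold core
  nlinarith

/-- `T = - core + O(e)` -/
theorem split {T : R} (hT : Form Y X I I' e T) :
    ∃ S D : R, ‖S‖ ≤ 1 ∧ ‖D‖ ≤ 6 * K ^ 2 * e ∧ T = -core P Q Y X I I' S + D := by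
  obtain ⟨S, D, hS, hD, rfl⟩ := hT
  refine ⟨S, D - Y * (P * X * P + Q * X * Q + P * I * S * (I' * P) + P * I * S * (I' * Q)
    + Q * I * S * (I' * P)), hS, ?_, ?_⟩
  · have h1 := ns hD (nm h.nY (na (na (na (na h.E1 h.E2) (nm (nm h.E5 hS) h.E5'))
      (nm (nm h.E5 hS) h.E5h')) (nm (nm h.E5h hS) h.E5')))
    refine h1.trans ?_
    have hK := h.K1
    have he := h.e0
    have he1 := h.e1
    have h2 : K ≤ K ^ 2 := by nlinarith
    have h3 : e * e ≤ e := by nlinarith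
    have h4 : K * (e * e) ≤ K ^ 2 * e := by
      calc K * (e * e) ≤ K * e := mul_le_mul_of_nonneg_left h3 h.K0
        _ ≤ K ^ 2 * e := mul_le_mul_of_nonneg_right h2 he
    have h5 : K * e ≤ K ^ 2 * e := mul_le_mul_of_nonneg_right h2 he
    have h6 : e ≤ K * e := by nlinarith
    nlinarith
  · have hX : X = (P + Q) * X * (P + Q) := by rw [h.sum, one_mul, mul_one]
    have hI : I * S * I' = (P + Q) * (I * S * I') * (P + Q) := by rw [h.sum, one_mul, mul_one]
    unfold core al be ga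
    conv_lhs => rw [hI, hX]
    noncomm_ring

theorem core_core (S S' : R) : core P Q Y X I I' S * core P Q Y X I I' S'
    = be P Q Y X * al P Q Y X + (al P Q Y X * be P Q Y X + al P Q Y X * ga Q Y I I' S'
      + ga Q Y I I' S * be P Q Y X + ga Q Y I I' S * ga Q Y I I' S') := by
  unfold core
  simp only [add_mul, mul_add, h.al_al, h.be_be, h.be_ga, h.ga_al]
  abel

theorem al_core (S : R) : al P Q Y X * core P Q Y X I I' S
    = al P Q Y X * be P Q Y X + al P Q Y X * ga Q Y I I' S := by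
  unfold core
  simp only [mul_add, h.al_al]
  abel

theorem n_core3 {S S' S'' : R} (hS : ‖S‖ ≤ 1) (hS' : ‖S'‖ ≤ 1) (hS'' : ‖S''‖ ≤ 1) :
    ‖core P Q Y X I I' S * core P Q Y X I I' S' * core P Q Y X I I' S''‖ ≤ 14 * K ^ 6 * e := by
  rw [h.core_core, add_mul, mul_assoc (be P Q Y X), h.al_core]
  have h1 := na (nm h.n_be (na h.n_al_be (h.n_al_ga hS'')))
    (nm (na (na (na h.n_al_be (h.n_al_ga hS')) (h.n_ga_be hS)) (h.n_ga_ga hS hS')) (h.n_core hS''))
  refine h1.trans ?_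
  have he := h.e0
  have h3 := mul_le_mul_of_nonneg_right (h.pw 3 6 (by norm_num)) he
  have h4 := mul_le_mul_of_nonneg_right (h.pw 4 6 (by norm_num)) he
  have h5 := mul_le_mul_of_nonneg_right (h.pw 5 6 (by norm_num)) he
  nlinarith

theorem D_le : 6 * K ^ 2 * e ≤ 6 * K ^ 3 := by
  have h1 : K ^ 2 * e ≤ K ^ 2 := mul_le_of_le_one_right (sq_nonneg K) h.e1
  have h2 := h.pw 2 3 (by norm_num)
  linarith

/-- D5, first part: `‖T‖ ≤ 9 K ^ 3` -/
theorem norm_le {T : R} (hT : Form Y X I I' e T) : ‖T‖ ≤ 9 * K ^ 3 := by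
  obtain ⟨S, D, hS, hD, rfl⟩ := h.split hT
  have h1 := na (nn (h.n_core hS)) hD
  have h2 := h.D_le
  linarith

/-- D5: a product of three operators of this form is small -/
theorem cube_le {T T' T'' : R} (hT : Form Y X I I' e T) (hT' : Form Y X I I' e T')
    (hT'' : Form Y X I I' e T'') : ‖T * T' * T''‖ ≤ 1000 * K ^ 8 * e := by
  have n2 := h.norm_le hT'
  have n3 := h.norm_le hT''
  obtain ⟨S, D, hS, hD, e1⟩ := h.split hT
  obtain ⟨S', D', hS', hD', e2⟩ := h.split hT'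
  obtain ⟨S'', D'', hS'', hD'', e3⟩ := h.split hT''
  have key : T * T' * T'' = -(core P Q Y X I I' S * core P Q Y X I I' S' * core P Q Y X I I' S'')
      + D * T' * T'' - core P Q Y X I I' S * D' * T''
      + core P Q Y X I I' S * core P Q Y X I I' S' * D'' := by
    have e4 : core P Q Y X I I' S = D - T := by rw [e1]; abel
    have e5 : core P Q Y X I I' S' = D' - T' := by rw [e2]; abel
    have e6 : core P Q Y X I I' S'' = D'' - T'' := by rw [e3]; abel
    rw [e4, e5, e6]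
    noncomm_ring
  rw [key]
  have h1 := na (ns (na (nn (h.n_core3 hS hS' hS'')) (nm (nm hD n2) n3))
    (nm (nm (h.n_core hS) hD') n3)) (nm (nm (h.n_core hS) (h.n_core hS')) hD'')
  refine h1.trans ?_
  have he := h.e0
  have h6 := mul_le_mul_of_nonneg_right (h.pw 6 8 (by norm_num)) he
  have h8 : 0 ≤ K ^ 8 * e := mul_nonneg (pow_nonneg h.K0 8) he
  nlinarith

theorem P_core (S : R) : P * core P Q Y X I I' S = al P Q Y X := by
  have h1 : P * core P Q Y X I I' S = (P * Y * P) * (X * Q) + (P * Y * Q) * (X * P)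
      + (P * Y * Q) * (I * S * (I' * Q)) := by
    unfold core al be ga; noncomm_ring
  rw [h1, h.PYP, h.PYQ]
  unfold al
  noncomm_ring

theorem core_P (S : R) : core P Q Y X I I' S * P = be P Q Y X := by
  have h1 : core P Q Y X I I' S * P = Y * P * X * (Q * P) + Y * Q * X * (P * P)
      + Y * Q * I * S * I' * (Q * P) := by
    unfold core al be ga; noncomm_ring
  rw [h1, h.PP, h.QP]
  unfold be
  noncomm_ring

theorem al_P : al P Q Y X * P = 0 := by
  have h1 : al P Q Y X * P = Y * P * X * (Q * P) := by unfold al; noncomm_ring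
  rw [h1, h.QP, mul_zero]

/-- the low block of `T` is small -/
theorem low_one {T : R} (hT : Form Y X I I' e T) : ‖P * T * P‖ ≤ 6 * K ^ 2 * e := by
  obtain ⟨S, D, hS, hD, rfl⟩ := h.split hT
  have h1 : P * (-core P Q Y X I I' S + D) * P = -(P * core P Q Y X I I' S * P) + P * D * P := by
    noncomm_ring
  rw [h1, h.P_core, h.al_P, neg_zero, zero_add]
  simpa using nm (nm h.nP hD) h.nP

/-- the low block of a product of two is small -/
theorem low_two {T T' : R} (hT : Form Y X I I' e T) (hT' : Form Y X I I' e T') :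
    ‖P * (T * T') * P‖ ≤ 73 * K ^ 5 * e := by
  have n2 := h.norm_le hT'
  obtain ⟨S, D, hS, hD, e1⟩ := h.split hT
  obtain ⟨S', D', hS', hD', e2⟩ := h.split hT'
  have key : P * (T * T') * P = (P * core P Q Y X I I' S) * (core P Q Y X I I' S' * P)
      + P * (D * T') * P - P * (core P Q Y X I I' S * D') * P := by
    have e4 : core P Q Y X I I' S = D - T := by rw [e1]; abel
    have e5 : core P Q Y X I I' S' = D' - T' := by rw [e2]; abel
    rw [e4, e5]
    noncomm_ring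
  rw [key, h.P_core, h.core_P]
  have h1 := ns (na h.n_al_be (nm (nm h.nP (nm hD n2)) h.nP))
    (nm (nm h.nP (nm (h.n_core hS) hD')) h.nP)
  refine h1.trans ?_
  have he := h.e0
  have h6 := mul_le_mul_of_nonneg_right (h.pw 1 5 (by norm_num)) he
  nlinarith

end Blk

/-- Neumann: if `‖T‖ ≤ B` and `‖T ^ 3‖ ≤ 1 / 2` then `1 - T` is a unit -/
theorem isUnit_one_sub [CompleteSpace R] {T : R} (h3 : ‖T * T * T‖ ≤ 1 / 2) : IsUnit (1 - T) := by
  have hu : IsUnit (1 - T * T * T) := (Units.oneSub (T * T * T) (by linarith)).isUnit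
  have e1 : (1 - T) * (1 + T + T * T) = 1 - T * T * T := by noncomm_ring
  have hc : Commute (1 - T) (1 + T + T * T) := by
    unfold Commute SemiconjBy
    noncomm_ring
  rw [← e1] at hu
  exact (hc.isUnit_mul_iff.1 hu).1

theorem inv_expand {T W : R} (hW : (1 - T) * W = 1) :
    W = 1 + T + T * T + T * T * T * W := by
  have h1 : (1 + T + T * T) * ((1 - T) * W) = 1 + T + T * T := by rw [hW, mul_one]
  rw [← h1]
  noncomm_ring

theorem norm_inv_le {T W : R} {B : ℝ} (h1 : ‖(1 : R)‖ ≤ 1) (hB : 1 ≤ B) (hT : ‖T‖ ≤ B)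
    (h3 : ‖T * T * T‖ ≤ 1 / 2) (hW : (1 - T) * W = 1) : ‖W‖ ≤ 6 * B ^ 2 := by
  have h2 : ‖W‖ ≤ 1 + B + B * B + 1 / 2 * ‖W‖ := by
    conv_lhs => rw [inv_expand hW]
    exact na (na (na h1 hT) (nm hT hT)) (nm h3 le_rfl)
  nlinarith

/-- D6 (d), abstract: the low block of `(1 - T)⁻¹` is the identity up to `O(e)` -/
theorem Blk.low_inv {P Q Y X I I' : R} {K e : ℝ} (h : Blk P Q Y X I I' K e) (h1 : ‖(1 : R)‖ ≤ 1)
    (he : 2000 * K ^ 8 * e ≤ 1) {T W : R} (hT : Form Y X I I' e T) (hW : (1 - T) * W = 1) :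
    ‖W‖ ≤ 486 * K ^ 6 ∧ ‖P * W * P - P‖ ≤ 500000 * K ^ 14 * e := by
  have hK := h.K1
  have hB : 1 ≤ 9 * K ^ 3 := by have := one_le_pow₀ (n := 3) hK; linarith
  have h3 := h.cube_le hT hT hT
  have nW : ‖W‖ ≤ 486 * K ^ 6 := by
    have := norm_inv_le h1 hB (h.norm_le hT) (h3.trans (by linarith)) hW
    nlinarith
  refine ⟨nW, ?_⟩
  have key : P * W * P - P = P * T * P + P * (T * T) * P + P * (T * T * T * W) * P := by
    conv_lhs => rw [inv_expand hW]
    have : P * (1 + T + T * T + T * T * T * W) * P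
        = P * P + P * T * P + P * (T * T) * P + P * (T * T * T * W) * P := by noncomm_ring
    rw [this, h.PP]
    abel
  rw [key]
  have h4 := na (na (h.low_one hT) (h.low_two hT hT)) (nm (nm h.nP (nm h3 nW)) h.nP)
  refine h4.trans ?_
  have he0 := h.e0
  have h5 := mul_le_mul_of_nonneg_right (h.pw 2 14 (by norm_num)) he0
  have h6 := mul_le_mul_of_nonneg_right (h.pw 5 14 (by norm_num)) he0
  have h7 : 0 ≤ K ^ 14 * e := mul_nonneg (pow_nonneg h.K0 14) he0
  nlinarith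

end Ring

section Mat

open Matrix Vale.Agent.P150 Vale.Agent.P150.F

variable {n : ℕ}

open scoped Matrix.Norms.L2Operator in
theorem opLe_iff {A : Mat n} {C : ℝ} (hC : 0 ≤ C) : OpLe A C ↔ ‖A‖ ≤ C := by
  constructor
  · intro h
    rw [Matrix.cstar_norm_def]
    refine ContinuousLinearMap.opNorm_le_bound _ hC fun x => ?_
    have h1 := h.nv_le hC x.ofLp
    unfold nv at h1
    rw [← Matrix.toEuclideanCLM_toLp] at h1
    simpa using h1
  · intro h
    refine opLe_of_nv fun v => ?_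
    have h1 := Matrix.l2_opNorm_mulVec A (WithLp.toLp 2 v)
    refine le_trans ?_ (mul_le_mul_of_nonneg_right h (nv_nonneg v))
    exact h1

theorem opLe_tr {A : Mat n} {C : ℝ} (hC : 0 ≤ C) (h : OpLe A C) : OpLe Aᵀ C := by
  refine opLe_of_nv fun v => ?_
  have h1 : nv (Aᵀ *ᵥ v) ^ 2 = ip v (A *ᵥ (Aᵀ *ᵥ v)) := by
    rw [nv_sq, ← ipN_self]
    change (Aᵀ *ᵥ v) ⬝ᵥ (Aᵀ *ᵥ v) = v ⬝ᵥ (A *ᵥ (Aᵀ *ᵥ v))
    rw [Matrix.dotProduct_mulVec v A, Matrix.mulVec_transpose]
  have h2 : nv (Aᵀ *ᵥ v) ^ 2 ≤ nv v * (C * nv (Aᵀ *ᵥ v)) := by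
    rw [h1]
    exact (ip_le _ _).trans (mul_le_mul_of_nonneg_left (h.nv_le hC _) (nv_nonneg v))
  have h3 := nv_nonneg (Aᵀ *ᵥ v)
  have h4 := mul_nonneg hC (nv_nonneg v)
  by_contra hc
  push Not at hc
  nlinarith

theorem opLe_neg {A : Mat n} {C : ℝ} (h : OpLe A C) : OpLe (-A) C := by
  intro v
  rw [Matrix.neg_mulVec, ← nv_sq, nv_neg, nv_sq]
  exact h v

/-- a symmetric idempotent matrix has norm at most one -/
theorem opLe_proj {P : Mat n} (hs : Pᵀ = P) (hP : P * P = P) : OpLe P 1 := by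
  refine opLe_of_nv fun v => ?_
  have h1 : nv (P *ᵥ v) ^ 2 = ip v (P *ᵥ v) := by
    rw [nv_sq, ← ipN_self, ← ip_mulVec_comm hs, Matrix.mulVec_mulVec, hP]
  have h2 : nv (P *ᵥ v) ^ 2 ≤ nv v * nv (P *ᵥ v) := by
    rw [h1]
    exact ip_le _ _
  have h3 := nv_nonneg (P *ᵥ v)
  have h4 := nv_nonneg v
  by_contra hc
  push Not at hc
  nlinarith

/-- matrix form of the block structure (`Q = 1 - P`) -/
structure BlkM (P Y X I I' : Mat n) (K e : ℝ) : Prop where
  K1 : 1 ≤ K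
  e0 : 0 ≤ e
  e1 : e ≤ 1
  symm : Pᵀ = P
  idem : P * P = P
  YP : Y * P = P * Y
  nY : OpLe Y K
  E1 : OpLe (P * X * P) e
  E2 : OpLe ((1 - P) * X * (1 - P)) e
  E3 : OpLe (P * X * (1 - P)) K
  E3' : OpLe ((1 - P) * X * P) K
  E4 : OpLe (P * X * ((1 - P) * Y) * X * P) e
  E5 : OpLe (P * I) e
  E5' : OpLe (I' * P) e
  E5h : OpLe ((1 - P) * I) K
  E5h' : OpLe (I' * (1 - P)) K
  E6 : OpLe (I' * ((1 - P) * Y) * I) e
  E7 : OpLe (P * X * ((1 - P) * Y) * I) e
  E7' : OpLe (I' * ((1 - P) * Y) * X * P) e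

/-- matrix form of `Form` -/
def FormM (Y X I I' : Mat n) (e : ℝ) (T : Mat n) : Prop :=
  ∃ S D : Mat n, OpLe S 1 ∧ OpLe D e ∧ T = -(Y * (X + I * S * I')) + D

theorem opLe_compl {P : Mat n} (hs : Pᵀ = P) (hP : P * P = P) : OpLe (1 - P) 1 := by
  refine opLe_proj ?_ ?_
  · rw [Matrix.transpose_sub, Matrix.transpose_one, hs]
  · rw [mul_sub, sub_mul, sub_mul, hP]; simp

namespace BlkM

variable {P Y X I I' : Mat n} {K e : ℝ} (h : BlkM P Y X I I' K e)
include h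

theorem K0 : 0 ≤ K := zero_le_one.trans h.K1

open scoped Matrix.Norms.L2Operator in
theorem toBlk : Blk P (1 - P) Y X I I' K e where
  K1 := h.K1
  e0 := h.e0
  e1 := h.e1
  sum := by abel
  PQ := by rw [mul_sub, mul_one, h.idem, sub_self]
  QP := by rw [sub_mul, one_mul, h.idem, sub_self]
  YP := h.YP
  nP := (opLe_iff zero_le_one).1 (opLe_proj h.symm h.idem)
  nQ := (opLe_iff zero_le_one).1 (opLe_compl h.symm h.idem)
  nY := (opLe_iff h.K0).1 h.nY
  E1 := (opLe_iff h.e0).1 h.E1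
  E2 := (opLe_iff h.e0).1 h.E2
  E3 := (opLe_iff h.K0).1 h.E3
  E3' := (opLe_iff h.K0).1 h.E3'
  E4 := (opLe_iff h.e0).1 h.E4
  E5 := (opLe_iff h.e0).1 h.E5
  E5' := (opLe_iff h.e0).1 h.E5'
  E5h := (opLe_iff h.K0).1 h.E5h
  E5h' := (opLe_iff h.K0).1 h.E5h'
  E6 := (opLe_iff h.e0).1 h.E6
  E7 := (opLe_iff h.e0).1 h.E7
  E7' := (opLe_iff h.e0).1 h.E7'

open scoped Matrix.Norms.L2Operator in
theorem toForm {T : Mat n} (hT : FormM Y X I I' e T) : Form Y X I I' e T := by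
  obtain ⟨S, D, hS, hD, e1⟩ := hT
  exact ⟨S, D, (opLe_iff zero_le_one).1 hS, (opLe_iff h.e0).1 hD, e1⟩

open scoped Matrix.Norms.L2Operator in
/-- D5: `‖T‖ ≤ 9 K ^ 3` -/
theorem norm_le {T : Mat n} (hT : FormM Y X I I' e T) : OpLe T (9 * K ^ 3) :=
  (opLe_iff (by have := h.K0; positivity)).2 (h.toBlk.norm_le (h.toForm hT))

open scoped Matrix.Norms.L2Operator in
/-- D5: three factors -/
theorem cube_le {T T' T'' : Mat n} (hT : FormM Y X I I' e T) (hT' : FormM Y X I I' e T')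
    (hT'' : FormM Y X I I' e T'') : OpLe (T * T' * T'') (1000 * K ^ 8 * e) :=
  (opLe_iff (by have := h.K0; have := h.e0; positivity)).2
    (h.toBlk.cube_le (h.toForm hT) (h.toForm hT') (h.toForm hT''))

open scoped Matrix.Norms.L2Operator in
/-- D6 (c), (d): `1 - T` is invertible, norm and low block of the inverse -/
theorem inv {T : Mat n} (he : 2000 * K ^ 8 * e ≤ 1) (hT : FormM Y X I I' e T) :
    IsUnit (1 - T).det ∧ OpLe (1 - T)⁻¹ (486 * K ^ 6) ∧
      OpLe (P * (1 - T)⁻¹ * P - P) (500000 * K ^ 14 * e) := by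
  have h3 := h.toBlk.cube_le (h.toForm hT) (h.toForm hT) (h.toForm hT)
  have hu : IsUnit (1 - T) := isUnit_one_sub (h3.trans (by linarith))
  have hd : IsUnit (1 - T).det := (Matrix.isUnit_iff_isUnit_det _).1 hu
  have h1 : ‖(1 : Mat n)‖ ≤ 1 := (opLe_iff zero_le_one).1 opLe_one
  obtain ⟨h4, h5⟩ := h.toBlk.low_inv h1 he (h.toForm hT) (Matrix.mul_nonsing_inv _ hd)
  have hK := h.K0
  have he0 := h.e0
  exact ⟨hd, (opLe_iff (by positivity)).2 h4, (opLe_iff (by positivity)).2 h5⟩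

end BlkM

theorem sum_half_div (N : ℕ) : ∑ i ∈ Finset.range N, ((1 : ℝ) / 2) ^ (i / 3) ≤ 6 := by
  have h1 : ∀ m : ℕ, ∑ i ∈ Finset.range (3 * m), ((1 : ℝ) / 2) ^ (i / 3)
      = 6 - 6 * (1 / 2) ^ m := by
    intro m
    induction m with
    | zero => simp
    | succ m ih =>
      rw [show 3 * (m + 1) = 3 * m + 1 + 1 + 1 by ring, Finset.sum_range_succ,
        Finset.sum_range_succ, Finset.sum_range_succ, ih,
        show 3 * m / 3 = m by omega, show (3 * m + 1) / 3 = m by omega,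
        show (3 * m + 1 + 1) / 3 = m by omega, pow_succ]
      ring
  have h2 : ∑ i ∈ Finset.range N, ((1 : ℝ) / 2) ^ (i / 3)
      ≤ ∑ i ∈ Finset.range (3 * N), ((1 : ℝ) / 2) ^ (i / 3) :=
    Finset.sum_le_sum_of_subset_of_nonneg (Finset.range_mono (by omega))
      fun i _ _ => by positivity
  have h3 : (0 : ℝ) ≤ (1 / 2) ^ N := by positivity
  rw [h1] at h2
  linarith

/-- D6 (b), abstract: a map whose increments, seen through `Q`, are given on a set `S` by matrices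
`T h h'` of norm at most `B` with triple products at most `η ≤ 1 / 2`; `S` contains the `Q` ball of
radius `6 B ^ 2 r`. The orbit of the centre stays in that ball and its steps decay geometrically. -/
theorem orbit {Φ : Vec n → Vec n} {Q : Mat n} {c : Vec n} {S : Set (Vec n)} {B η r : ℝ}
    {T : Vec n → Vec n → Mat n} (hB : 1 ≤ B)
    (hη0 : 0 ≤ η) (hη : η ≤ 1 / 2) (hr : nv (Q *ᵥ (Φ c - c)) ≤ r)
    (hS : ∀ h, nv (Q *ᵥ (h - c)) ≤ 6 * B ^ 2 * r → h ∈ S)
    (hT : ∀ h ∈ S, ∀ h' ∈ S, Q *ᵥ (Φ h - Φ h') = T h h' *ᵥ (Q *ᵥ (h - h')))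
    (h1 : ∀ h ∈ S, ∀ h' ∈ S, OpLe (T h h') B)
    (h3 : ∀ a ∈ S, ∀ b ∈ S, ∀ d ∈ S, ∀ f ∈ S, OpLe (T a b * T b d * T d f) η) (j : ℕ) :
    nv (Q *ᵥ (Φ^[j] c - c)) ≤ 6 * B ^ 2 * r ∧
      nv (Q *ᵥ (Φ^[j + 1] c - Φ^[j] c)) ≤ B ^ 2 * η ^ (j / 3) * r := by
  have hr0 : 0 ≤ r := (nv_nonneg _).trans hr
  have hB0 : 0 ≤ B := zero_le_one.trans hB
  set u : ℕ → Vec n := fun i => Q *ᵥ (Φ^[i + 1] c - Φ^[i] c) with hu
  have hdis : ∀ j, (∀ i < j, nv (u i) ≤ B ^ 2 * η ^ (i / 3) * r) →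
      nv (Q *ᵥ (Φ^[j] c - c)) ≤ 6 * B ^ 2 * r := by
    intro j hj
    have e2 : ∑ i ∈ Finset.range j, u i = Q *ᵥ (Φ^[j] c - c) := by
      simp only [hu]
      rw [← Matrix.mulVec_sum, Finset.sum_range_sub (fun i => Φ^[i] c)]
      rfl
    rw [← e2]
    refine (nv_sum_le _ _).trans ?_
    calc ∑ i ∈ Finset.range j, nv (u i)
        ≤ ∑ i ∈ Finset.range j, B ^ 2 * r * ((1 : ℝ) / 2) ^ (i / 3) := by
          refine Finset.sum_le_sum fun i hi => (hj i (Finset.mem_range.1 hi)).trans ?_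
          have := pow_le_pow_left₀ hη0 hη (i / 3)
          have h5 : 0 ≤ B ^ 2 * r := by positivity
          nlinarith
      _ = B ^ 2 * r * ∑ i ∈ Finset.range j, ((1 : ℝ) / 2) ^ (i / 3) := by
          rw [Finset.mul_sum]
      _ ≤ B ^ 2 * r * 6 := mul_le_mul_of_nonneg_left (sum_half_div j) (by positivity)
      _ = 6 * B ^ 2 * r := by ring
  have hstep : ∀ i, Φ^[i + 1] c ∈ S → Φ^[i] c ∈ S →
      u (i + 1) = T (Φ^[i + 1] c) (Φ^[i] c) *ᵥ u i := by
    intro i ha hb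
    simp only [hu]
    rw [← hT _ ha _ hb, Function.iterate_succ_apply' Φ (i + 1), ← Function.iterate_succ_apply' Φ i]
  have main : ∀ j, ∀ i < j, nv (u i) ≤ B ^ 2 * η ^ (i / 3) * r := by
    intro j
    induction j with
    | zero => intro i hi; omega
    | succ j ih =>
      have hin : ∀ i ≤ j, Φ^[i] c ∈ S := fun i hi =>
        hS _ (hdis i fun k hk => ih k (by omega))
      intro i hi
      rcases Nat.lt_succ_iff_lt_or_eq.1 hi with hi | rfl
      · exact ih i hi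
      have hu0 : nv (u 0) ≤ r := by simpa [hu] using hr
      have hB2 : 1 ≤ B ^ 2 := one_le_pow₀ hB
      match i, ih, hin with
      | 0, _, _ =>
        simp only [Nat.zero_div, pow_zero, mul_one]
        nlinarith
      | 1, _, hin =>
        have ha := hin 1 le_rfl
        have hb := hin 0 (by omega)
        rw [hstep 0 ha hb]
        refine ((h1 _ ha _ hb).nv_le hB0 _).trans ?_
        simp only [Nat.reduceDiv, pow_zero, mul_one]
        have := mul_le_mul_of_nonneg_left hu0 hB0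
        have h6 : B * r ≤ B ^ 2 * r := mul_le_mul_of_nonneg_right (by nlinarith) hr0
        linarith
      | 2, _, hin =>
        have ha := hin 2 le_rfl
        have hb := hin 1 (by omega)
        have hc := hin 0 (by omega)
        rw [hstep 1 ha hb, hstep 0 hb hc]
        refine ((h1 _ ha _ hb).nv_le hB0 _).trans ?_
        have h6 := (h1 _ hb _ hc).nv_le hB0 (u 0)
        simp only [Nat.reduceDiv, pow_zero, mul_one]
        have h7 := mul_le_mul_of_nonneg_left hu0 hB0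
        have h8 := mul_le_mul_of_nonneg_left (h6.trans h7) hB0
        nlinarith
      | k + 3, ih, hin =>
        have ha := hin (k + 3) le_rfl
        have hb := hin (k + 2) (by omega)
        have hc := hin (k + 1) (by omega)
        have hd := hin k (by omega)
        rw [hstep (k + 2) ha hb, hstep (k + 1) hb hc, hstep k hc hd, Matrix.mulVec_mulVec,
          Matrix.mulVec_mulVec]
        refine ((h3 _ ha _ hb _ hc _ hd).nv_le hη0 _).trans ?_
        have h6 := mul_le_mul_of_nonneg_left (ih k (by omega)) hη0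
        rw [show (k + 3) / 3 = k / 3 + 1 by omega, pow_succ η]
        linarith
  exact ⟨hdis j (main j), main (j + 1) j (by omega)⟩

end Mat

end Vale.Agent.N150.Cube
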