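import Vale.Agent.N150.Cube

/-! T1, blocks D5 and D6: from the structure predicate and the perturbation bounds to the block
form, and the consequences for the responses `Γ` and `G = D Γ` (abstract matrices). -/

open Matrix

namespace Vale.Agent.N150.Cube

open Vale.Agent.P150 Vale.Agent.P150.F

variable {n : ℕ}

/-- The structure hypotheses (E1) to (E7) for one exceptional set, together with the algebraic
properties of `Y = N0 - 1 / w0` and `A = Ab⁻¹` (`A = a` on the high block). -/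
structure StrM (P Y A X I : Mat n) (a B η : ℝ) : Prop where
  symm : Pᵀ = P
  idem : P * P = P
  YP : Y * P = P * Y
  AP : A * P = P * A
  hi : (1 - P) * A = a • (1 - P)
  a0 : 0 ≤ a
  a2 : a ≤ 2
  η0 : 0 ≤ η
  B0 : 0 ≤ B
  nY : OpLe Y 8
  nA : OpLe A 2
  E1 : OpLe (P * X * P) η
  E2 : OpLe ((1 - P) * X * (1 - P)) η
  E3 : OpLe (P * X * (1 - P)) B
  E3' : OpLe ((1 - P) * X * P) B
  E4 : OpLe (P * X * (1 - P) * Y * X * P) η
  E5 : OpLe (P * I) η
  E5h : OpLe ((1 - P) * I) B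
  E6 : OpLe (Iᵀ * Y * (1 - P) * I) η
  E7 : OpLe (P * X * (1 - P) * Y * I) η
  E7' : OpLe (Iᵀ * Y * (1 - P) * X * P) η

theorem StrM.blk {P Y A X I : Mat n} {a B η K e : ℝ} (h : StrM P Y A X I a B η) (hK : 16 ≤ K)
    (hB : B ≤ K) (he : 2 * η ≤ e) (he1 : e ≤ 1) : BlkM P (A * Y) X I Iᵀ K e := by
  have hη := h.η0
  have hηe : η ≤ e := by linarith
  have hYQ : Y * (1 - P) = (1 - P) * Y := by rw [mul_sub, sub_mul, h.YP, mul_one, one_mul]
  have hq : (1 - P) * (A * Y) = a • ((1 - P) * Y) := by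
    rw [← mul_assoc, h.hi, smul_mul_assoc]
  have sc : ∀ {Z : Mat n}, OpLe Z η → OpLe (a • Z) e := fun hZ =>
    (hZ.smul hη a).monoN (mul_nonneg (abs_nonneg a) hη) (by
      rw [abs_of_nonneg h.a0]
      have := mul_le_mul_of_nonneg_right h.a2 hη
      linarith)
  have hQs : (1 - P)ᵀ = 1 - P := by rw [Matrix.transpose_sub, Matrix.transpose_one, h.symm]
  refine ⟨by linarith, by linarith, he1, h.symm, h.idem, ?_, ?_, h.E1.monoN hη hηe,
    h.E2.monoN hη hηe, h.E3.monoN h.B0 hB, h.E3'.monoN h.B0 hB, ?_, h.E5.monoN hη hηe, ?_,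
    h.E5h.monoN h.B0 hB, ?_, ?_, ?_, ?_⟩
  · rw [mul_assoc, h.YP, ← mul_assoc, h.AP, mul_assoc]
  · exact (h.nA.mulN h.nY (by norm_num) (by norm_num)).monoN (by norm_num) (by linarith)
  · have : P * X * ((1 - P) * (A * Y)) * X * P = a • (P * X * (1 - P) * Y * X * P) := by
      rw [hq]
      simp only [mul_smul_comm, smul_mul_assoc, mul_assoc]
    rw [this]
    exact sc h.E4
  · have := opLe_tr hη h.E5
    rw [Matrix.transpose_mul, h.symm] at this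
    exact this.monoN hη hηe
  · have := opLe_tr h.B0 h.E5h
    rw [Matrix.transpose_mul, hQs] at this
    exact this.monoN h.B0 hB
  · have : Iᵀ * ((1 - P) * (A * Y)) * I = a • (Iᵀ * Y * (1 - P) * I) := by
      rw [hq, ← hYQ]
      simp only [mul_smul_comm, smul_mul_assoc, mul_assoc]
    rw [this]
    exact sc h.E6
  · have : P * X * ((1 - P) * (A * Y)) * I = a • (P * X * (1 - P) * Y * I) := by
      rw [hq]
      simp only [mul_smul_comm, smul_mul_assoc, mul_assoc]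
    rw [this]
    exact sc h.E7
  · have : Iᵀ * ((1 - P) * (A * Y)) * X * P = a • (Iᵀ * Y * (1 - P) * X * P) := by
      rw [hq, ← hYQ]
      simp only [mul_smul_comm, smul_mul_assoc, mul_assoc]
    rw [this]
    exact sc h.E7'

section Ring

variable {R : Type*} [NormedRing R]

theorem Blk.n_main {P Q Y X I I' S : R} {K e : ℝ} (h : Blk P Q Y X I I' K e) (hS : ‖S‖ ≤ 1) :
    ‖X + I * S * I'‖ ≤ 8 * K ^ 2 := by
  have hX : X = P * X * P + Q * X * Q + P * X * Q + Q * X * P := by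
    have : X = (P + Q) * X * (P + Q) := by rw [h.sum, one_mul, mul_one]
    conv_lhs => rw [this]
    noncomm_ring
  have hI : I = P * I + Q * I := by rw [← add_mul, h.sum, one_mul]
  have hI' : I' = I' * P + I' * Q := by rw [← mul_add, h.sum, mul_one]
  have n1 : ‖X‖ ≤ e + e + K + K := by
    have := na (na (na h.E1 h.E2) h.E3) h.E3'
    rwa [← hX] at this
  have n2 : ‖I‖ ≤ e + K := by
    have := na h.E5 h.E5h
    rwa [← hI] at this
  have n3 : ‖I'‖ ≤ e + K := by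
    have := na h.E5' h.E5h'
    rwa [← hI'] at this
  have h1 := na n1 (nm (nm n2 hS) n3)
  have hK := h.K1
  have he := h.e0
  have he1 := h.e1
  have h2 : (e + K) * 1 * (e + K) ≤ (K + K) * (K + K) := by
    rw [mul_one]
    exact mul_le_mul (by linarith) (by linarith) (by linarith) (by linarith)
  nlinarith

/-- the perturbed operator has the block form -/
theorem Blk.form_of {P Q A Y X I I' S Xs Ai Kd E : R} {K e η ε : ℝ}
    (h : Blk P Q (A * Y) X I I' K e) (hS : ‖S‖ ≤ 1) (hA : ‖A‖ ≤ 2) (hY : ‖Y‖ ≤ 8)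
    (hXs : ‖Xs‖ ≤ η) (hAi : ‖Ai - A‖ ≤ ε) (hKd : ‖Kd‖ ≤ ε) (hE : ‖E‖ ≤ ε)
    (he : 16 * η + 102 * K ^ 2 * ε ≤ e) :
    Form (A * Y) X I I' e
      (-(Ai * (Y * (X + I * S * I' + Xs) + Kd * (X + I * S * I' + Xs) + E))) := by
  have hη : 0 ≤ η := (norm_nonneg _).trans hXs
  have hε : 0 ≤ ε := (norm_nonneg _).trans hE
  have hK := h.K1
  have he1 := h.e1
  have hK2 : 1 ≤ K ^ 2 := one_le_pow₀ hK
  have hKε : ε ≤ K ^ 2 * ε := le_mul_of_one_le_left hε hK2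
  have hε1 : ε ≤ 1 := by nlinarith
  have nX : ‖X + I * S * I' + Xs‖ ≤ 9 * K ^ 2 := (na (h.n_main hS) hXs).trans (by nlinarith)
  have nAi : ‖Ai‖ ≤ 3 := by
    have := na hAi hA
    rw [sub_add_cancel] at this
    linarith
  refine ⟨S, -((Ai - A) * Y * (X + I * S * I' + Xs)) - A * Y * Xs
    - Ai * (Kd * (X + I * S * I' + Xs) + E), hS, ?_, by noncomm_ring⟩
  refine (ns (ns (nn (nm (nm hAi hY) nX)) (nm (nm hA hY) hXs))
    (nm nAi (na (nm hKd nX) hE))).trans ?_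
  nlinarith

/-- D6 (d), abstract: `Γ = W Ai Z` with `W = (1 - T)⁻¹`, `Ai ≈ A`, `Z ≈ 1` -/
theorem resp_bound {P A W Ai Z : R} {BW e ε : ℝ} (h1 : ‖(1 : R)‖ ≤ 1) (hP : ‖P‖ ≤ 1)
    (hPP : P * P = P) (hAP : A * P = P * A) (hA : ‖A‖ ≤ 2) (hW : ‖W‖ ≤ BW)
    (hl : ‖P * W * P - P‖ ≤ e) (hAi : ‖Ai - A‖ ≤ ε) (hZ : ‖Z - 1‖ ≤ ε) (hε1 : ε ≤ 1) :
    ‖W * Ai * Z‖ ≤ 6 * BW ∧ ‖P * (W * Ai * Z - A) * P‖ ≤ 2 * e + 4 * BW * ε := by
  have hB : 0 ≤ BW := (norm_nonneg _).trans hW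
  have hε : 0 ≤ ε := (norm_nonneg _).trans hZ
  have nAi : ‖Ai‖ ≤ 3 := by
    have := na hAi hA
    rw [sub_add_cancel] at this
    linarith
  have nZ : ‖Z‖ ≤ 2 := by
    have := na hZ h1
    rw [sub_add_cancel] at this
    linarith
  refine ⟨(nm (nm hW nAi) nZ).trans (by linarith), ?_⟩
  have key : P * (W * Ai * Z - A) * P
      = (P * W * P - P) * A + P * (W * (Ai * (Z - 1) + (Ai - A))) * P := by
    have e1 : (P * W * P - P) * A = P * W * (A * P) - P * (A * P) := by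
      rw [hAP, ← mul_assoc P P A, hPP]
      noncomm_ring
    rw [e1]
    noncomm_ring
  rw [key]
  refine (na (nm hl hA) (nm (nm hP (nm hW (na (nm nAi hZ) hAi))) hP)).trans ?_
  nlinarith

end Ring

open scoped Matrix.Norms.L2Operator in
theorem BlkM.n_main {P Y X I I' S : Mat n} {K e : ℝ} (h : BlkM P Y X I I' K e) (hS : OpLe S 1) :
    OpLe (X + I * S * I') (8 * K ^ 2) :=
  (opLe_iff (by positivity)).2 (h.toBlk.n_main ((opLe_iff zero_le_one).1 hS))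

open scoped Matrix.Norms.L2Operator in
theorem BlkM.form_of {P A Y X I I' S Xs Ai Kd E : Mat n} {K e η ε : ℝ}
    (h : BlkM P (A * Y) X I I' K e) (hη : 0 ≤ η) (hε : 0 ≤ ε) (hS : OpLe S 1) (hA : OpLe A 2)
    (hY : OpLe Y 8) (hXs : OpLe Xs η) (hAi : OpLe (Ai - A) ε) (hKd : OpLe Kd ε) (hE : OpLe E ε)
    (he : 16 * η + 102 * K ^ 2 * ε ≤ e) :
    FormM (A * Y) X I I' e
      (-(Ai * (Y * (X + I * S * I' + Xs) + Kd * (X + I * S * I' + Xs) + E))) := by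
  obtain ⟨S', D, hS', hD, e1⟩ := h.toBlk.form_of ((opLe_iff zero_le_one).1 hS)
    ((opLe_iff (by norm_num)).1 hA) ((opLe_iff (by norm_num)).1 hY) ((opLe_iff hη).1 hXs)
    ((opLe_iff hε).1 hAi) ((opLe_iff hε).1 hKd) ((opLe_iff hε).1 hE) he
  exact ⟨S', D, (opLe_iff zero_le_one).2 hS', (opLe_iff h.e0).2 hD, e1⟩

/-- conjugation by the square root: `T^ = Nh T Ni` for `T = - AA⁻¹ (M - AA)` -/
theorem hat_eq {Nh Ni AAi M AA K0 Kt VW E : Mat n} (h1 : Ni * Nh = 1) (h2 : Nh * Ni = 1)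
    (hM : M - AA = K0 * VW + (Kt - K0) * VW + E) :
    Nh * (-(AAi * (M - AA))) * Ni = -((Nh * AAi * Ni) * ((Nh * K0 * Nh) * (Ni * VW * Ni)
      + (Nh * (Kt - K0) * Nh) * (Ni * VW * Ni) + Nh * E * Ni)) := by
  have e1 : (Nh * AAi * Ni) * ((Nh * K0 * Nh) * (Ni * VW * Ni)
      + (Nh * (Kt - K0) * Nh) * (Ni * VW * Ni) + Nh * E * Ni)
      = Nh * AAi * (Ni * Nh) * K0 * (Nh * Ni) * VW * Ni
        + Nh * AAi * (Ni * Nh) * (Kt - K0) * (Nh * Ni) * VW * Ni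
        + Nh * AAi * (Ni * Nh) * E * Ni := by
    noncomm_ring
  rw [e1, h1, h2, hM]
  noncomm_ring

open scoped Matrix.Norms.L2Operator in
/-- D6 (c), (d) for abstract matrices. `M = AA (1 - T)`, `T^ = Nh T Ni` has the block form,
`G L = M`. Then `M`, `L` are invertible and `Γ = L⁻¹` is controlled. -/
theorem BlkM.resp {P A Y X I I' Nh Ni AA M G L : Mat n} {K e ε : ℝ}
    (h : BlkM P Y X I I' K e) (he : 2000 * K ^ 8 * e ≤ 1) (hε : 0 ≤ ε) (hε1 : ε ≤ 1)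
    (h1 : Ni * Nh = 1) (h2 : Nh * Ni = 1) (hAA : IsUnit AA.det)
    (hT : FormM Y X I I' e (Nh * (-(AA⁻¹ * (M - AA))) * Ni))
    (hAP : A * P = P * A) (hA : OpLe A 2) (hAi : OpLe (Nh * AA⁻¹ * Ni - A) ε) :
    IsUnit M.det ∧ OpLe (Nh * M⁻¹ * Ni) (1458 * K ^ 6) ∧
      (G * L = M → OpLe (Nh * G * Nh - 1) ε →
        IsUnit L.det ∧ OpLe (Nh * L⁻¹ * Nh) (2916 * K ^ 6) ∧
          OpLe (P * (Nh * L⁻¹ * Nh - A) * P) (1000000 * K ^ 14 * e + 1944 * K ^ 6 * ε)) := by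
  obtain ⟨hu, hW, hl⟩ := h.inv he hT
  set T := Nh * (-(AA⁻¹ * (M - AA))) * Ni with hTdef
  have hK := h.K0
  have he0 := h.e0
  have hM : M = AA * Ni * (1 - T) * Nh := by
    have e1 : AA * Ni * (1 - T) * Nh = AA * (Ni * Nh)
        + AA * (Ni * Nh) * AA⁻¹ * (M - AA) * (Ni * Nh) := by
      rw [hTdef]; noncomm_ring
    rw [e1, h1, mul_one, mul_one, Matrix.mul_nonsing_inv _ hAA, one_mul]
    abel
  have hMi : M * (Ni * (1 - T)⁻¹ * (Nh * AA⁻¹ * Ni) * Nh) = 1 := by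
    have e1 : AA * Ni * (1 - T) * Nh * (Ni * (1 - T)⁻¹ * (Nh * AA⁻¹ * Ni) * Nh)
        = AA * Ni * ((1 - T) * (Nh * Ni) * (1 - T)⁻¹) * Nh * AA⁻¹ * (Ni * Nh) := by
      simp only [mul_assoc]
    conv_lhs => rw [hM]
    rw [e1, h2, mul_one, Matrix.mul_nonsing_inv _ hu, h1, mul_one, mul_one, mul_assoc AA, h1,
      mul_one, Matrix.mul_nonsing_inv _ hAA]
  have hMu : IsUnit M.det := Matrix.isUnit_det_of_right_inverse hMi
  have hMinv : M⁻¹ = Ni * (1 - T)⁻¹ * (Nh * AA⁻¹ * Ni) * Nh := Matrix.inv_eq_right_inv hMi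
  have nA := (opLe_iff (by norm_num)).1 hA
  have nAi := (opLe_iff hε).1 hAi
  have nW := (opLe_iff (by positivity)).1 hW
  have nl := (opLe_iff (by positivity)).1 hl
  have n3 : ‖Nh * AA⁻¹ * Ni‖ ≤ 3 := by
    have := na nAi nA
    rw [sub_add_cancel] at this
    linarith
  refine ⟨hMu, ?_, fun hL hZ => ?_⟩
  · have e1 : Nh * M⁻¹ * Ni = (1 - T)⁻¹ * (Nh * AA⁻¹ * Ni) := by
      have e2 : Nh * (Ni * (1 - T)⁻¹ * (Nh * AA⁻¹ * Ni) * Nh) * Ni
          = (Nh * Ni) * (1 - T)⁻¹ * (Nh * AA⁻¹ * Ni) * (Nh * Ni) := by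
        simp only [mul_assoc]
      rw [hMinv, e2, h2, one_mul, mul_one]
    rw [e1]
    exact (opLe_iff (by positivity)).2 ((nm nW n3).trans (by linarith))
  · have hLi : (M⁻¹ * G) * L = 1 := by
      rw [mul_assoc, hL, Matrix.nonsing_inv_mul _ hMu]
    have hLu : IsUnit L.det := Matrix.isUnit_det_of_left_inverse hLi
    have e1 : Nh * L⁻¹ * Nh = (1 - T)⁻¹ * (Nh * AA⁻¹ * Ni) * (Nh * G * Nh) := by
      have e2 : Nh * (Ni * (1 - T)⁻¹ * (Nh * AA⁻¹ * Ni) * Nh * G) * Nh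
          = (Nh * Ni) * (1 - T)⁻¹ * (Nh * AA⁻¹ * Ni) * (Nh * G * Nh) := by
        simp only [mul_assoc]
      rw [Matrix.inv_eq_left_inv hLi, hMinv, e2, h2, one_mul]
    obtain ⟨r1, r2⟩ := resp_bound ((opLe_iff zero_le_one).1 opLe_one)
      ((opLe_iff zero_le_one).1 (opLe_proj h.symm h.idem)) h.idem hAP nA nW nl nAi
      ((opLe_iff hε).1 hZ) hε1
    rw [e1]
    exact ⟨hLu, (opLe_iff (by positivity)).2 (r1.trans (by linarith)),
      (opLe_iff (by positivity)).2 (r2.trans (by linarith))⟩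

open scoped Matrix.Norms.L2Operator in
/-- D6 (d) for `G = D Γ`, `D = w + V`: with `Nh V Ni = N0 Xf - F`, where `Xf = Ni VW Ni`. -/
theorem gm_bound {P A Nh Ni Γ V N0 Xf F : Mat n} {w w0 BG BX bN σ e ε : ℝ}
    (hs : Pᵀ = P) (hP : P * P = P) (h1 : Ni * Nh = 1) (hBG : 0 ≤ BG) (hBX : 0 ≤ BX)
    (hbN : 0 ≤ bN) (hσ : 0 ≤ σ) (he : 0 ≤ e) (hε : 0 ≤ ε) (hw : |w| ≤ 1) (hw0 : |w - w0| ≤ ε)
    (hA : OpLe A 2) (hG : OpLe (Nh * Γ * Nh) BG) (hl : OpLe (P * (Nh * Γ * Nh - A) * P) e)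
    (hV : Nh * V * Ni = N0 * Xf - F) (hX : OpLe Xf BX) (hF : OpLe F ε) (hN : OpLe N0 bN)
    (hPN : OpLe (P * N0) σ) :
    OpLe (Nh * ((w • (1 : Mat n) + V) * Γ) * Nh) ((1 + bN * BX + ε) * BG) ∧
      OpLe (P * (Nh * ((w • (1 : Mat n) + V) * Γ) * Nh - w0 • A) * P)
        (e + 2 * ε + (σ * BX + ε) * BG) := by
  have nP := (opLe_iff zero_le_one).1 (opLe_proj hs hP)
  have nA := (opLe_iff (by norm_num)).1 hA
  have nG := (opLe_iff hBG).1 hG
  have nl := (opLe_iff he).1 hl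
  have nX := (opLe_iff hBX).1 hX
  have nF := (opLe_iff hε).1 hF
  have nN := (opLe_iff hbN).1 hN
  have nPN := (opLe_iff hσ).1 hPN
  have e1 : Nh * ((w • (1 : Mat n) + V) * Γ) * Nh
      = w • (Nh * Γ * Nh) + (N0 * Xf - F) * (Nh * Γ * Nh) := by
    have e2 : Nh * V * Ni * (Nh * Γ * Nh) = Nh * V * (Ni * Nh) * Γ * Nh := by
      simp only [mul_assoc]
    rw [← hV, e2, h1, mul_one, add_mul, mul_add, add_mul]
    simp only [smul_mul_assoc, mul_smul_comm, one_mul, mul_assoc]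
  have sm : ∀ {c x y : ℝ} {Z : Mat n}, |c| ≤ x → ‖Z‖ ≤ y → ‖c • Z‖ ≤ x * y := by
    intro c x y Z hc hZ
    rw [norm_smul, Real.norm_eq_abs]
    exact mul_le_mul hc hZ (norm_nonneg _) ((abs_nonneg c).trans hc)
  rw [e1]
  constructor
  · refine (opLe_iff (by positivity)).2 ?_
    refine (na (sm hw nG) (nm (ns (nm nN nX) nF) nG)).trans (le_of_eq ?_)
    ring
  · refine (opLe_iff (by positivity)).2 ?_
    have key : P * (w • (Nh * Γ * Nh) + (N0 * Xf - F) * (Nh * Γ * Nh) - w0 • A) * P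
        = w • (P * (Nh * Γ * Nh - A) * P) + (w - w0) • (P * A * P)
          + (P * N0 * Xf - P * F) * (Nh * Γ * Nh) * P := by
      simp only [mul_add, add_mul, mul_sub, sub_mul, smul_mul_assoc, mul_smul_comm, smul_sub,
        sub_smul, mul_assoc]
      abel
    rw [key]
    refine (na (na (sm hw nl) (sm hw0 (nm (nm nP nA) nP)))
      (nm (nm (ns (nm nPN nX) (nm nP nF)) nG) nP)).trans (le_of_eq ?_)
    ring

/-- restriction of a low block estimate to a smaller projection `Ps ≤ P`, removing the hats -/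
theorem unhat_low {P Ps Nh Ni G C : Mat n} {l e : ℝ} (hs : Psᵀ = Ps) (hPs : Ps * Ps = Ps)
    (h1 : Ni * Nh = 1) (h2 : Nh * Ni = 1) (hP1 : Ps * P = Ps) (hP2 : P * Ps = Ps)
    (hc : Ni * P = P * Ni) (hl : 0 ≤ l) (he : 0 ≤ e) (hNi : OpLe Ni l)
    (h : OpLe (P * (Nh * G * Nh - C) * P) e) :
    OpLe (Ps * G * Ps - Ps * (Ni * C * Ni) * Ps) (l ^ 2 * e) := by
  have e1 : Ps * G * Ps - Ps * (Ni * C * Ni) * Ps
      = Ps * (Ni * (P * (Nh * G * Nh - C) * P) * Ni) * Ps := by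
    have e2 : Ps * (Ni * (P * (Nh * G * Nh - C) * P) * Ni) * Ps
        = Ps * (Ni * P) * (Nh * G * Nh - C) * (P * Ni) * Ps := by simp only [mul_assoc]
    have e3 : Ps * (P * Ni) * (Nh * G * Nh - C) * (Ni * P) * Ps
        = (Ps * P) * (Ni * Nh) * G * (Nh * Ni) * (P * Ps)
          - (Ps * P) * (Ni * C * Ni) * (P * Ps) := by noncomm_ring
    rw [e2, hc]
    conv_rhs => rw [← hc]
    conv_rhs => enter [1, 1, 1, 2]; rw [hc]
    rw [e3, h1, h2, hP1, hP2, mul_one, mul_one]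
  have p1 := opLe_proj hs hPs
  rw [e1]
  refine (((p1.mulN ((hNi.mulN h hl he).mulN hNi (by positivity) hl) zero_le_one
    (by positivity)).mulN p1 (by positivity) zero_le_one)).monoN (by positivity) (le_of_eq ?_)
  ring

/-- removing the hats: `‖G‖ ≤ l ^ 2 B` from `‖Nh G Nh‖ ≤ B` -/
theorem unhat {Nh Ni G : Mat n} {l B : ℝ} (h1 : Ni * Nh = 1) (h2 : Nh * Ni = 1) (hl : 0 ≤ l)
    (hB : 0 ≤ B) (hNi : OpLe Ni l) (h : OpLe (Nh * G * Nh) B) : OpLe G (l ^ 2 * B) := by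
  have e1 : G = Ni * (Nh * G * Nh) * Ni := by
    have e2 : Ni * (Nh * G * Nh) * Ni = (Ni * Nh) * G * (Nh * Ni) := by simp only [mul_assoc]
    rw [e2, h1, h2, one_mul, mul_one]
  rw [e1]
  refine ((hNi.mulN h hl hB).mulN hNi (by positivity) hl).monoN (by positivity) (le_of_eq ?_)
  ring

end Vale.Agent.N150.Cube
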