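import Vale.Agent.N150.Cube2

/-! T1: the rank one matrices `w + c u uᵀ` (preconditioner in hat form and its block version). -/

open Matrix

namespace Vale.Agent.N150.Cube

open Vale.Agent.P150 Vale.Agent.P150.F

variable {n : ℕ}

/-- `w + c u uᵀ` -/
def R1 (w c : ℝ) (u : Vec n) : Mat n := w • (1 : Mat n) + c • vecMulVec u u

/-- its inverse -/
noncomputable def R1i (w c : ℝ) (u : Vec n) : Mat n :=
  w⁻¹ • ((1 : Mat n) - (c / (w + c * F.sq u)) • vecMulVec u u)

theorem vv_mul_vv (a b u v : Vec n) :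
    vecMulVec a b * vecMulVec u v = ip b u • vecMulVec a v := by
  ext i j
  simp only [Matrix.mul_apply, vecMulVec_apply, Matrix.smul_apply, smul_eq_mul, ip, Finset.sum_mul]
  exact Finset.sum_congr rfl fun k _ => by ring

theorem mul_vv (A : Mat n) (u v : Vec n) : A * vecMulVec u v = vecMulVec (A *ᵥ u) v := by
  ext i j
  simp only [Matrix.mul_apply, vecMulVec_apply, Matrix.mulVec, dotProduct, Finset.sum_mul]
  exact Finset.sum_congr rfl fun k _ => by ring

theorem vv_mul (A : Mat n) (u v : Vec n) : vecMulVec u v * A = vecMulVec u (Aᵀ *ᵥ v) := by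
  ext i j
  simp only [Matrix.mul_apply, vecMulVec_apply, Matrix.mulVec, dotProduct, Finset.mul_sum,
    Matrix.transpose_apply]
  exact Finset.sum_congr rfl fun k _ => by ring

theorem R1_mul_R1i {w c : ℝ} (hw : 0 < w) (hc : 0 ≤ c) (u : Vec n) :
    R1 w c u * R1i w c u = 1 := by
  have hq := sqN_nonneg u
  have hd : 0 < w + c * F.sq u := by positivity
  unfold R1 R1i
  simp only [mul_smul_comm, mul_sub, add_mul, smul_mul_assoc, mul_one, one_mul, vv_mul_vv,
    ipN_self, smul_smul, smul_add, smul_sub]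
  ext i j
  simp only [Matrix.add_apply, Matrix.sub_apply, Matrix.smul_apply, smul_eq_mul]
  field_simp
  ring

theorem R1_unit {w c : ℝ} (hw : 0 < w) (hc : 0 ≤ c) (u : Vec n) : IsUnit (R1 w c u).det :=
  Matrix.isUnit_det_of_right_inverse (R1_mul_R1i hw hc u)

theorem R1_inv {w c : ℝ} (hw : 0 < w) (hc : 0 ≤ c) (u : Vec n) : (R1 w c u)⁻¹ = R1i w c u :=
  Matrix.inv_eq_right_inv (R1_mul_R1i hw hc u)

theorem R1_symm (w c : ℝ) (u : Vec n) : (R1 w c u)ᵀ = R1 w c u := by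
  unfold R1
  rw [Matrix.transpose_add, Matrix.transpose_smul, Matrix.transpose_smul, Matrix.transpose_one,
    Matrix.transpose_vecMulVec]

theorem R1i_symm (w c : ℝ) (u : Vec n) : (R1i w c u)ᵀ = R1i w c u := by
  unfold R1i
  rw [Matrix.transpose_smul, Matrix.transpose_sub, Matrix.transpose_smul, Matrix.transpose_one,
    Matrix.transpose_vecMulVec]

theorem R1_low {w c : ℝ} (hc : 0 ≤ c) (u v : Vec n) :
    w * nv v ≤ nv (R1 w c u *ᵥ v) := by
  have h1 : ip v (R1 w c u *ᵥ v) = w * nv v ^ 2 + c * ip u v ^ 2 := by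
    unfold R1
    rw [Matrix.add_mulVec, Matrix.smul_mulVec, Matrix.smul_mulVec, Matrix.one_mulVec,
      vecMulVec_mulVec, ip_add_right, ip_smul_right, ip_smul_right, ip_smul_right, ipN_self,
      nv_sq, ipN_comm v u]
    ring
  have h2 := ip_le v (R1 w c u *ᵥ v)
  have h3 : 0 ≤ c * ip u v ^ 2 := by positivity
  have h4 := nv_nonneg v
  have h5 := nv_nonneg (R1 w c u *ᵥ v)
  rcases h4.eq_or_lt with h0 | h0
  · rw [← h0, mul_zero]; exact h5
  · have : nv v * (w * nv v) ≤ nv v * nv (R1 w c u *ᵥ v) := by nlinarith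
    exact le_of_mul_le_mul_left this h0

theorem opLe_R1i {w c : ℝ} (hw : 1 / 2 ≤ w) (hc : 0 ≤ c) (u : Vec n) : OpLe (R1i w c u) 2 := by
  have hw0 : 0 < w := by linarith
  refine opLe_of_nv fun v => ?_
  have h1 := R1_low (w := w) hc u (R1i w c u *ᵥ v)
  rw [Matrix.mulVec_mulVec, R1_mul_R1i hw0 hc, Matrix.one_mulVec] at h1
  have h2 := nv_nonneg (R1i w c u *ᵥ v)
  nlinarith

theorem R1i_comm {P : Mat n} (hs : Pᵀ = P) {u : Vec n} (hu : P *ᵥ u = u) (w c : ℝ) :
    R1i w c u * P = P * R1i w c u := by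
  unfold R1i
  simp only [smul_mul_assoc, mul_smul_comm, sub_mul, mul_sub, one_mul, mul_one, mul_vv, vv_mul, hs,
    hu]

theorem R1i_high {P : Mat n} {u : Vec n} (hu : P *ᵥ u = u) (w c : ℝ) :
    (1 - P) * R1i w c u = w⁻¹ • (1 - P) := by
  unfold R1i
  have h1 : (1 - P) * vecMulVec u u = 0 := by
    rw [mul_vv, Matrix.sub_mulVec, Matrix.one_mulVec, hu, sub_self]
    ext i j
    simp [vecMulVec_apply]
  rw [mul_smul_comm, mul_sub, mul_one, mul_smul_comm, h1, smul_zero, sub_zero]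

theorem opLe_vv_sub (u v : Vec n) :
    OpLe (vecMulVec u u - vecMulVec v v) ((nv u + nv v) * nv (u - v)) := by
  have e1 : vecMulVec u u - vecMulVec v v = vecMulVec u (u - v) + vecMulVec (u - v) v := by
    ext i j
    simp only [Matrix.sub_apply, Matrix.add_apply, vecMulVec_apply, Pi.sub_apply]
    ring
  have h1 := nv_nonneg u
  have h2 := nv_nonneg v
  have h3 := nv_nonneg (u - v)
  rw [e1]
  refine ((opLe_vecMulVec u (u - v)).add (opLe_vecMulVec (u - v) v) (by positivity)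
    (by positivity)).monoN (by positivity) (le_of_eq ?_)
  ring

theorem opLe_R1i_sub {w c : ℝ} (hw : 1 / 2 ≤ w) (hc : 0 ≤ c) (u v : Vec n) :
    OpLe (R1i w c u - R1i w c v) (4 * c * ((nv u + nv v) * nv (u - v))) := by
  have hw0 : 0 < w := by linarith
  have hu : R1i w c u * R1 w c u = 1 := by
    rw [← R1_inv hw0 hc]; exact Matrix.nonsing_inv_mul _ (R1_unit hw0 hc u)
  have e1 : R1i w c u - R1i w c v
      = -(R1i w c u * (c • (vecMulVec u u - vecMulVec v v)) * R1i w c v) := by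
    have e2 : c • (vecMulVec u u - vecMulVec v v) = R1 w c u - R1 w c v := by
      unfold R1
      rw [smul_sub]
      abel
    rw [e2, mul_sub, sub_mul, hu, mul_assoc, R1_mul_R1i hw0 hc, one_mul, mul_one, neg_sub]
  have h1 := nv_nonneg u
  have h2 := nv_nonneg v
  have h3 := nv_nonneg (u - v)
  rw [e1]
  refine (opLe_neg (((opLe_R1i hw hc u).mulN ((opLe_vv_sub u v).smul (by positivity) c)
    (by norm_num) (by positivity)).mulN (opLe_R1i hw hc v) (by positivity)
    (by norm_num))).monoN (by positivity) (le_of_eq ?_)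
  rw [abs_of_nonneg hc]
  ring

/-- hat form of the preconditioner `AA = w + c G h hᵀ` with `G = Ni Ni` -/
theorem hat_AA {Nh Ni : Mat n} (h2 : Nh * Ni = 1) (hs : Niᵀ = Ni) (w c : ℝ) (h : Vec n) :
    Nh * (w • (1 : Mat n) + c • vecMulVec ((Ni * Ni) *ᵥ h) h) * Ni = R1 w c (Ni *ᵥ h) := by
  unfold R1
  rw [mul_add, add_mul, mul_smul_comm, smul_mul_assoc, mul_one, h2, mul_smul_comm, smul_mul_assoc,
    mul_vv, vv_mul, hs, Matrix.mulVec_mulVec, ← mul_assoc, h2, one_mul]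

/-- the preconditioner is invertible and the hat form of its inverse is `R1i` -/
theorem hat_AA_inv {Nh Ni AA : Mat n} (h1 : Ni * Nh = 1) (h2 : Nh * Ni = 1) {w c : ℝ}
    (hw : 0 < w) (hc : 0 ≤ c) {u : Vec n} (hA : Nh * AA * Ni = R1 w c u) :
    IsUnit AA.det ∧ Nh * AA⁻¹ * Ni = R1i w c u := by
  have e1 : AA * (Ni * R1i w c u * Nh) = 1 := by
    have e2 : AA * (Ni * R1i w c u * Nh) = (Ni * Nh) * AA * Ni * R1i w c u * Nh := by
      rw [h1, one_mul]; simp only [mul_assoc]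
    have e3 : (Ni * Nh) * AA * Ni * R1i w c u * Nh = Ni * (Nh * AA * Ni * R1i w c u) * Nh := by
      simp only [mul_assoc]
    rw [e2, e3, hA, R1_mul_R1i hw hc, mul_one, h1]
  refine ⟨Matrix.isUnit_det_of_right_inverse e1, ?_⟩
  rw [Matrix.inv_eq_right_inv e1]
  have e4 : Nh * (Ni * R1i w c u * Nh) * Ni = (Nh * Ni) * R1i w c u * (Nh * Ni) := by
    simp only [mul_assoc]
  rw [e4, h2, one_mul, mul_one]

/-- all rank one facts needed by `StrM`, `form_of` and `resp`, with `A = R1i w c (P u)` -/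
theorem rank_one {P : Mat n} (hs : Pᵀ = P) (hP : P * P = P) {w c : ℝ} (hw : 1 / 2 ≤ w)
    (hc : 0 ≤ c) (u : Vec n) :
    R1i w c (P *ᵥ u) * P = P * R1i w c (P *ᵥ u) ∧
      (1 - P) * R1i w c (P *ᵥ u) = w⁻¹ • (1 - P) ∧ OpLe (R1i w c (P *ᵥ u)) 2 ∧
      OpLe (R1i w c u - R1i w c (P *ᵥ u)) (8 * c * (nv u * nv ((1 - P) *ᵥ u))) := by
  have hu : P *ᵥ (P *ᵥ u) = P *ᵥ u := by rw [Matrix.mulVec_mulVec, hP]
  refine ⟨R1i_comm hs hu w c, R1i_high hu w c, opLe_R1i hw hc _, ?_⟩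
  have h1 := nv_nonneg u
  have h2 := nv_nonneg (P *ᵥ u)
  have h3 := nv_nonneg (u - P *ᵥ u)
  have h4 : nv (P *ᵥ u) ≤ nv u := by simpa using (opLe_proj hs hP).nv_le zero_le_one u
  refine (opLe_R1i_sub hw hc u (P *ᵥ u)).monoN (by positivity) ?_
  rw [Matrix.sub_mulVec, Matrix.one_mulVec]
  have h5 := mul_le_mul_of_nonneg_right h4 h3
  have h6 := mul_le_mul_of_nonneg_left h5 hc
  nlinarith

/-- clipped case: on a subspace where `Ni` acts as the scalar `r` and which contains `u` -/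
theorem flat_block {Ps Ni : Mat n} {r w c : ℝ} {u : Vec n} (hs : Psᵀ = Ps) (hPs : Ps * Ps = Ps)
    (hw : 0 < w) (hl : Ps * Ni = r • Ps) (hr : Ni * Ps = r • Ps) (hu : Ps *ᵥ u = u) :
    Ps * (Ni * (w • R1i w c u) * Ni) * Ps
      = r ^ 2 • (Ps - (c / (w + c * F.sq u)) • vecMulVec u u) := by
  have e1 : Ps * (Ni * (w • R1i w c u) * Ni) * Ps = (Ps * Ni) * (w • R1i w c u) * (Ni * Ps) := by
    simp only [mul_assoc]
  rw [e1, hl, hr]
  unfold R1i
  rw [smul_smul, mul_inv_cancel₀ hw.ne', one_smul]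
  simp only [smul_mul_assoc, mul_smul_comm, mul_sub, sub_mul, mul_one, hPs, mul_vv, vv_mul, hs, hu,
    smul_smul, smul_sub]
  congr 1 <;> congr 1 <;> ring

end Vale.Agent.N150.Cube
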