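import Vale.Agent.N150.Cube3

/-! T1, block D6 in packaged form: the structure predicate, the perturbation lemma and the
decomposition of the exact increment matrices give the orbit, closeness and response bounds. -/

open Matrix

namespace Vale.Agent.N150.Cube

open Vale.Agent.P150 Vale.Agent.P150.F

variable {n : ℕ}

/-- indicator matrix of a set of sites -/
def ind (A : Finset (Fin n)) : Mat n := diagonal fun i => if i ∈ A then 1 else 0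

theorem ind_sandwich {A : Finset (Fin n)} {s : Vec n} (hs : ∀ i, i ∉ A → s i = 0) :
    ind A * diagonal s * (ind A)ᵀ = diagonal s := by
  unfold ind
  rw [Matrix.diagonal_transpose, Matrix.diagonal_mul_diagonal, Matrix.diagonal_mul_diagonal]
  congr 1
  funext i
  by_cases hi : i ∈ A
  · simp [hi]
  · simp [hi, hs i hi]

theorem opLe_diag {s : Vec n} {c : ℝ} (hc : 0 ≤ c) (hs : ∀ i, |s i| ≤ c) :
    OpLe (diagonal s : Mat n) c := by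
  refine opLe_of_nv fun v => nv_le_mul hc fun i => ?_
  rw [Matrix.mulVec_diagonal, abs_mul]
  exact mul_le_mul_of_nonneg_right (hs i) (abs_nonneg _)

/-- the hat form of `M - AA` is `Y X + Kd X + E` with `X = Ni V Ni` and `Kd`, `E` small -/
def Dec (Nh Ni Y AA V : Mat n) (ε : ℝ) (M : Mat n) : Prop :=
  ∃ Kd E : Mat n, OpLe Kd ε ∧ OpLe E ε ∧
    Nh * (M - AA) * Ni = Y * (Ni * V * Ni) + Kd * (Ni * V * Ni) + E

theorem dec_of {Nh Ni M AA K0 Kt V E : Mat n} {ε : ℝ} (h2 : Nh * Ni = 1)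
    (hM : M - AA = K0 * V + (Kt - K0) * V + E) (hK : OpLe (Nh * (Kt - K0) * Nh) ε)
    (hE : OpLe (Nh * E * Ni) ε) : Dec Nh Ni (Nh * K0 * Nh) AA V ε M := by
  refine ⟨_, _, hK, hE, ?_⟩
  have e1 : Nh * K0 * Nh * (Ni * V * Ni) + Nh * (Kt - K0) * Nh * (Ni * V * Ni) + Nh * E * Ni
      = Nh * K0 * (Nh * Ni) * V * Ni + Nh * (Kt - K0) * (Nh * Ni) * V * Ni + Nh * E * Ni := by
    simp only [mul_assoc]
  rw [e1, h2, hM]
  noncomm_ring

/-- hat form of the Picard linearisation -/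
noncomputable def Th (Nh Ni AA M : Mat n) : Mat n := Nh * (-(AA⁻¹ * (M - AA))) * Ni

/-- everything that D6 uses, on a set `S` of fields -/
structure Ctx (Nh Ni P Y A AA VV : Mat n) (VW : Vec n → Vec n → Mat n)
    (Ex : Vec n → Finset (Fin n)) (S : Set (Vec n)) (a B η ε κ K e : ℝ) : Prop where
  h1 : Ni * Nh = 1
  h2 : Nh * Ni = 1
  sNi : Niᵀ = Ni
  uAA : IsUnit AA.det
  str : ∀ T : Finset (Fin n), (T.card : ℝ) ≤ κ → StrM P Y A (Ni * VV * Ni) (Ni * ind T) a B η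
  card : ∀ h ∈ S, 4 * ((Ex h).card : ℝ) ≤ κ
  d4 : ∀ h ∈ S, ∀ h' ∈ S, ∃ s : Vec n, (∀ i, |s i| ≤ 1) ∧ (∀ i, i ∉ Ex h → i ∉ Ex h' → s i = 0) ∧
    OpLe (Ni * (VW h h' - VV - diagonal s) * Ni) η
  ε0 : 0 ≤ ε
  nAi : OpLe (Nh * AA⁻¹ * Ni - A) ε
  K16 : 16 ≤ K
  BK : B ≤ K
  he : 16 * η + 102 * K ^ 2 * ε ≤ e
  small : 2000 * K ^ 8 * e ≤ 1

namespace Ctx

variable {Nh Ni P Y A AA VV : Mat n} {VW : Vec n → Vec n → Mat n} {Ex : Vec n → Finset (Fin n)}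
  {S : Set (Vec n)} {a B η ε κ K e : ℝ} (c : Ctx Nh Ni P Y A AA VV VW Ex S a B η ε κ K e)
include c

theorem K1 : 1 ≤ K := by linarith [c.K16]

theorem card4 {x y z u : Vec n} (hx : x ∈ S) (hy : y ∈ S) (hz : z ∈ S) (hu : u ∈ S) :
    ((Ex x ∪ Ex y ∪ Ex z ∪ Ex u).card : ℝ) ≤ κ := by
  have h1 : (Ex x ∪ Ex y ∪ Ex z ∪ Ex u).card
      ≤ (Ex x).card + (Ex y).card + (Ex z).card + (Ex u).card :=
    (Finset.card_union_le _ _).trans (Nat.add_le_add_right ((Finset.card_union_le _ _).trans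
      (Nat.add_le_add_right (Finset.card_union_le _ _) _)) _)
  have h2 : ((Ex x ∪ Ex y ∪ Ex z ∪ Ex u).card : ℝ)
      ≤ (Ex x).card + (Ex y).card + (Ex z).card + (Ex u).card := by exact_mod_cast h1
  linarith [c.card x hx, c.card y hy, c.card z hz, c.card u hu]

theorem e_bounds {T : Finset (Fin n)} (hT : (T.card : ℝ) ≤ κ) :
    0 ≤ η ∧ 2 * η ≤ e ∧ e ≤ 1 ∧ ε ≤ 1 ∧ η ≤ K ^ 2 := by
  have hη := (c.str T hT).η0
  have hε := c.ε0
  have hK2 : 1 ≤ K ^ 2 := one_le_pow₀ c.K1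
  have hK8 : 1 ≤ K ^ 8 := one_le_pow₀ c.K1
  have h1 : ε ≤ K ^ 2 * ε := le_mul_of_one_le_left hε hK2
  have h2 := c.he
  have h3 : 0 ≤ e := by nlinarith
  have h4 : e ≤ K ^ 8 * e := le_mul_of_one_le_left h3 hK8
  have h5 := c.small
  refine ⟨hη, by nlinarith, by linarith, by nlinarith, by nlinarith⟩

theorem blk {T : Finset (Fin n)} (hT : (T.card : ℝ) ≤ κ) :
    BlkM P (A * Y) (Ni * VV * Ni) (Ni * ind T) (Ni * ind T)ᵀ K e :=
  (c.str T hT).blk c.K16 c.BK (c.e_bounds hT).2.1 (c.e_bounds hT).2.2.1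

theorem split {T : Finset (Fin n)} {h h' : Vec n} (hh : h ∈ S) (hh' : h' ∈ S) (h1 : Ex h ⊆ T)
    (h2 : Ex h' ⊆ T) : ∃ D Xs : Mat n, OpLe D 1 ∧ OpLe Xs η ∧
      Ni * VW h h' * Ni = Ni * VV * Ni + Ni * ind T * D * (Ni * ind T)ᵀ + Xs := by
  obtain ⟨s, hs, hs0, hX⟩ := c.d4 h hh h' hh'
  refine ⟨diagonal s, _, opLe_diag zero_le_one hs, hX, ?_⟩
  have e1 : Ni * ind T * diagonal s * (Ni * ind T)ᵀ = Ni * diagonal s * Ni := by
    rw [Matrix.transpose_mul, c.sNi]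
    have : Ni * ind T * diagonal s * ((ind T)ᵀ * Ni) = Ni * (ind T * diagonal s * (ind T)ᵀ) * Ni := by
      simp only [mul_assoc]
    rw [this, ind_sandwich fun i hi => hs0 i (fun h3 => hi (h1 h3)) fun h3 => hi (h2 h3)]
  rw [e1]
  noncomm_ring

theorem form {T : Finset (Fin n)} (hT : (T.card : ℝ) ≤ κ) {h h' : Vec n} (hh : h ∈ S)
    (hh' : h' ∈ S) (h1 : Ex h ⊆ T) (h2 : Ex h' ⊆ T) {M : Mat n}
    (hM : Dec Nh Ni Y AA (VW h h') ε M) :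
    FormM (A * Y) (Ni * VV * Ni) (Ni * ind T) (Ni * ind T)ᵀ e (Th Nh Ni AA M) := by
  obtain ⟨D, Xs, hD, hXs, e1⟩ := c.split hh hh' h1 h2
  obtain ⟨Kd, E, hKd, hE, e2⟩ := hM
  have e3 : Th Nh Ni AA M = -((Nh * AA⁻¹ * Ni) * (Nh * (M - AA) * Ni)) := by
    have : (Nh * AA⁻¹ * Ni) * (Nh * (M - AA) * Ni) = Nh * AA⁻¹ * (Ni * Nh) * (M - AA) * Ni := by
      simp only [mul_assoc]
    unfold Th
    rw [this, c.h1]
    noncomm_ring
  rw [e3, e2, e1]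
  exact (c.blk hT).form_of (c.str T hT).η0 c.ε0 hD (c.str T hT).nA (c.str T hT).nY hXs c.nAi hKd
    hE c.he

/-- `‖Ni VW Ni‖ ≤ 9 K ^ 2` -/
theorem X_le {h h' : Vec n} (hh : h ∈ S) (hh' : h' ∈ S) :
    OpLe (Ni * VW h h' * Ni) (9 * K ^ 2) := by
  have hT := c.card4 hh hh' hh hh'
  obtain ⟨D, Xs, hD, hXs, e1⟩ := c.split (T := Ex h ∪ Ex h' ∪ Ex h ∪ Ex h') hh hh'
    (fun i hi => by simp [hi]) (fun i hi => by simp [hi])
  obtain ⟨h1, -, -, -, h2⟩ := c.e_bounds hT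
  rw [e1]
  exact (((c.blk hT).n_main hD).add hXs (by positivity) h1).monoN (by positivity) (by linarith)

theorem T_le {h h' : Vec n} (hh : h ∈ S) (hh' : h' ∈ S) {M : Mat n}
    (hM : Dec Nh Ni Y AA (VW h h') ε M) : OpLe (Th Nh Ni AA M) (9 * K ^ 3) := by
  have hT := c.card4 hh hh' hh hh'
  exact (c.blk hT).norm_le
    (c.form hT hh hh' (fun i hi => by simp [hi]) (fun i hi => by simp [hi]) hM)

theorem T3_le {x y z u : Vec n} (hx : x ∈ S) (hy : y ∈ S) (hz : z ∈ S) (hu : u ∈ S)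
    {M M' M'' : Mat n} (hM : Dec Nh Ni Y AA (VW x y) ε M) (hM' : Dec Nh Ni Y AA (VW y z) ε M')
    (hM'' : Dec Nh Ni Y AA (VW z u) ε M'') :
    OpLe (Th Nh Ni AA M * Th Nh Ni AA M' * Th Nh Ni AA M'') (1000 * K ^ 8 * e) := by
  have hT := c.card4 hx hy hz hu
  exact (c.blk hT).cube_le
    (c.form hT hx hy (fun i hi => by simp [hi]) (fun i hi => by simp [hi]) hM)
    (c.form hT hy hz (fun i hi => by simp [hi]) (fun i hi => by simp [hi]) hM')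
    (c.form hT hz hu (fun i hi => by simp [hi]) (fun i hi => by simp [hi]) hM'')

/-- D6 (c), (d) -/
theorem resp {h h' : Vec n} (hh : h ∈ S) (hh' : h' ∈ S) {M G L : Mat n}
    (hM : Dec Nh Ni Y AA (VW h h') ε M) :
    IsUnit M.det ∧ OpLe (Nh * M⁻¹ * Ni) (1458 * K ^ 6) ∧
      (G * L = M → OpLe (Nh * G * Nh - 1) ε →
        IsUnit L.det ∧ OpLe (Nh * L⁻¹ * Nh) (2916 * K ^ 6) ∧
          OpLe (P * (Nh * L⁻¹ * Nh - A) * P) (1000000 * K ^ 14 * e + 1944 * K ^ 6 * ε)) := by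
  have hT := c.card4 hh hh' hh hh'
  exact (c.blk hT).resp c.small c.ε0 (c.e_bounds hT).2.2.2.1 c.h1 c.h2 c.uAA
    (c.form hT hh hh' (fun i hi => by simp [hi]) (fun i hi => by simp [hi]) hM)
    (c.str _ hT).AP (c.str _ hT).nA c.nAi

/-- D6 (c): closeness in the norm of `Nh` -/
theorem close {h h' : Vec n} (hh : h ∈ S) (hh' : h' ∈ S) {M : Mat n}
    (hM : Dec Nh Ni Y AA (VW h h') ε M) (u : Vec n) :
    nv (Nh *ᵥ u) ≤ 1458 * K ^ 6 * nv (Nh *ᵥ (M *ᵥ u)) := by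
  obtain ⟨hu, hb, -⟩ := c.resp (G := 1) (L := 1) hh hh' hM
  have e1 : Nh *ᵥ u = (Nh * M⁻¹ * Ni) *ᵥ (Nh *ᵥ (M *ᵥ u)) := by
    rw [Matrix.mulVec_mulVec, Matrix.mulVec_mulVec]
    have : Nh * M⁻¹ * Ni * Nh * M = Nh * (M⁻¹ * (Ni * Nh) * M) := by simp only [mul_assoc]
    rw [this, c.h1, mul_one, Matrix.nonsing_inv_mul _ hu, mul_one]
  have hK := c.K1
  conv_lhs => rw [e1]
  exact hb.nv_le (by positivity) _

/-- D6 (d) for `G = (w + V) Γ` -/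
theorem gm {h : Vec n} (hh : h ∈ S) {M G L V N0 F : Mat n} {w w0 bN σ : ℝ}
    (hM : Dec Nh Ni Y AA (VW h h) ε M) (hL : G * L = M) (hG : OpLe (Nh * G * Nh - 1) ε)
    (hbN : 0 ≤ bN) (hσ : 0 ≤ σ) (hw : |w| ≤ 1) (hw0 : |w - w0| ≤ ε)
    (hV : Nh * V * Ni = N0 * (Ni * VW h h * Ni) - F) (hF : OpLe F ε) (hN : OpLe N0 bN)
    (hPN : OpLe (P * N0) σ) :
    OpLe (Nh * ((w • (1 : Mat n) + V) * L⁻¹) * Nh) ((2 + 9 * bN * K ^ 2) * (2916 * K ^ 6)) ∧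
      OpLe (P * (Nh * ((w • (1 : Mat n) + V) * L⁻¹) * Nh - w0 • A) * P)
        (1000000 * K ^ 14 * e + 5000 * K ^ 6 * ε + 26244 * K ^ 8 * σ) := by
  have hT := c.card4 hh hh hh hh
  obtain ⟨-, -, h3⟩ := c.resp (G := G) (L := L) hh hh hM
  obtain ⟨-, h4, h5⟩ := h3 hL hG
  obtain ⟨hη, he, -, hε1, -⟩ := c.e_bounds hT
  have hK := c.K1
  have hε := c.ε0
  have he0 : 0 ≤ e := by linarith
  obtain ⟨r1, r2⟩ := gm_bound (c.str _ hT).symm (c.str _ hT).idem c.h1 (by positivity)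
    (by positivity) hbN hσ (by positivity) hε hw hw0 (c.str _ hT).nA h4 h5 hV (c.X_le hh hh) hF hN
    hPN
  have hK6 : 1 ≤ K ^ 6 := one_le_pow₀ hK
  refine ⟨r1.monoN (by positivity) ?_, r2.monoN (by positivity) ?_⟩
  · exact mul_le_mul_of_nonneg_right (by linarith) (by positivity)
  · have h6 : ε ≤ K ^ 6 * ε := le_mul_of_one_le_left hε hK6
    nlinarith

/-- D6 (b): the Picard orbit of a centre `z` -/
theorem orbit {Ψ : Vec n → Vec n} {M : Vec n → Vec n → Mat n} {z : Vec n} {r : ℝ}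
    (hΨ : ∀ h ∈ S, ∀ h' ∈ S, Ψ h - Ψ h' = M h h' *ᵥ (h - h'))
    (hM : ∀ h ∈ S, ∀ h' ∈ S, Dec Nh Ni Y AA (VW h h') ε (M h h'))
    (hr : nv (Nh *ᵥ (AA⁻¹ *ᵥ Ψ z)) ≤ r)
    (hS : ∀ h, nv (Nh *ᵥ (h - z)) ≤ 486 * K ^ 6 * r → h ∈ S) (j : ℕ) :
    nv (Nh *ᵥ ((fun h => h - AA⁻¹ *ᵥ Ψ h)^[j] z - z)) ≤ 486 * K ^ 6 * r ∧
      nv (Nh *ᵥ (AA⁻¹ *ᵥ Ψ ((fun h => h - AA⁻¹ *ᵥ Ψ h)^[j] z)))
        ≤ 81 * K ^ 6 * (1000 * K ^ 8 * e) ^ (j / 3) * r := by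
  have hK := c.K1
  have hr0 : 0 ≤ r := (nv_nonneg _).trans hr
  have hz : z ∈ S := hS z (by rw [sub_self, Matrix.mulVec_zero, nv_zero]; positivity)
  obtain ⟨hη, he, -, -, -⟩ := c.e_bounds (c.card4 hz hz hz hz)
  have he0 : 0 ≤ e := by linarith
  have hB : 1 ≤ 9 * K ^ 3 := by have := one_le_pow₀ (n := 3) hK; linarith
  have key := Cube.orbit (Φ := fun h => h - AA⁻¹ *ᵥ Ψ h) (Q := Nh) (c := z) (S := S)
    (B := 9 * K ^ 3) (η := 1000 * K ^ 8 * e) (r := r) (T := fun h h' => Th Nh Ni AA (M h h')) hB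
    (by positivity) (by linarith [c.small])
    (by rw [sub_sub_cancel_left, Matrix.mulVec_neg, nv_neg]; exact hr)
    (fun h hh => hS h (hh.trans (le_of_eq (by ring)))) ?_
    (fun h hh h' hh' => c.T_le hh hh' (hM h hh h' hh'))
    (fun x hx y hy u hu v hv => c.T3_le hx hy hu hv (hM x hx y hy) (hM y hy u hu) (hM u hu v hv)) j
  · refine ⟨key.1.trans (le_of_eq (by ring)), ?_⟩
    have h2 := key.2
    rw [Function.iterate_succ_apply', sub_sub_cancel_left, Matrix.mulVec_neg, nv_neg] at h2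
    exact h2.trans (le_of_eq (by ring))
  · intro h hh h' hh'
    have e1 : h - AA⁻¹ *ᵥ Ψ h - (h' - AA⁻¹ *ᵥ Ψ h') = (-(AA⁻¹ * (M h h' - AA))) *ᵥ (h - h') := by
      have e2 : h - AA⁻¹ *ᵥ Ψ h - (h' - AA⁻¹ *ᵥ Ψ h') = (h - h') - AA⁻¹ *ᵥ (Ψ h - Ψ h') := by
        rw [Matrix.mulVec_sub]; abel
      rw [e2, hΨ h hh h' hh', mul_sub, Matrix.nonsing_inv_mul _ c.uAA, neg_sub, Matrix.sub_mulVec,
        Matrix.one_mulVec, Matrix.mulVec_mulVec]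
    have e3 : Th Nh Ni AA (M h h') * Nh = Nh * (-(AA⁻¹ * (M h h' - AA))) := by
      unfold Th
      rw [mul_assoc, c.h1, mul_one]
    rw [e1, Matrix.mulVec_mulVec, Matrix.mulVec_mulVec, e3]

end Ctx

/-- the exceptional set of a field with respect to a centre -/
noncomputable def exc (hc : Vec n) (θ : ℝ) (h : Vec n) : Finset (Fin n) :=
  Finset.univ.filter fun i => θ < |h i - hc i|

theorem card_exc {hc h : Vec n} {θ r : ℝ} (hθ : 0 < θ) (hr : nv (h - hc) ≤ r) :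
    ((exc hc θ h).card : ℝ) ≤ r ^ 2 / θ ^ 2 := by
  rw [le_div_iff₀ (by positivity)]
  refine le_trans ?_ (sq_le_of_nv_le hr)
  calc ((exc hc θ h).card : ℝ) * θ ^ 2 = ∑ _i ∈ exc hc θ h, θ ^ 2 := by simp
    _ ≤ ∑ i ∈ exc hc θ h, (h - hc) i ^ 2 := Finset.sum_le_sum fun i hi => by
        have h1 : θ < |h i - hc i| := (Finset.mem_filter.1 hi).2
        rw [Pi.sub_apply, ← sq_abs (h i - hc i)]
        exact pow_le_pow_left₀ hθ.le h1.le 2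
    _ ≤ F.sq (h - hc) := Finset.sum_le_sum_of_subset_of_nonneg (Finset.subset_univ _)
        fun i _ _ => sq_nonneg _

end Vale.Agent.N150.Cube
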