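import Vale.Agent.N150.ECDef
import Vale.Agent.N150.Rip

/-! T1, block D4: the linearisation `VW (h, h')` near a reference point `c` is `VW (c, c)` plus a
diagonal matrix on few sites plus a matrix which is small after conjugation. -/

open Matrix Finset

namespace Vale.Agent.N150.D4

open Vale.Agent.P150 Vale.Agent.P150.F Vale.Agent.N150.EC Vale.Agent.N150.Rip

variable {n : ℕ}

/-! ### one site -/

theorem tanh_der (x : ℝ) : HasDerivAt Real.tanh (1 - Real.tanh x ^ 2) x := by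
  have hc : Real.cosh x ≠ 0 := (Real.cosh_pos x).ne'
  have h := (Real.hasDerivAt_sinh x).div (Real.hasDerivAt_cosh x) hc
  have e : (fun y => Real.sinh y / Real.cosh y) = Real.tanh := by
    funext y
    rw [Real.tanh_eq_sinh_div_cosh]
  have e2 : (Real.cosh x * Real.cosh x - Real.sinh x * Real.sinh x) / Real.cosh x ^ 2 =
      1 - Real.tanh x ^ 2 := by
    rw [Real.tanh_eq_sinh_div_cosh]
    field_simp
  have h' : HasDerivAt (fun y => Real.sinh y / Real.cosh y)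
      ((Real.cosh x * Real.cosh x - Real.sinh x * Real.sinh x) / Real.cosh x ^ 2) x := h
  rwa [e, e2] at h'

/-- `d` is a value of the derivative of `tanh` between `a` and `b` -/
def Btw (a b d : ℝ) : Prop := ∃ ξ ∈ Set.uIcc a b, d = 1 - Real.tanh ξ ^ 2

theorem btw_self (a : ℝ) : Btw a a (1 - Real.tanh a ^ 2) := ⟨a, Set.left_mem_uIcc, rfl⟩

theorem Btw.symm {a b d : ℝ} (h : Btw a b d) : Btw b a d := by
  obtain ⟨ξ, h1, h2⟩ := h
  exact ⟨ξ, Set.uIcc_comm a b ▸ h1, h2⟩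

theorem btw_slope {a b : ℝ} (hab : a ≠ b) :
    Btw a b ((Real.tanh a - Real.tanh b) / (a - b)) := by
  have key : ∀ a b : ℝ, a < b → Btw a b ((Real.tanh b - Real.tanh a) / (b - a)) := by
    intro a b h
    obtain ⟨ξ, h1, h2⟩ := exists_hasDerivAt_eq_slope Real.tanh (fun x => 1 - Real.tanh x ^ 2) h
      (fun x _ => (tanh_der x).continuousAt.continuousWithinAt) (fun x _ => tanh_der x)
    exact ⟨ξ, Set.Icc_subset_uIcc (Set.Ioo_subset_Icc_self h1), h2.symm⟩
  rcases lt_or_gt_of_ne hab with h | h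
  · have := key a b h
    rwa [← neg_sub (Real.tanh a), ← neg_sub a, neg_div_neg_eq] at this
  · exact (key b a h).symm

theorem Btw.nonneg {a b d : ℝ} (h : Btw a b d) : 0 ≤ d := by
  obtain ⟨ξ, -, rfl⟩ := h
  linarith [Real.tanh_sq_lt_one ξ]

theorem Btw.le_one {a b d : ℝ} (h : Btw a b d) : d ≤ 1 := by
  obtain ⟨ξ, -, rfl⟩ := h
  linarith [sq_nonneg (Real.tanh ξ)]

theorem tanh_lip (a b : ℝ) : |Real.tanh a - Real.tanh b| ≤ |a - b| := by
  rcases eq_or_ne a b with rfl | hab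
  · simp
  have h := btw_slope hab
  have e : Real.tanh a - Real.tanh b = (Real.tanh a - Real.tanh b) / (a - b) * (a - b) :=
    (div_mul_cancel₀ _ (sub_ne_zero.2 hab)).symm
  rw [e, abs_mul, abs_of_nonneg h.nonneg]
  exact mul_le_of_le_one_left (abs_nonneg _) h.le_one

theorem abs_tanh_le (a : ℝ) : |Real.tanh a| ≤ |a| := by
  simpa using tanh_lip a 0

theorem Btw.close {a b d c δ : ℝ} (h : Btw a b d) (ha : |a - c| ≤ δ) (hb : |b - c| ≤ δ) :
    |d - (1 - Real.tanh c ^ 2)| ≤ δ * (2 * |c| + δ) ∧ |d - (1 - Real.tanh c ^ 2)| ≤ 2 * δ := by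
  obtain ⟨ξ, h1, rfl⟩ := h
  have h2 : |ξ - c| ≤ δ := by
    rw [abs_le] at ha hb ⊢
    rcases Set.mem_uIcc.1 h1 with h | h <;> constructor <;> linarith [h.1, h.2, ha.1, ha.2]
  have h3 := (tanh_lip ξ c).trans h2
  have h0 : 0 ≤ δ := (abs_nonneg _).trans ha
  have e : 1 - Real.tanh ξ ^ 2 - (1 - Real.tanh c ^ 2) =
      -((Real.tanh ξ - Real.tanh c) * (Real.tanh ξ + Real.tanh c)) := by ring
  rw [e, abs_neg, abs_mul]
  have h4 := abs_tanh_le c
  constructor
  · refine mul_le_mul h3 ?_ (abs_nonneg _) h0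
    have h5 := abs_add_le (Real.tanh ξ - Real.tanh c) (2 * Real.tanh c)
    rw [abs_mul, abs_two, show Real.tanh ξ - Real.tanh c + 2 * Real.tanh c
      = Real.tanh ξ + Real.tanh c by ring] at h5
    linarith
  · rw [mul_comm 2 δ]
    refine mul_le_mul h3 ?_ (abs_nonneg _) h0
    have h5 := abs_add_le (Real.tanh ξ) (Real.tanh c)
    linarith [Real.abs_tanh_lt_one ξ, Real.abs_tanh_lt_one c]

theorem Btw.abs_sub_le_one {a b d : ℝ} (h : Btw a b d) (c : ℝ) :
    |d - (1 - Real.tanh c ^ 2)| ≤ 1 := by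
  have h1 := h.nonneg
  have h2 := h.le_one
  have h3 := Real.tanh_sq_lt_one c
  have h4 := sq_nonneg (Real.tanh c)
  rw [abs_le]
  constructor <;> linarith

/-! ### vectors -/

/-- `D` is a vector of divided differences of `tanh` between `h` and `h'` -/
def IsDD (h h' D : Vec n) : Prop := ∀ i, Btw (h i) (h' i) (D i)

theorem isDD_self (h : Vec n) : IsDD h h (dv h) := fun i => btw_self (h i)

/-- `μ = (m + m') D / 2` -/
noncomputable def mud (h h' D : Vec n) : Vec n := fun i => (tm h i + tm h' i) * D i / 2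

/-- `VW = D - w + (2 / (n w')) m' μᵀ` with the divided differences `D` as data -/
noncomputable def VWd (h h' D : Vec n) : Mat n :=
  diagonal D - wb h • (1 : Mat n) + (2 / (n * wb h')) • vecMulVec (tm h') (mud h h' D)

/-- the scalar and rank one part of `VW (h, h') - VW (c, c)` -/
noncomputable def Rd (h h' D c : Vec n) : Mat n :=
  VWd h h' D - VWd c c (dv c) - diagonal (D - dv c)

/-- sitewise distance of the pair `h, h'` to `c` -/
noncomputable def del (h h' c : Vec n) : Vec n := fun i => max |h i - c i| |h' i - c i|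

theorem del_nonneg (h h' c : Vec n) (i : Fin n) : 0 ≤ del h h' c i :=
  (abs_nonneg _).trans (le_max_left _ _)

theorem nv_abs (v : Vec n) : nv (fun i => |v i|) = nv v :=
  le_antisymm (nv_mono fun i => by rw [abs_abs]) (nv_mono fun i => by rw [abs_abs])

theorem nv_del {h h' c : Vec n} {ρ : ℝ} (hh : nv (h - c) ≤ ρ) (hh' : nv (h' - c) ≤ ρ) :
    nv (del h h' c) ≤ 2 * ρ := by
  have h1 : nv (del h h' c) ≤ nv ((fun i => |(h - c) i|) + fun i => |(h' - c) i|) := by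
    refine nv_mono fun i => ?_
    rw [abs_of_nonneg (del_nonneg h h' c i)]
    refine le_trans ?_ (le_abs_self _)
    exact max_le (le_add_of_nonneg_right (abs_nonneg _)) (le_add_of_nonneg_left (abs_nonneg _))
  have h2 := nv_add_le (fun i => |(h - c) i|) fun i => |(h' - c) i|
  rw [nv_abs, nv_abs] at h2
  linarith

theorem IsDD.close {h h' D : Vec n} (hD : IsDD h h' D) (c : Vec n) (i : Fin n) :
    |(D - dv c) i| ≤ del h h' c i * (2 * |c i| + del h h' c i) :=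
  ((hD i).close (le_max_left _ _) (le_max_right _ _)).1

theorem IsDD.close' {h h' D : Vec n} (hD : IsDD h h' D) (c : Vec n) (i : Fin n) :
    |(D - dv c) i| ≤ 2 * del h h' c i :=
  ((hD i).close (le_max_left _ _) (le_max_right _ _)).2

theorem IsDD.le_one {h h' D : Vec n} (hD : IsDD h h' D) (c : Vec n) (i : Fin n) :
    |(D - dv c) i| ≤ 1 := (hD i).abs_sub_le_one (c i)

/-- the `ℓ¹` norm of the change of the diagonal -/
theorem IsDD.sum_abs {h h' D c : Vec n} (hD : IsDD h h' D) {ρ a : ℝ} (hh : nv (h - c) ≤ ρ)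
    (hh' : nv (h' - c) ≤ ρ) (ha : nv c ≤ a) : ∑ i, |(D - dv c) i| ≤ 4 * ρ * (a + ρ) := by
  have h1 := nv_del hh hh'
  have h0 := nv_nonneg (del h h' c)
  have h2 : ∑ i, |(D - dv c) i| ≤ 2 * ip (del h h' c) (fun i => |c i|) + F.sq (del h h' c) := by
    unfold ip F.sq
    rw [Finset.mul_sum, ← Finset.sum_add_distrib]
    exact Finset.sum_le_sum fun i _ => (hD.close c i).trans (le_of_eq (by ring))
  have h3 := ip_le (del h h' c) fun i => |c i|
  rw [nv_abs] at h3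
  have h4 : nv (del h h' c) * nv c ≤ 2 * ρ * a :=
    mul_le_mul h1 ha (nv_nonneg c) (h0.trans h1)
  have h5 : F.sq (del h h' c) ≤ (2 * ρ) ^ 2 := by
    rw [← nv_sq]
    exact pow_le_pow_left₀ h0 h1 2
  nlinarith

theorem wb_close {h c : Vec n} {ρ a : ℝ} (hh : nv (h - c) ≤ ρ) (ha : nv c ≤ a) :
    |wb h - wb c| ≤ 4 * ρ * (a + ρ) / n := by
  have h1 := (isDD_self h).sum_abs hh hh ha
  unfold wb
  rw [← sub_div, abs_div, Nat.abs_cast, ← Finset.sum_sub_distrib]
  exact div_le_div_of_nonneg_right ((Finset.abs_sum_le_sum_abs _ _).trans h1) (Nat.cast_nonneg n)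

theorem nv_tm_sub (h c : Vec n) : nv (tm h - tm c) ≤ nv (h - c) :=
  nv_mono fun i => tanh_lip (h i) (c i)

theorem nv_tm (h : Vec n) : nv (tm h) ≤ nv h := nv_mono fun i => abs_tanh_le (h i)

theorem nv_tm_sqrt (h : Vec n) : nv (tm h) ≤ √n :=
  nv_le_sqrt_n fun i => (Real.abs_tanh_lt_one (h i)).le

theorem IsDD.abs_mud {h h' D : Vec n} (hD : IsDD h h' D) (i : Fin n) :
    |mud h h' D i| ≤ |((1 / 2 : ℝ) • (tm h + tm h')) i| := by
  have e : mud h h' D i = ((1 / 2 : ℝ) • (tm h + tm h')) i * D i := by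
    simp only [mud, Pi.smul_apply, Pi.add_apply, smul_eq_mul]
    ring
  rw [e, abs_mul, abs_of_nonneg (hD i).nonneg]
  exact mul_le_of_le_one_right (abs_nonneg _) (hD i).le_one

theorem IsDD.nv_mud {h h' D : Vec n} (hD : IsDD h h' D) {b : ℝ} (hb : nv (tm h) ≤ b)
    (hb' : nv (tm h') ≤ b) : nv (mud h h' D) ≤ b := by
  have h1 := nv_mono hD.abs_mud
  rw [nv_smul, abs_of_pos (by norm_num : (0 : ℝ) < 1 / 2)] at h1
  linarith [nv_add_le (tm h) (tm h')]

theorem IsDD.nv_mud_sub {h h' D c : Vec n} (hD : IsDD h h' D) {ρ : ℝ} (hh : nv (h - c) ≤ ρ)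
    (hh' : nv (h' - c) ≤ ρ) : nv (mud h h' D - mud c c (dv c)) ≤ 6 * ρ := by
  have h1 : nv (mud h h' D - mud c c (dv c)) ≤ 3 * nv (del h h' c) := by
    refine nv_le_mul (by norm_num) fun i => ?_
    have e : (mud h h' D - mud c c (dv c)) i = ((tm h i - tm c i) + (tm h' i - tm c i)) / 2 * D i
        + tm c i * (D - dv c) i := by
      simp only [mud, Pi.sub_apply]
      ring
    have h2 : |tm h i - tm c i| ≤ del h h' c i := (tanh_lip _ _).trans (le_max_left _ _)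
    have h3 : |tm h' i - tm c i| ≤ del h h' c i := (tanh_lip _ _).trans (le_max_right _ _)
    have h4 : |((tm h i - tm c i) + (tm h' i - tm c i)) / 2 * D i| ≤ del h h' c i := by
      rw [abs_mul, abs_of_nonneg (hD i).nonneg]
      refine (mul_le_of_le_one_right (abs_nonneg _) (hD i).le_one).trans ?_
      rw [abs_div, abs_two]
      linarith [abs_add_le (tm h i - tm c i) (tm h' i - tm c i)]
    have h5 : |tm c i * (D - dv c) i| ≤ 2 * del h h' c i := by
      rw [abs_mul]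
      exact (mul_le_of_le_one_left (abs_nonneg _) (Real.abs_tanh_lt_one _).le).trans
        (hD.close' c i)
    rw [e, abs_of_nonneg (del_nonneg h h' c i)]
    linarith [abs_add_le (((tm h i - tm c i) + (tm h' i - tm c i)) / 2 * D i)
      (tm c i * (D - dv c) i)]
  linarith [nv_del hh hh']

theorem Rd_eq (h h' D c : Vec n) : Rd h h' D c = (wb c - wb h) • (1 : Mat n)
    + (2 / (n * wb h')) • vecMulVec (tm h' - tm c) (mud h h' D)
    + (2 / (n * wb h')) • vecMulVec (tm c) (mud h h' D - mud c c (dv c))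
    + (2 / (n * wb h') - 2 / (n * wb c)) • vecMulVec (tm c) (mud c c (dv c)) := by
  ext i j
  simp only [Rd, VWd, Matrix.add_apply, Matrix.sub_apply, Matrix.smul_apply, vecMulVec_apply,
    Pi.sub_apply, smul_eq_mul, Matrix.diagonal_apply]
  split_ifs <;> ring

/-- the scalar and rank one differences are small in operator norm -/
theorem IsDD.opLe_Rd {h h' D c : Vec n} (hD : IsDD h h' D) {ρ a : ℝ} (hh : nv (h - c) ≤ ρ)
    (hh' : nv (h' - c) ≤ ρ) (ha : nv c ≤ a) (hw : 1 / 2 ≤ wb h') (hwc : 1 / 2 ≤ wb c) :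
    OpLe (Rd h h' D c) (64 * ρ * (a + ρ) / n) := by
  have hn : (0 : ℝ) < n := by
    rcases Nat.eq_zero_or_pos n with h0 | h0
    · subst h0
      simp only [wb, Nat.cast_zero, div_zero] at hw
      norm_num at hw
    · exact_mod_cast h0
  have hρ : 0 ≤ ρ := (nv_nonneg _).trans hh
  have ha0 : 0 ≤ a := (nv_nonneg _).trans ha
  set E := ρ * (a + ρ) / n with hE
  have hE0 : 0 ≤ E := by positivity
  have w1 : |wb c - wb h| ≤ 4 * E := by
    rw [abs_sub_comm]
    exact (wb_close hh ha).trans (le_of_eq (by rw [hE]; ring))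
  have w2 : |wb c - wb h'| ≤ 4 * E := by
    rw [abs_sub_comm]
    exact (wb_close hh' ha).trans (le_of_eq (by rw [hE]; ring))
  have k1 : |2 / (n * wb h')| ≤ 4 / n := by
    rw [abs_of_pos (by positivity), div_le_div_iff₀ (by positivity) hn]
    nlinarith
  have k2 : |2 / (n * wb h') - 2 / (n * wb c)| ≤ 32 * E / n := by
    have e : 2 / (n * wb h') - 2 / (n * wb c) = 2 * (wb c - wb h') / (n * (wb h' * wb c)) := by
      field_simp
    have h4 : 1 / 4 ≤ wb h' * wb c := by nlinarith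
    rw [e, abs_div, abs_mul, abs_two, abs_of_pos (by positivity : 0 < n * (wb h' * wb c)),
      div_le_div_iff₀ (by positivity) hn]
    have h5 : 32 * E * (n * (1 / 4)) ≤ 32 * E * (n * (wb h' * wb c)) := by gcongr
    nlinarith
  have m1 : nv (tm h' - tm c) ≤ ρ := (nv_tm_sub h' c).trans hh'
  have tri : ∀ g : Vec n, nv (g - c) ≤ ρ → nv (tm g) ≤ a + ρ := fun g hg => by
    have h1 := nv_add_le c (g - c)
    rw [add_sub_cancel] at h1
    linarith [nv_tm g]
  have m2 : nv (mud h h' D) ≤ a + ρ := hD.nv_mud (tri h hh) (tri h' hh')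
  have m3 : nv (tm c) ≤ a := (nv_tm c).trans ha
  have m4 := hD.nv_mud_sub hh hh'
  have m5 : nv (tm c) * nv (mud c c (dv c)) ≤ n := by
    have h1 := nv_tm_sqrt c
    have h2 := (isDD_self c).nv_mud h1 h1
    calc _ ≤ √n * √n := mul_le_mul h1 h2 (nv_nonneg _) (Real.sqrt_nonneg _)
      _ = n := Real.mul_self_sqrt hn.le
  have o1 : OpLe ((wb c - wb h) • (1 : Mat n)) (4 * E) :=
    (opLe_one.smul zero_le_one _).monoN (by positivity) (by linarith)
  have nn : ∀ u v : Vec n, 0 ≤ nv u * nv v := fun u v => mul_nonneg (nv_nonneg u) (nv_nonneg v)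
  have o2 : OpLe ((2 / (n * wb h')) • vecMulVec (tm h' - tm c) (mud h h' D)) (4 * E) := by
    refine ((opLe_vecMulVec _ _).smul (nn _ _) _).monoN (mul_nonneg (abs_nonneg _) (nn _ _)) ?_
    calc _ ≤ 4 / n * (ρ * (a + ρ)) :=
          mul_le_mul k1 (mul_le_mul m1 m2 (nv_nonneg _) hρ) (nn _ _) (by positivity)
      _ = 4 * E := by rw [hE]; ring
  have o3 : OpLe ((2 / (n * wb h')) • vecMulVec (tm c) (mud h h' D - mud c c (dv c)))
      (24 * E) := by
    refine ((opLe_vecMulVec _ _).smul (nn _ _) _).monoN (mul_nonneg (abs_nonneg _) (nn _ _)) ?_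
    calc _ ≤ 4 / n * ((a + ρ) * (6 * ρ)) :=
          mul_le_mul k1 (mul_le_mul (by linarith) m4 (nv_nonneg _) (by positivity)) (nn _ _)
            (by positivity)
      _ = 24 * E := by rw [hE]; ring
  have o4 : OpLe ((2 / (n * wb h') - 2 / (n * wb c)) • vecMulVec (tm c) (mud c c (dv c)))
      (32 * E) := by
    refine ((opLe_vecMulVec _ _).smul (nn _ _) _).monoN (mul_nonneg (abs_nonneg _) (nn _ _)) ?_
    calc _ ≤ 32 * E / n * n := mul_le_mul k2 m5 (nn _ _) (by positivity)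
      _ = 32 * E := by field_simp
  rw [Rd_eq]
  refine (((o1.add o2 (by positivity) (by positivity)).add o3 (by positivity)
    (by positivity)).add o4 (by positivity) (by positivity)).monoN (by positivity) (le_of_eq ?_)
  rw [hE]
  ring

/-! ### exceptional sites -/

/-- the sites where `h` is far from `c` -/
noncomputable def bad (θ : ℝ) (c h : Vec n) : Finset (Fin n) :=
  Finset.univ.filter fun i => θ < |h i - c i|

theorem not_bad {θ : ℝ} {c h : Vec n} {A : Finset (Fin n)} (hA : bad θ c h ⊆ A) {i : Fin n}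
    (hi : i ∉ A) : |h i - c i| ≤ θ := by
  by_contra hc
  exact hi (hA (Finset.mem_filter.2 ⟨Finset.mem_univ i, not_le.1 hc⟩))

theorem card_bad {θ ρ : ℝ} (hθ : 0 < θ) {c h : Vec n} (hh : nv (h - c) ≤ ρ) :
    ((bad θ c h).card : ℝ) ≤ ρ ^ 2 / θ ^ 2 := by
  rw [le_div_iff₀ (by positivity)]
  have h1 : ((bad θ c h).card : ℝ) * θ ^ 2 ≤ ∑ i ∈ bad θ c h, (h - c) i ^ 2 := by
    rw [← nsmul_eq_mul]
    refine Finset.card_nsmul_le_sum _ _ _ fun i hi => ?_
    rw [← sq_abs ((h - c) i)]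
    exact pow_le_pow_left₀ hθ.le (Finset.mem_filter.1 hi).2.le 2
  have h2 : ∑ i ∈ bad θ c h, (h - c) i ^ 2 ≤ F.sq (h - c) :=
    Finset.sum_le_sum_of_subset_of_nonneg (Finset.subset_univ _) fun i _ _ => sq_nonneg _
  have h3 : F.sq (h - c) ≤ ρ ^ 2 := by
    rw [← nv_sq]
    exact pow_le_pow_left₀ (nv_nonneg _) hh 2
  linarith

/-- the union of the exceptional sets of four points -/
theorem card_bad4 {θ ρ : ℝ} (hθ : 0 < θ) {c h₁ h₂ h₃ h₄ : Vec n} (e₁ : nv (h₁ - c) ≤ ρ)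
    (e₂ : nv (h₂ - c) ≤ ρ) (e₃ : nv (h₃ - c) ≤ ρ) (e₄ : nv (h₄ - c) ≤ ρ) :
    ((bad θ c h₁ ∪ bad θ c h₂ ∪ bad θ c h₃ ∪ bad θ c h₄).card : ℝ) ≤ 4 * ρ ^ 2 / θ ^ 2 := by
  have u : ∀ A B : Finset (Fin n), ((A ∪ B).card : ℝ) ≤ A.card + B.card := fun A B => by
    exact_mod_cast Finset.card_union_le A B
  have a := u (bad θ c h₁ ∪ bad θ c h₂ ∪ bad θ c h₃) (bad θ c h₄)
  have b := u (bad θ c h₁ ∪ bad θ c h₂) (bad θ c h₃)
  have d := u (bad θ c h₁) (bad θ c h₂)
  rw [mul_div_assoc]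
  linarith [card_bad hθ e₁, card_bad hθ e₂, card_bad hθ e₃, card_bad hθ e₄]

/-- the part of a vector outside `A` -/
def off (A : Finset (Fin n)) (w : Vec n) : Vec n := fun i => if i ∈ A then 0 else w i

theorem abs_off_le (A : Finset (Fin n)) (w : Vec n) (i : Fin n) : |off A w i| ≤ |w i| := by
  unfold off
  split_ifs
  · simp
  · exact le_rfl

theorem diag_split (A : Finset (Fin n)) (w : Vec n) :
    diagonal w = res A * diagonal w * res A + diagonal (off A w) := by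
  unfold res off
  rw [Matrix.diagonal_mul_diagonal, Matrix.diagonal_mul_diagonal, Matrix.diagonal_add]
  refine congrArg diagonal (funext fun i => ?_)
  split_ifs <;> simp

theorem IsDD.off_le {h h' D c : Vec n} (hD : IsDD h h' D) {θ : ℝ} (hθ : 0 ≤ θ)
    (hc : ∀ i, |c i| ≤ θ) {A : Finset (Fin n)} (hA : bad θ c h ⊆ A) (hA' : bad θ c h' ⊆ A)
    (i : Fin n) : |off A (D - dv c) i| ≤ 3 * θ ^ 2 := by
  unfold off
  split_ifs with hi
  · rw [abs_zero]
    positivity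
  · refine ((hD i).close (not_bad hA hi) (not_bad hA' hi)).1.trans ?_
    nlinarith [mul_le_mul_of_nonneg_left (hc i) hθ]

theorem opLe_diag {w : Vec n} {M : ℝ} (hM : 0 ≤ M) (h : ∀ i, |w i| ≤ M) :
    OpLe (diagonal w) M := by
  refine opLe_of_nv fun v => nv_le_mul hM fun i => ?_
  rw [Matrix.mulVec_diagonal, abs_mul]
  exact mul_le_mul_of_nonneg_right (h i) (abs_nonneg _)

/-! ### the Abel property -/

/-- weights see `v` only through their sup norm and their `ℓ¹` norm -/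
def Ab (a b : ℝ) (v : Vec n) : Prop :=
  ∀ (w : Vec n) (M : ℝ), 0 ≤ M → (∀ i, |w i| ≤ M) →
    ∑ i, |w i| * v i ^ 2 ≤ a * M + b * ∑ i, |w i|

theorem Ab.mono {a a' b b' : ℝ} {v : Vec n} (h : Ab a b v) (ha : a ≤ a') (hb : b ≤ b') :
    Ab a' b' v := fun w M hM hw =>
  (h w M hM hw).trans (add_le_add (mul_le_mul_of_nonneg_right ha hM)
    (mul_le_mul_of_nonneg_right hb (Finset.sum_nonneg fun _ _ => abs_nonneg _)))

theorem ab_sq (v : Vec n) : Ab (F.sq v) 0 v := by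
  intro w M _ hw
  rw [zero_mul, add_zero]
  unfold F.sq
  rw [Finset.sum_mul]
  exact Finset.sum_le_sum fun i _ =>
    (mul_le_mul_of_nonneg_right (hw i) (sq_nonneg _)).trans (le_of_eq (mul_comm _ _))

theorem Ab.add {a a' b b' : ℝ} {u v : Vec n} (hu : Ab a b u) (hv : Ab a' b' v) :
    Ab (2 * (a + a')) (2 * (b + b')) (u + v) := by
  intro w M hM hw
  have h1 : ∑ i, |w i| * (u + v) i ^ 2 ≤ 2 * ∑ i, |w i| * u i ^ 2 + 2 * ∑ i, |w i| * v i ^ 2 := by
    rw [Finset.mul_sum, Finset.mul_sum, ← Finset.sum_add_distrib]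
    refine Finset.sum_le_sum fun i _ => ?_
    rw [Pi.add_apply]
    nlinarith [mul_nonneg (abs_nonneg (w i)) (sq_nonneg (u i - v i))]
  linarith [hu w M hM hw, hv w M hM hw]

theorem Ab.smul {a b : ℝ} {v : Vec n} (h : Ab a b v) (t : ℝ) :
    Ab (t ^ 2 * a) (t ^ 2 * b) (t • v) := by
  intro w M hM hw
  have e : ∑ i, |w i| * (t • v) i ^ 2 = t ^ 2 * ∑ i, |w i| * v i ^ 2 := by
    rw [Finset.mul_sum]
    refine Finset.sum_congr rfl fun i _ => ?_
    rw [Pi.smul_apply, smul_eq_mul]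
    ring
  rw [e]
  exact (mul_le_mul_of_nonneg_left (h w M hM hw) (sq_nonneg t)).trans (le_of_eq (by ring))

/-- mass on a set of sites -/
theorem Ab.sparse {a b : ℝ} {v : Vec n} (h : Ab a b v) (S : Finset (Fin n)) :
    ∑ i ∈ S, v i ^ 2 ≤ a + b * S.card := by
  have h1 := h (fun i => if i ∈ S then 1 else 0) 1 zero_le_one fun i => by
    split_ifs <;> simp
  simpa [apply_ite abs, Finset.sum_ite_mem] using h1

theorem ab_of_spread {c K k : ℝ} {v : Vec n} (h : Spread c K v) (hc : 0 ≤ c) (hk : 0 < k)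
    (hkn : k ≤ n) :
    Ab (c * (K + k + Real.log (n / k) + 2) / n) (c * (Real.log (n / k) + 2) / n) v := by
  intro w M hM hw
  have hn : (0 : ℝ) < n := hk.trans_le hkn
  have h1 := h.abel_log hc hk hkn hw hM
  rw [div_mul_eq_mul_div, div_mul_eq_mul_div, ← add_div, le_div_iff₀ hn]
  linarith

/-- bilinear form of a diagonal matrix between two vectors with the Abel property -/
theorem Ab.bil {a b : ℝ} {u v : Vec n} (hu : Ab a b u) (hv : Ab a b v) {w : Vec n} {M L : ℝ}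
    (hb : 0 ≤ b) (hM : 0 ≤ M) (hw : ∀ i, |w i| ≤ M) (hL : ∑ i, |w i| ≤ L) :
    |ip u (diagonal w *ᵥ v)| ≤ a * M + b * L := by
  have e : ip u (diagonal w *ᵥ v) = ∑ i, w i * u i * v i := by
    unfold ip
    refine Finset.sum_congr rfl fun i _ => ?_
    rw [Matrix.mulVec_diagonal]
    ring
  have h0 := mul_le_mul_of_nonneg_left hL hb
  have h1 : ∑ i, |w i| * u i ^ 2 ≤ a * M + b * L := (hu w M hM hw).trans (by linarith)
  have h2 : ∑ i, |w i| * v i ^ 2 ≤ a * M + b * L := (hv w M hM hw).trans (by linarith)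
  have h3 : 0 ≤ a * M + b * L :=
    (Finset.sum_nonneg fun i _ => mul_nonneg (abs_nonneg _) (sq_nonneg _)).trans h1
  rw [e]
  refine (abs_sum_le_sqrt w u v).trans ?_
  calc _ ≤ √(a * M + b * L) * √(a * M + b * L) :=
        mul_le_mul (Real.sqrt_le_sqrt h1) (Real.sqrt_le_sqrt h2) (Real.sqrt_nonneg _)
          (Real.sqrt_nonneg _)
    _ = a * M + b * L := Real.mul_self_sqrt h3

theorem opLe_of_bil {A : Mat n} {c : ℝ} (hc : 0 ≤ c)
    (h : ∀ u v, |ip u (A *ᵥ v)| ≤ c * nv u * nv v) : OpLe A c := by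
  refine opLe_of_nv fun v => ?_
  have h1 := (le_abs_self _).trans (h (A *ᵥ v) v)
  rw [ipN_self, ← nv_sq] at h1
  have h2 := nv_nonneg (A *ᵥ v)
  have h3 := mul_nonneg hc (nv_nonneg v)
  by_contra hlt
  have h4 := not_le.1 hlt
  nlinarith

theorem opLe_conj_diag {G H : Mat n} {w : Vec n} {c : ℝ} (hc : 0 ≤ c)
    (hG : ∀ v, ∑ i, |w i| * (G *ᵥ v) i ^ 2 ≤ c * F.sq v)
    (hH : ∀ v, ∑ i, |w i| * (H *ᵥ v) i ^ 2 ≤ c * F.sq v) : OpLe (Gᵀ * diagonal w * H) c := by
  refine opLe_of_bil hc fun u v => ?_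
  have e : ip u ((Gᵀ * diagonal w * H) *ᵥ v) = ∑ i, w i * (G *ᵥ u) i * (H *ᵥ v) i := by
    rw [← Matrix.mulVec_mulVec, ← Matrix.mulVec_mulVec, ip_mulVec_tr, Matrix.transpose_transpose]
    unfold ip
    refine Finset.sum_congr rfl fun i _ => ?_
    rw [Matrix.mulVec_diagonal]
    ring
  have r : ∀ z : Vec n, √(c * F.sq z) = √c * nv z := fun z => by
    rw [Real.sqrt_mul hc, ← nv_sq, Real.sqrt_sq (nv_nonneg z)]
  rw [e]
  refine (abs_sum_le_sqrt _ _ _).trans ?_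
  calc _ ≤ √(c * F.sq u) * √(c * F.sq v) :=
        mul_le_mul (Real.sqrt_le_sqrt (hG u)) (Real.sqrt_le_sqrt (hH v)) (Real.sqrt_nonneg _)
          (Real.sqrt_nonneg _)
    _ = √c * √c * nv u * nv v := by rw [r, r]; ring
    _ = c * nv u * nv v := by rw [Real.mul_self_sqrt hc]

/-- weighted mass of `H v`: low part by the Abel property, high part by the sup norm -/
theorem wsum_le {H P : Mat n} {a b α β : ℝ} (ha : 0 ≤ a) (hb : 0 ≤ b)
    (hE : ∀ u, P *ᵥ u = u → Ab (a * F.sq u) (b * F.sq u) u) (hP : P * P = P)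
    (hα : OpLe (P * H) α) (hβ : OpLe ((1 - P) * H) β) {w : Vec n} {M L : ℝ} (hM : 0 ≤ M)
    (hw : ∀ i, |w i| ≤ M) (hL : ∑ i, |w i| ≤ L) (v : Vec n) :
    ∑ i, |w i| * (H *ᵥ v) i ^ 2 ≤ (2 * (a * M + b * L) * α ^ 2 + 2 * M * β ^ 2) * F.sq v := by
  have e : H *ᵥ v = (P * H) *ᵥ v + ((1 - P) * H) *ᵥ v := by
    rw [← Matrix.add_mulVec, ← add_mul, add_sub_cancel, one_mul]
  have h1 := hE ((P * H) *ᵥ v) (by rw [Matrix.mulVec_mulVec, ← mul_assoc, hP])
  have h2 := (h1.add (ab_sq (((1 - P) * H) *ᵥ v))) w M hM hw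
  rw [← e] at h2
  have h0 : 0 ≤ ∑ i, |w i| := Finset.sum_nonneg fun _ _ => abs_nonneg _
  have h3 := mul_le_mul_of_nonneg_left (hα v) (mul_nonneg ha hM)
  have h4 := mul_le_mul_of_nonneg_left (hβ v) hM
  have h5 : F.sq ((P * H) *ᵥ v) * ∑ i, |w i| ≤ α ^ 2 * F.sq v * L :=
    mul_le_mul (hα v) hL h0 (mul_nonneg (sq_nonneg α) (sqN_nonneg v))
  have h6 := mul_le_mul_of_nonneg_left h5 hb
  nlinarith

/-! ### D4 -/

theorem VWd_eq (h h' D c : Vec n) :
    VWd h h' D = VWd c c (dv c) + diagonal (D - dv c) + Rd h h' D c := by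
  unfold Rd
  abel

/-- the small part after conjugation; `H` plays the role of `N0 ^ (-1/2)`, `P` is the low
projection -/
theorem opLe_rest {h h' D c : Vec n} (hD : IsDD h h' D) {θ ρ a₀ a b α β η : ℝ} (hθ : 0 ≤ θ)
    (hc : ∀ i, |c i| ≤ θ) (hh : nv (h - c) ≤ ρ) (hh' : nv (h' - c) ≤ ρ) (ha₀ : nv c ≤ a₀)
    (hw : 1 / 2 ≤ wb h') (hwc : 1 / 2 ≤ wb c) {A : Finset (Fin n)} (hA : bad θ c h ⊆ A)
    (hA' : bad θ c h' ⊆ A) {H P : Mat n} (hH : Hᵀ = H) (hP : P * P = P) (ha : 0 ≤ a) (hb : 0 ≤ b)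
    (hE : ∀ u, P *ᵥ u = u → Ab (a * F.sq u) (b * F.sq u) u) (hα0 : 0 ≤ α) (hα : OpLe H α)
    (hα' : OpLe (P * H) α) (hβ : OpLe ((1 - P) * H) β)
    (hη : 2 * (3 * a * θ ^ 2 + 4 * b * ρ * (a₀ + ρ)) * α ^ 2 + 6 * θ ^ 2 * β ^ 2
      + 64 * ρ * (a₀ + ρ) / n * α ^ 2 ≤ η) :
    OpLe (H * (diagonal (off A (D - dv c)) + Rd h h' D c) * H) η := by
  have hρ : 0 ≤ ρ := (nv_nonneg _).trans hh
  have ha0 : 0 ≤ a₀ := (nv_nonneg _).trans ha₀
  have h1 := wsum_le ha hb hE hP hα' hβ (by positivity) (hD.off_le hθ hc hA hA')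
    ((Finset.sum_le_sum fun i _ => abs_off_le A _ i).trans (hD.sum_abs hh hh' ha₀))
  have h2 := opLe_conj_diag (by positivity) h1 h1
  rw [hH] at h2
  have h3 := (hα.mulN (hD.opLe_Rd hh hh' ha₀ hw hwc) hα0 (by positivity)).mulN hα
    (by positivity) hα0
  rw [mul_add, add_mul]
  exact (h2.add h3 (by positivity) (by positivity)).monoN (by positivity) (by linarith)

/-- D4, decomposition form, for any set `A` containing the exceptional sites -/
theorem d4 {h h' D c : Vec n} (hD : IsDD h h' D) {θ ρ a₀ a b α β η : ℝ} (hθ : 0 ≤ θ)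
    (hc : ∀ i, |c i| ≤ θ) (hh : nv (h - c) ≤ ρ) (hh' : nv (h' - c) ≤ ρ) (ha₀ : nv c ≤ a₀)
    (hw : 1 / 2 ≤ wb h') (hwc : 1 / 2 ≤ wb c) {A : Finset (Fin n)} (hA : bad θ c h ⊆ A)
    (hA' : bad θ c h' ⊆ A) {H P : Mat n} (hH : Hᵀ = H) (hP : P * P = P) (ha : 0 ≤ a) (hb : 0 ≤ b)
    (hE : ∀ u, P *ᵥ u = u → Ab (a * F.sq u) (b * F.sq u) u) (hα0 : 0 ≤ α) (hα : OpLe H α)
    (hα' : OpLe (P * H) α) (hβ : OpLe ((1 - P) * H) β)
    (hη : 2 * (3 * a * θ ^ 2 + 4 * b * ρ * (a₀ + ρ)) * α ^ 2 + 6 * θ ^ 2 * β ^ 2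
      + 64 * ρ * (a₀ + ρ) / n * α ^ 2 ≤ η) :
    ∃ S Xs : Mat n, OpLe S 1 ∧ OpLe Xs η ∧ H * VWd h h' D * H =
      H * VWd c c (dv c) * H + H * res A * S * (H * res A)ᵀ + Xs := by
  refine ⟨diagonal (D - dv c), _, opLe_diag zero_le_one (hD.le_one c),
    opLe_rest hD hθ hc hh hh' ha₀ hw hwc hA hA' hH hP ha hb hE hα0 hα hα' hβ hη, ?_⟩
  have e : (res A)ᵀ = res A := Matrix.diagonal_transpose _
  rw [VWd_eq h h' D c, Matrix.transpose_mul, hH, e]
  conv_lhs => rw [diag_split A (D - dv c)]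
  noncomm_ring

/-- D4 in the form of the field `d4` of `Cube.Ctx` -/
theorem d4_ctx {h h' D c : Vec n} (hD : IsDD h h' D) {θ ρ a₀ a b α β η : ℝ} (hθ : 0 ≤ θ)
    (hc : ∀ i, |c i| ≤ θ) (hh : nv (h - c) ≤ ρ) (hh' : nv (h' - c) ≤ ρ) (ha₀ : nv c ≤ a₀)
    (hw : 1 / 2 ≤ wb h') (hwc : 1 / 2 ≤ wb c) {H P : Mat n} (hH : Hᵀ = H) (hP : P * P = P)
    (ha : 0 ≤ a) (hb : 0 ≤ b) (hE : ∀ u, P *ᵥ u = u → Ab (a * F.sq u) (b * F.sq u) u)
    (hα0 : 0 ≤ α) (hα : OpLe H α) (hα' : OpLe (P * H) α) (hβ : OpLe ((1 - P) * H) β)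
    (hη : 2 * (3 * a * θ ^ 2 + 4 * b * ρ * (a₀ + ρ)) * α ^ 2 + 6 * θ ^ 2 * β ^ 2
      + 64 * ρ * (a₀ + ρ) / n * α ^ 2 ≤ η) :
    ∃ s : Vec n, (∀ i, |s i| ≤ 1) ∧ (∀ i, i ∉ bad θ c h → i ∉ bad θ c h' → s i = 0) ∧
      OpLe (H * (VWd h h' D - VWd c c (dv c) - diagonal s) * H) η := by
  set A := bad θ c h ∪ bad θ c h' with hA
  refine ⟨(D - dv c) - off A (D - dv c), fun i => ?_, fun i h1 h2 => ?_, ?_⟩
  · have := hD.le_one c i
    rw [Pi.sub_apply]
    unfold off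
    split_ifs
    · rwa [sub_zero]
    · simp
  · have h3 : i ∉ A := fun h4 => (Finset.mem_union.1 h4).elim h1 h2
    rw [Pi.sub_apply]
    unfold off
    rw [if_neg h3, sub_self]
  · have e : VWd h h' D - VWd c c (dv c) - diagonal ((D - dv c) - off A (D - dv c)) =
        diagonal (off A (D - dv c)) + Rd h h' D c := by
      have e1 : diagonal ((D - dv c) - off A (D - dv c)) =
          diagonal (D - dv c) - diagonal (off A (D - dv c)) := (Matrix.diagonal_sub _ _).symm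
      rw [e1]
      unfold Rd
      abel
    rw [e]
    exact opLe_rest hD hθ hc hh hh' ha₀ hw hwc Finset.subset_union_left Finset.subset_union_right
      hH hP ha hb hE hα0 hα hα' hβ hη

/-- D4 as a bilinear bound between two vectors with the Abel property (no exceptional set) -/
theorem d4_bil {h h' D c : Vec n} (hD : IsDD h h' D) {ρ a₀ a b : ℝ} (hh : nv (h - c) ≤ ρ)
    (hh' : nv (h' - c) ≤ ρ) (ha₀ : nv c ≤ a₀) (hw : 1 / 2 ≤ wb h') (hwc : 1 / 2 ≤ wb c)
    {u v : Vec n} (hu : Ab a b u) (hv : Ab a b v) (hb : 0 ≤ b) :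
    |ip u ((VWd h h' D - VWd c c (dv c)) *ᵥ v)| ≤
      a + 4 * b * ρ * (a₀ + ρ) + 64 * ρ * (a₀ + ρ) / n * (nv u * nv v) := by
  have hρ : 0 ≤ ρ := (nv_nonneg _).trans hh
  have ha0 : 0 ≤ a₀ := (nv_nonneg _).trans ha₀
  have e : VWd h h' D - VWd c c (dv c) = diagonal (D - dv c) + Rd h h' D c := by
    unfold Rd
    abel
  have h1 := hu.bil hv hb zero_le_one (hD.le_one c) (hD.sum_abs hh hh' ha₀)
  have h2 := (abs_ip_le u (Rd h h' D c *ᵥ v)).trans (mul_le_mul_of_nonneg_left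
    ((hD.opLe_Rd hh hh' ha₀ hw hwc).nv_le (by positivity) v) (nv_nonneg u))
  rw [e, Matrix.add_mulVec, ip_add_right]
  refine (abs_add_le _ _).trans ?_
  linarith

/-- operator norm of `VW (c, c)` for a bounded reference point -/
theorem opLe_VV {c : Vec n} {θ a₀ : ℝ} (hc : ∀ i, |c i| ≤ θ) (ha₀ : nv c ≤ a₀)
    (hwc : 1 / 2 ≤ wb c) : OpLe (VWd c c (dv c)) (θ ^ 2 + 4 * a₀ ^ 2 / n) := by
  have hn : (0 : ℝ) < n := by
    rcases Nat.eq_zero_or_pos n with h0 | h0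
    · subst h0
      simp only [wb, Nat.cast_zero, div_zero] at hwc
      norm_num at hwc
    · exact_mod_cast h0
  have ha0 : 0 ≤ a₀ := (nv_nonneg _).trans ha₀
  have d1 : ∀ i, 1 - θ ^ 2 ≤ dv c i ∧ dv c i ≤ 1 := fun i => by
    have h1 := pow_le_pow_left₀ (abs_nonneg _) ((abs_tanh_le (c i)).trans (hc i)) 2
    rw [sq_abs] at h1
    unfold dv
    constructor <;> linarith [sq_nonneg (Real.tanh (c i))]
  have w1 : 1 - θ ^ 2 ≤ wb c := by
    unfold wb
    rw [le_div_iff₀ hn]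
    have := Finset.card_nsmul_le_sum Finset.univ (dv c) _ fun i _ => (d1 i).1
    rwa [Finset.card_univ, Fintype.card_fin, nsmul_eq_mul, mul_comm] at this
  have w2 : wb c ≤ 1 := by
    unfold wb
    rw [div_le_one hn]
    have := Finset.sum_le_card_nsmul Finset.univ (dv c) _ fun i _ => (d1 i).2
    rwa [Finset.card_univ, Fintype.card_fin, nsmul_eq_mul, mul_one] at this
  have e : diagonal (dv c) - wb c • (1 : Mat n) = diagonal fun i => dv c i - wb c := by
    ext i j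
    simp only [Matrix.sub_apply, Matrix.smul_apply, Matrix.diagonal_apply, Matrix.one_apply,
      smul_eq_mul]
    split_ifs <;> ring
  have o1 : OpLe (diagonal fun i => dv c i - wb c) (θ ^ 2) :=
    opLe_diag (sq_nonneg θ) fun i => abs_le.2 ⟨by linarith [(d1 i).1], by linarith [(d1 i).2]⟩
  have m3 : nv (tm c) ≤ a₀ := (nv_tm c).trans ha₀
  have m4 := (isDD_self c).nv_mud m3 m3
  have nn := mul_nonneg (nv_nonneg (tm c)) (nv_nonneg (mud c c (dv c)))
  have k1 : |2 / (n * wb c)| ≤ 4 / n := by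
    rw [abs_of_pos (by positivity), div_le_div_iff₀ (by positivity) hn]
    nlinarith
  have o2 : OpLe ((2 / (n * wb c)) • vecMulVec (tm c) (mud c c (dv c))) (4 * a₀ ^ 2 / n) := by
    refine ((opLe_vecMulVec _ _).smul nn _).monoN (mul_nonneg (abs_nonneg _) nn) ?_
    calc _ ≤ 4 / n * (a₀ * a₀) :=
          mul_le_mul k1 (mul_le_mul m3 m4 (nv_nonneg _) ha0) nn (by positivity)
      _ = 4 * a₀ ^ 2 / n := by ring
  unfold VWd
  rw [e]
  exact o1.add o2 (sq_nonneg θ) (by positivity)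

end Vale.Agent.N150.D4
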