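import Vale.Agent.N150.Cube4
import Vale.Agent.N150.T1Def

/-! T1: frame facts, small parameter arithmetic and the preconditioner statement `AStmt`. -/

open Matrix Filter Topology

namespace Vale.Agent.N150.D6

open Vale.Agent.P150 Vale.Agent.P150.F Vale.Agent.N150.EC Vale.Agent.N150.Sp Vale.Agent.N150.T1
  Vale.Agent.N150.Cube

variable {n : ℕ}

/-! ### small parameter -/

/-- `t` is small with respect to `L` -/
structure Sm (L t : ℝ) : Prop where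
  L2 : 2 ≤ L
  pos : 0 < t
  sm : 1000000 * L ^ 4 ≤ t⁻¹

theorem ev_sm {L : ℝ} (hL : 2 ≤ L) : ∀ᶠ t in 𝓝[>] (0 : ℝ), Sm L t := by
  have hp : (0 : ℝ) < (1000000 * L ^ 4)⁻¹ := by positivity
  filter_upwards [Ioo_mem_nhdsGT hp] with t ht
  exact ⟨hL, ht.1, (le_inv_comm₀ (by positivity) ht.1).2 ht.2.le⟩

namespace Sm

variable {L t : ℝ} (h : Sm L t)
include h

theorem L4 : 16 ≤ L ^ 4 := by
  have := pow_le_pow_left₀ (by norm_num) h.L2 4
  linarith

theorem big : 16000000 ≤ t⁻¹ := by linarith [h.sm, h.L4]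

theorem le_one : t ≤ 1 := by
  have h1 : (1 : ℝ) ≤ t⁻¹ := by linarith [h.big]
  exact (one_le_inv_iff₀.1 h1).2

theorem Lpow (k : ℕ) (hk : k ≤ 4) : L ^ k ≤ L ^ 4 := pow_le_pow_right₀ (by linarith [h.L2]) hk

theorem cL {C : ℝ} (k : ℕ) (hk : k ≤ 4) (hC : C ≤ 1000000) : C * L ^ k ≤ t⁻¹ := by
  have h1 := h.Lpow k hk
  have h2 : 0 ≤ L ^ k := pow_nonneg (by linarith [h.L2]) k
  calc C * L ^ k ≤ 1000000 * L ^ k := mul_le_mul_of_nonneg_right hC h2
    _ ≤ 1000000 * L ^ 4 := by linarith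
    _ ≤ t⁻¹ := h.sm

theorem pw {a b : ℕ} (hab : a ≤ b) : t ^ b ≤ t ^ a := pow_le_pow_of_le_one h.pos.le h.le_one hab

theorem ipw {a b : ℕ} (hab : a ≤ b) : t⁻¹ ^ a ≤ t⁻¹ ^ b :=
  pow_le_pow_right₀ (by linarith [h.big]) hab

/-- comparison of monomials, one power of `t` absorbs the constant -/
theorem mon {C : ℝ} (hC : C ≤ t⁻¹) (a b c d : ℕ) (hh : a + 1 + d ≤ b + c) :
    C * (t⁻¹ ^ a * t ^ b) ≤ t⁻¹ ^ c * t ^ d := by
  have ht := h.pos
  calc C * (t⁻¹ ^ a * t ^ b) ≤ t⁻¹ * (t⁻¹ ^ a * t ^ b) :=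
        mul_le_mul_of_nonneg_right hC (by positivity)
    _ = t ^ b / t ^ (a + 1) := by rw [inv_pow, pow_succ]; field_simp
    _ ≤ t ^ d / t ^ c := by
        rw [div_le_div_iff₀ (by positivity) (by positivity), ← pow_add, ← pow_add]
        exact h.pw (by omega)
    _ = t⁻¹ ^ c * t ^ d := by rw [inv_pow]; field_simp

theorem mon1 {C : ℝ} (hC : C ≤ t⁻¹) (a b d : ℕ) (hh : a + 1 + d ≤ b) :
    C * (t⁻¹ ^ a * t ^ b) ≤ t ^ d := by
  simpa using h.mon hC a b 0 d (by omega)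

theorem mon2 {C : ℝ} (hC : C ≤ t⁻¹) (b d : ℕ) (hh : 1 + d ≤ b) : C * t ^ b ≤ t ^ d := by
  simpa using h.mon hC 0 b 0 d (by omega)

theorem mon3 {C : ℝ} (hC : C ≤ t⁻¹) (a c : ℕ) (hh : a + 1 ≤ c) : C * t⁻¹ ^ a ≤ t⁻¹ ^ c := by
  simpa using h.mon hC a 0 c 0 (by omega)

theorem c {C : ℝ} (hC : C ≤ 16000000) : C ≤ t⁻¹ := hC.trans h.big

end Sm

/-! ### functions of the frame -/

theorem JO_mul (u v : Vec n) (O : OG n) : JO u O * JO v O = JO (fun a => u a * v a) O := by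
  unfold JO
  calc O.1ᵀ * Matrix.diagonal u * O.1 * (O.1ᵀ * Matrix.diagonal v * O.1)
      = O.1ᵀ * (Matrix.diagonal u * (O.1 * O.1ᵀ) * Matrix.diagonal v) * O.1 := by
        simp only [Matrix.mul_assoc]
    _ = _ := by rw [OG.mul_transpose, Matrix.mul_one, Matrix.diagonal_mul_diagonal]

theorem JO_tr (u : Vec n) (O : OG n) : (JO u O)ᵀ = JO u O := by
  unfold JO
  rw [Matrix.transpose_mul, Matrix.transpose_mul, Matrix.transpose_transpose,
    Matrix.diagonal_transpose, Matrix.mul_assoc]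

theorem JO_one (O : OG n) : JO (fun _ => 1) O = 1 := by
  unfold JO
  rw [Matrix.diagonal_one, Matrix.mul_one, OG.transpose_mul]

theorem JO_congr {u v : Vec n} (h : ∀ a, u a = v a) (O : OG n) : JO u O = JO v O := by
  rw [show u = v from funext h]

theorem JO_comm (u v : Vec n) (O : OG n) : JO u O * JO v O = JO v O * JO u O := by
  rw [JO_mul, JO_mul]
  exact JO_congr (fun a => mul_comm _ _) O

theorem JO_sub (u v : Vec n) (O : OG n) : JO u O - JO v O = JO (fun a => u a - v a) O := by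
  unfold JO
  rw [← Matrix.sub_mul, ← Matrix.mul_sub, Matrix.diagonal_sub]

theorem nv_O (O : OG n) (v : Vec n) : nv (O.1 *ᵥ v) = nv v := by
  rw [nv_eq_sqrt, nv_eq_sqrt]
  exact congrArg _ (OG.sum_sq_mulVec O v)

theorem nv_Ot (O : OG n) (v : Vec n) : nv (O.1ᵀ *ᵥ v) = nv v := by
  rw [← nv_O O, OG.mulVec_tr_mulVec]

theorem opLe_JO {u : Vec n} {c : ℝ} (hc : 0 ≤ c) (h : ∀ a, |u a| ≤ c) (O : OG n) :
    OpLe (JO u O) c := by
  refine opLe_of_nv fun v => ?_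
  unfold JO
  rw [← Matrix.mulVec_mulVec, ← Matrix.mulVec_mulVec, nv_Ot, ← nv_O O v]
  exact (opLe_diag hc h).nv_le hc _

theorem JO_mulVec_Ot (u w : Vec n) (O : OG n) :
    JO u O *ᵥ (O.1ᵀ *ᵥ w) = O.1ᵀ *ᵥ fun a => u a * w a := by
  unfold JO
  rw [← Matrix.mulVec_mulVec, ← Matrix.mulVec_mulVec, OG.mulVec_tr_mulVec]
  congr 1
  funext a
  rw [Matrix.mulVec_diagonal]

theorem P_eq (S : Dat n) (σ : ℝ) (O : OG n) :
    S.P σ O = JO (fun a => if a ∈ S.low σ then 1 else 0) O := rfl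

theorem P_symm (S : Dat n) (σ : ℝ) (O : OG n) : (S.P σ O)ᵀ = S.P σ O := by
  rw [P_eq, JO_tr]

theorem P_idem (S : Dat n) (σ : ℝ) (O : OG n) : S.P σ O * S.P σ O = S.P σ O := by
  rw [P_eq, JO_mul]
  exact JO_congr (fun a => by split_ifs <;> simp) O

theorem one_sub_P (S : Dat n) (σ : ℝ) (O : OG n) :
    1 - S.P σ O = JO (fun a => if a ∈ S.low σ then 0 else 1) O := by
  rw [P_eq, ← JO_one O, JO_sub]
  exact JO_congr (fun a => by split_ifs <;> simp) O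

section Adm

set_option linter.unusedSectionVars false

variable {L t : ℝ} {S : Dat n} (hs : Sm L t) (ha : Adm L t S)
include hs ha

theorem n_pos : 0 < n := by
  rcases Nat.eq_zero_or_pos n with h | h
  · have := ha.big
    rw [h] at this
    norm_num at this
  · exact h

theorem gap_lo (a : Fin n) : 2 * t ^ 288000 / L ≤ S.z0 - S.lam a := by
  linarith [ha.lo, ha.top a]

theorem gap_pos (a : Fin n) : 0 < S.z0 - S.lam a := by
  have ht := hs.pos
  have hL : 0 < L := by linarith [hs.L2]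
  exact lt_of_lt_of_le (by positivity) (gap_lo hs ha a)

theorem Ls_le : L * t ^ 288000 ≤ t ^ 139200 :=
  hs.mon2 (by simpa using hs.cL (C := 1) 1 (by norm_num) (by norm_num)) _ _ (by norm_num)

theorem gap_hi (a : Fin n) : S.z0 - S.lam a ≤ 7 := by
  have h1 := Ls_le hs ha
  have h2 : t ^ 139200 ≤ 1 := pow_le_one₀ hs.pos.le hs.le_one
  linarith [ha.hi, ha.bot a]

theorem g_pos (a : Fin n) : 0 < S.g a := inv_pos.2 (gap_pos hs ha a)

theorem g_le (a : Fin n) : S.g a ≤ L / 2 * t⁻¹ ^ 288000 := by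
  have ht := hs.pos
  have hL : 0 < L := by linarith [hs.L2]
  have h1 : L / 2 * t⁻¹ ^ 288000 = (2 * t ^ 288000 / L)⁻¹ := by rw [inv_pow]; field_simp
  rw [h1]
  exact inv_anti₀ (by positivity) (gap_lo hs ha a)

theorem Nsq_Nis (O : OG n) : S.Nsq O * S.Nis O = 1 := by
  unfold Dat.Nsq Dat.Nis
  rw [JO_mul, ← JO_one O]
  exact JO_congr (fun a => mul_inv_cancel₀ (Real.sqrt_pos.2 (gap_pos hs ha a)).ne') O

theorem Nis_Nsq (O : OG n) : S.Nis O * S.Nsq O = 1 := by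
  rw [← Nsq_Nis hs ha O]
  exact JO_comm _ _ O

theorem Nis_Nis (O : OG n) : S.Nis O * S.Nis O = JO S.g O := by
  unfold Dat.Nis
  rw [JO_mul]
  refine JO_congr (fun a => ?_) O
  rw [← mul_inv, Real.mul_self_sqrt (gap_pos hs ha a).le]
  rfl

theorem Nsq_Nsq (O : OG n) : S.Nsq O * S.Nsq O = JO (fun a => S.z0 - S.lam a) O := by
  unfold Dat.Nsq
  rw [JO_mul]
  exact JO_congr (fun a => Real.mul_self_sqrt (gap_pos hs ha a).le) O

theorem Nsq_K0 (O : OG n) : S.Nsq O * S.K0 O * S.Nsq O = S.Y O := by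
  unfold Dat.Nsq Dat.K0 Dat.Y
  rw [JO_mul, JO_mul]
  refine JO_congr (fun a => ?_) O
  have h1 := gap_pos hs ha a
  have h2 := Real.mul_self_sqrt h1.le
  have h3 : (S.z0 - S.lam a) * S.g a = 1 := mul_inv_cancel₀ h1.ne'
  calc √(S.z0 - S.lam a) * (1 - S.g a / S.w) * √(S.z0 - S.lam a)
      = (√(S.z0 - S.lam a) * √(S.z0 - S.lam a)) * (1 - S.g a * S.w⁻¹) := by ring
    _ = (S.z0 - S.lam a) - ((S.z0 - S.lam a) * S.g a) * S.w⁻¹ := by rw [h2]; ring
    _ = _ := by rw [h3, one_mul]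

theorem opLe_Nsq (O : OG n) : OpLe (S.Nsq O) 3 := by
  refine opLe_JO (by norm_num) (fun a => ?_) O
  rw [abs_of_nonneg (Real.sqrt_nonneg _)]
  exact Real.sqrt_le_iff.2 ⟨by norm_num, by linarith [gap_hi hs ha a]⟩

theorem opLe_Nis (O : OG n) : OpLe (S.Nis O) (t⁻¹ ^ 144001) := by
  have ht := hs.pos
  have hL : 0 < L := by linarith [hs.L2]
  refine opLe_JO (by positivity) (fun a => ?_) O
  rw [abs_of_nonneg (inv_nonneg.2 (Real.sqrt_nonneg _)), inv_pow]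
  refine inv_anti₀ (by positivity) (Real.le_sqrt_of_sq_le (le_trans ?_ (gap_lo hs ha a)))
  rw [le_div_iff₀ hL, ← pow_mul]
  have h1 := hs.mon2 (hs.cL (C := 1) 1 (by norm_num) (by norm_num)) (144001 * 2) 288000
    (by norm_num)
  have h2 : 0 ≤ t ^ 288000 := by positivity
  nlinarith

theorem opLe_N0 (O : OG n) : OpLe (S.Nsq O * S.Nsq O) 7 := by
  rw [Nsq_Nsq hs ha]
  refine opLe_JO (by norm_num) (fun a => ?_) O
  rw [abs_of_pos (gap_pos hs ha a)]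
  exact gap_hi hs ha a

theorem opLe_PN0 (O : OG n) :
    OpLe (S.P (t ^ 139200) O * (S.Nsq O * S.Nsq O)) (2 * t ^ 139200) := by
  have ht := hs.pos
  rw [Nsq_Nsq hs ha, P_eq, JO_mul]
  refine opLe_JO (by positivity) (fun a => ?_) O
  split_ifs with h
  · have h1 : S.gam - S.lam a ≤ t ^ 139200 := (Finset.mem_filter.1 h).2
    rw [one_mul, abs_of_pos (gap_pos hs ha a)]
    linarith [ha.hi, Ls_le hs ha]
  · rw [zero_mul, abs_zero]; positivity

theorem opLe_QNis (O : OG n) : OpLe ((1 - S.P (t ^ 139200) O) * S.Nis O) (t⁻¹ ^ 69600) := by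
  have ht := hs.pos
  have hL : 0 < L := by linarith [hs.L2]
  rw [one_sub_P]
  unfold Dat.Nis
  rw [JO_mul]
  refine opLe_JO (by positivity) (fun a => ?_) O
  split_ifs with h
  · rw [zero_mul, abs_zero]; positivity
  · have h1 : ¬ S.gam - S.lam a ≤ t ^ 139200 := fun h2 =>
      h (Finset.mem_filter.2 ⟨Finset.mem_univ _, h2⟩)
    rw [one_mul, abs_of_nonneg (inv_nonneg.2 (Real.sqrt_nonneg _)), inv_pow]
    refine inv_anti₀ (by positivity) (Real.le_sqrt_of_sq_le ?_)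
    have h2 : 0 ≤ 2 * t ^ 288000 / L := by positivity
    rw [← pow_mul, show 69600 * 2 = 139200 from rfl]
    linarith [ha.lo, not_le.1 h1]

theorem opLe_G00 (O : OG n) : OpLe (JO S.g O) (L / 2 * t⁻¹ ^ 288000) := by
  have ht := hs.pos
  have hL : 0 < L := by linarith [hs.L2]
  refine opLe_JO (by positivity) (fun a => ?_) O
  rw [abs_of_pos (g_pos hs ha a)]
  exact g_le hs ha a

theorem T2_pos : 0 < ∑ a, S.g a ^ 2 := by
  have h1 := ha.t2lo
  have h2 : (0 : ℝ) < n := by exact_mod_cast n_pos hs ha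
  have ht := hs.pos
  have hL : 0 < L := by linarith [hs.L2]
  by_contra hc
  have h3 : L * t ^ 144000 * ∑ a, S.g a ^ 2 ≤ 0 :=
    mul_nonpos_of_nonneg_of_nonpos (by positivity) (not_lt.1 hc)
  linarith

/-- `c |h0| ^ 2 ≤ 2 L ^ 2 s` -/
theorem c_sq : 2 / (∑ a, S.g a ^ 2) * ∑ a, (S.g a * S.yt a) ^ 2 ≤ 2 * L ^ 2 * t ^ 288000 := by
  have hT := T2_pos hs ha
  have ht := hs.pos
  have hL : 0 < L := by linarith [hs.L2]
  rw [div_mul_eq_mul_div, div_le_iff₀ hT]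
  have h1 := mul_le_mul_of_nonneg_left ha.t2lo (by positivity : 0 ≤ L * t ^ 144000)
  calc 2 * ∑ a, (S.g a * S.yt a) ^ 2 ≤ 2 * (L * n * t ^ 144000) := by linarith [ha.y2]
    _ = 2 * (L * t ^ 144000 * n) := by ring
    _ ≤ 2 * (L * t ^ 144000 * (L * t ^ 144000 * ∑ a, S.g a ^ 2)) := by linarith
    _ = 2 * L ^ 2 * t ^ 288000 * ∑ a, S.g a ^ 2 := by ring

end Adm

theorem P_Nis (S : Dat n) (σ : ℝ) (O : OG n) : S.Nis O * S.P σ O = S.P σ O * S.Nis O :=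
  JO_comm _ _ O

theorem P_Nsq (S : Dat n) (σ : ℝ) (O : OG n) : S.Nsq O * S.P σ O = S.P σ O * S.Nsq O :=
  JO_comm _ _ O

theorem P_Y (S : Dat n) (σ : ℝ) (O : OG n) : S.Y O * S.P σ O = S.P σ O * S.Y O :=
  JO_comm _ _ O

theorem Nis_symm (S : Dat n) (O : OG n) : (S.Nis O)ᵀ = S.Nis O := JO_tr _ O

theorem Nsq_symm (S : Dat n) (O : OG n) : (S.Nsq O)ᵀ = S.Nsq O := JO_tr _ O

/-- `R1i w - R1i 1 = (1 - w) R1i w R1i 1` -/
theorem opLe_R1i_w {w c : ℝ} (hw : 1 / 2 ≤ w) (hw1 : w ≤ 1) (hc : 0 ≤ c) (u : Vec n) :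
    OpLe (R1i w c u - R1i 1 c u) (4 * (1 - w)) := by
  have hw0 : 0 < w := by linarith
  have hu : R1i w c u * R1 w c u = 1 := by
    rw [← R1_inv hw0 hc]; exact Matrix.nonsing_inv_mul _ (R1_unit hw0 hc u)
  have e1 : R1i w c u - R1i 1 c u = (1 - w) • (R1i w c u * R1i 1 c u) := by
    have e2 : R1 1 c u = R1 w c u + (1 - w) • (1 : Mat n) := by
      unfold R1
      rw [sub_smul]
      abel
    have e3 : R1i w c u * (R1 1 c u * R1i 1 c u) = R1i w c u := by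
      rw [R1_mul_R1i one_pos hc, mul_one]
    rw [e2, add_mul, mul_add, ← mul_assoc, hu, one_mul, smul_mul_assoc, one_mul,
      mul_smul_comm] at e3
    rw [sub_eq_iff_eq_add, add_comm]
    exact e3.symm
  rw [e1]
  refine (((opLe_R1i hw hc u).mulN (opLe_R1i (by norm_num) hc u) (by norm_num)
    (by norm_num)).smul (by norm_num) (1 - w)).monoN (by positivity) (le_of_eq ?_)
  rw [abs_of_nonneg (by linarith)]
  ring

theorem opLe_R1 {w c : ℝ} (hw : 0 ≤ w) (hc : 0 ≤ c) (u : Vec n) :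
    OpLe (R1 w c u) (w + c * F.sq u) := by
  unfold R1
  have h1 := nv_nonneg u
  have h2 := sqN_nonneg u
  refine ((opLe_one.smul zero_le_one w).add ((opLe_vecMulVec u u).smul (by positivity) c)
    (by positivity) (by positivity)).monoN (by positivity) (le_of_eq ?_)
  rw [abs_of_nonneg hw, abs_of_nonneg hc, ← nv_sq]
  ring

/-- the preconditioner statement, from the identification of the saddle -/
theorem aStmt_of (hZ : ZStmt) : AStmt := by
  intro L hL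
  filter_upwards [hZ L hL, ev_sm hL] with t hZt hs n S O ha
  obtain ⟨-, hG, hw, hT, hw1, hw2, -⟩ := hZt n S O ha
  have ht := hs.pos
  have hL0 : 0 < L := by linarith
  have h1 := Nis_Nsq hs ha O
  have h2 := Nsq_Nis hs ha O
  have hLt : 4 * L * t ^ 144000 ≤ t ^ 143000 :=
    hs.mon2 (by simpa using hs.cL (C := 4) 1 (by norm_num) (by norm_num)) _ _ (by norm_num)
  have ht1 : t ^ 143000 ≤ 1 := pow_le_one₀ ht.le hs.le_one
  have hwh : 1 / 2 ≤ S.w := by nlinarith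
  have hw0 : 0 < S.w := by linarith
  obtain ⟨c, hc⟩ : ∃ c, c = 2 / ∑ a, S.g a ^ 2 := ⟨_, rfl⟩
  have hc0 : 0 ≤ c := by have := T2_pos hs ha; rw [hc]; positivity
  obtain ⟨u, hu⟩ : ∃ u, u = h0 (S.J O) (S.y O) := ⟨_, rfl⟩
  have hsq : F.sq u = ∑ a, (S.g a * S.yt a) ^ 2 := by
    rw [hu, h0, hG, Dat.y, JO_mulVec_Ot, ← nv_sq, nv_Ot, nv_sq]
    rfl
  have hcu : c * nv u ^ 2 ≤ 2 * L ^ 2 * t ^ 288000 := by
    rw [nv_sq, hsq, hc]; exact c_sq hs ha
  have hnu := nv_nonneg u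
  have hGu : nv (JO S.g O *ᵥ u) ≤ L / 2 * t⁻¹ ^ 288000 * nv u :=
    (opLe_G00 hs ha O).nv_le (by positivity) u
  have hcG : c * (nv (JO S.g O *ᵥ u) * nv u) ≤ L ^ 3 := by
    calc c * (nv (JO S.g O *ᵥ u) * nv u) ≤ c * (L / 2 * t⁻¹ ^ 288000 * nv u * nv u) :=
          mul_le_mul_of_nonneg_left (mul_le_mul_of_nonneg_right hGu hnu) hc0
      _ = L / 2 * t⁻¹ ^ 288000 * (c * nv u ^ 2) := by ring
      _ ≤ L / 2 * t⁻¹ ^ 288000 * (2 * L ^ 2 * t ^ 288000) :=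
          mul_le_mul_of_nonneg_left hcu (by positivity)
      _ = L ^ 3 * (t⁻¹ * t) ^ 288000 := by ring
      _ = L ^ 3 := by rw [inv_mul_cancel₀ ht.ne', one_pow, mul_one]
  have hAA : AA (S.J O) (S.y O) = S.w • (1 : Mat n) + c • vecMulVec (JO S.g O *ᵥ u) u := by
    rw [AA, hw, hT, hG, ← hu, ← hc]
  have hhat : S.Nsq O * AA (S.J O) (S.y O) * S.Nis O = R1 S.w c (S.Nis O *ᵥ u) := by
    rw [hAA, ← Nis_Nis hs ha O]
    exact hat_AA h2 (Nis_symm S O) _ _ _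
  obtain ⟨hun, hinv⟩ := hat_AA_inv h1 h2 hw0 hc0 hhat
  have hp : F.sq (S.Nis O *ᵥ u) = ip u (JO S.g O *ᵥ u) := by
    rw [← ipN_self, ← ip_mulVec_comm (Nis_symm S O), Matrix.mulVec_mulVec, Nis_Nis hs ha O]
  have hcp : c * F.sq (S.Nis O *ᵥ u) ≤ L ^ 3 := by
    rw [hp]
    refine le_trans (mul_le_mul_of_nonneg_left ((ip_le _ _).trans (le_of_eq (mul_comm _ _))) hc0) hcG
  have hAbi : S.Abi (t ^ 139200) O = R1i S.w c (S.P (t ^ 139200) O *ᵥ (S.Nis O *ᵥ u)) := by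
    rw [← R1_inv hw0 hc0, Matrix.mulVec_mulVec, Dat.Abi, hT, ← hu, ← hc]
    rfl
  obtain ⟨r1, r2, r3, r4⟩ := rank_one (P_symm S (t ^ 139200) O) (P_idem S (t ^ 139200) O) hwh hc0
    (S.Nis O *ᵥ u)
  have hL3 : 1 ≤ L ^ 3 := one_le_pow₀ (by linarith)
  have hb : 10 * L ^ 3 ≤ t⁻¹ := hs.cL 3 (by norm_num) (by norm_num)
  have hG0 := nv_nonneg (JO S.g O *ᵥ u)
  refine ⟨hun, ?_, ?_, ?_, ?_, ?_, ?_, ?_, ?_, ?_, ?_⟩
  · rw [hAA]
    refine ((opLe_one.smul zero_le_one S.w).add ((opLe_vecMulVec _ _).smul (by positivity) c)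
      (by positivity) (by positivity)).monoN (by positivity) ?_
    rw [abs_of_pos hw0, abs_of_nonneg hc0]
    linarith
  · have e1 : (AA (S.J O) (S.y O))⁻¹ = S.w⁻¹ • ((1 : Mat n)
        - (c / (S.w + c * F.sq (S.Nis O *ᵥ u))) • vecMulVec (JO S.g O *ᵥ u) u) := by
      have e2 : (AA (S.J O) (S.y O))⁻¹
          = S.Nis O * (S.Nsq O * (AA (S.J O) (S.y O))⁻¹ * S.Nis O) * S.Nsq O := by
        have : S.Nis O * (S.Nsq O * (AA (S.J O) (S.y O))⁻¹ * S.Nis O) * S.Nsq O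
            = (S.Nis O * S.Nsq O) * (AA (S.J O) (S.y O))⁻¹ * (S.Nis O * S.Nsq O) := by
          simp only [mul_assoc]
        rw [this, h1, one_mul, mul_one]
      rw [e2, hinv, R1i, mul_smul_comm, smul_mul_assoc, mul_sub, sub_mul, mul_one, h1,
        mul_smul_comm, smul_mul_assoc, mul_vv, vv_mul, Nsq_symm, Matrix.mulVec_mulVec,
        Matrix.mulVec_mulVec, h2, Matrix.one_mulVec, Nis_Nis hs ha O]
    have hq := sqN_nonneg (S.Nis O *ᵥ u)
    have hd : 0 < S.w + c * F.sq (S.Nis O *ᵥ u) := by positivity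
    have h3 : c / (S.w + c * F.sq (S.Nis O *ᵥ u)) ≤ 2 * c := by
      rw [div_le_iff₀ hd]
      have : 0 ≤ c * F.sq (S.Nis O *ᵥ u) := by positivity
      nlinarith
    have h4 : S.w⁻¹ ≤ 2 := by
      rw [inv_le_comm₀ hw0 (by norm_num)]; linarith
    rw [e1]
    refine ((opLe_one.sub ((opLe_vecMulVec _ _).smul (by positivity) _) zero_le_one
      (by positivity)).smul (by positivity) S.w⁻¹).monoN (by positivity) ?_
    rw [abs_of_pos (inv_pos.2 hw0), abs_of_nonneg (by positivity)]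
    have h5 := mul_le_mul_of_nonneg_right h3 (mul_nonneg hG0 hnu)
    calc S.w⁻¹ * (1 + c / (S.w + c * F.sq (S.Nis O *ᵥ u)) * (nv (JO S.g O *ᵥ u) * nv u))
        ≤ 2 * (1 + 2 * L ^ 3) := mul_le_mul h4 (by linarith) (by positivity) (by norm_num)
      _ ≤ t⁻¹ := by linarith
  · rw [hhat]
    have hq := sqN_nonneg (S.Nis O *ᵥ u)
    exact (opLe_R1 hw0.le hc0 _).monoN (by positivity) (by linarith)
  · rw [hinv]; exact opLe_R1i hwh hc0 _
  · rw [hinv, hAbi]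
    have h3 : nv (S.Nis O *ᵥ u) ≤ t⁻¹ ^ 144001 * nv u := (opLe_Nis hs ha O).nv_le (by positivity) u
    have h4 : nv ((1 - S.P (t ^ 139200) O) *ᵥ (S.Nis O *ᵥ u)) ≤ t⁻¹ ^ 69600 * nv u := by
      rw [Matrix.mulVec_mulVec]
      exact (opLe_QNis hs ha O).nv_le (by positivity) u
    have h5 := nv_nonneg (S.Nis O *ᵥ u)
    have h6 := nv_nonneg ((1 - S.P (t ^ 139200) O) *ᵥ (S.Nis O *ᵥ u))
    refine r4.monoN (by positivity) ?_
    calc 8 * c * (nv (S.Nis O *ᵥ u) * nv ((1 - S.P (t ^ 139200) O) *ᵥ (S.Nis O *ᵥ u)))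
        ≤ 8 * c * (t⁻¹ ^ 144001 * nv u * (t⁻¹ ^ 69600 * nv u)) :=
          mul_le_mul_of_nonneg_left (mul_le_mul h3 h4 h6 (h5.trans h3)) (by positivity)
      _ = 8 * t⁻¹ ^ 213601 * (c * nv u ^ 2) := by ring
      _ ≤ 8 * t⁻¹ ^ 213601 * (2 * L ^ 2 * t ^ 288000) :=
          mul_le_mul_of_nonneg_left hcu (by positivity)
      _ = 16 * L ^ 2 * (t⁻¹ ^ 213601 * t ^ 288000) := by ring
      _ ≤ t ^ 74000 := hs.mon1 (hs.cL 2 (by norm_num) (by norm_num)) _ _ _ (by norm_num)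
  · rw [hAbi]; exact r3
  · rw [hAbi]; exact r1
  · rw [hAbi]; exact r2
  · have e1 : S.Nsq O * Gs (S.J O) (S.y O) * S.Nsq O = R1i 1 c (S.Nis O *ᵥ u) := by
      have hT0 := T2_pos hs ha
      have hq := sqN_nonneg (S.Nis O *ᵥ u)
      have e2 : S.Nsq O * JO S.g O = S.Nis O := by
        rw [← Nis_Nis hs ha O, ← mul_assoc, h2, one_mul]
      rw [Gs, hG, hT, ← hu, ← hp, R1i, mul_sub, sub_mul, e2, h1, mul_smul_comm, smul_mul_assoc,
        mul_vv, vv_mul, Nsq_symm, Matrix.mulVec_mulVec, e2, inv_one, one_smul]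
      congr 2
      rw [hc]
      field_simp
    rw [hinv, e1]
    exact (opLe_R1i_w hwh hw2 hc0 _).monoN (by linarith only [hw2]) (by linarith only [hw1, hLt])
  · refine opLe_JO (by norm_num) (fun a => ?_) O
    have h3 := gap_pos hs ha a
    have h4 := gap_hi hs ha a
    have h5 : S.w⁻¹ ≤ 2 := by
      rw [inv_le_comm₀ hw0 (by norm_num)]; linarith
    have h6 := inv_pos.2 hw0
    rw [abs_le]
    constructor <;> linarith only [h3, h4, h5, h6]

end Vale.Agent.N150.D6
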