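import Vale.Agent.N150.T1Alg0
import Vale.Agent.N150.T1Def
import Vale.Agent.N150.RadMeas

/-! T1: the roots `zr`, `zs`, `zh` for every symmetric matrix, `D1Stmt` and `ZStmt`. -/

open Matrix Finset Filter Topology

namespace Vale.Agent.N150.T1A

open Vale.Agent.P150 Vale.Agent.P150.F Vale.Agent.N150.EC Vale.Agent.N150.Sp Vale.Agent.N150.Cap

variable {n : ℕ}

/-! ### the definitions of `T1Def` are those of `T1Alg0` -/

theorem Db_eq (h h' : Vec n) : T1.Db h h' = db h h' := rfl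
theorem mu_eq (h h' : Vec n) : T1.mu h h' = mu h h' := rfl
theorem chi_eq (h : Vec n) : T1.chi h = chi h := rfl
theorem T2b_eq (J : Mat n) (z z' : ℝ) : T1.T2b J z z' = T2b J z z' := rfl
theorem Kt_eq (J : Mat n) (h : Vec n) (z : ℝ) : T1.Kt J h z = Kw J z (wb h) := rfl

theorem VW_eq (h h' : Vec n) : T1.VW h h' = VW h h' := by
  unfold T1.VW VW
  congr 1
  ext i j
  by_cases e : i = j
  · subst e; simp [Db_eq]
  · simp [e]

theorem Mp_eq (J : Mat n) (h h' : Vec n) (z z' : ℝ) (p : Vec n) :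
    T1.Mp J h h' z z' p = Mp J h h' z z' p := by
  unfold T1.Mp Mp
  rw [VW_eq]; rfl

theorem Psi_eq' (J : Mat n) (y h : Vec n) : T1.Psi J y h = Psi J y h (T1.zh J h) := rfl
theorem h0_eq (J : Mat n) (y : Vec n) : T1.h0 J y = h0 J y (T1.zs J y) := rfl
theorem w0_eq (J : Mat n) (y : Vec n) : T1.w0 J y = w0 J (T1.zs J y) := rfl
theorem AA_eq (J : Mat n) (y : Vec n) : T1.AA J y = AA J y (T1.zs J y) := rfl
theorem Pic_eq (J : Mat n) (y h : Vec n) :
    T1.Pic J y h = Pic J y (T1.zs J y) h (T1.zh J h) := rfl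

/-! ### roots -/

theorem unit_of_pd {J : Mat n} {z : ℝ} (h : (Nm J z).PosDef) : IsUnit (Nm J z).det :=
  (Matrix.isUnit_iff_isUnit_det _).1 h.isUnit

theorem T2b_JO {lam : Vec n} (O : OG n) {z z' : ℝ} (h : ∀ a, lam a < z) (h' : ∀ a, lam a < z') :
    T2b (JO lam O) z z' = ∑ a, (z - lam a)⁻¹ * (z' - lam a)⁻¹ := by
  unfold T2b
  rw [Rad.G0_JO O h, Rad.G0_JO O h', JO_mul, Rad.trace_JO]

theorem T2b_pos (hn : 0 < n) {J : Mat n} {z z' : ℝ} (h : (Nm J z).PosDef)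
    (h' : (Nm J z').PosDef) : 0 < T2b J z z' := by
  obtain ⟨lam, O, rfl⟩ := Rad.exists_JO (Rad.symm_of_posDef h)
  have k := Rad.lt_of_posDef h
  have k' := Rad.lt_of_posDef h'
  rw [T2b_JO O k k']
  exact Finset.sum_pos (fun a _ => mul_pos (inv_pos.2 (sub_pos.2 (k a)))
    (inv_pos.2 (sub_pos.2 (k' a)))) ⟨⟨0, hn⟩, Finset.mem_univ _⟩

/-- the saddle function in the eigenframe -/
theorem sad_JO {lam : Vec n} (O : OG n) (y : Vec n) {z : ℝ} (h : ∀ a, lam a < z) :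
    (G0 (JO lam O) z).trace + F.sq (G0 (JO lam O) z *ᵥ y) = sadF lam (O.1 *ᵥ y) z := by
  have := Rad.res_JO O y h
  unfold Rad.res Rad.pm at this
  linarith

theorem tr_JO {lam : Vec n} (O : OG n) {z : ℝ} (h : ∀ a, lam a < z) :
    (G0 (JO lam O) z).trace = sadF lam 0 z := by
  have := sad_JO O 0 h
  rw [mulVec_zero, mulVec_zero] at this
  rw [← this]
  simp [F.sq]

/-- a root of the saddle equation above the spectrum is `zs` -/
theorem zs_eq (hn : 0 < n) {J : Mat n} {y : Vec n} {z : ℝ} (h : (Nm J z).PosDef)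
    (e : (G0 J z).trace + F.sq (G0 J z *ᵥ y) = n) : T1.zs J y = z := by
  obtain ⟨lam, O, rfl⟩ := Rad.exists_JO (Rad.symm_of_posDef h)
  have k := Rad.lt_of_posDef h
  refine IsLeast.csInf_eq ⟨⟨h, e.le⟩, fun z' hz' => ?_⟩
  have k' := Rad.lt_of_posDef hz'.1
  have h2 := hz'.2
  rw [sad_JO O y k'] at h2
  rw [sad_JO O y k] at e
  by_contra hc
  linarith [Rad.sadF_strict hn (yt := O.1 *ᵥ y) k' (not_le.1 hc)]

/-- a root of the trace equation above the spectrum is `zr` -/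
theorem zr_eq (hn : 0 < n) {J : Mat n} {τ z : ℝ} (h : (Nm J z).PosDef)
    (e : (G0 J z).trace = τ) : T1.zr J τ = z := by
  obtain ⟨lam, O, rfl⟩ := Rad.exists_JO (Rad.symm_of_posDef h)
  have k := Rad.lt_of_posDef h
  refine IsLeast.csInf_eq ⟨⟨h, e.le⟩, fun z' hz' => ?_⟩
  have k' := Rad.lt_of_posDef hz'.1
  have h2 := hz'.2
  rw [tr_JO O k'] at h2
  rw [tr_JO O k] at e
  by_contra hc
  linarith [Rad.sadF_strict hn (yt := 0) k' (not_le.1 hc)]

/-- `zs` solves the saddle equation, for every symmetric matrix -/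
theorem zs_spec (hn : 0 < n) {J : Mat n} (hJ : J.IsSymm) (y : Vec n) :
    (Nm J (T1.zs J y)).PosDef ∧ (T1.G00 J y).trace + F.sq (T1.h0 J y) = n := by
  obtain ⟨lam, O, rfl⟩ := Rad.exists_JO hJ
  have k := Rad.lt_zs hn lam (O.1 *ᵥ y)
  have e : (G0 (JO lam O) _).trace + F.sq (G0 (JO lam O) _ *ᵥ y) = n :=
    (sad_JO O y k).trans (Rad.sadF_zs hn _ _)
  unfold T1.h0 T1.G00
  rw [zs_eq hn (Rad.posDef_Nm O k) e]
  exact ⟨Rad.posDef_Nm O k, e⟩

/-- `zr` solves the trace equation, for every symmetric matrix and every positive level -/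
theorem zr_spec (hn : 0 < n) {J : Mat n} (hJ : J.IsSymm) {τ : ℝ} (hτ : 0 < τ) :
    (Nm J (T1.zr J τ)).PosDef ∧ (G0 J (T1.zr J τ)).trace = τ := by
  obtain ⟨lam, O, rfl⟩ := Rad.exists_JO hJ
  have hn' : (0 : ℝ) < n := Nat.cast_pos.2 hn
  have hc : 0 < τ / n := div_pos hτ hn'
  obtain ⟨k, e⟩ := Rad.zs_spec hn (fun a => τ / n * lam a) 0
  set g := Rad.zs (fun a => τ / n * lam a) 0
  have k' : ∀ a, lam a < g / (τ / n) := fun a => by
    rw [lt_div_iff₀ hc, mul_comm]; exact k a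
  have e' : (G0 (JO lam O) (g / (τ / n))).trace = τ := by
    rw [tr_JO O k']
    have e2 : sadF lam 0 (g / (τ / n)) = τ / n * sadF (fun a => τ / n * lam a) 0 g := by
      unfold sadF
      rw [Finset.mul_sum]
      refine Finset.sum_congr rfl fun a _ => ?_
      have h1 : g - τ / n * lam a ≠ 0 := (sub_pos.2 (k a)).ne'
      have h2 : g / (τ / n) - lam a = (g - τ / n * lam a) / (τ / n) := by field_simp
      rw [h2]
      simp only [Pi.zero_apply]
      field_simp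
      ring
    rw [e2, e]
    field_simp
  rw [zr_eq hn (Rad.posDef_Nm O k') e']
  exact ⟨Rad.posDef_Nm O k', e'⟩

theorem sum_dv (hn : 0 < n) (h : Vec n) : ∑ i, dv h i = n * wb h := by
  have hn' : (n : ℝ) ≠ 0 := Nat.cast_ne_zero.2 hn.ne'
  unfold wb
  field_simp

/-- `z(h)` is above the spectrum and solves `res2 = 0`, for every symmetric `J` and every `h` -/
theorem zh_spec (hn : 0 < n) {J : Mat n} (hJ : J.IsSymm) (h : Vec n) :
    (Nm J (T1.zh J h)).PosDef ∧ res2 J h (T1.zh J h) = 0 := by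
  have hp : 0 < ∑ i, dv h i := by
    rw [sum_dv hn]; exact mul_pos (Nat.cast_pos.2 hn) (wb_pos hn h)
  obtain ⟨h1, h2⟩ := zr_spec hn hJ hp
  exact ⟨h1, sub_eq_zero.2 h2⟩

theorem zh_eq (hn : 0 < n) {J : Mat n} {h : Vec n} {z : ℝ} (hp : (Nm J z).PosDef)
    (r : res2 J h z = 0) : T1.zh J h = z := zr_eq hn hp (sub_eq_zero.1 r)

/-! ### D1 -/

theorem d1Stmt : T1.D1Stmt := by
  intro n J y h h' z z' hn p p' r r'
  have hu := unit_of_pd p
  have hu' := unit_of_pd p'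
  have hT := (T2b_pos hn p p').ne'
  simp only [VW_eq, Mp_eq, chi_eq, mu_eq, T2b_eq]
  refine ⟨chi_sub hn h h', wb_sub hn h h', ?_, ?_, Psi_sub hn hu hu' r r' hT y,
    res1_sub hn hu hu' r r' hT y, Mp_self hn hu h⟩
  · have := z_sub hn hu hu' r r'
    field_simp
    linarith
  · have e := Psi_eq hu y h
    unfold Psi at e
    rw [e]
    conv_lhs => rw [tm_eq hn h]
    simp only [sub_mulVec, smul_mulVec, one_mulVec, mulVec_add, smul_add]
    abel

/-- the increment formula at the roots, for every symmetric `J` -/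
theorem Psi_sub_MM (hn : 0 < n) {J : Mat n} (hJ : J.IsSymm) (y h h' : Vec n) :
    T1.Psi J y h - T1.Psi J y h' = T1.MM J h h' (T1.Psi J y h') *ᵥ (h - h') :=
  (d1Stmt n J y h h' _ _ hn (zh_spec hn hJ h).1 (zh_spec hn hJ h').1 (zh_spec hn hJ h).2
    (zh_spec hn hJ h').2).2.2.2.2.1

theorem rs1_sub_MM (hn : 0 < n) {J : Mat n} (hJ : J.IsSymm) (y h h' : Vec n) :
    G0 J (T1.zh J h) *ᵥ (T1.rs1 J y h - T1.rs1 J y h') = T1.MM J h h' 0 *ᵥ (h - h') :=
  (d1Stmt n J y h h' _ _ hn (zh_spec hn hJ h).1 (zh_spec hn hJ h').1 (zh_spec hn hJ h).2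
    (zh_spec hn hJ h').2).2.2.2.2.2.1

theorem MM_self (hn : 0 < n) {J : Mat n} (hJ : J.IsSymm) (h : Vec n) :
    T1.MM J h h 0 = G0 J (T1.zh J h) * Lm J h (T1.zh J h) :=
  (d1Stmt n J 0 h h _ _ hn (zh_spec hn hJ h).1 (zh_spec hn hJ h).1 (zh_spec hn hJ h).2
    (zh_spec hn hJ h).2).2.2.2.2.2.2

/-! ### location of a root -/

/-- sharp location of the root of the trace equation -/
theorem loc_scalar {lam : Vec n} {z z0 γ u : ℝ} (h : ∀ a, lam a < z) (h0 : ∀ a, lam a < z0)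
    (hγ : ∀ a, (z0 - lam a)⁻¹ ≤ γ) (hT : 0 < ∑ a, (z0 - lam a)⁻¹ ^ 2)
    (hu : |∑ a, (z - lam a)⁻¹ - ∑ a, (z0 - lam a)⁻¹| ≤ u * ∑ a, (z0 - lam a)⁻¹ ^ 2)
    (hs : u * γ ≤ 1 / 2) : |z - z0| ≤ 2 * u := by
  set T := ∑ a, (z0 - lam a)⁻¹ ^ 2 with hTd
  have hu0 : 0 ≤ u := by
    by_contra hc
    have := mul_neg_of_neg_of_pos (not_le.1 hc) hT
    linarith [abs_nonneg (∑ a, (z - lam a)⁻¹ - ∑ a, (z0 - lam a)⁻¹)]
  have e : ∑ a, (z - lam a)⁻¹ - ∑ a, (z0 - lam a)⁻¹
      = (z0 - z) * ∑ a, (z - lam a)⁻¹ * (z0 - lam a)⁻¹ := by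
    rw [← Finset.sum_sub_distrib, Finset.mul_sum]
    refine Finset.sum_congr rfl fun a _ => ?_
    have p1 := (sub_pos.2 (h a)).ne'
    have p2 := (sub_pos.2 (h0 a)).ne'
    field_simp
    ring
  rw [e] at hu
  rcases le_total z z0 with hz | hz
  · have k : T ≤ ∑ a, (z - lam a)⁻¹ * (z0 - lam a)⁻¹ := Finset.sum_le_sum fun a _ => by
      have p1 := sub_pos.2 (h a)
      have p2 := sub_pos.2 (h0 a)
      rw [pow_two]
      exact mul_le_mul_of_nonneg_right (inv_anti₀ p1 (by linarith)) (inv_pos.2 p2).le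
    have k2 : (z0 - z) * T ≤ u * T :=
      (mul_le_mul_of_nonneg_left k (by linarith)).trans ((le_abs_self _).trans hu)
    have k3 := le_of_mul_le_mul_right k2 hT
    rw [abs_sub_comm, abs_of_nonneg (by linarith)]
    linarith
  · have hγ0 : 0 ≤ γ := by
      by_contra hc
      have : T ≤ 0 := Finset.sum_nonpos fun a _ =>
        absurd ((inv_pos.2 (sub_pos.2 (h0 a))).trans_le (hγ a)) (by linarith)
      linarith
    have hd : 0 ≤ z - z0 := by linarith
    have k : T ≤ (1 + (z - z0) * γ) * ∑ a, (z - lam a)⁻¹ * (z0 - lam a)⁻¹ := by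
      rw [Finset.mul_sum]
      refine Finset.sum_le_sum fun a _ => ?_
      have p1 := sub_pos.2 (h a)
      have p2 := sub_pos.2 (h0 a)
      have q1 : (z0 - lam a)⁻¹ = (1 + (z - z0) * (z0 - lam a)⁻¹) * (z - lam a)⁻¹ := by
        field_simp
        ring
      have q2 : (z0 - lam a)⁻¹ ≤ (1 + (z - z0) * γ) * (z - lam a)⁻¹ := by
        rw [q1]
        refine mul_le_mul_of_nonneg_right ?_ (inv_pos.2 p1).le
        linarith [mul_le_mul_of_nonneg_left (hγ a) hd]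
      rw [pow_two, ← mul_assoc]
      exact mul_le_mul_of_nonneg_right q2 (inv_pos.2 p2).le
    have k1 : (z - z0) * ∑ a, (z - lam a)⁻¹ * (z0 - lam a)⁻¹ ≤ u * T := by
      refine le_trans ?_ ((neg_le_abs _).trans hu)
      exact le_of_eq (by ring)
    have hp : 0 ≤ 1 + (z - z0) * γ := by positivity
    have k2 : (z - z0) * T ≤ ((1 + (z - z0) * γ) * u) * T := by
      calc (z - z0) * T ≤ (z - z0) * ((1 + (z - z0) * γ) *
            ∑ a, (z - lam a)⁻¹ * (z0 - lam a)⁻¹) := mul_le_mul_of_nonneg_left k hd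
        _ = (1 + (z - z0) * γ) * ((z - z0) * ∑ a, (z - lam a)⁻¹ * (z0 - lam a)⁻¹) := by ring
        _ ≤ (1 + (z - z0) * γ) * (u * T) := mul_le_mul_of_nonneg_left k1 hp
        _ = _ := by ring
    have k3 := le_of_mul_le_mul_right k2 hT
    rw [abs_of_nonneg hd]
    nlinarith [mul_le_mul_of_nonneg_left hs hd]

/-! ### powers of the unit -/

/-- smallness of the unit -/
structure Sm (L t : ℝ) : Prop where
  L2 : 2 ≤ L
  t0 : 0 < t
  Lt : 16 * L * t ≤ 1

theorem ev_sm : T1.Ev Sm := fun L hL => by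
  have h1 : ∀ᶠ t in 𝓝[>] (0 : ℝ), 0 < t := self_mem_nhdsWithin
  have h2 : Tendsto (fun t : ℝ => 16 * L * t) (𝓝[>] 0) (𝓝 (16 * L * 0)) :=
    ((continuous_const.mul continuous_id).tendsto 0).mono_left nhdsWithin_le_nhds
  rw [mul_zero] at h2
  filter_upwards [h1, h2.eventually (eventually_le_nhds zero_lt_one)] with t a b
  exact ⟨hL, a, b⟩

/-- integer powers of the unit -/
noncomputable def E (t : ℝ) (k : ℤ) : ℝ := t ^ k

theorem E_nat (t : ℝ) (k : ℤ) (m : ℕ) (h : k = m) : E t k = t ^ m := by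
  rw [E, h, zpow_natCast]

theorem E_neg (t : ℝ) (k : ℤ) (m : ℕ) (h : k = -m) : E t k = t⁻¹ ^ m := by
  rw [E, h, _root_.zpow_neg, zpow_natCast, inv_pow]

theorem E_zero (t : ℝ) : E t 0 = 1 := zpow_zero t

namespace Sm

variable {L t : ℝ} (s : Sm L t)
include s

theorem t1 : t ≤ 1 / 32 := by nlinarith [s.L2, s.t0, s.Lt]

theorem pos (k : ℤ) : 0 < E t k := zpow_pos s.t0 k

theorem nn (k : ℤ) : 0 ≤ E t k := (s.pos k).le

theorem mono {a b : ℤ} (h : b ≤ a) : E t a ≤ E t b :=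
  zpow_le_zpow_right_of_le_one₀ s.t0 (by linarith [s.t1]) h

theorem mul (a b : ℤ) : E t a * E t b = E t (a + b) := (zpow_add₀ s.t0.ne' a b).symm

theorem mul_le {a b c : ℤ} (h : c ≤ a + b) : E t a * E t b ≤ E t c := by
  rw [s.mul]; exact s.mono h

theorem succ (a : ℤ) : E t (a + 1) = t * E t a := by
  rw [E, zpow_add_one₀ s.t0.ne', mul_comm]; rfl

/-- a constant at most `16 L` costs one power -/
theorem cst {C : ℝ} (hC : C ≤ 16 * L) {a b : ℤ} (h : b < a) : C * E t a ≤ E t b := by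
  have h1 : E t a ≤ t * E t b := by rw [← s.succ]; exact s.mono h
  have h2 := s.pos b
  have h3 := s.pos a
  have h4 := s.L2
  calc C * E t a ≤ 16 * L * E t a := mul_le_mul_of_nonneg_right hC h3.le
    _ ≤ 16 * L * (t * E t b) := mul_le_mul_of_nonneg_left h1 (by positivity)
    _ = 16 * L * t * E t b := by ring
    _ ≤ E t b := mul_le_of_le_one_left h2.le s.Lt

theorem num {C : ℝ} (hC : C ≤ 32) {a b : ℤ} (h : b < a) : C * E t a ≤ E t b :=
  s.cst (by linarith [s.L2]) h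

theorem cL {a b : ℤ} (h : b < a) : L * E t a ≤ E t b := s.cst (by linarith [s.L2]) h

theorem add {a b c : ℤ} (ha : c < a) (hb : c < b) : E t a + E t b ≤ E t c := by
  have h1 := s.num (C := 2) (by norm_num) ha
  have h2 := s.num (C := 2) (by norm_num) hb
  linarith

theorem small {a : ℤ} (h : 0 < a) : E t a ≤ 1 / 32 := by
  have h1 := s.num (C := 32) le_rfl h
  rw [E_zero] at h1
  linarith

theorem sq (a : ℤ) : E t a ^ 2 = E t (2 * a) := by rw [pow_two, s.mul, two_mul]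

end Sm

/-! ### the data of an admissible frame -/

section Adm

variable {L t : ℝ} {S : T1.Dat n}

theorem adm_pos (A : T1.Adm L t S) : 0 < n := by
  rcases Nat.eq_zero_or_pos n with h | h
  · have := A.big
    subst h
    simp only [Nat.cast_zero, zero_mul] at this
    linarith
  · exact h

theorem adm_gap (s : Sm L t) (A : T1.Adm L t S) (a : Fin n) : E t 288001 ≤ S.z0 - S.lam a := by
  have h1 := s.cL (a := 288001) (b := 288000) (by norm_num)
  have h2 := s.pos 288000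
  have hL : 0 < L := by linarith [s.L2]
  have h3 : E t 288001 ≤ 2 * t ^ 288000 / L := by
    rw [le_div_iff₀ hL, ← E_nat t 288000 288000 rfl]
    linarith
  linarith [A.lo, A.top a]

theorem adm_lt (s : Sm L t) (A : T1.Adm L t S) (a : Fin n) : S.lam a < S.z0 := by
  linarith [adm_gap s A a, s.pos 288001]

theorem adm_top (s : Sm L t) (A : T1.Adm L t S) (a : Fin n) : S.z0 - S.lam a ≤ 7 := by
  have h1 := s.cL (a := 288000) (b := 0) (by norm_num)
  rw [E_nat t 288000 288000 rfl, E_zero] at h1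
  linarith [A.hi, A.bot a]

theorem adm_g_pos (s : Sm L t) (A : T1.Adm L t S) (a : Fin n) : 0 < S.g a :=
  inv_pos.2 (sub_pos.2 (adm_lt s A a))

theorem adm_g_le (s : Sm L t) (A : T1.Adm L t S) (a : Fin n) : S.g a ≤ E t (-288001) := by
  have h1 := inv_anti₀ (s.pos 288001) (adm_gap s A a)
  rwa [E, ← _root_.zpow_neg] at h1

theorem act_y (S : T1.Dat n) (O : OG n) : O.1 *ᵥ S.y O = S.yt := OG.mulVec_tr_mulVec O _

theorem adm_zs (s : Sm L t) (A : T1.Adm L t S) (O : OG n) : T1.zs (S.J O) (S.y O) = S.z0 := by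
  have k := adm_lt s A
  refine zs_eq (adm_pos A) (Rad.posDef_Nm O k) ?_
  unfold T1.Dat.J
  rw [Rad.G0_JO O k, Rad.trace_JO, Rad.sq_JO, act_y, ← A.sad]
  simp only [T1.Dat.g, mul_pow]

theorem adm_G00 (s : Sm L t) (A : T1.Adm L t S) (O : OG n) :
    T1.G00 (S.J O) (S.y O) = JO S.g O := by
  unfold T1.G00
  rw [adm_zs s A]
  exact Rad.G0_JO O (adm_lt s A)

theorem adm_w0 (s : Sm L t) (A : T1.Adm L t S) (O : OG n) : T1.w0 (S.J O) (S.y O) = S.w := by
  unfold T1.w0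
  rw [adm_G00 s A, Rad.trace_JO]; rfl

theorem adm_T20 (s : Sm L t) (A : T1.Adm L t S) (O : OG n) :
    T1.T20 (S.J O) (S.y O) = ∑ a, S.g a ^ 2 := by
  unfold T1.T20
  rw [adm_zs s A]
  refine (Rad.T2_JO O (adm_lt s A)).trans ?_
  simp only [T1.Dat.g, inv_pow]

theorem adm_w (A : T1.Adm L t S) : S.w = 1 - (∑ a, (S.g a * S.yt a) ^ 2) / n := by
  have hn : (0 : ℝ) < n := Nat.cast_pos.2 (adm_pos A)
  have := A.sad
  unfold T1.Dat.w
  generalize ∑ a, (S.g a * S.yt a) ^ 2 = q at this ⊢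
  field_simp
  linarith

theorem adm_w_le (A : T1.Adm L t S) : S.w ≤ 1 := by
  rw [adm_w A]
  have : 0 ≤ (∑ a, (S.g a * S.yt a) ^ 2) / n := by positivity
  linarith

theorem adm_le_w (A : T1.Adm L t S) : 1 - L * t ^ 144000 ≤ S.w := by
  have hn : (0 : ℝ) < n := Nat.cast_pos.2 (adm_pos A)
  rw [adm_w A]
  have : (∑ a, (S.g a * S.yt a) ^ 2) / n ≤ L * t ^ 144000 := by
    rw [div_le_iff₀ hn]; linarith [A.y2]
  linarith

/-- `n ≤ t ^ 143999 T20 / 16` -/
theorem adm_T (s : Sm L t) (A : T1.Adm L t S) : 16 * n ≤ E t 143999 * ∑ a, S.g a ^ 2 := by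
  have h1 := s.cst (C := 16 * L) le_rfl (a := 144000) (b := 143999) (by norm_num)
  have h2 : 0 ≤ ∑ a, S.g a ^ 2 := by positivity
  have h3 := A.t2lo
  rw [← E_nat t 144000 144000 rfl] at h3
  nlinarith [mul_le_mul_of_nonneg_right h1 h2]

theorem adm_T_pos (s : Sm L t) (A : T1.Adm L t S) : 0 < ∑ a, S.g a ^ 2 :=
  Finset.sum_pos (fun a _ => pow_pos (adm_g_pos s A a) 2) ⟨⟨0, adm_pos A⟩, Finset.mem_univ _⟩

theorem J_symm (S : T1.Dat n) (O : OG n) : (S.J O).IsSymm := Rad.JO_symm _ _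

theorem zh_lt (A : T1.Adm L t S) (O : OG n) (h : Vec n) (a : Fin n) :
    S.lam a < T1.zh (S.J O) h := Rad.lt_of_posDef (zh_spec (adm_pos A) (J_symm S O) h).1 a

theorem adm_zh (s : Sm L t) (A : T1.Adm L t S) (O : OG n) {h : Vec n}
    (hw : |wb h - S.w| ≤ E t 144002) :
    |T1.zh (S.J O) h - S.z0| ≤ E t 143999 / 8 * |wb h - S.w| := by
  have hn := adm_pos A
  have hn' : (0 : ℝ) < n := Nat.cast_pos.2 hn
  have k := zh_lt A O h
  have e := trace_of_res2 hn (zh_spec hn (J_symm S O) h).2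
  unfold T1.Dat.J at e
  rw [show T1.zh (JO S.lam O) h = T1.zh (S.J O) h from rfl, Rad.G0_JO O k, Rad.trace_JO] at e
  have e0 : ∑ a, (S.z0 - S.lam a)⁻¹ = n * S.w := by
    unfold T1.Dat.w T1.Dat.g; field_simp
  have hT := adm_T s A
  have hp := s.pos 143999
  have key := loc_scalar (u := E t 143999 / 16 * |wb h - S.w|) (γ := E t (-288001)) k
    (adm_lt s A) (adm_g_le s A) (adm_T_pos s A) ?_ ?_
  · linarith
  · rw [e, e0, ← mul_sub, abs_mul, abs_of_pos hn']
    have := mul_le_mul_of_nonneg_right hT (abs_nonneg (wb h - S.w))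
    unfold T1.Dat.g at this
    linarith
  · have h1 : E t 143999 * E t 144002 * E t (-288001) = 1 := by
      rw [s.mul, s.mul, show (143999 + 144002 + -288001 : ℤ) = 0 by norm_num, E_zero]
    have h2 := s.pos (-288001)
    have h3 : E t 143999 * |wb h - S.w| * E t (-288001) ≤ 1 :=
      (mul_le_mul_of_nonneg_right (mul_le_mul_of_nonneg_left hw hp.le) h2.le).trans h1.le
    linarith

theorem zStmt : T1.ZStmt := fun L hL => by
  filter_upwards [ev_sm L hL] with t s n S O A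
  refine ⟨adm_zs s A O, adm_G00 s A O, adm_w0 s A O, adm_T20 s A O, adm_le_w A, adm_w_le A,
    fun h hw => ?_⟩
  obtain ⟨h1, h2⟩ := zh_spec (adm_pos A) (J_symm S O) h
  refine ⟨h1, h2, ?_⟩
  rw [← E_nat t 144010 144010 rfl] at hw
  rw [← E_nat t 143999 143999 rfl]
  refine (adm_zh s A O (hw.trans (s.mono (by norm_num)))).trans ?_
  exact mul_le_mul_of_nonneg_right (by linarith [s.pos 143999]) (abs_nonneg _)

end Adm

end Vale.Agent.N150.T1A
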