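import Vale.Agent.N150.D6a
import Vale.Agent.N150.T1Alg1

/-! T1: the deterministic consequences D5, D6 (`AStmt`, `D6WStmt`, `D6Stmt`). -/

open Matrix Filter Topology

namespace Vale.Agent.N150.Cube.Ctx

open Vale.Agent.P150 Vale.Agent.P150.F

variable {n : ℕ} {Nh Ni P Y A AA VV : Mat n} {VW : Vec n → Vec n → Mat n}
  {Ex : Vec n → Finset (Fin n)} {S : Set (Vec n)} {a B η ε κ K e : ℝ}
  (c : Ctx Nh Ni P Y A AA VV VW Ex S a B η ε κ K e)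
include c

theorem hat_M (M : Mat n) : Nh * M * Ni = (Nh * AA * Ni) * (1 - Th Nh Ni AA M) := by
  have e1 : (Nh * AA * Ni) * (1 - Th Nh Ni AA M)
      = Nh * AA * Ni + Nh * (AA * (Ni * Nh) * AA⁻¹) * (M - AA) * Ni := by
    unfold Th; noncomm_ring
  rw [e1, c.h1, mul_one, Matrix.mul_nonsing_inv _ c.uAA]
  noncomm_ring

/-- upper bound `‖Nh M Ni‖ ≤ 10 K ^ 3 ‖Nh AA Ni‖` -/
theorem M_le {h h' : Vec n} (hh : h ∈ S) (hh' : h' ∈ S) {M : Mat n} {bA : ℝ}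
    (hM : Dec Nh Ni Y AA (VW h h') ε M) (hb : 0 ≤ bA) (hA : OpLe (Nh * AA * Ni) bA) :
    OpLe (Nh * M * Ni) (10 * K ^ 3 * bA) := by
  have hK := c.K1
  have hK3 : 1 ≤ K ^ 3 := one_le_pow₀ hK
  rw [c.hat_M]
  refine (hA.mulN (opLe_one.sub (c.T_le hh hh' hM) zero_le_one (by positivity)) hb
    (by positivity)).monoN (by positivity) ?_
  nlinarith

/-- D6 (a): the size of `Ψ` at any point of `S` from its size at one point -/
theorem psi_le {h h' : Vec n} (hh : h ∈ S) (hh' : h' ∈ S) {M : Mat n} {bA : ℝ} {u u' : Vec n}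
    (hM : Dec Nh Ni Y AA (VW h h') ε M) (hb : 0 ≤ bA) (hA : OpLe (Nh * AA * Ni) bA)
    (hu : u - u' = M *ᵥ (h - h')) :
    nv (Nh *ᵥ u) ≤ nv (Nh *ᵥ u') + 10 * K ^ 3 * bA * nv (Nh *ᵥ (h - h')) := by
  have hK := c.K1
  have e1 : Nh *ᵥ u = Nh *ᵥ u' + (Nh * M * Ni) *ᵥ (Nh *ᵥ (h - h')) := by
    rw [Matrix.mulVec_mulVec, mul_assoc (Nh * M), c.h1, mul_one, ← Matrix.mulVec_mulVec, ← hu,
      ← Matrix.mulVec_add, add_sub_cancel]
  rw [e1]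
  exact (nv_add_le _ _).trans (add_le_add le_rfl
    ((c.M_le hh hh' hM hb hA).nv_le (by positivity) _))

end Vale.Agent.N150.Cube.Ctx

namespace Vale.Agent.N150.D6

open Vale.Agent.P150 Vale.Agent.P150.F Vale.Agent.N150.EC Vale.Agent.N150.Sp Vale.Agent.N150.T1
  Vale.Agent.N150.Cube

variable {n : ℕ}

theorem aStmt : AStmt := aStmt_of T1A.zStmt

/-! ### the cubic part `h - tanh h` -/

theorem nv_cub_sub (h h' : Vec n) : nv ((h - tm h) - (h' - tm h')) ≤ nv (h - h') := by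
  refine nv_mono fun i => ?_
  have h1 := T1A.dd1_mul (h i) (h' i)
  have h2 := T1A.dd1_pos (h i) (h' i)
  have h3 := T1A.dd1_le (h i) (h' i)
  have e1 : ((h - tm h) - (h' - tm h')) i = (1 - T1A.dd1 (h i) (h' i)) * (h - h') i := by
    simp only [Pi.sub_apply, tm]
    linarith
  rw [e1, abs_mul]
  refine mul_le_of_le_one_left (abs_nonneg _) ?_
  rw [abs_le]
  constructor <;> linarith

theorem nv_cub_le {h : Vec n} {θ : ℝ} (hθ : ∀ i, |h i| ≤ θ) : nv (h - tm h) ≤ θ ^ 2 * nv h := by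
  refine nv_le_mul (sq_nonneg θ) fun i => ?_
  have h1 := T1A.dd1_mul (h i) 0
  have h3 := T1A.dd1_le (h i) 0
  have h4 := T1A.one_sub_dd1_le (h i) 0
  have h5 := T1A.abs_tanh_sub_le (h i) 0
  rw [Real.tanh_zero, sub_zero, sub_zero] at h1 h5
  have h6 : Real.tanh (h i) ^ 2 ≤ θ ^ 2 := by
    rw [← sq_abs]
    exact pow_le_pow_left₀ (abs_nonneg _) (h5.trans (hθ i)) 2
  have h7 : 1 - T1A.dd1 (h i) 0 ≤ θ ^ 2 :=
    h4.trans (max_le h6 (by rw [Real.tanh_zero, zero_pow two_ne_zero]; exact sq_nonneg θ))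
  have e1 : (h - tm h) i = (1 - T1A.dd1 (h i) 0) * h i := by
    simp only [Pi.sub_apply, tm]
    linarith
  rw [e1, abs_mul, abs_of_nonneg (by linarith)]
  exact mul_le_mul_of_nonneg_right h7 (abs_nonneg _)

/-! ### the general form, around a reference point `hc` -/

/-- points of the region `R` near the reference point -/
def Near (t : ℝ) (S : Dat n) (O : OG n) (hc h : Vec n) : Prop :=
  nv (h - hc) ≤ 2 * (√n * t ^ 252000) ∧ Reg t (S.J O) (S.y O) h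

/-- consequences of the weak structure predicate at the points near `hc` -/
structure OutW (t : ℝ) (S : Dat n) (O : OG n) (hc : Vec n) : Prop where
  unit : ∀ h, Near t S O hc h → IsUnit (Lm (S.J O) h (zh (S.J O) h)).det
  gam : ∀ h, Near t S O hc h →
    OpLe (S.Nsq O * Gam (S.J O) h (zh (S.J O) h) * S.Nsq O) (t⁻¹ ^ 100)
  gm : ∀ h, Near t S O hc h →
    OpLe (S.Nsq O * Gm (S.J O) h (zh (S.J O) h) * S.Nsq O) (t⁻¹ ^ 200)
  gamP : ∀ h, Near t S O hc h →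
    OpLe (S.P (t ^ 139200) O * S.Nsq O * (Gam (S.J O) h (zh (S.J O) h) - Gs (S.J O) (S.y O)) *
      S.Nsq O * S.P (t ^ 139200) O) (t ^ 3000)
  gmP : ∀ h, Near t S O hc h →
    OpLe (S.P (t ^ 139200) O * S.Nsq O * (Gm (S.J O) h (zh (S.J O) h) - Gs (S.J O) (S.y O)) *
      S.Nsq O * S.P (t ^ 139200) O) (t ^ 3000)
  close : ∀ h h', Near t S O hc h → Near t S O hc h' →
    nv (S.Nsq O *ᵥ (h - h')) ≤
      t⁻¹ ^ 100 * nv (S.Nis O *ᵥ (rs1 (S.J O) (S.y O) h - rs1 (S.J O) (S.y O) h'))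
  vw : ∀ h h', Near t S O hc h → Near t S O hc h' →
    OpLe (S.Nis O * VW h h' * S.Nis O) (t⁻¹ ^ 23)
  mm : ∀ h h' p, Near t S O hc h → Near t S O hc h' → nv p ≤ √n * t ^ 107000 →
    IsUnit (MM (S.J O) h h' p).det ∧ OpLe (S.Nsq O * (MM (S.J O) h h' p)⁻¹ * S.Nis O) (t⁻¹ ^ 67) ∧
      OpLe (S.Nsq O * MM (S.J O) h h' p * S.Nis O) (t⁻¹ ^ 35)

/-- (D5, D6) in the stable form -/
def D6WStmt : Prop := Ev fun L t => ∀ (n : ℕ) (S : Dat n) (O : OG n) (hc : Vec n),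
  Adm L t S → StrW t S O hc → OutW t S O hc

/-- the inputs A, D2, D4 at one frame -/
structure Pk (L t : ℝ) (S : Dat n) (O : OG n) : Prop where
  sm : Sm L t
  adm : Adm L t S
  w1 : 1 - L * t ^ 144000 ≤ S.w
  w2 : S.w ≤ 1
  uA : IsUnit (AA (S.J O) (S.y O)).det
  hA : OpLe (S.Nsq O * AA (S.J O) (S.y O) * S.Nis O) t⁻¹
  nAi : OpLe (S.Nsq O * (AA (S.J O) (S.y O))⁻¹ * S.Nis O - S.Abi (t ^ 139200) O) (t ^ 74000)
  nA : OpLe (S.Abi (t ^ 139200) O) 2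
  AP : S.Abi (t ^ 139200) O * S.P (t ^ 139200) O = S.P (t ^ 139200) O * S.Abi (t ^ 139200) O
  hi : (1 - S.P (t ^ 139200) O) * S.Abi (t ^ 139200) O = S.w⁻¹ • (1 - S.P (t ^ 139200) O)
  nGs : OpLe (S.Nsq O * (AA (S.J O) (S.y O))⁻¹ * S.Nis O - S.Nsq O * Gs (S.J O) (S.y O) * S.Nsq O)
    (t ^ 143000)
  nY : OpLe (S.Y O) 8
  d2 : ∀ (h h' p : Vec n) (r : ℝ), Reg t (S.J O) (S.y O) h → Reg t (S.J O) (S.y O) h' → 0 ≤ r →
    nv p ≤ √n * r → |wb h - S.w| ≤ t ^ 214900 ∧ |zh (S.J O) h - S.z0| ≤ t ^ 358800 ∧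
    OpLe (S.Nsq O * EE (S.J O) (S.y O) h h' p * S.Nis O) (t ^ 69000 + r * t⁻¹ ^ 72200) ∧
    OpLe (S.Nsq O * (Kt (S.J O) h (zh (S.J O) h) - S.K0 O) * S.Nsq O) (t ^ 70000) ∧
    OpLe (S.Nsq O * G0 (S.J O) (zh (S.J O) h) * S.Nsq O - 1) (t ^ 70000) ∧
    OpLe (S.Nsq O * ((2 / (n * wb h')) • vecMulVec (tm h') (mu h h')) * S.Nis O) (t ^ 70000)
  d4 : ∀ hc : Vec n, StrW t S O hc →
    OpLe ((1 - S.P (t ^ 139200) O) * S.X0 O hc * (1 - S.P (t ^ 139200) O)) (t ^ 4000) ∧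
    (∀ A : Finset (Fin n), (A.card : ℝ) ≤ n * t ^ 360000 →
      OpLe (S.P (t ^ 139200) O * S.IA O A) (t ^ 4000)) ∧
    ∀ h h' : Vec n, nv (h - hc) ≤ 2 * (√n * t ^ 252000) → nv (h' - hc) ≤ 2 * (√n * t ^ 252000) →
      ((spk (t ^ 71999) h h').card : ℝ) ≤ n * t ^ 360001 ∧
      ∃ d : Vec n, (∀ i, |d i| ≤ 1) ∧ (∀ i ∉ spk (t ^ 71999) h h', d i = 0) ∧
        OpLe (S.Nis O * (VW h h' - VW hc hc - diagonal d) * S.Nis O) (t ^ 4000)

theorem ev_pk (h2 : D2Stmt) (h4 : D4Stmt) :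
    Ev fun L t => ∀ (n : ℕ) (S : Dat n) (O : OG n), Adm L t S → Pk L t S O := by
  intro L hL
  filter_upwards [T1A.zStmt L hL, aStmt L hL, h2 L hL, h4 L hL, ev_sm hL]
    with t hZ hA h2 h4 hs n S O ha
  obtain ⟨-, -, -, -, z1, z2, -⟩ := hZ n S O ha
  obtain ⟨a1, -, -, a2, -, a3, a4, a5, a6, a7, a8⟩ := hA n S O ha
  refine ⟨hs, ha, z1, z2, a1, a2, a3, a4, a5, a6, a7, a8, fun h h' p r hh hh' hr hp => ?_,
    fun hc hW => h4 n S O hc ha hW⟩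
  obtain ⟨b1, b2, -, -, -, -, -, b3, b4, b5, b6⟩ := h2 n S O h h' p r ha hh hh' hr hp
  exact ⟨b1, b2, b3, b4, b5, b6⟩

namespace Pk

variable {L t : ℝ} {S : Dat n} {O : OG n} (k : Pk L t S O)
include k

theorem p0 (a : ℕ) : 0 ≤ t ^ a := pow_nonneg k.sm.pos.le a

theorem i0 (a : ℕ) : 0 ≤ t⁻¹ ^ a := pow_nonneg (inv_pos.2 k.sm.pos).le a

theorem Lt : 2 * L * t ^ 144000 ≤ t ^ 143000 :=
  k.sm.mon2 (by simpa using k.sm.cL (C := 2) 1 (by norm_num) (by norm_num)) _ _ (by norm_num)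

theorem w_half : 1 / 2 ≤ S.w := by
  have h1 := k.Lt
  have h2 : t ^ 143000 ≤ 1 := pow_le_one₀ k.sm.pos.le k.sm.le_one
  linarith [k.w1]

theorem ctx {hc : Vec n} (hW : StrW t S O hc) {T : Set (Vec n)}
    (hT : ∀ h ∈ T, nv (h - hc) ≤ 2 * (√n * t ^ 252000)) :
    Ctx (S.Nsq O) (S.Nis O) (S.P (t ^ 139200) O) (S.Y O) (S.Abi (t ^ 139200) O)
      (AA (S.J O) (S.y O)) (VW hc hc) VW (fun h => spk (t ^ 71999) h h) T S.w⁻¹ (t⁻¹ ^ 11)
      (t ^ 3900) (t ^ 34000) (n * t ^ 360000) (t⁻¹ ^ 11) (t ^ 3899) := by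
  have hs := k.sm
  obtain ⟨d1, d2, d3⟩ := k.d4 hc hW
  have hw := k.w_half
  have hw0 : 0 < S.w := by linarith
  have hη : t ^ 4000 ≤ t ^ 3900 := hs.pw (by norm_num)
  refine ⟨Nis_Nsq hs k.adm O, Nsq_Nis hs k.adm O, Nis_symm S O, k.uA, fun A hA => ?_,
    fun h hh => ?_, fun h hh h' hh' => ?_, k.p0 _, k.nAi.monoN (k.p0 _) (hs.pw (by norm_num)), ?_,
    le_rfl, ?_, ?_⟩
  · exact ⟨P_symm S _ O, P_idem S _ O, P_Y S _ O, k.AP, k.hi, (inv_pos.2 hw0).le,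
      by rw [inv_le_comm₀ hw0 (by norm_num)]; linarith only [hw], k.p0 _, k.i0 _, k.nY, k.nA,
      hW.str.e1, d1.monoN (k.p0 _) hη, hW.str.e3, hW.str.e3', hW.str.e4,
      (d2 A hA).monoN (k.p0 _) hη, hW.str.e5 A hA, hW.str.e6 A hA, hW.str.e7 A hA,
      hW.str.e7' A hA⟩
  · have h1 := (d3 h h (hT h hh) (hT h hh)).1
    have h2 : 4 * t ^ 360001 ≤ t ^ 360000 := hs.mon2 (hs.c (by norm_num)) _ _ (by norm_num)
    have h3 := mul_le_mul_of_nonneg_left h2 (Nat.cast_nonneg (α := ℝ) n)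
    linarith only [h1, h3]
  · obtain ⟨-, d, hd, hd0, hX⟩ := d3 h h' (hT h hh) (hT h' hh')
    refine ⟨d, hd, fun i hi hi' => hd0 i fun h1 => ?_, hX.monoN (k.p0 _) hη⟩
    rcases (Finset.mem_filter.1 h1).2 with h2 | h2
    · exact hi (Finset.mem_filter.2 ⟨Finset.mem_univ _, Or.inl h2⟩)
    · exact hi' (Finset.mem_filter.2 ⟨Finset.mem_univ _, Or.inl h2⟩)
  · have h1 := hs.ipw (a := 1) (b := 11) (by norm_num)
    rw [pow_one] at h1
    linarith only [h1, hs.big]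
  · have h1 : 32 * t ^ 3900 ≤ t ^ 3899 := hs.mon2 (hs.c (by norm_num)) _ _ (by norm_num)
    have h2 : 204 * (t⁻¹ ^ 22 * t ^ 34000) ≤ t ^ 3899 :=
      hs.mon1 (hs.c (by norm_num)) _ _ _ (by norm_num)
    have h3 : 102 * (t⁻¹ ^ 11) ^ 2 * t ^ 34000 = 102 * (t⁻¹ ^ 22 * t ^ 34000) := by ring
    rw [h3]
    linarith only [h1, h2]
  · have h2 : 2000 * (t⁻¹ ^ 88 * t ^ 3899) ≤ t ^ 0 :=
      hs.mon1 (hs.c (by norm_num)) _ _ _ (by norm_num)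
    have h3 : 2000 * (t⁻¹ ^ 11) ^ 8 * t ^ 3899 = 2000 * (t⁻¹ ^ 88 * t ^ 3899) := by ring
    rw [h3]
    rwa [pow_zero] at h2

theorem dec {h h' p : Vec n} (hh : Reg t (S.J O) (S.y O) h) (hh' : Reg t (S.J O) (S.y O) h')
    (hp : nv p ≤ √n * t ^ 107000) :
    Dec (S.Nsq O) (S.Nis O) (S.Y O) (AA (S.J O) (S.y O)) (VW h h') (t ^ 34000)
      (MM (S.J O) h h' p) := by
  have hs := k.sm
  obtain ⟨-, -, b3, b4, -, -⟩ := k.d2 h h' p _ hh hh' (k.p0 107000) hp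
  rw [← Nsq_K0 hs k.adm O]
  refine dec_of (Kt := Kt (S.J O) h (zh (S.J O) h)) (E := EE (S.J O) (S.y O) h h' p)
    (Nsq_Nis hs k.adm O) ?_ (b4.monoN (k.p0 _) (hs.pw (by norm_num)))
    (b3.monoN (add_nonneg (k.p0 _) (mul_nonneg (k.p0 _) (k.i0 _))) ?_)
  · unfold EE
    noncomm_ring
  · have h1 : 2 * t ^ 69000 ≤ t ^ 34000 := hs.mon2 (hs.c (by norm_num)) _ _ (by norm_num)
    have h2 : 2 * (t⁻¹ ^ 72200 * t ^ 107000) ≤ t ^ 34000 :=
      hs.mon1 (hs.c (by norm_num)) _ _ _ (by norm_num)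
    linarith only [h1, h2]

theorem zero_le_r : nv (0 : Vec n) ≤ √n * t ^ 107000 := by
  rw [nv_zero]
  exact mul_nonneg (Real.sqrt_nonneg _) (k.p0 _)

theorem nGs' : OpLe (S.Abi (t ^ 139200) O - S.Nsq O * Gs (S.J O) (S.y O) * S.Nsq O)
    (t ^ 143000 + t ^ 74000) := by
  have := k.nGs.sub k.nAi (k.p0 _) (k.p0 _)
  rwa [sub_sub_sub_cancel_left] at this

theorem low_Gs {G : Mat n} {e : ℝ} (he : 0 ≤ e) (he' : 2 * e ≤ t ^ 3000)
    (h : OpLe (S.P (t ^ 139200) O * (S.Nsq O * G * S.Nsq O - S.Abi (t ^ 139200) O) *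
      S.P (t ^ 139200) O) e) :
    OpLe (S.P (t ^ 139200) O * S.Nsq O * (G - Gs (S.J O) (S.y O)) * S.Nsq O *
      S.P (t ^ 139200) O) (t ^ 3000) := by
  have hs := k.sm
  have pP := opLe_proj (P_symm S (t ^ 139200) O) (P_idem S (t ^ 139200) O)
  have h0 := add_nonneg (k.p0 143000) (k.p0 74000)
  have h1 := h.add ((pP.mulN k.nGs' zero_le_one h0).mulN pP (by linarith only [h0]) zero_le_one) he
    (by linarith only [h0])
  have e1 : ∀ P N G G' A : Mat n, P * N * (G - G') * N * P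
      = P * (N * G * N - A) * P + P * (A - N * G' * N) * P := by
    intros
    noncomm_ring
  rw [e1 _ _ _ _ (S.Abi (t ^ 139200) O)]
  refine h1.monoN (by linarith only [h0, he]) ?_
  have h2 : 4 * t ^ 143000 ≤ t ^ 3000 := hs.mon2 (hs.c (by norm_num)) _ _ (by norm_num)
  have h3 : 4 * t ^ 74000 ≤ t ^ 3000 := hs.mon2 (hs.c (by norm_num)) _ _ (by norm_num)
  linarith only [h2, h3, he']

theorem outW {hc : Vec n} (hW : StrW t S O hc) : OutW t S O hc := by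
  have hs := k.sm
  have hn := n_pos hs k.adm
  have hJ := T1A.J_symm S O
  have c := k.ctx hW (T := {h | Near t S O hc h}) fun h hh => hh.1
  have i1 := k.i0 11
  have hZ : ∀ h, Near t S O hc h →
      OpLe (S.Nsq O * G0 (S.J O) (zh (S.J O) h) * S.Nsq O - 1) (t ^ 34000) := fun h hh =>
    (k.d2 h h 0 _ hh.2 hh.2 (k.p0 107000) k.zero_le_r).2.2.2.2.1.monoN (k.p0 _)
      (hs.pw (by norm_num))
  have hR : ∀ h, Near t S O hc h → IsUnit (Lm (S.J O) h (zh (S.J O) h)).det ∧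
      OpLe (S.Nsq O * (Lm (S.J O) h (zh (S.J O) h))⁻¹ * S.Nsq O) (2916 * (t⁻¹ ^ 11) ^ 6) ∧
      OpLe (S.P (t ^ 139200) O * (S.Nsq O * (Lm (S.J O) h (zh (S.J O) h))⁻¹ * S.Nsq O -
        S.Abi (t ^ 139200) O) * S.P (t ^ 139200) O)
        (1000000 * (t⁻¹ ^ 11) ^ 14 * t ^ 3899 + 1944 * (t⁻¹ ^ 11) ^ 6 * t ^ 34000) := fun h hh =>
    (c.resp (h := h) (h' := h) hh hh (k.dec hh.2 hh.2 k.zero_le_r)).2.2
      (T1A.MM_self hn hJ h).symm (hZ h hh)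
  have hG : ∀ h, Near t S O hc h →
      OpLe (S.Nsq O * Gm (S.J O) h (zh (S.J O) h) * S.Nsq O)
        ((2 + 9 * 7 * (t⁻¹ ^ 11) ^ 2) * (2916 * (t⁻¹ ^ 11) ^ 6)) ∧
      OpLe (S.P (t ^ 139200) O * (S.Nsq O * Gm (S.J O) h (zh (S.J O) h) * S.Nsq O -
        S.Abi (t ^ 139200) O) * S.P (t ^ 139200) O)
        (1000000 * (t⁻¹ ^ 11) ^ 14 * t ^ 3899 + 5000 * (t⁻¹ ^ 11) ^ 6 * t ^ 34000
          + 26244 * (t⁻¹ ^ 11) ^ 8 * (2 * t ^ 139200)) := by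
    intro h hh
    obtain ⟨b1, -, -, -, -, b6⟩ := k.d2 h h 0 _ hh.2 hh.2 (k.p0 107000) k.zero_le_r
    have e1 : Gm (S.J O) h (zh (S.J O) h) = (wb h • (1 : Mat n) +
        diagonal fun i => dv h i - wb h) * (Lm (S.J O) h (zh (S.J O) h))⁻¹ := by
      unfold Gm Gam
      congr 1
      ext i j
      by_cases hij : i = j
      · subst hij; simp
      · simp [hij]
    have e2 : S.Nsq O * (diagonal fun i => dv h i - wb h) * S.Nis O
        = S.Nsq O * S.Nsq O * (S.Nis O * VW h h * S.Nis O)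
          - S.Nsq O * ((2 / (n * wb h)) • vecMulVec (tm h) (mu h h)) * S.Nis O := by
      have e3 : S.Nsq O * S.Nsq O * (S.Nis O * VW h h * S.Nis O)
          = S.Nsq O * (S.Nsq O * S.Nis O) * VW h h * S.Nis O := by simp only [mul_assoc]
      have e4 : (fun i => Db h h i - wb h) = fun i => dv h i - wb h := by
        funext i
        rw [T1A.Db_eq, T1A.db_self]
      rw [e3, Nsq_Nis hs k.adm O, mul_one, VW, e4, mul_add, add_mul, add_sub_cancel_right]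
    have hw1 : |wb h| ≤ 1 := by
      rw [abs_of_pos (T1A.wb_pos hn h)]; exact T1A.wb_le hn h
    have hw2 : |wb h - 1| ≤ t ^ 34000 := by
      have h1 : 2 * t ^ 214900 ≤ t ^ 34000 := hs.mon2 (hs.c (by norm_num)) _ _ (by norm_num)
      have h2 : t ^ 143000 ≤ t ^ 34000 := hs.pw (by norm_num)
      have h3 := abs_le.1 b1
      have h4 := k.p0 34000
      rw [abs_le]
      constructor <;> linarith only [h1, h2, h3.1, h3.2, k.Lt, k.w1, k.w2, h4]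
    have := c.gm (h := h) hh (k.dec hh.2 hh.2 k.zero_le_r) (T1A.MM_self hn hJ h).symm (hZ h hh)
      (by norm_num) (mul_nonneg zero_le_two (k.p0 139200)) hw1 hw2 e2
      (b6.monoN (k.p0 _) (hs.pw (by norm_num))) (opLe_N0 hs k.adm O) (opLe_PN0 hs k.adm O)
    rwa [← e1, one_smul] at this
  have q1 : 6000000 * (t⁻¹ ^ 154 * t ^ 3899) ≤ t ^ 3000 :=
    hs.mon1 (hs.c (by norm_num)) _ _ _ (by norm_num)
  have q2 : 30000 * (t⁻¹ ^ 66 * t ^ 34000) ≤ t ^ 3000 :=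
    hs.mon1 (hs.c (by norm_num)) _ _ _ (by norm_num)
  have q3 : 314928 * (t⁻¹ ^ 88 * t ^ 139200) ≤ t ^ 3000 :=
    hs.mon1 (hs.c (by norm_num)) _ _ _ (by norm_num)
  have r1 := mul_nonneg (k.i0 154) (k.p0 3899)
  have r2 := mul_nonneg (k.i0 66) (k.p0 34000)
  have r3 := mul_nonneg (k.i0 88) (k.p0 139200)
  refine ⟨fun h hh => (hR h hh).1, fun h hh => (hR h hh).2.1.monoN (by positivity) ?_,
    fun h hh => (hG h hh).1.monoN (by positivity) ?_, fun h hh => ?_, fun h hh => ?_,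
    fun h h' hh hh' => ?_, fun h h' hh hh' => (c.X_le (h := h) (h' := h') hh hh').monoN
      (by positivity) ?_, fun h h' p hh hh' hp => ?_⟩
  · rw [← pow_mul]
    exact hs.mon3 (hs.c (by norm_num)) _ _ (by norm_num)
  · have h1 : 367416 * t⁻¹ ^ 88 ≤ t⁻¹ ^ 200 := hs.mon3 (hs.c (by norm_num)) _ _ (by norm_num)
    have h2 : 11664 * t⁻¹ ^ 66 ≤ t⁻¹ ^ 200 := hs.mon3 (hs.c (by norm_num)) _ _ (by norm_num)
    have h3 : (2 + 9 * 7 * (t⁻¹ ^ 11) ^ 2) * (2916 * (t⁻¹ ^ 11) ^ 6)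
        = 5832 * t⁻¹ ^ 66 + 183708 * t⁻¹ ^ 88 := by ring
    rw [h3]
    linarith only [h1, h2]
  · have h3 : 1000000 * (t⁻¹ ^ 11) ^ 14 * t ^ 3899 + 1944 * (t⁻¹ ^ 11) ^ 6 * t ^ 34000
        = 1000000 * (t⁻¹ ^ 154 * t ^ 3899) + 1944 * (t⁻¹ ^ 66 * t ^ 34000) := by ring
    have h4 := (hR h hh).2.2
    rw [h3] at h4
    exact k.low_Gs (by linarith only [r1, r2]) (by linarith only [q1, q2, r1, r2]) h4
  · have h3 : 1000000 * (t⁻¹ ^ 11) ^ 14 * t ^ 3899 + 5000 * (t⁻¹ ^ 11) ^ 6 * t ^ 34000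
          + 26244 * (t⁻¹ ^ 11) ^ 8 * (2 * t ^ 139200)
        = 1000000 * (t⁻¹ ^ 154 * t ^ 3899) + 5000 * (t⁻¹ ^ 66 * t ^ 34000)
          + 52488 * (t⁻¹ ^ 88 * t ^ 139200) := by ring
    have h4 := (hG h hh).2
    rw [h3] at h4
    exact k.low_Gs (by linarith only [r1, r2, r3]) (by linarith only [q1, q2, q3]) h4
  · have h1 := c.close (h := h) (h' := h') hh hh' (k.dec hh.2 hh'.2 k.zero_le_r) (h - h')
    rw [← T1A.rs1_sub_MM hn hJ (S.y O) h h'] at h1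
    obtain ⟨v, hv⟩ : ∃ v, v = rs1 (S.J O) (S.y O) h - rs1 (S.J O) (S.y O) h' := ⟨_, rfl⟩
    rw [← hv] at h1 ⊢
    have e1 : S.Nsq O *ᵥ (G0 (S.J O) (zh (S.J O) h) *ᵥ v)
        = (S.Nsq O * G0 (S.J O) (zh (S.J O) h) * S.Nsq O - 1 + 1) *ᵥ (S.Nis O *ᵥ v) := by
      rw [sub_add_cancel, Matrix.mulVec_mulVec, Matrix.mulVec_mulVec, mul_assoc _ (S.Nsq O),
        Nsq_Nis hs k.adm O, mul_one]
    have h2 := ((hZ h hh).add opLe_one (k.p0 _) zero_le_one).nv_le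
      (add_nonneg (k.p0 _) zero_le_one) (S.Nis O *ᵥ v)
    rw [← e1] at h2
    have h3 : t ^ 34000 ≤ 1 := pow_le_one₀ hs.pos.le hs.le_one
    have h4 := nv_nonneg (S.Nis O *ᵥ v)
    have h5 : 2916 * t⁻¹ ^ 66 ≤ t⁻¹ ^ 100 := hs.mon3 (hs.c (by norm_num)) _ _ (by norm_num)
    calc nv (S.Nsq O *ᵥ (h - h')) ≤ _ := h1
      _ ≤ 1458 * (t⁻¹ ^ 11) ^ 6 * (2 * nv (S.Nis O *ᵥ v)) :=
          mul_le_mul_of_nonneg_left (h2.trans (mul_le_mul_of_nonneg_right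
            (by linarith only [h3]) h4)) (by positivity)
      _ = 2916 * t⁻¹ ^ 66 * nv (S.Nis O *ᵥ v) := by ring
      _ ≤ _ := mul_le_mul_of_nonneg_right h5 h4
  · rw [← pow_mul]
    exact hs.mon3 (hs.c (by norm_num)) _ _ (by norm_num)
  · have hd := k.dec hh.2 hh'.2 hp
    obtain ⟨u1, u2, -⟩ := c.resp (G := 1) (L := 1) (h := h) (h' := h') hh hh' hd
    have hi := (inv_pos.2 hs.pos).le
    refine ⟨u1, u2.monoN (by positivity) ?_,
      (c.M_le (h := h) (h' := h') hh hh' hd hi k.hA).monoN (by positivity) ?_⟩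
    · rw [← pow_mul]
      exact hs.mon3 (hs.c (by norm_num)) _ _ (by norm_num)
    · have h3 : 10 * (t⁻¹ ^ 11) ^ 3 * t⁻¹ = 10 * t⁻¹ ^ 34 := by ring
      rw [h3]
      exact hs.mon3 (hs.c (by norm_num)) _ _ (by norm_num)

end Pk

theorem d6W_of (h2 : D2Stmt) (h4 : D4Stmt) : D6WStmt := fun L hL =>
  (ev_pk h2 h4 L hL).mono fun _ h n S O _ ha hW => (h n S O ha).outW hW

/-! ### the Picard orbit -/

theorem StrA.mono {t η η' B B' : ℝ} {S : Dat n} {O : OG n} {hc : Vec n} (h : StrA t η B S O hc)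
    (h0 : 0 ≤ η) (h1 : η ≤ η') (h2 : 0 ≤ B) (h3 : B ≤ B') : StrA t η' B' S O hc :=
  ⟨h.clp, h.nrm, h.e1.monoN h0 h1, h.e3.monoN h2 h3, h.e3'.monoN h2 h3, h.e4.monoN h0 h1,
    fun A hA => (h.e5 A hA).monoN h2 h3, fun A hA => (h.e6 A hA).monoN h0 h1,
    fun A hA => (h.e7 A hA).monoN h0 h1, fun A hA => (h.e7' A hA).monoN h0 h1⟩

theorem strW_of_good {L t : ℝ} {S : Dat n} {O : OG n} (hs : Sm L t) (g : Good t S O) :
    StrW t S O (S.hc t O) := by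
  have ht := hs.pos
  have h1 : t⁻¹ ≤ t⁻¹ ^ 2 := by simpa using hs.ipw (a := 1) (b := 2) (by norm_num)
  have hi := (inv_pos.2 ht).le
  refine ⟨StrA.mono g.str (pow_nonneg ht.le _) (hs.pw (by norm_num)) (pow_nonneg hi _)
    (hs.ipw (by norm_num)), fun v => ?_, fun v => ?_⟩
  · exact (g.spr.s1 v).mono (mul_nonneg hi (sqN_nonneg v))
      (mul_le_mul_of_nonneg_right h1 (sqN_nonneg v))
      (mul_nonneg (Nat.cast_nonneg n) (pow_nonneg ht.le _)) le_rfl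
  · exact (g.spr.s2 v).mono (mul_nonneg hi (sqN_nonneg v))
      (mul_le_mul_of_nonneg_right h1 (sqN_nonneg v))
      (mul_nonneg (Nat.cast_nonneg n) (pow_nonneg ht.le _)) le_rfl

/-- conclusions on the ball of radius `ρ` around a centre `z` -/
structure OutZ (t : ℝ) (S : Dat n) (O : OG n) (hc z : Vec n) : Prop where
  near : ∀ h, nv (h - z) ≤ √n * t ^ 252000 → Near t S O hc h
  psi : ∀ h, nv (h - z) ≤ √n * t ^ 252000 → nv (Psi (S.J O) (S.y O) h) ≤ √n * t ^ 107000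
  stayN : ∀ j, nv (S.Nsq O *ᵥ ((Pic (S.J O) (S.y O))^[j] z - z)) ≤ √n * t ^ 409900
  stay : ∀ j, nv ((Pic (S.J O) (S.y O))^[j] z - z) ≤ √n * t ^ 260000
  step : ∀ j, nv (S.Nsq O *ᵥ ((Pic (S.J O) (S.y O))^[j + 1] z - (Pic (S.J O) (S.y O))^[j] z)) ≤
    √n * t ^ (400000 + 1000 * j)
  res : ∀ j, nv (rs1 (S.J O) (S.y O) ((Pic (S.J O) (S.y O))^[j] z)) ≤ √n * t ^ (399000 + 1000 * j)

namespace Pk

variable {L t : ℝ} {S : Dat n} {O : OG n} (k : Pk L t S O)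
include k

set_option linter.unusedSectionVars false in
theorem sc {a b : ℝ} (h : a ≤ b) : √n * a ≤ √n * b :=
  mul_le_mul_of_nonneg_left h (Real.sqrt_nonneg _)

theorem nv_le_N (v : Vec n) : nv v ≤ t⁻¹ ^ 144001 * nv (S.Nsq O *ᵥ v) := by
  have h1 := (opLe_Nis k.sm k.adm O).nv_le (k.i0 _) (S.Nsq O *ᵥ v)
  rwa [Matrix.mulVec_mulVec, Nis_Nsq k.sm k.adm O, Matrix.one_mulVec] at h1

theorem nv_le_N' {v : Vec n} {a b : ℕ} (h : nv (S.Nsq O *ᵥ v) ≤ √n * t ^ a)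
    (hab : 144002 + b ≤ a) : nv v ≤ √n * t ^ b := by
  have h1 : 1 * (t⁻¹ ^ 144001 * t ^ a) ≤ t ^ b :=
    k.sm.mon1 (k.sm.c (by norm_num)) _ _ _ (by omega)
  calc nv v ≤ t⁻¹ ^ 144001 * nv (S.Nsq O *ᵥ v) := k.nv_le_N v
    _ ≤ t⁻¹ ^ 144001 * (√n * t ^ a) := mul_le_mul_of_nonneg_left h (k.i0 _)
    _ = √n * (1 * (t⁻¹ ^ 144001 * t ^ a)) := by ring
    _ ≤ _ := k.sc h1

theorem N_psi (v : Vec n) :
    nv (S.Nsq O *ᵥ v) ≤ t⁻¹ * nv (S.Nsq O *ᵥ ((AA (S.J O) (S.y O))⁻¹ *ᵥ v)) := by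
  have h1 := k.hA.nv_le (inv_pos.2 k.sm.pos).le (S.Nsq O *ᵥ ((AA (S.J O) (S.y O))⁻¹ *ᵥ v))
  rwa [Matrix.mulVec_mulVec, Matrix.mulVec_mulVec, mul_assoc _ (S.Nis O), Nis_Nsq k.sm k.adm O,
    mul_one, mul_assoc, Matrix.mul_nonsing_inv _ k.uA, mul_one] at h1

theorem reg_of {hc h : Vec n} (hW : StrW t S O hc) (h1 : nv (h - hc) ≤ 2 * (√n * t ^ 252000))
    (h2 : nv (h - h0 (S.J O) (S.y O)) ≤ √n * t ^ 143000) : Reg t (S.J O) (S.y O) h := by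
  have hs := k.sm
  refine ⟨h2, ?_⟩
  have h3 : nv hc ≤ √n * t ^ 71999 := by
    refine nv_le_of_sq_le (mul_nonneg (Real.sqrt_nonneg _) (k.p0 _)) (hW.str.nrm.trans ?_)
    rw [mul_pow, Real.sq_sqrt (Nat.cast_nonneg n), ← pow_mul]
    exact mul_le_mul_of_nonneg_left (hs.pw (by norm_num)) (Nat.cast_nonneg n)
  have h4 := nv_cub_le hW.str.clp
  have h5 := nv_cub_sub h hc
  have h6 := nv_add_le ((h - tm h) - (hc - tm hc)) (hc - tm hc)
  rw [sub_add_cancel] at h6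
  have h7 := mul_le_mul_of_nonneg_left h3 (sq_nonneg (t ^ 71999))
  have h8 : (t ^ 71999) ^ 2 * (√n * t ^ 71999) = √n * t ^ 215997 := by ring
  have h9 : 2 * t ^ 215997 ≤ t ^ 214000 := hs.mon2 (hs.c (by norm_num)) _ _ (by norm_num)
  have h10 : 4 * t ^ 252000 ≤ t ^ 214000 := hs.mon2 (hs.c (by norm_num)) _ _ (by norm_num)
  have h11 := k.sc h9
  have h12 := k.sc h10
  linarith only [h1, h4, h5, h6, h7, h8, h11, h12]

theorem res_le {h : Vec n} (hh : Reg t (S.J O) (S.y O) h) :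
    nv (rs1 (S.J O) (S.y O) h) ≤ 4 * nv (S.Nsq O *ᵥ Psi (S.J O) (S.y O) h) := by
  have hs := k.sm
  have hn := n_pos hs k.adm
  have hu := T1A.unit_of_pd (T1A.zh_spec hn (T1A.J_symm S O) h).1
  have hz := (k.d2 h h 0 _ hh hh (k.p0 107000) k.zero_le_r).2.1
  have e0 : Nm (S.J O) S.z0 = S.Nsq O * S.Nsq O := by
    rw [Nsq_Nsq hs k.adm O, ← JO_sub]
    unfold Nm Dat.J
    congr 1
    rw [← JO_one O]
    unfold JO
    rw [← smul_mul_assoc, ← mul_smul_comm, ← Matrix.diagonal_smul]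
    congr 3
    funext a
    simp
  have e1 : Nm (S.J O) (zh (S.J O) h) * S.Nis O
      = S.Nsq O + (zh (S.J O) h - S.z0) • S.Nis O := by
    have e2 : Nm (S.J O) (zh (S.J O) h)
        = Nm (S.J O) S.z0 + (zh (S.J O) h - S.z0) • (1 : Mat n) := by
      unfold Nm
      rw [sub_smul]
      abel
    rw [e2, e0, add_mul, mul_assoc, Nsq_Nis hs k.adm O, mul_one, smul_mul_assoc, one_mul]
  have e3 : rs1 (S.J O) (S.y O) h
      = (Nm (S.J O) (zh (S.J O) h) * S.Nis O) *ᵥ (S.Nsq O *ᵥ Psi (S.J O) (S.y O) h) := by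
    rw [Psi, Matrix.mulVec_mulVec, Matrix.mulVec_mulVec, mul_assoc _ (S.Nis O),
      Nis_Nsq hs k.adm O, mul_one, T1A.mul_G0 hu, Matrix.one_mulVec]
  have h1 : 1 * (t⁻¹ ^ 144001 * t ^ 358800) ≤ t ^ 0 :=
    hs.mon1 (hs.c (by norm_num)) _ _ _ (by norm_num)
  have h2 := mul_le_mul_of_nonneg_right hz (k.i0 144001)
  have h0 := mul_nonneg (abs_nonneg (zh (S.J O) h - S.z0)) (k.i0 144001)
  have h3 : OpLe (Nm (S.J O) (zh (S.J O) h) * S.Nis O) 4 := by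
    rw [e1]
    refine ((opLe_Nsq hs k.adm O).add ((opLe_Nis hs k.adm O).smul (k.i0 _) _) (by norm_num)
      h0).monoN (by linarith only [h0]) ?_
    rw [pow_zero] at h1
    linarith only [h1, h2]
  conv_lhs => rw [e3]
  exact h3.nv_le (by norm_num) _

theorem outZ {hc z : Vec n} (hW : StrW t S O hc) (hz : nv (z - hc) ≤ √n * t ^ 252000)
    (hz0 : nv (z - h0 (S.J O) (S.y O)) ≤ √n * t ^ 143001)
    (hst : nv (S.Nsq O *ᵥ (Pic (S.J O) (S.y O) z - z)) ≤ √n * t ^ 410000) : OutZ t S O hc z := by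
  have hs := k.sm
  have hn := n_pos hs k.adm
  have hJ := T1A.J_symm S O
  have hi := (inv_pos.2 hs.pos).le
  have sn := Real.sqrt_nonneg (n : ℝ)
  have near : ∀ h, nv (h - z) ≤ √n * t ^ 252000 → Near t S O hc h := by
    intro h hh
    have h1 : nv (h - hc) ≤ 2 * (√n * t ^ 252000) := by
      linarith only [nv_sub_triangle h z hc, hh, hz]
    refine ⟨h1, k.reg_of hW h1 ?_⟩
    have h2 : 2 * t ^ 252000 ≤ t ^ 143000 := hs.mon2 (hs.c (by norm_num)) _ _ (by norm_num)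
    have h3 : 2 * t ^ 143001 ≤ t ^ 143000 := hs.mon2 (hs.c (by norm_num)) _ _ (by norm_num)
    linarith only [nv_sub_triangle h z (h0 (S.J O) (S.y O)), hh, hz0, k.sc h2, k.sc h3]
  have c := k.ctx hW (T := {h | nv (h - z) ≤ √n * t ^ 252000}) fun h hh => (near h hh).1
  have zin : nv (z - z) ≤ √n * t ^ 252000 := by
    rw [sub_self, nv_zero]; exact mul_nonneg sn (k.p0 _)
  have hr : nv (S.Nsq O *ᵥ ((AA (S.J O) (S.y O))⁻¹ *ᵥ Psi (S.J O) (S.y O) z))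
      ≤ √n * t ^ 410000 := by
    rwa [Pic, sub_sub_cancel_left, Matrix.mulVec_neg, nv_neg] at hst
  have hpz : nv (S.Nsq O *ᵥ Psi (S.J O) (S.y O) z) ≤ √n * t ^ 409000 := by
    have h1 : 1 * (t⁻¹ ^ 1 * t ^ 410000) ≤ t ^ 409000 :=
      hs.mon1 (hs.c (by norm_num)) _ _ _ (by norm_num)
    calc _ ≤ _ := k.N_psi _
      _ ≤ t⁻¹ * (√n * t ^ 410000) := mul_le_mul_of_nonneg_left hr hi
      _ = √n * (1 * (t⁻¹ ^ 1 * t ^ 410000)) := by ring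
      _ ≤ _ := k.sc h1
  have psi : ∀ h, nv (h - z) ≤ √n * t ^ 252000 →
      nv (Psi (S.J O) (S.y O) h) ≤ √n * t ^ 107000 := by
    intro h hh
    have h1 := c.psi_le (h := h) (h' := z) hh zin
      (k.dec (near h hh).2 (near z zin).2 (k.nv_le_N' hpz (by norm_num))) hi k.hA
      (T1A.Psi_sub_MM hn hJ (S.y O) h z)
    have h2 := ((opLe_Nsq hs k.adm O).nv_le (by norm_num) (h - z)).trans
      (mul_le_mul_of_nonneg_left hh (by norm_num))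
    have h3 := mul_le_mul_of_nonneg_left h2
      (mul_nonneg (mul_nonneg (by norm_num : (0 : ℝ) ≤ 10) (pow_nonneg (k.i0 11) 3)) hi)
    have h4 : 10 * (t⁻¹ ^ 11) ^ 3 * t⁻¹ * (3 * (√n * t ^ 252000))
        = √n * (30 * (t⁻¹ ^ 34 * t ^ 252000)) := by ring
    have h5 : 60 * (t⁻¹ ^ 34 * t ^ 252000) ≤ t ^ 251900 :=
      hs.mon1 (hs.c (by norm_num)) _ _ _ (by norm_num)
    have h6 : 2 * t ^ 409000 ≤ t ^ 251900 := hs.mon2 (hs.c (by norm_num)) _ _ (by norm_num)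
    refine k.nv_le_N' (a := 251900) ?_ (by norm_num)
    linarith only [h1, h3, h4, hpz, k.sc h5, k.sc h6]
  have hrad : 486 * (t⁻¹ ^ 11) ^ 6 * (√n * t ^ 410000) ≤ √n * t ^ 409900 := by
    have h1 : 486 * (t⁻¹ ^ 66 * t ^ 410000) ≤ t ^ 409900 :=
      hs.mon1 (hs.c (by norm_num)) _ _ _ (by norm_num)
    calc _ = √n * (486 * (t⁻¹ ^ 66 * t ^ 410000)) := by ring
      _ ≤ _ := k.sc h1
  have orb := c.orbit (Ψ := Psi (S.J O) (S.y O))
    (M := fun h h' => MM (S.J O) h h' (Psi (S.J O) (S.y O) h')) (z := z)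
    (fun h _ h' _ => T1A.Psi_sub_MM hn hJ (S.y O) h h')
    (fun h hh h' hh' => k.dec (near h hh).2 (near h' hh').2 (psi h' hh')) hr
    (fun h hh => k.nv_le_N' (hh.trans hrad) (by norm_num))
  have stayN : ∀ j, nv (S.Nsq O *ᵥ ((Pic (S.J O) (S.y O))^[j] z - z)) ≤ √n * t ^ 409900 :=
    fun j => (orb j).1.trans hrad
  have dec : ∀ j, nv (S.Nsq O *ᵥ ((AA (S.J O) (S.y O))⁻¹ *ᵥ
      Psi (S.J O) (S.y O) ((Pic (S.J O) (S.y O))^[j] z))) ≤ √n * t ^ (400000 + 1000 * j) := by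
    intro j
    have h1 : 1000 * (t⁻¹ ^ 88 * t ^ 3899) ≤ t ^ 3000 :=
      hs.mon1 (hs.c (by norm_num)) _ _ _ (by norm_num)
    have h2 : 1000 * (t⁻¹ ^ 11) ^ 8 * t ^ 3899 = 1000 * (t⁻¹ ^ 88 * t ^ 3899) := by ring
    have h3 : (1000 * (t⁻¹ ^ 11) ^ 8 * t ^ 3899) ^ (j / 3) ≤ t ^ (3000 * (j / 3)) := by
      rw [h2, pow_mul]
      exact pow_le_pow_left₀ (mul_nonneg (by norm_num) (mul_nonneg (k.i0 _) (k.p0 _))) h1 _
    have h4 : 81 * (t⁻¹ ^ 66 * t ^ (3000 * (j / 3) + 410000)) ≤ t ^ (400000 + 1000 * j) :=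
      hs.mon1 (hs.c (by norm_num)) _ _ _ (by omega)
    calc _ ≤ _ := (orb j).2
      _ ≤ 81 * (t⁻¹ ^ 11) ^ 6 * t ^ (3000 * (j / 3)) * (√n * t ^ 410000) :=
          mul_le_mul_of_nonneg_right (mul_le_mul_of_nonneg_left h3
            (mul_nonneg (by norm_num) (pow_nonneg (k.i0 11) 6))) (mul_nonneg sn (k.p0 _))
      _ = √n * (81 * (t⁻¹ ^ 66 * t ^ (3000 * (j / 3) + 410000))) := by ring
      _ ≤ _ := k.sc h4
  refine ⟨near, psi, stayN, fun j => k.nv_le_N' (stayN j) (by norm_num), fun j => ?_, fun j => ?_⟩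
  · rw [Function.iterate_succ_apply', Pic, sub_sub_cancel_left, Matrix.mulVec_neg, nv_neg]
    exact dec j
  · have h1 := k.res_le (near _ (k.nv_le_N' (stayN j) (by norm_num))).2
    have h2 := (k.N_psi (Psi (S.J O) (S.y O) ((Pic (S.J O) (S.y O))^[j] z))).trans
      (mul_le_mul_of_nonneg_left (dec j) hi)
    have h3 : 4 * (t⁻¹ ^ 1 * t ^ (400000 + 1000 * j)) ≤ t ^ (399000 + 1000 * j) :=
      hs.mon1 (hs.c (by norm_num)) _ _ _ (by omega)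
    calc _ ≤ _ := h1
      _ ≤ 4 * (t⁻¹ * (√n * t ^ (400000 + 1000 * j))) := by linarith only [h2]
      _ = √n * (4 * (t⁻¹ ^ 1 * t ^ (400000 + 1000 * j))) := by ring
      _ ≤ _ := k.sc h3

theorem out (g : Good t S O) : Out t S O := by
  have hs := k.sm
  have hW := strW_of_good hs g
  have oW := k.outW hW
  have e1 : ∀ j, S.h O (j + 3) = (Pic (S.J O) (S.y O))^[j] (S.h O 3) := fun j =>
    Function.iterate_add_apply _ _ _ _
  have oZ := k.outZ (z := S.h O 3) hW (g.base.clp.trans (k.sc (hs.pw (by norm_num)))) g.base.near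
    (by have := g.base.step; rwa [e1 1] at this)
  refine ⟨fun h hh => (oZ.near h hh).2, oZ.psi, fun h hh => oW.unit h (oZ.near h hh),
    fun h hh => oW.gam h (oZ.near h hh), fun h hh => oW.gm h (oZ.near h hh),
    fun h hh => oW.gamP h (oZ.near h hh), fun h hh => oW.gmP h (oZ.near h hh), fun j => ?_,
    fun j => ?_, fun j => ?_, fun h h' hh hh' => oW.close h h' (oZ.near h hh) (oZ.near h' hh')⟩
  · rw [e1]; exact oZ.stay j
  · rw [e1 j, show j + 4 = j + 1 + 3 from rfl, e1 (j + 1)]; exact oZ.step j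
  · rw [e1]; exact oZ.res j

end Pk

/-- the orbit statement for any centre `z` -/
def D6ZStmt : Prop := Ev fun L t => ∀ (n : ℕ) (S : Dat n) (O : OG n) (hc z : Vec n),
  Adm L t S → StrW t S O hc → nv (z - hc) ≤ √n * t ^ 252000 →
  nv (z - h0 (S.J O) (S.y O)) ≤ √n * t ^ 143001 →
  nv (S.Nsq O *ᵥ (Pic (S.J O) (S.y O) z - z)) ≤ √n * t ^ 410000 → OutZ t S O hc z

theorem d6Z_of (h2 : D2Stmt) (h4 : D4Stmt) : D6ZStmt := fun L hL =>
  (ev_pk h2 h4 L hL).mono fun _ h n S O _ _ ha hW h1 h3 h5 => (h n S O ha).outZ hW h1 h3 h5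

theorem d6Stmt_of (h2 : D2Stmt) (h4 : D4Stmt) : D6Stmt := fun L hL =>
  (ev_pk h2 h4 L hL).mono fun _ h n S O ha g => (h n S O ha).out g

end Vale.Agent.N150.D6
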