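import Vale.Agent.N150.T1Def

/-! Kit for block T1: smallness of `t`, powers of `t`, spectral calculus in a frame, the roots
`zr`, `zs`, elementary consequences of `Adm`. -/

open Matrix MeasureTheory Filter Topology

namespace Vale.Agent.N150.T1

open Vale.Agent.P150 Vale.Agent.P150.F Vale.Agent.N150.EC Vale.Agent.N150.Sp Vale.Agent.N150.Fib

variable {n : ℕ}

/-! ### small `t` -/

theorem Ev.and {p q : ℝ → ℝ → Prop} (hp : Ev p) (hq : Ev q) : Ev fun L t => p L t ∧ q L t :=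
  fun L hL => (hp L hL).and (hq L hL)

theorem Ev.mono {p q : ℝ → ℝ → Prop} (hp : Ev p) (h : ∀ L t, 2 ≤ L → p L t → q L t) : Ev q :=
  fun L hL => (hp L hL).mono fun t ht => h L t hL ht

/-- the standing smallness assumption -/
structure Sm (L t : ℝ) : Prop where
  hL : 2 ≤ L
  pos : 0 < t
  one : t ≤ 1
  small : 10 ^ 40 * L ^ 20 * (1 + Real.log t⁻¹) ^ 2 * t ≤ 1

theorem ev_pos : Ev fun _ t => 0 < t := fun _ _ => self_mem_nhdsWithin

theorem ev_le (C : ℝ → ℝ) : Ev fun L t => C L * t ≤ 1 := by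
  intro L _
  have h : Tendsto (fun t : ℝ => C L * t) (𝓝[>] 0) (𝓝 (C L * 0)) :=
    ((continuous_const.mul continuous_id).tendsto 0).mono_left nhdsWithin_le_nhds
  rw [mul_zero] at h
  exact h.eventually (ge_mem_nhds one_pos)

theorem log_inv_le {t : ℝ} (ht : 0 < t) : Real.log t⁻¹ ≤ 4 * √(√t⁻¹) := by
  have h0 : 0 < t⁻¹ := inv_pos.2 ht
  have h1 : 0 < √(√t⁻¹) := Real.sqrt_pos.2 (Real.sqrt_pos.2 h0)
  have h2 : Real.log t⁻¹ = 4 * Real.log √(√t⁻¹) := by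
    rw [Real.log_sqrt (Real.sqrt_nonneg _), Real.log_sqrt h0.le]
    ring
  rw [h2]
  linarith [Real.log_le_sub_one_of_pos h1]

theorem ev_log (C : ℝ → ℝ) : Ev fun L t => C L * (1 + Real.log t⁻¹) ^ 2 * t ≤ 1 := by
  refine ((ev_pos.and (ev_le fun _ => 1)).and (ev_le fun L => (25 * |C L|) ^ 2)).mono ?_
  rintro L t - ⟨⟨h0, h1⟩, h2⟩
  have h1' : t ≤ 1 := by linarith
  have hi : 1 ≤ t⁻¹ := (one_le_inv₀ h0).2 h1'
  set a := √(√t⁻¹) with ha
  have a1 : 1 ≤ a := Real.one_le_sqrt.2 (Real.one_le_sqrt.2 hi)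
  have a2 : a ^ 2 = √t⁻¹ := Real.sq_sqrt (Real.sqrt_nonneg _)
  have l0 : 0 ≤ Real.log t⁻¹ := Real.log_nonneg hi
  have l1 : 1 + Real.log t⁻¹ ≤ 5 * a := by linarith [log_inv_le h0]
  have l2 : (1 + Real.log t⁻¹) ^ 2 ≤ 25 * √t⁻¹ := by
    rw [← a2]
    nlinarith
  have s1 : √t⁻¹ * t = √t := by
    rw [Real.sqrt_inv, inv_mul_eq_div, Real.div_sqrt]
  have s2 : 25 * |C L| * √t ≤ 1 := by
    have : (25 * |C L| * √t) ^ 2 ≤ 1 := by
      rw [mul_pow, Real.sq_sqrt h0.le]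
      exact h2
    exact (abs_le_one_iff_mul_self_le_one.2 (by nlinarith)).trans' (le_abs_self _)
  calc C L * (1 + Real.log t⁻¹) ^ 2 * t ≤ |C L| * (25 * √t⁻¹) * t :=
        mul_le_mul_of_nonneg_right (mul_le_mul (le_abs_self _) l2 (sq_nonneg _) (abs_nonneg _)) h0.le
    _ = 25 * |C L| * (√t⁻¹ * t) := by ring
    _ ≤ 1 := by rw [s1]; exact s2

theorem ev_sm : Ev Sm := fun L hL =>
  (((ev_pos.and (ev_le fun _ => 1)).and (ev_log fun L => 10 ^ 40 * L ^ 20)) L hL).mono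
    fun _ h => ⟨hL, h.1.1, by linarith [h.1.2], h.2⟩

/-- to prove `Ev p` it is enough to prove `p L t` from `Sm L t` -/
theorem ev_of_sm {p : ℝ → ℝ → Prop} (h : ∀ L t, Sm L t → p L t) : Ev p :=
  ev_sm.mono fun L t _ => h L t

namespace Sm

variable {L t : ℝ} (h : Sm L t)
include h

theorem L0 : 0 < L := by linarith [h.hL]

theorem L1 : 1 ≤ L := by linarith [h.hL]

theorem log0 : 0 ≤ Real.log t⁻¹ := Real.log_nonneg ((one_le_inv₀ h.pos).2 h.one)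

theorem inv1 : 1 ≤ t⁻¹ := (one_le_inv₀ h.pos).2 h.one

theorem inv0 : 0 < t⁻¹ := inv_pos.2 h.pos

/-- constants, powers of `L` and logarithms are at most `t⁻¹` -/
theorem clog {C : ℝ} {a b : ℕ} (hC : C ≤ 10 ^ 40) (ha : a ≤ 20) (hb : b ≤ 2) :
    C * L ^ a * (1 + Real.log t⁻¹) ^ b * t ≤ 1 := by
  refine le_trans (mul_le_mul_of_nonneg_right ?_ h.pos.le) h.small
  have l1 : 1 ≤ 1 + Real.log t⁻¹ := by linarith [h.log0]
  have e1 : L ^ a ≤ L ^ 20 := pow_le_pow_right₀ h.L1 ha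
  have e2 : (1 + Real.log t⁻¹) ^ b ≤ (1 + Real.log t⁻¹) ^ 2 := pow_le_pow_right₀ l1 hb
  have p1 : 0 ≤ L ^ a := (pow_pos h.L0 a).le
  exact mul_le_mul (mul_le_mul hC e1 p1 (by norm_num)) e2 (by positivity) (by positivity)

theorem cL {C : ℝ} {a : ℕ} (hC : C ≤ 10 ^ 40) (ha : a ≤ 20) : C * L ^ a * t ≤ 1 := by
  simpa using h.clog hC ha (Nat.zero_le 2)

theorem c1 {C : ℝ} (hC : C ≤ 10 ^ 40) : C * t ≤ 1 := by simpa using h.cL hC (Nat.zero_le 20)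

theorem cL_inv {C : ℝ} {a : ℕ} (hC : C ≤ 10 ^ 40) (ha : a ≤ 20) : C * L ^ a ≤ t⁻¹ := by
  rw [← one_div, le_div_iff₀ h.pos]
  exact h.cL hC ha

theorem c_inv {C : ℝ} (hC : C ≤ 10 ^ 40) : C ≤ t⁻¹ := by
  simpa using h.cL_inv hC (Nat.zero_le 20)

theorem p0 (a : ℕ) : 0 < t ^ a := pow_pos h.pos a

theorem p1 (a : ℕ) : t ^ a ≤ 1 := pow_le_one₀ h.pos.le h.one

theorem i0 (a : ℕ) : 0 < t⁻¹ ^ a := pow_pos h.inv0 a

theorem i1 (a : ℕ) : 1 ≤ t⁻¹ ^ a := one_le_pow₀ h.inv1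

theorem pw {a b : ℕ} (hab : b ≤ a) : t ^ a ≤ t ^ b := pow_le_pow_of_le_one h.pos.le h.one hab

theorem iw {a b : ℕ} (hab : a ≤ b) : t⁻¹ ^ a ≤ t⁻¹ ^ b := pow_le_pow_right₀ h.inv1 hab

/-- `x t ^ a ≤ t ^ b` as soon as `x t ≤ 1` and `b < a` -/
theorem ab {x : ℝ} (hx : x * t ≤ 1) {a b : ℕ} (hab : b < a) : x * t ^ a ≤ t ^ b := by
  obtain ⟨c, rfl⟩ := Nat.exists_eq_add_of_lt hab
  calc x * t ^ (b + c + 1) = x * t * (t ^ c * t ^ b) := by ring
    _ ≤ 1 * (1 * t ^ b) :=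
      mul_le_mul hx (mul_le_mul_of_nonneg_right (h.p1 c) (h.p0 b).le)
        (mul_pos (h.p0 c) (h.p0 b)).le zero_le_one
    _ = t ^ b := by ring

theorem cp {C : ℝ} (hC : C ≤ 10 ^ 40) {a b : ℕ} (hab : b < a) : C * t ^ a ≤ t ^ b :=
  h.ab (h.c1 hC) hab

theorem cLp {C : ℝ} {k : ℕ} (hC : C ≤ 10 ^ 40) (hk : k ≤ 20) {a b : ℕ} (hab : b < a) :
    C * L ^ k * t ^ a ≤ t ^ b := h.ab (h.cL hC hk) hab

theorem Lp {a b : ℕ} (hab : b < a) : L * t ^ a ≤ t ^ b := by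
  simpa using h.cLp (C := 1) (k := 1) (by norm_num) (by norm_num) hab

/-- `x t⁻¹ ^ a ≤ t⁻¹ ^ b` as soon as `x t ≤ 1` and `a < b` -/
theorem abi {x : ℝ} (hx : x * t ≤ 1) {a b : ℕ} (hab : a < b) : x * t⁻¹ ^ a ≤ t⁻¹ ^ b := by
  have e : x ≤ t⁻¹ := by
    rw [← one_div, le_div_iff₀ h.pos]
    exact hx
  calc x * t⁻¹ ^ a ≤ t⁻¹ * t⁻¹ ^ a := mul_le_mul_of_nonneg_right e (h.i0 a).le
    _ = t⁻¹ ^ (a + 1) := by ring
    _ ≤ t⁻¹ ^ b := h.iw hab

theorem ci {C : ℝ} (hC : C ≤ 10 ^ 40) {a b : ℕ} (hab : a < b) : C * t⁻¹ ^ a ≤ t⁻¹ ^ b :=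
  h.abi (h.c1 hC) hab

theorem ip_eq (a b : ℕ) : t⁻¹ ^ a * t ^ (a + b) = t ^ b := by
  rw [pow_add, ← mul_assoc, ← mul_pow, inv_mul_cancel₀ h.pos.ne', one_pow, one_mul]

theorem pi_eq (a b : ℕ) : t ^ a * t⁻¹ ^ (a + b) = t⁻¹ ^ b := by
  rw [pow_add, ← mul_assoc, ← mul_pow, mul_inv_cancel₀ h.pos.ne', one_pow, one_mul]

/-- `t⁻¹ ^ a * t ^ b ≤ t ^ c` when `a + c ≤ b` -/
theorem ip {a b c : ℕ} (hab : a + c ≤ b) : t⁻¹ ^ a * t ^ b ≤ t ^ c := by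
  rw [← h.ip_eq a c]
  exact mul_le_mul_of_nonneg_left (h.pw hab) (h.i0 a).le

/-- `t ^ a * t⁻¹ ^ b ≤ t⁻¹ ^ c` when `b ≤ a + c` -/
theorem pi {a b c : ℕ} (hab : b ≤ a + c) : t ^ a * t⁻¹ ^ b ≤ t⁻¹ ^ c := by
  rw [← h.pi_eq a c]
  exact mul_le_mul_of_nonneg_left (h.iw hab) (h.p0 a).le

theorem sqrt_p (a : ℕ) : √(t ^ (2 * a)) = t ^ a := by
  rw [mul_comm, pow_mul, Real.sqrt_sq (h.p0 a).le]

omit h in
theorem log_p (a : ℕ) : Real.log (t ^ a)⁻¹ = a * Real.log t⁻¹ := by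
  rw [← inv_pow, Real.log_pow]

end Sm

theorem nv_le_of_sq {v : Vec n} {c : ℝ} (hc : 0 ≤ c) (h : F.sq v ≤ n * c ^ 2) :
    nv v ≤ √n * c := by
  refine nv_le_of_sq_le (by positivity) ?_
  rwa [mul_pow, Real.sq_sqrt (Nat.cast_nonneg _)]

theorem sq_le_of_nv {v : Vec n} {c : ℝ} (h : nv v ≤ √n * c) : F.sq v ≤ n * c ^ 2 := by
  rw [← nv_sq, ← Real.sq_sqrt (Nat.cast_nonneg n), ← mul_pow]
  exact pow_le_pow_left₀ (nv_nonneg _) h 2

/-! ### spectral calculus in a frame -/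

theorem JO_mul (u v : Vec n) (O : OG n) : JO u O * JO v O = JO (fun a => u a * v a) O := by
  unfold JO
  calc O.1ᵀ * diagonal u * O.1 * (O.1ᵀ * diagonal v * O.1)
      = O.1ᵀ * (diagonal u * (O.1 * O.1ᵀ) * diagonal v) * O.1 := by simp only [Matrix.mul_assoc]
    _ = _ := by rw [OG.mul_transpose, Matrix.mul_one, diagonal_mul_diagonal]

theorem JO_comm (u v : Vec n) (O : OG n) : JO u O * JO v O = JO v O * JO u O := by
  rw [JO_mul, JO_mul]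
  simp only [mul_comm]

theorem JO_tr (u : Vec n) (O : OG n) : (JO u O)ᵀ = JO u O := by
  unfold JO
  rw [transpose_mul, transpose_mul, transpose_transpose, diagonal_transpose, Matrix.mul_assoc]

theorem JO_add (u v : Vec n) (O : OG n) : JO u O + JO v O = JO (fun a => u a + v a) O := by
  unfold JO
  rw [← Matrix.add_mul, ← Matrix.mul_add, diagonal_add]

theorem JO_sub (u v : Vec n) (O : OG n) : JO u O - JO v O = JO (fun a => u a - v a) O := by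
  unfold JO
  rw [← Matrix.sub_mul, ← Matrix.mul_sub, diagonal_sub]

theorem JO_smul (c : ℝ) (u : Vec n) (O : OG n) : c • JO u O = JO (fun a => c * u a) O := by
  unfold JO
  rw [← Matrix.smul_mul, ← Matrix.mul_smul, ← diagonal_smul]
  rfl

theorem JO_one (O : OG n) : JO (fun _ => 1) O = 1 := by
  unfold JO
  rw [diagonal_one, Matrix.mul_one, OG.transpose_mul]

theorem JO_const (c : ℝ) (O : OG n) : JO (fun _ => c) O = c • (1 : Mat n) := by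
  rw [← JO_one O, JO_smul]
  simp

theorem one_sub_JO (u : Vec n) (O : OG n) : 1 - JO u O = JO (fun a => 1 - u a) O := by
  rw [← JO_one O, JO_sub]

theorem JO_id (u : Vec n) : JO u 1 = diagonal u := by
  unfold JO
  simp

theorem JO_rot (u : Vec n) (O U : OG n) : JO u (O * U) = U.1ᵀ * JO u O * U.1 := by
  unfold JO
  rw [OG.coe_mul, transpose_mul]
  simp only [Matrix.mul_assoc]

theorem JO_mulVec (u : Vec n) (O : OG n) (v : Vec n) :
    JO u O *ᵥ v = O.1ᵀ *ᵥ fun a => u a * (O.1 *ᵥ v) a := by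
  unfold JO
  rw [← Matrix.mulVec_mulVec, ← Matrix.mulVec_mulVec]
  congr 1
  funext a
  rw [Matrix.mulVec_diagonal]

theorem act_JO (u : Vec n) (O : OG n) (v : Vec n) :
    O.1 *ᵥ (JO u O *ᵥ v) = fun a => u a * (O.1 *ᵥ v) a := by
  rw [JO_mulVec, OG.mulVec_tr_mulVec]

theorem JO_tr_mulVec (u : Vec n) (O : OG n) (v : Vec n) :
    JO u O *ᵥ (O.1ᵀ *ᵥ v) = O.1ᵀ *ᵥ fun a => u a * v a := by
  rw [JO_mulVec, OG.mulVec_tr_mulVec]

theorem sq_tr (O : OG n) (v : Vec n) : F.sq (O.1ᵀ *ᵥ v) = F.sq v := by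
  rw [← sq_act O, OG.mulVec_tr_mulVec]

theorem nv_act (O : OG n) (v : Vec n) : nv (O.1 *ᵥ v) = nv v := by
  rw [nv_eq_sqrt, nv_eq_sqrt, sq_act]

theorem nv_tr (O : OG n) (v : Vec n) : nv (O.1ᵀ *ᵥ v) = nv v := by
  rw [nv_eq_sqrt, nv_eq_sqrt, sq_tr]

theorem sq_JO (u : Vec n) (O : OG n) (v : Vec n) :
    F.sq (JO u O *ᵥ v) = ∑ a, (u a * (O.1 *ᵥ v) a) ^ 2 := by
  rw [JO_mulVec, sq_tr]
  rfl

theorem trace_JO (u : Vec n) (O : OG n) : (JO u O).trace = ∑ a, u a := by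
  unfold JO
  rw [Matrix.trace_mul_cycle, OG.mul_transpose, Matrix.one_mul, trace_diagonal]

theorem opLe_JO {u : Vec n} {c : ℝ} (h : ∀ a, |u a| ≤ c) (O : OG n) : OpLe (JO u O) c := by
  intro v
  rw [sq_JO, ← sq_act O v]
  unfold F.sq
  rw [Finset.mul_sum]
  refine Finset.sum_le_sum fun a _ => ?_
  rw [mul_pow]
  exact mul_le_mul_of_nonneg_right (sq_le_sq' (abs_le.1 (h a)).1 (abs_le.1 (h a)).2) (sq_nonneg _)

/-- comparison of two functions of the same matrix -/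
theorem nv_JO_le {u u' : Vec n} {c : ℝ} (hc : 0 ≤ c) (h : ∀ a, |u a| ≤ c * |u' a|) (O : OG n)
    (v : Vec n) : nv (JO u O *ᵥ v) ≤ c * nv (JO u' O *ᵥ v) := by
  rw [JO_mulVec, JO_mulVec, nv_tr, nv_tr]
  refine nv_le_mul hc fun a => ?_
  rw [abs_mul, abs_mul, ← mul_assoc]
  exact mul_le_mul_of_nonneg_right (h a) (abs_nonneg _)

theorem JO_inv {u : Vec n} (h : ∀ a, u a ≠ 0) (O : OG n) :
    (JO u O)⁻¹ = JO (fun a => (u a)⁻¹) O := by
  apply Matrix.inv_eq_right_inv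
  rw [JO_mul, ← JO_one O]
  congr 1
  funext a
  exact mul_inv_cancel₀ (h a)

theorem Nm_JO (lam : Vec n) (O : OG n) (z : ℝ) : Nm (JO lam O) z = JO (fun a => z - lam a) O := by
  unfold Nm
  rw [← JO_const z O, JO_sub]

theorem G0_JO {lam : Vec n} {z : ℝ} (h : ∀ a, lam a < z) (O : OG n) :
    G0 (JO lam O) z = JO (fun a => (z - lam a)⁻¹) O := by
  unfold G0
  rw [Nm_JO, JO_inv fun a => (sub_pos.2 (h a)).ne']

theorem posDef_JO {u : Vec n} (O : OG n) : (JO u O).PosDef ↔ ∀ a, 0 < u a := by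
  rw [Matrix.posDef_iff_dotProduct_mulVec]
  constructor
  · rintro ⟨-, h⟩ a
    have h0 : O.1ᵀ *ᵥ Pi.single a (1 : ℝ) ≠ 0 := by
      intro h0
      have h1 := sq_tr O (Pi.single a (1 : ℝ))
      rw [h0] at h1
      simp [F.sq, Pi.single_apply] at h1
    have h1 := h h0
    have h2 := qf_JO u O (O.1ᵀ *ᵥ Pi.single a (1 : ℝ))
    rw [OG.mulVec_tr_mulVec] at h2
    have h3 : ∑ b, u b * (Pi.single a (1 : ℝ) : Vec n) b ^ 2 = u a := by
      simp [Pi.single_apply]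
    rw [← h3, ← h2]
    exact h1
  · intro h
    refine ⟨?_, fun v hv => ?_⟩
    · rw [Matrix.IsHermitian, Matrix.conjTranspose_eq_transpose_of_trivial, JO_tr]
    · have h2 := qf_JO u O v
      have h3 : O.1 *ᵥ v ≠ 0 := fun h0 => hv (by
        apply sq_eq_zero'
        rw [← sq_act O, h0]
        simp [F.sq])
      obtain ⟨a, ha⟩ := Function.ne_iff.1 h3
      have h4 : 0 < ∑ b, u b * (O.1 *ᵥ v) b ^ 2 :=
        Finset.sum_pos' (fun b _ => mul_nonneg (h b).le (sq_nonneg _))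
          ⟨a, Finset.mem_univ _, mul_pos (h a) (sq_pos_of_ne_zero ha)⟩
      rw [← h2] at h4
      exact h4

theorem posDef_Nm {lam : Vec n} {z : ℝ} (O : OG n) :
    (Nm (JO lam O) z).PosDef ↔ ∀ a, lam a < z := by
  rw [Nm_JO, posDef_JO]
  simp only [sub_pos]

theorem trace_G0 {lam : Vec n} {z : ℝ} (h : ∀ a, lam a < z) (O : OG n) :
    (G0 (JO lam O) z).trace = ∑ a, (z - lam a)⁻¹ := by rw [G0_JO h, trace_JO]

theorem sq_G0 {lam : Vec n} {z : ℝ} (h : ∀ a, lam a < z) (O : OG n) (yt : Vec n) :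
    F.sq (G0 (JO lam O) z *ᵥ (O.1ᵀ *ᵥ yt)) = ∑ a, ((z - lam a)⁻¹ * yt a) ^ 2 := by
  rw [G0_JO h, JO_tr_mulVec, sq_tr]
  rfl

theorem sum_inv_lt (hn : 0 < n) {lam : Vec n} {z z' : ℝ} (h : ∀ a, lam a < z) (hz : z < z') :
    ∑ a, (z' - lam a)⁻¹ < ∑ a, (z - lam a)⁻¹ := by
  have : Nonempty (Fin n) := ⟨⟨0, hn⟩⟩
  exact Finset.sum_lt_sum_of_nonempty Finset.univ_nonempty fun a _ =>
    inv_strictAnti₀ (sub_pos.2 (h a)) (by linarith)

theorem sum_sq_le {lam : Vec n} {z z' : ℝ} (h : ∀ a, lam a < z) (hz : z ≤ z') (yt : Vec n) :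
    ∑ a, ((z' - lam a)⁻¹ * yt a) ^ 2 ≤ ∑ a, ((z - lam a)⁻¹ * yt a) ^ 2 := by
  refine Finset.sum_le_sum fun a _ => ?_
  rw [mul_pow, mul_pow]
  have h1 : 0 < z - lam a := sub_pos.2 (h a)
  have h2 : 0 < z' - lam a := by linarith
  exact mul_le_mul_of_nonneg_right (pow_le_pow_left₀ (inv_pos.2 h2).le
    (inv_anti₀ h1 (by linarith)) 2) (sq_nonneg _)

/-- a root of the trace equation above the spectrum is `zr` -/
theorem zr_eq (hn : 0 < n) {lam : Vec n} {z τ : ℝ} (h : ∀ a, lam a < z)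
    (e : ∑ a, (z - lam a)⁻¹ = τ) (O : OG n) : zr (JO lam O) τ = z := by
  refine IsLeast.csInf_eq ⟨⟨(posDef_Nm O).2 h, by rw [trace_G0 h, e]⟩, ?_⟩
  rintro z' ⟨h1, h2⟩
  rw [posDef_Nm] at h1
  rw [trace_G0 h1] at h2
  by_contra hc
  have := sum_inv_lt hn h1 (not_le.1 hc)
  linarith

/-- a root of the saddle equation above the spectrum is `zs` -/
theorem zs_eq (hn : 0 < n) {lam yt : Vec n} {z : ℝ} (h : ∀ a, lam a < z)
    (e : ∑ a, (z - lam a)⁻¹ + ∑ a, ((z - lam a)⁻¹ * yt a) ^ 2 = n) (O : OG n) :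
    zs (JO lam O) (O.1ᵀ *ᵥ yt) = z := by
  refine IsLeast.csInf_eq ⟨⟨(posDef_Nm O).2 h, by rw [trace_G0 h, sq_G0 h, e]⟩, ?_⟩
  rintro z' ⟨h1, h2⟩
  rw [posDef_Nm] at h1
  rw [trace_G0 h1, sq_G0 h1] at h2
  by_contra hc
  have h3 := sum_inv_lt hn h1 (not_le.1 hc)
  have h4 := sum_sq_le h1 (not_le.1 hc).le yt
  linarith

/-- `zr` depends on the spectrum only -/
theorem zr_JO (lam : Vec n) (O O' : OG n) (τ : ℝ) : zr (JO lam O) τ = zr (JO lam O') τ := by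
  unfold zr
  congr 1
  ext z
  simp only [Set.mem_ofPred_eq, posDef_Nm]
  exact and_congr_right fun h => by rw [trace_G0 h, trace_G0 h]

theorem zs_JO (lam yt : Vec n) (O O' : OG n) :
    zs (JO lam O) (O.1ᵀ *ᵥ yt) = zs (JO lam O') (O'.1ᵀ *ᵥ yt) := by
  unfold zs
  congr 1
  ext z
  simp only [Set.mem_ofPred_eq, posDef_Nm]
  exact and_congr_right fun h => by rw [trace_G0 h, trace_G0 h, sq_G0 h, sq_G0 h]

/-! ### the matrices of a frame -/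

namespace Dat

variable (S : Dat n) (O : OG n)

/-- indicator of the low modes -/
noncomputable def ind (σ : ℝ) : Vec n := fun a => if a ∈ S.low σ then 1 else 0

theorem mem_low {σ : ℝ} {a : Fin n} : a ∈ S.low σ ↔ S.gam - S.lam a ≤ σ := by simp [low]

theorem P_eq (σ : ℝ) : S.P σ O = JO (S.ind σ) O := rfl

theorem Ph_eq (σ : ℝ) : 1 - S.P σ O = JO (fun a => 1 - S.ind σ a) O := one_sub_JO _ _

theorem isProj_P (σ : ℝ) : IsProj (S.P σ O) := by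
  refine ⟨JO_tr _ _, ?_⟩
  rw [P_eq, JO_mul]
  congr 1
  funext a
  unfold ind
  split_ifs <;> simp

theorem P_mul_P {σ σ' : ℝ} (h : σ ≤ σ') : S.P σ' O * S.P σ O = S.P σ O := by
  rw [P_eq, P_eq, JO_mul]
  congr 1
  funext a
  unfold ind
  by_cases ha : a ∈ S.low σ
  · rw [if_pos ha, if_pos (S.mem_low.2 ((S.mem_low.1 ha).trans h)), one_mul]
  · rw [if_neg ha, mul_zero]

theorem P_comm (σ : ℝ) (u : Vec n) : S.P σ O * JO u O = JO u O * S.P σ O := JO_comm _ _ _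

theorem Ph_comm (σ : ℝ) (u : Vec n) : (1 - S.P σ O) * JO u O = JO u O * (1 - S.P σ O) := by
  rw [Ph_eq]
  exact JO_comm _ _ _

theorem J_tr : (S.J O)ᵀ = S.J O := JO_tr _ _
theorem Nsq_tr : (S.Nsq O)ᵀ = S.Nsq O := JO_tr _ _
theorem Nis_tr : (S.Nis O)ᵀ = S.Nis O := JO_tr _ _
theorem Y_tr : (S.Y O)ᵀ = S.Y O := JO_tr _ _
theorem K0_tr : (S.K0 O)ᵀ = S.K0 O := JO_tr _ _

theorem IA_tr (A : Finset (Fin n)) : (S.IA O A)ᵀ = Rip.res A * S.Nis O := by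
  unfold IA Rip.res
  rw [transpose_mul, Nis_tr, diagonal_transpose]

theorem act_y : O.1 *ᵥ S.y O = S.yt := OG.mulVec_tr_mulVec O _

theorem h_zero : S.h O 0 = h0 (S.J O) (S.y O) := rfl

theorem h_succ (j : ℕ) : S.h O (j + 1) = Pic (S.J O) (S.y O) (S.h O j) :=
  Function.iterate_succ_apply' _ _ _

end Dat

theorem it_succ (J : Mat n) (y : Vec n) (j : ℕ) : it J y (j + 1) = Pic J y (it J y j) :=
  Function.iterate_succ_apply' _ _ _

theorem abs_clip_le {θ : ℝ} (hθ : 0 ≤ θ) (v : Vec n) (i : Fin n) : |clip θ v i| ≤ θ := by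
  unfold clip
  exact abs_le.2 ⟨le_max_left _ _, max_le (by linarith) (min_le_left _ _)⟩

theorem abs_clip_le' {θ : ℝ} (hθ : 0 ≤ θ) (v : Vec n) (i : Fin n) : |clip θ v i| ≤ |v i| := by
  unfold clip
  refine abs_le.2 ⟨?_, ?_⟩
  · exact le_max_of_le_right (le_min (by linarith [abs_nonneg (v i)]) (neg_abs_le _))
  · exact max_le (by linarith [abs_nonneg (v i)]) ((min_le_right _ _).trans (le_abs_self _))

theorem abs_clip_sub (θ : ℝ) (u v : Vec n) (i : Fin n) :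
    |clip θ u i - clip θ v i| ≤ |u i - v i| := by
  unfold clip
  refine (abs_max_sub_max_le_max _ _ _ _).trans (max_le (by simp) ?_)
  exact (abs_min_sub_min_le_max _ _ _ _).trans (max_le (by simp) le_rfl)

theorem nv_clip_sub (θ : ℝ) (u v : Vec n) : nv (clip θ u - clip θ v) ≤ nv (u - v) :=
  nv_mono fun i => abs_clip_sub θ u v i

theorem nv_clip_le {θ : ℝ} (hθ : 0 ≤ θ) (v : Vec n) : nv (clip θ v) ≤ nv v :=
  nv_mono fun i => abs_clip_le' hθ v i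

/-! ### consequences of `Adm` -/

namespace Adm

variable {L t : ℝ} {S : Dat n} (h : Adm L t S) (hs : Sm L t) (O : OG n)
include h

theorem npos : 0 < n := by
  rcases Nat.eq_zero_or_pos n with h0 | h0
  · have := h.big
    rw [h0] at this
    norm_num at this
  · exact h0

theorem npos' : (0 : ℝ) < n := by exact_mod_cast h.npos

theorem gap_ge (a : Fin n) : 2 * t ^ 288000 / L ≤ S.z0 - S.lam a := by
  linarith [h.lo, h.top a]

theorem eps_le_gap' (hL : 0 < L) (ht : 0 < t) (a : Fin n) :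
    S.gam - S.lam a < S.z0 - S.lam a := by
  have : 0 < 2 * t ^ 288000 / L := by positivity
  linarith [h.lo]

include hs

theorem inv_le_n : t⁻¹ ^ 431998 ≤ n := by
  have e := mul_le_mul_of_nonneg_left h.big (hs.i0 431998).le
  have e2 := hs.ip_eq 431998 0
  rw [pow_zero, add_zero] at e2
  rwa [mul_one, mul_left_comm, e2, mul_one] at e

theorem gap_pos (a : Fin n) : 0 < S.z0 - S.lam a :=
  lt_of_lt_of_le (div_pos (mul_pos two_pos (hs.p0 _)) hs.L0) (h.gap_ge a)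

theorem lt_z0 (a : Fin n) : S.lam a < S.z0 := sub_pos.1 (h.gap_pos hs a)

theorem eps_lt_gap (a : Fin n) : S.gam - S.lam a < S.z0 - S.lam a := h.eps_le_gap' hs.L0 hs.pos a

theorem gap_le' (a : Fin n) : S.z0 - S.lam a ≤ S.gam - S.lam a + t ^ 287999 := by
  linarith [h.hi, hs.Lp (a := 288000) (b := 287999) (by norm_num)]

theorem gap_le (a : Fin n) : S.z0 - S.lam a ≤ 7 := by
  linarith [h.gap_le' hs a, h.bot a, hs.p1 287999]

theorem pow_le_gap (a : Fin n) : t ^ 288001 ≤ S.z0 - S.lam a := by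
  refine le_trans ?_ (h.gap_ge a)
  rw [le_div_iff₀ hs.L0]
  linarith [hs.Lp (a := 288001) (b := 288000) (by norm_num), hs.p0 288000]

theorem g_pos (a : Fin n) : 0 < S.g a := inv_pos.2 (h.gap_pos hs a)

theorem g_mul (a : Fin n) : S.g a * (S.z0 - S.lam a) = 1 := inv_mul_cancel₀ (h.gap_pos hs a).ne'

theorem g_le (a : Fin n) : S.g a ≤ t⁻¹ ^ 288001 := by
  rw [inv_pow]
  exact inv_anti₀ (hs.p0 _) (h.pow_le_gap hs a)

theorem g_high {σ : ℝ} (hσ : 0 < σ) {a : Fin n} (ha : a ∉ S.low σ) : S.g a ≤ σ⁻¹ :=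
  inv_anti₀ hσ ((not_le.1 fun hc => ha (S.mem_low.2 hc)).trans (h.eps_lt_gap hs a)).le

omit hs in
theorem w_eq : S.w = 1 - (∑ a, (S.g a * S.yt a) ^ 2) / n := by
  unfold Dat.w
  rw [eq_sub_iff_add_eq, ← add_div, h.sad, div_self h.npos'.ne']

omit hs in
theorem w_le : S.w ≤ 1 := by
  rw [h.w_eq]
  have : 0 ≤ (∑ a, (S.g a * S.yt a) ^ 2) / n := by positivity
  linarith

omit hs in
theorem w_ge : 1 - L * t ^ 144000 ≤ S.w := by
  rw [h.w_eq]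
  have : (∑ a, (S.g a * S.yt a) ^ 2) / n ≤ L * t ^ 144000 := by
    rw [div_le_iff₀ h.npos']
    linarith [h.y2]
  linarith

theorem w_ge' : 1 - t ^ 143999 ≤ S.w := by
  linarith [h.w_ge, hs.Lp (a := 144000) (b := 143999) (by norm_num)]

theorem w_half : 1 / 2 ≤ S.w := by
  have := hs.cp (C := 2) (by norm_num) (a := 143999) (b := 0) (by norm_num)
  rw [pow_zero] at this
  linarith [h.w_ge' hs]

theorem w_pos : 0 < S.w := by linarith [h.w_half hs]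

theorem winv_le : S.w⁻¹ ≤ 2 := by
  rw [inv_le_comm₀ (h.w_pos hs) two_pos]
  linarith [h.w_half hs]

theorem zs_eq : zs (S.J O) (S.y O) = S.z0 := T1.zs_eq h.npos (h.lt_z0 hs) h.sad O

theorem G00_eq : G00 (S.J O) (S.y O) = JO S.g O := by
  unfold G00
  rw [h.zs_eq hs]
  exact G0_JO (h.lt_z0 hs) O

theorem w0_eq : w0 (S.J O) (S.y O) = S.w := by
  unfold w0
  rw [h.G00_eq hs, trace_JO]
  rfl

theorem T20_eq : T20 (S.J O) (S.y O) = ∑ a, S.g a ^ 2 := by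
  have e := h.G00_eq hs O
  unfold G00 at e
  unfold T20 T2
  rw [e, JO_mul, trace_JO]
  simp only [pow_two]

theorem h0_eq : h0 (S.J O) (S.y O) = O.1ᵀ *ᵥ fun a => S.g a * S.yt a := by
  unfold h0
  rw [h.G00_eq hs]
  exact JO_tr_mulVec _ _ _

theorem act_h0 : O.1 *ᵥ h0 (S.J O) (S.y O) = fun a => S.g a * S.yt a := by
  rw [h.h0_eq hs, OG.mulVec_tr_mulVec]

theorem sq_h0 : F.sq (h0 (S.J O) (S.y O)) ≤ L * n * t ^ 144000 := by
  rw [h.h0_eq hs, sq_tr]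
  exact h.y2

theorem nv_h0 : 4 * nv (h0 (S.J O) (S.y O)) ≤ √n * t ^ 71999 := by
  have e : nv (h0 (S.J O) (S.y O)) ≤ √n * (t ^ 71999 / 4) := by
    refine nv_le_of_sq (by have := hs.p0 71999; positivity) ((h.sq_h0 hs O).trans ?_)
    have e1 := hs.cLp (C := 16) (k := 1) (by norm_num) (by norm_num) (a := 144000) (b := 143998)
      (by norm_num)
    have e2 : (t ^ 71999 / 4) ^ 2 = t ^ 143998 / 16 := by ring
    rw [e2]
    nlinarith [h.npos']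
  linarith

theorem N0_eq : Nm (S.J O) (zs (S.J O) (S.y O)) = JO (fun a => S.z0 - S.lam a) O := by
  rw [h.zs_eq hs]
  exact Nm_JO _ _ _

theorem Nsq_mul_Nis : S.Nsq O * S.Nis O = 1 := by
  unfold Dat.Nsq Dat.Nis
  rw [JO_mul, ← JO_one O]
  congr 1
  funext a
  exact mul_inv_cancel₀ (Real.sqrt_pos.2 (h.gap_pos hs a)).ne'

theorem Nis_mul_Nsq : S.Nis O * S.Nsq O = 1 := by
  rw [← h.Nsq_mul_Nis hs O]
  exact JO_comm _ _ _

theorem Nsq_mul_Nsq : S.Nsq O * S.Nsq O = JO (fun a => S.z0 - S.lam a) O := by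
  unfold Dat.Nsq
  rw [JO_mul]
  congr 1
  funext a
  exact Real.mul_self_sqrt (h.gap_pos hs a).le

theorem Nis_mul_Nis : S.Nis O * S.Nis O = JO S.g O := by
  unfold Dat.Nis
  rw [JO_mul]
  congr 1
  funext a
  rw [← mul_inv, Real.mul_self_sqrt (h.gap_pos hs a).le]
  rfl

theorem Nsq_mul_G : S.Nsq O * JO S.g O = S.Nis O := by
  rw [← h.Nis_mul_Nis hs, ← Matrix.mul_assoc, h.Nsq_mul_Nis hs, Matrix.one_mul]

theorem G_mul_Nsq : JO S.g O * S.Nsq O = S.Nis O := by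
  rw [← h.Nis_mul_Nis hs, Matrix.mul_assoc, h.Nis_mul_Nsq hs, Matrix.mul_one]

theorem G_mul_Y : JO S.g O * S.Y O = S.K0 O := by
  unfold Dat.Y Dat.K0
  rw [JO_mul]
  congr 1
  funext a
  rw [mul_sub, h.g_mul hs a, div_eq_mul_inv]

theorem Nis_Y_Nis : S.Nis O * S.Y O * S.Nis O = S.K0 O := by
  have e : S.Y O * S.Nis O = S.Nis O * S.Y O := JO_comm _ _ _
  rw [Matrix.mul_assoc, e, ← Matrix.mul_assoc, h.Nis_mul_Nis hs, h.G_mul_Y hs]

theorem Nsq_K0 : S.Nsq O * S.K0 O = S.Y O * S.Nis O := by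
  have e : S.Y O * S.Nis O = S.Nis O * S.Y O := JO_comm _ _ _
  rw [← h.G_mul_Y hs, ← Matrix.mul_assoc, h.Nsq_mul_G hs, e]

omit h hs in
theorem K0_eq : S.K0 O = 1 - S.w⁻¹ • JO S.g O := by
  rw [JO_smul, one_sub_JO]
  unfold Dat.K0
  congr 1
  funext a
  rw [div_eq_inv_mul]

theorem trace_K0 : (S.K0 O).trace = 0 := by
  rw [K0_eq, trace_sub, trace_smul, trace_JO, trace_one, Fintype.card_fin, smul_eq_mul]
  have e : ∑ a, S.g a = S.w * n := by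
    unfold Dat.w
    rw [div_mul_cancel₀ _ h.npos'.ne']
  rw [e, ← mul_assoc, inv_mul_cancel₀ (h.w_pos hs).ne', one_mul, sub_self]

theorem opLe_G : OpLe (JO S.g O) (t⁻¹ ^ 288001) :=
  opLe_JO (fun a => by rw [abs_of_pos (h.g_pos hs a)]; exact h.g_le hs a) O

theorem opLe_Nsq : OpLe (S.Nsq O) 3 :=
  opLe_JO (fun a => by
    rw [abs_of_nonneg (Real.sqrt_nonneg _)]
    exact Real.sqrt_le_iff.2 ⟨by norm_num, by linarith [h.gap_le hs a]⟩) O

theorem opLe_Nis : OpLe (S.Nis O) (t⁻¹ ^ 144001) :=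
  opLe_JO (fun a => by
    rw [abs_of_nonneg (inv_nonneg.2 (Real.sqrt_nonneg _)), inv_pow]
    refine inv_anti₀ (hs.p0 _) (Real.le_sqrt_of_sq_le ?_)
    rw [← pow_mul]
    exact (hs.pw (by norm_num)).trans (h.pow_le_gap hs a)) O

theorem opLe_Y : OpLe (S.Y O) 8 :=
  opLe_JO (fun a => abs_le.2 ⟨by linarith [h.gap_pos hs a, h.winv_le hs],
    by linarith [h.gap_le hs a, inv_pos.2 (h.w_pos hs)]⟩) O

/-- `‖(1 - P σ) N0 ^ (-1/2)‖ ≤ σ ^ (-1/2)` -/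
theorem opLe_Ph_Nis (b : ℕ) : OpLe ((1 - S.P (t ^ (2 * b)) O) * S.Nis O) (t⁻¹ ^ b) := by
  rw [Dat.Ph_eq, Dat.Nis, JO_mul]
  refine opLe_JO (fun a => ?_) O
  unfold Dat.ind
  by_cases ha : a ∈ S.low (t ^ (2 * b))
  · rw [if_pos ha, sub_self, zero_mul, abs_zero]
    exact (hs.i0 b).le
  · rw [if_neg ha, sub_zero, one_mul, abs_of_nonneg (inv_nonneg.2 (Real.sqrt_nonneg _)), inv_pow]
    refine inv_anti₀ (hs.p0 _) (Real.le_sqrt_of_sq_le ?_)
    rw [← pow_mul, mul_comm b]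
    exact ((not_le.1 fun hc => ha (S.mem_low.2 hc)).trans (h.eps_lt_gap hs a)).le

/-- `‖P σ N0‖ ≤ 2 σ` for `σ ≥ t ^ 287999` -/
theorem opLe_P_N0 {b : ℕ} (hb : b ≤ 287999) :
    OpLe (S.P (t ^ b) O * JO (fun a => S.z0 - S.lam a) O) (2 * t ^ b) := by
  rw [Dat.P_eq, JO_mul]
  refine opLe_JO (fun a => ?_) O
  unfold Dat.ind
  by_cases ha : a ∈ S.low (t ^ b)
  · rw [if_pos ha, one_mul, abs_of_pos (h.gap_pos hs a)]
    linarith [h.gap_le' hs a, S.mem_low.1 ha, hs.pw hb]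
  · rw [if_neg ha, zero_mul, abs_zero]
    exact (mul_pos two_pos (hs.p0 b)).le

theorem T20_pos : 0 < ∑ a, S.g a ^ 2 := by
  by_contra hc
  have e := mul_le_mul_of_nonneg_left (not_lt.1 hc) (mul_pos hs.L0 (hs.p0 144000)).le
  linarith [h.t2lo, h.npos']

/-- `2 / T20 ≤ 2 L √s / n` -/
theorem two_div_T20 : 2 / ∑ a, S.g a ^ 2 ≤ 2 * L * t ^ 144000 / n := by
  rw [div_le_div_iff₀ (h.T20_pos hs) h.npos']
  linarith [h.t2lo]

end Adm

end Vale.Agent.N150.T1
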