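import Vale.Agent.N150.T1Alg1
import Vale.Agent.N150.T1Kit
import Vale.Agent.N150.Cube3

/-! T1, block D2: bounds in the region `R` (`D2Stmt`). -/

open Matrix Finset Filter Topology

namespace Vale.Agent.N150.T1A

open Vale.Agent.P150 Vale.Agent.P150.F Vale.Agent.N150.EC Vale.Agent.N150.Sp

variable {n : ℕ}

theorem sm_of {L t : ℝ} (hs : T1.Sm L t) : Sm L t :=
  ⟨hs.hL, hs.pos, by simpa using hs.cL (C := 16) (a := 1) (by norm_num) (by norm_num)⟩

/-- `|v| ≤ √n t ^ k` -/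
def Vb (t : ℝ) (k : ℤ) (v : Vec n) : Prop := nv v ≤ √n * E t k

theorem sqrt_mul_sqrt : √(n : ℝ) * √(n : ℝ) = n := Real.mul_self_sqrt (Nat.cast_nonneg n)

theorem opLe_smul_vv (x : ℝ) (u v : Vec n) :
    OpLe (x • vecMulVec u v) (|x| * (nv u * nv v)) :=
  (opLe_vecMulVec u v).smul (mul_nonneg (nv_nonneg _) (nv_nonneg _)) x

theorem opLe_smul_one (x : ℝ) : OpLe (x • (1 : Mat n)) |x| := by
  simpa using (opLe_one (n := n)).smul zero_le_one x

namespace Sm

variable {L t : ℝ} (s : Sm L t)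
include s

theorem v_mono {a c : ℤ} {u : Vec n} (hu : Vb t a u) (h : c ≤ a) : Vb t c u :=
  hu.trans (mul_le_mul_of_nonneg_left (s.mono h) (Real.sqrt_nonneg _))

theorem v_add {a b c : ℤ} {u v : Vec n} (hu : Vb t a u) (hv : Vb t b v) (ha : c < a)
    (hb : c < b) : Vb t c (u + v) := by
  refine (nv_add_le u v).trans ((add_le_add hu hv).trans ?_)
  rw [← mul_add]
  exact mul_le_mul_of_nonneg_left (s.add ha hb) (Real.sqrt_nonneg _)

theorem v_sub {a b c : ℤ} {u v : Vec n} (hu : Vb t a u) (hv : Vb t b v) (ha : c < a)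
    (hb : c < b) : Vb t c (u - v) := by
  rw [sub_eq_add_neg]
  exact s.v_add hu (by unfold Vb; rw [nv_neg]; exact hv) ha hb

theorem v_mul {a b c : ℤ} {A : Mat n} {v : Vec n} (hA : OpLe A (E t a)) (hv : Vb t b v)
    (h : c ≤ a + b) : Vb t c (A *ᵥ v) := by
  refine (hA.nv_le (s.nn a) v).trans ((mul_le_mul_of_nonneg_left hv (s.nn a)).trans ?_)
  rw [mul_left_comm]
  exact mul_le_mul_of_nonneg_left (s.mul_le h) (Real.sqrt_nonneg _)

theorem o_mono {a c : ℤ} {A : Mat n} (hA : OpLe A (E t a)) (h : c ≤ a) : OpLe A (E t c) :=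
  hA.monoN (s.nn a) (s.mono h)

theorem o_num {C : ℝ} {A : Mat n} (hA : OpLe A C) (h0 : 0 ≤ C) (hC : C ≤ 32) :
    OpLe A (E t (-1)) := by
  refine hA.monoN h0 ?_
  have := s.num hC (a := 0) (b := -1) (by norm_num)
  rwa [E_zero, mul_one] at this

theorem o_add {a b c : ℤ} {A B : Mat n} (hA : OpLe A (E t a)) (hB : OpLe B (E t b)) (ha : c < a)
    (hb : c < b) : OpLe (A + B) (E t c) :=
  (hA.add hB (s.nn a) (s.nn b)).monoN (add_nonneg (s.nn a) (s.nn b)) (s.add ha hb)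

theorem o_sub {a b c : ℤ} {A B : Mat n} (hA : OpLe A (E t a)) (hB : OpLe B (E t b)) (ha : c < a)
    (hb : c < b) : OpLe (A - B) (E t c) :=
  (hA.sub hB (s.nn a) (s.nn b)).monoN (add_nonneg (s.nn a) (s.nn b)) (s.add ha hb)

theorem o_mul {a b c : ℤ} {A B : Mat n} (hA : OpLe A (E t a)) (hB : OpLe B (E t b))
    (h : c ≤ a + b) : OpLe (A * B) (E t c) :=
  (hA.mulN hB (s.nn a) (s.nn b)).monoN (mul_nonneg (s.nn a) (s.nn b)) (s.mul_le h)

theorem o_smul {a b c : ℤ} {x : ℝ} {A : Mat n} (hx : |x| ≤ E t a) (hA : OpLe A (E t b))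
    (h : c ≤ a + b) : OpLe (x • A) (E t c) :=
  (hA.smul (s.nn b) x).monoN (mul_nonneg (abs_nonneg _) (s.nn b))
    ((mul_le_mul_of_nonneg_right hx (s.nn b)).trans (s.mul_le h))

omit s in
theorem o_one {a : ℤ} {x : ℝ} (hx : |x| ≤ E t a) : OpLe (x • (1 : Mat n)) (E t a) :=
  (opLe_smul_one x).monoN (abs_nonneg _) hx

theorem o_vv {a b c d : ℤ} {x : ℝ} {u v : Vec n} (hx : |x| * n ≤ E t a) (hu : Vb t b u)
    (hv : Vb t c v) (h : d ≤ a + (b + c)) : OpLe (x • vecMulVec u v) (E t d) := by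
  refine (opLe_smul_vv x u v).monoN
    (mul_nonneg (abs_nonneg _) (mul_nonneg (nv_nonneg _) (nv_nonneg _))) ?_
  have h1 : nv u * nv v ≤ n * E t (b + c) := by
    refine (mul_le_mul hu hv (nv_nonneg _) ((nv_nonneg _).trans hu)).trans (le_of_eq ?_)
    rw [← s.mul, mul_mul_mul_comm, sqrt_mul_sqrt]
  calc |x| * (nv u * nv v) ≤ |x| * (n * E t (b + c)) :=
        mul_le_mul_of_nonneg_left h1 (abs_nonneg _)
    _ = |x| * n * E t (b + c) := by ring
    _ ≤ E t a * E t (b + c) := mul_le_mul_of_nonneg_right hx (s.nn _)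
    _ ≤ E t d := s.mul_le h

end Sm

/-! ### vector facts -/

theorem abs_sq_sub_le (u v : Vec n) : |F.sq u - F.sq v| ≤ nv (u - v) * (nv u + nv v) := by
  have e : F.sq u - F.sq v = ip (u - v) (u + v) := by
    rw [ip_sub_left, ip_add_right, ip_add_right, ipN_self, ipN_self, ipN_comm v u]; ring
  rw [e]
  exact (abs_ip_le _ _).trans (mul_le_mul_of_nonneg_left (nv_add_le u v) (nv_nonneg _))

theorem nv_mu_le (h h' : Vec n) : nv (mu h h') ≤ (nv (tm h) + nv (tm h')) / 2 := by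
  have h1 : nv (mu h h') ≤ 1 / 2 * nv (tm h + tm h') := nv_le_mul (by norm_num) fun i => by
    have a := db_pos h h' i
    have b := db_le h h' i
    simp only [mu, Pi.add_apply]
    rw [abs_div, abs_mul, abs_of_pos a, abs_two]
    nlinarith [abs_nonneg (tm h i + tm h' i)]
  linarith [nv_add_le (tm h) (tm h')]

theorem abs_mul_max_le (a b : ℝ) : |b| * max (a ^ 2) (b ^ 2) ≤ |a| ^ 3 + |b| ^ 3 := by
  have ha := abs_nonneg a
  have hb := abs_nonneg b
  rw [← sq_abs a, ← sq_abs b]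
  rcases le_total |a| |b| with h | h
  · rw [max_eq_right (pow_le_pow_left₀ ha h 2)]
    nlinarith [pow_nonneg ha 3]
  · rw [max_eq_left (pow_le_pow_left₀ hb h 2)]
    nlinarith [pow_nonneg hb 3, mul_le_mul_of_nonneg_right h (sq_nonneg |a|)]

/-- `mu` is close to `m'` -/
theorem nv_mu_sub (h h' : Vec n) : nv (mu h h' - tm h')
    ≤ nv (tm h - tm h') / 2 + 3 * nv (h - tm h) + 3 * nv (h' - tm h') := by
  let a : Vec n := fun i => |(tm h - tm h') i|
  let b : Vec n := fun i => |(h - tm h) i|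
  let c : Vec n := fun i => |(h' - tm h') i|
  have ea : nv a = nv (tm h - tm h') :=
    le_antisymm (nv_mono fun i => by simp [a]) (nv_mono fun i => by simp [a])
  have eb : nv b = nv (h - tm h) :=
    le_antisymm (nv_mono fun i => by simp [b]) (nv_mono fun i => by simp [b])
  have ec : nv c = nv (h' - tm h') :=
    le_antisymm (nv_mono fun i => by simp [c]) (nv_mono fun i => by simp [c])
  have h1 : nv (mu h h' - tm h') ≤ nv ((1 / 2 : ℝ) • a + (3 : ℝ) • b + (3 : ℝ) • c) := by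
    refine nv_mono fun i => le_trans ?_ (le_abs_self _)
    have p := db_pos h h' i
    have q := db_le h h' i
    have k1 : 1 - db h h' i ≤ max (tm h i ^ 2) (tm h' i ^ 2) := one_sub_dd1_le _ _
    have k2 := abs_mul_max_le (tm h i) (tm h' i)
    have k3 : |tm h i| ^ 3 ≤ 3 * |h i - tm h i| := abs_tanh_cube_le _
    have k4 : |tm h' i| ^ 3 ≤ 3 * |h' i - tm h' i| := abs_tanh_cube_le _
    have e : (mu h h' - tm h') i
        = (tm h i - tm h' i) * db h h' i / 2 - tm h' i * (1 - db h h' i) := by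
      simp only [mu, Pi.sub_apply]; ring
    have k5 : |(tm h i - tm h' i) * db h h' i / 2| ≤ 1 / 2 * |tm h i - tm h' i| := by
      rw [abs_div, abs_mul, abs_of_pos p, abs_two]
      nlinarith [abs_nonneg (tm h i - tm h' i)]
    have k6 : |tm h' i * (1 - db h h' i)| ≤ |tm h' i| * max (tm h i ^ 2) (tm h' i ^ 2) := by
      rw [abs_mul, abs_of_nonneg (by linarith : 0 ≤ 1 - db h h' i)]
      exact mul_le_mul_of_nonneg_left k1 (abs_nonneg _)
    rw [e]
    simp only [a, b, c, Pi.add_apply, Pi.smul_apply, Pi.sub_apply, smul_eq_mul]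
    linarith [abs_sub ((tm h i - tm h' i) * db h h' i / 2) (tm h' i * (1 - db h h' i))]
  have h2 := nv_add_le ((1 / 2 : ℝ) • a + (3 : ℝ) • b) ((3 : ℝ) • c)
  have h3 := nv_add_le ((1 / 2 : ℝ) • a) ((3 : ℝ) • b)
  rw [nv_smul, ec] at h2
  rw [nv_smul, nv_smul, ea, eb] at h3
  norm_num at h1 h2 h3
  linarith

/-! ### one point of the region -/

section Reg

variable {L t : ℝ} {S : T1.Dat n} {O : OG n} {h h' : Vec n}

theorem h0_vb (hs : T1.Sm L t) (A : T1.Adm L t S) (O : OG n) :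
    Vb t 71999 (T1.h0 (S.J O) (S.y O)) := by
  have := A.nv_h0 hs O
  rw [← E_nat t 71999 71999 rfl] at this
  have := nv_nonneg (T1.h0 (S.J O) (S.y O))
  unfold Vb
  linarith

theorem Nsq_h0_vb (hs : T1.Sm L t) (A : T1.Adm L t S) (O : OG n) :
    Vb t 143999 (S.Nsq O *ᵥ T1.h0 (S.J O) (S.y O)) := by
  have s := sm_of hs
  refine T1.nv_le_of_sq (s.nn _) ?_
  have e : F.sq (S.Nsq O *ᵥ T1.h0 (S.J O) (S.y O)) = ∑ a, S.g a * S.yt a ^ 2 := by
    unfold T1.Dat.Nsq
    rw [T1.sq_JO, A.act_h0 hs]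
    refine Finset.sum_congr rfl fun a _ => ?_
    rw [mul_pow, Real.sq_sqrt (A.gap_pos hs a).le]
    linear_combination (S.g a * S.yt a ^ 2) * A.g_mul hs a
  have h1 := s.cL (a := 288000) (b := 2 * 143999) (by norm_num)
  rw [e, s.sq]
  refine A.y1.trans ?_
  rw [← E_nat t 288000 288000 rfl, mul_comm L, mul_assoc]
  exact mul_le_mul_of_nonneg_left h1 (Nat.cast_nonneg n)

theorem reg_near (R : T1.Reg t (S.J O) (S.y O) h) : Vb t 143000 (h - T1.h0 (S.J O) (S.y O)) := by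
  unfold Vb; rw [E_nat t 143000 143000 rfl]; exact R.near

theorem reg_cub (R : T1.Reg t (S.J O) (S.y O) h) : Vb t 214000 (h - tm h) := by
  unfold Vb; rw [E_nat t 214000 214000 rfl]; exact R.cub

theorem reg_m (s : Sm L t) (R : T1.Reg t (S.J O) (S.y O) h) :
    Vb t 142999 (tm h - T1.h0 (S.J O) (S.y O)) := by
  have := s.v_sub (reg_near R) (reg_cub R) (c := 142999) (by norm_num) (by norm_num)
  rwa [sub_sub_sub_cancel_left] at this

theorem reg_tm (hs : T1.Sm L t) (A : T1.Adm L t S) (R : T1.Reg t (S.J O) (S.y O) h) :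
    2 * nv (tm h) ≤ √n * E t 71999 := by
  have s := sm_of hs
  have h1 := A.nv_h0 hs O
  rw [← E_nat t 71999 71999 rfl] at h1
  have h2 : nv (tm h - T1.h0 (S.J O) (S.y O)) ≤ √n * E t 142999 := reg_m s R
  have h3 := mul_le_mul_of_nonneg_left (s.num (C := 4) (by norm_num) (a := 142999) (b := 71999)
    (by norm_num)) (Real.sqrt_nonneg (n : ℝ))
  have h4 := nv_add_le (tm h - T1.h0 (S.J O) (S.y O)) (T1.h0 (S.J O) (S.y O))
  rw [sub_add_cancel] at h4
  linarith

theorem reg_tm' (hs : T1.Sm L t) (A : T1.Adm L t S) (R : T1.Reg t (S.J O) (S.y O) h) :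
    Vb t 71999 (tm h) := by
  have := reg_tm hs A R
  have := nv_nonneg (tm h)
  unfold Vb
  linarith

theorem w_eq_sq (hs : T1.Sm L t) (A : T1.Adm L t S) (O : OG n) :
    S.w = 1 - F.sq (T1.h0 (S.J O) (S.y O)) / n := by
  rw [A.h0_eq hs, T1.sq_tr, A.w_eq]; rfl

theorem reg_w (hs : T1.Sm L t) (A : T1.Adm L t S) (R : T1.Reg t (S.J O) (S.y O) h) :
    |wb h - S.w| ≤ E t 214998 := by
  have s := sm_of hs
  have hn := A.npos'
  have h1 := abs_sq_sub_le (tm h) (T1.h0 (S.J O) (S.y O))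
  have h2 : nv (tm h) + nv (T1.h0 (S.J O) (S.y O)) ≤ √n * E t 71999 := by
    have a := reg_tm hs A R
    have b := A.nv_h0 hs O
    rw [← E_nat t 71999 71999 rfl] at b
    have := nv_nonneg (T1.h0 (S.J O) (S.y O))
    linarith
  have h3 := mul_le_mul (reg_m s R) h2 (add_nonneg (nv_nonneg _) (nv_nonneg _))
    (mul_nonneg (Real.sqrt_nonneg _) (s.nn _))
  rw [mul_mul_mul_comm, sqrt_mul_sqrt, s.mul] at h3
  rw [wb_eq A.npos, w_eq_sq hs A O, sub_sub_sub_cancel_left, ← sub_div, abs_div, abs_of_pos hn,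
    div_le_iff₀ hn, abs_sub_comm, mul_comm]
  exact h1.trans (h3.trans (le_of_eq (by norm_num)))

theorem reg_wb (hs : T1.Sm L t) (A : T1.Adm L t S) (R : T1.Reg t (S.J O) (S.y O) h) :
    1 / 4 ≤ wb h := by
  have h1 := (abs_le.1 (reg_w hs A R)).1
  have h2 := (sm_of hs).small (a := 214998) (by norm_num)
  linarith [A.w_half hs]

theorem reg_z (hs : T1.Sm L t) (A : T1.Adm L t S) (R : T1.Reg t (S.J O) (S.y O) h) :
    |T1.zh (S.J O) h - S.z0| ≤ E t 358997 := by
  have s := sm_of hs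
  have h1 := reg_w hs A R
  have h2 := adm_zh s A O (h1.trans (s.mono (by norm_num)))
  have h3 := mul_le_mul_of_nonneg_left h1 (s.nn 143999)
  have h4 := s.mul_le (a := 143999) (b := 214998) (c := 358997) (by norm_num)
  have h5 := mul_nonneg (s.nn 143999) (abs_nonneg (wb h - S.w))
  linarith

theorem reg_gap (hs : T1.Sm L t) (A : T1.Adm L t S) (R : T1.Reg t (S.J O) (S.y O) h) (a : Fin n) :
    E t 288002 ≤ T1.zh (S.J O) h - S.lam a := by
  have s := sm_of hs
  have h1 := (abs_le.1 (reg_z hs A R)).1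
  have h2 := adm_gap s A a
  have h3 := s.add (a := 288002) (b := 358997) (c := 288001) (by norm_num) (by norm_num)
  linarith

/-- the relative change of the resolvent -/
noncomputable def fr (S : T1.Dat n) (z : ℝ) : Vec n := fun a => (S.z0 - z) * (z - S.lam a)⁻¹

theorem reg_fr (hs : T1.Sm L t) (A : T1.Adm L t S) (R : T1.Reg t (S.J O) (S.y O) h) (a : Fin n) :
    |fr S (T1.zh (S.J O) h) a| ≤ E t 70995 := by
  have s := sm_of hs
  have h1 := reg_gap hs A R a
  have h2 := inv_anti₀ (s.pos _) h1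
  rw [E, ← _root_.zpow_neg] at h2
  have h3 : 0 < (T1.zh (S.J O) h - S.lam a)⁻¹ := inv_pos.2 ((s.pos _).trans_le h1)
  unfold fr
  rw [abs_mul, abs_sub_comm, abs_of_pos h3]
  exact (mul_le_mul (reg_z hs A R) h2 h3.le (s.nn _)).trans (s.mul_le (by norm_num))

theorem inv_eq_fr (hs : T1.Sm L t) (A : T1.Adm L t S) {z : ℝ} (hz : ∀ a, S.lam a < z) (a : Fin n) :
    (z - S.lam a)⁻¹ = S.g a * (1 + fr S z a) := by
  have h1 := (sub_pos.2 (hz a)).ne'
  have h2 := (A.gap_pos hs a).ne'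
  unfold fr T1.Dat.g
  field_simp
  ring

theorem N0_G0 (hs : T1.Sm L t) (A : T1.Adm L t S) (O : OG n) {z : ℝ} (hz : ∀ a, S.lam a < z) :
    Nm (S.J O) (T1.zs (S.J O) (S.y O)) * G0 (S.J O) z = 1 + JO (fr S z) O := by
  rw [A.N0_eq hs, T1.Dat.J, T1.G0_JO hz, T1.JO_mul, ← T1.JO_one O, T1.JO_add]
  congr 1
  funext a
  rw [inv_eq_fr hs A hz, ← mul_assoc, mul_comm _ (S.g a), A.g_mul hs, one_mul]

theorem Nsq_G0 (hs : T1.Sm L t) (A : T1.Adm L t S) (O : OG n) {z : ℝ} (hz : ∀ a, S.lam a < z) :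
    S.Nsq O * G0 (S.J O) z * S.Nsq O = 1 + JO (fr S z) O := by
  rw [← N0_G0 hs A O hz, A.N0_eq hs, ← A.Nsq_mul_Nsq hs, T1.Dat.J, T1.G0_JO hz, mul_assoc,
    mul_assoc]
  congr 1
  exact T1.JO_comm _ _ _

theorem reg_F (hs : T1.Sm L t) (A : T1.Adm L t S) (R : T1.Reg t (S.J O) (S.y O) h) :
    OpLe (JO (fr S (T1.zh (S.J O) h)) O) (E t 70995) := T1.opLe_JO (reg_fr hs A R) O

theorem reg_G0 (hs : T1.Sm L t) (A : T1.Adm L t S) (R : T1.Reg t (S.J O) (S.y O) h) :
    OpLe (G0 (S.J O) (T1.zh (S.J O) h)) (E t (-288002)) := by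
  have s := sm_of hs
  have e : G0 (S.J O) (T1.zh (S.J O) h) = _ := T1.G0_JO (zh_lt A O h) O
  rw [e]
  refine T1.opLe_JO (fun a => ?_) O
  have h1 := reg_gap hs A R a
  have h2 := inv_anti₀ (s.pos _) h1
  rw [E, ← _root_.zpow_neg] at h2
  rw [abs_of_pos (inv_pos.2 ((s.pos _).trans_le h1))]
  exact h2

theorem reg_Nsq_tm (hs : T1.Sm L t) (A : T1.Adm L t S) (R : T1.Reg t (S.J O) (S.y O) h) :
    Vb t 142997 (S.Nsq O *ᵥ tm h) := by
  have s := sm_of hs
  have h1 := s.v_mul (s.o_num (A.opLe_Nsq hs O) (by norm_num) (by norm_num)) (reg_m s R)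
    (c := 142998) (by norm_num)
  have h2 := s.v_add h1 (Nsq_h0_vb hs A O) (c := 142997) (by norm_num) (by norm_num)
  rwa [← mulVec_add, sub_add_cancel] at h2

theorem Nis_op (hs : T1.Sm L t) (A : T1.Adm L t S) (O : OG n) : OpLe (S.Nis O) (E t (-144001)) := by
  rw [E_neg t (-144001) 144001 rfl]; exact A.opLe_Nis hs O

theorem reg_K (hs : T1.Sm L t) (A : T1.Adm L t S) (R : T1.Reg t (S.J O) (S.y O) h) :
    OpLe (S.Nsq O * (T1.Kt (S.J O) h (T1.zh (S.J O) h) - S.K0 O) * S.Nsq O) (E t 70993) := by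
  have s := sm_of hs
  have hw := reg_wb hs A R
  have hw0 := A.w_half hs
  have e : S.Nsq O * (T1.Kt (S.J O) h (T1.zh (S.J O) h) - S.K0 O) * S.Nsq O
      = (S.w⁻¹ - (wb h)⁻¹) • (1 : Mat n) - (wb h)⁻¹ • JO (fr S (T1.zh (S.J O) h)) O := by
    rw [T1.Kt, T1.Adm.K0_eq, sub_sub_sub_cancel_left, mul_sub, sub_mul, mul_smul_comm,
      mul_smul_comm, smul_mul_assoc, smul_mul_assoc, Nsq_G0 hs A O (zh_lt A O h), A.Nsq_mul_G hs,
      A.Nis_mul_Nsq hs]
    module
  have k1 : |(wb h)⁻¹| ≤ E t (-1) := by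
    have := s.num (C := 4) (by norm_num) (a := 0) (b := -1) (by norm_num)
    rw [E_zero, mul_one] at this
    rw [abs_of_pos (inv_pos.2 (by linarith))]
    exact le_trans (by rw [inv_le_comm₀ (by linarith) (by norm_num)]; linarith) this
  have k2 : |S.w⁻¹ - (wb h)⁻¹| ≤ E t 214997 := by
    have e2 : S.w⁻¹ - (wb h)⁻¹ = (wb h - S.w) / (S.w * wb h) := by
      field_simp
    have p : 1 / 8 ≤ S.w * wb h := by nlinarith
    rw [e2, abs_div, abs_of_pos (by linarith : 0 < S.w * wb h), div_le_iff₀ (by linarith)]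
    have a := s.num (C := 8) (by norm_num) (a := 214998) (b := 214997) (by norm_num)
    have b := mul_le_mul_of_nonneg_left p (s.nn 214997)
    linarith [reg_w hs A R]
  rw [e]
  exact s.o_sub (Sm.o_one k2) (s.o_smul k1 (reg_F hs A R) (c := 70994) (by norm_num))
    (by norm_num) (by norm_num)

/-! ### two points of the region -/

theorem reg_mu (hs : T1.Sm L t) (A : T1.Adm L t S) (R : T1.Reg t (S.J O) (S.y O) h)
    (R' : T1.Reg t (S.J O) (S.y O) h') : Vb t 71999 (mu h h') := by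
  have a := reg_tm hs A R
  have b := reg_tm hs A R'
  have c := nv_mu_le h h'
  have d := nv_nonneg (mu h h')
  unfold Vb
  linarith

theorem reg_mu0 (s : Sm L t) (R : T1.Reg t (S.J O) (S.y O) h)
    (R' : T1.Reg t (S.J O) (S.y O) h') : Vb t 142998 (mu h h' - T1.h0 (S.J O) (S.y O)) := by
  have a : nv _ ≤ √n * E t 142999 := reg_m s R
  have b : nv _ ≤ √n * E t 142999 := reg_m s R'
  have c : nv _ ≤ √n * E t 142999 := s.v_mono (reg_cub R) (by norm_num)
  have d : nv _ ≤ √n * E t 142999 := s.v_mono (reg_cub R') (by norm_num)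
  have e := nv_mu_sub h h'
  have f := nv_sub_triangle (tm h) (T1.h0 (S.J O) (S.y O)) (tm h')
  rw [nv_sub_comm (T1.h0 (S.J O) (S.y O))] at f
  have g := nv_sub_triangle (mu h h') (tm h') (T1.h0 (S.J O) (S.y O))
  have k := mul_le_mul_of_nonneg_left (s.num (C := 8) (by norm_num) (a := 142999) (b := 142998)
    (by norm_num)) (Real.sqrt_nonneg (n : ℝ))
  unfold Vb
  linarith

theorem reg_T2b (hs : T1.Sm L t) (A : T1.Adm L t S) (R : T1.Reg t (S.J O) (S.y O) h)
    (R' : T1.Reg t (S.J O) (S.y O) h') :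
    |T2b (S.J O) (T1.zh (S.J O) h) (T1.zh (S.J O) h') - ∑ a, S.g a ^ 2|
      ≤ 3 * E t 70995 * ∑ a, S.g a ^ 2 := by
  have s := sm_of hs
  have e1 := s.small (a := 70995) (by norm_num)
  have e0 : T2b (S.J O) (T1.zh (S.J O) h) (T1.zh (S.J O) h') = _ :=
    T2b_JO O (zh_lt A O h) (zh_lt A O h')
  rw [e0, ← Finset.sum_sub_distrib, Finset.mul_sum]
  refine (Finset.abs_sum_le_sum_abs _ _).trans (Finset.sum_le_sum fun a _ => ?_)
  have a1 := reg_fr hs A R a
  have a2 := reg_fr hs A R' a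
  rw [inv_eq_fr hs A (zh_lt A O h), inv_eq_fr hs A (zh_lt A O h')]
  generalize fr S (T1.zh (S.J O) h) a = f at a1 ⊢
  generalize fr S (T1.zh (S.J O) h') a = f' at a2 ⊢
  have e : S.g a * (1 + f) * (S.g a * (1 + f')) - S.g a ^ 2 = (f + f' + f * f') * S.g a ^ 2 := by
    ring
  rw [e, abs_mul, abs_of_nonneg (sq_nonneg (S.g a))]
  refine mul_le_mul_of_nonneg_right ?_ (sq_nonneg _)
  have b1 : |f * f'| ≤ E t 70995 * 1 := by
    rw [abs_mul]
    exact mul_le_mul a1 (by linarith) (abs_nonneg _) (s.nn _)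
  linarith [abs_add_three f f' (f * f')]

theorem reg_c (hs : T1.Sm L t) (A : T1.Adm L t S) (R : T1.Reg t (S.J O) (S.y O) h)
    (R' : T1.Reg t (S.J O) (S.y O) h') :
    |2 / T2b (S.J O) (T1.zh (S.J O) h) (T1.zh (S.J O) h')| * n ≤ E t 143999 / 4 ∧
    |2 / T2b (S.J O) (T1.zh (S.J O) h) (T1.zh (S.J O) h') - 2 / ∑ a, S.g a ^ 2| * n
      ≤ E t 214994 := by
  have s := sm_of hs
  have e1 := s.small (a := 70995) (by norm_num)
  have e0 := s.pos 70995
  have p0 := s.pos 143999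
  have h1 := reg_T2b hs A R R'
  have hT := A.T20_pos hs
  have h2 := adm_T s A
  have hn := A.npos'
  have h3 := s.mul_le (a := 70995) (b := 143999) (c := 214994) (by norm_num)
  generalize T2b (S.J O) (T1.zh (S.J O) h) (T1.zh (S.J O) h') = b at h1 ⊢
  generalize ∑ a, S.g a ^ 2 = T at h1 hT h2 ⊢
  generalize E t 70995 = e at *
  generalize E t 143999 = q at *
  have hb : T / 2 ≤ b := by nlinarith [(abs_le.1 h1).1]
  have hb0 : 0 < b := by linarith
  have k1 : 2 / b * n ≤ q / 4 := by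
    rw [div_mul_eq_mul_div, div_le_iff₀ hb0]
    nlinarith
  refine ⟨by rwa [abs_of_pos (by positivity)], le_trans ?_ h3⟩
  have e2 : 2 / b - 2 / T = 2 / b * ((T - b) / T) := by field_simp
  have k2 : |(T - b) / T| ≤ 3 * e := by
    rw [abs_div, abs_of_pos hT, div_le_iff₀ hT, abs_sub_comm]; exact h1
  rw [e2, abs_mul, abs_of_pos (by positivity : 0 < 2 / b), mul_right_comm]
  have k3 := mul_le_mul k1 k2 (abs_nonneg _) (by positivity)
  nlinarith [mul_pos e0 p0]

theorem reg_vv (hs : T1.Sm L t) (A : T1.Adm L t S) (R : T1.Reg t (S.J O) (S.y O) h)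
    (R' : T1.Reg t (S.J O) (S.y O) h') :
    OpLe (S.Nsq O * ((2 / (n * wb h')) • vecMulVec (tm h') (mu h h')) * S.Nis O) (E t 70994) := by
  have s := sm_of hs
  have hn := A.npos'
  have hw := reg_wb hs A R'
  rw [mul_smul_comm, smul_mul_assoc, Cube.mul_vv, Cube.vv_mul, T1.Dat.Nis_tr]
  refine s.o_vv (a := -1) ?_ (reg_Nsq_tm hs A R')
    (s.v_mul (Nis_op hs A O) (reg_mu hs A R R') le_rfl) (by norm_num)
  have := s.num (C := 8) (by norm_num) (a := 0) (b := -1) (by norm_num)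
  rw [E_zero, mul_one] at this
  have hw0 : 0 < wb h' := by linarith
  rw [abs_of_pos (by positivity)]
  refine le_trans ?_ this
  have e : 2 / (n * wb h') * n = 2 / wb h' := by field_simp
  rw [e, div_le_iff₀ hw0]
  linarith

theorem EE_eq (hs : T1.Sm L t) (A : T1.Adm L t S) (O : OG n) (h h' p : Vec n) :
    T1.EE (S.J O) (S.y O) h h' p = (wb h - S.w) • (1 : Mat n) -
      (2 / (n * wb h')) • vecMulVec (tm h') (T1.mu h h') +
        T1.G00 (S.J O) (S.y O) * T1.RR (S.J O) (S.y O) h h' p := by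
  have hu : T1.G00 (S.J O) (S.y O) * Nm (S.J O) (T1.zs (S.J O) (S.y O)) = 1 :=
    G0_mul (unit_of_pd (zs_spec A.npos (J_symm S O) _).1)
  rw [T1.RR, mul_sub, mul_smul_comm, mul_smul_comm, Cube.mul_vv, Cube.mul_vv, mulVec_mulVec,
    ← mul_assoc, hu, one_mul, T1.EE, T1.MM, T1.Mp, T1.AA, A.w0_eq hs]
  ext i j
  simp only [Matrix.add_apply, Matrix.sub_apply, Matrix.smul_apply, vecMulVec_apply, smul_eq_mul,
    Pi.sub_apply, Pi.smul_apply]
  ring

theorem reg_RR (hs : T1.Sm L t) (A : T1.Adm L t S) (R : T1.Reg t (S.J O) (S.y O) h)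
    (R' : T1.Reg t (S.J O) (S.y O) h') {p : Vec n} {r : ℝ} (hr : 0 ≤ r) (hp : nv p ≤ √n * r) :
    OpLe (T1.RR (S.J O) (S.y O) h h' p) (E t 358989 + r * E t 215998) := by
  have s := sm_of hs
  obtain ⟨c1, c2⟩ := reg_c hs A R R'
  have c1' := c1.trans (by linarith [s.pos 143999] : E t 143999 / 4 ≤ E t 143999)
  have hF := reg_F hs A R
  have hmu := reg_mu hs A R R'
  have hh := h0_vb hs A O
  rw [T1.RR, N0_G0 hs A O (zh_lt A O h), A.T20_eq hs, T2b_eq, mu_eq]
  generalize 2 / T2b (S.J O) (T1.zh (S.J O) h) (T1.zh (S.J O) h') = c at c1 c1' c2 ⊢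
  generalize 2 / ∑ a, S.g a ^ 2 = c0 at c2 ⊢
  generalize JO (fr S (T1.zh (S.J O) h)) O = F at hF ⊢
  have e : c • vecMulVec ((1 + F) *ᵥ (tm h' - p)) (mu h h')
      - c0 • vecMulVec (T1.h0 (S.J O) (S.y O)) (T1.h0 (S.J O) (S.y O))
      = c • vecMulVec (F *ᵥ tm h' + (tm h' - T1.h0 (S.J O) (S.y O))) (mu h h')
        + (c • vecMulVec (T1.h0 (S.J O) (S.y O)) (mu h h' - T1.h0 (S.J O) (S.y O))
        + (c - c0) • vecMulVec (T1.h0 (S.J O) (S.y O)) (T1.h0 (S.J O) (S.y O)))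
        - c • vecMulVec ((1 + F) *ᵥ p) (mu h h') := by
    ext i j
    simp only [Matrix.add_apply, Matrix.sub_apply, Matrix.smul_apply, vecMulVec_apply,
      smul_eq_mul, Pi.sub_apply, Pi.add_apply, add_mulVec, one_mulVec, mulVec_sub]
    ring
  have a1 := s.v_add (s.v_mul hF (reg_tm' hs A R') le_rfl) (reg_m s R') (c := 142993)
    (by norm_num) (by norm_num)
  have b1 := s.o_vv c1' a1 hmu (d := 358991) (by norm_num)
  have b2 := s.o_vv c1' hh (reg_mu0 s R R') (d := 358996) (by norm_num)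
  have b3 := s.o_vv c2 hh hh (d := 358992) (by norm_num)
  have b4 := s.o_add b1 (s.o_add b2 b3 (c := 358990) (by norm_num) (by norm_num)) (c := 358989)
    (by norm_num) (by norm_num)
  have a2 : nv ((1 + F) *ᵥ p) ≤ 2 * (√n * r) := by
    have k := (opLe_one.add hF zero_le_one (s.nn _)).nv_le (by linarith [s.nn 70995]) p
    have k2 := s.small (a := 70995) (by norm_num)
    exact k.trans (mul_le_mul (by linarith) hp (nv_nonneg _) (by norm_num))
  have b5 : OpLe (c • vecMulVec ((1 + F) *ᵥ p) (mu h h')) (r * E t 215998) := by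
    refine (opLe_smul_vv _ _ _).monoN
      (mul_nonneg (abs_nonneg _) (mul_nonneg (nv_nonneg _) (nv_nonneg _))) ?_
    have k1 : nv ((1 + F) *ᵥ p) * nv (mu h h') ≤ n * (2 * r * E t 71999) := by
      refine (mul_le_mul a2 hmu (nv_nonneg _) (by positivity)).trans (le_of_eq ?_)
      linear_combination (2 * r * E t 71999) * sqrt_mul_sqrt (n := n)
    have k2 := s.mul_le (a := 143999) (b := 71999) (c := 215998) (by norm_num)
    have k3 := s.nn 71999
    have k4 := s.nn 215998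
    calc |c| * (nv ((1 + F) *ᵥ p) * nv (mu h h')) ≤ |c| * (n * (2 * r * E t 71999)) :=
          mul_le_mul_of_nonneg_left k1 (abs_nonneg _)
      _ = |c| * n * (2 * r * E t 71999) := by ring
      _ ≤ E t 143999 / 4 * (2 * r * E t 71999) :=
          mul_le_mul_of_nonneg_right c1 (mul_nonneg (mul_nonneg two_pos.le hr) k3)
      _ = r / 2 * (E t 143999 * E t 71999) := by ring
      _ ≤ r * E t 215998 := mul_le_mul (by linarith) k2 (mul_nonneg (s.nn _) k3) hr
  rw [e]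
  exact b4.sub b5 (s.nn _) (mul_nonneg hr (s.nn _))

theorem reg_EE (hs : T1.Sm L t) (A : T1.Adm L t S) (R : T1.Reg t (S.J O) (S.y O) h)
    (R' : T1.Reg t (S.J O) (S.y O) h') {p : Vec n} {r : ℝ} (hr : 0 ≤ r) (hp : nv p ≤ √n * r) :
    OpLe (S.Nsq O * T1.EE (S.J O) (S.y O) h h' p * S.Nis O) (E t 70985 + r * E t (-72004)) := by
  have s := sm_of hs
  have hi := Nis_op hs A O
  have e : S.Nsq O * T1.EE (S.J O) (S.y O) h h' p * S.Nis O = (wb h - S.w) • (1 : Mat n)
      - S.Nsq O * ((2 / (n * wb h')) • vecMulVec (tm h') (mu h h')) * S.Nis O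
      + S.Nis O * T1.RR (S.J O) (S.y O) h h' p * S.Nis O := by
    rw [EE_eq hs A, mul_add, add_mul, mul_sub, sub_mul, mul_smul_comm, mul_one, smul_mul_assoc,
      A.Nsq_mul_Nis hs, ← mul_assoc, A.G00_eq hs, A.Nsq_mul_G hs, mu_eq]
  have a1 := s.o_sub (Sm.o_one (reg_w hs A R)) (reg_vv hs A R R') (c := 70993) (by norm_num)
    (by norm_num)
  have p1 : 0 ≤ E t 358989 + r * E t 215998 := add_nonneg (s.nn _) (mul_nonneg hr (s.nn _))
  have a2 := (hi.mulN (reg_RR hs A R R' hr hp) (s.nn _) p1).mulN hi (mul_nonneg (s.nn _) p1)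
    (s.nn _)
  have p2 := mul_nonneg (mul_nonneg (s.nn (-144001)) p1) (s.nn (-144001))
  rw [e]
  refine (a1.add a2 (s.nn _) p2).monoN (add_nonneg (s.nn _) p2) ?_
  have k1 : E t (-144001) * E t 358989 * E t (-144001) = E t 70987 := by
    rw [s.mul, s.mul]; norm_num
  have k2 : E t (-144001) * E t 215998 * E t (-144001) = E t (-72004) := by
    rw [s.mul, s.mul]; norm_num
  have k3 := s.add (a := 70993) (b := 70987) (c := 70985) (by norm_num) (by norm_num)
  calc E t 70993 + E t (-144001) * (E t 358989 + r * E t 215998) * E t (-144001)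
      = E t 70993 + E t (-144001) * E t 358989 * E t (-144001)
        + r * (E t (-144001) * E t 215998 * E t (-144001)) := by ring
    _ ≤ _ := by rw [k1, k2]; linarith

theorem d2Stmt : T1.D2Stmt := T1.ev_of_sm fun L t hs n S O h h' p r A R R' hr hp => by
  have s := sm_of hs
  have p1 : 0 ≤ E t 358989 + r * E t 215998 := add_nonneg (s.nn _) (mul_nonneg hr (s.nn _))
  have p2 : 0 ≤ E t 70985 + r * E t (-72004) := add_nonneg (s.nn _) (mul_nonneg hr (s.nn _))
  rw [← E_nat t 214900 214900 rfl, ← E_nat t 358800 358800 rfl, ← E_nat t 71999 71999 rfl,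
    ← E_nat t 142900 142900 rfl, ← E_nat t 358000 358000 rfl, ← E_nat t 215900 215900 rfl,
    ← E_nat t 69000 69000 rfl, ← E_neg t (-72200) 72200 rfl, ← E_nat t 70000 70000 rfl]
  refine ⟨(reg_w hs A R).trans (s.mono (by norm_num)), (reg_z hs A R).trans (s.mono (by norm_num)),
    reg_tm' hs A R', reg_mu hs A R R', s.v_mono (reg_Nsq_tm hs A R') (by norm_num),
    EE_eq hs A O h h' p, (reg_RR hs A R R' hr hp).monoN p1 ?_,
    (reg_EE hs A R R' hr hp).monoN p2 ?_, s.o_mono (reg_K hs A R) (by norm_num), ?_,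
    s.o_mono (reg_vv hs A R R') (by norm_num)⟩
  · exact add_le_add (s.mono (by norm_num)) (mul_le_mul_of_nonneg_left (s.mono (by norm_num)) hr)
  · exact add_le_add (s.mono (by norm_num)) (mul_le_mul_of_nonneg_left (s.mono (by norm_num)) hr)
  · rw [Nsq_G0 hs A O (zh_lt A O h), add_sub_cancel_left]
    exact s.o_mono (reg_F hs A R) (by norm_num)

end Reg

end Vale.Agent.N150.T1A
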