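import Vale.Agent.N150.T1Kit
import Vale.Agent.N150.D4
import Vale.Agent.N150.Comp

/-! T1: the statements `D4Stmt`, `D7Stmt` and `SprStmt`. -/

open Matrix MeasureTheory Filter Topology

namespace Vale.Agent.N150.T1

open Vale.Agent.P150 Vale.Agent.P150.F Vale.Agent.N150.EC Vale.Agent.N150.Sp Vale.Agent.N150.Fib

variable {n : ℕ}

namespace D47

/-! ### divided differences -/

theorem isDD_Db (h h' : Vec n) : D4.IsDD h h' (Db h h') := fun i => by
  unfold Db ddt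
  split_ifs with e
  · rw [← e]
    exact D4.btw_self _
  · exact D4.btw_slope e

theorem Db_self (h : Vec n) : Db h h = dv h := funext fun i => by simp [Db, ddt, dv]

theorem VW_eq (h h' : Vec n) : VW h h' = D4.VWd h h' (Db h h') := by
  unfold VW D4.VWd
  congr 1
  ext i j
  simp only [Matrix.sub_apply, Matrix.smul_apply, Matrix.diagonal_apply, Matrix.one_apply,
    smul_eq_mul]
  split_ifs <;> ring

theorem VW_self (c : Vec n) : VW c c = D4.VWd c c (dv c) := by rw [VW_eq, Db_self]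

theorem wb_ge {c : Vec n} {θ : ℝ} (hn : (0 : ℝ) < n) (hc : ∀ i, |c i| ≤ θ) :
    1 - θ ^ 2 ≤ wb c := by
  unfold wb
  rw [le_div_iff₀ hn]
  have := Finset.card_nsmul_le_sum Finset.univ (dv c) (1 - θ ^ 2) fun i _ => by
    have h1 := pow_le_pow_left₀ (abs_nonneg _) ((D4.abs_tanh_le (c i)).trans (hc i)) 2
    rw [sq_abs] at h1
    unfold dv
    linarith
  rwa [Finset.card_univ, Fintype.card_fin, nsmul_eq_mul, mul_comm] at this

theorem bad_sub_spk {θ : ℝ} {c : Vec n} (hc : ∀ i, |c i| ≤ θ) (h h' : Vec n) :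
    D4.bad (3 * θ) c h ⊆ spk θ h h' ∧ D4.bad (3 * θ) c h' ⊆ spk θ h h' := by
  have key : ∀ (g : Vec n) (i : Fin n), i ∈ D4.bad (3 * θ) c g → 2 * θ < |g i| := fun g i hi => by
    have h1 : 3 * θ < |g i - c i| := (Finset.mem_filter.1 hi).2
    linarith [abs_sub (g i) (c i), hc i]
  exact ⟨fun i hi => Finset.mem_filter.2 ⟨Finset.mem_univ i, Or.inl (key h i hi)⟩,
    fun i hi => Finset.mem_filter.2 ⟨Finset.mem_univ i, Or.inr (key h' i hi)⟩⟩

theorem spk_sub_bad {θ : ℝ} {c : Vec n} (hc : ∀ i, |c i| ≤ θ) (h h' : Vec n) :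
    spk θ h h' ⊆ D4.bad θ c h ∪ D4.bad θ c h' := by
  have key : ∀ (g : Vec n) (i : Fin n), 2 * θ < |g i| → i ∈ D4.bad θ c g := fun g i hi => by
    refine Finset.mem_filter.2 ⟨Finset.mem_univ i, ?_⟩
    linarith [abs_sub_abs_le_abs_sub (g i) (c i), hc i]
  intro i hi
  rcases (Finset.mem_filter.1 hi).2 with e | e
  · exact Finset.mem_union_left _ (key h i e)
  · exact Finset.mem_union_right _ (key h' i e)

theorem sub_off (A : Finset (Fin n)) (h h' D c : Vec n) :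
    D4.VWd h h' D - D4.VWd c c (dv c) - diagonal ((D - dv c) - D4.off A (D - dv c)) =
      diagonal (D4.off A (D - dv c)) + D4.Rd h h' D c := by
  have e1 : diagonal ((D - dv c) - D4.off A (D - dv c)) =
      diagonal (D - dv c) - diagonal (D4.off A (D - dv c)) := (Matrix.diagonal_sub _ _).symm
  rw [e1]
  unfold D4.Rd
  abel

/-! ### the Abel property from spreading -/

variable {L t : ℝ} {S : Dat n}

theorem log_le (hs : Sm L t) {N : ℝ} (hN : 0 < N) {j : ℕ} (hj : j ≤ 10 ^ 6) :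
    Real.log (N / (N * t ^ j)) + 2 ≤ t⁻¹ := by
  have h1 := hs.clog (C := 10 ^ 6) (a := 0) (b := 1) (by norm_num) (by norm_num) (by norm_num)
  have h2 : (j : ℝ) ≤ 10 ^ 6 := by exact_mod_cast hj
  have h3 := mul_le_mul_of_nonneg_right h2 hs.log0
  rw [div_mul_cancel_left₀ hN.ne', Sm.log_p, ← one_div t, le_div_iff₀ hs.pos, one_div]
  refine le_trans (mul_le_mul_of_nonneg_right ?_ hs.pos.le) h1
  rw [pow_zero, pow_one, mul_one]
  linarith

theorem ab_lev (hs : Sm L t) (h : Adm L t S) {i j : ℕ} (e : j = i + 3) (hj : j ≤ 431997) {c : ℝ}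
    (hc : 0 ≤ c) {v : Vec n} (hv : Rip.Spread (t⁻¹ ^ 2 * c) (n * t ^ j) v) :
    D4.Ab (t ^ i * c) (t⁻¹ ^ 3 / n * c) v := by
  have hn := h.npos'
  have hk : 0 < n * t ^ j := mul_pos hn (hs.p0 j)
  have h0 := mul_nonneg (hs.i0 2).le hc
  have h1 := log_le hs hn (hj.trans (by norm_num))
  have h2 : t⁻¹ ≤ n * t ^ j := by
    have e1 : t⁻¹ ^ 1 * t ^ 431998 ≤ t ^ j := hs.ip (by omega)
    have e2 := mul_le_mul_of_nonneg_left h.big hs.inv0.le
    rw [pow_one] at e1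
    nlinarith
  refine (D4.ab_of_spread hv h0 hk (mul_le_of_le_one_right hn.le (hs.p1 j))).mono ?_ ?_
  · rw [div_le_iff₀ hn]
    have e1 : 3 * (t⁻¹ ^ 2 * t ^ j) ≤ t ^ i := by
      rw [e, show i + 3 = 2 + (i + 1) by ring, hs.ip_eq]
      exact hs.cp (by norm_num) (Nat.lt_succ_self i)
    calc _ ≤ t⁻¹ ^ 2 * c * (3 * (n * t ^ j)) := mul_le_mul_of_nonneg_left (by linarith) h0
      _ = 3 * (t⁻¹ ^ 2 * t ^ j) * (c * n) := by ring
      _ ≤ t ^ i * (c * n) := mul_le_mul_of_nonneg_right e1 (mul_nonneg hc hn.le)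
      _ = _ := by ring
  · rw [div_mul_eq_mul_div]
    refine div_le_div_of_nonneg_right ?_ hn.le
    calc _ ≤ t⁻¹ ^ 2 * c * t⁻¹ := mul_le_mul_of_nonneg_left h1 h0
      _ = _ := by ring

theorem ab_low (hs : Sm L t) (h : Adm L t S) {O : OG n} (hp : Spr t (t⁻¹ ^ 2) S O) (v : Vec n) :
    D4.Ab (t ^ 297596 * F.sq v) (t⁻¹ ^ 3 / n * F.sq v) (S.P (t ^ 198400) O *ᵥ v) ∧
    D4.Ab (t ^ 208796 * F.sq v) (t⁻¹ ^ 3 / n * F.sq v) (S.P (t ^ 139200) O *ᵥ v) :=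
  ⟨ab_lev hs h rfl (by norm_num) (sqN_nonneg v) (hp.s1 v),
    ab_lev hs h rfl (by norm_num) (sqN_nonneg v) (hp.s2 v)⟩

/-- mass on a sparse set -/
theorem mass (hs : Sm L t) (h : Adm L t S) {i : ℕ} (hi : i ≤ 359997) {c : ℝ} (hc : 0 ≤ c)
    {v : Vec n} (hv : D4.Ab (t ^ i * c) (t⁻¹ ^ 3 / n * c) v) {A : Finset (Fin n)}
    (hA : (A.card : ℝ) ≤ n * t ^ 360000) : ∑ a ∈ A, v a ^ 2 ≤ 2 * t ^ i * c := by
  have hn := h.npos'
  have e1 : t⁻¹ ^ 3 * t ^ 360000 ≤ t ^ i := hs.ip (by omega)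
  have e2 : t⁻¹ ^ 3 / n * c * A.card ≤ t ^ i * c :=
    calc _ ≤ t⁻¹ ^ 3 / n * c * (n * t ^ 360000) :=
          mul_le_mul_of_nonneg_left hA (mul_nonneg (div_pos (hs.i0 3) hn).le hc)
      _ = t⁻¹ ^ 3 * t ^ 360000 * c * (n / n) := by ring
      _ ≤ t ^ i * c := by
          rw [div_self hn.ne', mul_one]
          exact mul_le_mul_of_nonneg_right e1 hc
  linarith [hv.sparse A]

/-- the low part of (E5) -/
theorem e5_low (hs : Sm L t) (h : Adm L t S) {O : OG n} (hp : Spr t (t⁻¹ ^ 2) S O)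
    {A : Finset (Fin n)} (hA : (A.card : ℝ) ≤ n * t ^ 360000) :
    OpLe (S.P (t ^ 139200) O * S.IA O A) (t ^ 4000) := by
  have key : OpLe (Rip.res A * (S.P (t ^ 139200) O * S.Nis O)) (t ^ 4000) := by
    intro v
    set u := S.Nis O *ᵥ v with hu
    set w := ((1 - S.P (t ^ 198400) O) * S.Nis O) *ᵥ v with hw
    have e : (S.P (t ^ 139200) O * S.Nis O) *ᵥ v =
        S.P (t ^ 198400) O *ᵥ u + S.P (t ^ 139200) O *ᵥ w := by
      rw [hu, hw, Matrix.mulVec_mulVec, Matrix.mulVec_mulVec, ← Matrix.add_mulVec,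
        ← Matrix.mul_assoc, Matrix.mul_sub, Matrix.mul_one,
        S.P_mul_P O (hs.pw (by norm_num)), ← Matrix.add_mul, add_sub_cancel]
    have m1 := mass hs h (by norm_num) (sqN_nonneg u) (ab_low hs h hp u).1 hA
    have m2 := mass hs h (by norm_num) (sqN_nonneg w) (ab_low hs h hp w).2 hA
    have n1 : F.sq u ≤ (t⁻¹ ^ 144001) ^ 2 * F.sq v := h.opLe_Nis hs O v
    have n2 : F.sq w ≤ (t⁻¹ ^ 99200) ^ 2 * F.sq v := h.opLe_Ph_Nis hs O 99200 v
    have k1 : (t⁻¹ ^ 144001) ^ 2 * t ^ 297596 ≤ t ^ 8001 := by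
      rw [← pow_mul]
      exact hs.ip (by norm_num)
    have k2 : (t⁻¹ ^ 99200) ^ 2 * t ^ 208796 ≤ t ^ 8001 := by
      rw [← pow_mul]
      exact hs.ip (by norm_num)
    have k3 : 8 * t ^ 8001 ≤ (t ^ 4000) ^ 2 := by
      rw [← pow_mul]
      exact hs.cp (by norm_num) (by norm_num)
    have s0 := sqN_nonneg v
    have a1 : t ^ 297596 * F.sq u ≤ t ^ 8001 * F.sq v :=
      (mul_le_mul_of_nonneg_left n1 (hs.p0 _).le).trans (by
        rw [← mul_assoc, mul_comm (t ^ 297596)]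
        exact mul_le_mul_of_nonneg_right k1 s0)
    have a2 : t ^ 208796 * F.sq w ≤ t ^ 8001 * F.sq v :=
      (mul_le_mul_of_nonneg_left n2 (hs.p0 _).le).trans (by
        rw [← mul_assoc, mul_comm (t ^ 208796)]
        exact mul_le_mul_of_nonneg_right k2 s0)
    have a3 := mul_le_mul_of_nonneg_right k3 s0
    have a4 : ∑ a ∈ A, (S.P (t ^ 198400) O *ᵥ u + S.P (t ^ 139200) O *ᵥ w) a ^ 2 ≤
        2 * ∑ a ∈ A, (S.P (t ^ 198400) O *ᵥ u) a ^ 2 +
          2 * ∑ a ∈ A, (S.P (t ^ 139200) O *ᵥ w) a ^ 2 := by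
      rw [Finset.mul_sum, Finset.mul_sum, ← Finset.sum_add_distrib]
      refine Finset.sum_le_sum fun a _ => ?_
      rw [Pi.add_apply]
      exact add_sq_le.trans (le_of_eq (mul_add _ _ _))
    rw [← Matrix.mulVec_mulVec, Rip.sq_res, e]
    linarith
  have h2 := Rip.opLe_transpose key (hs.p0 _).le
  have e1 : (Rip.res A)ᵀ = Rip.res A := Matrix.diagonal_transpose _
  have e2 : S.Nis O * S.P (t ^ 139200) O = S.P (t ^ 139200) O * S.Nis O := JO_comm _ _ O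
  rw [Matrix.transpose_mul, Matrix.transpose_mul, e1, S.Nis_tr, (S.isProj_P O _).symm, e2,
    Matrix.mul_assoc] at h2
  exact h2

theorem nv_hc (hs : Sm L t) (h : Adm L t S) {c : Vec n} (hc : F.sq c ≤ n * t ^ 143999) :
    nv c ≤ √n * t ^ 71999 := by
  refine nv_le_of_sq (hs.p0 _).le (hc.trans (mul_le_mul_of_nonneg_left ?_ h.npos'.le))
  rw [← pow_mul]
  exact hs.pw (by norm_num)

theorem wb_hc (hs : Sm L t) (h : Adm L t S) {c : Vec n} (hc : ∀ i, |c i| ≤ t ^ 71999) :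
    3 / 4 ≤ wb c := by
  have h1 := wb_ge h.npos' hc
  have h2 : 4 * t ^ 143998 ≤ t ^ 0 := hs.cp (by norm_num) (by norm_num)
  rw [← pow_mul, show 71999 * 2 = 143998 from rfl] at h1
  rw [pow_zero] at h2
  linarith

theorem opLe_VV (hs : Sm L t) (h : Adm L t S) {c : Vec n} (hc : ∀ i, |c i| ≤ t ^ 71999)
    (hc' : F.sq c ≤ n * t ^ 143999) : OpLe (VW c c) (5 * t ^ 143998) := by
  have h1 := D4.opLe_VV hc (nv_hc hs h hc') (by linarith [wb_hc hs h hc])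
  have e : (t ^ 71999) ^ 2 + 4 * (√n * t ^ 71999) ^ 2 / n = 5 * t ^ 143998 := by
    rw [mul_pow, Real.sq_sqrt h.npos'.le, ← pow_mul, mul_div_assoc,
      mul_div_cancel_left₀ _ h.npos'.ne']
    ring
  rwa [e, ← VW_self] at h1

/-- (E2) -/
theorem e2 (hs : Sm L t) (h : Adm L t S) (O : OG n) {c : Vec n} (hc : ∀ i, |c i| ≤ t ^ 71999)
    (hc' : F.sq c ≤ n * t ^ 143999) :
    OpLe ((1 - S.P (t ^ 139200) O) * S.X0 O c * (1 - S.P (t ^ 139200) O)) (t ^ 4000) := by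
  have h1 : OpLe ((1 - S.P (t ^ 139200) O) * S.Nis O) (t⁻¹ ^ 69600) := h.opLe_Ph_Nis hs O 69600
  have p1 := hs.i0 69600
  have p2 : 0 < 5 * t ^ 143998 := mul_pos (by norm_num) (hs.p0 143998)
  have h2 := (h1.mulN (opLe_VV hs h hc hc') p1.le p2.le).mulN h1 (mul_pos p1 p2).le p1.le
  have e1 : (1 - S.P (t ^ 139200) O) * S.Nis O = S.Nis O * (1 - S.P (t ^ 139200) O) :=
    S.Ph_comm O _ _
  have e : (1 - S.P (t ^ 139200) O) * S.X0 O c * (1 - S.P (t ^ 139200) O) =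
      (1 - S.P (t ^ 139200) O) * S.Nis O * VW c c * ((1 - S.P (t ^ 139200) O) * S.Nis O) := by
    conv_rhs => rw [e1, ← e1]
    unfold Dat.X0
    rw [e1]
    simp only [Matrix.mul_assoc]
    rw [← Matrix.mul_assoc (1 - S.P (t ^ 139200) O), e1, Matrix.mul_assoc]
  rw [e]
  refine h2.monoN (mul_pos (mul_pos p1 p2) p1).le ?_
  have k1 : t⁻¹ ^ 139200 * t ^ 143998 ≤ t ^ 4001 := hs.ip (by norm_num)
  have k2 : 5 * t ^ 4001 ≤ t ^ 4000 := hs.cp (by norm_num) (by norm_num)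
  have e3 : t⁻¹ ^ 69600 * (5 * t ^ 143998) * t⁻¹ ^ 69600 = 5 * (t⁻¹ ^ 139200 * t ^ 143998) := by
    ring
  linarith

end D47

open D47

theorem d4Stmt : D4Stmt := by
  refine ev_of_sm fun L t hs n S O c h hw => ?_
  have hc := hw.str.clp
  have hn := h.npos'
  refine ⟨e2 hs h O hc hw.str.nrm, fun A hA => e5_low hs h hw.spr hA, fun g g' hg hg' => ?_⟩
  have hθ := hs.p0 71999
  have hsq : √n * √n = (n : ℝ) := Real.mul_self_sqrt hn.le
  have hr := Real.sqrt_pos.2 hn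
  constructor
  · have h1 : ((spk (t ^ 71999) g g').card : ℝ) ≤
        (D4.bad (t ^ 71999) c g).card + (D4.bad (t ^ 71999) c g').card := by
      exact_mod_cast (Finset.card_le_card (spk_sub_bad hc g g')).trans (Finset.card_union_le _ _)
    have e : (2 * (√n * t ^ 252000)) ^ 2 / (t ^ 71999) ^ 2 = n * (4 * t ^ 360002) := by
      rw [div_eq_iff (by positivity), mul_pow, mul_pow, Real.sq_sqrt hn.le]
      ring
    have h2 := D4.card_bad hθ hg
    have h3 := D4.card_bad hθ hg'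
    have h4 : 8 * t ^ 360002 ≤ t ^ 360001 := hs.cp (by norm_num) (by norm_num)
    rw [e] at h2 h3
    linarith [mul_le_mul_of_nonneg_left h4 hn.le]
  set A := spk (t ^ 71999) g g' with hA
  have hD := isDD_Db g g'
  refine ⟨(Db g g' - dv c) - D4.off A (Db g g' - dv c), fun i => ?_, fun i hi => ?_, ?_⟩
  · have := hD.le_one c i
    rw [Pi.sub_apply]
    unfold D4.off
    split_ifs
    · rwa [sub_zero]
    · simp
  · rw [Pi.sub_apply]
    unfold D4.off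
    rw [if_neg hi, sub_self]
  have ha := nv_hc hs h hw.str.nrm
  have hQ : 2 * (√n * t ^ 252000) * (√n * t ^ 71999 + 2 * (√n * t ^ 252000)) ≤
      6 * n * t ^ 323999 := by
    have h1 : t ^ 252000 ≤ t ^ 71999 := hs.pw (by norm_num)
    have h2 := mul_le_mul_of_nonneg_left h1 hr.le
    calc _ ≤ 2 * (√n * t ^ 252000) * (3 * (√n * t ^ 71999)) :=
          mul_le_mul_of_nonneg_left (by linarith) (mul_pos two_pos (mul_pos hr (hs.p0 _))).le
      _ = 6 * (√n * √n) * t ^ 323999 := by ring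
      _ = _ := by rw [hsq]
  have hwc := wb_hc hs h hc
  have hwg : 1 / 2 ≤ wb g' := by
    have h1 := (abs_le.1 (D4.wb_close hg' ha)).1
    have h2 : 96 * t ^ 323999 ≤ t ^ 0 := hs.cp (by norm_num) (by norm_num)
    have h3 : 4 * (2 * (√n * t ^ 252000)) * (√n * t ^ 71999 + 2 * (√n * t ^ 252000)) / n ≤
        24 * t ^ 323999 := by
      rw [div_le_iff₀ hn]
      linarith
    rw [pow_zero] at h2
    linarith
  have hP := S.isProj_P O (t ^ 139200)
  have hα := h.opLe_Nis hs O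
  have hα' : OpLe (S.P (t ^ 139200) O * S.Nis O) (t⁻¹ ^ 144001) := by
    simpa using (Rip.opLe_proj hP).mulN hα zero_le_one (hs.i0 _).le
  rw [VW_eq, VW_self, sub_off]
  refine D4.opLe_rest hD (θ := 3 * t ^ 71999) (by positivity) (fun i => by linarith [hc i]) hg hg'
    ha hwg (by linarith) (bad_sub_spk hc g g').1 (bad_sub_spk hc g g').2 (S.Nis_tr O) hP.idem
    (a := t ^ 208796) (b := t⁻¹ ^ 3 / n) (hs.p0 _).le (div_pos (hs.i0 3) hn).le
    (fun u hu => by simpa only [hu] using (ab_low hs h hw.spr u).2) (hs.i0 _).le hα hα'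
    (h.opLe_Ph_Nis hs O 69600) ?_
  set Q := 2 * (√n * t ^ 252000) * (√n * t ^ 71999 + 2 * (√n * t ^ 252000)) with hQd
  have hQ' : Q / n ≤ 6 * t ^ 323999 := by
    rw [div_le_iff₀ hn]
    linarith
  have k1 : t⁻¹ ^ 288002 * t ^ 352794 ≤ t ^ 4001 := hs.ip (by norm_num)
  have k2 : t⁻¹ ^ 288005 * t ^ 323999 ≤ t ^ 4001 := hs.ip (by norm_num)
  have k3 : t⁻¹ ^ 139200 * t ^ 143998 ≤ t ^ 4001 := hs.ip (by norm_num)
  have k4 : t⁻¹ ^ 288002 * t ^ 323999 ≤ t ^ 4001 := hs.ip (by norm_num)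
  have k5 : 540 * t ^ 4001 ≤ t ^ 4000 := hs.cp (by norm_num) (by norm_num)
  have k6 := mul_le_mul_of_nonneg_left hQ' (hs.i0 288005).le
  have k7 := mul_le_mul_of_nonneg_left hQ' (hs.i0 288002).le
  have e : 2 * (3 * t ^ 208796 * (3 * t ^ 71999) ^ 2 + 4 * (t⁻¹ ^ 3 / n) * (2 * (√n * t ^ 252000)) *
      (√n * t ^ 71999 + 2 * (√n * t ^ 252000))) * (t⁻¹ ^ 144001) ^ 2 +
      6 * (3 * t ^ 71999) ^ 2 * (t⁻¹ ^ 69600) ^ 2 + 64 * (2 * (√n * t ^ 252000)) *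
      (√n * t ^ 71999 + 2 * (√n * t ^ 252000)) / n * (t⁻¹ ^ 144001) ^ 2 =
      54 * (t⁻¹ ^ 288002 * t ^ 352794) + 8 * (t⁻¹ ^ 288005 * (Q / n)) +
        54 * (t⁻¹ ^ 139200 * t ^ 143998) + 64 * (t⁻¹ ^ 288002 * (Q / n)) := by
    rw [hQd]
    generalize t⁻¹ = u
    ring
  rw [e]
  linarith

/-! ### D7 -/

namespace D47

theorem opLe_sand {A B C : Mat n} {c : ℝ} (hA : OpLe A 1) (hB : OpLe B c) (hC : OpLe C 1)
    (hc : 0 ≤ c) : OpLe (A * B * C) c := by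
  simpa using (hA.mulN hB zero_le_one hc).mulN hC (by simpa using hc) zero_le_one

theorem opLe_left {A B : Mat n} {c : ℝ} (hA : OpLe A 1) (hB : OpLe B c) (hc : 0 ≤ c) :
    OpLe (A * B) c := by
  simpa using hA.mulN hB zero_le_one hc

theorem pert1 {V V' : Mat n} {η δ : ℝ} (h : OpLe V η) (hd : OpLe (V' - V) δ) (hη : 0 ≤ η)
    (hδ : 0 ≤ δ) : OpLe V' (η + δ) := by
  have := h.add hd hη hδ
  rwa [add_sub_cancel] at this

theorem pert2 {U U' V V' Y : Mat n} {η δ B : ℝ} (h : OpLe (U * Y * V) η) (hU : OpLe U B)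
    (hV : OpLe V B) (hY : OpLe Y 8) (dU : OpLe (U' - U) δ) (dV : OpLe (V' - V) δ) (hη : 0 ≤ η)
    (hδ : 0 ≤ δ) (hB : 0 ≤ B) : OpLe (U' * Y * V') (η + 8 * δ * (2 * B + δ)) := by
  have h1 := (dU.mulN hY hδ (by norm_num)).mulN (pert1 hV dV hB hδ) (by positivity)
    (by positivity)
  have h2 := (hU.mulN hY hB (by norm_num)).mulN dV (by positivity) hδ
  have h3 := h1.add h2 (by positivity) (by positivity)
  have e : (U' - U) * Y * V' + U * Y * (V' - V) = U' * Y * V' - U * Y * V := by noncomm_ring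
  rw [e] at h3
  exact (pert1 h h3 hη (by positivity)).monoN (by positivity) (le_of_eq (by ring))

theorem forms {P Q Y : Mat n} (hY : Q * Y = Y * Q) (hQ : Q * Q = Q) (hs : Qᵀ = Q) (X I : Mat n) :
    P * X * Q * Y * X * P = P * X * Q * Y * (Q * X * P) ∧
    Iᵀ * Y * Q * I = (Q * I)ᵀ * Y * (Q * I) ∧ P * X * Q * Y * I = P * X * Q * Y * (Q * I) ∧
    Iᵀ * Y * Q * X * P = (Q * I)ᵀ * Y * (Q * X * P) := by
  have e1 : ∀ M : Mat n, Q * (Y * (Q * M)) = Q * (Y * M) := fun M => by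
    rw [← Matrix.mul_assoc Y, ← hY, Matrix.mul_assoc, ← Matrix.mul_assoc Q Q, hQ]
  have e2 : ∀ M : Mat n, Y * (Q * M) = Q * (Y * M) := fun M => by
    rw [← Matrix.mul_assoc, ← hY, Matrix.mul_assoc]
  refine ⟨?_, ?_, ?_, ?_⟩
  · simp only [Matrix.mul_assoc, e1]
  · rw [Matrix.transpose_mul, hs]
    simp only [Matrix.mul_assoc]
    rw [e1, e2]
  · simp only [Matrix.mul_assoc, e1]
  · rw [Matrix.transpose_mul, hs]
    simp only [Matrix.mul_assoc]
    rw [e1, e2]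

theorem forms_S (S : Dat n) (O : OG n) (σ : ℝ) (X I : Mat n) :
    S.P σ O * X * (1 - S.P σ O) * S.Y O * X * S.P σ O =
      S.P σ O * X * (1 - S.P σ O) * S.Y O * ((1 - S.P σ O) * X * S.P σ O) ∧
    Iᵀ * S.Y O * (1 - S.P σ O) * I = ((1 - S.P σ O) * I)ᵀ * S.Y O * ((1 - S.P σ O) * I) ∧
    S.P σ O * X * (1 - S.P σ O) * S.Y O * I =
      S.P σ O * X * (1 - S.P σ O) * S.Y O * ((1 - S.P σ O) * I) ∧
    Iᵀ * S.Y O * (1 - S.P σ O) * X * S.P σ O =
      ((1 - S.P σ O) * I)ᵀ * S.Y O * ((1 - S.P σ O) * X * S.P σ O) :=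
  forms (S.Ph_comm O σ _) (S.isProj_P O σ).compl.idem (S.isProj_P O σ).compl.symm X I

theorem cancel (U : OG n) (M : Mat n) : U.1 * (U.1ᵀ * M) = M := by
  rw [← Matrix.mul_assoc, OG.mul_transpose, Matrix.one_mul]

theorem opLe_conj_sub {U : OG n} {V : Mat n} {r c : ℝ} (hU : OpLe (U.1 - 1) r) (hV : OpLe V c)
    (hr : 0 ≤ r) (hc : 0 ≤ c) : OpLe (U.1 * V * U.1ᵀ - V) (2 * r * c) := by
  have hU' := Rip.opLe_transpose hU hr
  rw [Matrix.transpose_sub, Matrix.transpose_one] at hU'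
  have h1 := (hU.mulN hV hr hc).mulN (Rip.opLe_orth_tr U) (by positivity) zero_le_one
  have h2 := hV.mulN hU' hc hr
  have e : U.1 * V * U.1ᵀ - V = (U.1 - 1) * V * U.1ᵀ + V * (U.1ᵀ - 1) := by noncomm_ring
  rw [e]
  exact (h1.add h2 (by positivity) (by positivity)).monoN (by positivity) (le_of_eq (by ring))

/-- spreading is stable under small rotations -/
theorem spread_rot {P : Mat n} (hP : OpLe P 1) {U : OG n} {r c K : ℝ} (hU : OpLe (U.1 - 1) r)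
    (hr : 0 ≤ r) (hK : n * r ^ 2 ≤ K) (h : ∀ v, Rip.Spread (c * F.sq v) K (P *ᵥ v)) (v : Vec n) :
    Rip.Spread ((2 * c + 2) * F.sq v) K ((U.1ᵀ * P * U.1) *ᵥ v) := by
  have hU' := Rip.opLe_transpose hU hr
  rw [Matrix.transpose_sub, Matrix.transpose_one] at hU'
  have h1 := h (U.1 *ᵥ v)
  rw [Rip.sq_orth] at h1
  have h2 : OpLe ((U.1ᵀ - 1) * P * U.1) r := by
    simpa using (hU'.mulN hP hr zero_le_one).mulN (Rip.opLe_orth U) (by simpa using hr) zero_le_one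
  have h3 : Rip.Spread (F.sq v) K (((U.1ᵀ - 1) * P * U.1) *ᵥ v) := by
    refine Rip.spread_of_small (sqN_nonneg v) ?_
    calc _ ≤ n * (r ^ 2 * F.sq v) := mul_le_mul_of_nonneg_left (h2 v) (Nat.cast_nonneg n)
      _ = F.sq v * (n * r ^ 2) := by ring
      _ ≤ _ := mul_le_mul_of_nonneg_left hK (sqN_nonneg v)
  have h4 := h1.add h3
  have e : P * U.1 + (U.1ᵀ - 1) * P * U.1 = U.1ᵀ * P * U.1 := by noncomm_ring
  rw [Matrix.mulVec_mulVec, ← Matrix.add_mulVec, e] at h4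
  rwa [add_mul, mul_assoc]

variable {L t : ℝ} {S : Dat n}

theorem spr_rot (hs : Sm L t) (h : Adm L t S) {O U : OG n} (hp : Spr t t⁻¹ S O)
    (hU : OpLe (U.1 - 1) (t ^ 216000)) : Spr t (t⁻¹ ^ 2) S (O * U) := by
  have hc : 2 * t⁻¹ + 2 ≤ t⁻¹ ^ 2 := by
    have := hs.ci (C := 4) (by norm_num) (a := 1) (b := 2) (by norm_num)
    rw [pow_one] at this
    linarith [hs.inv1]
  have key : ∀ a b : ℕ, b ≤ 432000 →
      (∀ v, Rip.Spread (t⁻¹ * F.sq v) (n * t ^ b) (S.P (t ^ a) O *ᵥ v)) →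
      ∀ v, Rip.Spread (t⁻¹ ^ 2 * F.sq v) (n * t ^ b) (S.P (t ^ a) (O * U) *ᵥ v) := by
    intro a b hb h1 v
    have hK : n * (t ^ 216000) ^ 2 ≤ n * t ^ b := by
      rw [← pow_mul]
      exact mul_le_mul_of_nonneg_left (hs.pw hb) h.npos'.le
    have h2 := spread_rot (Rip.opLe_proj (S.isProj_P O (t ^ a))) hU (hs.p0 _).le hK h1 v
    have e : S.P (t ^ a) (O * U) = U.1ᵀ * S.P (t ^ a) O * U.1 := JO_rot _ O U
    rw [e]
    exact h2.mono (mul_nonneg (by linarith [hs.inv0]) (sqN_nonneg v))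
      (mul_le_mul_of_nonneg_right hc (sqN_nonneg v)) (mul_pos h.npos' (hs.p0 b)).le le_rfl
  exact ⟨key _ _ (by norm_num) hp.s1, key _ _ (by norm_num) hp.s2⟩

end D47

theorem d7Stmt : D7Stmt := by
  refine ev_of_sm fun L t hs n S O U c h hA hp hU => ⟨?_, spr_rot hs h hp hU⟩
  set σ := t ^ 139200 with hσ
  have hr := (hs.p0 216000).le
  have hα := h.opLe_Nis hs O
  have a0 := (hs.i0 144001).le
  have hY := h.opLe_Y hs O
  have hP := Rip.opLe_proj (S.isProj_P O σ)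
  have hQ := Rip.opLe_proj (S.isProj_P O σ).compl
  have u1 := Rip.opLe_orth U
  have u2 := Rip.opLe_orth_tr U
  have δ0 := (hs.p0 70000).le
  have η0 := (hs.p0 4000).le
  have B0 := (hs.i0 10).le
  set X' := S.Nis O * (U.1 * VW c c * U.1ᵀ) * S.Nis O with hX'
  have dX : OpLe (X' - S.X0 O c) (t ^ 70000) := by
    have p2 : 0 ≤ 5 * t ^ 143998 := (mul_pos (by norm_num) (hs.p0 143998)).le
    have p3 : 0 ≤ 2 * t ^ 216000 * (5 * t ^ 143998) := mul_nonneg (by linarith) p2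
    have h1 := (hα.mulN (opLe_conj_sub hU (opLe_VV hs h hA.clp hA.nrm) hr p2) a0 p3).mulN hα
      (mul_nonneg a0 p3) a0
    have e : X' - S.X0 O c = S.Nis O * (U.1 * VW c c * U.1ᵀ - VW c c) * S.Nis O := by
      rw [hX', Matrix.mul_sub, Matrix.sub_mul]
      rfl
    rw [e]
    refine h1.monoN (mul_nonneg (mul_nonneg a0 p3) a0) ?_
    have k1 : t⁻¹ ^ 288002 * t ^ 359998 ≤ t ^ 70001 := hs.ip (by norm_num)
    have k2 : 10 * t ^ 70001 ≤ t ^ 70000 := hs.cp (by norm_num) (by norm_num)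
    have e3 : t⁻¹ ^ 144001 * (2 * t ^ 216000 * (5 * t ^ 143998)) * t⁻¹ ^ 144001 =
        10 * (t⁻¹ ^ 288002 * t ^ 359998) := by
      generalize t⁻¹ = u
      ring
    linarith
  have dI : ∀ A : Finset (Fin n), OpLe ((1 - S.P σ O) * (S.Nis O * U.1 * Rip.res A) -
      (1 - S.P σ O) * S.IA O A) (t ^ 70000) := fun A => by
    have h1 := (hα.mulN hU a0 hr).mulN (Rip.opLe_proj (Rip.isProj_res A)) (mul_nonneg a0 hr)
      zero_le_one
    have e : (1 - S.P σ O) * (S.Nis O * U.1 * Rip.res A) - (1 - S.P σ O) * S.IA O A =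
        (1 - S.P σ O) * (S.Nis O * (U.1 - 1) * Rip.res A) := by
      unfold Dat.IA
      noncomm_ring
    rw [e]
    refine opLe_left hQ (h1.monoN (by rw [mul_one]; exact mul_nonneg a0 hr) ?_) δ0
    rw [mul_one]
    exact hs.ip (by norm_num)
  have dI' : ∀ A : Finset (Fin n), OpLe (((1 - S.P σ O) * (S.Nis O * U.1 * Rip.res A))ᵀ -
      ((1 - S.P σ O) * S.IA O A)ᵀ) (t ^ 70000) := fun A => by
    rw [← Matrix.transpose_sub]
    exact Rip.opLe_transpose (dI A) δ0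
  have dB : ∀ {M N : Mat n}, OpLe M 1 → OpLe N 1 →
      OpLe (M * X' * N - M * S.X0 O c * N) (t ^ 70000) := fun hM hN => by
    rw [← Matrix.sub_mul, ← Matrix.mul_sub]
    exact opLe_sand hM dX hN δ0
  have c1 : t ^ 4000 + t ^ 70000 ≤ t ^ 3900 := by
    linarith [hs.cp (C := 2) (by norm_num) (a := 4000) (b := 3900) (by norm_num),
      hs.pw (a := 70000) (b := 4000) (by norm_num)]
  have c2 : t⁻¹ ^ 10 + t ^ 70000 ≤ t⁻¹ ^ 11 := by
    linarith [hs.ci (C := 2) (by norm_num) (a := 10) (b := 11) (by norm_num), hs.p1 70000,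
      hs.i1 10]
  have c3 : t ^ 4000 + 8 * t ^ 70000 * (2 * t⁻¹ ^ 10 + t ^ 70000) ≤ t ^ 3900 := by
    have k1 : t⁻¹ ^ 10 * t ^ 70000 ≤ t ^ 4000 := hs.ip (by norm_num)
    have k2 := mul_le_mul_of_nonneg_left ((hs.p1 70000).trans (hs.i1 10)) δ0
    have k3 : 25 * t ^ 4000 ≤ t ^ 3900 := hs.cp (by norm_num) (by norm_num)
    linarith
  have p1 : 0 ≤ t ^ 4000 + t ^ 70000 := add_nonneg η0 δ0
  have p2 : 0 ≤ t⁻¹ ^ 10 + t ^ 70000 := add_nonneg B0 δ0
  have p3 : 0 ≤ t ^ 4000 + 8 * t ^ 70000 * (2 * t⁻¹ ^ 10 + t ^ 70000) :=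
    add_nonneg η0 (mul_nonneg (by linarith) (by linarith))
  have η1 := (hs.p0 3900).le
  have B1 := (hs.i0 11).le
  have eP : S.P σ (O * U) = U.1ᵀ * S.P σ O * U.1 := JO_rot _ O U
  have eY : S.Y (O * U) = U.1ᵀ * S.Y O * U.1 := JO_rot _ O U
  have eN : S.Nis (O * U) = U.1ᵀ * S.Nis O * U.1 := JO_rot _ O U
  have eQ : 1 - S.P σ (O * U) = U.1ᵀ * (1 - S.P σ O) * U.1 := by
    rw [S.Ph_eq, S.Ph_eq, JO_rot]
  have eX : S.X0 (O * U) c = U.1ᵀ * X' * U.1 := by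
    unfold Dat.X0
    rw [eN, hX']
    simp only [Matrix.mul_assoc]
  have eI : ∀ A, S.IA (O * U) A = U.1ᵀ * (S.Nis O * U.1 * Rip.res A) := fun A => by
    unfold Dat.IA
    rw [eN]
    simp only [Matrix.mul_assoc]
  have b1 : ∀ M N : Mat n, U.1ᵀ * M * U.1 * (U.1ᵀ * X' * U.1) * (U.1ᵀ * N * U.1) =
      U.1ᵀ * (M * X' * N) * U.1 := fun M N => by simp only [Matrix.mul_assoc, cancel]
  have b2 : ∀ M N : Mat n, U.1ᵀ * M * U.1 * (U.1ᵀ * N) = U.1ᵀ * (M * N) := fun M N => by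
    simp only [Matrix.mul_assoc, cancel]
  have f := forms_S S O σ (S.X0 O c)
  have f' := forms_S S (O * U) σ (S.X0 (O * U) c)
  refine ⟨hA.clp, hA.nrm, ?_, ?_, ?_, ?_, fun A hc => ?_, fun A hc => ?_, fun A hc => ?_,
    fun A hc => ?_⟩
  · rw [eP, eX, b1]
    exact opLe_sand u2 ((pert1 hA.e1 (dB hP hP) η0 δ0).monoN p1 c1) u1 η1
  · rw [eQ, eP, eX, b1]
    exact opLe_sand u2 ((pert1 hA.e3 (dB hP hQ) B0 δ0).monoN p2 c2) u1 B1
  · rw [eQ, eP, eX, b1]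
    exact opLe_sand u2 ((pert1 hA.e3' (dB hQ hP) B0 δ0).monoN p2 c2) u1 B1
  · have h1 := (pert2 ((f 0).1 ▸ hA.e4) hA.e3 hA.e3' hY (dB hP hQ) (dB hQ hP) η0 δ0 B0).monoN p3 c3
    have h2 := opLe_sand u2 h1 u1 η1
    rw [(f' 0).1, eQ, eP, eX, eY, b1, b1]
    simpa only [Matrix.mul_assoc, cancel] using h2
  · rw [eQ, eI, b2]
    exact opLe_left u2 ((pert1 (hA.e5 A hc) (dI A) B0 δ0).monoN p2 c2) B1
  · have h1 := (pert2 ((f _).2.1 ▸ hA.e6 A hc) (Rip.opLe_transpose (hA.e5 A hc) B0) (hA.e5 A hc)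
      hY (dI' A) (dI A) η0 δ0 B0).monoN p3 c3
    rw [(f' _).2.1, eQ, eI, eY, b2, Matrix.transpose_mul, Matrix.transpose_transpose]
    simpa only [Matrix.mul_assoc, cancel] using h1
  · have h1 := (pert2 ((f _).2.2.1 ▸ hA.e7 A hc) hA.e3 (hA.e5 A hc) hY (dB hP hQ) (dI A) η0 δ0
      B0).monoN p3 c3
    have h2 := opLe_left u2 h1 η1
    rw [(f' _).2.2.1, eQ, eP, eX, eI, eY, b1, b2]
    simpa only [Matrix.mul_assoc, cancel] using h2
  · have h1 := (pert2 ((f _).2.2.2 ▸ hA.e7' A hc) (Rip.opLe_transpose (hA.e5 A hc) B0) hA.e3' hY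
      (dI' A) (dB hQ hP) η0 δ0 B0).monoN p3 c3
    have h2 := opLe_sand opLe_one h1 u1 η1
    rw [(f' _).2.2.2, eQ, eP, eX, eI, eY, b1, b2, Matrix.transpose_mul,
      Matrix.transpose_transpose]
    simpa only [Matrix.mul_assoc, cancel, Matrix.one_mul] using h2

/-! ### spreading of the low modes -/

theorem sprStmt : SprStmt := by
  refine ⟨1, ev_of_sm fun L t hs n S x xt μ h hμ => ?_⟩
  have := hμ.prob
  have hn := h.npos'
  have hn2 : (2 : ℝ) ≤ n := by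
    have h1 := (hs.iw (by norm_num : 1 ≤ 431998)).trans (h.inv_le_n hs)
    rw [pow_one] at h1
    exact (hs.c_inv (by norm_num)).trans h1
  have hx : ∀ i, x i ^ 2 = 1 := fun i => by rcases hμ.sgn i with e | e <;> simp [e]
  have key : ∀ a b : ℕ, b < 431998 → ((S.low (t ^ a)).card : ℝ) ≤ L * n * t ^ (b + 1) →
      μ.real {O | ¬∀ v, Rip.Spread (t⁻¹ * F.sq v) (n * t ^ b) (S.P (t ^ a) O *ᵥ v)} ≤
        Real.exp (-(n * t ^ 431998)) := by
    intro a b hb hc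
    have hK := (mul_pos hn (hs.p0 b)).le
    have h1 := Rip.rip_sign hx (by exact_mod_cast hn2) hμ.explo (Rip.supp (S.low (t ^ a))) hK
    refine le_trans (le_trans ?_ h1) ?_
    · refine Tail.real_imp_le _ fun O hO h2 => hO fun v => ?_
      have h3 := h2 (Rip.res (S.low (t ^ a)) *ᵥ (O.1 *ᵥ v))
        (Rip.mem_supp.2 fun i hi => by rw [Rip.res_mulVec, if_neg hi])
      have h4 : F.sq (Rip.res (S.low (t ^ a)) *ᵥ (O.1 *ᵥ v)) ≤ F.sq v := by
        rw [← Rip.sq_orth O v]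
        exact (Rip.isProj_res _).sq_le _
      have e : S.P (t ^ a) O *ᵥ v = O.1ᵀ *ᵥ (Rip.res (S.low (t ^ a)) *ᵥ (O.1 *ᵥ v)) := by
        rw [Matrix.mulVec_mulVec, Matrix.mulVec_mulVec]
        rfl
      rw [e]
      exact h3.mono (mul_nonneg (by norm_num) (sqN_nonneg _))
        (mul_le_mul (hs.c_inv (by norm_num)) h4 (sqN_nonneg _) hs.inv0.le) hK le_rfl
    · rw [Rip.finrank_supp, Real.exp_le_exp]
      have k1 : 4 * L ^ 1 * t ^ (b + 1) ≤ t ^ b :=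
        hs.cLp (by norm_num) (by norm_num) (Nat.lt_succ_self b)
      have k2 : 2 * t ^ 431998 ≤ t ^ b := hs.cp (by norm_num) hb
      rw [pow_one] at k1
      linarith [mul_le_mul_of_nonneg_left k1 hn.le, mul_le_mul_of_nonneg_left k2 hn.le]
  have k1 := key 198400 297599 (by norm_num) h.c1
  have k2 := key 139200 208799 (by norm_num) h.c2
  refine le_trans (le_trans (measureReal_mono (fun O hO => ?_) (measure_ne_top _ _))
    ((measureReal_union_le _ _).trans (add_le_add k1 k2))) ?_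
  · by_contra hc
    simp only [Set.mem_union, Set.mem_ofPred_eq, not_or, not_not] at hc
    exact hO ⟨hc.1, hc.2⟩
  · rw [pow_one]
    linarith [mul_le_mul_of_nonneg_right hn2 (Real.exp_pos (-(n * t ^ 431998))).le]

end Vale.Agent.N150.T1
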