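import Vale.Agent.N150.T2LExp
import Vale.Agent.N150.T1Meas
import Vale.Agent.N150.T1Alg1

/-! T2, block L: the level closed exploration which contains the Picard program of T1 and the
linear iteration for `Gm u`. -/

open MeasureTheory Matrix

namespace Vale.Agent.N150.T2L

open Vale.Agent.P150 Vale.Agent.P150.F Vale.Agent.N150.Fib Vale.Agent.N150.Sp
open Vale.Agent.N150.EC Vale.Agent.N150.T1 Vale.Agent.P150.F.Ms

variable {n : ℕ} {ι : Type*}

/-! ### vectors and matrices whose image in the frame is known -/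

/-- the image of `v` in the frame is a function of the explored data -/
def FK (P : OG n → Mat n) (v : OG n → Vec n) : Prop := Adapted P fun O => O.1 *ᵥ v O

/-- the frame form of `A` is a function of the explored data -/
def FM (P : OG n → Mat n) (A : OG n → Mat n) : Prop := Adapted P fun O => O.1 * A O * O.1ᵀ

section calc1

variable {P : OG n → Mat n} {u v : OG n → Vec n} {A B : OG n → Mat n} {c : OG n → ℝ}

theorem ad_congr {α : Sort*} {D E : OG n → α} (h : Adapted P D) (e : ∀ O, E O = D O) :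
    Adapted P E := by
  rw [funext e]
  exact h

theorem Kn.fk (h : Kn P v) : FK P v := h.img

theorem fk_tr (w : Vec n) : FK P fun O => O.1ᵀ *ᵥ w :=
  ad_congr (.const w) fun O => OG.mulVec_tr_mulVec O w

theorem FK.add (hu : FK P u) (hv : FK P v) : FK P fun O => u O + v O :=
  ad_congr (hu.comp₂ hv (· + ·)) fun _ => mulVec_add _ _ _

theorem FK.sub (hu : FK P u) (hv : FK P v) : FK P fun O => u O - v O :=
  ad_congr (hu.comp₂ hv (· - ·)) fun _ => mulVec_sub _ _ _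

theorem FK.smul (hv : FK P v) (hc : Adapted P c) : FK P fun O => c O • v O :=
  ad_congr (hc.comp₂ hv (· • ·)) fun _ => mulVec_smul _ _ _

theorem fm_JO (d : Vec n) : FM P fun O => JO d O :=
  ad_congr (.const (diagonal d)) fun O => by
    unfold JO
    rw [← Matrix.mul_assoc, ← Matrix.mul_assoc, OG.mul_transpose, Matrix.one_mul, Matrix.mul_assoc,
      OG.mul_transpose, Matrix.mul_one]

theorem fm_one : FM P fun _ => (1 : Mat n) :=
  ad_congr (.const 1) fun O => by rw [Matrix.mul_one, OG.mul_transpose]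

theorem FM.add (hA : FM P A) (hB : FM P B) : FM P fun O => A O + B O :=
  ad_congr (hA.comp₂ hB (· + ·)) fun _ => by rw [Matrix.mul_add, Matrix.add_mul]

theorem FM.sub (hA : FM P A) (hB : FM P B) : FM P fun O => A O - B O :=
  ad_congr (hA.comp₂ hB (· - ·)) fun _ => by rw [Matrix.mul_sub, Matrix.sub_mul]

theorem FM.smul (hA : FM P A) (hc : Adapted P c) : FM P fun O => c O • A O :=
  ad_congr (hc.comp₂ hA (· • ·)) fun _ => by rw [Matrix.mul_smul, Matrix.smul_mul]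

theorem FM.mul (hA : FM P A) (hB : FM P B) : FM P fun O => A O * B O :=
  ad_congr (hA.comp₂ hB (· * ·)) fun O => by
    simp only [Matrix.mul_assoc]
    rw [← Matrix.mul_assoc O.1ᵀ O.1, OG.transpose_mul, Matrix.one_mul]

theorem FM.inv (hA : FM P A) : FM P fun O => (A O)⁻¹ :=
  ad_congr (hA.comp (·⁻¹)) fun O => by
    rw [Matrix.mul_inv_rev, Matrix.mul_inv_rev, Matrix.inv_eq_left_inv (OG.transpose_mul O),
      Matrix.inv_eq_left_inv (OG.mul_transpose O), Matrix.mul_assoc]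

theorem FM.trace (hA : FM P A) : Adapted P fun O => (A O).trace :=
  ad_congr (hA.comp Matrix.trace) fun O => by
    rw [trace_mul_comm, ← Matrix.mul_assoc, OG.transpose_mul, Matrix.one_mul]

theorem FM.mulVec (hA : FM P A) (hv : FK P v) : FK P fun O => A O *ᵥ v O :=
  ad_congr (hA.comp₂ hv (· *ᵥ ·)) fun O => by
    rw [← Matrix.mulVec_mulVec, ← Matrix.mulVec_mulVec, OG.tr_mulVec_mulVec]

theorem FK.vecMulVec (hu : FK P u) (hv : FK P v) : FM P fun O => vecMulVec (u O) (v O) :=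
  ad_congr (hu.comp₂ hv Matrix.vecMulVec) fun O => by
    rw [Matrix.mul_vecMulVec, Matrix.vecMulVec_mul, Matrix.vecMul_transpose]

end calc1

/-! ### the objects of T1 -/

section obj

variable {P : OG n → Mat n} (S : Dat n) {h : OG n → Vec n} {z : OG n → ℝ}

theorem fm_J : FM P S.J := fm_JO _

theorem fk_y : FK P S.y := fk_tr _

theorem fm_Nm (hz : Adapted P z) : FM P fun O => Nm (S.J O) (z O) := (fm_one.smul hz).sub (fm_J S)

theorem fm_G0 (hz : Adapted P z) : FM P fun O => G0 (S.J O) (z O) := (fm_Nm S hz).inv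

theorem ad_T2 (hz : Adapted P z) : Adapted P fun O => T2 (S.J O) (z O) :=
  ((fm_G0 S hz).mul (fm_G0 S hz)).trace

theorem ad_T3 (hz : Adapted P z) : Adapted P fun O => T3 (S.J O) (z O) :=
  (((fm_G0 S hz).mul (fm_G0 S hz)).mul (fm_G0 S hz)).trace

theorem ad_cc (hh : Adapted P h) (hz : Adapted P z) :
    Adapted P fun O => cc (S.J O) (h O) (z O) :=
  (ad_T2 S hz).comp₂ hh fun T h => 2 / T - 2 / (n * wb h ^ 2)

theorem ad_c3 (hh : Adapted P h) (hz : Adapted P z) :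
    Adapted P fun O => c3 (S.J O) (h O) (z O) :=
  ((ad_T3 S hz).comp₂ (ad_T2 S hz) fun a b => a / b ^ 3).comp₂ hh
    fun q h => 4 * (q - 1 / ((n : ℝ) ^ 2 * wb h ^ 3))

theorem ad_zs : Adapted P fun O => zs (S.J O) (S.y O) := fun _ _ _ => zs_JO _ _ _ _

theorem ad_zh (hh : Adapted P h) : Adapted P fun O => zh (S.J O) (h O) :=
  ad_congr (hh.comp fun h => zr (JO S.lam 1) (∑ i, dv h i)) fun _ => zr_JO _ _ _ _

theorem fm_G00 : FM P fun O => G00 (S.J O) (S.y O) := fm_G0 S (ad_zs S)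

theorem fk_h0 : FK P fun O => h0 (S.J O) (S.y O) := (fm_G00 S).mulVec (fk_y S)

theorem fm_AA : FM P fun O => AA (S.J O) (S.y O) :=
  (fm_one.smul ((fm_G00 S).trace.comp (· / (n : ℝ)))).add
    ((((fm_G00 S).mulVec (fk_h0 S)).vecMulVec (fk_h0 S)).smul
      ((ad_T2 S (ad_zs S)).comp (2 / ·)))

theorem fm_Am (hh : Adapted P h) (hz : Adapted P z) :
    FM P fun O => Nm (S.J O) (z O) - (wb (h O))⁻¹ • (1 : Mat n) :=
  (fm_Nm S hz).sub (fm_one.smul (hh.comp fun h => (wb h)⁻¹))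

theorem fm_Bm (hh : Adapted P h) (hm : FK P fun O => tm (h O)) (hz : Adapted P z) :
    FM P fun O => Bm (S.J O) (h O) (z O) :=
  (fm_Am S hh hz).add ((hm.vecMulVec hm).smul (ad_cc S hh hz))

theorem fk_Pic (hh : Adapted P h) (hf : FK P h) (hm : FK P fun O => tm (h O)) :
    FK P fun O => Pic (S.J O) (S.y O) (h O) :=
  hf.sub ((fm_AA S).inv.mulVec ((fm_G0 S (ad_zh S hh)).mulVec
    ((hf.add ((fm_Am S hh (ad_zh S hh)).mulVec hm)).sub (fk_y S))))

end obj

/-! ### the linear iteration -/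

/-- the preconditioned iteration for the equation `Lm x = u` -/
noncomputable def xit (J : Mat n) (y h u : Vec n) : ℕ → Vec n
  | 0 => 0
  | j + 1 => xit J y h u j -
      (AA J y)⁻¹ *ᵥ (G0 J (zh J h) *ᵥ (Lm J h (zh J h) *ᵥ xit J y h u j - u))

/-- the approximation of `Gm u` after `j` steps -/
noncomputable def vit (J : Mat n) (y h u : Vec n) (j : ℕ) : Vec n :=
  diagonal (dv h) *ᵥ xit J y h u j

theorem mv_xit {X : Type*} [MeasurableSpace X] {J : X → Mat n} {y h u : X → Vec n} (hJ : MMat J)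
    (hy : MVec y) (hh : MVec h) (hu : MVec u) (j : ℕ) :
    MVec fun x => xit (J x) (y x) (h x) (u x) j := by
  induction j with
  | zero => exact fun _ => measurable_const
  | succ j ih =>
    exact ih.sub ((mm_inv (mm_AA hJ hy)).mulVec ((mm_G0 hJ (ms_zh hJ hh)).mulVec
      (((mm_Lm hJ hh (ms_zh hJ hh)).mulVec ih).sub hu)))

theorem mv_vit {X : Type*} [MeasurableSpace X] {J : X → Mat n} {y h u : X → Vec n} (hJ : MMat J)
    (hy : MVec y) (hh : MVec h) (hu : MVec u) (j : ℕ) :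
    MVec fun x => vit (J x) (y x) (h x) (u x) j :=
  (mm_diagonal (mv_dv hh)).mulVec (mv_xit hJ hy hh hu j)

/-- the direction `u = Oᵀ ut` -/
def uO (ut : Vec n) (O : OG n) : Vec n := O.1ᵀ *ᵥ ut

/-- the iterates at the reference `h ^ r` -/
noncomputable def xO (S : Dat n) (ut : Vec n) (r j : ℕ) (O : OG n) : Vec n :=
  xit (S.J O) (S.y O) (S.h O r) (uO ut O) j

/-- the explored approximation of `Gm u` -/
noncomputable def vO (S : Dat n) (ut : Vec n) (r j : ℕ) (O : OG n) : Vec n :=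
  vit (S.J O) (S.y O) (S.h O r) (uO ut O) j

theorem measurable_uO (ut : Vec n) : Measurable (uO ut) :=
  mm_val.transpose.mulVec measurable_const

theorem measurable_xO (S : Dat n) (ut : Vec n) (r j : ℕ) : Measurable (xO S ut r j) :=
  (mv_xit S.mm_J (mvec_of S.measurable_y) (mvec_of (S.measurable_h r))
    (mvec_of (measurable_uO ut)) j).measurable

theorem measurable_vO (S : Dat n) (ut : Vec n) (r j : ℕ) : Measurable (vO S ut r j) :=
  (mv_vit S.mm_J (mvec_of S.measurable_y) (mvec_of (S.measurable_h r))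
    (mvec_of (measurable_uO ut)) j).measurable

theorem measurable_m (S : Dat n) (j : ℕ) : Measurable fun O => tm (S.h O j) :=
  (mv_tm (mvec_of (S.measurable_h j))).measurable

/-! ### the program -/

variable {lv : Fin n → ι} {μ : Measure (OG n)} {P : OG n → Mat n} {I : Finset ι}

/-- a vector with known image is explored by one closed frame query -/
theorem CE.fk (hI : ∀ a, lv a ∈ I) (h : CE lv μ P) {v : OG n → Vec n} (hv : Measurable v)
    (hf : FK P v) : ∃ Q, Ext lv μ P Q I.card ∧ Kn Q v := by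
  obtain ⟨Q, h1, h2⟩ := h.frame hI (mm_val.mulVec hv) hf
  exact ⟨Q, h1, h2.congr fun O => (OG.tr_mulVec_mulVec O _).symm⟩

/-- a frame query followed by a site query which depends on the answer -/
theorem CE.two (hI : ∀ a, lv a ∈ I) (h : CE lv μ P) {v w : OG n → Vec n} (hv : Measurable v)
    (hf : FK P v) (hw : Measurable w) (ha : ∀ Q, (∀ O, Q O * P O = Q O) → Adapted Q v →
      Adapted Q w) : ∃ Q, Ext lv μ P Q (2 * I.card + 1) ∧ Kn Q v ∧ Kn Q w := by
  obtain ⟨Q, h1, h2⟩ := h.fk hI hv hf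
  obtain ⟨R, h3, h4⟩ := h1.ce.site hI hw (ha Q h1.le h2.ad)
  exact ⟨R, (h1.trans h3).mono (by omega), h3.kn h2, h4⟩

/-- finitely many site queries -/
theorem CE.sites (hI : ∀ a, lv a ∈ I) (h : CE lv μ P) {k : ℕ} {v : ℕ → OG n → Vec n}
    (hv : ∀ i < k, Measurable (v i)) (ha : ∀ i < k, Adapted P (v i)) :
    ∃ Q, Ext lv μ P Q (k * (I.card + 1)) ∧ ∀ i < k, Kn Q (v i) := by
  induction k with
  | zero => exact ⟨P, by simpa using h.refl, fun i hi => absurd hi (Nat.not_lt_zero i)⟩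
  | succ k ih =>
    obtain ⟨Q, h1, h2⟩ := ih (fun i hi => hv i (by omega)) fun i hi => ha i (by omega)
    obtain ⟨R, h3, h4⟩ := h1.ce.site hI (hv k (by omega)) (h1.ad (ha k (by omega)))
    refine ⟨R, by simpa only [Nat.succ_mul] using h1.trans h3, fun i hi => ?_⟩
    rcases Nat.lt_succ_iff_lt_or_eq.1 hi with hi | rfl
    · exact h3.kn (h2 i hi)
    · exact h4

/-- the Picard part -/
theorem picard (hI : ∀ a, lv a ∈ I) (h : CE lv μ P) (S : Dat n) (r : ℕ) :
    ∃ Q, Ext lv μ P Q ((r + 1) * (2 * I.card + 1)) ∧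
      ∀ j ≤ r, (Kn Q fun O => S.h O j) ∧ Kn Q fun O => tm (S.h O j) := by
  induction r with
  | zero =>
    obtain ⟨Q, h1, h2, h3⟩ := h.two hI (S.measurable_h 0) (fk_h0 S) (measurable_m S 0)
      fun _ _ ha => ha.comp tm
    refine ⟨Q, by simpa using h1, fun j hj => ?_⟩
    obtain rfl : j = 0 := by omega
    exact ⟨h2, h3⟩
  | succ r ih =>
    obtain ⟨Q, h1, h2⟩ := ih
    have hr := h2 r le_rfl
    obtain ⟨R, h3, h4, h5⟩ := h1.ce.two hI (S.measurable_h (r + 1))
      (ad_congr (fk_Pic S hr.1.ad hr.1.fk hr.2.fk) fun O => congrArg _ (S.h_succ O r))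
      (measurable_m S (r + 1)) fun _ _ ha => ha.comp tm
    refine ⟨R, by simpa only [Nat.succ_mul (r + 1)] using h1.trans h3, fun j hj => ?_⟩
    rcases Nat.le_succ_iff.1 hj with hj | rfl
    · exact ⟨h3.kn (h2 j hj).1, h3.kn (h2 j hj).2⟩
    · exact ⟨h4, h5⟩

/-- the linear part -/
theorem linear (hI : ∀ a, lv a ∈ I) (h : CE lv μ P) (S : Dat n) (ut : Vec n) (r : ℕ)
    (hh : Kn P fun O => S.h O r) (hm : Kn P fun O => tm (S.h O r)) (k : ℕ) :
    ∃ Q, Ext lv μ P Q (k * (2 * I.card + 1)) ∧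
      ∀ j ≤ k, Kn Q (xO S ut r j) ∧ Kn Q (vO S ut r j) := by
  induction k with
  | zero =>
    refine ⟨P, by simpa using h.refl, fun j hj => ?_⟩
    obtain rfl : j = 0 := by omega
    exact ⟨Kn.zero, Kn.zero.congr fun O => by simp [vO, vit, xit]⟩
  | succ k ih =>
    obtain ⟨Q, h1, h2⟩ := ih
    have hk := h2 k le_rfl
    have a1 := h1.ad hh.ad
    have a2 := ad_zh S a1
    have f1 : FK Q (xO S ut r (k + 1)) := by
      refine ad_congr (hk.1.fk.sub ((fm_AA S).inv.mulVec ((fm_G0 S a2).mulVec ((hk.1.fk.add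
        ((fm_Bm S a1 (h1.kn hm).fk a2).mulVec hk.2.fk)).sub (fk_tr ut))))) fun O => ?_
      simp only [xO, vO, xit, vit, uO, Lm, add_mulVec, one_mulVec, Matrix.mulVec_mulVec]
    obtain ⟨R, h3, h4, h5⟩ := h1.ce.two hI (measurable_xO S ut r (k + 1)) f1
      (measurable_vO S ut r (k + 1)) fun Q' hQ ha =>
        (a1.mono hQ).comp₂ ha fun h x => diagonal (dv h) *ᵥ x
    refine ⟨R, by simpa only [Nat.succ_mul] using h1.trans h3, fun j hj => ?_⟩
    rcases Nat.le_succ_iff.1 hj with hj | rfl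
    · exact ⟨h3.kn (h2 j hj).1, h3.kn (h2 j hj).2⟩
    · exact ⟨h4, h5⟩

/-- what the program explores -/
structure Prog (lv : Fin n → ι) (μ : Measure (OG n)) (S : Dat n) (x ut : Vec n) (r k : ℕ)
    (P : OG n → Mat n) : Prop where
  ce : CE lv μ P
  le : ∀ O, P O * rm 1 x = P O
  kx : Kn P fun _ => x
  kh : ∀ j ≤ r, Kn P fun O => S.h O j
  km : ∀ j ≤ r, Kn P fun O => tm (S.h O j)
  ku : Kn P (uO ut)
  kxs : ∀ j ≤ k, Kn P (xO S ut r j)
  kvs : ∀ j ≤ k, Kn P (vO S ut r j)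

theorem Prog.ext {S : Dat n} {x ut : Vec n} {r k c : ℕ} {Q : OG n → Mat n}
    (h : Prog lv μ S x ut r k P) (e : Ext lv μ P Q c) : Prog lv μ S x ut r k Q :=
  ⟨e.ce, fun O => by rw [← e.le O, Matrix.mul_assoc, h.le O], e.kn h.kx,
    fun j hj => e.kn (h.kh j hj), fun j hj => e.kn (h.km j hj), e.kn h.ku,
    fun j hj => e.kn (h.kxs j hj), fun j hj => e.kn (h.kvs j hj)⟩

/-- THE PROGRAM of block L -/
theorem prog (hI : ∀ a, lv a ∈ I) {x : Vec n} (h : Explo μ fun _ => rm 1 x) (S : Dat n)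
    (ut : Vec n) (r k : ℕ) : ∃ P, Prog lv μ S x ut r k P ∧
      ∀ O, (n : ℝ) - ((r + k + 2) * (2 * I.card + 1) : ℕ) ≤ (P O).trace := by
  obtain ⟨P1, a1, b1⟩ := start hI h
  obtain ⟨P2, a2, b2⟩ := a1.ce.fk hI (measurable_uO ut) (fk_tr ut)
  obtain ⟨P3, a3, b3⟩ := picard hI a2.ce S r
  obtain ⟨P4, a4, b4⟩ := linear hI a3.ce S ut r (b3 r le_rfl).1 (b3 r le_rfl).2 k
  have e := ((a1.trans a2).trans a3).trans a4
  refine ⟨P4, ⟨a4.ce, e.le, a4.kn (a3.kn (a2.kn b1)), fun j hj => a4.kn (b3 j hj).1,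
    fun j hj => a4.kn (b3 j hj).2, a4.kn (a3.kn b2), fun j hj => (b4 j hj).1,
    fun j hj => (b4 j hj).2⟩, fun O => ?_⟩
  have h1 := e.tr O
  have h2 := trace_rm_ge (1 : Mat n) x
  rw [trace_one, Fintype.card_fin] at h2
  push_cast at h1 ⊢
  nlinarith

namespace Prog

variable {S : Dat n} {x ut : Vec n} {r k : ℕ} (h : Prog lv μ S x ut r k P)
include h

theorem ad_h : Adapted P fun O => S.h O r := (h.kh r le_rfl).ad

theorem ad_z : Adapted P fun O => zh (S.J O) (S.h O r) := ad_zh S h.ad_h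

theorem ad_c : Adapted P fun O => cc (S.J O) (S.h O r) (zh (S.J O) (S.h O r)) :=
  ad_cc S h.ad_h h.ad_z

theorem ad_e : Adapted P fun O => c3 (S.J O) (S.h O r) (zh (S.J O) (S.h O r)) :=
  ad_c3 S h.ad_h h.ad_z

theorem ad_T : Adapted P fun O => T2 (S.J O) (zh (S.J O) (S.h O r)) := ad_T2 S h.ad_z

theorem ad_v : Adapted P (vO S ut r k) := (h.kvs k le_rfl).ad

theorem ad_hc (hr : 3 ≤ r) (t : ℝ) : Adapted P (S.hc t) := (h.kh 3 hr).ad.comp (clip _)

end Prog

/-! ### convergence of the linear iteration -/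

theorem xit_sub (hn : 0 < n) {J : Mat n} (hJ : J.IsSymm) (y h u : Vec n)
    (hL : IsUnit (Lm J h (zh J h)).det) (j : ℕ) :
    xit J y h u j - Gam J h (zh J h) *ᵥ u = -((TT J y h h 0 ^ j * Gam J h (zh J h)) *ᵥ u) := by
  induction j with
  | zero => simp [xit]
  | succ j ih =>
    have e : u = Lm J h (zh J h) *ᵥ (Gam J h (zh J h) *ᵥ u) := by
      rw [Matrix.mulVec_mulVec, Gam, Matrix.mul_nonsing_inv _ hL, one_mulVec]
    have e2 : xit J y h u (j + 1) - Gam J h (zh J h) *ᵥ u =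
        TT J y h h 0 *ᵥ (xit J y h u j - Gam J h (zh J h) *ᵥ u) := by
      rw [TT, T1A.MM_self hn hJ, sub_mulVec, one_mulVec, ← Matrix.mulVec_mulVec,
        ← Matrix.mulVec_mulVec, mulVec_sub (Lm J h (zh J h)), ← e, xit]
      abel
    rw [e2, ih, mulVec_neg, Matrix.mulVec_mulVec, ← Matrix.mul_assoc, ← pow_succ']

/-- the cube bound of D6 at a single point -/
def T3Stmt : Prop := Ev fun L t => ∀ (n : ℕ) (S : Dat n) (O : OG n) (h : Vec n),
  Adm L t S → Good t S O → Ball t (S.J O) (S.y O) h →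
    OpLe (S.Nsq O * TT (S.J O) (S.y O) h h 0 ^ 3 * S.Nis O) (t ^ 3000)

theorem conj_pow {A B T : Mat n} (h : B * A = 1) (k : ℕ) : A * T ^ k * B = (A * T * B) ^ k := by
  induction k with
  | zero => simpa using mul_eq_one_comm.1 h
  | succ k ih =>
    rw [pow_succ, pow_succ, ← ih]
    calc A * (T ^ k * T) * B = A * T ^ k * (B * A) * T * B := by
          rw [h, Matrix.mul_one, Matrix.mul_assoc A, Matrix.mul_assoc A, Matrix.mul_assoc A]
      _ = _ := by simp only [Matrix.mul_assoc]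

theorem opLe_pow {A : Mat n} {c : ℝ} (h : OpLe A c) (hc : 0 ≤ c) (k : ℕ) : OpLe (A ^ k) (c ^ k) := by
  induction k with
  | zero => simpa using opLe_one
  | succ k ih =>
    rw [pow_succ, pow_succ]
    exact ih.mulN h (pow_nonneg hc k) hc

theorem nv_D_le (h v : Vec n) : nv (diagonal (dv h) *ᵥ v) ≤ nv v :=
  nv_mono fun i => by
    rw [mulVec_diagonal, abs_mul]
    refine mul_le_of_le_one_left (abs_nonneg _) (abs_le.2 ⟨?_, ?_⟩)
    · linarith [T1A.tanh_sq_lt (h i), show dv h i = 1 - Real.tanh (h i) ^ 2 from rfl]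
    · linarith [sq_nonneg (Real.tanh (h i)), show dv h i = 1 - Real.tanh (h i) ^ 2 from rfl]

/-- geometric convergence from the cube bound -/
theorem xit_close {L t : ℝ} {S : Dat n} {O : OG n} {h : Vec n} (hs : T1.Sm L t) (ha : Adm L t S)
    (hu : IsUnit (Lm (S.J O) h (zh (S.J O) h)).det)
    (hg : OpLe (S.Nsq O * Gam (S.J O) h (zh (S.J O) h) * S.Nsq O) (t⁻¹ ^ 100))
    (h3 : OpLe (S.Nsq O * TT (S.J O) (S.y O) h h 0 ^ 3 * S.Nis O) (t ^ 3000)) (u : Vec n) (k : ℕ) :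
    nv (xit (S.J O) (S.y O) h u (3 * k) - Gam (S.J O) h (zh (S.J O) h) *ᵥ u) ≤
      t⁻¹ ^ 288102 * t ^ (3000 * k) * nv u := by
  have e1 := ha.Nis_mul_Nsq hs O
  have e2 := ha.Nsq_mul_Nis hs O
  rw [xit_sub ha.npos (T1A.J_symm S O) _ _ _ hu, nv_neg]
  generalize TT (S.J O) (S.y O) h h 0 = T at h3 ⊢
  generalize Gam (S.J O) h (zh (S.J O) h) = G at hg ⊢
  have e : T ^ (3 * k) * G = S.Nis O * (S.Nsq O * T ^ 3 * S.Nis O) ^ k *
      (S.Nsq O * G * S.Nsq O) * S.Nis O := by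
    rw [← conj_pow e1, ← pow_mul]
    calc T ^ (3 * k) * G = (S.Nis O * S.Nsq O) * T ^ (3 * k) * (S.Nis O * S.Nsq O) * G *
          (S.Nsq O * S.Nis O) := by rw [e1, e2]; simp
      _ = _ := by simp only [Matrix.mul_assoc]
  have n1 := (hs.i0 144001).le
  have n2 := pow_nonneg (hs.p0 3000).le k
  have n3 := (hs.i0 100).le
  have o := (((ha.opLe_Nis hs O).mulN (opLe_pow h3 (hs.p0 3000).le k) n1 n2).mulN hg
    (mul_nonneg n1 n2) n3).mulN (ha.opLe_Nis hs O) (mul_nonneg (mul_nonneg n1 n2) n3) n1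
  rw [e]
  refine (o.nv_le (mul_nonneg (mul_nonneg (mul_nonneg n1 n2) n3) n1) u).trans (le_of_eq ?_)
  rw [← pow_mul, show (288102 : ℕ) = 144001 + 100 + 144001 from rfl, pow_add, pow_add]
  generalize t⁻¹ ^ 144001 = a
  generalize t⁻¹ ^ 100 = b
  generalize t ^ (3000 * k) = c
  ring

theorem vit_close {L t : ℝ} {S : Dat n} {O : OG n} {h : Vec n} (hs : T1.Sm L t) (ha : Adm L t S)
    (hu : IsUnit (Lm (S.J O) h (zh (S.J O) h)).det)
    (hg : OpLe (S.Nsq O * Gam (S.J O) h (zh (S.J O) h) * S.Nsq O) (t⁻¹ ^ 100))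
    (h3 : OpLe (S.Nsq O * TT (S.J O) (S.y O) h h 0 ^ 3 * S.Nis O) (t ^ 3000)) (u : Vec n) (k : ℕ) :
    nv (vit (S.J O) (S.y O) h u (3 * k) - Gm (S.J O) h (zh (S.J O) h) *ᵥ u) ≤
      t⁻¹ ^ 288102 * t ^ (3000 * k) * nv u := by
  refine le_trans ?_ (xit_close hs ha hu hg h3 u k)
  rw [vit, Gm, ← Matrix.mulVec_mulVec, ← mulVec_sub]
  exact nv_D_le _ _

/-- the explored vector approximates `Gm u` at every good point -/
def VStmt : Prop := Ev fun L t => ∀ (n : ℕ) (S : Dat n) (O : OG n) (h u : Vec n) (k : ℕ),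
  Adm L t S → Good t S O → Ball t (S.J O) (S.y O) h →
    nv (vit (S.J O) (S.y O) h u (3 * k) - Gm (S.J O) h (zh (S.J O) h) *ᵥ u) ≤
      t⁻¹ ^ 288102 * t ^ (3000 * k) * nv u

theorem vStmt_of (h6 : D6Stmt) (h3 : T3Stmt) : VStmt :=
  ((ev_sm.and h6).and h3).mono fun _ _ _ h n S O x u k ha hg hb =>
    vit_close h.1.1 ha ((h.1.2 n S O ha hg).unit x hb) ((h.1.2 n S O ha hg).gam x hb)
      (h.2 n S O x ha hg hb) u k

/-- the Picard iterates stay in the ball -/
theorem ball_h {L t : ℝ} {S : Dat n} {O : OG n} (hs : T1.Sm L t) (ho : Out t S O) {r : ℕ}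
    (hr : 3 ≤ r) : Ball t (S.J O) (S.y O) (S.h O r) := by
  obtain ⟨j, rfl⟩ := Nat.exists_eq_add_of_le' hr
  exact (ho.stay j).trans (mul_le_mul_of_nonneg_left (hs.pw (by norm_num)) (Real.sqrt_nonneg _))

end Vale.Agent.N150.T2L
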