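import Vale.Agent.N150.D6b
import Vale.Agent.N150.T1Alg2
import Vale.Agent.N150.T1D4
import Vale.Agent.N150.T2LProg

/-! T1: the Picard linearisation `TT` in hat form, and the unconditional forms of D6. -/

open Matrix Filter Topology

namespace Vale.Agent.N150.D6

open Vale.Agent.P150 Vale.Agent.P150.F Vale.Agent.N150.EC Vale.Agent.N150.Sp Vale.Agent.N150.T1
  Vale.Agent.N150.Cube

variable {n : ℕ}

namespace Pk

variable {L t : ℝ} {S : Dat n} {O : OG n} (k : Pk L t S O)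
include k

theorem TT_hat (h h' p : Vec n) : S.Nsq O * TT (S.J O) (S.y O) h h' p * S.Nis O
    = Th (S.Nsq O) (S.Nis O) (AA (S.J O) (S.y O)) (MM (S.J O) h h' p) := by
  unfold TT Th
  rw [mul_sub (AA (S.J O) (S.y O))⁻¹, Matrix.nonsing_inv_mul _ k.uA, neg_sub]

theorem hat_mul (A B : Mat n) : S.Nsq O * (A * B) * S.Nis O
    = (S.Nsq O * A * S.Nis O) * (S.Nsq O * B * S.Nis O) := by
  have e1 : (S.Nsq O * A * S.Nis O) * (S.Nsq O * B * S.Nis O)
      = S.Nsq O * A * (S.Nis O * S.Nsq O) * B * S.Nis O := by simp only [mul_assoc]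
  rw [e1, Nis_Nsq k.sm k.adm O, mul_one]
  simp only [mul_assoc]

theorem TT_le {hc h h' p : Vec n} (hW : StrW t S O hc) (hh : Near t S O hc h)
    (hh' : Near t S O hc h') (hp : nv p ≤ √n * t ^ 107000) :
    OpLe (S.Nsq O * TT (S.J O) (S.y O) h h' p * S.Nis O) (t⁻¹ ^ 34) := by
  have c := k.ctx hW (T := {h | Near t S O hc h}) fun h hh => hh.1
  have i1 := k.i0 11
  rw [k.TT_hat]
  refine (c.T_le (h := h) (h' := h') hh hh' (k.dec hh.2 hh'.2 hp)).monoN (by positivity) ?_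
  rw [← pow_mul]
  exact k.sm.mon3 (k.sm.c (by norm_num)) _ _ (by norm_num)

theorem TT3_le {hc a b d f p q r : Vec n} (hW : StrW t S O hc) (ha : Near t S O hc a)
    (hb : Near t S O hc b) (hd : Near t S O hc d) (hf : Near t S O hc f)
    (hp : nv p ≤ √n * t ^ 107000) (hq : nv q ≤ √n * t ^ 107000) (hr : nv r ≤ √n * t ^ 107000) :
    OpLe (S.Nsq O * (TT (S.J O) (S.y O) a b p * TT (S.J O) (S.y O) b d q *
      TT (S.J O) (S.y O) d f r) * S.Nis O) (t ^ 3800) := by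
  have c := k.ctx hW (T := {h | Near t S O hc h}) fun h hh => hh.1
  rw [k.hat_mul, k.hat_mul, k.TT_hat, k.TT_hat, k.TT_hat]
  have h2 : 1000 * (t⁻¹ ^ 11) ^ 8 * t ^ 3899 = 1000 * (t⁻¹ ^ 88 * t ^ 3899) := by ring
  have h3 := c.T3_le (x := a) (y := b) (z := d) (u := f) ha hb hd hf (k.dec ha.2 hb.2 hp)
    (k.dec hb.2 hd.2 hq) (k.dec hd.2 hf.2 hr)
  rw [h2] at h3
  exact h3.monoN (mul_nonneg (by norm_num) (mul_nonneg (k.i0 _) (k.p0 _)))
    (k.sm.mon1 (k.sm.c (by norm_num)) _ _ _ (by norm_num))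

theorem near_of_ball (g : Good t S O) {h : Vec n} (hh : Ball t (S.J O) (S.y O) h) :
    Near t S O (S.hc t O) h := by
  have h1 := g.base.clp.trans (k.sc (k.sm.pw (a := 252000) (by norm_num)))
  have h2 : nv (h - S.h O 3) ≤ √n * t ^ 252000 := hh
  exact ⟨by linarith only [nv_sub_triangle h (S.h O 3) (S.hc t O), h1, h2], (k.out g).reg h hh⟩

end Pk

/-- the Picard linearisation at a point of the ball -/
def T3Stmt : Prop := Ev fun L t => ∀ (n : ℕ) (S : Dat n) (O : OG n), Adm L t S → Good t S O →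
  ∀ h, Ball t (S.J O) (S.y O) h →
    OpLe (S.Nsq O * TT (S.J O) (S.y O) h h 0 * S.Nis O) (t⁻¹ ^ 60) ∧
    OpLe (S.Nsq O * (TT (S.J O) (S.y O) h h 0) ^ 3 * S.Nis O) (t ^ 3000)

/-- the same in the stable form -/
def T3WStmt : Prop := Ev fun L t => ∀ (n : ℕ) (S : Dat n) (O : OG n) (hc : Vec n), Adm L t S →
  StrW t S O hc → ∀ h, Near t S O hc h →
    OpLe (S.Nsq O * TT (S.J O) (S.y O) h h 0 * S.Nis O) (t⁻¹ ^ 60) ∧
    OpLe (S.Nsq O * (TT (S.J O) (S.y O) h h 0) ^ 3 * S.Nis O) (t ^ 3000)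

theorem Pk.t3 {L t : ℝ} {S : Dat n} {O : OG n} (k : Pk L t S O) {hc h : Vec n}
    (hW : StrW t S O hc) (hh : Near t S O hc h) :
    OpLe (S.Nsq O * TT (S.J O) (S.y O) h h 0 * S.Nis O) (t⁻¹ ^ 60) ∧
    OpLe (S.Nsq O * (TT (S.J O) (S.y O) h h 0) ^ 3 * S.Nis O) (t ^ 3000) := by
  refine ⟨(k.TT_le hW hh hh k.zero_le_r).monoN (k.i0 _) (k.sm.ipw (by norm_num)), ?_⟩
  rw [pow_three']
  exact (k.TT3_le hW hh hh hh hh k.zero_le_r k.zero_le_r k.zero_le_r).monoN (k.p0 _)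
    (k.sm.pw (by norm_num))

theorem ev_pk' (h4 : D4Stmt) :
    Ev fun L t => ∀ (n : ℕ) (S : Dat n) (O : OG n), Adm L t S → Pk L t S O :=
  ev_pk T1A.d2Stmt h4

theorem t3_of (h4 : D4Stmt) : T3Stmt := fun L hL =>
  (ev_pk' h4 L hL).mono fun _ h n S O ha g _ hh =>
    (h n S O ha).t3 (strW_of_good (h n S O ha).sm g) ((h n S O ha).near_of_ball g hh)

theorem t3W_of (h4 : D4Stmt) : T3WStmt := fun L hL =>
  (ev_pk' h4 L hL).mono fun _ h n S O _ ha hW _ hh => (h n S O ha).t3 hW hh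

theorem d6_of (h4 : D4Stmt) : D6Stmt := d6Stmt_of T1A.d2Stmt h4

theorem d6W_of' (h4 : D4Stmt) : D6WStmt := d6W_of T1A.d2Stmt h4

theorem d6Z_of' (h4 : D4Stmt) : D6ZStmt := d6Z_of T1A.d2Stmt h4

theorem evPk : Ev fun L t => ∀ (n : ℕ) (S : Dat n) (O : OG n), Adm L t S → Pk L t S O :=
  ev_pk' d4Stmt

theorem d6Stmt : D6Stmt := d6_of d4Stmt

theorem d6WStmt : D6WStmt := d6W_of' d4Stmt

theorem d6ZStmt : D6ZStmt := d6Z_of' d4Stmt

theorem t3Stmt : T3Stmt := t3_of d4Stmt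

theorem t3WStmt : T3WStmt := t3W_of d4Stmt

theorem t3L : T2L.T3Stmt := fun L hL =>
  (t3Stmt L hL).mono fun _ h n S O x ha g hx => (h n S O ha g x hx).2

theorem vStmt : T2L.VStmt := T2L.vStmt_of d6Stmt t3L

end Vale.Agent.N150.D6
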