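import Vale.Agent.P150.Bdl.B1

/-! EC-TAP reference with the empirical Onsager term, in the variables `(h, z)`.
`m = tanh h`, `d = 1 - m ^ 2`, `w = mean d`, `N = z - J`, `G0 = N⁻¹`.
Equations: `res1 = h + (N - 1 / w) m - y = 0` and `res2 = tr G0 - ∑ d = 0`. -/

open Matrix Finset

namespace Vale.Agent.N150.EC

open Vale.Agent.P150 Vale.Agent.P150.F

variable {n : ℕ}

/-- `m = tanh h` -/
noncomputable def tm (h : Vec n) : Vec n := fun i => Real.tanh (h i)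
/-- `d = 1 - m ^ 2` -/
noncomputable def dv (h : Vec n) : Vec n := fun i => 1 - Real.tanh (h i) ^ 2
/-- `w = mean d = 1 - q` -/
noncomputable def wb (h : Vec n) : ℝ := (∑ i, dv h i) / n
/-- `N = z - J` -/
def Nm (J : Mat n) (z : ℝ) : Mat n := z • (1 : Mat n) - J
/-- `G0 = (z - J)⁻¹` -/
noncomputable def G0 (J : Mat n) (z : ℝ) : Mat n := (Nm J z)⁻¹
/-- `tr G0 ^ 2` -/
noncomputable def T2 (J : Mat n) (z : ℝ) : ℝ := (G0 J z * G0 J z).trace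
/-- `tr G0 ^ 3` -/
noncomputable def T3 (J : Mat n) (z : ℝ) : ℝ := (G0 J z * G0 J z * G0 J z).trace
/-- rank one coefficient `c = 2 / T2 - 2 / (n w ^ 2)` (nonpositive at a solution) -/
noncomputable def cc (J : Mat n) (h : Vec n) (z : ℝ) : ℝ := 2 / T2 J z - 2 / (n * wb h ^ 2)
/-- cubic radial coefficient -/
noncomputable def c3 (J : Mat n) (h : Vec n) (z : ℝ) : ℝ :=
  4 * (T3 J z / T2 J z ^ 3 - 1 / ((n : ℝ) ^ 2 * wb h ^ 3))
/-- `B = N - 1 / w + c m mᵀ`; the Hessian is `D⁻¹ + B` -/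
noncomputable def Bm (J : Mat n) (h : Vec n) (z : ℝ) : Mat n :=
  Nm J z - (wb h)⁻¹ • (1 : Mat n) + cc J h z • vecMulVec (tm h) (tm h)
/-- linearisation in `h`: `L = 1 + B D` -/
noncomputable def Lm (J : Mat n) (h : Vec n) (z : ℝ) : Mat n := 1 + Bm J h z * diagonal (dv h)
/-- `Γ = L⁻¹` (response of `h`) -/
noncomputable def Gam (J : Mat n) (h : Vec n) (z : ℝ) : Mat n := (Lm J h z)⁻¹
/-- `G = D Γ = (D⁻¹ + B)⁻¹` (response of `m`, symmetric) -/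
noncomputable def Gm (J : Mat n) (h : Vec n) (z : ℝ) : Mat n := diagonal (dv h) * Gam J h z
/-- residual of the vector equation -/
noncomputable def res1 (J : Mat n) (y h : Vec n) (z : ℝ) : Vec n :=
  h + (Nm J z - (wb h)⁻¹ • (1 : Mat n)) *ᵥ tm h - y
/-- residual of the trace equation -/
noncomputable def res2 (J : Mat n) (h : Vec n) (z : ℝ) : ℝ := (G0 J z).trace - ∑ i, dv h i
/-- the quadratic term of the response to a field increment `a` -/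
noncomputable def bq (J : Mat n) (h : Vec n) (z : ℝ) (a : Vec n) : Vec n := fun i =>
  tm h i * (Gam J h z *ᵥ a) i ^ 2
    + (cc J h z / 2 * F.sq (Gm J h z *ᵥ a) + c3 J h z * ip (tm h) (Gm J h z *ᵥ a) ^ 2) * tm h i
    + cc J h z * ip (tm h) (Gm J h z *ᵥ a) * (Gm J h z *ᵥ a) i
/-- Gaussian mean of `bq (R g)`, `Q = R Rᵀ` -/
noncomputable def eb (J : Mat n) (h : Vec n) (z : ℝ) (Q : Mat n) : Vec n := fun i =>
  tm h i * (Gam J h z * Q * (Gam J h z)ᵀ) i i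
    + (cc J h z / 2 * (Gm J h z * Q * (Gm J h z)ᵀ).trace
        + c3 J h z * qf (Gm J h z * Q * (Gm J h z)ᵀ) (tm h)) * tm h i
    + cc J h z * ((Gm J h z * Q * (Gm J h z)ᵀ) *ᵥ tm h) i
/-- the source before multiplication by `-G` -/
noncomputable def k0 (J : Mat n) (h : Vec n) (z : ℝ) (Q : Mat n) : Vec n :=
  eb J h z Q - ((G0 J z * Q * G0 J z).trace / T2 J z) • tm h
/-- drift of the tracked mean: `κ = - G k0` -/
noncomputable def ka (J : Mat n) (h : Vec n) (z : ℝ) (Q : Mat n) : Vec n :=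
  -(Gm J h z *ᵥ k0 J h z Q)

/-- entrywise bound of a matrix -/
def MB {m : ℕ} (A : Matrix (Fin n) (Fin m) ℝ) (K : ℝ) : Prop := ∀ i j, |A i j| ≤ K

/-- polynomially well conditioned point -/
structure Loc (K : ℝ) (J : Mat n) (h : Vec n) (z : ℝ) : Prop where
  hK : 2 ≤ K
  hn : (n : ℝ) ≤ K
  npos : 0 < n
  uN : IsUnit (Nm J z).det
  bN : MB (Nm J z) K
  bG0 : MB (G0 J z) K
  bw : 1 ≤ K * wb h
  bT : 1 ≤ K * T2 J z
  uL : IsUnit (Lm J h z).det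
  bGam : MB (Gam J h z) K

/-- second order expansion of one step between two approximate solutions -/
def StepStmt : Prop := ∃ p : ℕ, ∀ (n : ℕ) (K t : ℝ) (J Δ : Mat n) (y y' h h' : Vec n) (z z' : ℝ),
  Loc K J h z → Loc K (J - Δ) h' z' → 0 ≤ t → t ≤ 1 →
  (∀ i, |h' i - h i| ≤ t) → |z' - z| ≤ t → (∀ i, |(y' - y - Δ *ᵥ tm h) i| ≤ t) → MB Δ (t ^ 2) →
  (∀ i, |res1 J y h z i| ≤ t ^ 3) → |res2 J h z| ≤ t ^ 3 →
  (∀ i, |res1 (J - Δ) y' h' z' i| ≤ t ^ 3) → |res2 (J - Δ) h' z'| ≤ t ^ 3 →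
  ∀ i, |(tm h' - tm h - Gm J h z *ᵥ ((y' - y - Δ *ᵥ tm h) - bq J h z (y' - y - Δ *ᵥ tm h)
      + ((G0 J z * Δ * G0 J z).trace / T2 J z) • tm h)) i| ≤ K ^ p * t ^ 3

/-- the same for a channel step `y' = y + δ Q x + √δ R g`, `J' = J - δ Q`, `Q = R Rᵀ`:
prediction + drift + a centred quadratic form of the noise -/
def ChanStmt : Prop := ∃ p : ℕ, ∀ (n m : ℕ) (K δ : ℝ) (J : Mat n) (R : Matrix (Fin n) (Fin m) ℝ)
  (x y h h' : Vec n) (g : Fin m → ℝ) (z z' : ℝ),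
  Loc K J h z → Loc K (J - δ • (R * Rᵀ)) h' z' → 0 ≤ δ → K ^ 8 * δ ≤ 1 → (m : ℝ) ≤ K → MB R K →
  (∀ i, |x i| ≤ 1) → (∀ j, |g j| ≤ K) →
  (∀ i, |h' i - h i| ≤ K ^ 4 * √δ) → |z' - z| ≤ K ^ 4 * √δ →
  (∀ i, |res1 J y h z i| ≤ δ ^ 2) → |res2 J h z| ≤ δ ^ 2 →
  (∀ i, |res1 (J - δ • (R * Rᵀ)) (y + δ • ((R * Rᵀ) *ᵥ x) + √δ • (R *ᵥ g)) h' z' i| ≤ δ ^ 2) →
  |res2 (J - δ • (R * Rᵀ)) h' z'| ≤ δ ^ 2 →
  ∀ i, |(tm h' - tm h - Gm J h z *ᵥ (δ • ((R * Rᵀ) *ᵥ (x - tm h)) + √δ • (R *ᵥ g))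
      - δ • ka J h z (R * Rᵀ)
      + δ • (Gm J h z *ᵥ (bq J h z (R *ᵥ g) - eb J h z (R * Rᵀ)))) i| ≤ K ^ p * (δ * √δ)

end Vale.Agent.N150.EC
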