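import Vale.Agent.N150.ECAux

set_option linter.all false

/-! Two point Lipschitz bounds of `Gam`, `Gm`, `eb`, `k0`, `ka` between locally good points. -/

open Matrix Finset

namespace Vale.Agent.N150.EC

open Vale.Agent.P150 Vale.Agent.P150.F

namespace Frame

variable {X : Type} (F : Frame X)

/-- two bounded families at distance of order one -/
structure DD (ι : X → Type) (f g : ∀ x, ι x → ℝ) : Prop where
  l : F.OO 0 ι f
  r : F.OO 0 ι g
  d : F.OO 1 ι (fun x i => f x i - g x i)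

def DO (f g : X → ℝ) : Prop := F.DD (fun _ => Unit) (fun x _ => f x) (fun x _ => g x)
def DV (f g : ∀ x, Vec (F.n x)) : Prop := F.DD (fun x => Fin (F.n x)) f g
def DM (f g : ∀ x, Mat (F.n x)) : Prop :=
  F.DD (fun x => Fin (F.n x) × Fin (F.n x)) (fun x i => f x i.1 i.2) (fun x i => g x i.1 i.2)

variable {F}

namespace DD

variable {ι : X → Type} {f g f' g' : ∀ x, ι x → ℝ}

theorem congr (h : F.DD ι f g) (e : ∀ x i, f' x i = f x i) (e' : ∀ x i, g' x i = g x i) :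
    F.DD ι f' g' :=
  ⟨h.l.congr e, h.r.congr e', h.d.congr fun x i => by rw [e, e']⟩

theorem reindex {κ : X → Type} (h : F.DD ι f g) (φ : ∀ x, κ x → ι x) :
    F.DD κ (fun x i => f x (φ x i)) (fun x i => g x (φ x i)) :=
  ⟨h.l.reindex φ, h.r.reindex φ, h.d.reindex φ⟩

theorem add (h : F.DD ι f g) (h' : F.DD ι f' g') :
    F.DD ι (fun x i => f x i + f' x i) (fun x i => g x i + g' x i) :=
  ⟨h.l.add h'.l, h.r.add h'.r, (h.d.add h'.d).congr fun x i => by ring⟩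

theorem neg (h : F.DD ι f g) : F.DD ι (fun x i => -f x i) (fun x i => -g x i) :=
  ⟨h.l.neg, h.r.neg, h.d.neg.congr fun x i => by ring⟩

theorem sub (h : F.DD ι f g) (h' : F.DD ι f' g') :
    F.DD ι (fun x i => f x i - f' x i) (fun x i => g x i - g' x i) :=
  ⟨h.l.sub h'.l, h.r.sub h'.r, (h.d.sub h'.d).congr fun x i => by ring⟩

theorem mul (h : F.DD ι f g) (h' : F.DD ι f' g') :
    F.DD ι (fun x i => f x i * f' x i) (fun x i => g x i * g' x i) :=
  ⟨h.l.mul h'.l, h.r.mul h'.r,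
    ((h.d.mul h'.l).add ((h.r.mul h'.d).mono (by omega))).congr fun x i => by ring⟩

theorem refl (h : F.OO 0 ι f) : F.DD ι f f :=
  ⟨h, h, OO.of_t fun x i => by simpa using F.ht0 x⟩

theorem sum {f g : ∀ x, ι x × Fin (F.n x) → ℝ} (h : F.DD (fun x => ι x × Fin (F.n x)) f g) :
    F.DD ι (fun x i => ∑ l, f x (i, l)) (fun x i => ∑ l, g x (i, l)) :=
  ⟨h.l.sum, h.r.sum, h.d.sum.congr fun x i => by rw [Finset.sum_sub_distrib]⟩

end DD

namespace DO

variable {f g f' g' : X → ℝ}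

theorem congr (h : F.DO f g) (e : ∀ x, f' x = f x) (e' : ∀ x, g' x = g x) : F.DO f' g' :=
  DD.congr h (fun x _ => e x) fun x _ => e' x
theorem add (h : F.DO f g) (h' : F.DO f' g') :
    F.DO (fun x => f x + f' x) (fun x => g x + g' x) := DD.add h h'
theorem sub (h : F.DO f g) (h' : F.DO f' g') :
    F.DO (fun x => f x - f' x) (fun x => g x - g' x) := DD.sub h h'
theorem mul (h : F.DO f g) (h' : F.DO f' g') :
    F.DO (fun x => f x * f' x) (fun x => g x * g' x) := DD.mul h h'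
theorem refl (h : F.O 0 f) : F.DO f f := DD.refl h
theorem cmul (c : ℝ) (h : F.DO f g) : F.DO (fun x => c * f x) (fun x => c * g x) :=
  (refl (O.const c)).mul h
theorem pow (h : F.DO f g) (r : ℕ) : F.DO (fun x => f x ^ r) (fun x => g x ^ r) := by
  induction r with
  | zero => exact (refl (O.const 1)).congr (fun x => by simp) fun x => by simp
  | succ r ih => exact (ih.mul h).congr (fun x => by ring) fun x => by ring
theorem inv (h : F.DO f g) (hf : ∀ x, 1 ≤ F.K x * f x) (hg : ∀ x, 1 ≤ F.K x * g x) :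
    F.DO (fun x => (f x)⁻¹) (fun x => (g x)⁻¹) := by
  have a := O.inv_of hf
  have b := O.inv_of hg
  have d : F.O 1 (fun x => f x - g x) := h.d
  refine ⟨a, b, O.congr (((a.zmul d).mulz b).neg) fun x => ?_⟩
  have h1 : f x ≠ 0 := fun e => by have := hf x; rw [e] at this; norm_num at this
  have h2 : g x ≠ 0 := fun e => by have := hg x; rw [e] at this; norm_num at this
  field_simp
  ring

end DO

namespace DV

variable {u v u' v' : ∀ x, Vec (F.n x)} {f g : X → ℝ}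

theorem congr (h : F.DV u v) (e : ∀ x i, u' x i = u x i) (e' : ∀ x i, v' x i = v x i) :
    F.DV u' v' := DD.congr h e e'
theorem add (h : F.DV u v) (h' : F.DV u' v') :
    F.DV (fun x => u x + u' x) (fun x => v x + v' x) := DD.add h h'
theorem sub (h : F.DV u v) (h' : F.DV u' v') :
    F.DV (fun x => u x - u' x) (fun x => v x - v' x) := DD.sub h h'
theorem neg (h : F.DV u v) : F.DV (fun x => -u x) (fun x => -v x) := DD.neg h
theorem mul (h : F.DV u v) (h' : F.DV u' v') :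
    F.DV (fun x i => u x i * u' x i) (fun x i => v x i * v' x i) := DD.mul h h'
theorem smul (h : F.DO f g) (h' : F.DV u v) :
    F.DV (fun x => f x • u x) (fun x => g x • v x) :=
  DD.mul (DD.reindex (κ := fun x => Fin (F.n x)) h fun _ _ => ()) h'
theorem sum (h : F.DV u v) : F.DO (fun x => ∑ i, u x i) (fun x => ∑ i, v x i) :=
  DD.sum (ι := fun _ => Unit) (f := fun x i => u x i.2) (g := fun x i => v x i.2)
    (DD.reindex (κ := fun x => Unit × Fin (F.n x)) h fun _ i => i.2)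
theorem ip (h : F.DV u v) (h' : F.DV u' v') :
    F.DO (fun x => P150.F.ip (u x) (u' x)) (fun x => P150.F.ip (v x) (v' x)) := (h.mul h').sum
theorem out (h : F.DV u v) : ∃ p : ℕ, ∀ x i, |u x i - v x i| ≤ F.K x ^ p * F.t x := by
  obtain ⟨p, hp⟩ := h.d
  exact ⟨p, fun x i => by simpa using hp x i⟩

end DV

namespace DM

variable {A B A' B' : ∀ x, Mat (F.n x)} {u v : ∀ x, Vec (F.n x)} {f g : X → ℝ}

theorem congr (h : F.DM A B) (e : ∀ x, A' x = A x) (e' : ∀ x, B' x = B x) : F.DM A' B' :=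
  DD.congr h (fun x i => by rw [e]) fun x i => by rw [e']
theorem add (h : F.DM A B) (h' : F.DM A' B') :
    F.DM (fun x => A x + A' x) (fun x => B x + B' x) := DD.add h h'
theorem sub (h : F.DM A B) (h' : F.DM A' B') :
    F.DM (fun x => A x - A' x) (fun x => B x - B' x) := DD.sub h h'
theorem refl (h : F.M 0 A) : F.DM A A := DD.refl h
theorem smul (h : F.DO f g) (h' : F.DM A B) :
    F.DM (fun x => f x • A x) (fun x => g x • B x) :=
  DD.mul (DD.reindex (κ := fun x => Fin (F.n x) × Fin (F.n x)) h fun _ _ => ()) h'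
theorem mul (h : F.DM A B) (h' : F.DM A' B') :
    F.DM (fun x => A x * A' x) (fun x => B x * B' x) :=
  DD.sum (ι := fun x => Fin (F.n x) × Fin (F.n x))
    (f := fun x i => A x i.1.1 i.2 * A' x i.2 i.1.2)
    (g := fun x i => B x i.1.1 i.2 * B' x i.2 i.1.2)
    (DD.mul (DD.reindex (κ := fun x => (Fin (F.n x) × Fin (F.n x)) × Fin (F.n x)) h
        fun _ i => (i.1.1, i.2))
      (DD.reindex (κ := fun x => (Fin (F.n x) × Fin (F.n x)) × Fin (F.n x)) h'
        fun _ i => (i.2, i.1.2)))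
theorem mulVec (h : F.DM A B) (h' : F.DV u v) :
    F.DV (fun x => A x *ᵥ u x) (fun x => B x *ᵥ v x) :=
  DD.sum (ι := fun x => Fin (F.n x)) (f := fun x i => A x i.1 i.2 * u x i.2)
    (g := fun x i => B x i.1 i.2 * v x i.2)
    (DD.mul h (DD.reindex (κ := fun x => Fin (F.n x) × Fin (F.n x)) h' fun _ i => i.2))
theorem diagV (h : F.DM A B) : F.DV (fun x i => A x i i) (fun x i => B x i i) :=
  DD.reindex (κ := fun x => Fin (F.n x)) h fun _ i => (i, i)
theorem trace (h : F.DM A B) : F.DO (fun x => (A x).trace) (fun x => (B x).trace) := h.diagV.sum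
theorem transpose (h : F.DM A B) : F.DM (fun x => (A x)ᵀ) (fun x => (B x)ᵀ) :=
  DD.reindex (κ := fun x => Fin (F.n x) × Fin (F.n x)) h fun _ i => (i.2, i.1)
theorem diagonal (h : F.DV u v) :
    F.DM (fun x => Matrix.diagonal (u x)) (fun x => Matrix.diagonal (v x)) := by
  have d : F.V 1 (fun x => u x - v x) := h.d
  refine ⟨M.diagonal h.l, M.diagonal h.r, OO.congr (M.diagonal d) fun x i => ?_⟩
  change Matrix.diagonal (u x) i.1 i.2 - Matrix.diagonal (v x) i.1 i.2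
    = Matrix.diagonal (u x - v x) i.1 i.2
  simp only [Matrix.diagonal_apply]
  split_ifs <;> simp
theorem vecMulVec {u' v' : ∀ x, Vec (F.n x)} (h : F.DV u v) (h' : F.DV u' v') :
    F.DM (fun x => Matrix.vecMulVec (u x) (u' x)) (fun x => Matrix.vecMulVec (v x) (v' x)) :=
  DD.mul (DD.reindex (κ := fun x => Fin (F.n x) × Fin (F.n x)) h fun _ i => i.1)
    (DD.reindex (κ := fun x => Fin (F.n x) × Fin (F.n x)) h' fun _ i => i.2)
theorem inv (d : F.M 1 (fun x => A x - B x)) (uA : ∀ x, IsUnit (A x).det)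
    (uB : ∀ x, IsUnit (B x).det) (a : F.M 0 (fun x => (A x)⁻¹)) (b : F.M 0 (fun x => (B x)⁻¹)) :
    F.DM (fun x => (A x)⁻¹) (fun x => (B x)⁻¹) := by
  have e : F.M 1 (fun x => (A x)⁻¹ - (B x)⁻¹) := by
    refine M.congr' ((a.zmul d).mul b).neg fun x => ?_
    rw [Matrix.mul_sub, Matrix.nonsing_inv_mul _ (uA x), Matrix.sub_mul, Matrix.one_mul,
      Matrix.mul_assoc, Matrix.mul_nonsing_inv _ (uB x), Matrix.mul_one]
    abel
  exact ⟨a, b, e⟩
theorem dif (h : F.DM A B) : F.M 1 (fun x => A x - B x) := h.d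
theorem out (h : F.DM A B) : ∃ p : ℕ, ∀ x i j, |A x i j - B x i j| ≤ F.K x ^ p * F.t x := by
  obtain ⟨p, hp⟩ := h.d
  exact ⟨p, fun x i j => by simpa using hp x (i, j)⟩

end DM

end Frame

/-- two points at distance of order one -/
structure PP {X : Type} (F : Frame X) where
  P : PD F
  R : PD F
  dJ : F.M 1 (fun x => P.J x - R.J x)
  dh : ∀ x i, |P.h x i - R.h x i| ≤ F.t x
  dz : F.O 1 (fun x => P.z x - R.z x)

namespace PP

variable {X : Type} {F : Frame X} (T : PP F)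

open Frame

theorem m : F.DV (fun x => tm (T.P.h x)) (fun x => tm (T.R.h x)) :=
  ⟨T.P.m0, T.R.m0, OO.of_t fun x i => by
    rw [pow_one]; exact (abs_tanh_sub_le _ _).trans (T.dh x i)⟩

theorem d : F.DV (fun x => dv (T.P.h x)) (fun x => dv (T.R.h x)) :=
  ((DD.refl (OO.const 1)).sub (T.m.mul T.m)).congr (fun x i => by rw [dv_eq]; ring)
    fun x i => by rw [dv_eq]; ring

theorem D : F.DM (fun x => diagonal (dv (T.P.h x))) (fun x => diagonal (dv (T.R.h x))) :=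
  DM.diagonal T.d

theorem w : F.DO (fun x => wb (T.P.h x)) (fun x => wb (T.R.h x)) :=
  (T.d.sum.mul (DO.refl T.P.ni0)).congr (fun x => by rw [wb, div_eq_mul_inv])
    fun x => by rw [wb, div_eq_mul_inv]

theorem wi : F.DO (fun x => (wb (T.P.h x))⁻¹) (fun x => (wb (T.R.h x))⁻¹) :=
  T.w.inv (fun x => (T.P.loc x).bw) fun x => (T.R.loc x).bw

theorem N : F.DM (fun x => Nm (T.P.J x) (T.P.z x)) (fun x => Nm (T.R.J x) (T.R.z x)) := by
  have e : F.M 1 (fun x => Nm (T.P.J x) (T.P.z x) - Nm (T.R.J x) (T.R.z x)) :=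
    ((M.smul T.dz M.one).sub T.dJ).congr' fun x => by
      simp only [Nm, sub_smul]; abel
  exact ⟨T.P.N0, T.R.N0, e⟩

theorem G : F.DM (fun x => G0 (T.P.J x) (T.P.z x)) (fun x => G0 (T.R.J x) (T.R.z x)) :=
  DM.inv T.N.dif (fun x => (T.P.loc x).uN) (fun x => (T.R.loc x).uN) T.P.G00 T.R.G00

theorem t2 : F.DO (fun x => T2 (T.P.J x) (T.P.z x)) (fun x => T2 (T.R.J x) (T.R.z x)) :=
  (T.G.mul T.G).trace

theorem t3 : F.DO (fun x => T3 (T.P.J x) (T.P.z x)) (fun x => T3 (T.R.J x) (T.R.z x)) :=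
  ((T.G.mul T.G).mul T.G).trace

theorem ti : F.DO (fun x => (T2 (T.P.J x) (T.P.z x))⁻¹) (fun x => (T2 (T.R.J x) (T.R.z x))⁻¹) :=
  T.t2.inv (fun x => (T.P.loc x).bT) fun x => (T.R.loc x).bT

theorem c : F.DO (fun x => cc (T.P.J x) (T.P.h x) (T.P.z x))
    (fun x => cc (T.R.J x) (T.R.h x) (T.R.z x)) :=
  ((T.ti.cmul 2).sub (((DO.refl T.P.ni0).mul (T.wi.pow 2)).cmul 2)).congr T.P.cc_eq T.R.cc_eq

theorem c' : F.DO (fun x => c3 (T.P.J x) (T.P.h x) (T.P.z x))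
    (fun x => c3 (T.R.J x) (T.R.h x) (T.R.z x)) :=
  (((T.t3.mul (T.ti.pow 3)).sub (((DO.refl T.P.ni0).pow 2).mul (T.wi.pow 3))).cmul 4).congr
    T.P.c3_eq T.R.c3_eq

theorem B : F.DM (fun x => Bm (T.P.J x) (T.P.h x) (T.P.z x))
    (fun x => Bm (T.R.J x) (T.R.h x) (T.R.z x)) :=
  (T.N.sub (DM.smul T.wi (DM.refl M.one))).add (DM.smul T.c (DM.vecMulVec T.m T.m))

theorem L : F.DM (fun x => Lm (T.P.J x) (T.P.h x) (T.P.z x))
    (fun x => Lm (T.R.J x) (T.R.h x) (T.R.z x)) :=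
  (DM.refl M.one).add (T.B.mul T.D)

theorem Ga : F.DM (fun x => Gam (T.P.J x) (T.P.h x) (T.P.z x))
    (fun x => Gam (T.R.J x) (T.R.h x) (T.R.z x)) :=
  DM.inv T.L.dif (fun x => (T.P.loc x).uL) (fun x => (T.R.loc x).uL) T.P.Gam0 T.R.Gam0

theorem gm : F.DM (fun x => Gm (T.P.J x) (T.P.h x) (T.P.z x))
    (fun x => Gm (T.R.J x) (T.R.h x) (T.R.z x)) := T.D.mul T.Ga

variable {Q Q' : ∀ x, Mat (F.n x)}

theorem e (hQ : F.DM Q Q') : F.DV (fun x => eb (T.P.J x) (T.P.h x) (T.P.z x) (Q x))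
    (fun x => eb (T.R.J x) (T.R.h x) (T.R.z x) (Q' x)) := by
  have g1 := ((T.Ga.mul hQ).mul T.Ga.transpose).diagV
  have g2 := (T.gm.mul hQ).mul T.gm.transpose
  have g3 := g2.mulVec T.m
  have a1 := T.m.mul g1
  have a2 := DV.smul (((T.c.cmul (1 / 2)).mul g2.trace).add (T.c'.mul (T.m.ip g3))) T.m
  have a3 := DV.smul T.c g3
  refine ((a1.add a2).add a3).congr (fun x i => ?_) fun x i => ?_
  · simp only [eb, qf, Pi.add_apply, Pi.smul_apply, smul_eq_mul]; ring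
  · simp only [eb, qf, Pi.add_apply, Pi.smul_apply, smul_eq_mul]; ring

theorem k (hQ : F.DM Q Q') : F.DV (fun x => k0 (T.P.J x) (T.P.h x) (T.P.z x) (Q x))
    (fun x => k0 (T.R.J x) (T.R.h x) (T.R.z x) (Q' x)) :=
  ((T.e hQ).sub (DV.smul (((T.G.mul hQ).mul T.G).trace.mul T.ti) T.m)).congr
    (fun x i => by simp only [k0, div_eq_mul_inv]) fun x i => by simp only [k0, div_eq_mul_inv]

theorem kap (hQ : F.DM Q Q') : F.DV (fun x => ka (T.P.J x) (T.P.h x) (T.P.z x) (Q x))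
    (fun x => ka (T.R.J x) (T.R.h x) (T.R.z x) (Q' x)) := (T.gm.mulVec (T.k hQ)).neg

end PP

/-- context of two locally good points -/
structure LCtx where
  n : ℕ
  K : ℝ
  t : ℝ
  J : Mat n
  J' : Mat n
  Q : Mat n
  Q' : Mat n
  h : Vec n
  h' : Vec n
  z : ℝ
  z' : ℝ
  L : Loc K J h z
  L' : Loc K J' h' z'
  hQ : MB Q K
  hQ' : MB Q' K
  t0 : 0 ≤ t
  t1 : t ≤ 1
  dJ : MB (J' - J) t
  dQ : MB (Q' - Q) t
  dh : ∀ i, |h' i - h i| ≤ t
  dz : |z' - z| ≤ t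

abbrev LCtx.FF : Frame LCtx where
  K := LCtx.K
  t := LCtx.t
  n := LCtx.n
  hK c := c.L.hK
  hn c := c.L.hn
  ht0 := LCtx.t0
  ht1 := LCtx.t1

def LCtx.TT : PP LCtx.FF where
  P := ⟨fun c => c.J', fun c => c.h', fun c => c.z', fun c => c.L'⟩
  R := ⟨fun c => c.J, fun c => c.h, fun c => c.z, fun c => c.L⟩
  dJ := Frame.M.of_t fun c i j => by rw [pow_one]; exact c.dJ i j
  dh c := c.dh
  dz := Frame.O.of_t fun c => by rw [pow_one]; exact c.dz

theorem LCtx.hQQ : LCtx.FF.DM (fun c => c.Q') (fun c => c.Q) :=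
  ⟨Frame.M.of_K fun c => c.hQ', Frame.M.of_K fun c => c.hQ,
    Frame.OO.of_t fun c i => by rw [pow_one]; exact c.dQ i.1 i.2⟩

/-- entrywise Lipschitz bounds between two locally good points -/
theorem lip : ∃ p : ℕ, ∀ (n : ℕ) (K t : ℝ) (J J' Q Q' : Mat n) (h h' : Vec n) (z z' : ℝ),
    Loc K J h z → Loc K J' h' z' → MB Q K → MB Q' K → 0 ≤ t → t ≤ 1 → MB (J' - J) t →
    MB (Q' - Q) t → (∀ i, |h' i - h i| ≤ t) → |z' - z| ≤ t →
    MB (Gam J' h' z' - Gam J h z) (K ^ p * t) ∧ MB (Gm J' h' z' - Gm J h z) (K ^ p * t) ∧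
    (∀ i, |eb J' h' z' Q' i - eb J h z Q i| ≤ K ^ p * t) ∧
    (∀ i, |k0 J' h' z' Q' i - k0 J h z Q i| ≤ K ^ p * t) ∧
    (∀ i, |ka J' h' z' Q' i - ka J h z Q i| ≤ K ^ p * t) := by
  obtain ⟨p1, h1⟩ := LCtx.TT.Ga.out
  obtain ⟨p2, h2⟩ := LCtx.TT.gm.out
  obtain ⟨p3, h3⟩ := (LCtx.TT.e LCtx.hQQ).out
  obtain ⟨p4, h4⟩ := (LCtx.TT.k LCtx.hQQ).out
  obtain ⟨p5, h5⟩ := (LCtx.TT.kap LCtx.hQQ).out
  refine ⟨p1 + p2 + p3 + p4 + p5,
    fun n K t J J' Q Q' h h' z z' L L' hQ hQ' t0 t1 dJ dQ dh dz => ?_⟩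
  have K1 : 1 ≤ K := by linarith [L.hK]
  have hp : ∀ q, q ≤ p1 + p2 + p3 + p4 + p5 →
      K ^ q * t ≤ K ^ (p1 + p2 + p3 + p4 + p5) * t := fun q hq =>
    mul_le_mul_of_nonneg_right (pow_le_pow_right₀ K1 hq) t0
  let c : LCtx := ⟨n, K, t, J, J', Q, Q', h, h', z, z', L, L', hQ, hQ', t0, t1, dJ, dQ, dh, dz⟩
  exact ⟨fun i j => (h1 c i j).trans (hp _ (by omega)),
    fun i j => (h2 c i j).trans (hp _ (by omega)), fun i => (h3 c i).trans (hp _ (by omega)),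
    fun i => (h4 c i).trans (hp _ (by omega)), fun i => (h5 c i).trans (hp _ (by omega))⟩

theorem opLe_of_MB {n : ℕ} {A : Mat n} {c : ℝ} (hc : 0 ≤ c) (h : MB A c) : OpLe A (n * c) := by
  have h1 : hsq A ≤ (n * c) ^ 2 := by
    calc hsq A ≤ ∑ _i : Fin n, ∑ _j : Fin n, c ^ 2 :=
          Finset.sum_le_sum fun i _ => Finset.sum_le_sum fun j _ => by
            rw [← sq_abs]; exact pow_le_pow_left₀ (abs_nonneg _) (h i j) 2
      _ = _ := by simp; ring
  have := DX.opLe_of_hsq h1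
  rwa [Real.sqrt_sq (by positivity)] at this

/-- norm form, with `z, z'` located by the trace equation (no hypothesis on `z' - z`) -/
theorem lip_root : ∃ p : ℕ, ∀ (n : ℕ) (K t : ℝ) (J Δ Q Q' : Mat n) (h h' : Vec n) (z z' : ℝ),
    Loc K J h z → Loc K (J - Δ) h' z' → J.IsSymm → Δ.IsSymm → (∀ w, 0 ≤ qf (Nm J z) w) →
    (∀ w, 0 ≤ qf (Nm (J - Δ) z') w) → MB Q K → MB Q' K → 0 ≤ t → MB Δ t →
    MB (Q' - Q) t → (∀ i, |h' i - h i| ≤ t) → |res2 J h z| ≤ t → |res2 (J - Δ) h' z'| ≤ t →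
    K ^ p * t ≤ 1 →
    |z' - z| ≤ K ^ p * t ∧
    OpLe (Gam (J - Δ) h' z' - Gam J h z) (K ^ p * t) ∧
    OpLe (Gm (J - Δ) h' z' - Gm J h z) (K ^ p * t) ∧
    nv (eb (J - Δ) h' z' Q' - eb J h z Q) ≤ K ^ p * t ∧
    nv (k0 (J - Δ) h' z' Q' - k0 J h z Q) ≤ K ^ p * t ∧
    nv (ka (J - Δ) h' z' Q' - ka J h z Q) ≤ K ^ p * t := by
  obtain ⟨p1, h1⟩ := dz_le
  obtain ⟨p2, h2⟩ := lip
  refine ⟨p1 + p2 + 1, fun n K t J Δ Q Q' h h' z z' L L' sJ sΔ pN pN' hQ hQ' t0 dΔ dQ dh r r' ht =>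
    ?_⟩
  have K1 : 1 ≤ K := by linarith [L.hK]
  have hp : ∀ q, q ≤ p1 + p2 + 1 → K ^ q * t ≤ K ^ (p1 + p2 + 1) * t := fun q hq =>
    mul_le_mul_of_nonneg_right (pow_le_pow_right₀ K1 hq) t0
  have t1 : t ≤ 1 := by
    have := hp 0 (by omega)
    rw [pow_zero, one_mul] at this
    linarith
  have tt : t ≤ K ^ p1 * t := le_mul_of_one_le_left t0 (one_le_pow₀ K1)
  have dz := h1 n K t J Δ h h' z z' L L' sJ sΔ pN pN' t0 t1 dh dΔ r r'
  have u0 : 0 ≤ K ^ p1 * t := t0.trans tt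
  obtain ⟨a1, a2, a3, a4, a5⟩ := h2 n K (K ^ p1 * t) J (J - Δ) Q Q' h h' z z' L L' hQ hQ' u0
    ((hp p1 (by omega)).trans ht)
    (fun i j => by
      have : (J - Δ - J) i j = -Δ i j := by simp
      rw [this, abs_neg]; exact (dΔ i j).trans tt)
    (dQ.mono tt) (fun i => (dh i).trans tt) dz
  have v0 : 0 ≤ K ^ p2 * (K ^ p1 * t) := mul_nonneg (pow_nonneg (by linarith) _) u0
  have hn : (n : ℝ) * (K ^ p2 * (K ^ p1 * t)) ≤ K ^ (p1 + p2 + 1) * t := by
    calc (n : ℝ) * (K ^ p2 * (K ^ p1 * t)) ≤ K * (K ^ p2 * (K ^ p1 * t)) :=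
          mul_le_mul_of_nonneg_right L.hn v0
      _ = _ := by ring
  have hs : K ^ p2 * (K ^ p1 * t) * √n ≤ K ^ (p1 + p2 + 1) * t := by
    refine le_trans ?_ hn
    rw [mul_comm]
    refine mul_le_mul_of_nonneg_right ?_ v0
    have h1 : (1 : ℝ) ≤ n := by exact_mod_cast L.npos
    rw [Real.sqrt_le_left (by linarith)]
    nlinarith
  have op : ∀ A : Mat n, MB A (K ^ p2 * (K ^ p1 * t)) → OpLe A (K ^ (p1 + p2 + 1) * t) :=
    fun A hA v => (opLe_of_MB v0 hA v).trans (mul_le_mul_of_nonneg_right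
      (pow_le_pow_left₀ (by positivity) hn 2) (sqN_nonneg v))
  exact ⟨dz.trans (hp p1 (by omega)), op _ a1, op _ a2, (nv_le_sqrt v0 a3).trans hs,
    (nv_le_sqrt v0 a4).trans hs, (nv_le_sqrt v0 a5).trans hs⟩

/-- same matrices, two points `h, h'` with exact trace equations -/
theorem lip_h : ∃ p : ℕ, ∀ (n : ℕ) (K t : ℝ) (J Q : Mat n) (h h' : Vec n) (z z' : ℝ),
    Loc K J h z → Loc K J h' z' → J.IsSymm → (Nm J z).PosDef → (Nm J z').PosDef → MB Q K →
    nv (h' - h) ≤ t → res2 J h z = 0 → res2 J h' z' = 0 → K ^ p * t ≤ 1 →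
    |z' - z| ≤ K ^ p * t ∧
    OpLe (Gam J h' z' - Gam J h z) (K ^ p * t) ∧ OpLe (Gm J h' z' - Gm J h z) (K ^ p * t) ∧
    nv (eb J h' z' Q - eb J h z Q) ≤ K ^ p * t ∧ nv (k0 J h' z' Q - k0 J h z Q) ≤ K ^ p * t ∧
    nv (ka J h' z' Q - ka J h z Q) ≤ K ^ p * t := by
  obtain ⟨p, hp⟩ := lip_root
  refine ⟨p, fun n K t J Q h h' z z' L L' sJ pN pN' hQ dh r r' ht => ?_⟩
  have t0 : 0 ≤ t := (nv_nonneg _).trans dh
  have psd : ∀ {A : Mat n}, A.PosDef → ∀ w, 0 ≤ qf A w := fun hA w => by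
    have := hA.posSemidef.dotProduct_mulVec_nonneg w
    simpa [qf, ip, dotProduct] using this
  have := hp n K t J 0 Q Q h h' z z' L (by simpa using L') sJ (by simp [Matrix.IsSymm]) (psd pN)
    (by simpa using psd pN') hQ hQ t0 (fun i j => by simpa using t0)
    (fun i j => by simpa using t0) (fun i => (abs_le_nv (h' - h) i).trans dh)
    (by rw [r]; simpa using t0) (by rw [sub_zero, r']; simpa using t0) ht
  simpa only [sub_zero] using this

end Vale.Agent.N150.EC
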