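import Vale.Agent.N150.EdgeDef

/-! Elementary bounds for the semicircle counting function near the edge. -/

open Real Set intervalIntegral MeasureTheory

namespace Vale.Agent.N150.Edge

/-- comparison of two functions through their derivatives -/
lemma le_of_deriv {f g f' g' : ℝ → ℝ} {a b : ℝ} (hab : a ≤ b) (hf : ContinuousOn f (Icc a b))
    (hg : ContinuousOn g (Icc a b)) (hf' : ∀ x ∈ Ioo a b, HasDerivAt f (f' x) x)
    (hg' : ∀ x ∈ Ioo a b, HasDerivAt g (g' x) x) (h : ∀ x ∈ Ioo a b, f' x ≤ g' x)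
    (h0 : f a ≤ g a) : f b ≤ g b := by
  have hm : MonotoneOn (fun x => g x - f x) (Icc a b) := by
    refine monotoneOn_of_deriv_nonneg (convex_Icc a b) (hg.sub hf) ?_ ?_
    · rw [interior_Icc]
      intro x hx
      exact ((hg' x hx).sub (hf' x hx)).differentiableAt.differentiableWithinAt
    · rw [interior_Icc]
      intro x hx
      rw [((hg' x hx).fun_sub (hf' x hx)).deriv]
      linarith [h x hx]
  have := hm (left_mem_Icc.2 hab) (right_mem_Icc.2 hab) hab
  simp only at this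
  linarith

/-- the angle -/
noncomputable def ang (s : ℝ) : ℝ := arccos (1 - s / 2)

lemma continuous_ang : Continuous ang := by unfold ang; fun_prop

lemma continuous_scF : Continuous scF :=
  continuous_iff_continuousAt.2 fun s => (hasDerivAt_scF s).continuousAt

lemma ang_zero : ang 0 = 0 := by simp [ang]

lemma ang_four {s : ℝ} (hs : 4 ≤ s) : ang s = π := by
  unfold ang
  exact arccos_of_le_neg_one (by linarith)

lemma scF_ge_four {s : ℝ} (hs : 4 ≤ s) : scF s = 1 := by
  have h := scF_sub 4 s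
  have h2 : ∫ e in (4 : ℝ)..s, scD e = ∫ _e in (4 : ℝ)..s, (0 : ℝ) := by
    refine integral_congr fun e he => ?_
    rw [uIcc_of_le hs] at he
    exact scD_of_ge he.1
  rw [h2, intervalIntegral.integral_zero, scF_four] at h
  linarith

lemma cos_ang {s : ℝ} (h0 : 0 ≤ s) (h4 : s ≤ 4) : cos (ang s) = 1 - s / 2 :=
  cos_arccos (by linarith) (by linarith)

lemma sin_ang (s : ℝ) : sin (ang s) = √(1 - (1 - s / 2) ^ 2) := sin_arccos _

lemma sin_ang_eq {s : ℝ} (h0 : 0 ≤ s) : sin (ang s) = √s * √(1 - s / 4) := by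
  rw [sin_ang, ← sqrt_mul h0]
  congr 1
  ring

lemma sin_ang_pos {s : ℝ} (h0 : 0 < s) (h4 : s < 4) : 0 < sin (ang s) := by
  rw [sin_ang_eq h0.le]
  exact mul_pos (sqrt_pos.2 h0) (sqrt_pos.2 (by linarith))

lemma hasDerivAt_ang {s : ℝ} (h0 : 0 < s) (h4 : s < 4) :
    HasDerivAt ang (1 / (2 * sin (ang s))) s := by
  have h1 : HasDerivAt (fun s : ℝ => 1 - s / 2) (-(1 / 2)) s := by
    simpa using ((hasDerivAt_id s).div_const 2).const_sub 1
  have h2 := (hasDerivAt_arccos (x := 1 - s / 2) (by linarith) (by linarith)).comp s h1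
  refine h2.congr_deriv ?_
  rw [sin_ang]
  field_simp

lemma scD_eq {s : ℝ} (h0 : 0 ≤ s) : scD s = sin (ang s) / π := by
  rw [sin_ang_eq h0]
  unfold scD
  have e : s * (4 - s) = s * ((1 - s / 4) * 2 ^ 2) := by ring
  rw [e, sqrt_mul h0, sqrt_mul' _ (by norm_num), sqrt_sq (by norm_num)]
  have := pi_pos
  field_simp

lemma hasDerivAt_scF' {s : ℝ} (h0 : 0 < s) : HasDerivAt scF (sin (ang s) / π) s := by
  rw [← scD_eq h0.le]; exact hasDerivAt_scF s

lemma sqrt_one_sub_le {s : ℝ} (h0 : 0 ≤ s) : √(1 - s / 4) ≤ 1 := by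
  rw [sqrt_le_left (by norm_num)]; linarith

lemma le_sqrt_one_sub {s : ℝ} (h0 : 0 ≤ s) (h4 : s ≤ 4) : 1 - s / 4 ≤ √(1 - s / 4) := by
  apply le_sqrt_of_sq_le
  nlinarith

lemma hasDerivAt_mul_sqrt {s : ℝ} (h0 : 0 < s) :
    HasDerivAt (fun s => s * √s) (3 / 2 * √s) s := by
  have h := (hasDerivAt_id s).mul (hasDerivAt_sqrt h0.ne')
  refine h.congr_deriv ?_
  have h1 : √s * √s = s := mul_self_sqrt h0.le
  have h2 : 0 < √s := sqrt_pos.2 h0
  simp only [id]
  field_simp
  nlinarith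

lemma hasDerivAt_sq_mul_sqrt {s : ℝ} (h0 : 0 < s) :
    HasDerivAt (fun s => s * (s * √s)) (5 / 2 * (s * √s)) s := by
  have h := (hasDerivAt_id s).mul (hasDerivAt_mul_sqrt h0)
  refine h.congr_deriv ?_
  simp only [id]
  ring

/-- the edge constant `2 / (3 π)` -/
noncomputable def c0 : ℝ := 2 / (3 * π)

lemma c0_pos : 0 < c0 := by unfold c0; have := pi_pos; positivity

lemma c0_le : c0 ≤ 0.2123 := by
  unfold c0
  have := pi_gt_d4
  rw [div_le_iff₀ (by positivity)]
  linarith

lemma le_c0 : 0.2122 ≤ c0 := by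
  unfold c0
  have := pi_lt_d4
  rw [le_div_iff₀ (by have := pi_pos; positivity)]
  linarith

lemma inv_pi : π⁻¹ = 3 / 2 * c0 := by unfold c0; have := pi_pos; field_simp

lemma scF_le {s : ℝ} (h0 : 0 ≤ s) : scF s ≤ c0 * (s * √s) := by
  rcases le_total s 4 with h4 | h4
  · refine le_of_deriv (f := scF) (g := fun s => c0 * (s * √s)) (f' := fun s => sin (ang s) / π)
      (g' := fun s => c0 * (3 / 2 * √s)) h0 continuous_scF.continuousOn (by fun_prop)
      (fun x hx => hasDerivAt_scF' hx.1)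
      (fun x hx => (hasDerivAt_mul_sqrt hx.1).const_mul c0) (fun x hx => ?_) (by simp [scF_zero])
    rw [sin_ang_eq hx.1.le, div_eq_mul_inv _ π, inv_pi]
    have h1 := sqrt_one_sub_le hx.1.le
    have h2 := sqrt_nonneg x
    have h3 := c0_pos
    have : √x * √(1 - x / 4) ≤ √x := by nlinarith
    nlinarith
  · rw [scF_ge_four h4]
    have h2 : 2 ≤ √s := by apply le_sqrt_of_sq_le; linarith
    have := le_c0
    have h3 : 8 ≤ s * √s := by nlinarith
    nlinarith

lemma le_scF {s : ℝ} (h0 : 0 ≤ s) (h5 : s ≤ 5) :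
    c0 * (s * √s) - 3 / 20 * c0 * (s * (s * √s)) ≤ scF s := by
  rcases le_total s 4 with h4 | h4
  · refine le_of_deriv (g := scF) (f := fun s => c0 * (s * √s) - 3 / 20 * c0 * (s * (s * √s)))
      (g' := fun s => sin (ang s) / π)
      (f' := fun s => c0 * (3 / 2 * √s) - 3 / 20 * c0 * (5 / 2 * (s * √s))) h0 (by fun_prop)
      continuous_scF.continuousOn
      (fun x hx => ((hasDerivAt_mul_sqrt hx.1).const_mul c0).sub
        ((hasDerivAt_sq_mul_sqrt hx.1).const_mul _))
      (fun x hx => hasDerivAt_scF' hx.1) (fun x hx => ?_) (by simp [scF_zero])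
    rw [sin_ang_eq hx.1.le, div_eq_mul_inv _ π, inv_pi]
    have h1 := le_sqrt_one_sub hx.1.le (by linarith [hx.2])
    have h2 := sqrt_nonneg x
    have h3 := c0_pos
    have : √x * (1 - x / 4) ≤ √x * √(1 - x / 4) := by gcongr
    nlinarith
  · rw [scF_ge_four h4]
    have h2 : √s ≤ 2.24 := by rw [sqrt_le_left (by norm_num)]; linarith
    have h2' := sqrt_nonneg s
    have := c0_le
    have h3 := c0_pos
    have h6 : s * √s ≤ 11.2 := by nlinarith
    have h7 : 0 ≤ s * √s := by positivity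
    have h8 : c0 * (s * √s) ≤ 0.2123 * 11.2 := by gcongr
    have h9 : 0 ≤ c0 * (s * √s) := by positivity
    nlinarith

lemma scF_nonneg {s : ℝ} (h0 : 0 ≤ s) (h5 : s ≤ 5) : 0 ≤ scF s := by
  have h := le_scF h0 h5
  have h3 := c0_pos
  have h7 : 0 ≤ c0 * (s * √s) := by positivity
  nlinarith

/-- `∫₀^s ρ(e) / e de` -/
noncomputable def scK (s : ℝ) : ℝ := (ang s + sin (ang s)) / π

lemma continuous_scK : Continuous scK := by
  unfold scK
  have := continuous_ang
  fun_prop

lemma scK_zero : scK 0 = 0 := by simp [scK, ang_zero]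

lemma scK_four : scK 4 = 1 := by simp [scK, ang_four, pi_ne_zero]

lemma hasDerivAt_scK {s : ℝ} (h0 : 0 < s) (h4 : s < 4) :
    HasDerivAt scK (sin (ang s) / π / s) s := by
  have h := hasDerivAt_ang h0 h4
  have h3 := (h.add h.sin).div_const π
  refine h3.congr_deriv ?_
  have hp := sin_ang_pos h0 h4
  have hc := sin_sq_add_cos_sq (ang s)
  rw [cos_ang h0.le h4.le] at hc ⊢
  have := pi_pos
  field_simp
  nlinarith [hc]

lemma sqrt_div_self' {s : ℝ} (h0 : 0 < s) : √s / s = 1 / √s := by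
  have h1 : √s * √s = s := mul_self_sqrt h0.le
  have h2 : 0 < √s := sqrt_pos.2 h0
  field_simp
  nlinarith

lemma scK_le {s : ℝ} (h0 : 0 ≤ s) (h4 : s ≤ 4) : scK s ≤ 3 * c0 * √s := by
  refine le_of_deriv (f := scK) (g := fun s => 3 * c0 * √s)
    (f' := fun s => sin (ang s) / π / s)
    (g' := fun s => 3 * c0 * (1 / (2 * √s))) h0 continuous_scK.continuousOn (by fun_prop)
    (fun x hx => hasDerivAt_scK hx.1 (by linarith [hx.2]))
    (fun x hx => (hasDerivAt_sqrt hx.1.ne').const_mul _) (fun x hx => ?_) (by simp [scK_zero])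
  rw [sin_ang_eq hx.1.le, div_eq_mul_inv _ π, inv_pi]
  have h1 := sqrt_one_sub_le hx.1.le
  have h2 : 0 < √x := sqrt_pos.2 hx.1
  have h3 := c0_pos
  have h4 := sqrt_div_self' hx.1
  have e1 : √x * √(1 - x / 4) * (3 / 2 * c0) / x = (√x / x) * √(1 - x / 4) * (3 / 2 * c0) := by
    ring
  have e2 : 3 * c0 * (1 / (2 * √x)) = (1 / √x) * 1 * (3 / 2 * c0) := by field_simp
  rw [e1, e2, h4]
  gcongr

lemma le_scK {s : ℝ} (h0 : 0 ≤ s) (h4 : s ≤ 4) : 3 * c0 * √s - c0 / 4 * (s * √s) ≤ scK s := by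
  refine le_of_deriv (g := scK) (f := fun s => 3 * c0 * √s - c0 / 4 * (s * √s))
    (g' := fun s => sin (ang s) / π / s)
    (f' := fun s => 3 * c0 * (1 / (2 * √s)) - c0 / 4 * (3 / 2 * √s)) h0 (by fun_prop)
    continuous_scK.continuousOn
    (fun x hx => ((hasDerivAt_sqrt hx.1.ne').const_mul _).sub
      ((hasDerivAt_mul_sqrt hx.1).const_mul _))
    (fun x hx => hasDerivAt_scK hx.1 (by linarith [hx.2])) (fun x hx => ?_) (by simp [scK_zero])
  rw [sin_ang_eq hx.1.le, div_eq_mul_inv _ π, inv_pi]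
  have h1 := le_sqrt_one_sub hx.1.le (by linarith [hx.2])
  have h2 : 0 < √x := sqrt_pos.2 hx.1
  have h3 := c0_pos
  have h4 := sqrt_div_self' hx.1
  have h5 : √x * √x = x := mul_self_sqrt hx.1.le
  have e1 : √x * √(1 - x / 4) * (3 / 2 * c0) / x = (√x / x) * √(1 - x / 4) * (3 / 2 * c0) := by
    ring
  have e2 : 3 * c0 * (1 / (2 * √x)) - c0 / 4 * (3 / 2 * √x) =
      (1 / √x) * (1 - x / 4) * (3 / 2 * c0) := by
    field_simp
    nlinarith
  rw [e1, e2, h4]
  gcongr

/-- the exact first moment identity -/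
lemma integral_scF_div_sq {r : ℝ} (h0 : 0 < r) (h4 : r ≤ 4) :
    1 / 5 + ∫ u in r..5, scF u / u ^ 2 = 1 - scK r + scF r / r := by
  have hc : ∀ a b : ℝ, 0 < a → 0 < b → IntervalIntegrable (fun u => scF u / u ^ 2) volume a b := by
    intro a b ha hb
    refine ContinuousOn.intervalIntegrable ?_
    refine continuous_scF.continuousOn.div (by fun_prop) fun x hx => ?_
    have : 0 < x := lt_of_lt_of_le (lt_min ha hb) hx.1
    positivity
  rw [← integral_add_adjacent_intervals (hc r 4 h0 (by norm_num)) (hc 4 5 (by norm_num) (by norm_num))]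
  have h1 : ∫ u in r..4, scF u / u ^ 2 = (scK 4 - scF 4 / 4) - (scK r - scF r / r) := by
    refine integral_eq_sub_of_hasDerivAt_of_le (f := fun u => scK u - scF u / u) h4 ?_ ?_
      (hc r 4 h0 (by norm_num))
    · refine continuous_scK.continuousOn.sub (continuous_scF.continuousOn.div (by fun_prop) ?_)
      intro x hx
      exact (lt_of_lt_of_le h0 hx.1).ne'
    · intro x hx
      have hx0 : 0 < x := h0.trans hx.1
      have h := (hasDerivAt_scK hx0 hx.2).sub
        ((hasDerivAt_scF' hx0).div (hasDerivAt_id x) hx0.ne')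
      refine h.congr_deriv ?_
      simp only [id]
      field_simp
      ring
  have h2 : ∫ u in (4 : ℝ)..5, scF u / u ^ 2 = (-(5 : ℝ)⁻¹) - (-(4 : ℝ)⁻¹) := by
    refine integral_eq_sub_of_hasDerivAt_of_le (f := fun u => -u⁻¹) (by norm_num) ?_ ?_
      (hc 4 5 (by norm_num) (by norm_num))
    · refine (ContinuousOn.inv₀ (by fun_prop) ?_).neg
      intro x hx
      have := hx.1
      positivity
    · intro x hx
      have hx0 : 0 < x := by linarith [hx.1]
      have h := (hasDerivAt_inv hx0.ne').neg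
      refine h.congr_deriv ?_
      rw [scF_ge_four hx.1.le]
      field_simp
  rw [h1, h2, scK_four, scF_four]
  ring

/-- the first moment of the clipped resolvent of the semicircle law -/
lemma first_moment {r : ℝ} (h0 : 0 < r) (h4 : r ≤ 4) :
    |1 / 5 + (∫ u in r..5, scF u / u ^ 2) - (1 - 2 * c0 * √r)| ≤ c0 / 4 * (r * √r) := by
  rw [integral_scF_div_sq h0 h4]
  have h1 := scK_le h0.le h4
  have h2 := le_scK h0.le h4
  have h3 : scF r / r ≤ c0 * √r := by
    rw [div_le_iff₀ h0]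
    have := scF_le h0.le
    linarith
  have h5 : c0 * √r - 3 / 20 * c0 * (r * √r) ≤ scF r / r := by
    rw [le_div_iff₀ h0]
    have := le_scF h0.le (by linarith)
    linarith
  have h6 : 0 ≤ c0 * (r * √r) := by have := c0_pos; positivity
  rw [abs_le]
  constructor <;> linarith

end Vale.Agent.N150.Edge
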