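import Vale.Agent.N150.EndPath

/-! P150 at `β = 1`, endgame: the library side. -/

open MeasureTheory ProbabilityTheory Filter Topology
open scoped Matrix

namespace Vale.Agent.N150.End

open Vale.Agent.P150 Vale.Agent.P150.F

variable {n : ℕ}

/-- the output interface of a localization scheme, with explicit data -/
noncomputable def d6L {S : Type} [MeasurableSpace S] (L : Loc n S) {β C K c δ₀ : ℝ} {J : Mat n}
    (hC : 0 ≤ C) (hOK : L.OK β J C) (hD : L.Drift C K) (hK : K * √L.dl ≤ 1) (hdl : L.dl ≤ δ₀)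
    (hex : L.pexit ≤ Real.exp (-(c * n))) : D6Out β (C ^ 2 + C + 1) C c J δ₀ where
  S := S
  ms := inferInstance
  P := L.P
  N := L.N
  s0 := L.s0
  Inv := fun k s => L.lev s + k = L.N
  Exit := L.exit
  mh := L.mh
  dur := fun _ => L.dl
  measExit := hOK.meas_exit
  measmh := hOK.meas_mh
  mh_le := hOK.mh_le
  M0 := hOK.M_s0
  y0 := hOK.y_s0
  inv0 := by rw [hOK.lev_s0, zero_add]
  invS := by
    intro k s z hs
    have : L.lev s + (k + 1) = L.N := hs
    rw [hOK.lev_next]; omega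
  δ_eq := fun k s _ => hOK.step s
  dur_pos := fun _ => hOK.dl_pos
  dur_le := fun _ => hdl
  dur_sum := by
    rw [Finset.sum_const, Finset.card_range, nsmul_eq_mul]
    exact hOK.time
  R_le := fun k s _ i j => (hOK.bddR s i j).trans (by linarith only [sq_nonneg C])
  Q_le := fun k s _ => (hOK.opQ s).monoN hC (by linarith only [sq_nonneg C])
  fin_M := fun s hs i j hij => hOK.term s (by simpa using hs) i j hij
  fin_mh := by
    intro s hs _
    have h0 : (L.mh s - fun i => Real.tanh (L.P.y s i)) = 0 := by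
      funext i
      rw [Pi.sub_apply, hOK.term_mh s (by simpa using hs) i, sub_self, Pi.zero_apply]
    rw [h0, nv_zero]; exact zero_le_one
  drift := by
    intro k s hs hse ν hν
    have hs' : L.lev s + (k + 1) = L.N := hs
    obtain ⟨G, κ, hG, hκ, h⟩ := hD s (by omega) hse
    have h1 := h ν hν
    have hdl0 := hOK.dl_pos
    rw [hOK.step s]
    set X : Vec n := (fun i => EC ν (L.P.R s) L.dl (fun _ z => L.mh (L.P.nxt s z) i)) with hX
    set w : Vec n := mean ν - L.mh s with hw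
    set Y : Vec n := G.mulVec ((L.P.Q s).mulVec w + κ) with hY
    have e : X - L.mh s = (X - L.mh s - L.dl • Y) + L.dl • Y := by abel
    have h2 : nv Y ≤ C * (C * nv w + C) := by
      refine (hG.nv_le hC _).trans (mul_le_mul_of_nonneg_left ?_ hC)
      exact (nv_add_le _ _).trans (add_le_add ((hOK.opQ s).nv_le hC w) hκ)
    have h3 : nv (X - L.mh s - L.dl • Y) ≤ L.dl := by
      refine h1.trans ?_
      calc K * (L.dl * √L.dl) = L.dl * (K * √L.dl) := by ring
        _ ≤ L.dl * 1 := mul_le_mul_of_nonneg_left hK hdl0.le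
        _ = L.dl := mul_one _
    have hw0 : 0 ≤ nv w := nv_nonneg w
    calc nv (X - L.mh s) ≤ nv (X - L.mh s - L.dl • Y) + nv (L.dl • Y) := by
          conv_lhs => rw [e]
          exact nv_add_le _ _
      _ ≤ L.dl + L.dl * (C * (C * nv w + C)) := by
          rw [nv_smul, abs_of_pos hdl0]
          exact add_le_add h3 (mul_le_mul_of_nonneg_left h2 hdl0.le)
      _ ≤ (C ^ 2 + C + 1) * L.dl * (nv w + 1) := by
          have h4 : 0 ≤ L.dl * nv w := mul_nonneg hdl0.le hw0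
          have h5 : 0 ≤ C * L.dl := mul_nonneg hC hdl0.le
          have h6 : 0 ≤ C * (L.dl * nv w) := mul_nonneg hC h4
          linarith only [h6, h5, h4]
  exit_le := hex

theorem PY_zero {μ : Cfg n → ℝ} (hμ : IsProb μ) (R : Mat n) {B : Set (Vec n)} (h : (0 : Vec n) ∈ B) :
    PY μ R 0 B = 1 := by
  unfold PY
  have e : ∀ x, {ξ | obs R 0 x ξ ∈ B} = Set.univ := by
    intro x
    ext ξ
    have : obs R 0 x ξ = 0 := by funext i; simp [obs]
    simp [this, h]
  simp only [e, probReal_univ, mul_one]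
  exact hμ.2

theorem PE_yJ_PY (p : SPar n) (μ : Cfg n → ℝ) (k : ℕ) {B : Set (Vec n)} (hB : MeasurableSet B) :
    PE μ (fun x ω => p.yJ x ω k ∈ B) = PY μ p.S0 (p.β - p.rr k) B :=
  p.PE_yJ μ k (B := fun _ y => y ∈ B) fun _ => hB

/-- increments of the killing field between mesh levels -/
theorem PE_incr {p : SPar n} {K : Cst} (hK : p.Adm K) {μ : Cfg n → ℝ} (hμ : IsProb μ) {M q' : ℕ}
    (hM : 0 < M) (hq : p.q = M * q') (hτ : 0 < p.τ) {i a : ℕ} (hi : i < p.Nw) (ha : a < M) :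
    PE μ (fun x ω => ¬ nv (p.yJ x ω (kap p q' i (a + 1)) - p.yJ x ω (kap p q' i a))
      ≤ 20 * √(p.τ / M) * √n) ≤ 2 * Real.exp (-(1 * n)) := by
  have hMR : (0 : ℝ) < M := by exact_mod_cast hM
  have hκ : p.κ₀ = 4 := by rw [hK.κ_eq, hK.ok.hκ]
  have hh : 0 < p.τ / M := div_pos hτ hMR
  have hh1 : p.τ / M ≤ 1 := (div_le_self hτ.le (by exact_mod_cast hM)).trans p.τ_le_one
  have e1 : kap p q' i (a + 1) = kap p q' i a + q' := by unfold kap; ring
  have hqd : (q' : ℝ) * (p.dl * p.τ) = p.τ / M := by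
    have h1 := q_dl p
    rw [hq] at h1
    push_cast at h1
    rw [eq_div_iff hMR.ne']
    calc (q' : ℝ) * (p.dl * p.τ) * M = (M * q' * p.dl) * p.τ := by ring
      _ = p.τ := by rw [h1, one_mul]
  have h := p.PE_kill hκ hμ ⟨i, hi⟩ (k := kap p q' i a) (N := q') (by unfold kap; simp)
    (by
      have h1 : (a + 1) * q' ≤ p.q := by rw [hq]; exact Nat.mul_le_mul_right _ ha
      rw [← e1]
      unfold kap
      simp only
      rw [add_mul (i * (p.d + 1) + p.d) 1, one_mul]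
      omega) hh hqd.le
  refine le_trans (PE_mono hμ.1 fun x ω hω => ?_) h
  refine ⟨q', le_rfl, ?_⟩
  by_contra hcon
  rw [not_lt] at hcon
  apply hω
  have hr0 := rr_kap p hM hq hi ha.le
  have hr1 := rr_kap p hM hq hi (a := a + 1) ha
  have e2 : p.yJ x ω (kap p q' i (a + 1)) - p.yJ x ω (kap p q' i a)
      = (p.τ / M) • (p.J + p.κ₀ • (1 : Mat n)).mulVec (sv x)
        + p.S0.mulVec (p.nJ ω (kap p q' i a + q') - p.nJ ω (kap p q' i a)) := by
    unfold SPar.yJ
    rw [hr0, hr1, e1, Matrix.mulVec_sub]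
    funext j
    simp only [Pi.add_apply, Pi.sub_apply, Pi.smul_apply, smul_eq_mul]
    push_cast
    ring
  rw [e2]
  refine (nv_add_le _ _).trans ?_
  have h7 : OpLe (p.J + p.κ₀ • (1 : Mat n)) (3 + |p.κ₀| * 1) :=
    p.hJ3.add (opLe_one.smul zero_le_one _) (by norm_num) (by positivity)
  rw [hκ] at h7
  have h8 := h7.nv_le (by positivity) (sv x)
  have h9 : nv (sv x) ≤ √n := nv_le_sqrt_n fun i => by
    unfold sv sp; split_ifs <;> simp
  rw [nv_smul, abs_of_pos hh, hκ]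
  have hs : 0 ≤ √(n : ℝ) := Real.sqrt_nonneg _
  have h10 : p.τ / M ≤ √(p.τ / M) := by
    rw [Real.le_sqrt hh.le hh.le]
    nlinarith
  have h11 : √(56 * (p.τ / M)) ≤ 8 * √(p.τ / M) := by
    rw [Real.sqrt_le_left (by positivity), mul_pow, Real.sq_sqrt hh.le]
    linarith
  have h12 : |(4 : ℝ)| = 4 := by norm_num
  rw [h12] at h8
  have h13 : p.τ / M * nv ((p.J + (4 : ℝ) • (1 : Mat n)).mulVec (sv x)) ≤ √(p.τ / M) * (7 * √n) :=
    mul_le_mul h10 (by linarith) (nv_nonneg _) (Real.sqrt_nonneg _)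
  have h14 := mul_le_mul_of_nonneg_right h11 hs
  have h15 : 0 ≤ √(p.τ / M) * √n := by positivity
  linarith

theorem ev_poly (A : ℕ) (N : ℝ) {c : ℝ} (hc : 0 < c) :
    ∀ᶠ n : ℕ in atTop, N * (n : ℝ) ^ A * Real.exp (-(c * n)) ≤ 1 := by
  have h1 : Tendsto (fun x : ℝ => N * (x ^ A * Real.exp (-(c * x)))) atTop (𝓝 (N * 0)) := by
    refine Tendsto.const_mul N ?_
    have h2 := (Real.tendsto_pow_mul_exp_neg_atTop_nhds_zero A).comp
      (tendsto_id.const_mul_atTop hc)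
    have h3 := h2.const_mul (1 / c ^ A)
    rw [mul_zero] at h3
    refine h3.congr fun x => ?_
    simp only [Function.comp, id]
    rw [mul_pow]
    field_simp
  rw [mul_zero] at h1
  have h4 := (h1.comp tendsto_natCast_atTop_atTop).eventually (ge_mem_nhds one_pos)
  filter_upwards [h4] with n hn
  simpa [mul_assoc] using hn

/-- the library side for a fixed scheme -/
theorem lib_fixed {K : Cst} {p : SPar n} (hM' : p.MMSucc) (hm' : p.MhMeas K.c) (hK : p.Adm K)
    (hF : Free K p) {c₀ L R E c θ₁ θ₂ θ C' pe : ℝ} (hc₀ : 0 < c₀) (hL : 1 ≤ L)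
    (hc₁ : K.c₁ ≤ c₀) (hLK : L ≤ K.L) (hρ : p.ρ ≤ R / 8) (hτ : 9 * p.τ ≤ c₀) (hτ0 : 0 < p.τ)
    (hE : E ≤ c₀ * (R * √n / 8)) {M l : ℕ} (hM : 0 < M) (hq : M ∣ p.q) (hl : l < p.Nw)
    {G : ℕ → Set (Vec n)} {cen : ℕ → Vec n → Vec n}
    (hT : TL c₀ L R E p.β (p.τ / M) c (l * M) p.J p.S0 G cen)
    (hθ₁ : 0 < θ₁) (hθ₁' : θ₁ ≤ 1) (hθ₂ : 0 < θ₂) (hθ₂' : θ₂ ≤ 1)
    (hex : (p.loc K.c hM' hm').pexit ≤ pe) (hc : Real.exp (-(c * n)) < 1)
    (hterm : ∀ s : p.St, s.1 ≤ p.N → s ∉ (p.proc K.c hM' hm').badSet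
        ((p.proc K.c hM' hm').badSet (fun _ => p.exitS K.c) θ₁) θ₂ (p.N - s.1) →
      nv (mean ((p.proc K.c hM' hm').law s) - p.mh K.c s.1 s.2.1 s.2.2) ≤ C' ∧
        Term C' θ ((p.proc K.c hM' hm').law s))
    (hθ : pe / θ₁ / θ₂ + p.Nw * (M + 1) * (Real.exp (-(c * n)) + 2 * Real.exp (-(1 * n))) ≤ θ) :
    ∃ B, LibOut (C' + |E| / c₀) θ p.β (p.τ * l) p.J p.S0 (G (l * M)) (cen (l * M)) B := by
  obtain ⟨q', hq'⟩ := hq
  set Pr := p.proc K.c hM' hm' with hPr
  set k1 := l * (p.d + 1) * p.q with hk1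
  have hc0 := hK.ok.c_pos
  have hk1N : k1 ≤ p.N := by
    rw [p.N_eq]
    have : l * (p.d + 1) * p.q ≤ p.Nw * (p.d + 1) * p.q := by gcongr
    omega
  have hmE : ∀ _k : ℕ, MeasurableSet (p.exitS K.c) := fun _ => p.meas_exitS hc0
  have hm1 := Pr.meas_badSet (fun _ => p.exitS K.c) hmE θ₁
  have hm2 := Pr.meas_badSet (Pr.badSet (fun _ => p.exitS K.c) θ₁) hm1 θ₂
  set B2 := Pr.badSet (Pr.badSet (fun _ => p.exitS K.c) θ₁) θ₂ with hB2
  set B : Set (Vec n) := {y | y ∈ G (l * M) ∧ ∃ P : p.Ctr, p.AA k1 P = 0 ∧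
    ((k1, (P, y)) : p.St) ∉ B2 (p.N - k1) ∧ c₀ * nv (p.mh K.c k1 P y - cen (l * M) y) ≤ E} with hB
  have hBm : MeasurableSet B := by
    have e : B = G (l * M) ∩ ⋃ P : p.Ctr, ({_y | p.AA k1 P = 0} ∩
        ((fun y : Vec n => ((k1, (P, y)) : p.St)) ⁻¹' (B2 (p.N - k1)))ᶜ ∩
        {y | c₀ * nv (p.mh K.c k1 P y - cen (l * M) y) ≤ E}) := by
      ext y
      simp only [hB, Set.mem_ofPred_eq, Set.mem_inter_iff, Set.mem_iUnion, Set.mem_compl_iff,
        Set.mem_preimage, and_assoc]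
    rw [e]
    refine (hT.meas _).inter (MeasurableSet.iUnion fun P => ((MeasurableSet.const _).inter
      (MeasurableSet.compl ?_)).inter ?_)
    · exact (measurable_const.prodMk (measurable_const.prodMk measurable_id)) (hm2 _)
    · exact measurableSet_le (Measurable.const_mul (Win.continuous_nv.measurable.comp
        ((hm' k1 P).sub (hT.measc _))) _) measurable_const
  have hr1 : p.rr k1 = p.β - p.τ * l := rr_start p hl.le
  have hlaw : ∀ P y, p.AA k1 P = 0 → Pr.law (k1, (P, y)) = gM ((p.β - p.τ * l) • p.J) y := by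
    intro P y hA
    show gM (p.MM k1 P) y = _
    unfold SPar.MM
    rw [hA, sub_zero, gM_sub_smul_one, hr1]
  have hEc : 0 ≤ |E| / c₀ := by positivity
  refine ⟨B, hBm, fun y hy => hy.1, ?_, ?_, ?_⟩
  · set μ := gM (p.β • p.J) 0 with hμd
    have hμ : IsProb μ := gM_isProb _ _
    have hlaw0 : Pr.law (0, (0, 0)) = μ := by
      show gM (p.MM 0 0) 0 = _
      rw [p.MM_zero]
    have e0 : p.τ * l = p.β - p.rr k1 := by rw [hr1]; ring
    rw [e0, ← PE_yJ_PY p μ k1 hBm.compl]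
    have hG0 : (0 : Vec n) ∈ G 0 := by
      by_contra hcon
      have h1 := hT.prob 0 (Nat.zero_le _)
      rw [Nat.cast_zero, mul_zero, PY_zero hμ _ (show (0 : Vec n) ∈ (G 0)ᶜ from hcon)] at h1
      linarith
    set E1 : Cfg n → (ℕ → Vec n) → Prop := fun x ω =>
      ∃ j ≤ p.N, Pr.traj (0, (0, 0)) x ω j ∈ B2 (p.N - j) with hE1
    set E2 : ℕ × ℕ → Cfg n → (ℕ → Vec n) → Prop := fun t x ω =>
      p.yJ x ω (kap p q' t.1 t.2) ∈ (G (t.1 * M + t.2))ᶜ ∨ (t.2 < M ∧
        ¬ nv (p.yJ x ω (kap p q' t.1 (t.2 + 1)) - p.yJ x ω (kap p q' t.1 t.2))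
          ≤ 20 * √(p.τ / M) * √n) with hE2
    have b1 : PE μ E1 ≤ pe / θ₁ / θ₂ := by
      rw [← hlaw0, ← Pr.hitE_eq B2 hm2]
      refine (Pr.hitE_badSet_le thCH1 thCHG _ hm1 hθ₂ hθ₂' _ _).trans ?_
      refine div_le_div_of_nonneg_right ?_ hθ₂.le
      refine (Pr.hitE_badSet_le thCH1 thCHG _ hmE hθ₁ hθ₁' _ _).trans ?_
      exact div_le_div_of_nonneg_right hex hθ₁.le
    have b2 : ∀ t ∈ Finset.range l ×ˢ Finset.range (M + 1),
        PE μ (E2 t) ≤ Real.exp (-(c * n)) + 2 * Real.exp (-(1 * n)) := by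
      intro t ht
      rw [Finset.mem_product, Finset.mem_range, Finset.mem_range] at ht
      refine (PE_or_le hμ.1 _ _).trans (add_le_add ?_ ?_)
      · rw [PE_yJ_PY p μ _ (hT.meas _).compl, rr_kap p hM hq' (by omega) (by omega), sub_sub_cancel]
        refine hT.prob _ ?_
        have : (t.1 + 1) * M ≤ l * M := Nat.mul_le_mul_right _ ht.1
        rw [add_mul, one_mul] at this
        omega
      · by_cases h2 : t.2 < M
        · exact le_trans (PE_mono hμ.1 fun x ω h => h.2)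
            (PE_incr hK hμ hM hq' hτ0 (by omega) h2)
        · rw [PE_congr (E' := fun _ _ => False) fun x ω => iff_of_false (fun h => h2 h.1) id,
            PE_false]
          positivity
    have b3 := PE_exists_le_card hμ.1 _ E2 b2
    rw [Finset.card_product, Finset.card_range, Finset.card_range] at b3
    have b4 : ((l * (M + 1) : ℕ) : ℝ) ≤ p.Nw * (M + 1) := by
      have : (l : ℝ) ≤ p.Nw := by exact_mod_cast hl.le
      push_cast
      gcongr
    have b5 := mul_le_mul_of_nonneg_right b4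
      (by positivity : 0 ≤ Real.exp (-(c * n)) + 2 * Real.exp (-(1 * n)))
    refine le_trans (PE_mono hμ.1 fun x ω hω => ?_)
      ((PE_or_le hμ.1 E1 _).trans ((add_le_add b1 (b3.trans b5)).trans hθ))
    by_contra hcon
    rw [not_or] at hcon
    obtain ⟨n1, n2⟩ := hcon
    apply hω
    have hpath := SPar.isPath hM' hm' p.hd x ω
    have htr : ∀ k, ((k, ((SPar.tr hM' hm' x ω k).2.1, (SPar.tr hM' hm' x ω k).2.2)) : p.St)
        = Pr.traj (0, (0, 0)) x ω k := by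
      intro k
      have h1 := SPar.tr_lev hM' hm' x ω k
      exact Prod.ext h1.symm rfl
    have hnb : ∀ k ≤ k1, ((k, ((SPar.tr hM' hm' x ω k).2.1, (SPar.tr hM' hm' x ω k).2.2)) : p.St)
        ∉ B2 (p.N - k) := by
      intro k hk hmem
      rw [htr] at hmem
      exact n1 ⟨k, hk.trans hk1N, hmem⟩
    have hE2' : ∀ i < l, ∀ a ≤ M, ¬ E2 (i, a) x ω := by
      intro i hi a ha h
      exact n2 ⟨(i, a), by
        rw [Finset.mem_product, Finset.mem_range, Finset.mem_range]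
        exact ⟨hi, by simp only; omega⟩, h⟩
    obtain ⟨f1, f2, f3, f4⟩ := path_free hK hF hpath (fun _ => rfl) hc₀ hL hc₁ hLK hρ hτ hE hM hq'
      hl hT (fun k hk hmem => hnb k hk (Or.inl (Or.inl hmem))) hG0
      (fun i hi a ha => by
        by_contra h
        exact hE2' i hi a ha (Or.inl h))
      (fun i hi a ha => by
        by_contra h
        exact hE2' i hi a ha.le (Or.inr ⟨ha, h⟩))
    refine ⟨f1, (SPar.tr hM' hm' x ω k1).2.1, f2, ?_, ?_⟩
    · rw [← f3]; exact hnb k1 le_rfl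
    · have h5 := f4
      rw [f3] at h5
      exact h5
  · rintro y ⟨-, P, hA, hb, hd⟩
    have h1 := (hterm (k1, (P, y)) hk1N hb).1
    rw [hlaw P y hA] at h1
    have h2 := nv_sub_triangle (mean (gM ((p.β - p.τ * l) • p.J) y)) (p.mh K.c k1 P y)
      (cen (l * M) y)
    have h3 : nv (p.mh K.c k1 P y - cen (l * M) y) ≤ |E| / c₀ := by
      rw [le_div_iff₀ hc₀]
      linarith [le_abs_self E]
    exact h2.trans (add_le_add h1 h3)
  · rintro y ⟨-, P, hA, hb, -⟩
    have h1 := (hterm (k1, (P, y)) hk1N hb).2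
    rw [hlaw P y hA] at h1
    intro f A hA1 hf hfA
    obtain ⟨t1, t2⟩ := h1 f A hA1 hf hfA
    have h0 : 0 ≤ DirW (gM ((p.β - p.τ * l) • p.J) y) f (fun x => Real.log (f x)) := by
      have := Pr.ep_nonneg hf (k1, (P, y))
      unfold Proc.ep at this
      rwa [hlaw P y hA] at this
    have h4 := mul_nonneg hEc h0
    constructor <;> linarith

/-- the library side of the endgame (`LibStmt` for `0 < b` and `1 ≤ L`) -/
def LibStmt' : Prop := ∀ b : ℝ, 0 < b → b < 1 →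
  ∀ {I : Type} (F : Filter I) (n : I → ℕ) (J : ∀ i, Mat (n i)), Good b F n J →
    ∀ c₀ L R : ℝ, 0 < c₀ → 1 ≤ L → 0 < R → ∃ N₀ : ℕ, ∀ Nw : ℕ, N₀ ≤ Nw →
      ∀ (E c : ℝ) (A : ℕ), 0 < c → ∃ C > 0, ∃ c' > 0, ∀ᶠ i in F, ∀ l < Nw, ∀ M : ℕ, 0 < M →
        M ≤ n i ^ A →
        ∀ (S0 : Mat (n i)) (G : ℕ → Set (Vec (n i))) (cen : ℕ → Vec (n i) → Vec (n i)),
          S0 * S0ᵀ = J i + (4 : ℝ) • (1 : Mat (n i)) →
          TL c₀ L R E b (b / Nw / M) c (l * M) (J i) S0 G cen →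
          ∃ B, LibOut C (Real.exp (-(c' * n i))) b (b / Nw * l) (J i) S0 (G (l * M)) (cen (l * M)) B

theorem libStmt_of (h1 : SchemeStmt) (h2 : TermStmt) : LibStmt' := by
  intro b hb0 hb1 I F n J hg c₀ L R hc₀ hL hR
  obtain ⟨N₀, hN₀⟩ := h1 b hb0.le hb1 F n J hg c₀ L (R / 8) hc₀ (by linarith) (by positivity)
  obtain ⟨N₁, hN₁⟩ := exists_nat_ge (9 / c₀)
  refine ⟨max N₀ N₁, fun Nw hNw E c A hc => ?_⟩
  obtain ⟨K, T, cl, hKOK, hKb, hKN, hKc, hKL, hKρ, hT, hcl, hev⟩ := hN₀ Nw ((le_max_left _ _).trans hNw)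
  obtain ⟨C', hC', hterm⟩ := h2 (T ^ 2 + T + 1) T cl (by positivity) hcl
  set c' : ℝ := min (cl / 8) (min (c / 2) (1 / 2)) / 2 with hc'
  have hc'0 : 0 < c' := by positivity
  have hc'1 : 2 * c' ≤ cl / 8 := by rw [hc']; linarith [min_le_left (cl / 8) (min (c / 2) (1 / 2))]
  have hc'2 : 2 * c' ≤ c / 2 := by
    rw [hc']; linarith [min_le_right (cl / 8) (min (c / 2) (1 / 2)), min_le_left (c / 2) (1 / 2)]
  have hc'3 : 2 * c' ≤ 1 / 2 := by
    rw [hc']; linarith [min_le_right (cl / 8) (min (c / 2) (1 / 2)), min_le_right (c / 2) (1 / 2)]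
  refine ⟨C' + |E| / c₀, by positivity, c', hc'0, ?_⟩
  have hsq : ∀ᶠ m : ℕ in atTop, 8 * |E| / (c₀ * R) ≤ √(m : ℝ) :=
    (Real.tendsto_sqrt_atTop.comp tendsto_natCast_atTop_atTop).eventually_ge_atTop _
  filter_upwards [hev, hg.hn.eventually hterm, hg.hn.eventually hsq,
    hg.hn.eventually (ev_poly A (12 * Nw) hc'0), hg.hn.eventually (ev_poly 0 2 hc'0),
    hg.hn.eventually (eventually_ge_atTop 1)] with i e1 e2 e3 e4 e5 e6
  intro l hl M hM hMA S0 G cen hS0 hTL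
  obtain ⟨δ₀, hδ₀, e2⟩ := e2
  obtain ⟨p, hM', hm', hK, hpJ, hpS, hF, hq, hOK, ⟨Ed, hD, hEd⟩, hdl, hex⟩ := e1 S0 hS0 δ₀ hδ₀ M hM
  have hpb : p.β = b := by rw [hK.β_eq, hKb]
  have hpN : p.Nw = Nw := by rw [hK.Nw_eq, hKN]
  have hpτ : p.τ = b / Nw := by unfold SPar.τ; rw [hpb, hpN]
  have hNw0 : (0 : ℝ) < Nw := by
    have : 0 < Nw := by omega
    exact_mod_cast this
  have hn1 : (1 : ℝ) ≤ n i := by exact_mod_cast e6
  have hex1 : ∀ {u : ℝ}, 0 ≤ u → Real.exp (-(u * n i)) ≤ 1 := fun hu =>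
    Real.exp_le_one_iff.2 (neg_nonpos.2 (mul_nonneg hu (by linarith)))
  have hmono : ∀ {u u' : ℝ}, u ≤ u' → Real.exp (-(u' * n i)) ≤ Real.exp (-(u * n i)) := fun hu =>
    Real.exp_le_exp.2 (neg_le_neg (mul_le_mul_of_nonneg_right hu (by linarith)))
  have key := lib_fixed (E := E) (c := c) (c₀ := c₀) (L := L) (R := R) (C' := C') (G := G)
    (cen := cen) (l := l) (θ₁ := Real.exp (-(cl / 2 * n i))) (θ₂ := Real.exp (-(cl / 4 * n i)))
    (θ := Real.exp (-(c' * n i))) (pe := Real.exp (-(cl * n i))) hM' hm' hK hF hc₀ hL hKc hKL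
    (by rw [hK.ρ_eq]; exact hKρ)
    (by
      rw [hpτ]
      have h3 : (N₁ : ℝ) ≤ Nw := by exact_mod_cast (le_max_right _ _).trans hNw
      rw [div_le_iff₀ hc₀] at hN₁
      rw [← mul_div_assoc, div_le_iff₀ hNw0]
      nlinarith)
    (by rw [hpτ]; positivity)
    (by
      rw [div_le_iff₀ (by positivity)] at e3
      linarith [le_abs_self E])
    hM hq (by rw [hpN]; exact hl) (by rw [hpb, hpτ, hpJ, hpS]; exact hTL)
    (Real.exp_pos _) (hex1 (by positivity)) (Real.exp_pos _) (hex1 (by positivity)) hex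
    (Real.exp_lt_one_iff.2 (neg_neg_of_pos (mul_pos hc (by linarith))))
    (by
      intro s hs hb
      obtain ⟨t1, t2⟩ := e2 b (J i) (d6L (p.loc K.c hM' hm') hT.le hOK hD hEd hdl hex)
        (p.N - s.1) (Nat.sub_le _ _) s (by show s.1 + (p.N - s.1) = p.N; omega) hb
      refine ⟨t1, fun f A hA hf hfA => ?_⟩
      obtain ⟨t3, t4⟩ := t2 f A hA hf hfA
      have h5 := mul_le_mul_of_nonneg_left (hmono (u := c') (u' := cl / 8) (by linarith))
        (sq_nonneg A)
      exact ⟨t3.trans (add_le_add le_rfl h5), t4.trans (add_le_add le_rfl h5)⟩)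
    (by
      have g1 : Real.exp (-(cl * n i)) / Real.exp (-(cl / 2 * n i)) / Real.exp (-(cl / 4 * n i))
          = Real.exp (-(cl / 4 * n i)) := by
        rw [← Real.exp_sub, ← Real.exp_sub]; congr 1; ring
      have g2 : Real.exp (-(2 * c' * n i)) = Real.exp (-(c' * n i)) * Real.exp (-(c' * n i)) := by
        rw [← Real.exp_add]; congr 1; ring
      have g3 := hmono (u := 2 * c') (u' := cl / 4) (by linarith)
      have g4 := hmono (u := 2 * c') (u' := c) (by linarith)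
      have g5 := hmono (u := 2 * c') (u' := 1) (by linarith)
      have g6 : ((M : ℝ) + 1) ≤ 2 * (n i : ℝ) ^ A := by
        have h6 : (M : ℝ) ≤ (n i : ℝ) ^ A := by exact_mod_cast hMA
        have h7 : (1 : ℝ) ≤ (n i : ℝ) ^ A := one_le_pow₀ hn1
        linarith
      set X := Real.exp (-(c' * n i)) with hX
      have hX0 : 0 < X := Real.exp_pos _
      rw [g1, hpN]
      rw [g2] at g3 g4 g5
      rw [pow_zero, mul_one] at e5
      have g7 : (Nw : ℝ) * (M + 1) * (Real.exp (-(c * n i)) + 2 * Real.exp (-(1 * n i)))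
          ≤ Nw * (2 * (n i : ℝ) ^ A) * (3 * (X * X)) := by
        refine mul_le_mul (mul_le_mul_of_nonneg_left g6 hNw0.le) (by linarith) (by positivity)
          (by positivity)
      have g8 := mul_le_mul_of_nonneg_right e4 hX0.le
      have g9 := mul_le_mul_of_nonneg_right e5 hX0.le
      nlinarith)
  rw [hpb, hpτ, hpJ, hpS] at key
  exact key

end Vale.Agent.N150.End
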