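import Mathlib
import Vale.Agent.N150.EndLowF

/-! Lower bound for the partition function at every `b ∈ [0, 1]`. -/

open MeasureTheory ProbabilityTheory Matrix Real Filter Topology

namespace Vale.Agent.N150.Law

open Vale.Agent.P150 Vale.Agent.P150.F

variable {n : ℕ}

/-- the coefficients of the energy for `b • skM g` -/
noncomputable def cb (b : ℝ) (x : Cfg n) (p : Pairs n) : ℝ :=
  b / √n * (sp (x p.1.1) * sp (x p.1.2))

theorem cb_cov (hn : 0 < n) (b : ℝ) (x x' : Cfg n) :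
    ∑ p, cb b x p * cb b x' p = b ^ 2 * (ip (sv x) (sv x') ^ 2 / (2 * n)) - b ^ 2 / 2 := by
  have hn' : (0 : ℝ) < n := by exact_mod_cast hn
  have h1 := sum_pairs (n := n) fun i j => (sv x i * sv x' i) * (sv x j * sv x' j)
  have h2 : ∑ i, ∑ j, (sv x i * sv x' i) * (sv x j * sv x' j) = ip (sv x) (sv x') ^ 2 := by
    rw [pow_two]; unfold ip; rw [Finset.sum_mul_sum]
  have h3 : ∑ i, (sv x i * sv x' i) * (sv x i * sv x' i) = n := by
    have : ∀ i, (sv x i * sv x' i) * (sv x i * sv x' i) = 1 := fun i => by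
      have a1 : sv x i * sv x i = 1 := sp_sq (x i)
      have a2 : sv x' i * sv x' i = 1 := sp_sq (x' i)
      linear_combination (sv x' i * sv x' i) * a1 + a2
    simp [this]
  have h4 : ∑ p, cb b x p * cb b x' p = b ^ 2 / (2 * n) *
      ∑ p : Pairs n, ((sv x p.1.1 * sv x' p.1.1) * (sv x p.1.2 * sv x' p.1.2)
        + (sv x p.1.2 * sv x' p.1.2) * (sv x p.1.1 * sv x' p.1.1)) := by
    rw [Finset.mul_sum]
    refine Finset.sum_congr rfl fun p _ => ?_
    have e : b / √n * (b / √n) = b ^ 2 / n := by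
      rw [div_mul_div_comm, Real.mul_self_sqrt hn'.le, pow_two]
    show b / √n * (sv x p.1.1 * sv x p.1.2) * (b / √n * (sv x' p.1.1 * sv x' p.1.2)) = _
    rw [mul_mul_mul_comm, e]
    field_simp
    ring
  rw [h2, h3] at h1
  rw [h4, show ∑ p : Pairs n, ((sv x p.1.1 * sv x' p.1.1) * (sv x p.1.2 * sv x' p.1.2)
    + (sv x p.1.2 * sv x' p.1.2) * (sv x p.1.1 * sv x' p.1.1)) = ip (sv x) (sv x') ^ 2 - n by
      linarith]
  field_simp

theorem lowB_exp {ε : ℝ} (hε : 0 < ε) : ∃ c > 0, ∀ᶠ n : ℕ in atTop, ∀ b : ℝ, b ^ 2 ≤ 1 →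
    (disorder n).real {g | Real.log (∑ x : Cfg n, exp (b / 2 * qf (skM g) (sv x)))
      ≤ n * (Real.log 2 + b ^ 2 / 4 - ε)} ≤ exp (-(c * n)) := by
  refine ⟨ε ^ 2 / 36, by positivity, ?_⟩
  have hc : 0 < ε ^ 2 / 36 := by positivity
  have t1 := ((tendsto_exp_lin hc 1).const_mul 12).eventually
    (gt_mem_nhds (by norm_num : 12 * (0 : ℝ) < 1))
  filter_upwards [t1, eventually_gt_atTop 0, eventually_le_mul 3 hε] with n t1 hn h3 b hb
  have hn' : (0 : ℝ) < n := by exact_mod_cast hn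
  have hn1 : (1 : ℝ) ≤ n := by exact_mod_cast hn
  have hd : ∀ x : Cfg n, ∑ p, cb b x p ^ 2 = b ^ 2 * (n / 2) - b ^ 2 / 2 := by
    intro x
    simp_rw [pow_two (cb b x _)]
    rw [cb_cov hn, ipN_self, sq_spin]
    field_simp
  have e : (ε / 3 * n) ^ 2 / (4 * √n ^ 2) = ε ^ 2 / 36 * n := by
    rw [Real.sq_sqrt hn'.le]
    field_simp
    ring
  have key := low_gen (a := cb (n := n) b) (L := √n) (t := ε / 3 * n) (K := 2 * n + 1)
    (m := 2 ^ n * exp ((b ^ 2 * (n / 2) - b ^ 2 / 2) / 2)) (Real.sqrt_pos.2 hn') (by positivity)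
    (fun x => by rw [hd, Real.sq_sqrt hn'.le]; nlinarith [sq_nonneg b])
    (by simp only [hd]; rw [Finset.sum_const, Finset.card_univ, nsmul_eq_mul, card_cfg]) ?_ ?_
  · rw [e] at key
    refine le_trans (measureReal_mono fun g hg => ?_) key
    have hg' : Real.log (∑ x : Cfg n, exp (b / 2 * qf (skM g) (sv x)))
      ≤ n * (Real.log 2 + b ^ 2 / 4 - ε) := hg
    simp only [half_qf_eq] at hg'
    refine hg'.trans ?_
    rw [Real.log_div (by positivity) two_ne_zero, Real.log_mul (by positivity) (exp_pos _).ne',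
      Real.log_pow, Real.log_exp]
    have l2 := Real.log_two_lt_d9
    linarith
  · have h1 : ∀ p : Cfg n × Cfg n, exp ((∑ i, (cb b p.1 i + cb b p.2 i) ^ 2) / 2)
        ≤ exp ((b ^ 2 * (n / 2) - b ^ 2 / 2) / 2) ^ 2
          * exp (ip (sv p.1) (sv p.2) ^ 2 / (2 * n)) := by
      intro p
      simp_rw [add_sq, mul_assoc]
      rw [Finset.sum_add_distrib, Finset.sum_add_distrib, ← Finset.mul_sum, hd, hd,
        cb_cov hn, ← exp_nat_mul, ← exp_add]
      refine exp_le_exp.2 ?_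
      push_cast
      have h0 : 0 ≤ ip (sv p.1) (sv p.2) ^ 2 / (2 * n) := by positivity
      nlinarith [sq_nonneg b, mul_le_mul_of_nonneg_right hb h0]
    refine (Finset.sum_le_sum fun p _ => h1 p).trans ?_
    rw [← Finset.mul_sum, Fintype.sum_prod_type]
    refine (mul_le_mul_of_nonneg_left (Finset.sum_le_sum fun x _ => sum_exp_overlap hn x)
      (by positivity)).trans (le_of_eq ?_)
    rw [Finset.sum_const, Finset.card_univ, nsmul_eq_mul, card_cfg]
    ring
  · rw [e]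
    have h4 : 4 * (2 * (n : ℝ) + 1) ≤ 12 * n ^ 1 := by rw [pow_one]; linarith
    have := mul_le_mul_of_nonneg_right h4 (exp_pos (-(ε ^ 2 / 36 * n))).le
    linarith

/-- the free energy is at least the annealed one, for every `|b| ≤ 1` -/
theorem lowB {b : ℝ} (hb : b ^ 2 ≤ 1) {ε : ℝ} (hε : 0 < ε) : ∀ᶠ i in whpF,
    i.1 * (Real.log 2 + b ^ 2 / 4 - ε)
      ≤ Real.log (∑ x : Cfg i.1, exp (b / 2 * qf (skM i.2) (sv x))) := by
  obtain ⟨c, hc, h⟩ := lowB_exp hε
  refine eventually_whpF_of_real (fun n : ℕ => exp (-(c * n))) ?_ ?_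
  · simpa using tendsto_exp_lin hc 0
  · filter_upwards [h] with n h
    have : IsProbabilityMeasure (disorder n) := by unfold disorder; infer_instance
    exact le_trans (measureReal_mono fun g hg => (not_le.1 hg).le) (h b hb)

end Vale.Agent.N150.Law
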