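import Vale.Agent.N150.EndDefs

set_option linter.all false

/-! P150 at `β = 1`, endgame (E1): the scheme of the library with free directions. -/

open MeasureTheory ProbabilityTheory Filter Topology
open scoped Matrix

namespace Vale.Agent.N150.End

open Vale.Agent.P150 Vale.Agent.P150.F

variable {n : ℕ}

theorem HL_mono {L L' r : ℝ} (hL : L ≤ L') (J : Mat n) (m v : Vec n) :
    HL L r J m v ≤ HL L' r J m v := by
  unfold HL
  have : ∑ i, min (1 / (1 - m i ^ 2)) L * v i ^ 2 ≤ ∑ i, min (1 / (1 - m i ^ 2)) L' * v i ^ 2 :=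
    Finset.sum_le_sum fun i _ =>
      mul_le_mul_of_nonneg_right (min_le_min le_rfl hL) (sq_nonneg _)
  linarith only [this]

theorem uc_mono {β c₁ c₂ L L' ρ : ℝ} {d : ℕ} {J : Mat n} (h : UC β c₁ L ρ d J) (hc : c₂ ≤ c₁)
    (hL : L ≤ L') : UC β c₂ L' ρ d J := by
  intro r hr p hp
  obtain ⟨W, h1, h2, h3⟩ := h r hr p hp
  refine ⟨W, h1, h2, fun m hm hmp v hv => ?_⟩
  have h0 : 0 ≤ F.sq v := Finset.sum_nonneg fun _ _ => sq_nonneg _
  exact ((mul_le_mul_of_nonneg_right hc h0).trans (h3 m hm hmp v hv)).trans (HL_mono hL J m v)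

/-- no direction is needed at the centre `z` -/
def FreeAt (c₁ L r ρ : ℝ) (J : Mat n) (z : Vec n) : Prop :=
  ∀ m : Vec n, (∀ j, |m j| < 1) → F.sq (m - z) ≤ ρ ^ 2 * n → ∀ v, c₁ * F.sq v ≤ HL L r J m v

open Classical in
/-- the directions: none at free centres -/
noncomputable def frDirs {β c₁ L ρ : ℝ} {d : ℕ} {J : Mat n} (h : UC β c₁ L ρ d J) (τ : ℝ)
    (i : ℕ) (z : Vec n) (a : ℕ) : Vec n :=
  if FreeAt c₁ L (β - τ * i) ρ J z then 0 else ucDirs h τ i z a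

theorem frDirs_free {β c₁ L ρ : ℝ} {d : ℕ} {J : Mat n} (h : UC β c₁ L ρ d J) (τ : ℝ)
    (i : ℕ) (z : Vec n) (a : ℕ) (hf : FreeAt c₁ L (β - τ * i) ρ J z) : frDirs h τ i z a = 0 := by
  unfold frDirs
  rw [if_pos hf]

theorem frDirs_not {β c₁ L ρ : ℝ} {d : ℕ} {J : Mat n} (h : UC β c₁ L ρ d J) (τ : ℝ)
    (i : ℕ) (z : Vec n) (a : ℕ) (hf : ¬ FreeAt c₁ L (β - τ * i) ρ J z) :
    frDirs h τ i z a = ucDirs h τ i z a := by
  unfold frDirs
  rw [if_neg hf]

/-- **(E1)** -/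
theorem schemeStmt : SchemeStmt := by
  intro β hβ0 hβ1 I F n J hg c₀ L₀ R hc₀ hL₀ hR
  have hDr : DriftStatement := driftStatement_of driftCore stepBds kapBds contSt
  obtain ⟨c₂, hc₂, L₂, hL₂, ρ₀, hρ₀, huc⟩ := hg.uc
  set c₁ : ℝ := min c₂ c₀ with hc₁d
  have hc₁ : 0 < c₁ := lt_min hc₂ hc₀
  set L : ℝ := max L₂ L₀ with hLd
  have hL : 0 < L := lt_of_lt_of_le hL₂ (le_max_left _ _)
  set ε : ℝ := (1 - β) ^ 2 / 4 with hεd
  have hβp : 0 < 1 - β := by linarith only [hβ1]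
  have hε : 0 < ε := by positivity
  set ρ : ℝ := min (min ρ₀ R) (min 1 ((1 - β) / 4)) with hρd
  have hρ : 0 < ρ := lt_min (lt_min hρ₀ hR) (lt_min one_pos (by positivity))
  have hρ1 : ρ ≤ 1 := (min_le_right _ _).trans (min_le_left _ _)
  have hρβ : ρ ≤ (1 - β) / 4 := (min_le_right _ _).trans (min_le_right _ _)
  have hρR : ρ ≤ R := (min_le_left _ _).trans (min_le_right _ _)
  obtain ⟨d, hd⟩ := huc ρ hρ ((min_le_left _ _).trans (min_le_left _ _))
  obtain ⟨τ₀, hτ₀, hex⟩ := exitSt β hβ0 hβ1 F n J hg c₁ L ε ρ (d + 1) hc₁ hL hε hρ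
  set τ₁ : ℝ := min τ₀ (c₁ / 36) with hτ₁d
  have hτ₁ : 0 < τ₁ := lt_min hτ₀ (by positivity)
  obtain ⟨Nw', hNw'⟩ := exists_nat_ge (β / τ₁)
  refine ⟨Nw' + 1, fun Nw hNwN => ?_⟩
  have hNw : 0 < Nw := lt_of_lt_of_le (Nat.succ_pos _) hNwN
  have hNwR : (0 : ℝ) < Nw := by exact_mod_cast hNw
  have hτ : β / Nw ≤ τ₁ := by
    rw [div_le_iff₀ hNwR]
    rw [div_le_iff₀ hτ₁] at hNw'
    have : (Nw' : ℝ) ≤ Nw := by exact_mod_cast (Nat.le_succ _).trans hNwN
    have h2 := mul_le_mul_of_nonneg_right this hτ₁.le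
    linarith only [h2, hNw']
  obtain ⟨ℓ', hℓ'⟩ := exists_nat_ge (16 / ρ)
  set ℓ : ℕ := ℓ' + 1 with hℓd
  have hℓ : 0 < ℓ := Nat.succ_pos _
  have hℓρ : 16 ≤ ρ * ℓ := by
    rw [div_le_iff₀ hρ] at hℓ'
    have : (ℓ' : ℝ) ≤ ℓ := by rw [hℓd]; push_cast; linarith only []
    have h2 := mul_le_mul_of_nonneg_right this hρ.le
    linarith only [h2, hℓ']
  set Ks : ℝ := Win.Ks c₁ L with hKsd
  have hKs : 0 ≤ Ks := by rw [hKsd]; unfold Win.Ks; (clear * - hL hc₁; positivity)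
  set c : ℝ := min (min (c₁ / 4) ((1 - β) ^ 2 / 2)) 1 with hcd
  have hc : 0 < c := lt_min (lt_min (by positivity) (by positivity)) one_pos
  obtain ⟨C₀, hC₀⟩ := hg.kb 4 (c / 2) Ks (Nw * (d + 1)) le_rfl (by positivity)
  set K : Cst := { β := β, κ₀ := 4, c₁ := c₁, L := L, ε := ε, C₀ := C₀, ρ := ρ, Ks := Ks,
                   Kp := Nw * (d + 1 : ℕ) * Ks, Nw := Nw, d := d + 1, ℓ := ℓ } with hKd
  have hKc : K.c = c := rfl
  have hKOK : K.OK :=
    { hβ := hβ0, hβ1 := hβ1, hκ := rfl, hc₁ := hc₁, hL := hL, hε := hε, hρ := hρ, hρ1 := hρ1,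
      hερ := by
        show ε + 3 * ρ ^ 2 ≤ (1 - β) ^ 2 / 2
        have : ρ ^ 2 ≤ ((1 - β) / 4) ^ 2 := pow_le_pow_left₀ hρ.le hρβ 2
        linarith only [this, hε, hεd]
      hKs := rfl, hKp := rfl, hNw := hNw, hd := Nat.succ_pos d
      hτ := hτ.trans (min_le_right _ _)
      hℓ := hℓρ }
  obtain ⟨Pm, hPm, c', hc', hexi⟩ := hex K hKOK rfl rfl rfl rfl rfl rfl (hτ.trans (min_le_left _ _))
  obtain ⟨C1, hC1, hok⟩ := okStatement K hKOK
  obtain ⟨C2, hC2, hdr⟩ := hDr K hKOK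
  set C : ℝ := max C1 C2 + 1 with hCd
  have hC1' : C1 ≤ C := by rw [hCd]; linarith only [le_max_left C1 C2]
  have hC2' : C2 ≤ C := by rw [hCd]; linarith only [le_max_right C1 C2]
  have hCp : 0 < C := by rw [hCd]; linarith only [le_max_left C1 C2, hC1]
  refine ⟨K, C, c', hKOK, rfl, rfl, min_le_right _ _, le_max_right _ _, hρR, hCp, hc', ?_⟩
  filter_upwards [hg.op ε hε, hg.op 1 one_pos, hd, hC₀, hexi] with i h1 h2 h3' h4 h5 S0 hS0 δ₀ hδ₀
    M hM0
  have h3 : UC β c₁ L ρ d (J i) := uc_mono h3' (min_le_left _ _) (le_max_left _ _)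
  have hJ3 : OpLe (J i) 3 := by norm_num at h2; exact h2
  have hr : ∀ j : ℕ, j < Nw → β - β / Nw * j ∈ Set.Icc 0 β := by
    intro j hj
    have hjR : (j : ℝ) ≤ Nw := by exact_mod_cast hj.le
    have h6 : β / Nw * j ≤ β := by
      calc β / Nw * j ≤ β / Nw * Nw :=
            mul_le_mul_of_nonneg_left hjR (by (clear * - hβ0; positivity))
        _ = β := by field_simp
    have h7 : 0 ≤ β / Nw * j := by (clear * - hβ0; positivity)
    exact ⟨by linarith only [h6], by linarith only [h7]⟩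
  set p : SPar (n i) :=
    { β := β, κ₀ := 4, Nw := Nw, d := d + 1, Ks := Ks, Kp := Nw * (d + 1 : ℕ) * Ks, ρ := ρ,
      q := 1, ℓ := ℓ,
      J := J i, S0 := S0, dirs := frDirs h3 (β / Nw),
      hβ := hβ0, hβ1 := hβ1, hκ := by norm_num, hNw := hNw, hd := Nat.succ_pos d, hKs := hKs,
      hKp := le_rfl, hρ := hρ, hq := one_pos, hℓ := hℓ,
      hJ := by ext a b; exact hg.symm i b a
      hJ3 := hJ3, hS0 := hS0,
      hdirs := fun j z a => by
        by_cases hf : FreeAt c₁ L (β - β / Nw * j) ρ (J i) z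
        · exact Or.inl (frDirs_free h3 _ j z a hf)
        · rw [frDirs_not h3 _ j z a hf]
          exact ucDirs_norm h3 _ j z a } with hpd
  have hp : p.Adm K :=
    { ok := hKOK, β_eq := rfl, κ_eq := rfl, Nw_eq := rfl, d_eq := rfl, Ks_eq := rfl, Kp_eq := rfl,
      ρ_eq := rfl, ℓ_eq := rfl, op := h1, zd := hg.diag i, kb := h4
      dirs_orth := by
        intro j hj z hz
        show Win.Orth (fun a : Fin (d + 1) => frDirs h3 (β / Nw) j z a)
        by_cases hf : FreeAt c₁ L (β - β / Nw * j) ρ (J i) z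
        · have e : (fun a : Fin (d + 1) => frDirs h3 (β / Nw) j z a) = fun _ => 0 :=
            funext fun a => frDirs_free h3 _ j z a hf
          rw [e]
          exact ⟨fun _ => Or.inr rfl, fun a b _ => by unfold ip; simp⟩
        · have e : (fun a : Fin (d + 1) => frDirs h3 (β / Nw) j z a)
              = fun a : Fin (d + 1) => ucDirs h3 (β / Nw) j z a :=
            funext fun a => frDirs_not h3 _ j z a hf
          rw [e]
          exact ucDirs_orth h3 (β / Nw) j z (hr j hj) hz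
      dirs_hl := by
        intro j hj z hz m hm hmz v hv
        by_cases hf : FreeAt c₁ L (β - β / Nw * j) ρ (J i) z
        · exact hf m hm hmz v
        · have e := ucDirs_eq h3 (β / Nw) j z (hr j hj) hz
          refine (Win.UC.orth h3 (β - β / Nw * j) (hr j hj) z hz).choose_spec.2 m hm hmz v ?_
          intro a
          have h8 : ip (frDirs h3 (β / Nw) j z (Fin.castSucc a)) v = 0 := hv (Fin.castSucc a)
          rw [frDirs_not h3 _ j z _ hf] at h8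
          have h9 := congrFun e a
          rw [← h9]
          exact h8 }
  obtain ⟨E, hE0, hE⟩ := hdr p hp
  obtain ⟨q₀, hq₀⟩ := h5 p hp rfl
  obtain ⟨q₁, hq₁⟩ := exists_nat_ge (max (1 / δ₀) (E ^ 2))
  set q'' : ℕ := max q₀ (q₁ + 1) with hqd''
  have hq'' : 0 < q'' := lt_of_lt_of_le (Nat.succ_pos q₁) (le_max_right _ _)
  set q' : ℕ := M * q'' with hqd'
  have hq' : 0 < q' := Nat.mul_pos hM0 hq''
  have hqq : q'' ≤ q' := Nat.le_mul_of_pos_left _ hM0
  set q : ℕ := Pm * q' with hqd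
  have hq : 0 < q := Nat.mul_pos hPm hq'
  have hqR : (0 : ℝ) < q := by exact_mod_cast hq
  have hq1q : (q₁ : ℝ) ≤ q := by
    have h6 : q₁ ≤ q'' := (Nat.le_succ _).trans (le_max_right _ _)
    have h7 : q' ≤ q := by rw [hqd]; exact Nat.le_mul_of_pos_left _ hPm
    exact_mod_cast (h6.trans hqq).trans h7
  have hdl : (p.withQ q hq).dl = 1 / q := rfl
  have hM := mmStatement (p.withQ q hq)
  have hm := (p.withQ q hq).mhMeas hKOK.c_pos
  refine ⟨p.withQ q hq, hM, hm, hp.withQ q hq, rfl, rfl, ?_, ?_,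
    (hok (p.withQ q hq) (hp.withQ q hq) hM hm).mono hC1 hC1',
    ⟨E, (hE q hq hM hm).mono hC2 hC2', ?_⟩, ?_,
    hq₀ q' ((le_max_left _ _).trans hqq) hq hM hm⟩
  · intro j z hf a
    exact frDirs_free h3 _ j z a hf
  · show M ∣ Pm * (M * q'')
    exact Dvd.dvd.mul_left (Dvd.intro _ rfl) _
  · rw [hdl]
    have h6 : E ^ 2 ≤ q := ((le_max_right _ _).trans hq₁).trans hq1q
    have h7 : E ≤ √(q : ℝ) := Real.le_sqrt_of_sq_le h6
    rw [one_div, Real.sqrt_inv, ← div_eq_mul_inv]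
    exact div_le_one_of_le₀ h7 (Real.sqrt_nonneg _)
  · rw [hdl, div_le_iff₀ hqR]
    have h6 : 1 / δ₀ ≤ q := ((le_max_left _ _).trans hq₁).trans hq1q
    rw [div_le_iff₀ hδ₀] at h6
    linarith only [h6]

end Vale.Agent.N150.End
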