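import Vale.Agent.N150.EndDefs
import Vale.Agent.N150.A1Ch

set_option linter.all false

/-! P150 at `β = 1`, endgame (E5): homogeneous entropy and mean-shift inequalities at the non-bad
states of a localization scheme. -/

open MeasureTheory ProbabilityTheory Filter Topology
open scoped Matrix

namespace Vale.Agent.N150.End

open Vale.Agent.P150 Vale.Agent.P150.F

variable {n m : ℕ} {S : Type} [MeasurableSpace S]

/-- Jensen step for the tracking error -/
theorem err_jensen (P : Proc n m S) {f : Cfg n → ℝ} (hf : ∀ x, 0 < f x) {mh : S → Vec n}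
    (hm : ∀ i, Measurable fun s => mh s i) (hm1 : ∀ s i, |mh s i| ≤ 1) (s : S) :
    P.wt f s * F.sq (fun i => mean (P.nuf f s) i
      - EC (P.nuf f s) (P.R s) (P.δ s) (fun _ z => mh (P.nxt s z) i)) ≤ P.U (P.err f mh) s := by
  have h1 := thCH1
  have hG := thCHG
  have h6 := thCH6a
  have hA := P.wt_pos hf s
  set ν := P.nuf f s with hν
  have hbm : ∀ i, BM fun s' => mean (P.nuf f s') i - mh s' i :=
    fun i => (P.bm_mean hf i).sub ⟨hm i, 1, fun s => hm1 s i⟩
  set w : Vec n := fun i => (P.wt f s)⁻¹ *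
    P.U (fun s' => P.wt f s' * (mean (P.nuf f s') i - mh s' i)) s with hw
  have hwi : ∀ i, w i = EC ν (P.R s) (P.δ s)
      (fun _ z => mean (P.nuf f (P.nxt s z)) i - mh (P.nxt s z) i) := by
    intro i
    have := P.wt_mul_EC h1 hG hf (hbm i) s
    rw [hw]
    simp only
    rw [← this]
    field_simp
    rfl
  have hEC : ∀ i, w i = mean ν i - EC ν (P.R s) (P.δ s) (fun _ z => mh (P.nxt s z) i) := by
    intro i
    rw [hwi i]
    have h6' := (h6 n m (P.R s) (P.δ s) (P.hδ s).le ν (P.nuf_isProb hf s)).2.1 i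
    rw [← h6']
    unfold EC
    rw [← Finset.sum_sub_distrib]
    refine Finset.sum_congr rfl fun x _ => ?_
    rw [← mul_sub, ← integral_sub]
    · congr 1
      refine integral_congr_ae (Eventually.of_forall fun ξ => ?_)
      beta_reduce
      rw [hν, P.pst_nuf hG hf]
    · have h := P.integ (P.bm_mean hf i) s x
      refine h.congr (Eventually.of_forall fun ξ => ?_)
      beta_reduce
      rw [hν, P.pst_nuf hG hf]
      rfl
    · exact P.integ (Φ := fun s' => mh s' i) ⟨hm i, 1, fun s => hm1 s i⟩ s x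
  have hJ : P.wt f s * F.sq w ≤ P.U (P.err f mh) s := by
    have e1 : P.U (P.err f mh) s = ∑ i, P.U (fun s' => P.wt f s' *
        (mean (P.nuf f s') i - mh s' i) ^ 2) s := by
      have e2 : P.err f mh = fun s' => ∑ i, P.wt f s' * (mean (P.nuf f s') i - mh s' i) ^ 2 := by
        funext s'
        unfold Proc.err F.sq
        rw [Finset.mul_sum]
      rw [e2]
      have key : ∀ t : Finset (Fin n), P.U (fun s' => ∑ i ∈ t, P.wt f s' *
          (mean (P.nuf f s') i - mh s' i) ^ 2) s = ∑ i ∈ t, P.U (fun s' => P.wt f s' *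
          (mean (P.nuf f s') i - mh s' i) ^ 2) s := by
        intro t
        induction t using Finset.induction_on with
        | empty => simp [Proc.U_const]
        | insert a t ha ih =>
          simp only [Finset.sum_insert ha]
          rw [P.U_add ((P.bm_wt f).mul (hbm a).pow_two)
            (BM.sum _ fun i _ => (P.bm_wt f).mul (hbm i).pow_two), ih]
      exact key Finset.univ
    rw [e1]
    unfold F.sq
    rw [Finset.mul_sum]
    refine Finset.sum_le_sum fun i _ => ?_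
    have h0 : 0 ≤ P.U (fun s' => P.wt f s' * ((mean (P.nuf f s') i - mh s' i) - w i) ^ 2) s := by
      have h := P.U_mono (Φ := fun _ => 0) (Ψ := fun s' => P.wt f s' *
        ((mean (P.nuf f s') i - mh s' i) - w i) ^ 2) (BM.const 0)
        ((P.bm_wt f).mul ((hbm i).sub (BM.const _)).pow_two) (s := s)
        (fun z => mul_nonneg (P.wt_pos hf _).le (sq_nonneg _))
      rwa [Proc.U_const] at h
    have e3 : (fun s' => P.wt f s' * ((mean (P.nuf f s') i - mh s' i) - w i) ^ 2) =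
        fun s' => (P.wt f s' * (mean (P.nuf f s') i - mh s' i) ^ 2 +
          (-(2 * w i)) * (P.wt f s' * (mean (P.nuf f s') i - mh s' i))) +
          w i ^ 2 * P.wt f s' := by
      funext s'
      ring
    have b1 : BM fun s' => P.wt f s' * (mean (P.nuf f s') i - mh s' i) ^ 2 :=
      (P.bm_wt f).mul (hbm i).pow_two
    have b2 : BM fun s' => (-(2 * w i)) * (P.wt f s' * (mean (P.nuf f s') i - mh s' i)) :=
      BM.const_mul _ ((P.bm_wt f).mul (hbm i))
    rw [e3, P.U_add (b1.add b2) ((P.bm_wt f).const_mul _), P.U_add b1 b2, P.U_const_mul,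
      P.U_const_mul] at h0
    have e4 : P.U (fun s' => P.wt f s' * (mean (P.nuf f s') i - mh s' i)) s = P.wt f s * w i := by
      rw [hw]
      field_simp
    have e5 : P.U (fun s' => P.wt f s') s = P.wt f s := P.U_wt h1 hG f s
    rw [e4, e5] at h0
    linarith only [h0]
  have e : (fun i => mean ν i - EC ν (P.R s) (P.δ s) (fun _ z => mh (P.nxt s z) i)) = w :=
    funext fun i => (hEC i).symm
  rw [e]
  exact hJ

theorem sq_step {a b t η : ℝ} (ha : 0 ≤ a) (ht0 : 0 ≤ t) (ht1 : t ≤ 1 / 4)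
    (h : a ≤ b + t * (a + η)) : a ^ 2 ≤ (1 + 6 * t) * b ^ 2 + 3 * t * η ^ 2 := by
  have h3 : (1 - t) * a ≤ b + t * η := by linarith only [h]
  have h4 : ((1 - t) * a) ^ 2 ≤ (b + t * η) ^ 2 :=
    pow_le_pow_left₀ (mul_nonneg (by linarith only [ht1]) ha) h3 2
  have h5 : (b + t * η) ^ 2 ≤ (1 + t) * (b ^ 2 + t * η ^ 2) := by
    linarith only [mul_nonneg ht0 (sq_nonneg (b - η))]
  have h6 : 1 ≤ (1 + 4 * t) * (1 - t) ^ 2 := by
    have e : (1 + 4 * t) * (1 - t) ^ 2 - 1 = t * (2 - 7 * t) + 4 * t ^ 3 := by ring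
    have h7 := mul_nonneg ht0 (by linarith only [ht1] : 0 ≤ 2 - 7 * t)
    have h8 := pow_nonneg ht0 3
    linarith only [e, h7, h8]
  have h7 : a ^ 2 ≤ (1 + 4 * t) * ((1 - t) * a) ^ 2 := by
    have := mul_le_mul_of_nonneg_right h6 (sq_nonneg a)
    linarith only [this]
  have h8 : (1 + 4 * t) * ((1 - t) * a) ^ 2 ≤ (1 + 4 * t) * ((1 + t) * (b ^ 2 + t * η ^ 2)) :=
    mul_le_mul_of_nonneg_left (h4.trans h5) (by linarith only [ht0])
  have h10 : (1 + 4 * t) * (1 + t) ≤ 1 + 6 * t := by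
    have := mul_nonneg ht0 (by linarith only [ht1] : 0 ≤ 1 - 4 * t)
    linarith only [this]
  have h11 : (1 + 6 * t) * (t * η ^ 2) ≤ 3 * (t * η ^ 2) :=
    mul_le_mul_of_nonneg_right (by linarith only [ht1]) (mul_nonneg ht0 (sq_nonneg η))
  have h12 := mul_le_mul_of_nonneg_right h10
    (add_nonneg (sq_nonneg b) (mul_nonneg ht0 (sq_nonneg η)))
  linarith only [h7, h8, h11, h12]

/-- one step of the tracking error, with a small additive defect -/
theorem err_step2 (P : Proc n m S) {f : Cfg n → ℝ} (hf : ∀ x, 0 < f x) {mh : S → Vec n}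
    (hm : ∀ i, Measurable fun s => mh s i) (hm1 : ∀ s i, |mh s i| ≤ 1) {s : S} {t η : ℝ}
    (ht0 : 0 ≤ t) (ht1 : t ≤ 1 / 4)
    (hd : nv (fun i => EC (P.nuf f s) (P.R s) (P.δ s) (fun _ z => mh (P.nxt s z) i) - mh s i)
      ≤ t * (nv (fun i => mean (P.nuf f s) i - mh s i) + η)) :
    P.err f mh s ≤ (1 + 6 * t) * P.U (P.err f mh) s + 3 * t * (η ^ 2 * P.wt f s) := by
  have hA := P.wt_pos hf s
  have hJ := err_jensen P hf hm hm1 s
  set w : Vec n := fun i => mean (P.nuf f s) i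
      - EC (P.nuf f s) (P.R s) (P.δ s) (fun _ z => mh (P.nxt s z) i) with hw
  set a := nv (fun i => mean (P.nuf f s) i - mh s i) with ha
  have hab : a ≤ nv w + t * (a + η) := by
    have e : (fun i => mean (P.nuf f s) i - mh s i) = w +
        fun i => EC (P.nuf f s) (P.R s) (P.δ s) (fun _ z => mh (P.nxt s z) i) - mh s i := by
      funext i
      rw [Pi.add_apply, hw]
      ring
    have h2 := nv_add_le w
      (fun i => EC (P.nuf f s) (P.R s) (P.δ s) (fun _ z => mh (P.nxt s z) i) - mh s i)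
    rw [← e] at h2
    exact h2.trans (by linarith only [hd])
  have hsq := sq_step (nv_nonneg _) ht0 ht1 hab
  rw [nv_sq w] at hsq
  have hfin : P.err f mh s = P.wt f s * a ^ 2 := by
    unfold Proc.err
    rw [ha, nv_sq]
  rw [hfin]
  have h10 := mul_le_mul_of_nonneg_left hsq hA.le
  have h11 := mul_le_mul_of_nonneg_left hJ (by linarith only [ht0] : 0 ≤ 1 + 6 * t)
  linarith only [h11, h10]

theorem opLe_covM {μ : Cfg n → ℝ} (hμ : IsProb μ) {Λ : ℝ} (hΛ : 0 < Λ)
    (h : ∀ v, qf (covM μ) v ≤ Λ * F.sq v) : OpLe (covM μ) Λ := by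
  refine opLe_of_qf (fun i j => ?_) hΛ fun v => ?_
  · unfold covM
    exact Finset.sum_congr rfl fun x _ => by ring
  · rw [abs_of_nonneg]
    · exact h v
    · rw [qf_covM]
      exact Finset.sum_nonneg fun x _ => mul_nonneg (hμ.1 x) (sq_nonneg _)

/-- the true mean -/
noncomputable def tm (P : Proc n m S) (s : S) : Vec n := mean (P.law s)

theorem meas_tm (P : Proc n m S) (i : Fin n) : Measurable fun s => tm P s i := by
  unfold tm mean
  exact Finset.measurable_fun_sum _ fun x _ => (P.meas_law x).mul_const _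

theorem tm_le (P : Proc n m S) (s : S) (i : Fin n) : |tm P s i| ≤ 1 :=
  Proc.abs_mean_le _ (P.law_isProb s) i

/-- drift of the true mean under a second law -/
theorem tm_drift (P : Proc n m S) {s : S} {C Λ K η : ℝ} (hC : 0 ≤ C) (hΛ : 0 ≤ Λ) (hK0 : 0 ≤ K)
    (hη : 0 ≤ η) (hQ : OpLe (P.Q s) C) (hcov : OpLe (covM (P.law s)) Λ) {ν : Cfg n → ℝ}
    (hK : ∀ i, |EC ν (P.R s) (P.δ s) (fun _ z => mean (pst (P.law s) (P.R s * (P.R s)ᵀ) (P.δ s) z) i)
      - mean (P.law s) i - P.δ s * (covM (P.law s) * (P.R s * (P.R s)ᵀ)).mulVec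
        (fun j => mean ν j - mean (P.law s) j) i| ≤ K * (P.δ s * √(P.δ s)))
    (hKη : K * √(P.δ s) * √n ≤ η) :
    nv (fun i => EC ν (P.R s) (P.δ s) (fun _ z => tm P (P.nxt s z) i) - tm P s i)
      ≤ (Λ * C + 1) * P.δ s * (nv (fun i => mean ν i - tm P s i) + η) := by
  have hδ := P.hδ s
  set u : Vec n := fun j => mean ν j - mean (P.law s) j with hu
  set Y : Vec n := (covM (P.law s) * (P.R s * (P.R s)ᵀ)).mulVec u with hY
  set X : Vec n := fun i => EC ν (P.R s) (P.δ s) (fun _ z => tm P (P.nxt s z) i) - tm P s i with hX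
  have e : X = (X - P.δ s • Y) + P.δ s • Y := by abel
  have h1 : nv (X - P.δ s • Y) ≤ K * (P.δ s * √(P.δ s)) * √n := by
    refine nv_le_sqrt (by positivity) fun i => ?_
    have h2 := hK i
    have e2 : (fun (_ : Cfg n) (z : Vec n) =>
        mean (pst (P.law s) (P.R s * (P.R s)ᵀ) (P.δ s) z) i)
        = fun _ z => tm P (P.nxt s z) i := by
      funext _ z
      unfold tm
      rw [P.law_nxt thCHG]
    rw [e2] at h2
    exact h2
  have h2 : nv Y ≤ Λ * C * nv u := (hcov.mulN hQ hΛ hC).nv_le (mul_nonneg hΛ hC) u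
  have hu0 := nv_nonneg u
  have h3 : K * (P.δ s * √(P.δ s)) * √n ≤ P.δ s * η := by
    have := mul_le_mul_of_nonneg_left hKη hδ.le
    linarith only [this]
  have h4 : nv X ≤ P.δ s * η + P.δ s * (Λ * C * nv u) := by
    calc nv X ≤ nv (X - P.δ s • Y) + nv (P.δ s • Y) := by
          conv_lhs => rw [e]
          exact nv_add_le _ _
      _ ≤ _ := by
          rw [nv_smul, abs_of_pos hδ]
          exact add_le_add (h1.trans h3) (mul_le_mul_of_nonneg_left h2 hδ.le)
  refine h4.trans ?_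
  show _ ≤ (Λ * C + 1) * P.δ s * (nv u + η)
  have h5 := mul_nonneg hδ.le hu0
  have h6 := mul_nonneg (mul_nonneg hΛ hC) (mul_nonneg hδ.le hη)
  linarith only [h5, h6]

section rec

variable {β C T c δ₀ : ℝ} {J : Mat n} (D : D6Out β C T c J δ₀) {f : Cfg n → ℝ}

/-- the right-hand side of the homogeneous recursions -/
noncomputable def Ps (f : Cfg n → ℝ) (B : ℕ → Set D.S) (η : ℝ) (k : ℕ) (s : D.S) : ℝ :=
  D.P.ep f s + η ^ 2 * D.P.wt f s + 4 * n * D.P.wh f B k s

theorem Ps_parts (hf : ∀ x, 0 < f x) (B : ℕ → Set D.S) (η : ℝ) (k : ℕ) (s : D.S) :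
    0 ≤ D.P.ep f s ∧ 0 ≤ η ^ 2 * D.P.wt f s ∧ 0 ≤ 4 * n * D.P.wh f B k s :=
  ⟨D.P.ep_nonneg hf s, mul_nonneg (sq_nonneg η) (D.P.wt_pos hf s).le,
    mul_nonneg (by positivity) (D.P.wh_nonneg hf B k s)⟩

theorem Ps_nonneg (hf : ∀ x, 0 < f x) (B : ℕ → Set D.S) (η : ℝ) (k : ℕ) (s : D.S) :
    0 ≤ Ps D f B η k s := by
  obtain ⟨h1, h2, h3⟩ := Ps_parts D hf B η k s
  unfold Ps
  linarith only [h1, h2, h3]

theorem bm_Ps {B : ℕ → Set D.S} (hB : ∀ k, MeasurableSet (B k)) (η : ℝ) (k : ℕ) :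
    BM (Ps D f B η k) := by
  unfold Ps
  exact ((D.P.bm_ep f).add (BM.const_mul _ (D.P.bm_wt f))).add (BM.const_mul _ (D.P.bm_wh hB k))

theorem U_Ps_le (hf : ∀ x, 0 < f x) {B : ℕ → Set D.S} (hB : ∀ k, MeasurableSet (B k)) (η : ℝ)
    {k : ℕ} {s : D.S} (h : s ∉ B (k + 1)) : D.P.U (Ps D f B η k) s ≤ Ps D f B η (k + 1) s := by
  unfold Ps
  rw [D.P.U_add ((D.P.bm_ep f).add (BM.const_mul _ (D.P.bm_wt f)))
    (BM.const_mul _ (D.P.bm_wh hB k)), D.P.U_add (D.P.bm_ep f)
    (BM.const_mul _ (D.P.bm_wt f)), D.P.U_const_mul, D.P.U_const_mul]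
  have e : D.P.U (fun s => D.P.wt f s) s = D.P.wt f s := D.P.U_wt thCH1 thCHG f s
  have e2 : D.P.U (D.P.ep f) s ≤ D.P.ep f s := D.P.U_ep_le thCH5 thCHG hf s
  have e3 : D.P.U (fun s => D.P.wh f B k s) s = D.P.wh f B (k + 1) s := D.P.U_wh thCH1 thCHG hB h
  rw [e, e3]
  linarith only [e2]

/-- homogeneous `L²` recursion for the true mean -/
theorem errT_rec {C₁ η : ℝ} (hC₁ : 0 ≤ C₁) (hCδ : C₁ * δ₀ ≤ 1 / 4) (hf : ∀ x, 0 < f x)
    {B : ℕ → Set D.S} (hB : ∀ k, MeasurableSet (B k))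
    (hdr : ∀ k s, k + 1 ≤ D.N → D.Inv (k + 1) s → s ∉ B (k + 1) →
      nv (fun i => EC (D.P.nuf f s) (D.P.R s) (D.P.δ s) (fun _ z => tm D.P (D.P.nxt s z) i)
        - tm D.P s i) ≤ C₁ * D.P.δ s * (nv (fun i => mean (D.P.nuf f s) i - tm D.P s i) + η)) :
    ∀ k s, k ≤ D.N → D.Inv k s →
      D.P.err f (tm D.P) s ≤ Real.exp (9 * C₁ * D.clk k) * Ps D f B η k s := by
  have hexp1 : ∀ k, 1 ≤ Real.exp (9 * C₁ * D.clk k) := fun k =>
    Real.one_le_exp (mul_nonneg (by positivity) (D.clk_nonneg k))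
  intro k
  induction k with
  | zero =>
    intro s _ hs
    obtain ⟨hd1, _⟩ := d8end0 n (D.P.M s) (D.P.y s) (D.fin_M s hs)
    have hlaw : D.P.law s = gM 0 (D.P.y s) := hd1
    have h2 := d8end2 n (D.P.y s) f hf
    rw [← hlaw] at h2
    have h3 : D.P.err f (tm D.P) s ≤ D.P.ep f s := h2
    obtain ⟨p1, p2, p3⟩ := Ps_parts D hf B η 0 s
    have h4 : D.P.ep f s ≤ Ps D f B η 0 s := by
      unfold Ps
      linarith only [p2, p3]
    have h5 := mul_le_mul_of_nonneg_right (hexp1 0) (Ps_nonneg D hf B η 0 s)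
    linarith only [h3, h4, h5]
  | succ k ih =>
    intro s hk hs
    have hPsi := Ps_nonneg D hf B η (k + 1) s
    obtain ⟨p1, p2, p3⟩ := Ps_parts D hf B η (k + 1) s
    by_cases hsB : s ∈ B (k + 1)
    · have h2 := D.P.err_le hf (tm_le D.P) s
      have h3 : 4 * n * D.P.wt f s ≤ Ps D f B η (k + 1) s := by
        unfold Ps
        rw [D.P.wh_of_mem f B hsB]
        linarith only [p1, p2]
      have h5 := mul_le_mul_of_nonneg_right (hexp1 (k + 1)) hPsi
      linarith only [h2, h3, h5]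
    have hδ := D.δ_eq k s hs
    have hδ0 : 0 < D.P.δ s := D.P.hδ s
    have hδ1 : D.P.δ s ≤ δ₀ := hδ ▸ D.dur_le k
    set t := C₁ * D.P.δ s with ht
    have ht0 : 0 ≤ t := mul_nonneg hC₁ hδ0.le
    have ht1 : t ≤ 1 / 4 := (mul_le_mul_of_nonneg_left hδ1 hC₁).trans hCδ
    have hstep := err_step2 D.P hf (meas_tm D.P) (tm_le D.P) ht0 ht1 (hdr k s hk hs hsB)
    have hU : D.P.U (D.P.err f (tm D.P)) s
        ≤ Real.exp (9 * C₁ * D.clk k) * Ps D f B η (k + 1) s := by
      have h2 : D.P.U (D.P.err f (tm D.P)) s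
          ≤ D.P.U (fun s' => Real.exp (9 * C₁ * D.clk k) * Ps D f B η k s') s :=
        D.P.U_mono (D.P.bm_err hf (meas_tm D.P) (tm_le D.P)) (BM.const_mul _ (bm_Ps D hB η k))
          fun z => ih _ (by omega) (D.invS k s z hs)
      rw [D.P.U_const_mul] at h2
      exact h2.trans (mul_le_mul_of_nonneg_left (U_Ps_le D hf hB η hsB) (Real.exp_pos _).le)
    have hwt : η ^ 2 * D.P.wt f s ≤ Ps D f B η (k + 1) s := by
      unfold Ps
      linarith only [p1, p3]
    have hexp : Real.exp (9 * C₁ * D.clk (k + 1))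
        = Real.exp (9 * t) * Real.exp (9 * C₁ * D.clk k) := by
      rw [← Real.exp_add, D.clk_succ, ← hδ]
      congr 1
      rw [ht]
      ring
    have h9 : 1 + 9 * t ≤ Real.exp (9 * t) := by linarith only [Real.add_one_le_exp (9 * t)]
    set X := Real.exp (9 * C₁ * D.clk k) * Ps D f B η (k + 1) s with hX
    have hX0 : 0 ≤ X := mul_nonneg (Real.exp_pos _).le hPsi
    have hwX : η ^ 2 * D.P.wt f s ≤ X := by
      have := mul_le_mul_of_nonneg_right (hexp1 k) hPsi
      linarith only [this, hwt]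
    have h10 : D.P.err f (tm D.P) s ≤ (1 + 9 * t) * X := by
      have h11 := mul_le_mul_of_nonneg_left hU (by linarith only [ht0] : 0 ≤ 1 + 6 * t)
      have h12 := mul_le_mul_of_nonneg_left hwX (by linarith only [ht0] : 0 ≤ 3 * t)
      linarith only [h12, h11, hstep]
    rw [hexp]
    have h13 := mul_le_mul_of_nonneg_right h9 hX0
    calc _ ≤ (1 + 9 * t) * X := h10
      _ ≤ Real.exp (9 * t) * X := h13
      _ = _ := by rw [hX]; ring

/-- homogeneous entropy recursion -/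
theorem entT_rec {G η K : ℝ} (hC : 0 ≤ C) (hG0 : 0 ≤ G) (hf : ∀ x, 0 < f x)
    {B : ℕ → Set D.S} (hB : ∀ k, MeasurableSet (B k))
    (herr : ∀ k s, k ≤ D.N → D.Inv k s → D.P.err f (tm D.P) s ≤ G * Ps D f B η k s)
    (hK0 : 0 ≤ K) (hKδ : K * √δ₀ ≤ η ^ 2)
    (hK : ∀ (R : Matrix (Fin n) (Fin n) ℝ), (∀ i j, |R i j| ≤ C) →
      ∀ δ, 0 ≤ δ → δ ≤ 1 → ∀ ν μ : Cfg n → ℝ, IsProb ν → IsProb μ →
      EC ν R δ (fun _ z => Real.log (evd ν (R * Rᵀ) δ z) - Real.log (evd μ (R * Rᵀ) δ z))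
        ≤ δ / 2 * qf (R * Rᵀ) (fun i => mean ν i - mean μ i) + K * (δ * √δ))
    {Lf : ℝ} (hL0 : 0 ≤ Lf) (hL : ∀ x, Real.log (f x) ≤ Lf) :
    ∀ k s, k ≤ D.N → D.Inv k s → D.P.ent f s ≤ D.P.ep f s
      + (C * G + 1) * D.clk k * Ps D f B η k s + Lf * D.P.wh f B k s + D.P.hitE B k s := by
  set A := C * G + 1 with hA
  have hA0 : 0 ≤ A := by positivity
  intro k
  induction k with
  | zero =>
    intro s _ hs
    obtain ⟨hd1, _⟩ := d8end0 n (D.P.M s) (D.P.y s) (D.fin_M s hs)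
    have hlaw : D.P.law s = gM 0 (D.P.y s) := hd1
    have h2 := d8end1 n (D.P.y s) f hf
    rw [← hlaw] at h2
    have h3 : D.P.ent f s ≤ D.P.ep f s := h2
    have h4 := mul_nonneg (mul_nonneg hA0 (D.clk_nonneg 0)) (Ps_nonneg D hf B η 0 s)
    have h5 := mul_nonneg hL0 (D.P.wh_nonneg hf B 0 s)
    have h6 := D.P.hitE_nonneg B 0 s
    linarith only [h3, h4, h5, h6]
  | succ k ih =>
    intro s hkN hs
    have hPsi := Ps_nonneg D hf B η (k + 1) s
    obtain ⟨p1, p2, p3⟩ := Ps_parts D hf B η (k + 1) s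
    by_cases hsB : s ∈ B (k + 1)
    · rw [D.P.wh_of_mem f B hsB, D.P.hitE_of_mem B hsB]
      have h2 := D.P.ent_le hf hL s
      have h3 := mul_nonneg (mul_nonneg hA0 (D.clk_nonneg (k + 1))) hPsi
      linarith only [h3, h2, p1]
    have hδ := D.δ_eq k s hs
    have hδ0 : 0 < D.P.δ s := D.P.hδ s
    have hδ1 : D.P.δ s ≤ δ₀ := hδ ▸ D.dur_le k
    have hwt := D.P.wt_pos hf s
    set E := D.P.δ s / 2 * qf (D.P.R s * (D.P.R s)ᵀ)
      (fun i => mean (D.P.nuf f s) i - mean (D.P.law s) i) + K * (D.P.δ s * √(D.P.δ s)) with hEdef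
    have hstep := D.P.ent_step thCH1 thCHG thCH4' hf
      (hK (D.P.R s) (D.R_le k s hs) (D.P.δ s) hδ0.le (D.P.hδ1 s) (D.P.nuf f s) (D.P.law s)
        (D.P.nuf_isProb hf s) (D.P.law_isProb s))
    rw [← hEdef] at hstep
    have herr2 := herr (k + 1) s hkN hs
    have hE1 : D.P.wt f s * E ≤ D.P.δ s * A * Ps D f B η (k + 1) s := by
      have h2 := qf_le_of_opLe hC (D.Q_le k s hs)
        (fun i => mean (D.P.nuf f s) i - mean (D.P.law s) i)
      have h5 : √(D.P.δ s) ≤ √δ₀ := Real.sqrt_le_sqrt hδ1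
      have h6 : K * (D.P.δ s * √(D.P.δ s)) ≤ D.P.δ s * η ^ 2 := by
        have h7 : K * √(D.P.δ s) ≤ η ^ 2 := (mul_le_mul_of_nonneg_left h5 hK0).trans hKδ
        have h8 := mul_le_mul_of_nonneg_left h7 hδ0.le
        linarith only [h8]
      have hs0 : 0 ≤ F.sq (fun i => mean (D.P.nuf f s) i - mean (D.P.law s) i) :=
        Finset.sum_nonneg fun _ _ => sq_nonneg _
      have h7 : E ≤ D.P.δ s * (C * F.sq (fun i => mean (D.P.nuf f s) i - mean (D.P.law s) i)
          + η ^ 2) := by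
        have h8 : qf (D.P.R s * (D.P.R s)ᵀ) (fun i => mean (D.P.nuf f s) i - mean (D.P.law s) i)
            ≤ C * F.sq (fun i => mean (D.P.nuf f s) i - mean (D.P.law s) i) := h2
        have h9 := mul_le_mul_of_nonneg_left h8 (by linarith only [hδ0] : 0 ≤ D.P.δ s / 2)
        have h10 := mul_nonneg hδ0.le (mul_nonneg hC hs0)
        rw [hEdef]
        linarith only [h9, h6, h10]
      have h8 := mul_le_mul_of_nonneg_left h7 hwt.le
      have h9 : D.P.wt f s * (D.P.δ s * (C * F.sq (fun i => mean (D.P.nuf f s) i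
          - mean (D.P.law s) i) + η ^ 2)) = D.P.δ s * (C * D.P.err f (tm D.P) s
          + η ^ 2 * D.P.wt f s) := by
        unfold Proc.err tm
        ring
      rw [h9] at h8
      refine h8.trans ?_
      rw [mul_assoc (D.P.δ s) A]
      refine mul_le_mul_of_nonneg_left ?_ hδ0.le
      have h10 := mul_le_mul_of_nonneg_left herr2 hC
      have h11 : η ^ 2 * D.P.wt f s ≤ Ps D f B η (k + 1) s := by
        unfold Ps
        linarith only [p1, p3]
      rw [hA]
      linarith only [h10, h11]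
    have hU : D.P.U (D.P.ent f) s ≤ D.P.ep f s + A * D.clk k * Ps D f B η (k + 1) s
        + Lf * D.P.wh f B (k + 1) s + D.P.hitE B (k + 1) s := by
      have b1 : BM (D.P.ep f) := D.P.bm_ep f
      have b2 : BM (fun s' => A * D.clk k * Ps D f B η k s') := BM.const_mul _ (bm_Ps D hB η k)
      have b3 : BM (fun s' => Lf * D.P.wh f B k s') := BM.const_mul _ (D.P.bm_wh hB k)
      have b4 : BM (D.P.hitE B k) := D.P.bm_hitE hB k
      have h2 : D.P.U (D.P.ent f) s ≤ D.P.U (fun s' => D.P.ep f s' + A * D.clk k * Ps D f B η k s'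
          + Lf * D.P.wh f B k s' + D.P.hitE B k s') s :=
        D.P.U_mono (D.P.bm_ent hf) (((b1.add b2).add b3).add b4)
          fun z => ih _ (by omega) (D.invS k s z hs)
      rw [D.P.U_add ((b1.add b2).add b3) b4, D.P.U_add (b1.add b2) b3, D.P.U_add b1 b2,
        D.P.U_const_mul, D.P.U_const_mul] at h2
      have e1 : D.P.U (fun s' => D.P.ep f s') s ≤ D.P.ep f s := D.P.U_ep_le thCH5 thCHG hf s
      have e2 := mul_le_mul_of_nonneg_left (U_Ps_le D hf hB η hsB)
        (mul_nonneg hA0 (D.clk_nonneg k))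
      have e3 : D.P.U (fun s' => D.P.wh f B k s') s = D.P.wh f B (k + 1) s :=
        D.P.U_wh thCH1 thCHG hB hsB
      have e4 : D.P.U (fun s' => D.P.hitE B k s') s = D.P.hitE B (k + 1) s :=
        D.P.U_hitE thCH1 thCHG hB hsB
      have e5 : D.P.U (fun s' => Ps D f B η k s') s = D.P.U (Ps D f B η k) s := rfl
      rw [e3, e4, e5] at h2
      linarith only [e2, e1, h2]
    have hclk : A * D.clk (k + 1) * Ps D f B η (k + 1) s = A * D.clk k * Ps D f B η (k + 1) s
        + D.P.δ s * A * Ps D f B η (k + 1) s := by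
      rw [D.clk_succ, ← hδ]
      ring
    rw [hclk]
    linarith only [hU, hE1, hstep]

theorem wh_le {A : ℝ} (hA : ∀ x, f x ≤ A) (B : ℕ → Set D.S) (k : ℕ) (s : D.S) :
    D.P.wh f B k s ≤ A * D.P.hitE B k s := by
  unfold Proc.wh Proc.hitE Proc.avg
  rw [Finset.mul_sum]
  refine Finset.sum_le_sum fun x _ => ?_
  have h1 := mul_le_mul_of_nonneg_right (hA x) (D.P.hit_nonneg B k s x)
  have h2 := mul_le_mul_of_nonneg_left h1 (D.P.law_pos s x).le
  linarith only [h2]

end rec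

theorem absorb_lin {c : ℝ} (hc : 0 < c) (N : ℝ) :
    ∀ᶠ n : ℕ in atTop, N * (4 * n + 1) * Real.exp (-(c / 4 * n)) ≤ Real.exp (-(c / 8 * n)) := by
  filter_upwards [exp_absorb (F := atTop) (n := fun n : ℕ => n) tendsto_id
    (c := c / 8) (by positivity) (|N| * (64 / c + 1))] with n hn
  have h0 : (0 : ℝ) ≤ n := Nat.cast_nonneg n
  have h1 : c / 16 * n + 1 ≤ Real.exp (c / 16 * n) := Real.add_one_le_exp _
  have h2 : 4 * (n : ℝ) + 1 ≤ (64 / c + 1) * Real.exp (c / 16 * n) := by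
    have h3 : 4 * (n : ℝ) = 64 / c * (c / 16 * n) := by field_simp; ring
    have h4 : 0 ≤ c / 16 * n := by positivity
    have h5 : 0 ≤ 64 / c := by positivity
    have h6 := mul_le_mul_of_nonneg_left h1 h5
    linarith only [h3, h6, h5, h1, h4]
  have h3 : N * (4 * n + 1) ≤ |N| * ((64 / c + 1) * Real.exp (c / 16 * n)) :=
    (mul_le_mul_of_nonneg_right (le_abs_self N) (by positivity)).trans
      (mul_le_mul_of_nonneg_left h2 (abs_nonneg N))
  have h4 := mul_le_mul_of_nonneg_right h3 (Real.exp_pos (-(c / 4 * n))).le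
  refine h4.trans ?_
  have e1 : Real.exp (c / 16 * n) * Real.exp (-(c / 4 * n))
      = Real.exp (-(c / 8 * n)) * Real.exp (-(c / 16 * n)) := by
    rw [← Real.exp_add, ← Real.exp_add]; congr 1; ring
  have e2 : Real.exp (-(c / 8 * n)) = Real.exp (-(c / 8 / 2 * n)) * Real.exp (-(c / 16 * n)) := by
    rw [← Real.exp_add]; congr 1; ring
  have h5 := mul_le_mul_of_nonneg_right hn (Real.exp_pos (-(c / 16 * n))).le
  calc |N| * ((64 / c + 1) * Real.exp (c / 16 * n)) * Real.exp (-(c / 4 * n))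
      = |N| * (64 / c + 1) * (Real.exp (c / 16 * n) * Real.exp (-(c / 4 * n))) := by ring
    _ = |N| * (64 / c + 1) * Real.exp (-(c / 8 * n)) * Real.exp (-(c / 16 * n)) := by
        rw [e1]; ring
    _ ≤ Real.exp (-(c / 8 / 2 * n)) * Real.exp (-(c / 16 * n)) := h5
    _ = _ := e2.symm

theorem exists_small {K η : ℝ} (hK : 0 ≤ K) (hη : 0 < η) : ∃ δ > 0, ∀ δ' ≤ δ, K * √δ' ≤ η := by
  refine ⟨(η / (K + 1)) ^ 2, by positivity, fun δ' h => ?_⟩
  have h1 : √δ' ≤ η / (K + 1) := by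
    rw [← Real.sqrt_sq (by positivity : 0 ≤ η / (K + 1))]
    exact Real.sqrt_le_sqrt h
  have h2 := mul_le_mul_of_nonneg_left h1 hK
  have h3 : K * (η / (K + 1)) ≤ η := by
    rw [← mul_div_assoc, div_le_iff₀ (by positivity)]
    linarith only [hη]
  exact h2.trans h3

/-- **(E5)** -/
theorem termStmt : TermStmt := by
  intro C T c hC hc
  set Λ : ℝ := 2 * Real.exp (2 * trC C T) with hΛ
  have hΛ0 : 0 < Λ := by positivity
  set C₁ : ℝ := Λ * C + 1 with hC₁
  have hC₁0 : 0 < C₁ := by positivity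
  set G : ℝ := Real.exp (9 * C₁ * T) with hG
  have hG0 : 0 < G := Real.exp_pos _
  set A₁ : ℝ := (C * G + 1) * |T| with hA₁
  have hA₁0 : 0 ≤ A₁ := by positivity
  refine ⟨|trC C T| + G + A₁ + 1, by positivity, ?_⟩
  filter_upwards [D7T.tendsto_small hc, absorb_lin hc (G + A₁ + 2)] with n hn hab
  obtain ⟨K7, hK7, h7⟩ := A1.ch7 n n C
  obtain ⟨K4, hK4, h4⟩ := thCH4'' n n C
  set θ : ℝ := Real.exp (-(c / 4 * n)) with hθ
  have hθ0 : 0 < θ := Real.exp_pos _
  set η : ℝ := √θ with hη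
  have hη0 : 0 < η := Real.sqrt_pos.2 hθ0
  have hη2 : η ^ 2 = θ := Real.sq_sqrt hθ0.le
  obtain ⟨δ1, hδ1, h1⟩ := exists_small (K := K7 * √n) (by positivity) hη0
  obtain ⟨δ2, hδ2, h2⟩ := exists_small hK4 hθ0
  set δ₀ : ℝ := min (min δ1 δ2) (min (1 / (4 * C₁)) (1 / (2 * C))) with hδ₀
  have hδ₀0 : 0 < δ₀ := lt_min (lt_min hδ1 hδ2) (lt_min (by positivity) (by positivity))
  have hCδ : C * δ₀ ≤ 1 / 2 := by
    have h3 : δ₀ ≤ 1 / (2 * C) := (min_le_right _ _).trans (min_le_right _ _)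
    rw [le_div_iff₀ (by positivity)] at h3
    linarith only [h3]
  have hC₁δ : C₁ * δ₀ ≤ 1 / 4 := by
    have h3 : δ₀ ≤ 1 / (4 * C₁) := (min_le_right _ _).trans (min_le_left _ _)
    rw [le_div_iff₀ (by positivity)] at h3
    linarith only [h3]
  refine ⟨δ₀, hδ₀0, fun β J D k hk s hs hb => ?_⟩
  set B := D.P.badSet (fun _ => D.Exit) (Real.exp (-(c / 2 * n))) with hB
  have hBm : ∀ k, MeasurableSet (B k) := D.P.meas_badSet _ (fun _ => D.measExit) _
  have hsB : s ∉ B k := fun h => hb (Or.inl h)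
  have hhit : D.P.hitE B k s ≤ θ := by
    by_contra h
    exact hb (Or.inr (not_le.1 h))
  have hh0 := D.P.hitE_nonneg B k s
  constructor
  · have h3 := D.track_nonbad thCH1 thCHG thCH6a hC hn hCδ hk hs hsB (u := 0)
      (by unfold F.sq; simp)
    rw [tilt_zero (D.P.law_isProb s)] at h3
    linarith only [h3, le_abs_self (trC C T), hG0, hA₁0]
  intro f A hA1 hf hfA
  have herr := errT_rec D (η := η) hC₁0.le hC₁δ hf hBm (fun k s hk hs hsB => by
    refine tm_drift D.P hC.le hΛ0.le hK7 hη0.le (D.Q_le k s hs)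
      (opLe_covM (D.P.law_isProb s) hΛ0
        (D.cov_nonbad thCH1 thCHG thCH6a hC hn hCδ hk hs hsB))
      (h7 _ (D.R_le k s hs) _ (D.P.hδ s).le (D.P.hδ1 s) _ _ (D.P.nuf_isProb hf s)
        (D.P.law_isProb s)) ?_
    have h3 : D.P.δ s ≤ δ1 := ((D.δ_eq k s hs).le.trans (D.dur_le k)).trans
      ((min_le_left _ _).trans (min_le_left _ _))
    have h5 := h1 _ h3
    linarith only [h5])
  have herr2 : ∀ k s, k ≤ D.N → D.Inv k s → D.P.err f (tm D.P) s ≤ G * Ps D f B η k s := by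
    intro k s hk hs
    refine (herr k s hk hs).trans (mul_le_mul_of_nonneg_right ?_ (Ps_nonneg D hf B η k s))
    exact Real.exp_le_exp.2 (mul_le_mul_of_nonneg_left (D.clk_le hk) (by positivity))
  have hA0 : 0 ≤ A := by linarith only [hA1]
  have hent := entT_rec D hC.le hG0.le hf hBm herr2 hK4
    (by rw [hη2]; exact h2 _ ((min_le_left _ _).trans (min_le_right _ _))) h4 hA0
    (fun x => (Real.log_le_sub_one_of_pos (hf x)).trans (by linarith only [hfA x])) k s hk hs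
  have hwh := wh_le D hfA B k s
  have hwh0 := D.P.wh_nonneg hf B k s
  have hwt := D.P.wt_le hfA s
  have hep := D.P.ep_nonneg hf s
  have hn0 : (0 : ℝ) ≤ n := Nat.cast_nonneg n
  have hAθ : 0 ≤ A * θ := mul_nonneg hA0 hθ0.le
  have hwh2 : D.P.wh f B k s ≤ A * θ := hwh.trans (mul_le_mul_of_nonneg_left hhit hA0)
  have hAA : A * θ ≤ A ^ 2 * θ := by
    have := mul_le_mul_of_nonneg_right hA1 hAθ
    linarith only [this]
  have hθA : θ ≤ A ^ 2 * θ := by
    have := mul_le_mul_of_nonneg_right hA1 hθ0.le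
    linarith only [this, hAA]
  set Z : ℝ := (4 * n + 1) * (A ^ 2 * θ) with hZ
  have hA2θ : 0 ≤ A ^ 2 * θ := by positivity
  have hZ0 : 0 ≤ Z := by positivity
  have hZ1 : A ^ 2 * θ ≤ Z := by
    have := mul_nonneg hn0 hA2θ
    rw [hZ]; linarith only [this]
  have hPs : Ps D f B η k s ≤ D.P.ep f s + Z := by
    unfold Ps
    rw [hη2]
    have h5 := mul_le_mul_of_nonneg_left hwt hθ0.le
    have h6 := mul_le_mul_of_nonneg_left (hwh2.trans hAA) (by positivity : (0 : ℝ) ≤ 4 * n)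
    rw [hZ]
    linarith only [h5, h6, hAA]
  have hfin : (G + A₁ + 2) * Z ≤ A ^ 2 * Real.exp (-(c / 8 * n)) := by
    have := mul_le_mul_of_nonneg_left hab (sq_nonneg A)
    rw [hZ]
    linarith only [this]
  have ht0 := mul_nonneg (abs_nonneg (trC C T)) hep
  have hGe := mul_nonneg hG0.le hep
  have hAe := mul_nonneg hA₁0 hep
  have hGZ := mul_nonneg hG0.le hZ0
  have hAZ := mul_nonneg hA₁0 hZ0
  constructor
  · show D.P.ent f s ≤ _ * D.P.ep f s + _
    have h5 : (C * G + 1) * D.clk k ≤ A₁ :=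
      mul_le_mul_of_nonneg_left ((D.clk_le hk).trans (le_abs_self T)) (by positivity)
    have h6 : (C * G + 1) * D.clk k * Ps D f B η k s ≤ A₁ * (D.P.ep f s + Z) :=
      mul_le_mul h5 hPs (Ps_nonneg D hf B η k s) hA₁0
    have h8 : A * D.P.wh f B k s ≤ A ^ 2 * θ := by
      have := mul_le_mul_of_nonneg_left hwh2 hA0
      linarith only [this]
    linarith only [hent, h6, h8, hhit, hθA, hZ1, hfin, ht0, hGe, hGZ]
  · show D.P.err f (tm D.P) s ≤ _ * D.P.ep f s + _
    have h5 := (herr2 k s hk hs).trans (mul_le_mul_of_nonneg_left hPs hG0.le)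
    linarith only [h5, hfin, ht0, hAe, hAZ, hZ0, hep]

end Vale.Agent.N150.End
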