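import Vale.Agent.N150.Tail2

/-! P150, critical upper bound: normalised projected Gaussian vectors `rp ρ (P g)` and empirical
sums along them. -/

open MeasureTheory ProbabilityTheory Real Set Filter Topology
open scoped Matrix ENNReal
open Vale.Agent.P150 Vale.Agent.P150.F

namespace Vale.Agent.N150.Tail

variable {n : ℕ}

/-! ### Projections -/

section Proj
variable {P Q : Mat n}

theorem sq_proj (hP : Pᵀ = P) (hPP : P * P = P) (w : Vec n) : F.sq (P *ᵥ w) = qf P w := by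
  rw [sq_mulVec_eq_qf, hP, hPP]

theorem hsq_proj (hP : Pᵀ = P) (hPP : P * P = P) : hsq P = P.trace := by
  rw [hsq_eq_trace, hP, hPP]

theorem hsq_nonneg (A : Mat n) : 0 ≤ hsq A :=
  Finset.sum_nonneg fun _ _ => Finset.sum_nonneg fun _ _ => sq_nonneg _

theorem trace_proj_nonneg (hP : Pᵀ = P) (hPP : P * P = P) : 0 ≤ P.trace := by
  rw [← hsq_proj hP hPP]; exact hsq_nonneg P

theorem compl_symm (hP : Pᵀ = P) : (1 - P)ᵀ = 1 - P := by
  rw [Matrix.transpose_sub, Matrix.transpose_one, hP]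

theorem compl_idem (hPP : P * P = P) : (1 - P) * (1 - P) = 1 - P := by
  rw [Matrix.sub_mul, Matrix.mul_sub, Matrix.mul_sub, hPP]; simp

theorem trace_compl (P : Mat n) : (1 - P).trace = n - P.trace := by
  rw [Matrix.trace_sub, Matrix.trace_one, Fintype.card_fin]

theorem trace_proj_le (hP : Pᵀ = P) (hPP : P * P = P) : P.trace ≤ n := by
  have := trace_proj_nonneg (compl_symm hP) (compl_idem hPP)
  rw [trace_compl] at this; linarith

theorem qf_sub (A B : Mat n) (w : Vec n) : qf (A - B) w = qf A w - qf B w := by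
  unfold qf; rw [Matrix.sub_mulVec, ip_sub_right]

theorem qf_add (A B : Mat n) (w : Vec n) : qf (A + B) w = qf A w + qf B w := by
  unfold qf; rw [Matrix.add_mulVec, ip_add_right]

theorem qf_smul (c : ℝ) (A : Mat n) (w : Vec n) : qf (c • A) w = c * qf A w := by
  unfold qf; rw [Matrix.smul_mulVec, ip_smul_right]

theorem qf_smul_vec (c : ℝ) (A : Mat n) (w : Vec n) : qf A (c • w) = c ^ 2 * qf A w := by
  unfold qf; rw [Matrix.mulVec_smul, ip_smul_right, ip_smul_left]; ring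

theorem qf_one (w : Vec n) : qf (1 : Mat n) w = F.sq w := by
  unfold qf; rw [Matrix.one_mulVec, ipN_self]

theorem sq_proj_add (hP : Pᵀ = P) (hPP : P * P = P) (w : Vec n) :
    F.sq (P *ᵥ w) + F.sq ((1 - P) *ᵥ w) = F.sq w := by
  rw [sq_proj hP hPP, sq_proj (compl_symm hP) (compl_idem hPP), qf_sub, qf_one]; ring

theorem sq_proj_le (hP : Pᵀ = P) (hPP : P * P = P) (w : Vec n) : F.sq (P *ᵥ w) ≤ F.sq w := by
  have := sq_proj_add hP hPP w
  linarith [sqN_nonneg ((1 - P) *ᵥ w)]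

theorem opLe_proj (hP : Pᵀ = P) (hPP : P * P = P) : OpLe P 1 := fun w => by
  simpa using sq_proj_le hP hPP w

theorem nv_proj_le (hP : Pᵀ = P) (hPP : P * P = P) (w : Vec n) : nv (P *ᵥ w) ≤ nv w := by
  simpa using (opLe_proj hP hPP).nv_le zero_le_one w

theorem qf_sandwich (hP : Pᵀ = P) (A : Mat n) (w : Vec n) :
    qf (P * A * P) w = qf A (P *ᵥ w) := by
  unfold qf
  rw [← Matrix.mulVec_mulVec, ← Matrix.mulVec_mulVec, ip_eq_dot, ip_eq_dot,
    Matrix.dotProduct_mulVec w, ← Matrix.mulVec_transpose, hP]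

theorem ip_proj (hP : Pᵀ = P) (a w : Vec n) : ip a (P *ᵥ w) = ip (P *ᵥ a) w := by
  rw [ip_eq_dot, ip_eq_dot, Matrix.dotProduct_mulVec, ← Matrix.mulVec_transpose, hP]

/-- norm of a projected Gaussian, upper tail -/
theorem proj_up (hP : Pᵀ = P) (hPP : P * P = P) {x : ℝ} (hx : 0 ≤ x) :
    (gpi (Fin n)).real {w | √P.trace + 2 * √x ≤ nv (P *ᵥ w)} ≤ exp (-x) := by
  have := nv_mulVec_tail (opLe_proj hP hPP) one_pos hx (sqrt_nonneg P.trace)
    (by rw [hsq_proj hP hPP, sq_sqrt (trace_proj_nonneg hP hPP)])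
  simpa only [mul_one] using this

/-- norm of a projected Gaussian, lower tail -/
theorem proj_low (hP : Pᵀ = P) (hPP : P * P = P) {x : ℝ} (hx : 0 ≤ x) :
    (gpi (Fin n)).real {w | nv (P *ᵥ w) < √P.trace - 3 * √x} ≤ exp (-x) := by
  have h0 := trace_proj_nonneg hP hPP
  rcases h0.eq_or_lt with h | h
  · refine (real_imp_le _ (q := fun _ => False) fun w hw => ?_).trans ?_
    · rw [← h, sqrt_zero] at hw
      linarith [nv_nonneg (P *ᵥ w), sqrt_nonneg x]
    · simp only [Set.ofPred_false, measureReal_empty]; exact (exp_pos _).le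
  have key := hw_tail_low hP h le_rfl hx (hsq_proj hP hPP).le fun v => by
    rw [← sq_proj hP hPP]; simpa using sqN_nonneg _
  refine (real_imp_le _ fun w hw => ?_).trans key
  rw [← sq_proj hP hPP, ← nv_sq]
  have h1 := two_sqrt_le (x := x) (sqrt_nonneg P.trace)
  rw [sq_sqrt h0] at h1
  have h2 := nv_nonneg (P *ᵥ w)
  have h3 := sqrt_nonneg x
  have h4 : √P.trace ^ 2 = P.trace := sq_sqrt h0
  nlinarith

theorem proj_abs (hP : Pᵀ = P) (hPP : P * P = P) {x : ℝ} (hx : 0 ≤ x) :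
    (gpi (Fin n)).real {w | 3 * √x < |nv (P *ᵥ w) - √P.trace|} ≤ 2 * exp (-x) := by
  refine (real_or_le _ fun w hw => ?_).trans
    ((add_le_add (proj_up hP hPP hx) (proj_low hP hPP hx)).trans (by linarith))
  have := sqrt_nonneg x
  rcases lt_abs.1 hw with h | h
  · exact Or.inl (by linarith)
  · exact Or.inr (by linarith)

theorem eig_poly {U : Mat n} (hU : Uᵀ * U = 1) {a b : Vec n}
    (h : U * Matrix.diagonal a * Uᵀ = U * Matrix.diagonal b * Uᵀ) (i : Fin n) : a i = b i := by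
  have h1 : ∀ c : Vec n, Uᵀ * (U * Matrix.diagonal c * Uᵀ) * U = Matrix.diagonal c := by
    intro c
    calc Uᵀ * (U * Matrix.diagonal c * Uᵀ) * U = (Uᵀ * U) * Matrix.diagonal c * (Uᵀ * U) := by
          simp only [Matrix.mul_assoc]
      _ = _ := by rw [hU, Matrix.one_mul, Matrix.mul_one]
  have h2 := h1 a
  rw [h, h1 b] at h2
  simpa using (congrFun (congrFun h2 i) i).symm

theorem conj_mul {U : Mat n} (hU : Uᵀ * U = 1) (a b : Vec n) :
    U * Matrix.diagonal a * Uᵀ * (U * Matrix.diagonal b * Uᵀ) =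
      U * Matrix.diagonal (fun i => a i * b i) * Uᵀ := by
  calc U * Matrix.diagonal a * Uᵀ * (U * Matrix.diagonal b * Uᵀ)
      = U * (Matrix.diagonal a * (Uᵀ * U) * Matrix.diagonal b) * Uᵀ := by
        simp only [Matrix.mul_assoc]
    _ = _ := by rw [hU, Matrix.mul_one, Matrix.diagonal_mul_diagonal]

theorem conj_lin (U : Mat n) (s t : ℝ) (a b : Vec n) :
    s • (U * Matrix.diagonal a * Uᵀ) + t • (U * Matrix.diagonal b * Uᵀ) =
      U * Matrix.diagonal (fun i => s * a i + t * b i) * Uᵀ := by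
  have : Matrix.diagonal (fun i => s * a i + t * b i) =
      s • Matrix.diagonal a + t • Matrix.diagonal b := by
    ext i j
    by_cases h : i = j
    · subst h; simp
    · simp [Matrix.diagonal_apply_ne _ h]
  rw [this, Matrix.mul_add, Matrix.add_mul, Matrix.mul_smul, Matrix.mul_smul, Matrix.smul_mul,
    Matrix.smul_mul]

/-- two nested projections are simultaneously coordinate projections -/
theorem exists_eig_pair (hP : Pᵀ = P) (hPP : P * P = P) (hQ : Qᵀ = Q) (hQQ : Q * Q = Q)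
    (hPQ : P * Q = Q) : ∃ (U : Mat n) (p q : Vec n), U * Uᵀ = 1 ∧ Uᵀ * U = 1 ∧
      P = U * Matrix.diagonal p * Uᵀ ∧ Q = U * Matrix.diagonal q * Uᵀ ∧
      ∀ i, (p i = 0 ∧ q i = 0) ∨ (p i = 1 ∧ q i = 0) ∨ (p i = 1 ∧ q i = 1) := by
  have hQP : Q * P = Q := by
    have := congrArg Matrix.transpose hPQ
    rwa [Matrix.transpose_mul, hP, hQ] at this
  obtain ⟨U, b, h1, h2, h3⟩ := exists_eig (P + Q) (by rw [Matrix.transpose_add, hP, hQ])
  have h4 : (P + Q) * (P + Q) = P + (3 : ℝ) • Q := by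
    rw [Matrix.add_mul, Matrix.mul_add, Matrix.mul_add, hPP, hPQ, hQP, hQQ]
    ext i j; simp; ring
  have hp : P = U * Matrix.diagonal (fun i => 3 / 2 * b i + -(1 / 2) * (b i * b i)) * Uᵀ := by
    rw [← conj_lin, ← conj_mul h2, ← h3, h4]
    ext i j; simp; ring
  have hq : Q = U * Matrix.diagonal (fun i => -(1 / 2) * b i + 1 / 2 * (b i * b i)) * Uᵀ := by
    rw [← conj_lin, ← conj_mul h2, ← h3, h4]
    ext i j; simp; ring
  refine ⟨U, _, _, h1, h2, hp, hq, fun i => ?_⟩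
  have e1 := hPP
  have e2 := hQQ
  have e3 := hPQ
  rw [hp, conj_mul h2] at e1
  rw [hq, conj_mul h2] at e2
  rw [hp, hq, conj_mul h2] at e3
  have f1 := eig_poly h2 e1 i
  have f2 := eig_poly h2 e2 i
  have f3 := eig_poly h2 e3 i
  generalize 3 / 2 * b i + -(1 / 2) * (b i * b i) = p at f1 f2 f3 ⊢
  generalize -(1 / 2) * b i + 1 / 2 * (b i * b i) = q at f1 f2 f3 ⊢
  have g1 : p = 0 ∨ p = 1 := by
    rcases mul_eq_zero.1 (show p * (p - 1) = 0 by linarith) with h | h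
    · exact Or.inl h
    · exact Or.inr (by linarith)
  have g2 : q = 0 ∨ q = 1 := by
    rcases mul_eq_zero.1 (show q * (q - 1) = 0 by linarith) with h | h
    · exact Or.inl h
    · exact Or.inr (by linarith)
  rcases g1 with g1 | g1
  · rw [g1, zero_mul] at f3
    exact Or.inl ⟨g1, f3.symm⟩
  · rcases g2 with g2 | g2
    · exact Or.inr (Or.inl ⟨g1, g2⟩)
    · exact Or.inr (Or.inr ⟨g1, g2⟩)

/-- **Beta tail**: the share of a projected Gaussian in a smaller subspace. -/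
theorem cone_proj (hP : Pᵀ = P) (hPP : P * P = P) (hQ : Qᵀ = Q) (hQQ : Q * Q = Q)
    (hPQ : P * Q = Q) {t : ℝ} (ht : 0 ≤ t) :
    (gpi (Fin n)).real {w | t * F.sq (P *ᵥ w) < F.sq (Q *ᵥ w)} ≤
      exp (Q.trace - P.trace * t / 6) := by
  obtain ⟨U, p, q, h1, h2, h3, h4, h5⟩ := exists_eig_pair hP hPP hQ hQQ hPQ
  have e1 : ∀ w, F.sq (P *ᵥ w) = ∑ i, p i * (Uᵀ *ᵥ w) i ^ 2 := fun w => by
    rw [sq_proj hP hPP, ← qf_conj, ← h3]
  have e2 : ∀ w, F.sq (Q *ᵥ w) = ∑ i, q i * (Uᵀ *ᵥ w) i ^ 2 := fun w => by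
    rw [sq_proj hQ hQQ, ← qf_conj, ← h4]
  have t1 : P.trace = ∑ i, p i := by rw [← trace_conj h2, ← h3]
  have t2 : Q.trace = ∑ i, q i := by rw [← trace_conj h2, ← h4]
  by_cases ht1 : 1 ≤ t
  · refine (real_imp_le _ (q := fun _ => False) fun w hw => ?_).trans ?_
    · have h6 : F.sq (Q *ᵥ w) ≤ F.sq (P *ᵥ w) := by
        rw [e1, e2]
        refine Finset.sum_le_sum fun i _ => mul_le_mul_of_nonneg_right ?_ (sq_nonneg _)
        rcases h5 i with h | h | h <;> simp [h.1, h.2]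
      have h7 := mul_le_mul_of_nonneg_right ht1 (sqN_nonneg (P *ᵥ w))
      linarith
    · simp only [Set.ofPred_false, measureReal_empty]; exact (exp_pos _).le
  have ht2 : t < 1 := not_le.1 ht1
  have ha : ∀ i, (q i - t * p i) / 4 < (1 / 2 : ℝ) := fun i => by
    rcases h5 i with h | h | h <;> rw [h.1, h.2] <;> linarith
  have key := cone_diag (fun i => (q i - t * p i) / 4) ha 0
  rw [← rot_real Uᵀ (by rw [Matrix.transpose_transpose, h2])
    (measurableSet_le measurable_const (by fun_prop))] at key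
  have himp : ∀ w : Vec n, t * F.sq (P *ᵥ w) < F.sq (Q *ᵥ w) →
      Uᵀ *ᵥ w ∈ {w : Vec n | 0 ≤ ∑ i, (q i - t * p i) / 4 * w i ^ 2} := by
    intro w hw
    rw [e1, e2, Finset.mul_sum, ← sub_pos, ← Finset.sum_sub_distrib] at hw
    have e : ∑ i, (q i - t * p i) / 4 * (Uᵀ *ᵥ w) i ^ 2 =
        (∑ i, (q i * (Uᵀ *ᵥ w) i ^ 2 - t * (p i * (Uᵀ *ᵥ w) i ^ 2))) / 4 := by
      rw [Finset.sum_div]
      exact Finset.sum_congr rfl fun i _ => by ring
    show 0 ≤ ∑ i, (q i - t * p i) / 4 * (Uᵀ *ᵥ w) i ^ 2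
    rw [e]; linarith
  refine (real_imp_le _ himp).trans (key.trans ?_)
  rw [neg_zero, exp_zero, one_mul]
  have h6 : ∀ i, (√(1 - 2 * ((q i - t * p i) / 4)))⁻¹ ≤ exp (q i - p i * t / 6) := by
    intro i
    rcases h5 i with h | h | h <;> rw [h.1, h.2]
    · simp
    · simpa only [mul_one, one_mul] using cone_out ht2 ht
    · simpa only [mul_one, one_mul] using cone_in ht2 ht
  refine (Finset.prod_le_prod (fun i _ => inv_nonneg.2 (sqrt_nonneg _)) fun i _ => h6 i).trans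
    (le_of_eq ?_)
  rw [← exp_sum, Finset.sum_sub_distrib, t1, t2, Finset.sum_mul, Finset.sum_div]

theorem hsq_mul_le {B C : Mat n} {L : ℝ} (hB : OpLe B L) : hsq (B * C) ≤ L ^ 2 * hsq C := by
  have e : ∀ A : Mat n, hsq A = ∑ j, F.sq (fun i => A i j) := fun A => by
    unfold hsq F.sq; rw [Finset.sum_comm]
  rw [e, e, Finset.mul_sum]
  exact Finset.sum_le_sum fun j _ => hB (fun i => C i j)

theorem hsq_transpose (A : Mat n) : hsq Aᵀ = hsq A := by
  unfold hsq; rw [Finset.sum_comm]; rfl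

theorem hsq_mul_proj (hP : Pᵀ = P) (hPP : P * P = P) (B : Mat n) : hsq (B * P) ≤ hsq B := by
  rw [← hsq_transpose, Matrix.transpose_mul, hP, ← hsq_transpose B]
  simpa using hsq_mul_le (C := Bᵀ) (opLe_proj hP hPP)

theorem hsq_sandwich (hP : Pᵀ = P) (hPP : P * P = P) (A : Mat n) : hsq (P * A * P) ≤ hsq A :=
  (hsq_mul_proj hP hPP _).trans (by simpa using hsq_mul_le (C := A) (opLe_proj hP hPP))

theorem trace_sandwich_le (hP : Pᵀ = P) (hPP : P * P = P) {A : Mat n} {M : ℝ}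
    (hb : ∀ v, |qf A v| ≤ M * F.sq v) : |(P * A * P).trace| ≤ M * P.trace := by
  have e1 : (P * A * P).trace = ∑ i, qf A (P *ᵥ Pi.single i 1) := by
    unfold Matrix.trace
    refine Finset.sum_congr rfl fun i _ => ?_
    rw [← qf_sandwich hP]
    simp [qf, ip, Pi.single_apply]
  have e2 : P.trace = ∑ i, F.sq (P *ᵥ Pi.single i 1) := by
    unfold Matrix.trace
    refine Finset.sum_congr rfl fun i _ => ?_
    rw [sq_proj hP hPP]
    simp [qf, ip, Pi.single_apply]
  rw [e1, e2, Finset.mul_sum]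
  exact (Finset.abs_sum_le_sum_abs _ _).trans (Finset.sum_le_sum fun i _ => hb _)

theorem trace_sandwich_sq (hP : Pᵀ = P) (hPP : P * P = P) (A : Mat n) :
    (P * A * P).trace ^ 2 ≤ P.trace * hsq (P * A * P) := by
  have e1 : (P * A * P).trace = ∑ p : Fin n × Fin n, P p.1 p.2 * (P * A * P) p.1 p.2 := by
    have : (P * A * P).trace = ((P * A * P) * Pᵀ).trace := by
      rw [hP, Matrix.mul_assoc (P * A), hPP]
    rw [this, Fintype.sum_prod_type]
    simp only [Matrix.trace, Matrix.diag, Matrix.mul_apply (M := P * A * P) (N := Pᵀ),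
      Matrix.transpose_apply, mul_comm]
  have e2 : ∀ B : Mat n, hsq B = ∑ p : Fin n × Fin n, B p.1 p.2 ^ 2 := fun B => by
    rw [Fintype.sum_prod_type]; rfl
  rw [e1, ← hsq_proj hP hPP, e2, e2]
  exact Finset.sum_mul_sq_le_sq_mul_sq _ _ _

end Proj

/-! ### The normalised projected Gaussian -/

section Sph
variable {P Q : Mat n}

theorem rp_eq (ρ : ℝ) (v : Vec n) : rp ρ v = (√ρ / nv v) • v := by
  rw [nv_eq_sqrt]; rfl

theorem nv_rp_le (ρ : ℝ) (v : Vec n) : nv (rp ρ v) ≤ √ρ := by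
  rw [rp_eq, nv_smul, abs_of_nonneg (div_nonneg (sqrt_nonneg _) (nv_nonneg _))]
  rcases (nv_nonneg v).eq_or_lt with h | h
  · rw [← h, mul_zero]; exact sqrt_nonneg _
  · rw [div_mul_cancel₀ _ h.ne']

theorem nv_rp_sub (ρ σ : ℝ) (v : Vec n) : nv (rp ρ v - σ • v) ≤ |√ρ - σ * nv v| := by
  rw [rp_eq, ← sub_smul, nv_smul]
  rcases (nv_nonneg v).eq_or_lt with h | h
  · rw [← h, mul_zero]; exact abs_nonneg _
  · rw [← abs_of_pos h, ← abs_mul, abs_of_pos h, sub_mul, div_mul_cancel₀ _ h.ne']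

theorem two_five {r x : ℝ} (hr : 0 ≤ r) (hx : 0 ≤ x) : 2 * √r + 5 * √x ≤ 6 * √(r + x) := by
  refine abs_le_of_sq_le_sq' ?_ (by positivity) |>.2
  have h1 := sq_sqrt hr
  have h2 := sq_sqrt hx
  have h3 := sq_sqrt (add_nonneg hr hx)
  nlinarith [sq_nonneg (5 * √r - 2 * √x)]

/-- **Coupling**: the normalised projected Gaussian is close to a multiple of the Gaussian. -/
theorem near_gauss (hP : Pᵀ = P) (hPP : P * P = P) {r σ x : ℝ} (ρ : ℝ) (hr : n - P.trace ≤ r)
    (hσ : 0 ≤ σ) (hx : 0 ≤ x) :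
    (gpi (Fin n)).real {g | |√ρ - σ * √n| + 6 * σ * √(r + x) < nv (rp ρ (P *ᵥ g) - σ • g)} ≤
      3 * exp (-x) := by
  have h1 := proj_abs hP hPP hx
  have h2 := proj_up (compl_symm hP) (compl_idem hPP) hx
  refine (real_or_le _ fun g hg => ?_).trans ((add_le_add h1 h2).trans (by linarith))
  by_contra hc
  rw [not_or, not_lt, not_le, trace_compl] at hc
  obtain ⟨h3, h4⟩ := hc
  have h0 := trace_proj_nonneg hP hPP
  have h5 := trace_proj_le hP hPP
  have hr0 : 0 ≤ r := by linarith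
  have h6 : √(n - P.trace) ≤ √r := sqrt_le_sqrt hr
  have h7 : √(n : ℝ) ≤ √P.trace + √r := by
    refine abs_le_of_sq_le_sq' ?_ (by positivity) |>.2
    have := sq_sqrt h0
    have := sq_sqrt hr0
    have := sq_sqrt (Nat.cast_nonneg (α := ℝ) n)
    nlinarith [mul_nonneg (sqrt_nonneg P.trace) (sqrt_nonneg r)]
  have h8 : √P.trace ≤ √(n : ℝ) := sqrt_le_sqrt h5
  have h9 := nv_sub_triangle (rp ρ (P *ᵥ g)) (σ • (P *ᵥ g)) (σ • g)
  have h10 := nv_rp_sub ρ σ (P *ᵥ g)
  have h11 : nv (σ • (P *ᵥ g) - σ • g) = σ * nv ((1 - P) *ᵥ g) := by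
    rw [← smul_sub, nv_smul, abs_of_nonneg hσ, nv_sub_comm, Matrix.sub_mulVec, Matrix.one_mulVec]
  have h12 : |√ρ - σ * nv (P *ᵥ g)| ≤ |√ρ - σ * √n| + σ * (√r + 3 * √x) := by
    have e : √ρ - σ * nv (P *ᵥ g) = (√ρ - σ * √n) + σ * (√n - nv (P *ᵥ g)) := by ring
    rw [e]
    refine (abs_add_le _ _).trans (add_le_add le_rfl ?_)
    rw [abs_mul, abs_of_nonneg hσ]
    refine mul_le_mul_of_nonneg_left ?_ hσ
    have := abs_le.1 h3
    have := sqrt_nonneg r
    rw [abs_le]; constructor <;> linarith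
  have h13 := mul_le_mul_of_nonneg_left (h4.le.trans (add_le_add h6 le_rfl)) hσ
  have h14 := mul_le_mul_of_nonneg_left (two_five hr0 hx) hσ
  nlinarith

/-- the share of `rp ρ (P g)` in a subspace of the range of `P` -/
theorem share_rp (hP : Pᵀ = P) (hPP : P * P = P) (hQ : Qᵀ = Q) (hQQ : Q * Q = Q)
    (hPQ : P * Q = Q) {t ρ : ℝ} (ht : 0 ≤ t) (hρ : 0 ≤ ρ) :
    (gpi (Fin n)).real {g | t * ρ < F.sq (Q *ᵥ rp ρ (P *ᵥ g))} ≤
      exp (Q.trace - P.trace * t / 6) := by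
  have hQP : Q * P = Q := by
    have := congrArg Matrix.transpose hPQ
    rwa [Matrix.transpose_mul, hP, hQ] at this
  refine (real_imp_le _ fun g hg => ?_).trans (cone_proj hP hPP hQ hQQ hPQ ht)
  rw [rp_eq, Matrix.mulVec_smul, sq_smul', Matrix.mulVec_mulVec, hQP, div_pow, sq_sqrt hρ,
    nv_sq] at hg
  rcases (sqN_nonneg (P *ᵥ g)).eq_or_lt with h | h
  · rw [← h, div_zero, zero_mul] at hg
    exact absurd hg (not_lt.2 (mul_nonneg ht hρ))
  · rw [div_mul_eq_mul_div, lt_div_iff₀ h] at hg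
    rcases hρ.eq_or_lt with h' | h'
    · rw [← h'] at hg; simp at hg
    · refine lt_of_mul_lt_mul_left (a := ρ) ?_ hρ
      linarith

/-- a linear functional of `rp ρ (P g)` -/
theorem ip_rp_tail (hP : Pᵀ = P) (hPP : P * P = P) (a : Vec n) {t ρ : ℝ} (ht : 0 ≤ t)
    (hρ : 0 ≤ ρ) :
    (gpi (Fin n)).real {g | t * ρ * F.sq (P *ᵥ a) < ip a (rp ρ (P *ᵥ g)) ^ 2} ≤
      exp (1 - P.trace * t / 6) := by
  set b := P *ᵥ a with hb
  have e0 : ∀ g, ip a (rp ρ (P *ᵥ g)) = ip b (rp ρ (P *ᵥ g)) := fun g => by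
    rw [rp_eq, ip_smul_right, ip_smul_right, hb, ← ip_proj hP a (P *ᵥ g), Matrix.mulVec_mulVec, hPP]
  simp_rw [e0]
  rcases (sqN_nonneg b).eq_or_lt with h | h
  · refine (real_imp_le _ (q := fun _ => False) fun g hg => ?_).trans ?_
    · rw [sq_eq_zero' h.symm] at hg
      simp [ip, F.sq] at hg
    · simp only [Set.ofPred_false, measureReal_empty]; exact (exp_pos _).le
  set R : Mat n := (F.sq b)⁻¹ • Matrix.vecMulVec b b with hR
  have hRv : ∀ w, R *ᵥ w = ((F.sq b)⁻¹ * ip b w) • b := fun w => by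
    rw [hR, Matrix.smul_mulVec, F.vecMulVec_mulVec, smul_smul]
  have h1 : Rᵀ = R := by
    rw [hR, Matrix.transpose_smul, Matrix.transpose_vecMulVec]
  have hext : ∀ {A B : Mat n}, (∀ w, A *ᵥ w = B *ᵥ w) → A = B := fun h =>
    Matrix.ext_of_mulVec_single fun i => h _
  have h2 : R * R = R := hext fun w => by
    rw [← Matrix.mulVec_mulVec, hRv (R *ᵥ w), hRv w, ip_smul_right, ipN_self]
    congr 1
    field_simp
  have h3 : P * R = R := hext fun w => by
    rw [← Matrix.mulVec_mulVec, hRv, Matrix.mulVec_smul, hb, Matrix.mulVec_mulVec, hPP]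
  have h4 : R.trace = 1 := by
    rw [hR, Matrix.trace_smul, Matrix.trace_vecMulVec, ← sq_eq_dot, smul_eq_mul,
      inv_mul_cancel₀ h.ne']
  have key := share_rp hP hPP h1 h2 h3 ht hρ
  rw [h4] at key
  refine (real_imp_le _ fun g hg => ?_).trans key
  rw [hRv, sq_smul']
  have e : ((F.sq b)⁻¹ * ip b (rp ρ (P *ᵥ g))) ^ 2 * F.sq b =
      ip b (rp ρ (P *ᵥ g)) ^ 2 / F.sq b := by field_simp
  rw [e, lt_div_iff₀ h]
  exact hg

/-- a linear image of `rp ρ (P g)` -/
theorem mat_rp_tail (hP : Pᵀ = P) (hPP : P * P = P) (hm : 0 < P.trace) {B : Mat n}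
    {L D x : ℝ} (ρ : ℝ) (hB : OpLe B L) (hL : 0 < L) (hx : 0 ≤ x) (hD : 0 ≤ D)
    (h : hsq (B * P) ≤ D ^ 2) :
    (gpi (Fin n)).real {g | √ρ / √P.trace * (2 * D + 6 * L * √x) < nv (B *ᵥ rp ρ (P *ᵥ g))} ≤
      2 * exp (-x) := by
  have hs : 0 < √P.trace := sqrt_pos.2 hm
  by_cases h6 : 6 * √x ≤ √P.trace
  · have h1 := nv_mulVec_tail (B := B * P) (by simpa using hB.mulN (opLe_proj hP hPP) hL.le zero_le_one)
      hL hx hD h
    have h2 := proj_low hP hPP hx
    refine (real_or_le _ fun g hg => ?_).trans ((add_le_add h1 h2).trans (by linarith))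
    by_contra hc
    rw [not_or, not_le, not_lt] at hc
    obtain ⟨h3, h4⟩ := hc
    have h5 : √P.trace / 2 ≤ nv (P *ᵥ g) := by linarith
    rw [rp_eq, Matrix.mulVec_smul, nv_smul, Matrix.mulVec_mulVec,
      abs_of_nonneg (div_nonneg (sqrt_nonneg _) (nv_nonneg _))] at hg
    have h7 : √ρ / nv (P *ᵥ g) ≤ √ρ / (√P.trace / 2) :=
      div_le_div_of_nonneg_left (sqrt_nonneg _) (by positivity) h5
    have h8 := mul_le_mul h7 h3.le (nv_nonneg _) (by positivity)
    have e : √ρ / (√P.trace / 2) * (D + 2 * L * √x) = √ρ / √P.trace * (2 * D + 4 * L * √x) := by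
      field_simp; ring
    have h9 : 0 ≤ √ρ / √P.trace * (L * √x) := by positivity
    rw [e] at h8
    nlinarith
  · refine (real_imp_le _ (q := fun _ => False) fun g hg => ?_).trans ?_
    · have h1 := (hB.nv_le hL.le (rp ρ (P *ᵥ g))).trans
        (mul_le_mul_of_nonneg_left (nv_rp_le ρ _) hL.le)
      have h2 : L * √ρ = √ρ / √P.trace * (L * √P.trace) := by field_simp
      have h3 : L * √P.trace ≤ 2 * D + 6 * L * √x := by
        have := mul_le_mul_of_nonneg_left (not_le.1 h6).le hL.le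
        linarith
      have h4 := mul_le_mul_of_nonneg_left h3 (div_nonneg (sqrt_nonneg ρ) hs.le)
      linarith
    · simp only [Set.ofPred_false, measureReal_empty]; positivity

theorem hw_rp_aux {m s T q V M x : ℝ} (hm : 0 < m) (hM : 0 ≤ M) (hx : 0 ≤ x) (hV : 0 ≤ V)
    (h6 : 6 * √x ≤ √m) (hs : |s - √m| ≤ 3 * √x) (hT : T ^ 2 ≤ m * V)
    (hq : |q - T| ≤ 2 * √(2 * V * x) + 4 * M * x) :
    |q / s ^ 2 - T / m| ≤ (42 * √(V * x) + 72 * M * x) / m := by
  have hr : 0 < √m := sqrt_pos.2 hm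
  have hm2 : √m ^ 2 = m := sq_sqrt hm.le
  have h1 := abs_le.1 hs
  have hs0 : √m / 2 ≤ s := by linarith
  have hs1 : s ≤ 3 / 2 * √m := by linarith
  have hsp : 0 < s := by linarith
  have h2 : m / 4 ≤ s ^ 2 := by nlinarith
  have h3 : |T| ≤ √m * √V := by
    rw [← sqrt_mul hm.le]; exact abs_le_sqrt hT
  have h4 : |m - s ^ 2| ≤ 15 / 2 * √x * √m := by
    have e : m - s ^ 2 = -((s - √m) * (s + √m)) := by nlinarith
    rw [e, abs_neg, abs_mul, abs_of_pos (by linarith : 0 < s + √m)]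
    have := mul_le_mul hs (show s + √m ≤ 5 / 2 * √m by linarith) (by linarith) (by positivity)
    linarith
  have h5 : 2 * √(2 * V * x) ≤ 3 * √(V * x) := by
    have := two_sqrt_le (x := x) (sqrt_nonneg V)
    rw [sq_sqrt hV] at this
    rw [sqrt_mul hV]; linarith
  have e : q / s ^ 2 - T / m = ((q - T) * m + T * (m - s ^ 2)) / (s ^ 2 * m) := by
    field_simp; ring
  rw [e, abs_div, abs_of_pos (by positivity : 0 < s ^ 2 * m), div_le_div_iff₀ (by positivity) hm]
  have h7 : |(q - T) * m + T * (m - s ^ 2)| ≤ (21 / 2 * √(V * x) + 4 * M * x) * m := by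
    refine (abs_add_le _ _).trans ?_
    rw [abs_mul, abs_mul, abs_of_pos hm]
    have h8 := mul_le_mul h3 h4 (abs_nonneg _) (by positivity)
    have e2 : √m * √V * (15 / 2 * √x * √m) = 15 / 2 * √(V * x) * m := by
      rw [sqrt_mul hV]
      linear_combination (15 / 2 * √V * √x) * hm2
    have h9 := mul_le_mul_of_nonneg_right hq hm.le
    have h10 := mul_le_mul_of_nonneg_right h5 hm.le
    linarith
  have h8 : 0 ≤ √(V * x) := sqrt_nonneg _
  have h9 : 0 ≤ M * x := mul_nonneg hM hx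
  have h10 := mul_le_mul_of_nonneg_left h2 (show 0 ≤ (42 * √(V * x) + 72 * M * x) * m by positivity)
  have h11 := mul_le_mul_of_nonneg_right h7 hm.le
  have h12 : 0 ≤ M * x * m * m := by positivity
  nlinarith

/-- **Hanson-Wright on the sphere** of the range of `P`. -/
theorem hw_rp (hP : Pᵀ = P) (hPP : P * P = P) (hm : 0 < P.trace) {A : Mat n} (hA : Aᵀ = A)
    {V M x ρ : ℝ} (hρ : 0 ≤ ρ) (hV : 0 < V) (hM : 0 ≤ M) (hx : 0 ≤ x) (h2 : hsq (P * A * P) ≤ V)
    (hb : ∀ v, |qf A v| ≤ M * F.sq v) :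
    (gpi (Fin n)).real {g | ρ / P.trace * (42 * √(V * x) + 72 * M * x) <
      |qf A (rp ρ (P *ᵥ g)) - ρ / P.trace * (P * A * P).trace|} ≤ 4 * exp (-x) := by
  by_cases h6 : 6 * √x ≤ √P.trace
  · have h1 := hw_tail_abs (A := P * A * P) (by
      rw [Matrix.transpose_mul, Matrix.transpose_mul, hP, hA, Matrix.mul_assoc]) hV hM hx h2
      fun v => by
        rw [qf_sandwich hP]
        exact (hb _).trans (mul_le_mul_of_nonneg_left (sq_proj_le hP hPP v) hM)
    have h3 := proj_abs hP hPP hx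
    refine (real_or_le _ fun g hg => ?_).trans ((add_le_add h1 h3).trans (by linarith))
    by_contra hc
    rw [not_or, not_le, not_lt] at hc
    have h4 := hw_rp_aux hm hM hx hV.le h6 hc.2 ((trace_sandwich_sq hP hPP A).trans
      (mul_le_mul_of_nonneg_left h2 hm.le)) hc.1.le
    have e : qf A (rp ρ (P *ᵥ g)) - ρ / P.trace * (P * A * P).trace =
        ρ * (qf (P * A * P) g / nv (P *ᵥ g) ^ 2 - (P * A * P).trace / P.trace) := by
      rw [rp_eq, qf_smul_vec, div_pow, sq_sqrt hρ, qf_sandwich hP]; ring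
    rw [e, abs_mul, abs_of_nonneg hρ] at hg
    have h5 := mul_le_mul_of_nonneg_left h4 hρ
    have e2 : ρ * ((42 * √(V * x) + 72 * M * x) / P.trace) =
        ρ / P.trace * (42 * √(V * x) + 72 * M * x) := by ring
    linarith
  · refine (real_imp_le _ (q := fun _ => False) fun g hg => ?_).trans ?_
    · have h1 := (hb (rp ρ (P *ᵥ g))).trans (mul_le_mul_of_nonneg_left (sq_rp_le hρ _) hM)
      have h3 := trace_sandwich_le hP hPP hb
      have h4 : |ρ / P.trace * (P * A * P).trace| ≤ M * ρ := by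
        rw [abs_mul, abs_of_nonneg (div_nonneg hρ hm.le)]
        refine (mul_le_mul_of_nonneg_left h3 (div_nonneg hρ hm.le)).trans (le_of_eq ?_)
        field_simp
      have h5 : P.trace ≤ 36 * x := by
        have := pow_le_pow_left₀ (sqrt_nonneg _) (not_le.1 h6).le 2
        rw [sq_sqrt hm.le, mul_pow, sq_sqrt hx] at this
        linarith
      have h7 : 2 * (M * ρ) = ρ / P.trace * (2 * M * P.trace) := by field_simp
      have h8 : 2 * M * P.trace ≤ 42 * √(V * x) + 72 * M * x := by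
        have := mul_le_mul_of_nonneg_left h5 hM
        have := sqrt_nonneg (V * x)
        linarith
      have h9 := mul_le_mul_of_nonneg_left h8 (div_nonneg hρ hm.le)
      have h10 := abs_sub (qf A (rp ρ (P *ᵥ g))) (ρ / P.trace * (P * A * P).trace)
      linarith
    · simp only [Set.ofPred_false, measureReal_empty]; positivity

end Sph

/-! ### Empirical sums -/

section Emp
variable {ι : Type*} [Fintype ι]

/-- `f` has increments bounded by `φ`, and `φ` is `L`-Lipschitz. -/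
structure C11 (f φ : ℝ → ℝ) (L : ℝ) : Prop where
  inc : ∀ s t, |f s - f t| ≤ φ s * |s - t| + L * (s - t) ^ 2
  pos : ∀ s, 0 ≤ φ s
  lip : ∀ s t, |φ s - φ t| ≤ L * |s - t|

theorem C11.of_deriv {f f' φ : ℝ → ℝ} {L : ℝ} (hf : ∀ s, HasDerivAt f (f' s) s)
    (hb : ∀ s, |f' s| ≤ φ s) (hφ : ∀ s t, |φ s - φ t| ≤ L * |s - t|) (hL : 0 ≤ L) :
    C11 f φ L := by
  refine ⟨fun s t => ?_, fun s => (abs_nonneg _).trans (hb s), hφ⟩
  have h := Convex.norm_image_sub_le_of_norm_hasDerivWithin_le (f := f) (f' := f')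
    (s := Set.uIcc t s) (C := φ s + L * |s - t|) (fun z _ => (hf z).hasDerivWithinAt)
    (fun z hz => ?_) (convex_uIcc t s) Set.left_mem_uIcc Set.right_mem_uIcc
  · rw [Real.norm_eq_abs, Real.norm_eq_abs, add_mul, mul_assoc, abs_mul_abs_self, ← pow_two] at h
    exact h
  · rw [Real.norm_eq_abs]
    have h1 := (abs_le.1 (hφ z s)).2
    have h2 : |z - s| ≤ |s - t| := by
      rw [abs_sub_comm z s]
      exact Set.abs_sub_right_of_mem_uIcc hz
    have h3 := mul_le_mul_of_nonneg_left h2 hL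
    linarith [hb z]

theorem lip_continuous {φ : ℝ → ℝ} {L : ℝ} (h : ∀ s t, |φ s - φ t| ≤ L * |s - t|) :
    Continuous φ := by
  rw [continuous_iff_continuousAt]
  intro t
  have h1 : Tendsto (fun s => L * |s - t|) (𝓝 t) (𝓝 0) := by
    have : Continuous fun s : ℝ => L * |s - t| := by fun_prop
    simpa using this.tendsto t
  have h2 : Tendsto (fun s => φ s - φ t) (𝓝 t) (𝓝 0) :=
    squeeze_zero_norm (fun s => by rw [Real.norm_eq_abs]; exact h s t) h1
  have h3 := h2.add_const (φ t)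
  simp only [sub_add_cancel, zero_add] at h3
  exact h3

theorem C11.continuous {f φ : ℝ → ℝ} {L : ℝ} (h : C11 f φ L) : Continuous f := by
  rw [continuous_iff_continuousAt]
  intro t
  have h1 : Tendsto (fun s => φ t * |t - s| + L * (t - s) ^ 2) (𝓝 t) (𝓝 0) := by
    have : Continuous fun s : ℝ => φ t * |t - s| + L * (t - s) ^ 2 := by fun_prop
    simpa using this.tendsto t
  have h2 : Tendsto (fun s => f s - f t) (𝓝 t) (𝓝 0) :=
    squeeze_zero_norm (fun s => by rw [Real.norm_eq_abs, abs_sub_comm]; exact h.inc t s) h1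
  have h3 := h2.add_const (f t)
  simp only [sub_add_cancel, zero_add] at h3
  exact h3

theorem C11.neg {f φ : ℝ → ℝ} {L : ℝ} (h : C11 f φ L) : C11 (fun s => -f s) φ L :=
  ⟨fun s t => by rw [neg_sub_neg, abs_sub_comm]; exact h.inc s t, h.pos, h.lip⟩

theorem C11.add {f φ f' φ' : ℝ → ℝ} {L L' : ℝ} (h : C11 f φ L) (h' : C11 f' φ' L') :
    C11 (fun s => f s + f' s) (fun s => φ s + φ' s) (L + L') := by
  refine ⟨fun s t => ?_, fun s => add_nonneg (h.pos s) (h'.pos s), fun s t => ?_⟩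
  · rw [add_sub_add_comm]
    linarith [abs_add_le (f s - f t) (f' s - f' t), h.inc s t, h'.inc s t]
  · rw [add_sub_add_comm]
    linarith [abs_add_le (φ s - φ t) (φ' s - φ' t), h.lip s t, h'.lip s t]

theorem C11.const_mul {f φ : ℝ → ℝ} {L : ℝ} (h : C11 f φ L) (c : ℝ) :
    C11 (fun s => c * f s) (fun s => |c| * φ s) (|c| * L) := by
  refine ⟨fun s t => ?_, fun s => mul_nonneg (abs_nonneg c) (h.pos s), fun s t => ?_⟩
  · rw [← mul_sub, abs_mul]
    linarith [mul_le_mul_of_nonneg_left (h.inc s t) (abs_nonneg c)]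
  · rw [← mul_sub, abs_mul, abs_abs]
    linarith [mul_le_mul_of_nonneg_left (h.lip s t) (abs_nonneg c)]

theorem C11.shift {f φ : ℝ → ℝ} {L : ℝ} (h : C11 f φ L) (a : ℝ) :
    C11 (fun s => f (a + s)) (fun s => φ (a + s)) L :=
  ⟨fun s t => by simpa using h.inc (a + s) (a + t), fun s => h.pos _,
    fun s t => by simpa using h.lip (a + s) (a + t)⟩

theorem C11.mono {f φ : ℝ → ℝ} {L L' : ℝ} (h : C11 f φ L) (hL : L ≤ L') : C11 f φ L' :=
  ⟨fun s t => (h.inc s t).trans (add_le_add le_rfl (mul_le_mul_of_nonneg_right hL (sq_nonneg _))),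
    h.pos, fun s t => (h.lip s t).trans (mul_le_mul_of_nonneg_right hL (abs_nonneg _))⟩

/-- the square of a Lipschitz function -/
theorem C11.sq_lip {ψ : ℝ → ℝ} {L : ℝ} (hL : 0 ≤ L) (h : ∀ s t, |ψ s - ψ t| ≤ L * |s - t|) :
    C11 (fun s => ψ s ^ 2) (fun s => 2 * L * |ψ s|) (2 * L ^ 2) := by
  refine ⟨fun s t => ?_, fun s => by positivity, fun s t => ?_⟩
  · have e : ψ s ^ 2 - ψ t ^ 2 = 2 * ψ s * (ψ s - ψ t) - (ψ s - ψ t) ^ 2 := by ring
    have h1 : (ψ s - ψ t) ^ 2 ≤ L ^ 2 * (s - t) ^ 2 := by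
      have := pow_le_pow_left₀ (abs_nonneg _) (h s t) 2
      rwa [sq_abs, mul_pow, sq_abs] at this
    have h2 := mul_le_mul_of_nonneg_left (h s t) (abs_nonneg (ψ s))
    rw [e]
    refine (abs_sub _ _).trans ?_
    rw [abs_mul, abs_mul, abs_two, abs_of_nonneg (sq_nonneg (ψ s - ψ t))]
    nlinarith [mul_nonneg (sq_nonneg L) (sq_nonneg (s - t))]
  · rw [← mul_sub, abs_mul, abs_of_nonneg (by positivity : 0 ≤ 2 * L)]
    have := mul_le_mul_of_nonneg_left ((abs_abs_sub_abs_le _ _).trans (h s t))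
      (by positivity : 0 ≤ 2 * L)
    linarith

theorem integrable_quad {f : ℝ → ℝ} (hf : Continuous f) (a b c : ℝ)
    (h : ∀ z, |f z| ≤ a + b * |z| + c * z ^ 2) : Integrable f (gaussianReal 0 1) := by
  have h1 : Integrable (fun z : ℝ => |z|) (gaussianReal 0 1) :=
    ((memLp_id_gaussianReal 1).integrable le_rfl).abs
  have h2 : Integrable (fun z : ℝ => z ^ 2) (gaussianReal 0 1) :=
    (memLp_id_gaussianReal 2).integrable_sq
  exact (((integrable_const a).add (h1.const_mul b)).add (h2.const_mul c)).mono'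
    hf.aestronglyMeasurable (ae_of_all _ h)

theorem C11.integrable {f φ : ℝ → ℝ} {L : ℝ} (h : C11 f φ L) (σ : ℝ) :
    Integrable (fun z => f (σ * z)) (gaussianReal 0 1) := by
  refine integrable_quad (h.continuous.comp (by fun_prop)) |f 0| (φ 0 * |σ|) (L * σ ^ 2) fun z => ?_
  have h1 := h.inc 0 (σ * z)
  rw [zero_sub, abs_neg, abs_mul, neg_sq, mul_pow, abs_sub_comm] at h1
  have h2 := abs_sub_abs_le_abs_sub (f (σ * z)) (f 0)
  linarith

theorem lip_integrable_sq {φ : ℝ → ℝ} {L : ℝ} (hL : 0 ≤ L)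
    (h : ∀ s t, |φ s - φ t| ≤ L * |s - t|) (σ : ℝ) :
    Integrable (fun z => φ (σ * z) ^ 2) (gaussianReal 0 1) :=
  (C11.sq_lip hL h).integrable σ

theorem integrable_comp_coord (i : ι) {f : ℝ → ℝ} (hf : Integrable f (gaussianReal 0 1)) :
    Integrable (fun w : ι → ℝ => f (w i)) (gpi ι) :=
  (measurePreserving_eval (fun _ : ι => gaussianReal 0 1) i).integrable_comp_of_integrable hf

/-- the Euclidean norm of the vector of values -/
noncomputable def en (φ : ι → ℝ → ℝ) (u : ι → ℝ) : ℝ := √(∑ i, φ i (u i) ^ 2)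

theorem en_nonneg (φ : ι → ℝ → ℝ) (u : ι → ℝ) : 0 ≤ en φ u := sqrt_nonneg _

theorem en_sq (φ : ι → ℝ → ℝ) (u : ι → ℝ) : en φ u ^ 2 = ∑ i, φ i (u i) ^ 2 :=
  sq_sqrt (Finset.sum_nonneg fun _ _ => sq_nonneg _)

theorem sqrt_sum_eq (a : ι → ℝ) :
    √(∑ i, a i ^ 2) = ‖(WithLp.toLp 2 a : EuclideanSpace ℝ ι)‖ := by
  rw [EuclideanSpace.norm_eq]; simp

theorem en_lip {φ : ι → ℝ → ℝ} {L : ℝ} (hL : 0 ≤ L)
    (h : ∀ i s t, |φ i s - φ i t| ≤ L * |s - t|) : Lip L (en φ) := by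
  intro u v
  unfold en
  rw [sqrt_sum_eq fun i => φ i (u i), sqrt_sum_eq fun i => φ i (v i)]
  refine (abs_norm_sub_norm_le _ _).trans ?_
  rw [← WithLp.toLp_sub, ← sqrt_sum_eq]
  refine sqrt_le_iff.2 ⟨mul_nonneg hL (ed_nonneg _ _), ?_⟩
  rw [mul_pow, ed_sq, Finset.mul_sum]
  refine Finset.sum_le_sum fun i _ => ?_
  have := pow_le_pow_left₀ (abs_nonneg _) (h i (u i) (v i)) 2
  rwa [sq_abs, mul_pow, sq_abs] at this

theorem ed_smul {σ : ℝ} (hσ : 0 ≤ σ) (u v : ι → ℝ) : ed (σ • u) (σ • v) = σ * ed u v := by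
  unfold ed
  simp only [Pi.smul_apply, smul_eq_mul, ← mul_sub, mul_pow]
  rw [← Finset.mul_sum, sqrt_mul (sq_nonneg σ), sqrt_sq hσ]

theorem lip_smul {F : (ι → ℝ) → ℝ} {L σ : ℝ} (h : Lip L F) (hσ : 0 ≤ σ) :
    Lip (L * σ) fun w => F (σ • w) := fun u v => by
  have := h (σ • u) (σ • v)
  rwa [ed_smul hσ, ← mul_assoc] at this

/-- deterministic increment of an empirical sum -/
theorem sum_inc {f φ : ι → ℝ → ℝ} {L : ℝ} (h : ∀ i, C11 (f i) (φ i) L) (u v : ι → ℝ) :
    |∑ i, f i (u i) - ∑ i, f i (v i)| ≤ en φ u * ed u v + L * ed u v ^ 2 := by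
  rw [← Finset.sum_sub_distrib]
  refine (Finset.abs_sum_le_sum_abs _ _).trans
    ((Finset.sum_le_sum fun i _ => (h i).inc (u i) (v i)).trans ?_)
  rw [Finset.sum_add_distrib, ← Finset.mul_sum, ed_sq]
  refine add_le_add ?_ le_rfl
  have := Real.sum_mul_le_sqrt_mul_sqrt Finset.univ (fun i => φ i (u i)) (fun i => |u i - v i|)
  simp only [sq_abs] at this
  exact this

theorem integral_en_le {φ : ι → ℝ → ℝ} {L σ D : ℝ} (hL : 0 ≤ L) (hσ : 0 ≤ σ) (hD : 0 ≤ D)
    (h : ∀ i s t, |φ i s - φ i t| ≤ L * |s - t|)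
    (h2 : ∑ i, ∫ z, φ i (σ * z) ^ 2 ∂gaussianReal 0 1 ≤ D ^ 2) :
    ∫ w, en φ (σ • w) ∂gpi ι ≤ D := by
  have h1 := lip_smul (en_lip hL h) hσ
  refine integral_le_sqrt _ h1.integrable h1.integrable_sq hD (le_trans (le_of_eq ?_) h2)
  simp only [en_sq, Pi.smul_apply, smul_eq_mul]
  rw [integral_finsetSum _ fun i _ => integrable_comp_coord i (lip_integrable_sq hL (h i) σ)]
  exact Finset.sum_congr rfl fun i _ => integral_coord i (f := fun z => φ i (σ * z) ^ 2)
    (((lip_continuous (h i)).comp (by fun_prop)).pow 2).measurable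

/-- norm of a vector of Lipschitz functions of a Gaussian vector -/
theorem en_tail {φ : ι → ℝ → ℝ} {L σ D x : ℝ} (hL : 0 ≤ L) (hσ : 0 ≤ σ) (hD : 0 ≤ D) (hx : 0 ≤ x)
    (h : ∀ i s t, |φ i s - φ i t| ≤ L * |s - t|)
    (h2 : ∑ i, ∫ z, φ i (σ * z) ^ 2 ∂gaussianReal 0 1 ≤ D ^ 2) :
    (gpi ι).real {w | D + 2 * (L * σ) * √x < en φ (σ • w)} ≤ exp (-x) := by
  have h1 := lip_smul (en_lip hL h) hσ
  have h3 := integral_en_le hL hσ hD h h2
  rcases (mul_nonneg hL hσ).eq_or_lt with h0 | h0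
  · refine (real_imp_le _ (q := fun _ => False) fun w hw => ?_).trans ?_
    · have h4 : ∀ w', en φ (σ • w') = en φ (σ • w) := fun w' => by
        have := h1 w' w
        rw [← h0, zero_mul, abs_nonpos_iff, sub_eq_zero] at this
        exact this
      simp_rw [h4] at h3
      simp only [integral_const, probReal_univ, smul_eq_mul, one_mul] at h3
      rw [← h0] at hw
      linarith
    · simp only [Set.ofPred_false, measureReal_empty]; positivity
  · refine (real_imp_le _ fun w hw => ?_).trans (lip_tail h1 h0 hx)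
    linarith

theorem integral_sum_coord {f φ : ι → ℝ → ℝ} {L : ℝ} (h : ∀ i, C11 (f i) (φ i) L) (σ : ℝ) :
    ∫ w, ∑ i, f i ((σ • w) i) ∂gpi ι = ∑ i, ∫ z, f i (σ * z) ∂gaussianReal 0 1 := by
  simp only [Pi.smul_apply, smul_eq_mul]
  rw [integral_finsetSum _ fun i _ => integrable_comp_coord i ((h i).integrable σ)]
  exact Finset.sum_congr rfl fun i _ => integral_coord i (f := fun z => f i (σ * z))
    ((h i).continuous.comp (by fun_prop)).measurable

/-- **Empirical sums along a Gaussian vector.** -/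
theorem emp_gauss {f φ : ι → ℝ → ℝ} {L σ D x : ℝ} (hL : 0 < L) (hσ : 0 ≤ σ) (hD : 0 < D)
    (hx : 0 ≤ x) (h : ∀ i, C11 (f i) (φ i) L)
    (h2 : ∑ i, ∫ z, φ i (σ * z) ^ 2 ∂gaussianReal 0 1 ≤ D ^ 2) :
    (gpi ι).real {w | 3 * σ * D * √x + 20 * L * σ ^ 2 * x <
        |∑ i, f i (σ * w i) - ∑ i, ∫ z, f i (σ * z) ∂gaussianReal 0 1| ∨
      D + 4 * L * σ * √x < en φ (σ • w)} ≤ 3 * exp (-x) := by
  have hl := fun i => (h i).lip
  rcases hσ.eq_or_lt with h0 | h0
  · refine (real_imp_le _ (q := fun _ => False) fun w hw => ?_).trans ?_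
    · subst h0
      simp only [zero_mul, integral_const, probReal_univ, smul_eq_mul, one_mul, sub_self, mul_zero,
        abs_zero, add_zero] at hw h2
      rcases hw with hw | hw
      · simp at hw
      · have := pow_lt_pow_left₀ hw hD.le two_ne_zero
        rw [en_sq] at this
        simp only [Pi.smul_apply, smul_eq_mul, zero_mul] at this
        linarith
    · simp only [Set.ofPred_false, measureReal_empty]; positivity
  have h1 := lip_smul (en_lip hL.le hl) hσ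
  have h3 := integral_en_le hL.le hσ hD.le hl h2
  have hc : Continuous fun w : ι → ℝ => ∑ i, f i ((σ • w) i) :=
    continuous_finsetSum _ fun i _ => (h i).continuous.comp (by fun_prop)
  have key := two_level_lip (F := fun w => ∑ i, f i ((σ • w) i)) (Φ := fun w => σ * en φ (σ • w))
    hc.measurable (integrable_finsetSum _ fun i _ => integrable_comp_coord i ((h i).integrable σ))
    (Λ := 2 * L * σ ^ 2) (D := σ * D) (by positivity) hx
    ((h1.const_mul σ).mono (by rw [abs_of_pos h0]; nlinarith [mul_pos hL (mul_pos h0 h0)]))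
    (fun w => mul_nonneg hσ (en_nonneg _ _))
    (by rw [integral_const_mul]; exact mul_le_mul_of_nonneg_left h3 hσ) (by positivity)
    fun w w' => by
      have := sum_inc h (σ • w) (σ • w')
      rw [ed_smul hσ] at this
      refine this.trans (le_of_eq ?_)
      ring
  refine (real_imp_le _ fun w hw => ?_).trans key
  rw [integral_sum_coord h]
  rcases hw with hw | hw
  · left
    simp only [Pi.smul_apply, smul_eq_mul]
    linarith
  · right
    have := mul_lt_mul_of_pos_left hw h0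
    linarith

theorem ed_eq_nv (u v : Vec n) : ed u v = nv (u - v) := by
  rw [nv_eq_sqrt]; rfl

/-- **Empirical sums along a normalised projected Gaussian**, `e` bounds the distance. -/
theorem emp_rp {P : Mat n} (hP : Pᵀ = P) (hPP : P * P = P) {f φ : Fin n → ℝ → ℝ}
    {r L σ D x : ℝ} (ρ : ℝ) (hr : n - P.trace ≤ r) (hL : 0 < L) (hσ : 0 ≤ σ) (hD : 0 < D)
    (hx : 0 ≤ x) (h : ∀ i, C11 (f i) (φ i) L)
    (h2 : ∑ i, ∫ z, φ i (σ * z) ^ 2 ∂gaussianReal 0 1 ≤ D ^ 2) {e : ℝ}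
    (he : |√ρ - σ * √n| + 6 * σ * √(r + x) ≤ e) :
    (gpi (Fin n)).real {g | 2 * D * e + 3 * L * e ^ 2 <
      |∑ i, f i (rp ρ (P *ᵥ g) i) - ∑ i, ∫ z, f i (σ * z) ∂gaussianReal 0 1|} ≤ 6 * exp (-x) := by
  have h3 := emp_gauss hL hσ hD hx h h2
  have h4 := near_gauss hP hPP ρ hr hσ hx
  refine (real_or_le _ fun g hg => ?_).trans ((add_le_add h3 h4).trans (by linarith))
  by_contra hc
  simp only [not_or, not_lt] at hc
  obtain ⟨⟨h5, h6⟩, h7⟩ := hc
  have hr0 : 0 ≤ r := by linarith [trace_proj_le hP hPP]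
  have h8 := sum_inc h (σ • g) (rp ρ (P *ᵥ g))
  rw [ed_eq_nv, nv_sub_comm] at h8
  simp only [Pi.smul_apply, smul_eq_mul] at h8
  have h9 : 6 * (σ * √x) ≤ e := by
    have := mul_le_mul_of_nonneg_left (sqrt_le_sqrt (show x ≤ r + x by linarith)) hσ
    linarith [abs_nonneg (√ρ - σ * √n)]
  have h10 := h7.trans he
  have h11 : 0 ≤ σ * √x := by positivity
  have h12 : σ ^ 2 * x = (σ * √x) ^ 2 := by rw [mul_pow, sq_sqrt hx]
  have h13 := mul_le_mul h6 h10 (nv_nonneg _) (by positivity)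
  have h14 := mul_le_mul_of_nonneg_left (pow_le_pow_left₀ (nv_nonneg _) h10 2) hL.le
  have h15 := abs_sub_le (∑ i, f i (rp ρ (P *ᵥ g) i)) (∑ i, f i (σ * g i))
    (∑ i, ∫ z, f i (σ * z) ∂gaussianReal 0 1)
  rw [abs_sub_comm] at h8
  have h16 := mul_le_mul_of_nonneg_left h9 hD.le
  have h17 := mul_le_mul_of_nonneg_left (pow_le_pow_left₀ (by positivity) h9 2) hL.le
  have h18 := mul_le_mul_of_nonneg_left (mul_le_mul_of_nonneg_right h9 (by linarith : 0 ≤ e)) hL.le
  have h19 : 20 * L * σ ^ 2 * x = 20 * L * (σ * √x) ^ 2 := by rw [← h12]; ring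
  have h20 : 0 ≤ D * e := mul_nonneg hD.le (by linarith)
  have h21 : 0 ≤ L * e ^ 2 := by positivity
  nlinarith

/-- norm of a vector of Lipschitz functions along a normalised projected Gaussian -/
theorem en_rp {P : Mat n} (hP : Pᵀ = P) (hPP : P * P = P) {φ : Fin n → ℝ → ℝ}
    {r L σ D x : ℝ} (ρ : ℝ) (hr : n - P.trace ≤ r) (hL : 0 ≤ L) (hσ : 0 ≤ σ) (hD : 0 ≤ D)
    (hx : 0 ≤ x) (h : ∀ i s t, |φ i s - φ i t| ≤ L * |s - t|)
    (h2 : ∑ i, ∫ z, φ i (σ * z) ^ 2 ∂gaussianReal 0 1 ≤ D ^ 2) {e : ℝ}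
    (he : |√ρ - σ * √n| + 6 * σ * √(r + x) ≤ e) :
    (gpi (Fin n)).real {g | D + 2 * L * e < en φ (rp ρ (P *ᵥ g))} ≤ 4 * exp (-x) := by
  have h3 := en_tail hL hσ hD hx h h2
  have h4 := near_gauss hP hPP ρ hr hσ hx
  refine (real_or_le _ fun g hg => ?_).trans ((add_le_add h3 h4).trans (by linarith))
  by_contra hc
  simp only [not_or, not_lt] at hc
  obtain ⟨h6, h7⟩ := hc
  have hr0 : 0 ≤ r := by linarith [trace_proj_le hP hPP]
  have h8 := (abs_le.1 (en_lip hL h (rp ρ (P *ᵥ g)) (σ • g))).2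
  rw [ed_eq_nv] at h8
  have h9 : 6 * (σ * √x) ≤ e := by
    have := mul_le_mul_of_nonneg_left (sqrt_le_sqrt (show x ≤ r + x by linarith)) hσ
    linarith [abs_nonneg (√ρ - σ * √n)]
  have h10 := mul_le_mul_of_nonneg_left (h7.trans he) hL
  have h11 := mul_le_mul_of_nonneg_left h9 hL
  have h12 : 0 ≤ L * (σ * √x) := by positivity
  nlinarith

/-- a Lipschitz function along a normalised projected Gaussian -/
theorem lip_rp {P : Mat n} (hP : Pᵀ = P) (hPP : P * P = P) {F : Vec n → ℝ}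
    {r L σ x : ℝ} (ρ : ℝ) (hr : n - P.trace ≤ r) (hL : 0 < L) (hσ : 0 < σ) (hx : 0 ≤ x)
    (h : Lip L F) {e : ℝ} (he : |√ρ - σ * √n| + 6 * σ * √(r + x) ≤ e) :
    (gpi (Fin n)).real {g | 2 * L * e < |F (rp ρ (P *ᵥ g)) - ∫ w, F (σ • w) ∂gpi (Fin n)|} ≤
      5 * exp (-x) := by
  have h3 := lip_tail_abs (lip_smul h hσ.le) (mul_pos hL hσ) hx
  have h4 := near_gauss hP hPP ρ hr hσ.le hx
  refine (real_or_le _ fun g hg => ?_).trans ((add_le_add h3 h4).trans (by linarith))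
  by_contra hc
  simp only [not_or, not_lt, not_le] at hc
  obtain ⟨h6, h7⟩ := hc
  have hr0 : 0 ≤ r := by linarith [trace_proj_le hP hPP]
  have h8 := h (rp ρ (P *ᵥ g)) (σ • g)
  rw [ed_eq_nv] at h8
  have h9 : 6 * (σ * √x) ≤ e := by
    have := mul_le_mul_of_nonneg_left (sqrt_le_sqrt (show x ≤ r + x by linarith)) hσ.le
    linarith [abs_nonneg (√ρ - σ * √n)]
  have h10 := mul_le_mul_of_nonneg_left (h7.trans he) hL.le
  have h11 := mul_le_mul_of_nonneg_left h9 hL.le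
  have h12 : 0 ≤ L * (σ * √x) := by positivity
  have h13 := abs_sub_le (F (rp ρ (P *ᵥ g))) (F (σ • g)) (∫ w, F (σ • w) ∂gpi (Fin n))
  nlinarith

/-- the largest coordinate of a Gaussian vector -/
theorem sup_tail {x : ℝ} (hx : 0 ≤ x) :
    (gpi (Fin n)).real {w | ∃ i, 2 * √x ≤ |w i|} ≤ 2 * n * exp (-x) := by
  have h := real_exists_le (gpi (Fin n)) Finset.univ (fun i (w : Vec n) => 2 * √x ≤ |w i|)
    (fun _ => 2 * exp (-x)) fun i _ => by
      have h1 := ip_tail (Pi.single i (1 : ℝ) : Vec n) (L := 1)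
        (nv_le_of_sq_le zero_le_one (by simp [F.sq, Pi.single_apply])) one_pos hx
      simpa [ip, Pi.single_apply] using h1
  simp only [Finset.mem_univ, true_and, Finset.sum_const, Finset.card_univ, Fintype.card_fin,
    nsmul_eq_mul] at h
  linarith

/-- the largest coordinate of a normalised projected Gaussian -/
theorem sup_rp {P : Mat n} (hP : Pᵀ = P) (hPP : P * P = P) {t ρ : ℝ} (ht : 0 ≤ t) (hρ : 0 ≤ ρ) :
    (gpi (Fin n)).real {g | ∃ i, t * ρ < rp ρ (P *ᵥ g) i ^ 2} ≤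
      n * exp (1 - P.trace * t / 6) := by
  have h := real_exists_le (gpi (Fin n)) Finset.univ
    (fun i (g : Vec n) => t * ρ < rp ρ (P *ᵥ g) i ^ 2) (fun _ => exp (1 - P.trace * t / 6))
    fun i _ => by
      refine (real_imp_le _ fun g hg => ?_).trans (ip_rp_tail hP hPP (Pi.single i 1) ht hρ)
      have h1 := sq_proj_le hP hPP (Pi.single i (1 : ℝ))
      have h2 : F.sq (Pi.single i (1 : ℝ) : Vec n) = 1 := by simp [F.sq, Pi.single_apply]
      have h3 : ip (Pi.single i (1 : ℝ) : Vec n) (rp ρ (P *ᵥ g)) = rp ρ (P *ᵥ g) i := by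
        simp [ip, Pi.single_apply]
      rw [h3]
      have := mul_le_mul_of_nonneg_left (h1.trans h2.le) (mul_nonneg ht hρ)
      linarith
  simpa using h

end Emp

end Vale.Agent.N150.Tail
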