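import Vale.Agent.N150.EndLib
import Vale.Agent.N150.EndScheme
import Vale.Agent.N150.EndTerm
import Vale.Agent.N150.Tail3

/-! P150 at `β = 1`, endgame: the statement used by the bridge. -/

open MeasureTheory ProbabilityTheory Filter Topology
open scoped Matrix

namespace Vale.Agent.N150.End

open Vale.Agent.P150 Vale.Agent.P150.F

variable {n : ℕ}

/-- the library side, unconditionally -/
theorem libStmt : LibStmt' := libStmt_of schemeStmt termStmt

/-- the good terminal fields for the terminal matrix `M` and the reference `cen` -/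
def Bc (C θ : ℝ) (cen : Mat n → Vec n → Vec n) (M : Mat n) : Set (Vec n) :=
  {y | nv (mean (gM M y) - cen M y) ≤ C ∧ Term C θ (gM M y)}

/-- the endgame event for the pair `(J, W)`: after the observation of total precision `Qtot` of the
Gibbs measure of `b J + σ W` the field is good for the terminal matrix -/
def EndOK (C θ b σ s : ℝ) (cen : Mat n → Vec n → Vec n) (J W : Mat n) : Prop :=
  OpLe J (21 / 10) ∧ OpLe W (21 / 10) ∧ ∀ Rt : Mat n, Rt * Rtᵀ = Qtot σ s J W →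
    PY (gM (b • J + σ • W) 0) Rt 1 (Bc C θ cen (b • J + σ • W - Qtot σ s J W))ᶜ ≤ θ

/-- (E6) the no-outlier input along the levels of the library path, for the reference `cen` -/
def TLStmt (cen : ∀ n : ℕ, Mat n → Vec n → Vec n) : Prop := ∃ σ₀ > 0, ∀ b σ : ℝ, 0 < b → 0 < σ →
  σ ≤ σ₀ → b ^ 2 + σ ^ 2 = 1 → ∃ c₀ > 0, ∃ L, 1 ≤ L ∧ ∃ R > 0, ∃ (E c : ℝ) (A : ℕ), 0 < c ∧
    ∀ Nw l : ℕ, 0 < Nw → b / Nw * l ≤ 3 * σ → ∀ κ : ℝ, |κ| ≤ 1 → ∀ δ > 0, ∀ᶠ n : ℕ in atTop,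
      (PW n).real {w | ¬ ∀ S0 : Mat n, S0 * S0ᵀ = skM w.1 + (4 : ℝ) • (1 : Mat n) →
        ∃ G, TL c₀ L R E b (b / Nw / (n ^ A : ℕ)) c (l * n ^ A) (skM w.1) S0 G
          (fun j y => cen n ((b - b / Nw / (n ^ A : ℕ) * j) • goe w - κ • (1 : Mat n)) y)} ≤ δ

/-- the endgame -/
def EndStmt (cen : ∀ n : ℕ, Mat n → Vec n → Vec n) : Prop := ∃ σ₀ > 0, ∀ b σ : ℝ, 0 < b → 0 < σ →
  σ ≤ σ₀ → b ^ 2 + σ ^ 2 = 1 → ∃ s, 2 * σ ≤ s ∧ s ≤ 3 * σ ∧ ∃ C > 0, ∃ c > 0, ∀ δ > 0,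
    ∀ᶠ n : ℕ in atTop, (PW n).real {w₁ | δ < (PW n).real {w |
      ¬ EndOK C (Real.exp (-(c * n))) b σ s (cen n) (goe w₁) (goe w)}} ≤ δ

instance emProbDis : IsProbabilityMeasure (disorder n) := by unfold disorder; infer_instance

instance emProbPW : IsProbabilityMeasure (PW n) := by unfold PW; infer_instance

theorem sub_Qtot (b σ s : ℝ) (J W : Mat n) :
    b • J + σ • W - Qtot σ s J W = (b - s) • J - (4 * s - σ ^ 2) • (1 : Mat n) := by
  unfold Qtot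
  module

theorem qf_diag_sv (d : Vec n) (x : Cfg n) : qf (Matrix.diagonal d) (sv x) = ∑ i, d i := by
  unfold qf ip
  refine Finset.sum_congr rfl fun i _ => ?_
  rw [Matrix.mulVec_diagonal]
  have h : sv x i * sv x i = 1 := by unfold sv; cases x i <;> simp [sp]
  linear_combination d i * h

/-- the Gibbs measure does not see the diagonal -/
theorem gM_add_diag (M : Mat n) (d y : Vec n) : gM (M + Matrix.diagonal d) y = gM M y := by
  funext x
  have e : ∀ x : Cfg n, Real.exp (qf (M + Matrix.diagonal d) (sv x) / 2 + ip y (sv x))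
      = Real.exp ((∑ i, d i) / 2) * Real.exp (qf M (sv x) / 2 + ip y (sv x)) := by
    intro x
    rw [← Real.exp_add, ← qf_diag_sv d x]
    congr 1
    unfold qf
    rw [Matrix.add_mulVec, ip_add_right]
    ring
  unfold gM
  simp only [e]
  rw [← Finset.mul_sum, mul_div_mul_left _ _ (Real.exp_pos _).ne']

theorem gM_end (r κ : ℝ) (J : Mat n) (d y : Vec n) :
    gM (r • (J + Matrix.diagonal d) - κ • (1 : Mat n)) y = gM (r • J) y := by
  have e : r • (J + Matrix.diagonal d) - κ • (1 : Mat n)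
      = r • J + Matrix.diagonal fun i => r * d i - κ := by
    ext i j
    by_cases h : i = j
    · subst h; simp; ring
    · simp [h]
  rw [e, gM_add_diag]

theorem gM_start (b : ℝ) (J X : Mat n) (d : Vec n) :
    gM (b • (J + Matrix.diagonal d) + X) 0 = gM (b • J + X) 0 := by
  have e : b • (J + Matrix.diagonal d) + X = b • J + X + Matrix.diagonal fun i => b * d i := by
    ext i j
    by_cases h : i = j
    · subst h; simp; ring
    · simp [h]
  rw [e, gM_add_diag]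

theorem PY_mono {μ : Cfg n → ℝ} (hμ : ∀ x, 0 ≤ μ x) (R : Mat n) (s : ℝ) {B B' : Set (Vec n)}
    (h : B ⊆ B') : PY μ R s B ≤ PY μ R s B' :=
  Finset.sum_le_sum fun x _ => mul_le_mul_of_nonneg_left
    (measureReal_mono (fun _ hξ => h hξ) (measure_ne_top _ _)) (hμ x)

theorem Term.mono {C θ C' θ' : ℝ} {ρ : Cfg n → ℝ} (hρ : ∀ x, 0 < ρ x) (h : Term C θ ρ)
    (hC : C ≤ C') (hθ : θ ≤ θ') : Term C' θ' ρ := by
  intro f A hA hf hfA
  obtain ⟨h1, h2⟩ := h f A hA hf hfA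
  have h3 : 0 ≤ DirW ρ f (fun x => Real.log (f x)) := by
    unfold DirW
    refine mul_nonneg (by norm_num) (Finset.sum_nonneg fun i _ => Finset.sum_nonneg fun x _ => ?_)
    refine mul_nonneg (div_nonneg (mul_pos (hρ _) (hρ _)).le (add_pos (hρ _) (hρ _)).le) ?_
    rcases le_total (f x) (f (flip x i)) with h | h
    · exact mul_nonneg (sub_nonneg.2 h) (sub_nonneg.2 (Real.log_le_log (hf _) h))
    · exact mul_nonneg_of_nonpos_of_nonpos (sub_nonpos.2 h)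
        (sub_nonpos.2 (Real.log_le_log (hf _) h))
  have h4 := mul_le_mul_of_nonneg_right hC h3
  have h5 := mul_le_mul_of_nonneg_left hθ (sq_nonneg A)
  constructor <;> linarith

theorem opLe_diag {d : Vec n} {η : ℝ} (h : ∀ a, |d a| ≤ η) : OpLe (Matrix.diagonal d) η := by
  intro v
  unfold F.sq
  rw [Finset.mul_sum]
  refine Finset.sum_le_sum fun i _ => ?_
  rw [Matrix.mulVec_diagonal, mul_pow]
  exact mul_le_mul_of_nonneg_right (sq_le_sq' (abs_le.1 (h i)).1 (abs_le.1 (h i)).2) (sq_nonneg _)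

theorem qf_Qtot (σ s : ℝ) (J W : Mat n) (v : Vec n) :
    qf (Qtot σ s J W) v = s * qf J v + σ * qf W v + (4 * s - σ ^ 2) * F.sq v := by
  have e : Qtot σ s J W = s • J + σ • W + (4 * s - σ ^ 2) • (1 : Mat n) := by
    unfold Qtot
    module
  rw [e]
  unfold qf
  rw [Matrix.add_mulVec, Matrix.add_mulVec, Matrix.smul_mulVec, Matrix.smul_mulVec,
    Matrix.smul_mulVec, Matrix.one_mulVec, ip_add_right, ip_add_right, ip_smul_right,
    ip_smul_right, ip_smul_right, ip_self]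

/-- two-sided bounds on the total precision -/
theorem Qtot_bounds {σ s : ℝ} {J W : Mat n} (hσ : 0 ≤ σ) (hσ1 : σ ≤ 1 / 10) (hs : 2 * σ ≤ s)
    (hJ : OpLe J (21 / 10)) (hW : OpLe W (21 / 10)) (v : Vec n) :
    4 / 5 * s * F.sq v ≤ qf (Qtot σ s J W) v ∧ qf (Qtot σ s J W) v ≤ 8 * s * F.sq v := by
  have h1 := abs_le.1 (abs_qf_le (by norm_num) hJ v)
  have h2 := abs_le.1 (abs_qf_le (by norm_num) hW v)
  have h0 : 0 ≤ F.sq v := sq_nonneg' v
  have hs0 : 0 ≤ s := by linarith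
  have a1 := mul_le_mul_of_nonneg_left h1.1 hs0
  have a2 := mul_le_mul_of_nonneg_left h1.2 hs0
  have a3 := mul_le_mul_of_nonneg_left h2.1 hσ
  have a4 := mul_le_mul_of_nonneg_left h2.2 hσ
  have a5 := mul_le_mul_of_nonneg_right hs h0
  have a6 : σ ^ 2 * F.sq v ≤ 1 / 10 * (σ * F.sq v) := by nlinarith [mul_nonneg hσ h0]
  have a7 : 0 ≤ σ ^ 2 * F.sq v := by positivity
  have a8 := mul_nonneg hσ h0
  rw [qf_Qtot]
  constructor <;> nlinarith

/-- events of the off-diagonal disorder, read on the full matrix -/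
theorem PW_fst {P : Idx0 → Prop} (h : ∀ᶠ i in whpF, P i) {δ : ℝ} (hδ : 0 < δ) :
    ∀ᶠ n : ℕ in atTop, (PW n).real {w | ¬ P ⟨n, w.1⟩} ≤ δ := by
  have h1 := (eventually_whpF.1 h).eventually (ge_mem_nhds (ENNReal.ofReal_pos.2 hδ))
  filter_upwards [h1] with n hn
  have e : {w : (Pairs n → ℝ) × Vec n | ¬ P ⟨n, w.1⟩} = {g | ¬ P ⟨n, g⟩} ×ˢ Set.univ := by
    ext w; simp
  rw [Measure.real, e, PW, Measure.prod_prod, measure_univ, mul_one]
  exact ENNReal.toReal_le_of_le_ofReal hδ.le hn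

/-- the diagonal of the GOE matrix is small -/
theorem PW_diag {η δ : ℝ} (hη : 0 < η) (hδ : 0 < δ) :
    ∀ᶠ n : ℕ in atTop, (PW n).real {w | ¬ ∀ a, |√(2 / (n : ℝ)) * w.2 a| ≤ η} ≤ δ := by
  filter_upwards [ev_poly 1 (2 / δ) (c := η ^ 2 / 8) (by positivity), eventually_gt_atTop 0]
    with n h1 hn
  have hn0 : (0 : ℝ) < n := by exact_mod_cast hn
  have h2 := Tail.sup_tail (n := n) (x := η ^ 2 / 8 * n) (by positivity)
  have e : {w : (Pairs n → ℝ) × Vec n | ¬ ∀ a, |√(2 / (n : ℝ)) * w.2 a| ≤ η}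
      ⊆ Set.univ ×ˢ {w : Vec n | ∃ i, 2 * √(η ^ 2 / 8 * n) ≤ |w i|} := by
    intro w hw
    simp only [Set.mem_ofPred_eq, not_forall, not_le] at hw
    obtain ⟨a, ha⟩ := hw
    refine ⟨trivial, a, ?_⟩
    rw [abs_mul, abs_of_nonneg (Real.sqrt_nonneg _)] at ha
    have h3 : √(2 / (n : ℝ)) * (2 * √(η ^ 2 / 8 * n)) = η := by
      rw [← mul_assoc, mul_comm (√(2 / (n : ℝ))) 2, mul_assoc, ← Real.sqrt_mul (by positivity)]
      have h4 : 2 / (n : ℝ) * (η ^ 2 / 8 * n) = (η / 2) ^ 2 := by field_simp; ring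
      rw [h4, Real.sqrt_sq (by positivity)]
      ring
    rw [← h3] at ha
    exact (lt_of_mul_lt_mul_left ha (Real.sqrt_nonneg _)).le
  refine (measureReal_mono e (measure_ne_top _ _)).trans ?_
  rw [Measure.real, PW, Measure.prod_prod, measure_univ, one_mul]
  refine h2.trans ?_
  rw [pow_one] at h1
  have h5 := mul_le_mul_of_nonneg_left h1 hδ.le
  have e2 : δ * (2 / δ * n * Real.exp (-(η ^ 2 / 8 * n))) = 2 * n * Real.exp (-(η ^ 2 / 8 * n)) := by
    field_simp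
  linarith

/-- a level of the library path between `2 σ` and `3 σ` -/
theorem exists_level {b σ : ℝ} (hb : 0 < b) (hσ : 0 < σ) (hσ1 : σ ≤ 1 / 10) (h : b ^ 2 + σ ^ 2 = 1)
    (N₀ : ℕ) : ∃ Nw l : ℕ, N₀ ≤ Nw ∧ 0 < Nw ∧ l < Nw ∧ 2 * σ ≤ b / Nw * l ∧ b / Nw * l ≤ 3 * σ := by
  obtain ⟨N₁, hN₁⟩ := exists_nat_gt (1 / σ)
  set Nw := max N₀ N₁ with hNw
  have h1 : (N₁ : ℝ) ≤ Nw := by exact_mod_cast le_max_right _ _
  have h2 : 1 / σ < Nw := hN₁.trans_le h1
  have h3 : (0 : ℝ) < Nw := lt_trans (by positivity) h2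
  have hb1 : b ≤ 1 := by nlinarith
  have hb2 : 9 / 10 ≤ b := by nlinarith
  have hτ : 0 < b / Nw := by positivity
  have hτσ : b / Nw ≤ σ := by
    rw [div_lt_iff₀ hσ] at h2
    rw [div_le_iff₀ h3]
    nlinarith
  have h4 : 2 * σ / (b / Nw) ≤ ⌈2 * σ / (b / Nw)⌉₊ := Nat.le_ceil _
  have h5 : (⌈2 * σ / (b / Nw)⌉₊ : ℝ) < 2 * σ / (b / Nw) + 1 := Nat.ceil_lt_add_one (by positivity)
  set l := ⌈2 * σ / (b / Nw)⌉₊ with hl
  rw [div_le_iff₀ hτ] at h4
  have h6 : b / Nw * l < 2 * σ + b / Nw := by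
    have := mul_lt_mul_of_pos_left h5 hτ
    rwa [mul_add, mul_one, mul_div_cancel₀ _ hτ.ne'] at this
  refine ⟨Nw, l, le_max_left _ _, by exact_mod_cast h3, ?_, by linarith, by linarith⟩
  have h7 : b / Nw * l < b / Nw * Nw := by
    rw [div_mul_cancel₀ _ h3.ne']
    linarith
  exact_mod_cast lt_of_mul_lt_mul_left h7 hτ.le

/-- **The endgame** from the law comparison and the no-outlier input. -/
theorem endStmt_of {cen : ∀ n : ℕ, Mat n → Vec n → Vec n} (hL : LawStmt) (hT : TLStmt cen) :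
    EndStmt cen := by
  obtain ⟨σ₀, hσ₀, hT⟩ := hT
  refine ⟨min σ₀ (1 / 20), by positivity, fun b σ hb hσ hσ0 hbσ => ?_⟩
  have hσ2 : σ ≤ 1 / 20 := hσ0.trans (min_le_right _ _)
  have hσ1 : σ ≤ 1 / 10 := by linarith
  have hb1 : b < 1 := by nlinarith
  obtain ⟨c₀, hc₀, L, hL1, R, hR, E, c, A, hc, hT⟩ := hT b σ hb hσ (hσ0.trans (min_le_left _ _)) hbσ
  obtain ⟨N₀, hN₀⟩ := libStmt b hb hb1 whpF (fun i => i.1) (fun i => skM i.2) (prob b hb.le hb1)
    c₀ L R hc₀ hL1 hR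
  obtain ⟨Nw, l, hNw, hNw0, hl, hs2, hs3⟩ := exists_level hb hσ hσ1 hbσ N₀
  obtain ⟨C, hC, c', hc', hlib⟩ := hN₀ Nw hNw E c A hc
  set s := b / Nw * l with hs
  obtain ⟨η, hη, c'', hc'', hlaw⟩ := hL b σ s hb hσ hσ1 hbσ hs2 hs3 c' hc'
  refine ⟨s, hs2, hs3, C, hC, min c' c'', lt_min hc' hc'', fun δ hδ => ?_⟩
  have hδ5 : 0 < δ / 5 := by positivity
  filter_upwards [PW_fst hlib hδ5, PW_fst (hlaw δ hδ) hδ5, PW_fst (G0_op (1 / 20) (by norm_num)) hδ5,
    PW_diag (lt_min hη (show (0 : ℝ) < 1 / 20 by norm_num)) hδ5,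
    hT Nw l hNw0 hs3 (4 * s - σ ^ 2) (abs_le.2 ⟨by nlinarith, by nlinarith⟩) (δ / 5) hδ5,
    eventually_gt_atTop 0] with n e1 e2 e3 e4 e5 hn
  have hn0 : (0 : ℝ) ≤ n := Nat.cast_nonneg n
  have hM : 0 < n ^ A := pow_pos hn A
  have hM' : ((n ^ A : ℕ) : ℝ) ≠ 0 := by exact_mod_cast hM.ne'
  refine le_trans (measureReal_mono (fun w₁ hw => ?_) (measure_ne_top _ _))
    ((measureReal_union_le _ _).trans (add_le_add ((measureReal_union_le _ _).trans (add_le_add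
      ((measureReal_union_le _ _).trans (add_le_add ((measureReal_union_le _ _).trans
        (add_le_add e1 e2)) e3)) e4)) e5)) |>.trans (le_of_eq (by ring))
  by_contra hcon
  simp only [Set.mem_union, Set.mem_ofPred_eq, not_or, not_not] at hcon
  obtain ⟨⟨⟨⟨a1, a2⟩, a3⟩, a4⟩, a5⟩ := hcon
  obtain ⟨S0, hS0⟩ := d6_exists_sqrt (skM_symm w₁.1) (by norm_num) a3 (κ := 4) (by norm_num)
  obtain ⟨G, hG⟩ := a5 S0 hS0
  obtain ⟨B, hB⟩ := a1 l hl (n ^ A) hM le_rfl S0 G _ hS0 hG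
  have a6 := a2 (fun a => √(2 / (n : ℝ)) * w₁.2 a) S0 Bᶜ (fun a => (a4 a).trans (min_le_left _ _))
    hS0 hB.meas.compl hB.prob
  have hJ : OpLe (goe w₁) (21 / 10) :=
    (a3.add (opLe_diag fun a => (a4 a).trans (min_le_right _ _)) (by norm_num)
      (by norm_num)).monoN (by norm_num) (by norm_num)
  have hlev : b - b / Nw / (n ^ A : ℕ) * (l * n ^ A : ℕ) = b - s := by
    rw [hs, Nat.cast_mul]
    field_simp
  have hθ1 : Real.exp (-(c' * n)) ≤ Real.exp (-(min c' c'' * n)) :=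
    Real.exp_le_exp.2 (neg_le_neg (mul_le_mul_of_nonneg_right (min_le_left _ _) hn0))
  have hθ2 : Real.exp (-(c'' * n)) ≤ Real.exp (-(min c' c'' * n)) :=
    Real.exp_le_exp.2 (neg_le_neg (mul_le_mul_of_nonneg_right (min_le_right _ _) hn0))
  refine absurd hw (not_lt.2 (le_trans (measureReal_mono (fun w hw' => ?_) (measure_ne_top _ _)) a6))
  intro hw2
  refine hw' ⟨hJ, hw2.1, fun Rt hRt => ?_⟩
  have b1 := hw2.2 Rt hRt
  have e0 : gM (b • goe w₁ + σ • goe w) 0 = gM (b • skM w₁.1 + σ • goe w) 0 := gM_start _ _ _ _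
  rw [e0]
  refine (PY_mono (fun x => (gM_pos _ _ x).le) Rt 1 (Set.compl_subset_compl.2 fun y hy => ?_)).trans
    (b1.trans hθ2)
  have e1' : gM ((b - s) • goe w₁ - (4 * s - σ ^ 2) • (1 : Mat n)) y = gM ((b - s) • skM w₁.1) y :=
    gM_end _ _ _ _ _
  have b2 := hB.near y hy
  have b3 := hB.term y hy
  rw [hlev] at b2
  rw [sub_Qtot]
  refine ⟨?_, ?_⟩
  · rw [e1']; exact b2
  · rw [e1']; exact b3.mono (gM_pos _ _) le_rfl hθ1

end Vale.Agent.N150.End
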