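import Vale.Agent.N150.EndPos

/-! P150 at `β = 1`, endgame: along a path without exit, all centres are free and the tracked
solution stays at the given centres. -/

open MeasureTheory ProbabilityTheory Filter Topology
open scoped Matrix

namespace Vale.Agent.N150.End

open Vale.Agent.P150 Vale.Agent.P150.F

variable {n : ℕ} (p : SPar n)

theorem not_kill {i t : ℕ} (ht : t < p.d * p.q) :
    ¬ ∃ i' : Fin p.Nw, (i * (p.d + 1) * p.q + t) / p.q = i' * (p.d + 1) + p.d := by
  rintro ⟨i', h⟩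
  have hq := p.hq
  rw [mul_comm (i * (p.d + 1)) p.q, Nat.mul_add_div hq] at h
  have h1 : t / p.q < p.d := Nat.div_lt_of_lt_mul (by rw [mul_comm]; exact ht)
  have h2 := p.idx_mod (i := i) (a := t / p.q) h1.le
  have h3 := p.idx_mod (i := i') (a := p.d) le_rfl
  rw [h] at h2
  omega

theorem steer_add (x : Cfg n) (ω : ℕ → Vec n) (i : ℕ) {t : ℕ} (ht : t ≤ p.d * p.q) :
    p.rr (i * (p.d + 1) * p.q + t) = p.rr (i * (p.d + 1) * p.q) ∧
      p.yJ x ω (i * (p.d + 1) * p.q + t) = p.yJ x ω (i * (p.d + 1) * p.q) := by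
  induction t with
  | zero => exact ⟨rfl, rfl⟩
  | succ t ih =>
    have h := not_kill p (i := i) (t := t) (by omega)
    have ih' := ih (by omega)
    rw [← add_assoc, p.rr_succ_not h, p.yJ_succ_not h]
    exact ih'

theorem kill_add (i : Fin p.Nw) {t : ℕ} (ht : t ≤ p.q) :
    p.rr ((i * (p.d + 1) + p.d) * p.q + t)
      = p.rr ((i * (p.d + 1) + p.d) * p.q) - t * (p.dl * p.τ) := by
  induction t with
  | zero => simp
  | succ t ih =>
    have h : ((i * (p.d + 1) + p.d) * p.q + t) / p.q = i * (p.d + 1) + p.d :=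
      p.lp_div_iff.2 ⟨by omega, by rw [add_mul _ 1, one_mul]; omega⟩
    rw [← add_assoc, p.rr_succ_kill h, ih (by omega)]
    push_cast
    ring

theorem kill_start (i : ℕ) : (i * (p.d + 1) + p.d) * p.q = i * (p.d + 1) * p.q + p.d * p.q := by
  ring

theorem kill_end (i : ℕ) : (i * (p.d + 1) + p.d) * p.q + p.q = (i + 1) * (p.d + 1) * p.q := by
  ring

theorem q_dl : (p.q : ℝ) * p.dl = 1 := by
  have := p.q_pos'.ne'
  unfold SPar.dl
  field_simp

theorem rr_start {i : ℕ} (hi : i ≤ p.Nw) : p.rr (i * (p.d + 1) * p.q) = p.β - p.τ * i := by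
  induction i with
  | zero => simp [p.rr_zero]
  | succ i ih =>
    have h1 := kill_add p ⟨i, by omega⟩ (t := p.q) le_rfl
    simp only at h1
    rw [kill_end, kill_start, (steer_add p (fun _ => true) (fun _ => 0) i le_rfl).1, ih (by omega),
      ← mul_assoc, q_dl] at h1
    rw [h1]
    push_cast
    ring

/-- the mesh levels of the killing phase of window `i` -/
def kap (q' i a : ℕ) : ℕ := (i * (p.d + 1) + p.d) * p.q + a * q'

theorem rr_kap {M q' : ℕ} (hM : 0 < M) (hq : p.q = M * q') {i a : ℕ} (hi : i < p.Nw) (ha : a ≤ M) :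
    p.rr (kap p q' i a) = p.β - p.τ / M * ((i * M + a : ℕ) : ℝ) := by
  have h1 := kill_add p ⟨i, hi⟩ (t := a * q') (by rw [hq]; exact Nat.mul_le_mul_right _ ha)
  simp only at h1
  unfold kap
  rw [h1, kill_start, (steer_add p (fun _ => true) (fun _ => 0) i le_rfl).1, rr_start p hi.le]
  have hMR : (M : ℝ) ≠ 0 := by exact_mod_cast hM.ne'
  have h2 : (M : ℝ) * q' * p.dl = 1 := by
    have := q_dl p
    rw [hq] at this
    push_cast at this
    exact this
  have h3 : (q' : ℝ) * p.dl = 1 / M := by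
    rw [eq_div_iff hMR]
    linarith
  push_cast
  calc p.β - p.τ * i - a * q' * (p.dl * p.τ) = p.β - p.τ * i - a * (q' * p.dl) * p.τ := by ring
    _ = _ := by rw [h3]; field_simp; ring

theorem kap_last {M q' : ℕ} (hq : p.q = M * q') (i : ℕ) :
    kap p q' i M = (i + 1) * (p.d + 1) * p.q := by
  unfold kap
  rw [← hq, kill_end]

theorem yJ_kap_zero (q' : ℕ) (x : Cfg n) (ω : ℕ → Vec n) (i : ℕ) :
    p.yJ x ω (kap p q' i 0) = p.yJ x ω (i * (p.d + 1) * p.q) := by
  unfold kap
  rw [zero_mul, add_zero, kill_start, (steer_add p x ω i le_rfl).2]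

variable {p} {x : Cfg n} {ω : ℕ → Vec n} {P : ℕ → p.Ctr} {y m : ℕ → Vec n}

/-- no steering before window `i` if the previous centres are free -/
theorem no_steer (h : p.IsPath x ω P y m) {i : ℕ} (hi : i ≤ p.Nw)
    (hf : ∀ i' : Fin p.Nw, (i' : ℕ) < i → ∀ a, p.vd (P (i' * (p.d + 1) * p.q)) i' a = 0)
    {k : ℕ} (hk : k ≤ i * (p.d + 1) * p.q) : p.AA k (P k) = 0 ∧ y k = p.yJ x ω k := by
  have hcase : ∀ (i' : Fin p.Nw) (a : Fin p.d),
      p.vd (P k) i' a = 0 ∨ k ≤ ((i' : ℕ) * (p.d + 1) + a) * p.q := by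
    intro i' a
    by_cases h1 : (i' : ℕ) * (p.d + 1) * p.q ≤ k ∧ (i' : ℕ) < i
    · left
      rw [h.vd_eq i' a le_rfl h1.1]
      exact hf i' h1.2 a
    · right
      have h2 : k ≤ (i' : ℕ) * (p.d + 1) * p.q := by
        rcases not_and_or.1 h1 with h3 | h3
        · omega
        · refine hk.trans ?_
          gcongr
          omega
      refine h2.trans ?_
      gcongr
      omega
  constructor
  · unfold SPar.AA
    rw [Finset.sum_eq_zero, smul_zero]
    intro i' _
    refine Finset.sum_eq_zero fun a _ => ?_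
    rcases hcase i' a with h1 | h1
    · rw [h1]; ext; simp
    · rw [p.th_eq_zero h1, zero_mul, zero_smul]
  · rw [h.y_eq (hk.trans (by gcongr))]
    rw [Finset.sum_eq_zero, add_zero]
    intro i' _
    refine Finset.sum_eq_zero fun a _ => ?_
    rcases hcase i' a with h1 | h1
    · rw [h1, smul_zero]
    · rw [p.cS_eq_zero _ _ _ h1, zero_smul]

theorem isSol_of_not_exit {c : ℝ} {k : ℕ} {P : p.Ctr} {y : Vec n}
    (h : ((k, (P, y)) : p.St) ∉ p.exitS c) : p.IsSol k P y (p.mh c k P y) := by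
  have hs' : ¬ (¬ p.Valid k P ∨ ¬ p.Mono c k P ∨
      (¬ ∃ m, p.IsSol k P y m) ∨ p.far k P (p.mh c k P y)) := h
  rw [not_or, not_or, not_or, not_not, not_not, not_not] at hs'
  exact p.mh_spec hs'.2.1 hs'.2.2.1

/-- the window at the mesh levels of the killing phase of window `i` -/
theorem window_kap (h : p.IsPath x ω P y m) {M q' : ℕ} (hq : p.q = M * q') (i : Fin p.Nw)
    (hi : (i : ℕ) + 1 < p.Nw) {a : ℕ} (ha : a ≤ M) :
    p.cen (kap p q' i a) (P (kap p q' i a)) = p.ctr (P (i * (p.d + 1) * p.q)) i ∧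
      p.rad (kap p q' i a) = p.ρ * √n := by
  have hq0 := p.hq
  have hle : (i : ℕ) * (p.d + 1) * p.q ≤ kap p q' i a := by
    unfold kap; rw [kill_start]; omega
  rcases eq_or_lt_of_le ha with h1 | h1
  · subst h1
    have hk : p.kind (kap p q' i a) = .steer ⟨i + 1, hi⟩ ⟨0, p.hd⟩ := by
      rw [p.kind_eq_steer_iff, kap_last p hq]
      simp only [add_zero]
      exact Nat.mul_div_cancel _ hq0
    rw [p.cen_steer hk, p.rad_steer hk]
    refine ⟨?_, rfl⟩
    unfold SPar.ctrPrev
    rw [dif_pos (by simp)]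
    have e : (⟨((⟨i + 1, hi⟩ : Fin p.Nw) : ℕ) - 1, by simp⟩ : Fin p.Nw) = i := Fin.ext (by simp)
    rw [e]
    exact h.ctr_eq i le_rfl hle
  · have hq' : 0 < q' := by
      rcases Nat.eq_zero_or_pos q' with h2 | h2
      · rw [h2, mul_zero] at hq; omega
      · exact h2
    have hk : p.kind (kap p q' i a) = .kill i := by
      rw [p.kind_eq_kill_iff]
      refine p.lp_div_iff.2 ⟨by unfold kap; omega, ?_⟩
      unfold kap
      have : a * q' < M * q' := Nat.mul_lt_mul_of_pos_right h1 hq'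
      rw [add_mul _ 1, one_mul]
      omega
    rw [p.cen_kill hk, p.rad_kill hk]
    exact ⟨h.ctr_eq i le_rfl hle, rfl⟩

/-- the centre of window `i` is close to the tracked solution at the start of the window -/
theorem ctr_near (h : p.IsPath x ω P y m) (hℓ : 16 ≤ p.ρ * p.ℓ) (i : Fin p.Nw)
    (h0 : nv (m 0) ≤ p.ρ * √n) :
    nv (p.ctr (P (i * (p.d + 1) * p.q)) i - m (i * (p.d + 1) * p.q)) ≤ p.ρ * √n := by
  rcases Nat.eq_zero_or_pos ((i : ℕ) * (p.d + 1) * p.q) with h1 | h1
  · rw [h1, h.P0]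
    have e : p.ctr 0 i = 0 := by funext j; simp [SPar.ctr]
    rw [e, zero_sub, nv_neg]
    exact h0
  · have hℓ0 : (0 : ℝ) < p.ℓ := by exact_mod_cast p.hℓ
    refine nv_le_sqrt p.hρ.le fun j => ?_
    have e := congrFun (h.P_start i rfl h1) j
    rw [Pi.sub_apply]
    unfold SPar.ctr
    rw [e]
    set u := m (i * (p.d + 1) * p.q) j
    have h2 := Int.floor_le (p.ℓ * u)
    have h3 := Int.lt_floor_add_one (p.ℓ * u)
    have e2 : ((⌊p.ℓ * u⌋ : ℤ) : ℝ) / p.ℓ - u = (((⌊p.ℓ * u⌋ : ℤ) : ℝ) - p.ℓ * u) / p.ℓ := by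
      field_simp
    rw [e2, abs_div, abs_of_pos hℓ0, div_le_iff₀ hℓ0, abs_le]
    constructor <;> linarith

/-- **the path induction** -/
theorem path_free {K : Cst} (hK : p.Adm K) (hF : Free K p) (h : p.IsPath x ω P y m)
    (hm : ∀ k, m k = p.mh K.c k (P k) (y k)) {c₀ L R E c : ℝ} (hc₀ : 0 < c₀) (hL : 1 ≤ L)
    (hc₁ : K.c₁ ≤ c₀) (hLK : L ≤ K.L) (hρ : p.ρ ≤ R / 8) (hτ : 9 * p.τ ≤ c₀)
    (hE : E ≤ c₀ * (R * √n / 8)) {M q' l : ℕ} (hM : 0 < M) (hq : p.q = M * q') (hl : l < p.Nw)
    {G : ℕ → Set (Vec n)} {cen : ℕ → Vec n → Vec n}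
    (hT : TL c₀ L R E p.β (p.τ / M) c (l * M) p.J p.S0 G cen)
    (hne : ∀ k ≤ l * (p.d + 1) * p.q, ((k, (P k, y k)) : p.St) ∉ p.exitS K.c)
    (hG0 : (0 : Vec n) ∈ G 0)
    (hG : ∀ i < l, ∀ a ≤ M, p.yJ x ω (kap p q' i a) ∈ G (i * M + a))
    (hI : ∀ i < l, ∀ a < M, nv (p.yJ x ω (kap p q' i (a + 1)) - p.yJ x ω (kap p q' i a))
      ≤ 20 * √(p.τ / M) * √n) :
    p.yJ x ω (l * (p.d + 1) * p.q) ∈ G (l * M) ∧
      p.AA (l * (p.d + 1) * p.q) (P (l * (p.d + 1) * p.q)) = 0 ∧
      y (l * (p.d + 1) * p.q) = p.yJ x ω (l * (p.d + 1) * p.q) ∧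
      c₀ * nv (m (l * (p.d + 1) * p.q) - cen (l * M) (p.yJ x ω (l * (p.d + 1) * p.q))) ≤ E := by
  have hρ0 := p.hρ
  have hR : 0 < R := by linarith
  have hsn : 0 ≤ √(n : ℝ) := Real.sqrt_nonneg _
  have hρn : p.ρ * √n ≤ R * √n / 8 := by
    have := mul_le_mul_of_nonneg_right hρ hsn
    linarith
  have hRn : 0 ≤ R * √n := by positivity
  have hL0 : 0 < L := by linarith
  have hMR : (0 : ℝ) < M := by exact_mod_cast hM
  have hτ0 := p.τ_nonneg
  have hsol : ∀ k ≤ l * (p.d + 1) * p.q, p.IsSol k (P k) (y k) (m k) := by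
    intro k hk
    rw [hm k]
    exact isSol_of_not_exit (hne k hk)
  have hdiv : ∀ {u : ℝ}, c₀ * u ≤ E → u ≤ R * √n / 8 := fun hu =>
    le_of_mul_le_mul_left (hu.trans hE) hc₀
  have hk0 : p.kind 0 = .steer ⟨0, p.hNw⟩ ⟨0, p.hd⟩ := by
    rw [p.kind_eq_steer_iff]; simp
  have hm0 : nv (m 0) ≤ p.ρ * √n := by
    have h1 := (hsol 0 (Nat.zero_le _)).1.2
    rw [p.cen_steer hk0, p.rad_steer hk0] at h1
    unfold SPar.ctrPrev at h1
    rw [dif_neg (by simp), sub_zero] at h1
    exact h1
  -- the statement at the start of window `i`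
  have key : ∀ i ≤ l,
      (∀ i' : Fin p.Nw, (i' : ℕ) < i → ∀ a, p.vd (P (i' * (p.d + 1) * p.q)) i' a = 0) ∧
      p.yJ x ω (i * (p.d + 1) * p.q) ∈ G (i * M) ∧
      (∀ m' ∈ Win.window (cen (i * M) (p.yJ x ω (i * (p.d + 1) * p.q))) (R * √n), ∀ v,
        c₀ * F.sq v ≤ HL L (p.β - p.τ / M * ((i * M : ℕ) : ℝ)) p.J m' v) ∧
      c₀ * nv (m (i * (p.d + 1) * p.q) - cen (i * M) (p.yJ x ω (i * (p.d + 1) * p.q))) ≤ E := by
    intro i
    induction i with
    | zero =>
      intro _
      simp only [zero_mul, p.yJ_zero]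
      have hc := hT.ctr 0 (Nat.zero_le _) 0 hG0
      have h0w : (0 : Vec n) ∈ Win.window (cen 0 0) (R * √n) :=
        ⟨fun i => by simp, by rw [zero_sub, nv_neg]; linarith [hT.zero]⟩
      have hpos := pos_window hL0 hc₀ p.hJ hc.2.2 h0w (by
        intro v
        have h1 := (abs_le.1 (abs_qf_le (by linarith [hK.ok.hε]) hK.op v)).2
        have h2 := hK.ok.hερ
        rw [← hK.β_eq] at h2
        have h3 : ∑ i, min (1 / (1 - (0 : Vec n) i ^ 2)) L * v i ^ 2 = F.sq v := by
          unfold F.sq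
          refine Finset.sum_congr rfl fun i _ => ?_
          simp [min_eq_left hL]
        have h4 : qq (0 : Vec n) = 0 := by simp [qq, F.sq]
        have h5 : ip (0 : Vec n) v = 0 := by simp [ip]
        unfold HL
        rw [h3, h4, h5]
        simp only [Nat.cast_zero, mul_zero, sub_zero]
        have hv := sqN_nonneg v
        have hb0 := p.hβ
        have hb1 := p.hβ1
        have h6 := mul_le_mul_of_nonneg_left h1 hb0
        have h7 : p.β * K.ε ≤ (1 - p.β) ^ 2 := by
          nlinarith [hK.ok.hε, sq_nonneg K.ρ, sq_nonneg (1 - p.β)]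
        have h8 := mul_le_mul_of_nonneg_right h7 hv
        nlinarith)
      refine ⟨fun i' hi' => absurd hi' (Nat.not_lt_zero _), hG0, hpos, ?_⟩
      have hs := hsol 0 (Nat.zero_le _)
      refine ident hR.le hc hpos ⟨hs.1.1, ?_⟩ ?_
      · have := nv_sub_le (m 0) (cen 0 0)
        linarith [hT.zero]
      · have h1 := hs.2
        rw [p.rr_zero, p.AA_zero, h.y0] at h1
        simpa using h1
    | succ i ih =>
      intro hil
      obtain ⟨f1, f2, f3, f4⟩ := ih (by omega)
      have hiN : i < p.Nw := by omega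
      set z := p.ctr (P (i * (p.d + 1) * p.q)) ⟨i, hiN⟩ with hz
      have hzm : nv (z - m (i * (p.d + 1) * p.q)) ≤ p.ρ * √n :=
        ctr_near h (by rw [hK.ρ_eq, hK.ℓ_eq]; exact hK.ok.hℓ) ⟨i, hiN⟩ hm0
      have hzc : nv (z - cen (i * M) (p.yJ x ω (i * (p.d + 1) * p.q))) ≤ p.ρ * √n + R * √n / 8 := by
        have := nv_sub_triangle z (m (i * (p.d + 1) * p.q))
          (cen (i * M) (p.yJ x ω (i * (p.d + 1) * p.q)))
        linarith [hdiv f4]
      have hr : p.τ / M * ((i * M : ℕ) : ℝ) = p.τ * i := by push_cast; field_simp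
      have hfree : ∀ a, p.dirs i z a = 0 := by
        refine hF i z fun m' hm' hmz v => ?_
        have h1 : nv (m' - z) ≤ p.ρ * √n := by
          refine nv_le_of_sq_le (by positivity) ?_
          rw [mul_pow, Real.sq_sqrt (Nat.cast_nonneg n)]
          exact hmz
        have h2 := nv_sub_triangle m' z (cen (i * M) (p.yJ x ω (i * (p.d + 1) * p.q)))
        have h3 := f3 m' ⟨hm', by linarith⟩ v
        rw [hr] at h3
        have h4 := mul_le_mul_of_nonneg_right hc₁ (sqN_nonneg v)
        exact h4.trans (h3.trans (HL_mono_L hLK _ _ _))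
      have g1 : ∀ i' : Fin p.Nw, (i' : ℕ) < i + 1 → ∀ a,
          p.vd (P (i' * (p.d + 1) * p.q)) i' a = 0 := by
        intro i' hi' a
        rcases Nat.lt_succ_iff_lt_or_eq.1 hi' with h1 | h1
        · exact f1 i' h1 a
        · have e : i' = ⟨i, hiN⟩ := Fin.ext h1
          subst e
          exact hfree a
      have hkl : ∀ a ≤ M, kap p q' i a ≤ (i + 1) * (p.d + 1) * p.q := by
        intro a ha
        rw [← kap_last p hq]
        unfold kap
        have := Nat.mul_le_mul_right q' ha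
        omega
      have hrI : ∀ a ≤ M, p.β - p.τ / M * ((i * M + a : ℕ) : ℝ) ∈ Set.Icc (0 : ℝ) 1 := by
        intro a ha
        rw [← rr_kap p hM hq hiN ha]
        exact ⟨p.rr_nonneg _, p.rr_le_one _⟩
      have hjl : ∀ a ≤ M, i * M + a ≤ l * M := by
        intro a ha
        have : (i + 1) * M ≤ l * M := Nat.mul_le_mul_right _ hil
        rw [add_mul, one_mul] at this
        omega
      -- the induction over the mesh levels
      have inner : ∀ a ≤ M,
          (∀ m' ∈ Win.window (cen (i * M + a) (p.yJ x ω (kap p q' i a))) (R * √n), ∀ v,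
            c₀ * F.sq v ≤ HL L (p.β - p.τ / M * ((i * M + a : ℕ) : ℝ)) p.J m' v) ∧
          nv (z - cen (i * M + a) (p.yJ x ω (kap p q' i a))) ≤ p.ρ * √n + R * √n / 8 ∧
          (0 < a → c₀ * nv (m (kap p q' i a) - cen (i * M + a) (p.yJ x ω (kap p q' i a))) ≤ E) := by
        intro a
        induction a with
        | zero =>
          intro _
          rw [yJ_kap_zero, add_zero]
          exact ⟨f3, hzc, fun h => absurd h (lt_irrefl 0)⟩
        | succ a iha =>
          intro ha
          obtain ⟨e1, e2, -⟩ := iha (by omega)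
          have hy0 := hG i (by omega) a (by omega)
          have hy1 := hG i (by omega) (a + 1) ha
          have hc := hT.ctr (i * M + (a + 1)) (hjl _ ha) _ hy1
          have hlink := hT.link (i * M + a) (by have := hjl _ ha; omega) _ hy0 _ hy1
            (hI i (by omega) a (by omega))
          set c1 := cen (i * M + (a + 1)) (p.yJ x ω (kap p q' i (a + 1))) with hc1
          set c0 := cen (i * M + a) (p.yJ x ω (kap p q' i a)) with hc0
          have hlink' : nv (c1 - c0) ≤ R * √n / 8 := hlink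
          have hpos := pos_window hL0 hc₀ p.hJ hc.2.2 (m₀ := c1)
            ⟨hc.1, by rw [sub_self, nv_zero]; exact hRn⟩ (by
              intro v
              have h1 := e1 c1 ⟨hc.1, by linarith⟩ v
              have h2 := HL_sub_le (L := L) (hrI a (by omega)) (hrI (a + 1) ha) p.hJ3
                (fun i => (hc.1 i).le) v
              have h3 : |p.β - p.τ / M * ((i * M + (a + 1) : ℕ) : ℝ)
                  - (p.β - p.τ / M * ((i * M + a : ℕ) : ℝ))| ≤ p.τ := by
                have e : p.β - p.τ / M * ((i * M + (a + 1) : ℕ) : ℝ)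
                    - (p.β - p.τ / M * ((i * M + a : ℕ) : ℝ)) = -(p.τ / M) := by
                  push_cast; ring
                rw [e, abs_neg, abs_of_nonneg (by positivity)]
                exact div_le_self hτ0 (by exact_mod_cast hM)
              have h4 := mul_le_mul_of_nonneg_right h3 (sqN_nonneg v)
              have h5 := mul_le_mul_of_nonneg_right hτ (sqN_nonneg v)
              nlinarith)
          have hkl' : kap p q' i (a + 1) ≤ l * (p.d + 1) * p.q :=
            (hkl _ ha).trans (by gcongr)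
          have hs := hsol _ hkl'
          obtain ⟨w1, w2⟩ := window_kap h hq ⟨i, hiN⟩ (by simp only; omega) ha
          obtain ⟨n1, n2⟩ := no_steer h (i := i + 1) (by omega) g1 (hkl _ ha)
          have hw := hs.1.2
          simp only at w1 w2
          rw [w1, w2, ← hz] at hw
          have h0 := hs.2
          rw [n1, n2, rr_kap p hM hq hiN ha] at h0
          have hb : nv (m (kap p q' i (a + 1)) - c1) ≤ R * √n := by
            have t1 := nv_sub_triangle (m (kap p q' i (a + 1))) z c1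
            have t2 := nv_sub_triangle z c0 c1
            rw [nv_sub_comm c0 c1] at t2
            linarith
          have hid := ident hR.le hc hpos ⟨hs.1.1, hb⟩ h0
          refine ⟨hpos, ?_, fun _ => hid⟩
          have t1 := nv_sub_triangle z (m (kap p q' i (a + 1))) c1
          rw [nv_sub_comm z (m (kap p q' i (a + 1)))] at t1
          linarith [hdiv hid]
      obtain ⟨e1, -, e3⟩ := inner M le_rfl
      have hy := hG i (by omega) M le_rfl
      have eM : i * M + M = (i + 1) * M := by ring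
      rw [kap_last p hq, eM] at e1 e3 hy
      exact ⟨g1, hy, e1, e3 hM⟩
  obtain ⟨f1, f2, -, f4⟩ := key l le_rfl
  obtain ⟨n1, n2⟩ := no_steer h hl.le f1 le_rfl
  exact ⟨f2, n1, n2, f4⟩

end Vale.Agent.N150.End
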