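import Vale.Agent.N150.EndDefs

/-! P150 at `β = 1`, endgame: positivity of the truncated TAP Hessian from invertibility. -/

open MeasureTheory ProbabilityTheory Filter Topology
open scoped Matrix

namespace Vale.Agent.N150.End

open Vale.Agent.P150 Vale.Agent.P150.F

variable {n : ℕ}

/-- a symmetric matrix with no spectrum in `(-c, c)` and which is `≥ -c'`, `c' < c`, is `≥ c` -/
theorem pos_of_inv {H : Mat n} (hH : H.IsSymm) {c c' : ℝ} (hcc : c' < c)
    (h1 : ∀ v, c * nv v ≤ nv (H *ᵥ v)) (h2 : ∀ v, -c' * F.sq v ≤ qf H v) (v : Vec n) :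
    c * F.sq v ≤ qf H v := by
  have hA : (H - c • (1 : Mat n)).IsHermitian := by
    ext i j
    rw [Matrix.conjTranspose_apply, star_trivial, Matrix.sub_apply, Matrix.sub_apply,
      Matrix.smul_apply, Matrix.smul_apply, hH.apply i j]
    by_cases h : i = j
    · subst h; rfl
    · rw [Matrix.one_apply_ne h, Matrix.one_apply_ne (Ne.symm h)]
  have hpsd : (H - c • (1 : Mat n)).PosSemidef := by
    rw [hA.posSemidef_iff_eigenvalues_nonneg]
    intro j
    set w : Vec n := ⇑(hA.eigenvectorBasis j) with hw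
    set μ := hA.eigenvalues j with hμ
    have e1 : (H - c • (1 : Mat n)) *ᵥ w = μ • w := hA.mulVec_eigenvectorBasis j
    have e2 : H *ᵥ w = (μ + c) • w := by
      rw [Matrix.sub_mulVec, Matrix.smul_mulVec, Matrix.one_mulVec] at e1
      rw [add_smul, ← e1]; abel
    have hn : nv w = 1 := by
      unfold nv
      rw [hw]
      simp
    have hsq : F.sq w = 1 := by rw [← nv_sq, hn]; norm_num
    have h3 := h1 w
    rw [e2, nv_smul, hn, mul_one, mul_one] at h3
    have h4 := h2 w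
    unfold qf at h4
    rw [e2, ip_smul_right, ipN_self, hsq, mul_one, mul_one] at h4
    show (0 : ℝ) ≤ μ
    rcases le_abs.1 h3 with h | h
    · linarith
    · linarith
  have h5 := hpsd.dotProduct_mulVec_nonneg v
  rw [star_trivial] at h5
  have h6 : qf (H - c • (1 : Mat n)) v = v ⬝ᵥ (H - c • (1 : Mat n)) *ᵥ v := rfl
  rw [← h6, Win.qf_sub, Win.qf_smul, Win.qf_one] at h5
  linarith

theorem qf_HLm (L r : ℝ) (J : Mat n) (m v : Vec n) : qf (HLm L r J m) v = HL L r J m v := by
  unfold HLm HL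
  rw [Win.qf_sub, Win.qf_sub, Win.qf_add, Win.qf_smul, Win.qf_smul, Win.qf_smul, Win.qf_one,
    Win.qf_vecMulVec]
  congr 3
  exact Win.qf_dg _ v

theorem HLm_symm (L r : ℝ) {J : Mat n} (hJ : J.IsSymm) (m : Vec n) : (HLm L r J m).IsSymm := by
  unfold HLm
  refine ((Matrix.IsSymm.add (Matrix.isSymm_diagonal _) (Matrix.isSymm_one.smul _)).sub
    (hJ.smul _)).sub (Matrix.IsSymm.smul ?_ _)
  ext i j
  simp [Matrix.vecMulVec_apply, mul_comm]

/-- the truncated diagonal, as a globally continuous function -/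
noncomputable def trD (L u : ℝ) : ℝ := 1 / max (1 - u ^ 2) (1 / L)

theorem trD_eq {L u : ℝ} (hL : 0 < L) (hu : |u| < 1) : trD L u = min (1 / (1 - u ^ 2)) L := by
  have h1 : 0 < 1 - u ^ 2 := by
    have := sq_abs u
    have h2 : |u| ^ 2 < 1 := pow_lt_one₀ (abs_nonneg u) hu (by norm_num)
    linarith
  unfold trD
  rcases le_total (1 - u ^ 2) (1 / L) with h | h
  · rw [max_eq_right h, one_div_one_div, min_eq_right]
    rw [le_div_iff₀ h1]
    rw [le_div_iff₀ hL] at h
    linarith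
  · rw [max_eq_left h, min_eq_left]
    rw [div_le_iff₀ h1]
    rw [div_le_iff₀ hL] at h
    linarith

theorem continuous_trD {L : ℝ} (hL : 0 < L) : Continuous (trD L) := by
  unfold trD
  refine continuous_const.div (by fun_prop) fun u => ?_
  exact (lt_of_lt_of_le (by positivity) (le_max_right _ _)).ne'

/-- the globally continuous version of the form `HL` -/
noncomputable def HLc (L r : ℝ) (J : Mat n) (m v : Vec n) : ℝ :=
  (∑ i, trD L (m i) * v i ^ 2) + r ^ 2 * (1 - qq m) * F.sq v - r * qf J v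
    - 2 * r ^ 2 / n * ip m v ^ 2

theorem HLc_eq {L : ℝ} (hL : 0 < L) (r : ℝ) (J : Mat n) {m : Vec n} (hm : ∀ i, |m i| < 1)
    (v : Vec n) : HLc L r J m v = HL L r J m v := by
  unfold HLc HL
  congr 3
  exact Finset.sum_congr rfl fun i _ => by rw [trD_eq hL (hm i)]

theorem continuous_HLc {L : ℝ} (hL : 0 < L) (r : ℝ) (J : Mat n) :
    Continuous fun p : Vec n × Vec n => HLc L r J p.1 p.2 := by
  have h1 := continuous_trD hL
  unfold HLc qq F.sq qf ip Matrix.mulVec dotProduct
  fun_prop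

theorem HLc_smul (L r : ℝ) (J : Mat n) (m v : Vec n) (a : ℝ) :
    HLc L r J m (a • v) = a ^ 2 * HLc L r J m v := by
  have e1 : ∑ i, trD L (m i) * (a • v) i ^ 2 = a ^ 2 * ∑ i, trD L (m i) * v i ^ 2 := by
    rw [Finset.mul_sum]
    exact Finset.sum_congr rfl fun i _ => by rw [Pi.smul_apply, smul_eq_mul]; ring
  have e2 : F.sq (a • v) = a ^ 2 * F.sq v := by rw [← nv_sq, nv_smul, mul_pow, sq_abs, nv_sq]
  have e3 : qf J (a • v) = a ^ 2 * qf J v := by
    unfold qf
    rw [Matrix.mulVec_smul, ip_smul_left, ip_smul_right]; ring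
  unfold HLc
  rw [e1, e2, e3, ip_smul_right]
  ring

/-- positivity propagates in a window on which the truncated Hessian is uniformly invertible -/
theorem pos_window {L r c R : ℝ} (hL : 0 < L) (hc : 0 < c) {J : Mat n} (hJ : J.IsSymm) {z : Vec n}
    (hinv : ∀ m : Vec n, (∀ i, |m i| < 1) → nv (m - z) ≤ R → ∀ v, c * nv v ≤ nv (HLm L r J m *ᵥ v))
    {m₀ : Vec n} (h₀ : m₀ ∈ Win.window z R) (hp : ∀ v, 0 ≤ HL L r J m₀ v) :
    ∀ m ∈ Win.window z R, ∀ v, c * F.sq v ≤ HL L r J m v := by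
  intro m hm
  have hdi : ∀ m ∈ Win.window z R, (∀ v, -(c / 2) * F.sq v ≤ HL L r J m v) →
      ∀ v, c * F.sq v ≤ HL L r J m v := by
    intro m hm h v
    rw [← qf_HLm]
    refine pos_of_inv (HLm_symm L r hJ m) (c' := c / 2) (by linarith) (hinv m hm.1 hm.2)
      (fun v => ?_) v
    rw [qf_HLm]; exact h v
  set γ : ℝ → Vec n := fun t => m₀ + t • (m - m₀) with hγ
  have hγc : Continuous γ := by rw [hγ]; fun_prop
  have hγw : ∀ t ∈ Set.Icc (0 : ℝ) 1, γ t ∈ Win.window z R := fun t ht => Win.window_line h₀ hm ht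
  set S : Set ℝ := {t | ∀ v, c * F.sq v ≤ HLc L r J (γ t) v} with hS
  have hScl : IsClosed S := by
    have : S = ⋂ v : Vec n, {t | c * F.sq v ≤ HLc L r J (γ t) v} := by
      ext t; simp [hS]
    rw [this]
    refine isClosed_iInter fun v => isClosed_le continuous_const ?_
    exact Continuous.comp (g := fun p : Vec n × Vec n => HLc L r J p.1 p.2)
      (f := fun t : ℝ => (γ t, v)) (continuous_HLc hL r J) (hγc.prodMk continuous_const)
  have hsph : IsCompact {v : Vec n | nv v = 1} := by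
    refine Metric.isCompact_of_isClosed_isBounded (isClosed_eq Win.continuous_nv continuous_const) ?_
    rw [isBounded_iff_forall_norm_le]
    refine ⟨1, fun v hv => ?_⟩
    rw [pi_norm_le_iff_of_nonneg zero_le_one]
    intro i
    rw [Real.norm_eq_abs]
    exact (abs_le_nv v i).trans (le_of_eq hv)
  have h0 : (0 : ℝ) ∈ S := by
    intro v
    have e : γ 0 = m₀ := by simp [hγ]
    rw [e, HLc_eq hL r J h₀.1]
    refine hdi m₀ h₀ (fun v => le_trans ?_ (hp v)) v
    have := mul_nonneg (by linarith : 0 ≤ c / 2) (sqN_nonneg v)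
    linarith
  have hsub : Set.Icc (0 : ℝ) 1 ⊆ S := by
    refine IsClosed.Icc_subset_of_forall_mem_nhdsWithin (hScl.inter isClosed_Icc) h0 ?_
    intro t ⟨ht, ht01⟩
    have hev : ∀ᶠ t' in 𝓝 t, ∀ v ∈ {v : Vec n | nv v = 1}, 0 < HLc L r J (γ t') v := by
      refine hsph.eventually_forall_of_forall_eventually fun v hv => ?_
      have hcont : Continuous fun p : ℝ × Vec n => HLc L r J (γ p.1) p.2 :=
        Continuous.comp (g := fun p : Vec n × Vec n => HLc L r J p.1 p.2)
          (f := fun p : ℝ × Vec n => (γ p.1, p.2)) (continuous_HLc hL r J)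
          ((hγc.comp continuous_fst).prodMk continuous_snd)
      have h1 : 0 < HLc L r J (γ t) v := by
        have h2 := ht v
        have h3 : F.sq v = 1 := by rw [← nv_sq, show nv v = 1 from hv]; norm_num
        rw [h3, mul_one] at h2
        linarith
      exact hcont.continuousAt.eventually (lt_mem_nhds h1)
    have hev2 : ∀ᶠ t' in 𝓝[>] t, t' ∈ Set.Icc (0 : ℝ) 1 := by
      have h1 : ∀ᶠ t' in 𝓝[>] t, t' < 1 :=
        mem_nhdsWithin_of_mem_nhds (gt_mem_nhds ht01.2)
      filter_upwards [h1, self_mem_nhdsWithin] with t' h1 h2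
      exact ⟨ht01.1.trans (le_of_lt h2), h1.le⟩
    filter_upwards [mem_nhdsWithin_of_mem_nhds hev, hev2] with t' h1 h2
    intro v
    have hw := hγw t' h2
    rw [HLc_eq hL r J hw.1]
    refine hdi _ hw (fun v => ?_) v
    rw [← HLc_eq hL r J hw.1]
    have h3 : 0 ≤ HLc L r J (γ t') v := by
      rcases eq_or_lt_of_le (nv_nonneg v) with h4 | h4
      · have h5 : v = 0 := by
          funext i
          have := abs_le_nv v i
          rw [← h4] at this
          exact abs_nonpos_iff.1 this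
        have h6 := HLc_smul L r J (γ t') v 0
        rw [zero_smul, ← h5] at h6
        rw [h6]; simp
      · have h5 : v = nv v • ((nv v)⁻¹ • v) := by
          rw [smul_smul, mul_inv_cancel₀ h4.ne', one_smul]
        have h6 : nv ((nv v)⁻¹ • v) = 1 := by
          rw [nv_smul, abs_of_pos (inv_pos.2 h4), inv_mul_cancel₀ h4.ne']
        rw [h5, HLc_smul]
        exact mul_nonneg (sq_nonneg _) (h1 _ h6).le
    have := mul_nonneg (by linarith : 0 ≤ c / 2) (sqN_nonneg v)
    linarith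
  intro v
  have h1 := hsub ⟨zero_le_one, le_rfl⟩ v
  have e : γ 1 = m := by simp [hγ]
  rwa [e, HLc_eq hL r J hm.1] at h1

theorem abs_qf_le {J : Mat n} {C : ℝ} (hC : 0 ≤ C) (hJ : OpLe J C) (v : Vec n) :
    |qf J v| ≤ C * F.sq v := by
  have h1 := abs_ip_le v (J *ᵥ v)
  have h2 := mul_le_mul_of_nonneg_left (hJ.nv_le hC v) (nv_nonneg v)
  have h3 : qf J v = ip v (J *ᵥ v) := rfl
  rw [h3, ← nv_sq]
  linarith

/-- dependence of the truncated Hessian on the coupling -/
theorem HL_sub_le {L r r' : ℝ} (hr : r ∈ Set.Icc (0 : ℝ) 1) (hr' : r' ∈ Set.Icc (0 : ℝ) 1)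
    {J : Mat n} (hJ : OpLe J 3) {m : Vec n} (hm : ∀ i, |m i| ≤ 1) (v : Vec n) :
    HL L r J m v - 9 * |r' - r| * F.sq v ≤ HL L r' J m v := by
  have hv := sqN_nonneg v
  have h1 := abs_qf_le (by norm_num) hJ v
  have hq0 := qq_nonneg m
  have hq1 := qq_le_one hm
  have h2 : |r' ^ 2 - r ^ 2| ≤ 2 * |r' - r| := by
    have e : r' ^ 2 - r ^ 2 = (r' + r) * (r' - r) := by ring
    rw [e, abs_mul]
    refine mul_le_mul_of_nonneg_right ?_ (abs_nonneg _)
    rw [abs_of_nonneg (by linarith [hr.1, hr'.1])]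
    linarith [hr.2, hr'.2]
  have h3 : 0 ≤ ip m v ^ 2 / n := by positivity
  have h4 : ip m v ^ 2 / n ≤ F.sq v := by
    rcases Nat.eq_zero_or_pos n with h | h
    · subst h; simpa using hv
    have hn : (0 : ℝ) < n := by exact_mod_cast h
    rw [div_le_iff₀ hn]
    have h5 := abs_ip_le m v
    have h6 : ip m v ^ 2 ≤ (nv m * nv v) ^ 2 := by
      rw [← sq_abs]
      exact pow_le_pow_left₀ (abs_nonneg _) h5 2
    have h7 : nv m ^ 2 ≤ n := by
      have := pow_le_pow_left₀ (nv_nonneg m) (nv_le_sqrt_n hm) 2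
      rwa [Real.sq_sqrt hn.le] at this
    rw [mul_pow, nv_sq v] at h6
    have := mul_le_mul_of_nonneg_right h7 hv
    linarith
  have e : HL L r' J m v - HL L r J m v = (r' ^ 2 - r ^ 2) * ((1 - qq m) * F.sq v)
      - (r' - r) * qf J v - 2 * ((r' ^ 2 - r ^ 2) * (ip m v ^ 2 / n)) := by
    unfold HL; ring
  have b1 : |(r' ^ 2 - r ^ 2) * ((1 - qq m) * F.sq v)| ≤ 2 * |r' - r| * F.sq v := by
    rw [abs_mul]
    refine mul_le_mul h2 ?_ (abs_nonneg _) (by positivity)
    rw [abs_of_nonneg (mul_nonneg (by linarith) hv)]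
    nlinarith
  have b2 : |(r' - r) * qf J v| ≤ |r' - r| * (3 * F.sq v) := by
    rw [abs_mul]
    exact mul_le_mul_of_nonneg_left h1 (abs_nonneg _)
  have b3 : |(r' ^ 2 - r ^ 2) * (ip m v ^ 2 / n)| ≤ 2 * |r' - r| * F.sq v := by
    rw [abs_mul]
    refine mul_le_mul h2 ?_ (abs_nonneg _) (by positivity)
    rw [abs_of_nonneg h3]; exact h4
  have := (abs_le.1 b1).1
  have := (abs_le.1 b2).2
  have := (abs_le.1 b3).2
  linarith

theorem HL_mono_L {L L' r : ℝ} (h : L ≤ L') (J : Mat n) (m v : Vec n) :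
    HL L r J m v ≤ HL L' r J m v := by
  unfold HL
  have : ∑ i, min (1 / (1 - m i ^ 2)) L * v i ^ 2 ≤ ∑ i, min (1 / (1 - m i ^ 2)) L' * v i ^ 2 :=
    Finset.sum_le_sum fun i _ => mul_le_mul_of_nonneg_right (min_le_min_left _ h) (sq_nonneg _)
  linarith

/-- an exact TAP solution in a ball with positive Hessian is close to the approximate one -/
theorem ident {c₀ L R E r : ℝ} {J : Mat n} {y c m : Vec n} (hR : 0 ≤ R)
    (hc : Ctr0 c₀ L R E r J y c)
    (hp : ∀ m ∈ Win.window c (R * √n), ∀ v, c₀ * F.sq v ≤ HL L r J m v)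
    (hm : m ∈ Win.window c (R * √n)) (h0 : tapG r J 0 y m = 0) : c₀ * nv (m - c) ≤ E := by
  have hH : ∀ m ∈ Win.window c (R * √n), ∀ v, c₀ * F.sq v ≤ qf (Hess r J 0 m) v := by
    intro m hm v
    have h1 := Win.HL_le_Hess L r J 0 (m := m) v
    have h2 : qf (0 : Mat n) v = 0 := by unfold qf ip; simp
    linarith [hp m hm v]
  have hcw : c ∈ Win.window c (R * √n) :=
    ⟨hc.1, by rw [sub_self, nv_zero]; positivity⟩
  have h1 := Win.dist_le (y := y) hH hcw hm
  rw [h0, zero_sub, nv_neg] at h1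
  exact h1.trans hc.2.1

end Vale.Agent.N150.End
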