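import Vale.Agent.N150.EndMain
import Vale.Agent.N150.EndDiag
import Vale.Agent.N150.ECAux

/-! P150 at `β = 1`, endgame: measurability of the endgame event and the bound in the product
measure. -/

open MeasureTheory ProbabilityTheory Filter Topology
open scoped Matrix ENNReal

namespace Vale.Agent.N150.End

open Vale.Agent.P150 Vale.Agent.P150.F Vale.Agent.P150.F.Ms

variable {n : ℕ} {α : Type} [MeasurableSpace α]

/-- the reference is jointly measurable in the matrix and the field -/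
def CenMeas (cen : Mat n → Vec n → Vec n) : Prop :=
  ∀ (α : Type) [MeasurableSpace α] (M : α → Mat n) (y : α → Vec n), MMat M → MVec y →
    MVec fun a => cen (M a) (y a)

theorem isClosed_term (C θ : ℝ) :
    IsClosed {ν : {ν : Cfg n → ℝ // ∀ x, 0 < ν x} | Term C θ ν.1} := by
  simp only [Term, Set.ofPred_forall, Set.ofPred_and]
  refine isClosed_iInter fun f => isClosed_iInter fun A => isClosed_iInter fun _ =>
    isClosed_iInter fun hf => isClosed_iInter fun _ => ?_
  have c0 : ∀ x, Continuous fun ν : {ν : Cfg n → ℝ // ∀ x, 0 < ν x} => ν.1 x := fun x =>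
    (continuous_apply x).comp continuous_subtype_val
  have c1 : ∀ g : Cfg n → ℝ, Continuous fun ν : {ν : Cfg n → ℝ // ∀ x, 0 < ν x} => Ex ν.1 g :=
    fun g => continuous_finsetSum _ fun x _ => (c0 x).mul continuous_const
  have p1 : ∀ ν : {ν : Cfg n → ℝ // ∀ x, 0 < ν x}, Ex ν.1 f ≠ 0 := fun ν =>
    (Finset.sum_pos (fun x _ => mul_pos (ν.2 x) (hf x)) Finset.univ_nonempty).ne'
  have c2 : Continuous fun ν : {ν : Cfg n → ℝ // ∀ x, 0 < ν x} =>
      C * DirW ν.1 f (fun x => Real.log (f x)) + A ^ 2 * θ := by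
    refine (continuous_const.mul (continuous_const.mul ?_)).add continuous_const
    refine continuous_finsetSum _ fun i _ => continuous_finsetSum _ fun x _ => ?_
    exact (((c0 x).mul (c0 _)).div ((c0 x).add (c0 _))
      fun ν => (add_pos (ν.2 x) (ν.2 _)).ne').mul continuous_const
  refine IsClosed.inter (isClosed_le ?_ c2) (isClosed_le ?_ c2)
  · exact (c1 _).sub ((c1 f).mul ((c1 f).log p1))
  · refine (c1 f).mul (continuous_finsetSum _ fun i _ => Continuous.pow (Continuous.sub ?_ ?_) 2)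
    · exact continuous_finsetSum _ fun x _ =>
        (((c0 x).mul continuous_const).div (c1 f) p1).mul continuous_const
    · exact continuous_finsetSum _ fun x _ => (c0 x).mul continuous_const

theorem ms_gM {M : α → Mat n} {y : α → Vec n} (hM : MMat M) (hy : MVec y) (x : Cfg n) :
    Measurable fun a => gM (M a) (y a) x := by
  have h : ∀ x : Cfg n, Measurable fun a => Real.exp (qf (M a) (sv x) / 2 + ip (y a) (sv x)) :=
    fun x => Real.measurable_exp.comp
      ((((MVec.const (sv x)).ip (hM.mulVec (MVec.const (sv x)))).div_const 2).add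
        (hy.ip (MVec.const (sv x))))
  exact (h x).div (Finset.measurable_fun_sum _ fun x' _ => h x')

theorem ms_term {μ : α → Cfg n → ℝ} (hm : ∀ x, Measurable fun a => μ a x) (hp : ∀ a x, 0 < μ a x)
    (C θ : ℝ) : MeasurableSet {a | Term C θ (μ a)} := by
  have h1 : Measurable fun a => (⟨μ a, hp a⟩ : {ν : Cfg n → ℝ // ∀ x, 0 < ν x}) :=
    (measurable_pi_iff.2 hm).subtype_mk
  exact h1 (isClosed_term C θ).measurableSet

theorem mv_mean {μ : α → Cfg n → ℝ} (hm : ∀ x, Measurable fun a => μ a x) :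
    MVec fun a => mean (μ a) := fun _ =>
  Finset.measurable_fun_sum _ fun x _ => (hm x).mul measurable_const

/-- the good terminal fields form a jointly measurable set -/
theorem ms_Bc {cen : Mat n → Vec n → Vec n} (hc : CenMeas cen) (C θ : ℝ) {M : α → Mat n}
    {y : α → Vec n} (hM : MMat M) (hy : MVec y) : MeasurableSet {a | y a ∈ Bc C θ cen (M a)} :=
  (measurableSet_le ((mv_mean (ms_gM hM hy)).sub (hc α M y hM hy)).nv measurable_const).inter
    (ms_term (ms_gM hM hy) (fun _ x => gM_pos _ _ x) C θ)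

theorem ms_Bc' {cen : Mat n → Vec n → Vec n} (hc : CenMeas cen) (C θ : ℝ) (M : Mat n) :
    MeasurableSet (Bc C θ cen M) :=
  ms_Bc hc C θ (MMat.const M) (mvec_of measurable_id)

theorem ms_opLe {W : α → Mat n} (hW : MMat W) (c : ℝ) : MeasurableSet {a | OpLe (W a) c} := by
  have h1 : Measurable fun a => (fun p : Fin n × Fin n => W a p.1 p.2) :=
    measurable_pi_iff.2 fun p => hW p.1 p.2
  exact h1 ((Law.isClosed_opLe c).preimage Law.continuous_toM).measurableSet

/-- the law of the label as a function of the precision -/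
noncomputable def PQ (μ : Cfg n → ℝ) (Q : Mat n) (B : Set (Vec n)) : ℝ≥0∞ :=
  ∑ x, ENNReal.ofReal (μ x) * Law.pl Q (sv x) (B.indicator 1)

theorem PY_eq_PQ {μ : Cfg n → ℝ} (hμ : ∀ x, 0 ≤ μ x) {R Q : Mat n} (hR : R * Rᵀ = Q)
    (hQ : Q.det ≠ 0) {B : Set (Vec n)} (hB : MeasurableSet B) :
    ENNReal.ofReal (PY μ R 1 B) = PQ μ Q B := by
  rw [Law.ofReal_PY hμ]
  refine Finset.sum_congr rfl fun x _ => ?_
  rw [Law.pl_eq hR hQ _ (measurable_one.indicator hB)]
  congr 1
  have e : ∀ ξ, obs R 1 x ξ = Q *ᵥ sv x + R *ᵥ ξ := fun ξ => by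
    rw [Law.obs_eq, Real.sqrt_one, one_smul, one_smul, hR]
  have hm : MeasurableSet {ξ : Vec n | Q *ᵥ sv x + R *ᵥ ξ ∈ B} :=
    ((measurable_matVec R).const_add _) hB
  simp only [e]
  rw [← lintegral_indicator_one hm]
  rfl

theorem ms_PQ {μ : α → Cfg n → ℝ} (hm : ∀ x, Measurable fun a => μ a x) {Q : α → Mat n}
    (hQ : MMat Q) {B : α → Set (Vec n)} (hB : MeasurableSet {p : α × Vec n | p.2 ∈ B p.1}) :
    Measurable fun a => PQ (μ a) (Q a) (B a) := by
  refine Finset.measurable_fun_sum _ fun x _ => (hm x).ennreal_ofReal.mul ?_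
  have hQ' : MMat fun p : α × Vec n => Q p.1 := fun i j => (hQ i j).comp measurable_fst
  have hy : MVec fun p : α × Vec n => p.2 := mvec_of measurable_snd
  have h1 : Measurable fun p : α × Vec n => Law.dens (Q p.1) p.2 :=
    (EC.mm_det hQ').sqrt.inv.mul (measurable_const.mul
      ((hy.ip ((EC.mm_inv hQ').mulVec hy)).neg.div_const 2).exp)
  have h2 : Measurable fun p : α × Vec n => Real.exp (ip p.2 (sv x) - qf (Q p.1) (sv x) / 2) :=
    ((hy.ip (MVec.const _)).sub
      (((MVec.const (sv x)).ip (hQ'.mulVec (MVec.const (sv x)))).div_const 2)).exp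
  have h3 : Measurable fun p : α × Vec n => (B p.1).indicator (1 : Vec n → ℝ≥0∞) p.2 :=
    measurable_one.indicator hB
  exact Measurable.lintegral_prod_right' (f := fun p : α × Vec n =>
    ENNReal.ofReal (Law.dens (Q p.1) p.2) *
      (ENNReal.ofReal (Real.exp (ip p.2 (sv x) - qf (Q p.1) (sv x) / 2)) *
        (B p.1).indicator (1 : Vec n → ℝ≥0∞) p.2))
    (h1.ennreal_ofReal.mul (h2.ennreal_ofReal.mul h3))

theorem Qtot_symm (σ s : ℝ) {J W : Mat n} (hJ : ∀ i j, J i j = J j i) (hW : ∀ i j, W i j = W j i)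
    (i j : Fin n) : Qtot σ s J W i j = Qtot σ s J W j i := by
  simp only [Qtot, Matrix.add_apply, Matrix.smul_apply, Matrix.one_apply, smul_eq_mul, hJ i j,
    hW i j, eq_comm (a := i)]

theorem mm_Qtot (σ s : ℝ) {J W : α → Mat n} (hJ : MMat J) (hW : MMat W) :
    MMat fun a => Qtot σ s (J a) (W a) :=
  EC.mm_add (EC.mm_add (MMat.smul measurable_const (EC.mm_add hJ (MMat.const _)))
    (MMat.smul measurable_const hW)) (MMat.const _)

/-- the total precision has a square root -/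
theorem Qtot_root {σ s : ℝ} {J W : Mat n} (hσ : 0 < σ) (hσ1 : σ ≤ 1 / 10) (hs : 2 * σ ≤ s)
    (hJs : ∀ i j, J i j = J j i) (hWs : ∀ i j, W i j = W j i) (hJ : OpLe J (21 / 10))
    (hW : OpLe W (21 / 10)) : (Qtot σ s J W).det ≠ 0 ∧ ∃ R : Mat n, R * Rᵀ = Qtot σ s J W := by
  have h1 := fun v => (Qtot_bounds hσ.le hσ1 hs hJ hW v).1
  have h2 : 0 < 4 / 5 * s := by linarith
  exact ⟨Law.det_ne_zero_of_pos h2 h1, Law.exists_root (Qtot_symm σ s hJs hWs) fun v =>
    (mul_nonneg h2.le (sq_nonneg' v)).trans (h1 v)⟩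

/-- the endgame event is measurable -/
theorem ms_EndOK {cen : Mat n → Vec n → Vec n} (hc : CenMeas cen) {C θ b σ s : ℝ} (hθ : 0 ≤ θ)
    (hσ : 0 < σ) (hσ1 : σ ≤ 1 / 10) (hs : 2 * σ ≤ s) {J W : α → Mat n} (hJ : MMat J) (hW : MMat W)
    (hJs : ∀ a i j, J a i j = J a j i) (hWs : ∀ a i j, W a i j = W a j i) :
    MeasurableSet {a | EndOK C θ b σ s cen (J a) (W a)} := by
  have hM : MMat fun a => b • J a + σ • W a :=
    EC.mm_add (MMat.smul measurable_const hJ) (MMat.smul measurable_const hW)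
  have hQ := mm_Qtot σ s hJ hW
  have hE := hM.sub hQ
  have hB : MeasurableSet {p : α × Vec n |
      p.2 ∈ (Bc C θ cen (b • J p.1 + σ • W p.1 - Qtot σ s (J p.1) (W p.1)))ᶜ} :=
    (ms_Bc hc C θ (fun i j => (hE i j).comp measurable_fst) (mvec_of measurable_snd)).compl
  have h1 := ms_PQ (B := fun a => (Bc C θ cen (b • J a + σ • W a - Qtot σ s (J a) (W a)))ᶜ)
    (ms_gM hM (MVec.const 0)) hQ hB
  have e : {a | EndOK C θ b σ s cen (J a) (W a)} = {a | OpLe (J a) (21 / 10)} ∩
      ({a | OpLe (W a) (21 / 10)} ∩ {a | PQ (gM (b • J a + σ • W a) 0) (Qtot σ s (J a) (W a))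
        (Bc C θ cen (b • J a + σ • W a - Qtot σ s (J a) (W a)))ᶜ ≤ ENNReal.ofReal θ}) := by
    ext a
    simp only [EndOK, Set.mem_ofPred_eq, Set.mem_inter_iff]
    refine and_congr_right fun h2 => and_congr_right fun h3 => ?_
    obtain ⟨hd, R, hR⟩ := Qtot_root hσ hσ1 hs (hJs a) (hWs a) h2 h3
    have hp := fun x => (gM_pos (b • J a + σ • W a) 0 x).le
    refine ⟨fun h => ?_, fun h Rt hRt => ?_⟩
    · rw [← PY_eq_PQ hp hR hd (ms_Bc' hc C θ _).compl]
      exact ENNReal.ofReal_le_ofReal (h R hR)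
    · rw [← PY_eq_PQ hp hRt hd (ms_Bc' hc C θ _).compl] at h
      exact (ENNReal.ofReal_le_ofReal_iff hθ).1 h
  rw [e]
  exact (ms_opLe hJ _).inter ((ms_opLe hW _).inter (measurableSet_le h1 measurable_const))

theorem goe_symm (w : (Pairs n → ℝ) × Vec n) (i j : Fin n) : goe w i j = goe w j i := by
  simp only [goe, Matrix.add_apply, Matrix.diagonal_apply, skM_symm w.1 i j]
  by_cases h : i = j
  · subst h; rfl
  · rw [if_neg h, if_neg (Ne.symm h)]

theorem mm_goe : MMat (goe : (Pairs n → ℝ) × Vec n → Mat n) := by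
  intro i j
  simp only [goe, Matrix.add_apply, Matrix.diagonal_apply, skM]
  unfold gsym
  split_ifs <;> fun_prop

/-- small slices of a measurable set -/
theorem prod_le_of_slices {X Y : Type*} [MeasurableSpace X] [MeasurableSpace Y] (μ : Measure X)
    (ν : Measure Y) [IsProbabilityMeasure μ] [IsProbabilityMeasure ν] {S : Set (X × Y)}
    (hS : MeasurableSet S) {δ δ' : ℝ} (hδ : 0 ≤ δ)
    (h : μ.real {x | δ < ν.real {y | (x, y) ∈ S}} ≤ δ') :
    μ.prod ν S ≤ ENNReal.ofReal δ + ENNReal.ofReal δ' := by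
  set T := toMeasurable μ {x | δ < ν.real {y | (x, y) ∈ S}} with hT
  have hTm : MeasurableSet T := measurableSet_toMeasurable _ _
  rw [Measure.prod_apply hS]
  calc ∫⁻ x, ν (Prod.mk x ⁻¹' S) ∂μ ≤ ∫⁻ x, (ENNReal.ofReal δ + T.indicator 1 x) ∂μ := by
        refine lintegral_mono fun x => ?_
        by_cases hx : x ∈ T
        · rw [Set.indicator_of_mem hx]
          exact prob_le_one.trans le_add_self
        · have h1 : ¬ δ < ν.real {y | (x, y) ∈ S} := fun h1 => hx (subset_toMeasurable _ _ h1)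
          refine le_trans ?_ le_self_add
          exact (ENNReal.le_ofReal_iff_toReal_le (measure_ne_top _ _) hδ).2 (not_lt.1 h1)
    _ = ENNReal.ofReal δ + μ T := by
        rw [lintegral_add_left measurable_const, lintegral_const, measure_univ, mul_one,
          lintegral_indicator_one hTm]
    _ ≤ _ := by
        rw [hT, measure_toMeasurable]
        refine add_le_add le_rfl ?_
        exact (ENNReal.le_ofReal_iff_toReal_le (measure_ne_top _ _)
          (measureReal_nonneg.trans h)).2 h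

/-- the endgame, in the product measure -/
def EndProd (cen : ∀ n : ℕ, Mat n → Vec n → Vec n) : Prop := ∃ σ₀ > 0, ∀ b σ : ℝ, 0 < b → 0 < σ →
  σ ≤ σ₀ → b ^ 2 + σ ^ 2 = 1 → ∃ s, 2 * σ ≤ s ∧ s ≤ 3 * σ ∧ ∃ C > 0, ∃ c > 0,
    Tendsto (fun n : ℕ => ((PW n).prod (PW n)) {p |
      ¬ EndOK C (Real.exp (-(c * n))) b σ s (cen n) (goe p.1) (goe p.2)}) atTop (𝓝 0)

theorem endProd_of {cen : ∀ n : ℕ, Mat n → Vec n → Vec n} (hc : ∀ n, CenMeas (cen n))
    (h : EndStmt cen) : EndProd cen := by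
  obtain ⟨σ₀, hσ₀, h⟩ := h
  refine ⟨min σ₀ (1 / 10), by positivity, fun b σ hb hσ hσ0 hbσ => ?_⟩
  obtain ⟨s, hs2, hs3, C, hC, c, hc0, h⟩ := h b σ hb hσ (hσ0.trans (min_le_left _ _)) hbσ
  refine ⟨s, hs2, hs3, C, hC, c, hc0, ENNReal.tendsto_nhds_zero.2 fun ε hε => ?_⟩
  obtain ⟨δ, hδ, hδε⟩ : ∃ δ : ℝ, 0 < δ ∧ ENNReal.ofReal δ + ENNReal.ofReal δ ≤ ε := by
    rcases eq_or_ne ε ⊤ with rfl | hε'
    · exact ⟨1, one_pos, le_top⟩
    · have h0 : 0 < ε.toReal := ENNReal.toReal_pos hε.ne' hε'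
      refine ⟨ε.toReal / 2, by positivity, le_of_eq ?_⟩
      rw [← ENNReal.ofReal_add (by positivity) (by positivity), add_halves,
        ENNReal.ofReal_toReal hε']
  filter_upwards [h δ hδ] with n hn
  refine le_trans (prod_le_of_slices (PW n) (PW n) (MeasurableSet.compl ?_) hδ.le hn) hδε
  exact ms_EndOK (hc n) (Real.exp_pos _).le hσ (hσ0.trans (min_le_right _ _)) hs2
    (fun i j => (mm_goe i j).comp measurable_fst) (fun i j => (mm_goe i j).comp measurable_snd)
    (fun a => goe_symm a.1) (fun a => goe_symm a.2)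

end Vale.Agent.N150.End
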