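import Vale.Agent.N150.EndDefs
import Vale.Agent.N150.ECDef

/-! P150 at `β = 1`, endgame, block E6, deterministic part: from the output of the no-outlier
theorem in the variables `(h, z)` to the TAP statements of the library. -/

open Matrix

namespace Vale.Agent.N150.ETL

open Vale.Agent.P150 Vale.Agent.P150.F Vale.Agent.N150.EC Vale.Agent.N150.End

variable {n : ℕ}

/-- semicircle law for the resolvent away from the spectrum, at precision `C / √n` -/
def ResOK (d C : ℝ) (J : Mat n) : Prop :=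
  ∀ r z w : ℝ, 1 / 2 ≤ r → r ≤ 1 → 2 * r + d ≤ z → z ≤ 10 → 0 < w →
    (G0 (r • J) z).trace = n * w →
      |z - 1 / w - r ^ 2 * w| ≤ C / √n ∧
      |2 / T2 (r • J) z - 2 / (n * w ^ 2) + 2 * r ^ 2 / n| ≤ C / (n * √n)

/-- deterministic output of the no-outlier theorem at the state `(J, y)`: `h` is an approximate
solution, `c` the centre of a ball of radius `ρ` on which the linearisation is invertible and
the residual map is injective, `zf` the spectral parameter -/
structure T1Out (J : Mat n) (y h c : Vec n) (zf : Vec n → ℝ) (ρ B zl zh ε : ℝ) : Prop where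
  clip : ∃ hc : Vec n, (∀ i, |hc i| ≤ 1 / 2) ∧ nv (hc - c) ≤ ρ / 8
  near : nv (h - c) ≤ ρ / 8
  res : nv (res1 J y h (zf h)) ≤ ε
  zb : ∀ g, nv (g - c) ≤ ρ → zl ≤ zf g ∧ zf g ≤ zh ∧ res2 J g (zf g) = 0
  inv : ∀ g, nv (g - c) ≤ ρ → ∀ v, nv v ≤ B * nv (Lm J g (zf g) *ᵥ v)
  uniq : ∀ g g', nv (g - c) ≤ ρ → nv (g' - c) ≤ ρ →
    nv (g - g') ≤ B * nv (res1 J y g (zf g) - res1 J y g' (zf g'))

theorem T1Out.mono {J : Mat n} {y h c : Vec n} {zf : Vec n → ℝ} {ρ B zl zh ε B' zl' zh' ε' : ℝ}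
    (H : T1Out J y h c zf ρ B zl zh ε) (hB : B ≤ B') (hl : zl' ≤ zl) (hh : zh ≤ zh') (hε : ε ≤ ε') :
    T1Out J y h c zf ρ B' zl' zh' ε' where
  clip := H.clip
  near := H.near
  res := H.res.trans hε
  zb g hg := ⟨hl.trans (H.zb g hg).1, (H.zb g hg).2.1.trans hh, (H.zb g hg).2.2⟩
  inv g hg v := (H.inv g hg v).trans (mul_le_mul_of_nonneg_right hB (nv_nonneg _))
  uniq g g' hg hg' := (H.uniq g g' hg hg').trans (mul_le_mul_of_nonneg_right hB (nv_nonneg _))

/-! ### clipping -/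

/-- clipping at the level `t` -/
noncomputable def cl (t a : ℝ) : ℝ := max (-t) (min t a)

theorem abs_cl_le {t : ℝ} (ht : 0 ≤ t) (a : ℝ) : |cl t a| ≤ t := by
  unfold cl
  rw [abs_le]
  refine ⟨le_max_left _ _, max_le (by linarith) (min_le_left _ _)⟩

theorem abs_cl_sub (t a b : ℝ) : |cl t a - cl t b| ≤ |a - b| := by
  unfold cl
  refine (abs_max_sub_max_le_max _ _ _ _).trans (max_le (by simp) ?_)
  exact (abs_min_sub_min_le_max _ _ _ _).trans (max_le (by simp) le_rfl)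

theorem cl_of_le {t a : ℝ} (h : |a| ≤ t) : cl t a = a := by
  unfold cl
  rw [abs_le] at h
  rw [min_eq_right h.2, max_eq_right h.1]

theorem cl_of_ge {t a : ℝ} (ht : 0 ≤ t) (h : t ≤ a) : cl t a = t := by
  unfold cl
  rw [min_eq_left h, max_eq_right (by linarith)]

theorem cl_of_le_neg {t a : ℝ} (ht : 0 ≤ t) (h : a ≤ -t) : cl t a = -t := by
  unfold cl
  rw [min_eq_right (by linarith), max_eq_left h]

theorem abs_cl_sub_self {t a : ℝ} (ht : 0 ≤ t) (ht1 : t ≤ 1) (ha : |a| ≤ 1) :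
    |cl t a - a| ≤ 1 - t := by
  rw [abs_le] at ha
  rcases le_total t a with h | h
  · rw [cl_of_ge ht h, abs_le]; constructor <;> linarith
  · rcases le_total a (-t) with h' | h'
    · rw [cl_of_le_neg ht h', abs_le]; constructor <;> linarith
    · rw [cl_of_le (abs_le.2 ⟨h', h⟩)]; simp; linarith

theorem inv_cl {t L a : ℝ} (ht : 0 ≤ t) (ht1 : t < 1) (hL : L = 1 / (1 - t ^ 2)) (ha : |a| < 1) :
    1 / (1 - cl t a ^ 2) = min (1 / (1 - a ^ 2)) L := by
  have ha2 : 0 < 1 - a ^ 2 := by have := (sq_lt_one_iff_abs_lt_one a).2 ha; linarith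
  have ht2 : 0 < 1 - t ^ 2 := by nlinarith
  rcases le_total |a| t with h | h
  · rw [cl_of_le h, hL, min_eq_left]
    refine one_div_le_one_div_of_le ht2 ?_
    have := sq_le_sq' (neg_le_of_abs_le h) (le_of_abs_le h)
    linarith
  · have h2 : cl t a ^ 2 = t ^ 2 := by
      rcases le_total 0 a with h0 | h0
      · rw [abs_of_nonneg h0] at h; rw [cl_of_ge ht h]
      · rw [abs_of_nonpos h0] at h; rw [cl_of_le_neg ht (by linarith)]; ring
    rw [h2, hL, min_eq_right]
    refine one_div_le_one_div_of_le ha2 ?_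
    have : t ^ 2 ≤ |a| ^ 2 := pow_le_pow_left₀ ht h 2
    rw [sq_abs] at this
    linarith

theorem artanh_lip {t L a b : ℝ} (ht1 : t < 1) (hL : L = 1 / (1 - t ^ 2)) (ha : |a| ≤ t)
    (hb : |b| ≤ t) : |Real.artanh a - Real.artanh b| ≤ L * |a - b| := by
  have ht : 0 ≤ t := (abs_nonneg a).trans ha
  have ht2 : 0 < 1 - t ^ 2 := by nlinarith
  have key := Convex.norm_image_sub_le_of_norm_hasDerivWithin_le (f := Real.artanh)
    (f' := fun x => 1 / (1 - x ^ 2)) (s := Set.Icc (-t) t) (C := L) (x := b) (y := a)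
    (fun x hx => (SSI.hasDerivAt_artanh ((abs_le.2 hx).trans_lt ht1)).hasDerivWithinAt)
    (fun x hx => by
      have h1 := sq_le_sq' hx.1 hx.2
      rw [Real.norm_eq_abs, abs_of_pos (one_div_pos.2 (by linarith)), hL]
      exact one_div_le_one_div_of_le ht2 (by linarith))
    (convex_Icc _ _) (abs_le.1 hb) (abs_le.1 ha)
  simpa [Real.norm_eq_abs] using key

theorem le_artanh {t : ℝ} (ht : 0 ≤ t) (ht1 : t < 1) : t ≤ Real.artanh t := by
  have h := abs_tanh_le (Real.artanh t)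
  rw [Real.tanh_artanh ⟨by linarith, ht1⟩, abs_of_nonneg ht,
    abs_of_nonneg (Real.artanh_nonneg ht)] at h
  exact h

theorem artanh_cl_tanh {t a c : ℝ} (ht : 1 / 2 ≤ t) (ht1 : t < 1) (hc : |c| ≤ 1 / 2) :
    |Real.artanh (cl t (Real.tanh a)) - a| ≤ |c - a| := by
  have ht0 : 0 ≤ t := by linarith
  have h1 := le_artanh ht0 ht1
  have hlt := abs_lt.1 (Real.abs_tanh_lt_one a)
  rw [abs_le] at hc
  rcases le_total t (Real.tanh a) with h | h
  · have h2 := Real.artanh_le_artanh (by linarith) hlt.2 h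
    rw [Real.artanh_tanh] at h2
    rw [cl_of_ge ht0 h, abs_of_nonpos (by linarith), abs_of_nonpos (by linarith)]
    linarith
  · rcases le_total (Real.tanh a) (-t) with h' | h'
    · have h2 := Real.artanh_le_artanh hlt.1 (by linarith) h'
      rw [Real.artanh_tanh, SSI.artanh_neg' (by rw [abs_of_nonneg ht0]; exact ht1)] at h2
      rw [cl_of_le_neg ht0 h', SSI.artanh_neg' (by rw [abs_of_nonneg ht0]; exact ht1),
        abs_of_nonneg (by linarith), abs_of_nonneg (by linarith)]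
      linarith
    · rw [cl_of_le (abs_le.2 ⟨h', h⟩), Real.artanh_tanh]
      simp

/-! ### the dictionary between the two sets of equations -/

theorem abs_tm_lt (h : Vec n) (i : Fin n) : |tm h i| < 1 := Real.abs_tanh_lt_one _

theorem wb_eq (hn : 0 < n) (h : Vec n) : wb h = 1 - qq (tm h) := by
  have hn' : (n : ℝ) ≠ 0 := by positivity
  unfold wb qq F.sq dv tm
  rw [Finset.sum_sub_distrib]
  simp only [Finset.sum_const, Finset.card_univ, Fintype.card_fin, nsmul_eq_mul, mul_one]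
  field_simp

theorem wb_pos (hn : 0 < n) (h : Vec n) : 0 < wb h := by
  have : Nonempty (Fin n) := ⟨⟨0, hn⟩⟩
  unfold wb
  exact div_pos (Finset.sum_pos (fun i _ => one_sub_tanh_sq_pos _) Finset.univ_nonempty)
    (by positivity)

theorem Nm_shift (J : Mat n) (κ z : ℝ) : Nm (J - κ • (1 : Mat n)) z = Nm J (z + κ) := by
  unfold Nm
  rw [add_smul]
  abel

theorem trace_of_res2 (hn : 0 < n) {J : Mat n} {κ z : ℝ} {g : Vec n}
    (h : res2 (J - κ • (1 : Mat n)) g z = 0) : (G0 J (z + κ)).trace = n * wb g := by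
  have hn' : (n : ℝ) ≠ 0 := by positivity
  unfold res2 G0 at h
  rw [Nm_shift] at h
  unfold G0 wb
  rw [sub_eq_zero] at h
  rw [h]
  field_simp

theorem tapG_sub_res1 (hn : 0 < n) (J : Mat n) (D y g : Vec n) (r κ z : ℝ) :
    tapG r J 0 y (tm g) - res1 (r • (J + diagonal D) - κ • (1 : Mat n)) y g z
      = (-(z + κ - 1 / wb g - r ^ 2 * wb g)) • tm g + r • fun i => D i * tm g i := by
  funext i
  unfold tapG tapB res1
  rw [Nm_shift]
  unfold Nm
  simp only [Matrix.sub_mulVec, Matrix.add_mulVec, Matrix.smul_mulVec, Matrix.one_mulVec,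
    Matrix.zero_mulVec, Pi.add_apply, Pi.sub_apply, Pi.smul_apply, Pi.zero_apply, smul_eq_mul,
    Matrix.mulVec_diagonal, ← wb_eq hn]
  have : Real.artanh (tm g i) = g i := Real.artanh_tanh _
  rw [this, one_div]
  ring

theorem nv_tapG_sub (hn : 0 < n) {J : Mat n} {D y g : Vec n} {r κ z d C : ℝ}
    (hR : ResOK d C (J + diagonal D)) (hr : 1 / 2 ≤ r) (hr1 : r ≤ 1) (hz : 2 * r + d ≤ z + κ)
    (hz' : z + κ ≤ 10) (h2 : res2 (r • (J + diagonal D) - κ • (1 : Mat n)) g z = 0) :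
    nv (tapG r J 0 y (tm g) - res1 (r • (J + diagonal D) - κ • (1 : Mat n)) y g z) ≤ C + nv D := by
  have hs : 0 < √(n : ℝ) := Real.sqrt_pos.2 (by positivity)
  have h1 := (hR r (z + κ) (wb g) hr hr1 hz hz' (wb_pos hn g) (trace_of_res2 hn h2)).1
  rw [tapG_sub_res1 hn]
  refine (nv_add_le _ _).trans (add_le_add ?_ ?_)
  · rw [nv_smul, abs_neg]
    have h3 := nv_le_sqrt_n fun i => (abs_tm_lt g i).le
    calc _ ≤ C / √n * √n := mul_le_mul h1 h3 (nv_nonneg _) ((abs_nonneg _).trans h1)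
      _ = C := by field_simp
  · rw [nv_smul, abs_of_nonneg (by linarith)]
    have h3 : nv (fun i => D i * tm g i) ≤ nv D := nv_mono fun i => by
      rw [abs_mul]
      exact mul_le_of_le_one_right (abs_nonneg _) (abs_tm_lt g i).le
    nlinarith [nv_nonneg (fun i => D i * tm g i), nv_nonneg D]

/-- the full Hessian in the variable `m` -/
noncomputable def Hf (J : Mat n) (g : Vec n) (z : ℝ) : Mat n :=
  diagonal (fun i => 1 / (1 - tm g i ^ 2)) + EC.Bm J g z

theorem Hf_low {J : Mat n} {g : Vec n} {z B : ℝ} (h : ∀ v, nv v ≤ B * nv (Lm J g z *ᵥ v))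
    (v : Vec n) : nv v ≤ B * nv (Hf J g z *ᵥ v) := by
  have hd : ∀ i, 0 < dv g i := fun i => one_sub_tanh_sq_pos _
  have e : Hf J g z *ᵥ v = Lm J g z *ᵥ fun i => v i / dv g i := by
    have e1 : diagonal (dv g) *ᵥ (fun i => v i / dv g i) = v := by
      funext i
      rw [Matrix.mulVec_diagonal]
      field_simp [(hd i).ne']
    unfold Hf Lm
    rw [Matrix.add_mulVec, Matrix.add_mulVec, Matrix.one_mulVec, ← Matrix.mulVec_mulVec, e1]
    congr 1
    funext i
    rw [Matrix.mulVec_diagonal]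
    change 1 / dv g i * v i = _
    ring
  rw [e]
  refine le_trans (nv_mono fun i => ?_) (h _)
  rw [abs_div, abs_of_pos (hd i), le_div_iff₀ (hd i)]
  exact mul_le_of_le_one_right (abs_nonneg _) (one_sub_tanh_sq_le _)

theorem Hf_sub_HLm (hn : 0 < n) (J : Mat n) (D g m v : Vec n) (r κ z L : ℝ)
    (hd : ∀ i, 1 / (1 - tm g i ^ 2) = min (1 / (1 - m i ^ 2)) L) :
    Hf (r • (J + diagonal D) - κ • (1 : Mat n)) g z *ᵥ v - HLm L r J m *ᵥ v
      = ((z + κ - 1 / wb g - r ^ 2 * wb g) + r ^ 2 * (qq m - qq (tm g))) • v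
        - r • (fun i => D i * v i)
        + ((2 / T2 (r • (J + diagonal D)) (z + κ) - 2 / (n * wb g ^ 2) + 2 * r ^ 2 / n)
            * ip (tm g) v) • tm g
        + (2 * r ^ 2 / n) • (ip m v • (m - tm g) + ip (m - tm g) v • tm g) := by
  funext i
  unfold Hf HLm EC.Bm cc T2 G0
  rw [Nm_shift]
  unfold Nm
  simp only [Matrix.sub_mulVec, Matrix.add_mulVec, Matrix.smul_mulVec, Matrix.one_mulVec,
    Pi.add_apply, Pi.sub_apply, Pi.smul_apply, smul_eq_mul, Matrix.mulVec_diagonal,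
    vecMulVec_mulVec, hd, ip_sub_left]
  have e : qq (tm g) = 1 - wb g := by rw [wb_eq hn]; ring
  rw [e, one_div (wb g)]
  ring

theorem nv_Hf_sub (hn : 0 < n) {J : Mat n} {D g m : Vec n} {r κ z d C L η δ : ℝ}
    (hR : ResOK d C (J + diagonal D)) (hr : 1 / 2 ≤ r) (hr1 : r ≤ 1) (hz : 2 * r + d ≤ z + κ)
    (hz' : z + κ ≤ 10) (h2 : res2 (r • (J + diagonal D) - κ • (1 : Mat n)) g z = 0)
    (hd : ∀ i, 1 / (1 - tm g i ^ 2) = min (1 / (1 - m i ^ 2)) L) (hη : 0 ≤ η)
    (hD : ∀ i, |D i| ≤ η) (hm : ∀ i, |m i| ≤ 1) (hδ : 0 ≤ δ) (hmg : ∀ i, |m i - tm g i| ≤ δ)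
    (v : Vec n) :
    nv (Hf (r • (J + diagonal D) - κ • (1 : Mat n)) g z *ᵥ v - HLm L r J m *ᵥ v)
      ≤ (2 * (C / √n) + η + 6 * δ) * nv v := by
  have hn' : (0 : ℝ) < n := by positivity
  have hs : 0 < √(n : ℝ) := Real.sqrt_pos.2 hn'
  have hss : √(n : ℝ) * √n = n := Real.mul_self_sqrt hn'.le
  obtain ⟨h1, h1'⟩ := hR r (z + κ) (wb g) hr hr1 hz hz' (wb_pos hn g) (trace_of_res2 hn h2)
  have hg1 : ∀ i, |tm g i| ≤ 1 := fun i => (abs_tm_lt g i).le
  have ng := nv_le_sqrt_n hg1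
  have nm := nv_le_sqrt_n hm
  have nd : nv (m - tm g) ≤ δ * √n := nv_le_sqrt hδ hmg
  have hv := nv_nonneg v
  have hr2 : r ^ 2 ≤ 1 := by nlinarith
  have hr2' : 0 ≤ r ^ 2 := sq_nonneg r
  have hq : |qq m - qq (tm g)| ≤ 2 * δ := by
    have := qq_lip hm hg1
    refine le_of_mul_le_mul_right (this.trans ?_) hs
    linarith
  rw [Hf_sub_HLm hn J D g m v r κ z L hd]
  have a1 : nv (((z + κ - 1 / wb g - r ^ 2 * wb g) + r ^ 2 * (qq m - qq (tm g))) • v)
      ≤ (C / √n + 2 * δ) * nv v := by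
    rw [nv_smul]
    refine mul_le_mul_of_nonneg_right ((abs_add_le _ _).trans (add_le_add h1 ?_)) hv
    rw [abs_mul, abs_of_nonneg hr2']
    nlinarith [abs_nonneg (qq m - qq (tm g))]
  have a2 : nv (r • fun i => D i * v i) ≤ η * nv v := by
    rw [nv_smul, abs_of_nonneg (by linarith)]
    have h3 : nv (fun i => D i * v i) ≤ η * nv v := nv_le_mul hη fun i => by
      rw [abs_mul]
      exact mul_le_mul_of_nonneg_right (hD i) (abs_nonneg _)
    nlinarith [nv_nonneg (fun i => D i * v i)]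
  have a3 : nv (((2 / T2 (r • (J + diagonal D)) (z + κ) - 2 / (n * wb g ^ 2) + 2 * r ^ 2 / n)
      * ip (tm g) v) • tm g) ≤ C / √n * nv v := by
    rw [nv_smul, abs_mul]
    have h3 : |ip (tm g) v| ≤ √n * nv v :=
      (abs_ip_le _ _).trans (mul_le_mul_of_nonneg_right ng hv)
    have h0 : 0 ≤ C / (n * √n) := (abs_nonneg _).trans h1'
    calc _ ≤ C / (n * √n) * (√n * nv v) * √n :=
          mul_le_mul (mul_le_mul h1' h3 (abs_nonneg _) h0) ng (nv_nonneg _) (by positivity)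
      _ = C / √n * nv v * (√n * √n / n) := by field_simp
      _ = C / √n * nv v := by rw [hss, div_self hn'.ne', mul_one]
  have a4 : nv ((2 * r ^ 2 / n) • (ip m v • (m - tm g) + ip (m - tm g) v • tm g))
      ≤ 4 * δ * nv v := by
    rw [nv_smul, abs_of_nonneg (by positivity)]
    have b1 : nv (ip m v • (m - tm g)) ≤ √n * nv v * (δ * √n) := by
      rw [nv_smul]
      exact mul_le_mul ((abs_ip_le _ _).trans (mul_le_mul_of_nonneg_right nm hv)) nd (nv_nonneg _)
        (by positivity)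
    have b2 : nv (ip (m - tm g) v • tm g) ≤ δ * √n * nv v * √n := by
      rw [nv_smul]
      exact mul_le_mul ((abs_ip_le _ _).trans (mul_le_mul_of_nonneg_right nd hv)) ng (nv_nonneg _)
        (by positivity)
    have b3 : nv (ip m v • (m - tm g) + ip (m - tm g) v • tm g) ≤ 2 * δ * nv v * n := by
      refine (nv_add_le _ _).trans ((add_le_add b1 b2).trans_eq ?_)
      calc _ = 2 * δ * nv v * (√n * √n) := by ring
        _ = _ := by rw [hss]
    calc _ ≤ 2 * 1 / n * (2 * δ * nv v * n) :=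
          mul_le_mul (by gcongr) b3 (nv_nonneg _) (by positivity)
      _ = _ := by field_simp; ring
  refine (nv_add_le _ _).trans ((add_le_add ((nv_add_le _ _).trans (add_le_add
    ((nv_sub_le _ _).trans (add_le_add a1 a2)) a3)) a4).trans_eq ?_)
  ring

/-- (iii), (iv): the centre property of the library from the output of the no-outlier theorem -/
theorem ctr_of (hn : 0 < n) {J : Mat n} {D y h c : Vec n} {zf : Vec n → ℝ}
    {r κ d C L R η ρ B zl zh ε : ℝ}
    (H : T1Out (r • (J + diagonal D) - κ • (1 : Mat n)) y h c zf ρ B zl zh ε)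
    (hR : ResOK d C (J + diagonal D)) (hr : 1 / 2 ≤ r) (hr1 : r ≤ 1) (hz : 2 * r + d ≤ zl + κ)
    (hz' : zh + κ ≤ 10) (hη : 0 ≤ η) (hD : ∀ i, |D i| ≤ η) (hB : 0 < B) (hL : 2 ≤ L)
    (hρ : 0 ≤ ρ) (hLR : L * (R * √n) ≤ ρ / 2) (he : (2 * (C / √n) + η + 6 / L) * (2 * B) ≤ 1) :
    Ctr0 (1 / (2 * B)) L R (ε + C + nv D) r J y (tm h) := by
  refine ⟨abs_tm_lt h, ?_, fun m hm hmc v => ?_⟩
  · obtain ⟨z1, z2, z3⟩ := H.zb h (H.near.trans (by linarith))
    have h1 := nv_tapG_sub (y := y) hn hR hr hr1 (hz.trans (by linarith)) (by linarith) z3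
    have h2 := nv_add_le (tapG r J 0 y (tm h)
      - res1 (r • (J + diagonal D) - κ • (1 : Mat n)) y h (zf h))
      (res1 (r • (J + diagonal D) - κ • (1 : Mat n)) y h (zf h))
    rw [sub_add_cancel] at h2
    linarith [H.res]
  · have hL0 : 0 < L := by linarith
    have hi : 1 / L ≤ 1 / 2 := one_div_le_one_div_of_le (by norm_num) hL
    have hi0 : 0 < 1 / L := by positivity
    set t := √(1 - 1 / L) with ht
    have ht2 : t ^ 2 = 1 - 1 / L := Real.sq_sqrt (by linarith)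
    have ht0 : 0 ≤ t := Real.sqrt_nonneg _
    have ht1 : t < 1 := by nlinarith
    have hth : 1 / 2 ≤ t := by nlinarith
    have hLt : L = 1 / (1 - t ^ 2) := by rw [ht2]; simp
    have h1t : 1 - t ≤ 1 / L := by nlinarith
    set g : Vec n := fun i => Real.artanh (cl t (m i)) with hg
    have htm : ∀ i, tm g i = cl t (m i) := fun i => by
      have := abs_lt.1 ((abs_cl_le ht0 (m i)).trans_lt ht1)
      exact Real.tanh_artanh ⟨this.1, this.2⟩
    obtain ⟨hc, hc1, hc2⟩ := H.clip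
    have hball : nv (g - c) ≤ ρ := by
      set g' : Vec n := fun i => Real.artanh (cl t (tm h i)) with hg'
      have b1 : nv (g - g') ≤ L * nv (m - tm h) := nv_le_mul hL0.le fun i =>
        (artanh_lip ht1 hLt (abs_cl_le ht0 _) (abs_cl_le ht0 _)).trans
          (mul_le_mul_of_nonneg_left (abs_cl_sub _ _ _) hL0.le)
      have b2 : nv (g' - h) ≤ nv (hc - h) := nv_mono fun i => artanh_cl_tanh hth ht1 (hc1 i)
      have b3 := nv_sub_triangle hc c h
      rw [nv_sub_comm c h] at b3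
      have b4 := nv_sub_triangle g g' c
      have b5 := nv_sub_triangle g' h c
      have b6 := mul_le_mul_of_nonneg_left hmc hL0.le
      linarith [H.near]
    obtain ⟨z1, z2, z3⟩ := H.zb g hball
    have a1 := Hf_low (H.inv g hball) v
    have a2 := nv_Hf_sub (L := L) (m := m) hn hR hr hr1 (hz.trans (by linarith)) (by linarith) z3
      (fun i => by rw [htm]; exact inv_cl ht0 ht1 hLt (hm i)) hη hD (fun i => (hm i).le) hi0.le
      (fun i => by
        rw [htm, abs_sub_comm]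
        exact (abs_cl_sub_self ht0 ht1.le (hm i).le).trans h1t) v
    have a3 := nv_add_le (Hf (r • (J + diagonal D) - κ • (1 : Mat n)) g (zf g) *ᵥ v
      - HLm L r J m *ᵥ v) (HLm L r J m *ᵥ v)
    rw [sub_add_cancel] at a3
    have hv := nv_nonneg v
    have a4 : B * ((2 * (C / √n) + η + 6 * (1 / L)) * nv v) ≤ nv v / 2 := by
      have e : 6 * (1 / L) = 6 / L := by ring
      rw [e]
      nlinarith
    have a5 := mul_le_mul_of_nonneg_left (a3.trans (add_le_add a2 le_rfl)) hB.le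
    rw [one_div, inv_mul_le_iff₀ (by positivity)]
    nlinarith

theorem tapG_sub (J : Mat n) (y y' m : Vec n) (r r' : ℝ) :
    tapG r' J 0 y' m - tapG r J 0 y m
      = (r - r') • (J *ᵥ m) + ((r' ^ 2 - r ^ 2) * (1 - qq m)) • m - (y' - y) := by
  funext i
  unfold tapG tapB
  simp only [Pi.add_apply, Pi.sub_apply, Pi.smul_apply, smul_eq_mul]
  ring

/-- the points of two neighbouring levels are close -/
theorem link_of (hn : 0 < n) {J : Mat n} {D y h c y' h' c' : Vec n} {zf zf' : Vec n → ℝ}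
    {r r' κ κ' d C ρ ρ' B B' zl zh zl' zh' ε a t : ℝ}
    (H : T1Out (r • (J + diagonal D) - κ • (1 : Mat n)) y h c zf ρ B zl zh ε)
    (H' : T1Out (r' • (J + diagonal D) - κ' • (1 : Mat n)) y' h' c' zf' ρ' B' zl' zh' ε)
    (hR : ResOK d C (J + diagonal D)) (hJ : OpLe J 3) (hr : 1 / 2 ≤ r) (hr1 : r ≤ 1)
    (hr' : 1 / 2 ≤ r') (hr1' : r' ≤ 1) (hz : 2 * r + d ≤ zl + κ) (hzh : zh + κ ≤ 10)
    (hz' : 2 * r' + d ≤ zl' + κ') (hzh' : zh' + κ' ≤ 10) (hρ : 0 ≤ ρ) (hρ' : 0 ≤ ρ')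
    (hB : 0 ≤ B') (hc : ρ / 8 + nv (c - c') ≤ ρ') (ha : |r - r'| ≤ a) (hy : nv (y' - y) ≤ t) :
    nv (tm h' - tm h) ≤ B' * (2 * ε + 2 * (C + nv D) + 5 * a * √n + t) := by
  have hb : nv (h - c') ≤ ρ' := (nv_sub_triangle h c c').trans (by linarith [H.near])
  have hb' : nv (h' - c') ≤ ρ' := H'.near.trans (by linarith)
  obtain ⟨z1, z2, z3⟩ := H.zb h (H.near.trans (by linarith))
  obtain ⟨w1, w2, w3⟩ := H'.zb h hb
  have a1 := nv_tapG_sub (y := y) hn hR hr hr1 (hz.trans (by linarith)) (by linarith) z3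
  have a2 := nv_tapG_sub (y := y') hn hR hr' hr1' (hz'.trans (by linarith)) (by linarith) w3
  have hg1 : ∀ i, |tm h i| ≤ 1 := fun i => (abs_tm_lt h i).le
  have ng := nv_le_sqrt_n hg1
  have ha0 : 0 ≤ a := (abs_nonneg _).trans ha
  have a3 : nv (tapG r' J 0 y' (tm h) - tapG r J 0 y (tm h)) ≤ 5 * a * √n + t := by
    rw [tapG_sub]
    have b1 : nv ((r - r') • (J *ᵥ tm h)) ≤ a * (3 * √n) := by
      rw [nv_smul]
      exact mul_le_mul ha ((hJ.nv_le (by norm_num) _).trans (by linarith)) (nv_nonneg _) ha0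
    have b2 : nv (((r' ^ 2 - r ^ 2) * (1 - qq (tm h))) • tm h) ≤ 2 * a * √n := by
      rw [nv_smul]
      refine mul_le_mul ?_ ng (nv_nonneg _) (by positivity)
      have q0 := qq_nonneg (tm h)
      have q1 := qq_le_one hg1
      have e : r' ^ 2 - r ^ 2 = (r - r') * (-(r + r')) := by ring
      rw [abs_mul, e, abs_mul, abs_neg, abs_of_nonneg (show 0 ≤ r + r' by linarith),
        abs_of_nonneg (show 0 ≤ 1 - qq (tm h) by linarith)]
      have : |r - r'| * (r + r') ≤ a * 2 := mul_le_mul ha (by linarith) (by linarith) ha0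
      nlinarith [mul_nonneg (abs_nonneg (r - r')) (show 0 ≤ r + r' by linarith)]
    refine (nv_sub_le _ _).trans ((add_le_add ((nv_add_le _ _).trans (add_le_add b1 b2)) hy).trans_eq
      ?_)
    ring
  have a4 : nv (res1 (r' • (J + diagonal D) - κ' • (1 : Mat n)) y' h (zf' h))
      ≤ ε + 2 * (C + nv D) + 5 * a * √n + t := by
    set A := res1 (r' • (J + diagonal D) - κ' • (1 : Mat n)) y' h (zf' h)
    set A0 := res1 (r • (J + diagonal D) - κ • (1 : Mat n)) y h (zf h)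
    have e : A = (tapG r' J 0 y' (tm h) - tapG r J 0 y (tm h)) + (tapG r J 0 y (tm h) - A0) + A0
        - (tapG r' J 0 y' (tm h) - A) := by abel
    rw [e]
    have := H.res
    refine (nv_sub_le _ _).trans ((add_le_add ((nv_add_le _ _).trans (add_le_add
      ((nv_add_le _ _).trans (add_le_add a3 a1)) this)) ?_).trans_eq (b := _ + (C + nv D)) (by ring))
    exact a2
  have a5 := H'.uniq h' h hb' hb
  refine (tanh_nv_le.trans a5).trans (mul_le_mul_of_nonneg_left ((nv_sub_le _ _).trans ?_) hB)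
  linarith [H'.res]

end Vale.Agent.N150.ETL
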