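import Vale.Agent.N150.EndTL1
import Vale.Agent.N150.EndDiag
import Vale.Agent.N150.Red
import Vale.Agent.N150.Plant2

/-! P150 at `β = 1`, endgame, block E6, probabilistic reduction: quenched probabilities of the labels
of the library path are bounded through the planted law on a Haar frame. -/

open MeasureTheory ProbabilityTheory Matrix Filter Topology
open scoped ENNReal

namespace Vale.Agent.N150.ETL

open Vale.Agent.P150 Vale.Agent.P150.F Vale.Agent.N150.End Vale.Agent.N150.Law
  Vale.Agent.N150.Plant Vale.Agent.N150.Sp Vale.Agent.N150.Edge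

variable {n : ℕ}

/-! ### a measurable square root -/

section root

open scoped MatrixOrder

/-- the square root of a matrix -/
noncomputable def rt (Q : Mat n) : Mat n := CFC.sqrt Q

theorem rt_mul {Q : Mat n} (hQ : Q.PosSemidef) : rt Q * (rt Q)ᵀ = Q := by
  have h0 : (0 : Mat n) ≤ CFC.sqrt Q := CFC.sqrt_nonneg Q
  have h1 : (CFC.sqrt Q)ᵀ = CFC.sqrt Q := by
    have := (Matrix.nonneg_iff_posSemidef.1 h0).1
    rwa [Matrix.IsHermitian, Matrix.conjTranspose_eq_transpose_of_trivial] at this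
  unfold rt
  rw [h1]
  exact CFC.sqrt_mul_sqrt_self Q hQ.nonneg

open scoped Matrix.Norms.L2Operator in
theorem continuousOn_rt : ContinuousOn (rt : Mat n → Mat n) {Q | Q.PosSemidef} := by
  have h := CFC.continuousOn_sqrt (A := Mat n)
  have e : {Q : Mat n | Q.PosSemidef} = {a : Mat n | 0 ≤ a} := by
    ext Q; simp [Matrix.nonneg_iff_posSemidef]
  rw [e]
  exact h

theorem rt_of_not {Q : Mat n} (hQ : ¬Q.PosSemidef) : rt Q = 0 :=
  CFC.sqrt_of_not_nonneg (by rwa [Matrix.nonneg_iff_posSemidef])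

end root

theorem isClosed_psd : IsClosed {Q : Mat n | Q.PosSemidef} := by
  have e : {Q : Mat n | Q.PosSemidef}
      = {Q : Mat n | Qᴴ = Q} ∩ ⋂ x : Vec n, {Q : Mat n | 0 ≤ star x ⬝ᵥ (Q *ᵥ x)} := by
    ext Q
    simp only [Set.mem_ofPred_eq, Set.mem_inter_iff, Set.mem_iInter,
      Matrix.posSemidef_iff_dotProduct_mulVec]
    rfl
  rw [e]
  exact (isClosed_eq continuous_id.matrix_conjTranspose continuous_id).inter
    (isClosed_iInter fun x => isClosed_le continuous_const
      (continuous_const.dotProduct (continuous_id.matrix_mulVec continuous_const)))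

theorem psd_of_qf {Q : Mat n} (hs : Qᵀ = Q) (hQ : ∀ v, 0 ≤ qf Q v) : Q.PosSemidef := by
  refine Matrix.PosSemidef.of_dotProduct_mulVec_nonneg ?_ fun v => ?_
  · rwa [Matrix.IsHermitian, Matrix.conjTranspose_eq_transpose_of_trivial]
  · rw [star_trivial]
    exact hQ v

section meas

variable {X : Type*} [MeasurableSpace X]

theorem mm_rt {Q : X → Mat n} (hQ : Fib.MM Q) : Fib.MM fun x => rt (Q x) := by
  classical
  intro i j
  have hc : IsClosed {v : Fin n × Fin n → ℝ | (toM v).PosSemidef} :=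
    isClosed_psd.preimage continuous_toM
  have h1 : ContinuousOn (fun v : Fin n × Fin n → ℝ => rt (toM v) i j) {v | (toM v).PosSemidef} :=
    ((continuous_apply_apply i j).comp_continuousOn
      (continuousOn_rt.comp continuous_toM.continuousOn fun v hv => hv))
  have h2 := h1.measurable_piecewise (g := fun _ => 0) continuousOn_const hc.measurableSet
  have h3 : (fun x => rt (Q x) i j) = (Set.piecewise {v | (toM v).PosSemidef}
      (fun v : Fin n × Fin n → ℝ => rt (toM v) i j) fun _ => 0) ∘ fun x p => Q x p.1 p.2 := by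
    funext x
    have e : toM (fun p : Fin n × Fin n => Q x p.1 p.2) = Q x := rfl
    by_cases h : (Q x).PosSemidef
    · rw [Function.comp, Set.piecewise_eq_of_mem _ _ _ (by exact h), e]
    · rw [Function.comp, Set.piecewise_eq_of_notMem _ _ _ (by exact h), rt_of_not h]; rfl
  rw [h3]
  exact h2.comp (measurable_pi_lambda _ fun p => hQ p.1 p.2)

/-- a measurable relation between a matrix and a vector -/
def MG (G : Mat n → Vec n → Prop) : Prop :=
  MeasurableSet {p : (Fin n → Fin n → ℝ) × Vec n | G p.1 p.2}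

theorem mm_pi {J : X → Mat n} (hJ : Fib.MM J) : Measurable fun x => Red.ent (J x) :=
  measurable_pi_lambda _ fun i => measurable_pi_lambda _ fun j => hJ i j

theorem mm_ent : Fib.MM fun J : Fin n → Fin n → ℝ => (J : Mat n) := fun i j =>
  (measurable_pi_apply j).comp (measurable_pi_apply i)

theorem MG.ms {G : Mat n → Vec n → Prop} (h : MG G) {J : X → Mat n} {y : X → Vec n}
    (hJ : Fib.MM J) (hy : Measurable y) : MeasurableSet {x | G (J x) (y x)} :=
  ((mm_pi hJ).prodMk hy) h

theorem meas_gM {M : X → Mat n} (hM : Fib.MM M) (x : Cfg n) : Measurable fun s => gM (M s) 0 x := by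
  have h : ∀ x : Cfg n,
      Measurable fun s => Real.exp (qf (M s) (sv x) / 2 + ip (0 : Vec n) (sv x)) := by
    intro x
    refine Real.measurable_exp.comp (Measurable.add (Measurable.div_const ?_ _) measurable_const)
    unfold qf ip
    exact Finset.measurable_sum _ fun i _ => Measurable.const_mul
      ((measurable_pi_apply i).comp (hM.mulVec measurable_const)) _
  exact (h x).div (Finset.measurable_sum _ fun x' _ => h x')

theorem meas_obs {R : X → Mat n} (hR : Fib.MM R) (u : ℝ) (x : Cfg n) {ξ : X → Vec n}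
    (hξ : Measurable ξ) : Measurable fun s => obs (R s) u x (ξ s) :=
  measurable_pi_lambda _ fun i =>
    (((measurable_pi_apply i).comp ((hR.mul hR.transpose).mulVec measurable_const)).const_mul _).add
      (((measurable_pi_apply i).comp (hR.mulVec hξ)).const_mul _)

/-- quenched probability that the label at the level `u` is not good -/
noncomputable def qP (b u : ℝ) (G : Mat n → Vec n → Prop) (J : Mat n) : ℝ :=
  PY (gM (b • J) 0) (rt (J + (4 : ℝ) • (1 : Mat n))) u {y | ¬G J y}

theorem meas_qP (b u : ℝ) {G : Mat n → Vec n → Prop} (hG : MG G) {J : X → Mat n} (hJ : Fib.MM J) :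
    Measurable fun s => qP b u G (J s) := by
  unfold qP PY
  refine Finset.measurable_sum _ fun x _ =>
    (meas_gM (Fib.MM.smul measurable_const hJ) x).mul (Measurable.ennreal_toReal ?_)
  have hS : MeasurableSet {p : X × Vec n |
      ¬G (J p.1) (obs (rt (J p.1 + (4 : ℝ) • (1 : Mat n))) u x p.2)} :=
    (hG.ms (hJ.comp measurable_fst) (meas_obs
      (mm_rt ((hJ.comp measurable_fst).add (Fib.MM.const _))) u x measurable_snd)).compl
  exact measurable_measure_prodMk_left hS

end meas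

theorem PY_congr (μ : Cfg n → ℝ) {R R' : Mat n} (h : R * Rᵀ = R' * R'ᵀ) (s : ℝ) {B : Set (Vec n)}
    (hB : MeasurableSet B) : PY μ R s B = PY μ R' s B := by
  unfold PY
  refine Finset.sum_congr rfl fun x _ => ?_
  congr 1
  have hm : Measurable fun v : Vec n => s • ((R * Rᵀ) *ᵥ sv x) + √s • v :=
    (measurable_id'.const_smul (√s)).const_add _
  have e : ∀ T : Mat n, T * Tᵀ = R * Rᵀ → gpi (Fin n) {ξ | obs T s x ξ ∈ B}
      = ((gpi (Fin n)).map fun w => T.mulVec w)
        ((fun v : Vec n => s • ((R * Rᵀ) *ᵥ sv x) + √s • v) ⁻¹' B) := by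
    intro T hT
    rw [Measure.map_apply (measurable_matVec T) (hm hB), ← hT]
    rfl
  rw [Measure.real, Measure.real, e R rfl, e R' h.symm, map_mulVec_eq h]

section diag

open Real

/-- the diagonal does not matter for the labels, uniformly in the level -/
theorem diag_unif {c : ℝ} (hc : 0 < c) : ∃ η > 0, ∀ᶠ n : ℕ in atTop, ∀ s : ℝ, 0 ≤ s → s ≤ 1 →
    ∀ (μ : Cfg n → ℝ) (J S0 S1 : Mat n) (D : Vec n) (B : Set (Vec n)), IsProb μ → J.IsSymm →
    OpLe J 3 → (∀ a, |D a| ≤ η) → S0 * S0ᵀ = J + (4 : ℝ) • (1 : Mat n) →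
    S1 * S1ᵀ = J + Matrix.diagonal D + (4 : ℝ) • (1 : Mat n) → MeasurableSet B →
    PY μ S1 s B ≤ Real.exp (-(c * n)) → PY μ S0 s B ≤ Real.exp (-(c / 4 * n)) := by
  refine ⟨min (1 / 4) (c / 40), lt_min (by norm_num) (by positivity), ?_⟩
  set η := min (1 / 4) (c / 40) with hη
  have hη1 : η ≤ 1 / 4 := min_le_left _ _
  have hη2 : η ≤ c / 40 := min_le_right _ _
  filter_upwards [eventually_le_mul 8 hc] with n hn s hs0 hs1 μ J S0 S1 D B hμ hJ hJ3 hD h0 h1 hB hP
  obtain ⟨R, hR⟩ : ∃ R : Mat n, R * Rᵀ = s • (J + (3 : ℝ) • (1 : Mat n)) := by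
    refine exists_root (fun i j => ?_) fun v => ?_
    · simp only [Matrix.smul_apply, Matrix.add_apply, Matrix.one_apply, hJ.apply j i, eq_comm]
    · rw [qf_smul', qf_add', qf_smul', qf_one']
      exact mul_nonneg hs0 (by linarith [(abs_le.1 (abs_qf_le (by norm_num) hJ3 v)).1])
  have hcp : ∀ a, 0 < 1 + D a := fun a => by linarith [(abs_le.1 (hD a)).1]
  have e0 : s • (S0 * S0ᵀ) = s • (J + (3 : ℝ) • (1 : Mat n)) + s • (1 : Mat n) := by
    rw [h0]; module
  have e1 : s • (S1 * S1ᵀ) = s • (J + (3 : ℝ) • (1 : Mat n))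
      + Matrix.diagonal fun a => s * (1 + D a) := by
    have : (Matrix.diagonal fun a => s * (1 + D a)) = s • ((1 : Mat n) + Matrix.diagonal D) := by
      ext a b
      by_cases h : a = b <;> simp [h, mul_add]
    rw [h1, this]; module
  have r1 : (Matrix.diagonal fun a => √s * √(1 + D a))
      * (Matrix.diagonal fun a => √s * √(1 + D a))ᵀ = Matrix.diagonal fun a => s * (1 + D a) := by
    rw [Matrix.diagonal_transpose, Matrix.diagonal_mul_diagonal]
    congr 1
    funext a
    calc _ = (√s * √s) * (√(1 + D a) * √(1 + D a)) := by ring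
      _ = _ := by rw [Real.mul_self_sqrt hs0, Real.mul_self_sqrt (hcp a).le]
  have key : ∀ x : Cfg n, gpi (Fin n) {ξ | obs S0 s x ξ ∈ B}
      ≤ ENNReal.ofReal (exp (5 * η * n - c / 2 * n))
        + ENNReal.ofReal (exp (c / 2 * n)) * gpi (Fin n) {ξ | obs S1 s x ξ ∈ B} := by
    intro x
    rw [obs_conv hs0 e0 hR (root_scalar hs0) x hB, obs_conv hs0 e1 hR r1 x hB]
    have hm : Measurable fun ξ : Vec n => cv (s • (J + (3 : ℝ) • (1 : Mat n))) R (sv x) B
        ((Matrix.diagonal fun a => s * (1 + D a)).mulVec (sv x)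
          + (Matrix.diagonal fun a => √s * √(1 + D a)).mulVec ξ) :=
      (measurable_cv _ _ _ hB).comp ((measurable_matVec _).const_add _)
    have hx : ∀ a, sv x a ^ 2 = 1 := fun a => by rw [pow_two]; exact sp_sq (x a)
    refine le_of_eq_of_le (lintegral_congr fun ξ => ?_) (diag_cmp (c := fun a => 1 + D a)
      (y := fun a => -(√s * D a * sv x a * √(1 + D a))) hη1 (fun a => by simpa using hD a)
      (fun a => ?_) hm fun _ => cv_le_one _ _ _ _ _)
    · congr 1
      funext a
      have hq : 0 < √(1 + D a) := Real.sqrt_pos.2 (hcp a)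
      have q1 := Real.mul_self_sqrt (hcp a).le
      have q2 := Real.mul_self_sqrt hs0
      simp only [Pi.add_apply, Matrix.smul_mulVec, Matrix.one_mulVec, Pi.smul_apply, smul_eq_mul,
        Matrix.mulVec_diagonal, afm]
      have q3 : √(1 + D a) * (-(√s * D a * sv x a * √(1 + D a)) / (1 + D a))
          = -(√s * D a * sv x a) := by
        have := (hcp a).ne'
        field_simp
        rw [Real.sq_sqrt (hcp a).le]
      have q4 : √(1 + D a) * (√(1 + D a))⁻¹ = 1 := mul_inv_cancel₀ hq.ne'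
      linear_combination (-√s) * q3 - √s * ξ a * q4 + D a * sv x a * q2
    · have h2 := sq_le_sq' (abs_le.1 (hD a)).1 (abs_le.1 (hD a)).2
      rw [neg_sq, mul_pow, mul_pow, mul_pow, hx, Real.sq_sqrt hs0, Real.sq_sqrt (hcp a).le]
      have h3 : s * D a ^ 2 ≤ η ^ 2 := by nlinarith [sq_nonneg (D a)]
      have h4 : 1 + D a ≤ 2 := by linarith [(abs_le.1 (hD a)).2]
      nlinarith [mul_nonneg hs0 (sq_nonneg (D a)), hcp a]
  rw [← ENNReal.ofReal_le_ofReal_iff (exp_pos _).le] at hP ⊢
  rw [ofReal_PY hμ.1] at hP ⊢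
  calc _ ≤ ∑ x, ENNReal.ofReal (μ x) * (ENNReal.ofReal (exp (5 * η * n - c / 2 * n))
        + ENNReal.ofReal (exp (c / 2 * n)) * gpi (Fin n) {ξ | obs S1 s x ξ ∈ B}) :=
        Finset.sum_le_sum fun x _ => mul_le_mul_right (key x) _
    _ = ENNReal.ofReal (exp (5 * η * n - c / 2 * n)) + ENNReal.ofReal (exp (c / 2 * n))
        * ∑ x, ENNReal.ofReal (μ x) * gpi (Fin n) {ξ | obs S1 s x ξ ∈ B} := by
        simp_rw [mul_add]
        rw [Finset.sum_add_distrib, ← Finset.sum_mul, sum_ofReal hμ, one_mul, Finset.mul_sum]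
        congr 1
        exact Finset.sum_congr rfl fun x _ => by ring
    _ ≤ ENNReal.ofReal (exp (5 * η * n - c / 2 * n)) + ENNReal.ofReal (exp (c / 2 * n))
        * ENNReal.ofReal (exp (-(c * n))) := by gcongr
    _ ≤ _ := by
        rw [← ENNReal.ofReal_mul (exp_pos _).le, ← ENNReal.ofReal_add (exp_pos _).le (by positivity),
          ← exp_add]
        refine ENNReal.ofReal_le_ofReal ?_
        have hn0 : (0 : ℝ) ≤ n := Nat.cast_nonneg n
        have h2 : η * n ≤ c / 40 * n := mul_le_mul_of_nonneg_right hη2 hn0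
        have h3 : exp (5 * η * n - c / 2 * n) ≤ exp (-(c / 4 * n) - 1) := exp_le_exp.2 (by linarith)
        have h4 : exp (c / 2 * n + -(c * n)) ≤ exp (-(c / 4 * n) - 1) := exp_le_exp.2 (by linarith)
        have h5 : exp (-(c / 4 * n) - 1) * 2 ≤ exp (-(c / 4 * n)) := by
          rw [exp_sub, div_mul_eq_mul_div, div_le_iff₀ (exp_pos _)]
          exact mul_le_mul_of_nonneg_left (by linarith [Real.add_one_le_exp 1]) (exp_pos _).le
        linarith

end diag

/-! ### the planted bound on a Haar frame -/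

/-- the label in the eigenframe -/
noncomputable def yF (u : ℝ) (lam v ξ : Vec n) : Vec n :=
  fun a => u * ((lam a + 4) * v a) + √u * (√(lam a + 4) * ξ a)

theorem root_frame {lam : Vec n} (hl : ∀ a, 0 ≤ lam a + 4) (O : OG n) :
    (O.1ᵀ * diagonal fun a => √(lam a + 4)) * (O.1ᵀ * diagonal fun a => √(lam a + 4))ᵀ
      = O.1ᵀ * diagonal (fun a => lam a + 4) * O.1 := by
  rw [Matrix.transpose_mul, Matrix.transpose_transpose, Matrix.diagonal_transpose,
    Matrix.mul_assoc, ← Matrix.mul_assoc (diagonal _), Matrix.diagonal_mul_diagonal,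
    ← Matrix.mul_assoc]
  congr 3
  funext a
  exact Real.mul_self_sqrt (hl a)

theorem JO_add_four (lam : Vec n) (O : OG n) :
    JO lam O + (4 : ℝ) • (1 : Mat n) = O.1ᵀ * diagonal (fun a => lam a + 4) * O.1 := by
  have e : (diagonal fun a => lam a + 4) = diagonal lam + (4 : ℝ) • (1 : Mat n) := by
    ext a b
    by_cases h : a = b <;> simp [h]
  rw [e, Matrix.mul_add, Matrix.add_mul, Matrix.mul_smul, Matrix.smul_mul, Matrix.mul_one,
    OG.transpose_mul]
  rfl

theorem obs_frame {lam : Vec n} (hl : ∀ a, 0 ≤ lam a + 4) (O : OG n) (u : ℝ) (x : Cfg n)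
    (ξ : Vec n) : obs (O.1ᵀ * diagonal fun a => √(lam a + 4)) u x ξ
      = O.1ᵀ *ᵥ yF u lam (xt O x) ξ := by
  rw [Plant.obs_eq, obsU, root_frame hl, ← Matrix.mulVec_mulVec, ← Matrix.mulVec_mulVec,
    ← Matrix.mulVec_mulVec, ← Matrix.mulVec_smul O.1ᵀ, ← Matrix.mulVec_smul O.1ᵀ,
    ← Matrix.mulVec_add]
  congr 1
  funext a
  simp only [yF, xt, Pi.add_apply, Pi.smul_apply, smul_eq_mul, Matrix.mulVec_diagonal]

theorem smul_JO (b : ℝ) (lam : Vec n) (O : OG n) : b • JO lam O = Jr O (diagonal (b • lam)) := by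
  unfold JO Jr
  rw [Matrix.diagonal_smul, Matrix.mul_smul, Matrix.smul_mul]

theorem mm_JO (lam : Vec n) : Fib.MM (JO lam : OG n → Mat n) :=
  (Fib.mm_val.transpose.mul (Fib.MM.const _)).mul Fib.mm_val

theorem meas_yF {X : Type*} [MeasurableSpace X] (u : ℝ) (lam : Vec n) {v ξ : X → Vec n}
    (hv : Measurable v) (hξ : Measurable ξ) : Measurable fun s => yF u lam (v s) (ξ s) :=
  measurable_pi_lambda _ fun a =>
    ((((measurable_pi_apply a).comp hv).const_mul _).const_mul _).add
      ((((measurable_pi_apply a).comp hξ).const_mul _).const_mul _)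

theorem mp_zero : MeasurePreserving (fun ω : ℕ → Vec n => ω 0) (PN n) (gpi (Fin n)) :=
  measurePreserving_eval_infinitePi _ 0

theorem qP_frame {lam : Vec n} (hl : ∀ a, 0 ≤ lam a + 4) (b u : ℝ) {G : Mat n → Vec n → Prop}
    (hG : MG G) (O : OG n) : qP b u G (JO lam O)
      = PE (gM (Jr O (diagonal (b • lam))) (O.1ᵀ *ᵥ 0))
        fun x (ω : ℕ → Vec n) => ¬G (JO lam O) (O.1ᵀ *ᵥ yF u lam (xt O x) (ω 0)) := by
  have hB : MeasurableSet {y | ¬G (JO lam O) y} := (hG.ms (Fib.MM.const _) measurable_id).compl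
  have hp : (JO lam O + (4 : ℝ) • (1 : Mat n)).PosSemidef := by
    rw [JO_add_four, ← root_frame hl]
    simpa only [Matrix.conjTranspose_eq_transpose_of_trivial] using
      Matrix.posSemidef_self_mul_conjTranspose (O.1ᵀ * diagonal fun a => √(lam a + 4))
  unfold qP
  rw [PY_congr _ (R' := O.1ᵀ * diagonal fun a => √(lam a + 4))
    (by rw [rt_mul hp, root_frame hl, JO_add_four]) u hB, smul_JO, Matrix.mulVec_zero]
  unfold PY PE
  refine Finset.sum_congr rfl fun x _ => ?_
  congr 1
  have hC : MeasurableSet {ξ : Vec n | ¬G (JO lam O) (O.1ᵀ *ᵥ yF u lam (xt O x) ξ)} :=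
    (hG.ms (Fib.MM.const _) ((Fib.MM.const _).mulVec
      (meas_yF u lam measurable_const measurable_id))).compl
  simp only [obs_frame hl, Set.mem_ofPred_eq]
  rw [Measure.real, Measure.real, ← mp_zero.measure_preimage hC.nullMeasurableSet]
  rfl

/-- planted probability of a bad label, from the frame event and the fibres -/
theorem planted_le (hn : 0 < n) (M : Mat n) (lam : Vec n) (u : ℝ) {G : Mat n → Vec n → Prop}
    (hG : MG G) (A : Set (Vec n × Vec n)) {p₁ p₂ : ℝ} (hp₂ : 0 ≤ p₂)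
    (hA : ((spM M 0).prod (gpi (Fin n))).real Aᶜ ≤ p₁)
    (hf : ∀ (x : Cfg n) (v ξ : Vec n), (v, ξ) ∈ A → F.sq v = n →
      (fibM (sv x) v).real {O | ¬G (JO lam O) (O.1ᵀ *ᵥ yF u lam v ξ)} ≤ p₂) :
    (plN n M 0).real {q | ¬G (JO lam q.1.1) (q.1.1.1ᵀ *ᵥ yF u lam (xt q.1.1 q.1.2) (q.2 0))}
      ≤ p₁ + p₂ := by
  set ν := (spM M 0).prod (gpi (Fin n)) with hν
  set N := toMeasurable ν Aᶜ with hN
  have hNm : MeasurableSet N := measurableSet_toMeasurable _ _
  have hmp : MeasurePreserving (Prod.map id fun ω : ℕ → Vec n => ω 0) (spN n M 0) ν :=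
    (MeasurePreserving.id _).prod mp_zero
  set E : Set (Vec n × (ℕ → Vec n)) := (Prod.map id fun ω : ℕ → Vec n => ω 0) ⁻¹' N with hE
  have hEm : MeasurableSet E := hmp.measurable hNm
  have h1 : (plN n M 0).real {q | (xt q.1.1 q.1.2, q.2) ∈ E} ≤ p₁ := by
    rw [Measure.real, plN_frame_eq M 0 hEm, hmp.measure_preimage hNm.nullMeasurableSet,
      measure_toMeasurable]
    exact hA
  have hBad : MeasurableSet {r : (Vec n × (ℕ → Vec n)) × OG n |
      ¬G (JO lam r.2) (r.2.1ᵀ *ᵥ yF u lam r.1.1 (r.1.2 0))} :=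
    (hG.ms ((mm_JO lam).comp measurable_snd) ((Fib.mm_val.transpose.comp measurable_snd).mulVec
      (meas_yF u lam (measurable_fst.comp measurable_fst)
        ((measurable_pi_apply 0).comp (measurable_snd.comp measurable_fst))))).compl
  have h2 := fib_le hn M 0 hEm.compl (Bad := fun _ => _) (fun _ => hBad) (p := ENNReal.ofReal p₂)
    fun x r hr hsq => by
      have hrA : (r.1, r.2 0) ∈ A := by
        by_contra hc
        exact hr (subset_toMeasurable ν Aᶜ hc)
      exact (ENNReal.le_ofReal_iff_toReal_le (measure_ne_top _ _) hp₂).2 (hf x r.1 (r.2 0) hrA hsq)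
  have h3 := ENNReal.toReal_le_of_le_ofReal hp₂ h2
  refine le_trans (measureReal_mono ?_ (measure_ne_top _ _))
    ((measureReal_union_le _ _).trans (add_le_add h1 h3))
  intro q hq
  by_cases hc : (xt q.1.1 q.1.2, q.2) ∈ E
  · exact Or.inl hc
  · exact Or.inr ⟨hc, hq⟩

/-- quenched bound for a finite family of levels, for a fixed spectrum -/
theorem haar_le {lam : Vec n} (hl : ∀ a, 0 ≤ lam a + 4) (b : ℝ) (T : Finset ℕ)
    (u : ℕ → ℝ) {G : ℕ → Mat n → Vec n → Prop} (hG : ∀ j, MG (G j)) {p ε d : ℝ} (hε : 0 < ε)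
    (hd : 0 < d) (hp : ∀ j ∈ T, (plN n (diagonal (b • lam)) 0).real
      {q | ¬G j (JO lam q.1.1) (q.1.1.1ᵀ *ᵥ yF (u j) lam (xt q.1.1 q.1.2) (q.2 0))} ≤ p) :
    (haar n).real {O | ε ≤ LR (diagonal (b • lam)) 0 O ∧ ∃ j ∈ T, d ≤ qP b (u j) (G j) (JO lam O)}
      ≤ T.card * (p / (ε * d)) := by
  have h1 : {O : OG n | ε ≤ LR (diagonal (b • lam)) 0 O ∧ ∃ j ∈ T, d ≤ qP b (u j) (G j) (JO lam O)}
      ⊆ ⋃ j ∈ T, {O : OG n | ε ≤ LR (diagonal (b • lam)) 0 O ∧ d ≤ qP b (u j) (G j) (JO lam O)} := by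
    rintro O ⟨h, j, hj, h'⟩
    exact Set.mem_biUnion hj ⟨h, h'⟩
  refine (measureReal_mono h1 (measure_ne_top _ _)).trans
    ((measureReal_biUnion_finset_le _ _).trans ?_)
  rw [← nsmul_eq_mul]
  refine Finset.sum_le_card_nsmul _ _ _ fun j hj => ?_
  have h2 := quenched_le (m := n) (diagonal (b • lam)) 0
    {q | ¬G j (JO lam q.1.1) (q.1.1.1ᵀ *ᵥ yF (u j) lam (xt q.1.1 q.1.2) (q.2 0))} hε hd
  simp only [qP_frame hl b (u j) (hG j)]
  exact h2.trans (div_le_div_of_nonneg_right (hp j hj) (by positivity))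

/-! ### from the frame to the GOE -/

/-- the partition function -/
noncomputable def Zb (b : ℝ) (J : Mat n) : ℝ := ∑ x : Cfg n, Real.exp (b / 2 * qf J (sv x))

theorem Zc_eq (b : ℝ) (lam : Vec n) (O : OG n) : Zc (diagonal (b • lam)) 0 O = Zb b (JO lam O) := by
  unfold Zc Zb
  refine Finset.sum_congr rfl fun x _ => ?_
  rw [← HM_site, ← smul_JO, Matrix.mulVec_zero, qf_smul']
  congr 1
  simp [ip]
  ring

theorem meas_Zb {X : Type*} [MeasurableSpace X] (b : ℝ) {J : X → Mat n} (hJ : Fib.MM J) :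
    Measurable fun s => Zb b (J s) := by
  unfold Zb qf ip
  exact Finset.measurable_sum _ fun x _ => Real.measurable_exp.comp
    ((Finset.measurable_sum _ fun i _ => Measurable.const_mul
      ((measurable_pi_apply i).comp (hJ.mulVec measurable_const)) _).const_mul _)

theorem goeM_eq (ω : Pairs n ⊕ Fin n → ℝ) : goeM (Red.famA n) ω
    = goe ((fun p => ω (Sum.inl p)), (fun a => ω (Sum.inr a))) := Red.goeM_famA ω

theorem gpi_le_PW (P : Mat n → Prop) :
    (gpi (Pairs n ⊕ Fin n)).real {ω | P (goeM (Red.famA n) ω)} ≤ (PW n).real {w | P (goe w)} := by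
  have h := Measure.le_map_apply (μ := gpi (Pairs n ⊕ Fin n))
    (Red.mp_split (n := n)).measurable.aemeasurable {w | P (goe w)}
  rw [Red.mp_split.map_eq] at h
  have : IsProbabilityMeasure (PW n) := by unfold PW disorder; infer_instance
  refine ENNReal.toReal_mono (measure_ne_top _ _) (le_trans (le_of_eq ?_) h)
  simp only [goeM_eq]
  rfl

theorem PW_eq {Bad : Set (Fin n → Fin n → ℝ)} (hB : MeasurableSet Bad) :
    PW n {w | Red.ent (goe w) ∈ Bad}
      = gpi (Pairs n ⊕ Fin n) {ω | Red.ent (goeM (Red.famA n) ω) ∈ Bad} := by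
  have hm : MeasurableSet {w : (Pairs n → ℝ) × Vec n | Red.ent (goe w) ∈ Bad} :=
    Red.measurable_ent Red.continuous_goeF hB
  have h := Red.mp_split.measure_preimage hm.nullMeasurableSet
  simp only [goeM_eq]
  exact h.symm

/-- the annealed spherical integral -/
theorem lint_ISM {ι : Type} [Fintype ι] {A : ι → Mat n} (hA : GoeFam A) (hn : 0 < n) (b : ℝ) :
    ∫⁻ ω, ENNReal.ofReal (ISM (b • goeM A ω) 0) ∂gpi ι
      = ENNReal.ofReal (Real.exp (b ^ 2 * n / 4)) := by
  have hn' : (0 : ℝ) < n := by positivity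
  have hc : Continuous fun p : (ι → ℝ) × Vec n => HM (b • goeM A p.1) 0 p.2 := by
    unfold HM qf ip
    have h1 : Continuous fun p : (ι → ℝ) × Vec n => (b • goeM A p.1) *ᵥ p.2 :=
      (((continuous_goeM A).comp continuous_fst).const_smul b).matrix_mulVec continuous_snd
    exact ((continuous_finsetSum _ fun i _ => ((continuous_apply i).comp continuous_snd).mul
      ((continuous_apply i).comp h1)).div_const _).add
      (continuous_finsetSum _ fun i _ => continuous_const.mul
        ((continuous_apply i).comp continuous_snd))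
  simp only [ofReal_ISM]
  rw [lintegral_lintegral_swap (f := fun (ω : ι → ℝ) (u : Vec n) =>
    ENNReal.ofReal (Real.exp (HM (b • goeM A ω) 0 u))) (ENNReal.measurable_ofReal.comp
    (Real.measurable_exp.comp hc.measurable)).aemeasurable]
  rw [lintegral_congr_ae (g := fun _ => ENNReal.ofReal (Real.exp (b ^ 2 * n / 4))),
    lintegral_const, measure_univ, mul_one]
  filter_upwards [ae_sph hn hn'.le] with u hu
  have h := lintegral_goe_tilt hA b u (G := fun _ => 1) measurable_const
  simp only [mul_one, lintegral_const, measure_univ] at h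
  have e : ∀ ω, ENNReal.ofReal (Real.exp (HM (b • goeM A ω) 0 u))
      = ENNReal.ofReal (Real.exp (b ^ 2 * n / 4)) * ENNReal.ofReal
        (Real.exp (b * qf (goeM A ω) u / 2 - b ^ 2 * F.sq u ^ 2 / (4 * n))) := by
    intro ω
    rw [← ENNReal.ofReal_mul (Real.exp_pos _).le, ← Real.exp_add, hu]
    congr 2
    unfold HM
    rw [qf_smul']
    simp only [ip, Pi.zero_apply, zero_mul, Finset.sum_const_zero]
    field_simp
    ring
  simp only [e]
  rw [lintegral_const_mul' _ _ ENNReal.ofReal_ne_top, h, mul_one]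

theorem ISM_tail {ι : Type} [Fintype ι] {A : ι → Mat n} (hA : GoeFam A) (hn : 0 < n) (b x : ℝ) :
    (gpi ι).real {ω | Real.exp (b ^ 2 * n / 4 + x) ≤ ISM (b • goeM A ω) 0} ≤ Real.exp (-x) := by
  have hm : Measurable fun ω : ι → ℝ => ENNReal.ofReal (ISM (b • goeM A ω) 0) :=
    ENNReal.measurable_ofReal.comp (measurable_ISM (fun i j => (((continuous_apply_apply i j).comp
      ((continuous_goeM A).const_smul b))).measurable) fun _ => measurable_const)
  have h := meas_ge_le_lintegral_div (μ := gpi ι) hm.aemeasurable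
    (ε := ENNReal.ofReal (Real.exp (b ^ 2 * n / 4 + x))) (by simp [Real.exp_pos])
    ENNReal.ofReal_ne_top
  rw [lint_ISM hA hn, ← ENNReal.ofReal_div_of_pos (Real.exp_pos _), ← Real.exp_sub] at h
  refine ENNReal.toReal_le_of_le_ofReal (Real.exp_pos _).le (le_trans (measure_mono ?_)
    (h.trans_eq (by congr 2; ring)))
  exact fun ω hω => ENNReal.ofReal_le_ofReal hω

theorem ISM_eig {J V : Mat n} {lam : Vec n} (h : IsEig J V lam) (b : ℝ) :
    ISM (b • J) 0 = ISM (diagonal (b • lam)) 0 := by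
  have h1 := ISM_conj (OG.mk' V (mul_eq_one_comm.1 h.1)) (diagonal (b • lam)) 0
  rw [Matrix.mulVec_zero, ← smul_JO] at h1
  rw [← h1]
  exact congrArg (fun M => ISM (b • M) 0) h.2

/-- **reduction**: quenched bounds along a finite family of levels, for the GOE -/
theorem goe_levels (hn : 0 < n) (b x : ℝ) (T : Finset ℕ) (u : ℕ → ℝ)
    {G : ℕ → Mat n → Vec n → Prop} (hG : ∀ j, MG (G j)) (S : Vec n → Prop) {p d : ℝ} (hp0 : 0 ≤ p)
    (hd : 0 < d) (hl : ∀ lam, S lam → ∀ a, 0 ≤ lam a + 4)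
    (hp : ∀ lam, S lam → ∀ j ∈ T, (plN n (diagonal (b • lam)) 0).real
      {q | ¬G j (JO lam q.1.1) (q.1.1.1ᵀ *ᵥ yF (u j) lam (xt q.1.1 q.1.2) (q.2 0))} ≤ p) :
    (PW n).real {w | 2 ^ n * Real.exp (b ^ 2 * n / 4 - x) ≤ Zb b (goe w) ∧
        ∃ j ∈ T, d ≤ qP b (u j) (G j) (goe w)}
      ≤ T.card * (p / (Real.exp (-(2 * x)) * d)) + Real.exp (-x) + (gpi (Pairs n ⊕ Fin n)).real
        {ω | ¬∀ O lam, IsEig (goeM (Red.famA n) ω) O lam → S lam} := by
  have hB : MeasurableSet {J : Fin n → Fin n → ℝ | 2 ^ n * Real.exp (b ^ 2 * n / 4 - x) ≤ Zb b J ∧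
      ∃ j ∈ T, d ≤ qP b (u j) (G j) J} := by
    refine (measurableSet_le measurable_const (meas_Zb b mm_ent)).inter ?_
    have e : {J : Fin n → Fin n → ℝ | ∃ j ∈ T, d ≤ qP b (u j) (G j) J}
        = ⋃ j ∈ T, {J : Fin n → Fin n → ℝ | d ≤ qP b (u j) (G j) J} := by
      ext J; simp
    change MeasurableSet {J : Fin n → Fin n → ℝ | ∃ j ∈ T, d ≤ qP b (u j) (G j) J}
    rw [e]
    exact Finset.measurableSet_biUnion _ fun j _ =>
      measurableSet_le measurable_const (meas_qP b (u j) (hG j) mm_ent)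
  have hc : 0 ≤ T.card * (p / (Real.exp (-(2 * x)) * d)) := by positivity
  have h1 := Red.goe_le Red.goeFam_famA hB
    (c := ENNReal.ofReal (T.card * (p / (Real.exp (-(2 * x)) * d))))
    (fun lam => S lam ∧ ISM (diagonal (b • lam)) 0 < Real.exp (b ^ 2 * n / 4 + x)) fun lam hS => by
      refine (ENNReal.le_ofReal_iff_toReal_le (measure_ne_top _ _) hc).2 (le_trans
        (measureReal_mono ?_ (measure_ne_top _ _))
        (haar_le (hl lam hS.1) b T u hG (Real.exp_pos _) hd (hp lam hS.1)))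
      rintro O ⟨h, h'⟩
      refine ⟨?_, h'⟩
      unfold LR
      rw [le_div_iff₀ (nrm_pos _ _), Zc_eq]
      refine le_trans ?_ h
      have e : Real.exp (b ^ 2 * n / 4 - x)
          = Real.exp (-(2 * x)) * Real.exp (b ^ 2 * n / 4 + x) := by
        rw [← Real.exp_add]; congr 1; ring
      rw [e, mul_left_comm]
      have := hS.2.le
      gcongr
  rw [← PW_eq hB] at h1
  have h2 := ENNReal.toReal_mono (by finiteness) h1
  rw [ENNReal.toReal_add ENNReal.ofReal_ne_top (measure_ne_top _ _), ENNReal.toReal_ofReal hc] at h2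
  refine h2.trans ?_
  rw [add_assoc]
  refine add_le_add le_rfl (le_trans (measureReal_mono ?_ (measure_ne_top _ _))
    ((measureReal_union_le _ _).trans (add_le_add (ISM_tail Red.goeFam_famA hn b x) le_rfl)))
  intro ω hω
  by_contra hcon
  simp only [Set.mem_union, Set.mem_ofPred_eq, not_or, not_not, not_le] at hcon
  exact hω fun O lam h => ⟨hcon.2 O lam h, by rw [← ISM_eig h]; exact hcon.1⟩

end Vale.Agent.N150.ETL
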