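import Vale.Agent.N150.EndTL2

/-! P150 at `β = 1`, endgame, block E6: the canonical Borel set of good labels. -/

open MeasureTheory Matrix Filter Topology

namespace Vale.Agent.N150.ETL

open Vale.Agent.P150 Vale.Agent.P150.F Vale.Agent.N150.EC Vale.Agent.N150.End

variable {n : ℕ}

/-- the off-diagonal part -/
def off (J : Mat n) : Mat n := J - diagonal J.diag

theorem off_add (J : Mat n) : off J + diagonal J.diag = J := sub_add_cancel _ _

theorem skM_diag (g : Pairs n → ℝ) (a : Fin n) : skM g a a = 0 := by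
  simp [skM, gsym]

theorem diag_goe (w : (Pairs n → ℝ) × Vec n) : (goe w).diag = fun a => √(2 / (n : ℝ)) * w.2 a := by
  funext a
  simp [goe, skM_diag]

theorem off_goe (w : (Pairs n → ℝ) × Vec n) : off (goe w) = skM w.1 := by
  unfold off
  rw [diag_goe]
  exact add_sub_cancel_right _ _

/-- the matrix of a level -/
def lv (r κ : ℝ) (J : Mat n) : Mat n := r • J - κ • (1 : Mat n)

/-- a jointly measurable point function -/
def MP (hp : Mat n → Vec n → Vec n) : Prop :=
  Measurable fun p : (Fin n → Fin n → ℝ) × Vec n => hp p.1 p.2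

/-- a dense sequence of vectors -/
noncomputable def ds (n : ℕ) (k : ℕ) : Vec n := TopologicalSpace.denseSeq (Vec n) k

theorem cont_nv : Continuous (nv : Vec n → ℝ) := by
  have e : (nv : Vec n → ℝ) = fun v => √(∑ i, v i ^ 2) := funext fun v => nv_eq_sqrt v
  rw [e]
  fun_prop

theorem exists_ds (y : Vec n) {a : ℝ} (ha : 0 < a) : ∃ k, nv (ds n k - y) < a := by
  have ho : IsOpen {v : Vec n | nv (v - y) < a} :=
    isOpen_lt (cont_nv.comp (continuous_id.sub continuous_const)) continuous_const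
  exact (TopologicalSpace.denseRange_denseSeq (Vec n)).exists_mem_open ho
    ⟨y, by simpa [nv_zero] using ha⟩

theorem cont_tm : Continuous (tm : Vec n → Vec n) :=
  continuous_pi fun i => (continuous_iff_continuousAt.2 fun x =>
    (hasDerivAt_tanh x).continuousAt).comp (continuous_apply i)

theorem cont_qq : Continuous (qq : Vec n → ℝ) := by
  unfold qq F.sq
  fun_prop

theorem tapG_tm (r : ℝ) (J : Mat n) (y g : Vec n) :
    tapG r J 0 y (tm g) = g - r • (J *ᵥ tm g) + (r ^ 2 * (1 - qq (tm g))) • tm g - y := by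
  funext i
  have : Real.artanh (tm g i) = g i := Real.artanh_tanh _
  simp only [tapG, tapB, this, Matrix.zero_mulVec, Pi.zero_apply, Pi.add_apply, Pi.sub_apply,
    Pi.smul_apply, smul_eq_mul]
  ring

theorem cont_tapG (r : ℝ) (J : Mat n) (y : Vec n) : Continuous fun g => tapG r J 0 y (tm g) := by
  simp only [tapG_tm]
  exact ((continuous_id.sub ((continuous_const.matrix_mulVec cont_tm).const_smul r)).add
    ((continuous_const.mul (continuous_const.sub (cont_qq.comp cont_tm))).smul cont_tm)).sub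
    continuous_const

theorem cont_HLm (L r : ℝ) (J : Mat n) : Continuous fun g => HLm L r J (tm g) := by
  have h1 : Continuous fun g : Vec n => diagonal fun i => min (1 / (1 - tm g i ^ 2)) L :=
    Continuous.matrix_diagonal (continuous_pi fun i => Continuous.min
      (continuous_const.div (continuous_const.sub (((continuous_apply i).comp cont_tm).pow 2))
        fun g => (one_sub_tanh_sq_pos _).ne') continuous_const)
  have h2 : Continuous fun g : Vec n => (r ^ 2 * (1 - qq (tm g))) • (1 : Mat n) :=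
    (continuous_const.mul (continuous_const.sub (cont_qq.comp cont_tm))).smul continuous_const
  have h3 : Continuous fun g : Vec n => (2 * r ^ 2 / n) • vecMulVec (tm g) (tm g) :=
    (cont_tm.matrix_vecMulVec cont_tm).const_smul (2 * r ^ 2 / n : ℝ)
  exact ((h1.add h2).sub (continuous_const (y := r • J))).sub h3

section meas

variable {X : Type*} [MeasurableSpace X]

/-- measurability of a universal statement under an open condition -/
theorem ms_forall_imp {E : Type*} [TopologicalSpace E] [TopologicalSpace.SeparableSpace E]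
    {φ φ' ψ ψ' : X → E → ℝ} (h1 : ∀ e, Measurable fun x => φ x e)
    (h2 : ∀ e, Measurable fun x => φ' x e) (h3 : ∀ e, Measurable fun x => ψ x e)
    (h4 : ∀ e, Measurable fun x => ψ' x e) (c1 : ∀ x, Continuous (φ x))
    (c2 : ∀ x, Continuous (φ' x)) (c3 : ∀ x, Continuous (ψ x)) (c4 : ∀ x, Continuous (ψ' x)) :
    MeasurableSet {x | ∀ e, φ x e < φ' x e → ψ x e ≤ ψ' x e} := by
  obtain ⟨s, hs, hd⟩ := TopologicalSpace.exists_countable_dense E
  have e : {x | ∀ e, φ x e < φ' x e → ψ x e ≤ ψ' x e}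
      = ⋂ e ∈ s, ({x | φ x e < φ' x e}ᶜ ∪ {x | ψ x e ≤ ψ' x e}) := by
    ext x
    simp only [Set.mem_ofPred_eq, Set.mem_iInter, Set.mem_union, Set.mem_compl_iff]
    refine ⟨fun h v _ => (em _).symm.imp_right (h v), fun h v hv => ?_⟩
    refine closure_minimal (s := {e | φ x e < φ' x e} ∩ s) (t := {e | ψ x e ≤ ψ' x e})
      (fun e he => (h e he.2).resolve_left (not_not.2 he.1)) (isClosed_le (c3 x) (c4 x)) ?_
    exact hd.open_subset_closure_inter (isOpen_lt (c1 x) (c2 x)) hv
  rw [e]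
  exact MeasurableSet.biInter hs fun v _ =>
    (measurableSet_lt (h1 v) (h2 v)).compl.union (measurableSet_le (h3 v) (h4 v))

theorem MP.meas {hp : Mat n → Vec n → Vec n} (h : MP hp) {J : X → Mat n} {y : X → Vec n}
    (hJ : Fib.MM J) (hy : Measurable y) : Measurable fun x => hp (J x) (y x) :=
  Measurable.comp (g := fun p : (Fin n → Fin n → ℝ) × Vec n => hp p.1 p.2) h ((mm_pi hJ).prodMk hy)

theorem mm_lv (r κ : ℝ) {J : X → Mat n} (hJ : Fib.MM J) : Fib.MM fun x => lv r κ (J x) :=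
  (Fib.MM.smul measurable_const hJ).sub (Fib.MM.const _)

theorem meas_diag {J : X → Mat n} (hJ : Fib.MM J) : Measurable fun x => (J x).diag :=
  measurable_pi_lambda _ fun i => hJ i i

theorem mm_off {J : X → Mat n} (hJ : Fib.MM J) : Fib.MM fun x => off (J x) := by
  refine hJ.sub fun i j => ?_
  by_cases h : i = j
  · subst h
    simpa using hJ i i
  · simp [h]

theorem meas_nv {v : X → Vec n} (hv : Measurable v) : Measurable fun x => nv (v x) :=
  cont_nv.measurable.comp hv

theorem meas_tapG (r : ℝ) {J : X → Mat n} {y g : X → Vec n} (hJ : Fib.MM J) (hy : Measurable y)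
    (hg : Measurable g) : Measurable fun x => tapG r (J x) 0 (y x) (tm (g x)) := by
  have ht : Measurable fun x => tm (g x) := cont_tm.measurable.comp hg
  simp only [tapG_tm]
  exact ((hg.sub ((hJ.mulVec ht).const_smul r)).add
    ((measurable_const.mul (measurable_const.sub (cont_qq.measurable.comp ht))).smul ht)).sub hy

theorem mm_HLm (L r : ℝ) {J : X → Mat n} (hJ : Fib.MM J) (m : Vec n) :
    Fib.MM fun x => HLm L r (J x) m :=
  ((Fib.MM.const _).sub (Fib.MM.smul measurable_const hJ)).sub (Fib.MM.const _)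

end meas

/-- the diagonal is small -/
def DiagOK (η E₀ : ℝ) (J : Mat n) : Prop := (∀ a, |J.diag a| ≤ η) ∧ nv J.diag ≤ E₀

/-- the consequences of the no-outlier theorem which define the good labels at the level `r`
(next level `r'`) -/
structure Can (hp ct : Mat n → Vec n → Vec n) (c₀ L R E B ρ a β r r' κ : ℝ) (J : Mat n)
    (y : Vec n) : Prop where
  tap : nv (tapG r (off J) 0 y (tm (hp (lv r κ J) y))) ≤ E
  inv : ∀ e : Vec n × Vec n, nv (tm e.1 - tm (hp (lv r κ J) y)) < 2 * R * √n →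
    c₀ * nv e.2 ≤ nv (HLm L r (off J) (tm e.1) *ᵥ e.2)
  near : nv (hp (lv r κ J) y - ct (lv r κ J) y) ≤ ρ / 8
  uniq : ∀ g, nv (g - ct (lv r κ J) y) < ρ →
    nv (g - hp (lv r κ J) y) ≤ B * (nv (tapG r (off J) 0 y (tm g)) + E)
  c0 : ∀ k, nv (ds n k - y) < a → nv (ct (lv r κ J) (ds n k) - ct (lv r κ J) y) ≤ β
  c1 : ∀ k, nv (ds n k - y) < a → nv (ct (lv r' κ J) (ds n k) - ct (lv r κ J) y) ≤ β

theorem mg_can {hp ct : Mat n → Vec n → Vec n} (h1 : MP hp) (h2 : MP ct)
    (η E₀ c₀ L R E B ρ a β r r' κ : ℝ) :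
    MG fun J y => DiagOK η E₀ J → Can hp ct c₀ L R E B ρ a β r r' κ J y := by
  have hJ : Fib.MM fun p : (Fin n → Fin n → ℝ) × Vec n => (p.1 : Mat n) :=
    mm_ent.comp measurable_fst
  have hy : Measurable fun p : (Fin n → Fin n → ℝ) × Vec n => p.2 := measurable_snd
  have hh := h1.meas (mm_lv r κ hJ) hy
  have hc := h2.meas (mm_lv r κ hJ) hy
  have hD : MeasurableSet {p : (Fin n → Fin n → ℝ) × Vec n | DiagOK η E₀ p.1} := by
    refine MeasurableSet.inter (s₁ := {p : (Fin n → Fin n → ℝ) × Vec n |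
      ∀ a, |Matrix.diag p.1 a| ≤ η}) ?_ (measurableSet_le (meas_nv (meas_diag hJ)) measurable_const)
    rw [Set.ofPred_forall]
    exact MeasurableSet.iInter fun a => measurableSet_le (hJ a a).abs measurable_const
  have m1 := measurableSet_le (meas_nv (meas_tapG r (mm_off hJ) hy hh)) (measurable_const (a := E))
  have m2 := ms_forall_imp (X := (Fin n → Fin n → ℝ) × Vec n) (E := Vec n × Vec n)
    (φ := fun p e => nv (tm e.1 - tm (hp (lv r κ p.1) p.2))) (φ' := fun _ _ => 2 * R * √n)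
    (ψ := fun _ e => c₀ * nv e.2) (ψ' := fun p e => nv (HLm L r (off p.1) (tm e.1) *ᵥ e.2))
    (fun e => meas_nv (measurable_const.sub (cont_tm.measurable.comp hh)))
    (fun _ => measurable_const) (fun _ => measurable_const)
    (fun e => meas_nv ((mm_HLm L r (mm_off hJ) _).mulVec measurable_const))
    (fun _ => cont_nv.comp ((cont_tm.comp continuous_fst).sub continuous_const))
    (fun _ => continuous_const) (fun _ => continuous_const.mul (cont_nv.comp continuous_snd))
    (fun p => cont_nv.comp (((cont_HLm L r _).comp continuous_fst).matrix_mulVec continuous_snd))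
  have m3 := measurableSet_le (meas_nv (hh.sub hc)) (measurable_const (a := ρ / 8))
  have m4 := ms_forall_imp (X := (Fin n → Fin n → ℝ) × Vec n) (E := Vec n)
    (φ := fun p g => nv (g - ct (lv r κ p.1) p.2)) (φ' := fun _ _ => ρ)
    (ψ := fun p g => nv (g - hp (lv r κ p.1) p.2))
    (ψ' := fun p g => B * (nv (tapG r (off p.1) 0 p.2 (tm g)) + E))
    (fun _ => meas_nv (measurable_const.sub hc)) (fun _ => measurable_const)
    (fun _ => meas_nv (measurable_const.sub hh))
    (fun _ => ((meas_nv (meas_tapG r (mm_off hJ) hy measurable_const)).add_const _).const_mul _)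
    (fun _ => cont_nv.comp (continuous_id.sub continuous_const)) (fun _ => continuous_const)
    (fun _ => cont_nv.comp (continuous_id.sub continuous_const))
    (fun _ => continuous_const.mul ((cont_nv.comp (cont_tapG r _ _)).add continuous_const))
  have m5 : ∀ s : ℝ, MeasurableSet {p : (Fin n → Fin n → ℝ) × Vec n | ∀ k, nv (ds n k - p.2) < a →
      nv (ct (lv s κ p.1) (ds n k) - ct (lv r κ p.1) p.2) ≤ β} := by
    intro s
    rw [Set.ofPred_forall]
    refine MeasurableSet.iInter fun k => ?_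
    simp only [imp_iff_not_or]
    exact (measurableSet_lt (meas_nv (measurable_const.sub hy)) measurable_const).compl.union
      (measurableSet_le (meas_nv ((h2.meas (mm_lv s κ hJ) measurable_const).sub hc))
        measurable_const)
  have m := hD.compl.union (m1.inter (m2.inter (m3.inter (m4.inter ((m5 r).inter (m5 r'))))))
  unfold MG
  convert m using 1
  ext p
  simp only [Set.mem_ofPred_eq, Set.mem_union, Set.mem_compl_iff, Set.mem_inter_iff,
    imp_iff_not_or (a := DiagOK η E₀ p.1)]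
  exact or_congr_right ⟨fun h => ⟨h.tap, h.inv, h.near, h.uniq, h.c0, h.c1⟩,
    fun h => ⟨h.1, h.2.1, h.2.2.1, h.2.2.2.1, h.2.2.2.2.1, h.2.2.2.2.2⟩⟩

variable {hp ct : Mat n → Vec n → Vec n} {c₀ L R E B ρ ρ' a β r r' r'' κ : ℝ} {J : Mat n}
  {y y' : Vec n}

theorem Can.ctr (h : Can hp ct c₀ L R E B ρ a β r r' κ J y) (hR : 0 < R * √n) :
    Ctr0 c₀ L R E r (off J) y (tm (hp (lv r κ J) y)) := by
  refine ⟨abs_tm_lt _, h.tap, fun m hm hmc v => ?_⟩
  have e : tm (fun i => Real.artanh (m i)) = m := funext fun i =>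
    Real.tanh_artanh ⟨(abs_lt.1 (hm i)).1, (abs_lt.1 (hm i)).2⟩
  have := h.inv (fun i => Real.artanh (m i), v) (by rw [e]; linarith)
  rwa [e] at this

theorem nv_tapG_shift (hJ : OpLe J 3) (hr : 0 ≤ r) (hr1 : r ≤ 1) (hr' : 0 ≤ r') (hr1' : r' ≤ 1)
    {δ t : ℝ} (hδ : |r - r'| ≤ δ) (hy : nv (y' - y) ≤ t) (g : Vec n) :
    nv (tapG r' J 0 y' (tm g)) ≤ nv (tapG r J 0 y (tm g)) + (5 * δ * √n + t) := by
  have hg1 : ∀ i, |tm g i| ≤ 1 := fun i => (abs_tm_lt g i).le
  have ng := nv_le_sqrt_n hg1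
  have ha0 : 0 ≤ δ := (abs_nonneg _).trans hδ
  have b1 : nv ((r - r') • (J *ᵥ tm g)) ≤ δ * (3 * √n) := by
    rw [nv_smul]
    exact mul_le_mul hδ ((hJ.nv_le (by norm_num) _).trans (by linarith)) (nv_nonneg _) ha0
  have b2 : nv (((r' ^ 2 - r ^ 2) * (1 - qq (tm g))) • tm g) ≤ 2 * δ * √n := by
    rw [nv_smul]
    refine mul_le_mul ?_ ng (nv_nonneg _) (by positivity)
    have q0 := qq_nonneg (tm g)
    have q1 := qq_le_one hg1
    have e : r' ^ 2 - r ^ 2 = (r - r') * (-(r + r')) := by ring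
    rw [abs_mul, e, abs_mul, abs_neg, abs_of_nonneg (show 0 ≤ r + r' by linarith),
      abs_of_nonneg (show 0 ≤ 1 - qq (tm g) by linarith)]
    have : |r - r'| * (r + r') ≤ δ * 2 := mul_le_mul hδ (by linarith) (by linarith) ha0
    nlinarith [mul_nonneg (abs_nonneg (r - r')) (show 0 ≤ r + r' by linarith)]
  have a3 : nv (tapG r' J 0 y' (tm g) - tapG r J 0 y (tm g)) ≤ 5 * δ * √n + t := by
    rw [tapG_sub]
    refine (nv_sub_le _ _).trans
      ((add_le_add ((nv_add_le _ _).trans (add_le_add b1 b2)) hy).trans_eq ?_)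
    ring
  have a4 := nv_add_le (tapG r' J 0 y' (tm g) - tapG r J 0 y (tm g)) (tapG r J 0 y (tm g))
  rw [sub_add_cancel] at a4
  linarith

theorem Can.link (h : Can hp ct c₀ L R E B ρ a β r r' κ J y)
    (h' : Can hp ct c₀ L R E B ρ' a β r' r'' κ J y') (hJ : OpLe (off J) 3) (hr : 0 ≤ r)
    (hr1 : r ≤ 1) (hr' : 0 ≤ r') (hr1' : r' ≤ 1) {δ t : ℝ} (hδ : |r - r'| ≤ δ)
    (hy : nv (y' - y) ≤ t) (hta : t < a) (hρ : ρ / 8 + 2 * β < ρ') (hB : 0 ≤ B) :
    nv (tm (hp (lv r' κ J) y') - tm (hp (lv r κ J) y)) ≤ B * (2 * E + 5 * δ * √n + t) := by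
  have ht0 : 0 ≤ t := (nv_nonneg _).trans hy
  obtain ⟨k, hk⟩ := exists_ds y' (sub_pos.2 hta)
  have b1 := h.c1 k (by linarith [nv_sub_triangle (ds n k) y' y])
  have b2 := h'.c0 k (by linarith)
  have b3 : nv (hp (lv r κ J) y - ct (lv r' κ J) y') < ρ' := by
    have e1 := nv_sub_triangle (hp (lv r κ J) y) (ct (lv r κ J) y) (ct (lv r' κ J) y')
    have e2 := nv_sub_triangle (ct (lv r κ J) y) (ct (lv r' κ J) (ds n k)) (ct (lv r' κ J) y')
    rw [nv_sub_comm (ct (lv r κ J) y) (ct (lv r' κ J) (ds n k))] at e2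
    linarith [h.near]
  have b4 := h'.uniq _ b3
  have b5 := nv_tapG_shift hJ hr hr1 hr' hr1' hδ hy (hp (lv r κ J) y)
  rw [nv_sub_comm]
  refine tanh_nv_le.trans (b4.trans (mul_le_mul_of_nonneg_left ?_ hB))
  linarith [h.tap]

theorem Can.zero (h : Can hp ct c₀ L R E B ρ a β r r' κ J 0) (h0 : ct (lv r κ J) 0 = 0)
    (hρ : 0 < ρ) : nv (tm (hp (lv r κ J) 0)) ≤ B * E := by
  have t0 : tm (0 : Vec n) = 0 := by funext i; simp [tm]
  have b1 := h.uniq 0 (by rw [h0, sub_zero, nv_zero]; exact hρ)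
  rw [tapG_tm, t0] at b1
  simp only [Matrix.mulVec_zero, smul_zero, sub_zero, add_zero, nv_zero, zero_add] at b1
  have b2 : nv (tm 0 - tm (hp (lv r κ J) 0)) ≤ nv (0 - hp (lv r κ J) 0) := tanh_nv_le
  rw [t0, zero_sub, nv_neg] at b2
  exact b2.trans b1

/-- the output of the no-outlier theorem gives a good label -/
theorem can_of (hn : 0 < n) {zf : Vec n → ℝ} {d C η E₀ zl zh ε : ℝ}
    (H : T1Out (lv r κ J) y (hp (lv r κ J) y) (ct (lv r κ J) y) zf ρ B zl zh ε)
    (hR : ResOK d C J) (hD : DiagOK η E₀ J) (hr : 1 / 2 ≤ r) (hr1 : r ≤ 1)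
    (hz : 2 * r + d ≤ zl + κ) (hz' : zh + κ ≤ 10) (hη : 0 ≤ η) (hB : 0 < B) (hL : 2 ≤ L)
    (hρ : 0 ≤ ρ) (hLR : L * (2 * R * √n) ≤ ρ / 2) (he : (2 * (C / √n) + η + 6 / L) * (2 * B) ≤ 1)
    (hE : ε + C + E₀ ≤ E)
    (hc0 : ∀ v, nv (v - y) < a → nv (ct (lv r κ J) v - ct (lv r κ J) y) ≤ β)
    (hc1 : ∀ v, nv (v - y) < a → nv (ct (lv r' κ J) v - ct (lv r κ J) y) ≤ β) :
    Can hp ct (1 / (2 * B)) L R E B ρ a β r r' κ J y := by
  have e : lv r κ J = r • (off J + diagonal J.diag) - κ • (1 : Mat n) := by rw [off_add]; rfl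
  have hR' : ResOK d C (off J + diagonal J.diag) := by rwa [off_add]
  have H' : T1Out (r • (off J + diagonal J.diag) - κ • (1 : Mat n)) y (hp (lv r κ J) y)
      (ct (lv r κ J) y) zf ρ B zl zh ε := by rw [← e]; exact H
  have hC := ctr_of (R := 2 * R) hn H' hR' hr hr1 hz hz' hη hD.1 hB hL hρ hLR he
  refine ⟨hC.2.1.trans (by linarith [hD.2]), fun p hp' => hC.2.2 _ (abs_tm_lt _) hp'.le _, H.near,
    fun g hg => ?_, fun k => hc0 _, fun k => hc1 _⟩
  obtain ⟨z1, z2, z3⟩ := H.zb g hg.le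
  have a1 := nv_tapG_sub (y := y) hn hR' hr hr1 (hz.trans (by linarith)) (by linarith) (e ▸ z3)
  rw [← e] at a1
  have a2 := H.uniq g _ hg.le (H.near.trans (by linarith))
  refine a2.trans (mul_le_mul_of_nonneg_left ((nv_sub_le _ _).trans ?_) hB.le)
  have a3 := nv_sub_le (tapG r (off J) 0 y (tm g))
    (tapG r (off J) 0 y (tm g) - res1 (lv r κ J) y g (zf g))
  rw [sub_sub_cancel] at a3
  linarith [H.res, hD.2]

end Vale.Agent.N150.ETL
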