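import Vale.Agent.N150.Res
import Vale.Agent.N150.Red
import Vale.Agent.N150.EndTL1

/-! P150 at `β = 1`: the resolvent estimate in the form used by the endgame. -/

open MeasureTheory Filter
open scoped Matrix

namespace Vale.Agent.N150.Res

open Vale.Agent.P150 Vale.Agent.P150.F Vale.Agent.N150.Edge Vale.Agent.N150.EC

theorem etl_of {d C : ℝ} (hd : 0 < d) (hC : 0 ≤ C) : ∃ C' : ℝ, 0 < C' ∧ ∀ (n : ℕ), 0 < n →
    ∀ J : Mat n, ResOK (d / 2) C J → ETL.ResOK d C' J := by
  obtain ⟨C', hC', H⟩ := res_scaled (half_pos hd) hC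
  refine ⟨C', hC', fun n hn J h r z w hr hr1 hz hz' hw ht => ?_⟩
  have hn' : (0 : ℝ) < n := by exact_mod_cast hn
  have h1 := H n hn J h r 0 z w (by linarith) hr1 (by nlinarith) (by linarith)
    (by rw [zero_smul, sub_zero, ht]; field_simp)
  rw [zero_smul, sub_zero, add_zero] at h1
  rw [one_div]
  exact h1.2

/-- events of the full matrix: from the Gaussian family to the law `PW` -/
theorem PW_real (n : ℕ) (p : Mat n → Prop) :
    (End.PW n).real {w | p (End.goe w)} =
      (gpi (Pairs n ⊕ Fin n)).real {ω | p (goeM (Red.famA n) ω)} := by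
  have h := MeasurePreserving.measure_preimage_equiv
    (f := MeasurableEquiv.sumPiEquivProdPi fun _ : Pairs n ⊕ Fin n => ℝ) (Red.mp_split (n := n))
    {w | p (End.goe w)}
  unfold Measure.real End.PW
  rw [← h]
  congr 2
  ext ω
  simp only [Set.mem_preimage, Set.mem_setOf_eq, Red.goeM_famA]
  rfl

/-- **[RES]** for the model -/
theorem etl_whp {d : ℝ} (hd : 0 < d) : ∃ C : ℝ, 0 < C ∧ ∀ δ > 0, ∀ᶠ n : ℕ in atTop,
    (End.PW n).real {w | ¬ ETL.ResOK d C (End.goe w)} ≤ δ := by
  obtain ⟨C, hC, N, H⟩ := res_whp (half_pos hd)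
  obtain ⟨C', hC', H'⟩ := etl_of hd hC.le
  refine ⟨C', hC', fun δ hδ => ?_⟩
  have ht : Tendsto (fun n : ℕ => C / Real.sqrt n) atTop (nhds 0) :=
    (Real.tendsto_sqrt_atTop.comp tendsto_natCast_atTop_atTop).const_div_atTop C
  filter_upwards [eventually_ge_atTop N, eventually_gt_atTop 0, ht.eventually (ge_mem_nhds hδ)]
    with n hn hn0 h3
  rw [PW_real n fun J => ¬ ETL.ResOK d C' J]
  refine le_trans (measureReal_mono fun ω hω => ?_) ((H n hn _ _ Red.goeFam_famA).trans h3)
  exact fun h => hω (H' n hn0 _ h)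

end Vale.Agent.N150.Res
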