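import Vale.Agent.N150.T1Alg1
import Vale.Agent.N150.T1Kit

/-! Block T1, (D6 e): the Picard iterates are Lipschitz functions of `(J, y)`. -/

open Matrix Finset Filter Topology

namespace Vale.Agent.N150.T1C

open Vale.Agent.P150 Vale.Agent.P150.F Vale.Agent.N150.EC Vale.Agent.N150.Sp

variable {n : ℕ}

/-! ### windows -/

theorem ip_self' (v : Vec n) : ip v v = F.sq v := by
  unfold ip F.sq
  simp only [pow_two]

theorem qf_Nm (J : Mat n) (z : ℝ) (v : Vec n) : qf (Nm J z) v = z * F.sq v - qf J v := by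
  unfold qf Nm
  rw [sub_mulVec, smul_mulVec, one_mulVec, ip_sub_right, ip_smul_right, ip_self']

theorem abs_qf_le {A : Mat n} {C : ℝ} (h : OpLe A C) (hC : 0 ≤ C) (v : Vec n) :
    |qf A v| ≤ C * F.sq v := by
  refine (abs_ip_le _ _).trans ?_
  rw [← nv_sq]
  nlinarith [h.nv_le hC v, nv_nonneg v]

theorem abs_trace_le {A : Mat n} {C : ℝ} (h : OpLe A C) (hC : 0 ≤ C) : |A.trace| ≤ n * C := by
  have e : ∀ i, |A i i| ≤ C := fun i => by
    have h1 := (abs_le_nv _ i).trans (h.nv_le hC (Pi.single i 1))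
    have h2 : nv (Pi.single i 1 : Vec n) = 1 := by
      rw [nv_eq_sqrt, Real.sqrt_eq_one]
      simp [F.sq, Pi.single_apply]
    simpa [h2] using h1
  refine (Finset.abs_sum_le_sum_abs _ _).trans ((Finset.sum_le_sum fun i _ => e i).trans ?_)
  simp

/-- `γ ≤ z - J ≤ M` -/
structure Win (J : Mat n) (z γ M : ℝ) : Prop where
  sym : Jᵀ = J
  lo : ∀ v, γ * F.sq v ≤ qf (Nm J z) v
  hi : ∀ v, qf (Nm J z) v ≤ M * F.sq v

/-- the left hand side of the saddle equation -/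
noncomputable def ph (J : Mat n) (y : Vec n) (z : ℝ) : ℝ := (G0 J z).trace + F.sq (G0 J z *ᵥ y)

theorem ph_zero (J : Mat n) (z : ℝ) : ph J 0 z = (G0 J z).trace := by simp [ph, F.sq]

theorem ph_JO {lam : Vec n} {z : ℝ} (h : ∀ a, lam a < z) (O : OG n) (y : Vec n) :
    ph (JO lam O) y z = ∑ a, (z - lam a)⁻¹ + ∑ a, ((z - lam a)⁻¹ * (O.1 *ᵥ y) a) ^ 2 := by
  rw [← T1.trace_G0 h O, ← T1.sq_G0 h O, OG.tr_mulVec_mulVec]
  rfl

theorem win_of_frame {lam : Vec n} {z γ M : ℝ} (O : OG n) (h1 : ∀ a, γ ≤ z - lam a)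
    (h2 : ∀ a, z - lam a ≤ M) : Win (JO lam O) z γ M := by
  refine ⟨T1.JO_tr _ _, fun v => ?_, fun v => ?_⟩
  all_goals
    rw [T1.Nm_JO, qf_JO, ← sq_act O v, F.sq, Finset.mul_sum]
    refine Finset.sum_le_sum fun a _ => mul_le_mul_of_nonneg_right ?_ (sq_nonneg _)
  exacts [h1 a, h2 a]

namespace Win

variable {J J' : Mat n} {z z' γ M : ℝ}

theorem frame {lam : Vec n} {O : OG n} (W : Win (JO lam O) z γ M) (a : Fin n) :
    γ ≤ z - lam a ∧ z - lam a ≤ M := by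
  have h1 := W.lo (O.1ᵀ *ᵥ Pi.single a 1)
  have h2 := W.hi (O.1ᵀ *ᵥ Pi.single a 1)
  have e1 : F.sq (O.1ᵀ *ᵥ (Pi.single a 1 : Vec n)) = 1 := by
    rw [T1.sq_tr]
    simp [F.sq, Pi.single_apply]
  have e2 : qf (Nm (JO lam O) z) (O.1ᵀ *ᵥ (Pi.single a 1 : Vec n)) = z - lam a := by
    rw [T1.Nm_JO, qf_JO, OG.mulVec_tr_mulVec]
    simp [Pi.single_apply]
  rw [e1, e2] at h1 h2
  constructor <;> linarith

theorem mono (W : Win J z γ M) {γ' M' : ℝ} (h1 : γ' ≤ γ) (h2 : M ≤ M') : Win J z γ' M' :=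
  ⟨W.sym, fun v => (mul_le_mul_of_nonneg_right h1 (sqN_nonneg v)).trans (W.lo v),
    fun v => (W.hi v).trans (mul_le_mul_of_nonneg_right h2 (sqN_nonneg v))⟩

theorem pert (W : Win J z γ M) (hJ : J'ᵀ = J') {ε δ : ℝ} (hε : 0 ≤ ε) (hd : OpLe (J' - J) ε)
    (hz : |z' - z| ≤ δ) : Win J' z' (γ - δ - ε) (M + δ + ε) := by
  have key : ∀ v, |qf (Nm J' z') v - qf (Nm J z) v| ≤ (δ + ε) * F.sq v := fun v => by
    have e : qf (Nm J' z') v - qf (Nm J z) v = (z' - z) * F.sq v - qf (J' - J) v := by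
      rw [qf_Nm, qf_Nm]
      unfold qf
      rw [sub_mulVec, ip_sub_right]
      ring
    rw [e]
    refine (abs_sub _ _).trans ?_
    rw [abs_mul, abs_of_nonneg (sqN_nonneg v), add_mul]
    exact add_le_add (mul_le_mul_of_nonneg_right hz (sqN_nonneg v)) (abs_qf_le hd hε v)
  refine ⟨hJ, fun v => ?_, fun v => ?_⟩
  · linarith [W.lo v, (abs_le.1 (key v)).1]
  · linarith [W.hi v, (abs_le.1 (key v)).2]

theorem posDef (W : Win J z γ M) (hγ : 0 < γ) : (Nm J z).PosDef := by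
  obtain ⟨lam, O, rfl⟩ := Rad.exists_JO W.sym
  exact (T1.posDef_Nm O).2 fun a => by linarith [(W.frame a).1]

theorem unit (W : Win J z γ M) (hγ : 0 < γ) : IsUnit (Nm J z).det := T1A.unit_of_pd (W.posDef hγ)

theorem opG (W : Win J z γ M) (hγ : 0 < γ) : OpLe (G0 J z) γ⁻¹ := by
  obtain ⟨lam, O, rfl⟩ := Rad.exists_JO W.sym
  rw [T1.G0_JO (fun a => by linarith [(W.frame a).1])]
  refine T1.opLe_JO (fun a => ?_) O
  rw [abs_of_pos (inv_pos.2 (by linarith [(W.frame a).1]))]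
  exact inv_anti₀ hγ (W.frame a).1

theorem opN (W : Win J z γ M) (hγ : 0 < γ) : OpLe (Nm J z) M := by
  obtain ⟨lam, O, rfl⟩ := Rad.exists_JO W.sym
  rw [T1.Nm_JO]
  refine T1.opLe_JO (fun a => ?_) O
  rw [abs_of_pos (by linarith [(W.frame a).1])]
  exact (W.frame a).2

theorem tr_ge (W : Win J z γ M) (hγ : 0 < γ) : n * M⁻¹ ≤ (G0 J z).trace := by
  obtain ⟨lam, O, rfl⟩ := Rad.exists_JO W.sym
  rw [T1.trace_G0 (fun a => by linarith [(W.frame a).1])]
  refine le_trans (by simp) (Finset.sum_le_sum fun a _ =>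
    inv_anti₀ (by linarith [(W.frame a).1]) (W.frame a).2)

theorem T2_ge (W : Win J z γ M) (hγ : 0 < γ) : n * M⁻¹ ^ 2 ≤ T2 J z := by
  obtain ⟨lam, O, rfl⟩ := Rad.exists_JO W.sym
  rw [Rad.T2_JO O (fun a => by linarith [(W.frame a).1])]
  refine le_trans (by simp) (Finset.sum_le_sum fun a _ => (inv_pow M 2).le.trans ?_)
  have h1 := W.frame a
  exact inv_anti₀ (pow_pos (by linarith) 2) (pow_le_pow_left₀ (by linarith) h1.2 2)

/-- location of a root -/
theorem loc (hn : 0 < n) (W : Win J z γ M) (hγ : 0 < γ) {δ : ℝ} (h0 : 0 ≤ δ) (h2 : 2 * δ ≤ γ)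
    (y : Vec n) (hp : (Nm J z').PosDef) (hτ : |ph J y z' - ph J y z| ≤ δ * (n * M⁻¹ ^ 2) / 2) :
    |z' - z| ≤ δ := by
  have hT := W.T2_ge hγ
  obtain ⟨lam, O, rfl⟩ := Rad.exists_JO W.sym
  have k : ∀ a, lam a < z := fun a => by linarith [(W.frame a).1]
  have k1 : ∀ a, lam a < z - δ := fun a => by linarith [(W.frame a).1]
  have k2 : ∀ a, lam a < z + δ := fun a => by linarith [(W.frame a).1]
  have k' := (T1.posDef_Nm O).1 hp
  rw [Rad.T2_JO O k] at hT
  rw [ph_JO k, ph_JO k'] at hτ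
  have hδT := mul_le_mul_of_nonneg_left hT h0
  have hT0 : 0 ≤ δ * (n * M⁻¹ ^ 2) := by positivity
  rw [Finset.mul_sum] at hδT
  refine abs_le.2 ⟨?_, ?_⟩
  · by_contra hc
    have hc' : z' < z - δ := by linarith
    have a1 := T1.sum_inv_lt hn k' hc'
    have a2 := T1.sum_sq_le k' (by linarith : z' ≤ z) (O.1 *ᵥ y)
    have a3 : ∑ a, (z - lam a)⁻¹ + ∑ a, δ * ((z - lam a) ^ 2)⁻¹ ≤ ∑ a, (z - δ - lam a)⁻¹ := by
      rw [← Finset.sum_add_distrib]
      refine Finset.sum_le_sum fun a _ => ?_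
      have p1 := sub_pos.2 (k a)
      have p2 := sub_pos.2 (k1 a)
      rw [← sub_nonneg]
      have e : (z - δ - lam a)⁻¹ - ((z - lam a)⁻¹ + δ * ((z - lam a) ^ 2)⁻¹) =
          δ ^ 2 / ((z - lam a) ^ 2 * (z - δ - lam a)) := by
        field_simp
        ring
      rw [e]
      positivity
    linarith [(abs_le.1 hτ).2]
  · by_contra hc
    have hc' : z + δ < z' := by linarith
    have a1 := T1.sum_inv_lt hn k2 hc'
    have a2 := T1.sum_sq_le k (by linarith : z ≤ z') (O.1 *ᵥ y)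
    have a3 : 2 * ∑ a, (z + δ - lam a)⁻¹ + ∑ a, δ * ((z - lam a) ^ 2)⁻¹ ≤
        2 * ∑ a, (z - lam a)⁻¹ := by
      rw [Finset.mul_sum, Finset.mul_sum, ← Finset.sum_add_distrib]
      refine Finset.sum_le_sum fun a _ => ?_
      have p1 := sub_pos.2 (k a)
      have p2 := sub_pos.2 (k2 a)
      have p3 : 0 ≤ z - lam a - δ := (sub_pos.2 (by linarith [k1 a])).le
      rw [← sub_nonneg]
      have e : 2 * (z - lam a)⁻¹ - (2 * (z + δ - lam a)⁻¹ + δ * ((z - lam a) ^ 2)⁻¹) =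
          δ * (z - lam a - δ) / ((z - lam a) ^ 2 * (z + δ - lam a)) := by
        field_simp
        ring
      rw [e]
      positivity
    linarith [(abs_le.1 hτ).1]

/-- difference of two resolvents -/
theorem opG_sub {γ' M' ε δ : ℝ} (W : Win J z γ M) (W' : Win J' z' γ' M') (hγ : 0 < γ)
    (hγ' : 0 < γ') (hε : 0 ≤ ε) (hd : OpLe (J' - J) ε) (hz : |z' - z| ≤ δ) :
    OpLe (G0 J z - G0 J' z') (γ⁻¹ * (δ + ε) * γ'⁻¹) := by
  have h0 : 0 ≤ δ := (abs_nonneg _).trans hz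
  rw [T1A.G0_sub' (W.unit hγ) (W'.unit hγ')]
  refine ((W.opG hγ).mulN (C' := δ + ε) ?_ (by positivity) (by positivity)).mulN (W'.opG hγ')
    (by positivity) (by positivity)
  refine OpLe.sub ((opLe_one.smul zero_le_one _).monoN (by positivity) ?_) hd h0 hε
  rwa [mul_one]

/-- lower bound of the preconditioner -/
theorem AA_low (hn : 0 < n) (W : Win J z γ M) (hγ : 0 < γ) (y v : Vec n) :
    nv v ≤ M ^ 2 * γ⁻¹ * nv (T1A.AA J y z *ᵥ v) := by
  have hn' : (0 : ℝ) < n := Nat.cast_pos.2 hn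
  have hu := W.unit hγ
  have hM : 0 < M := by
    obtain ⟨lam, O, rfl⟩ := Rad.exists_JO W.sym
    linarith [(W.frame ⟨0, hn⟩).1, (W.frame ⟨0, hn⟩).2]
  have hw : M⁻¹ ≤ T1A.w0 J z := by
    unfold T1A.w0
    rw [le_div_iff₀ hn', mul_comm]
    exact W.tr_ge hγ
  have hT : 0 < T2 J z := lt_of_lt_of_le (by positivity) (W.T2_ge hγ)
  have hs : (Nm J z).IsSymm := Nm_symm W.sym z
  have e : ip (Nm J z *ᵥ v) (T1A.AA J y z *ᵥ v) =
      T1A.w0 J z * qf (Nm J z) v + 2 / T2 J z * ip (T1A.h0 J y z) v ^ 2 := by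
    unfold T1A.AA
    rw [add_mulVec, smul_mulVec, smul_mulVec, one_mulVec, F.vecMulVec_mulVec, ip_add_right,
      ip_smul_right, ip_smul_right, ip_smul_right, ← ip_mulVec_comm hs, ← ip_mulVec_comm hs,
      mulVec_mulVec, T1A.mul_G0 hu, one_mulVec]
    have : ip v (T1A.h0 J y z) = ip (T1A.h0 J y z) v := by
      unfold ip
      simp only [mul_comm]
    rw [this, qf]
    ring
  have a1 := ip_le (Nm J z *ᵥ v) (T1A.AA J y z *ᵥ v)
  have a2 := (W.opN hγ).nv_le hM.le v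
  have a3 := W.lo v
  have a4 : 0 ≤ 2 / T2 J z * ip (T1A.h0 J y z) v ^ 2 := by positivity
  have a5 : M⁻¹ * (γ * F.sq v) ≤ T1A.w0 J z * qf (Nm J z) v :=
    mul_le_mul hw a3 (mul_nonneg hγ.le (sqN_nonneg v)) (le_trans (by positivity) hw)
  have a6 := mul_le_mul_of_nonneg_right a2 (nv_nonneg (T1A.AA J y z *ᵥ v))
  have a7 : M⁻¹ * γ * nv v * nv v ≤ M * nv (T1A.AA J y z *ᵥ v) * nv v := by
    rw [← nv_sq] at a5
    nlinarith
  rcases (nv_nonneg v).eq_or_lt with h0 | h0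
  · rw [← h0]
    have := nv_nonneg (T1A.AA J y z *ᵥ v)
    positivity
  · have a8 := mul_le_mul_of_nonneg_left (le_of_mul_le_mul_right a7 h0)
      (by positivity : 0 ≤ M * γ⁻¹)
    calc nv v = M * γ⁻¹ * (M⁻¹ * γ * nv v) := by field_simp
      _ ≤ _ := a8
      _ = _ := by ring

end Win

/-! ### elementary differences -/

theorem abs_sq_sub (u v : Vec n) : |F.sq u - F.sq v| ≤ (nv u + nv v) * nv (u - v) := by
  have e : F.sq u - F.sq v = ip (u + v) (u - v) := by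
    unfold ip F.sq
    rw [← Finset.sum_sub_distrib]
    exact Finset.sum_congr rfl fun i _ => by simp only [Pi.add_apply, Pi.sub_apply]; ring
  rw [e]
  exact (abs_ip_le _ _).trans (mul_le_mul_of_nonneg_right (nv_add_le _ _) (nv_nonneg _))

theorem mv_sub {A B : Mat n} {a b : ℝ} (h1 : OpLe (A - B) a) (h2 : OpLe B b) (ha : 0 ≤ a)
    (hb : 0 ≤ b) (u v : Vec n) : nv (A *ᵥ u - B *ᵥ v) ≤ a * nv u + b * nv (u - v) := by
  have e : A *ᵥ u - B *ᵥ v = (A - B) *ᵥ u + B *ᵥ (u - v) := by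
    rw [sub_mulVec, mulVec_sub]
    abel
  rw [e]
  exact (nv_add_le _ _).trans (add_le_add (h1.nv_le ha u) (h2.nv_le hb _))

/-- the same with bounds in units of `√n` -/
theorem mv_sub' {A B : Mat n} {a b c d : ℝ} (h1 : OpLe (A - B) a) (h2 : OpLe B b) (ha : 0 ≤ a)
    (hb : 0 ≤ b) {u v : Vec n} (hu : nv u ≤ √n * c) (hv : nv (u - v) ≤ √n * d) :
    nv (A *ᵥ u - B *ᵥ v) ≤ √n * (a * c + b * d) := by
  have k1 := mul_le_mul_of_nonneg_left hu ha
  have k2 := mul_le_mul_of_nonneg_left hv hb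
  linarith [mv_sub h1 h2 ha hb u v]

theorem mv_le {A : Mat n} {a c : ℝ} (h1 : OpLe A a) (ha : 0 ≤ a) {u : Vec n}
    (hu : nv u ≤ √n * c) : nv (A *ᵥ u) ≤ √n * (a * c) := by
  linarith [h1.nv_le ha u, mul_le_mul_of_nonneg_left hu ha]

theorem sn_mono {v : Vec n} {a b : ℝ} (h : nv v ≤ √n * a) (hab : a ≤ b) : nv v ≤ √n * b :=
  h.trans (mul_le_mul_of_nonneg_left hab (Real.sqrt_nonneg _))

theorem sn_mul {u v : Vec n} {a b : ℝ} (hu : nv u ≤ √n * a) (hv : nv v ≤ √n * b) :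
    nv u * nv v ≤ n * (a * b) := by
  have h := mul_le_mul hu hv (nv_nonneg _) ((nv_nonneg _).trans hu)
  have e : √(n : ℝ) * a * (√n * b) = n * (a * b) := by
    rw [mul_mul_mul_comm, Real.mul_self_sqrt (Nat.cast_nonneg n)]
  rwa [e] at h

theorem op_vv {u v : Vec n} {a b : ℝ} (hu : nv u ≤ √n * a) (hv : nv v ≤ √n * b) :
    OpLe (vecMulVec u v) (n * (a * b)) :=
  (opLe_vecMulVec u v).monoN (mul_nonneg (nv_nonneg _) (nv_nonneg _)) (sn_mul hu hv)

theorem abs_inv_sub {a b c d : ℝ} (hc : 0 < c) (ha : c ≤ a) (hb : c ≤ b) (h : |a - b| ≤ d) :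
    |a⁻¹ - b⁻¹| ≤ d * c⁻¹ ^ 2 := by
  have a0 : 0 < a := by linarith
  have b0 : 0 < b := by linarith
  have e : a⁻¹ - b⁻¹ = -(a - b) * (a⁻¹ * b⁻¹) := by field_simp; ring
  rw [e, abs_mul, abs_neg, abs_of_pos (by positivity : 0 < a⁻¹ * b⁻¹), pow_two]
  exact mul_le_mul h (mul_le_mul (inv_anti₀ hc ha) (inv_anti₀ hc hb) (by positivity)
    (by positivity)) (by positivity) ((abs_nonneg _).trans h)

theorem wb_lip (hn : 0 < n) {h h' : Vec n} {e : ℝ} (hd : nv (h - h') ≤ √n * e) :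
    |wb h' - wb h| ≤ 2 * e := by
  have hn' : (0 : ℝ) < n := Nat.cast_pos.2 hn
  have m1 : ∀ g : Vec n, nv (tm g) ≤ √n * 1 := fun g => by
    rw [mul_one]
    exact nv_le_sqrt_n fun i => (Real.abs_tanh_lt_one _).le
  have h1 := abs_sq_sub (tm h) (tm h')
  have h2 := (T1A.nv_tm_sub h h').trans hd
  have h3 := sn_mul (m1 h) h2
  have h4 := sn_mul (m1 h') h2
  have e1 : wb h' - wb h = (F.sq (tm h) - F.sq (tm h')) / n := by
    rw [T1A.wb_eq hn, T1A.wb_eq hn]
    ring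
  rw [e1, abs_div, abs_of_pos hn', div_le_iff₀ hn']
  nlinarith

/-! ### the calculus with one large constant `K` -/

section
variable {K e : ℝ}

theorem up (hK : 40 ≤ K) (he : 0 ≤ e) {c : ℝ} (hc : c ≤ 40) {a b : ℕ} (hab : a < b) :
    c * (e * K ^ a) ≤ e * K ^ b := by
  have h1 : K ^ (a + 1) ≤ K ^ b := pow_le_pow_right₀ (by linarith) hab
  have h2 : 0 ≤ e * K ^ a := by positivity
  calc c * (e * K ^ a) ≤ K * (e * K ^ a) := mul_le_mul_of_nonneg_right (by linarith) h2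
    _ = e * K ^ (a + 1) := by ring
    _ ≤ _ := mul_le_mul_of_nonneg_left h1 he

theorem le' (hK : 40 ≤ K) (he : 0 ≤ e) {a b : ℕ} (hab : a ≤ b) : e * K ^ a ≤ e * K ^ b :=
  mul_le_mul_of_nonneg_left (pow_le_pow_right₀ (by linarith) hab) he

variable {J J' : Mat n} {y y' : Vec n} {z z' : ℝ}

/-- roots for two neighbouring data -/
theorem root2 (hn : 0 < n) (hK : 40 ≤ K) (W : Win J z (4 * K⁻¹) 8) (hJ : J'ᵀ = J') (he : 0 ≤ e)
    (hd : OpLe (J' - J) e) (hy : nv (y' - y) ≤ √n * e) (ny : nv y ≤ √n * K)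
    (hp : (Nm J' z').PosDef) (hτ : |ph J' y' z' - ph J y z| ≤ 2 * n * e) (hs : e * K ^ 8 ≤ 1) :
    |z' - z| ≤ e * K ^ 7 ∧ Win J' z' K⁻¹ 9 ∧ OpLe (G0 J z - G0 J' z') (e * K ^ 10) := by
  have hn' : (0 : ℝ) < n := Nat.cast_pos.2 hn
  have K0 : 0 < K := by linarith
  have i0 : 0 < K⁻¹ := inv_pos.2 K0
  have i1 : K⁻¹ ≤ 1 / 40 := by
    rw [inv_eq_one_div]
    exact one_div_le_one_div_of_le (by norm_num) hK
  have d7 : e * K ^ 7 ≤ K⁻¹ := by
    rw [← one_div, le_div_iff₀ K0]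
    linarith [show e * K ^ 7 * K = e * K ^ 8 by ring]
  have d0 : e ≤ e * K ^ 7 := by simpa using le' hK he (a := 0) (b := 7) (by norm_num)
  have W0 : Win J z K⁻¹ 9 := W.mono (by linarith) (by norm_num)
  have W1 : Win J' z (3 * K⁻¹) 9 :=
    (W.pert hJ he hd (z' := z) (δ := 0) (by simp)).mono (by linarith) (by linarith)
  have W2 : Win J' z K⁻¹ 9 := W1.mono (by linarith) le_rfl
  have g0 := W0.opG i0
  have g1 := W2.opG i0
  have g2 := W0.opG_sub W2 i0 i0 he hd (δ := 0) (by simp)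
  rw [inv_inv] at g0 g1 g2
  have t1 := abs_trace_le g2 (by positivity)
  have ny' : nv y' ≤ √n * (2 * K) := by
    have := nv_add_le (y' - y) y
    rw [sub_add_cancel] at this
    nlinarith [Real.sqrt_nonneg (n : ℝ)]
  have v1 := mv_sub' g2 g1 (by positivity) K0.le ny ((nv_sub_comm _ _).trans_le hy)
  have v2 := mv_le g0 K0.le ny
  have v3 := mv_le g1 K0.le ny'
  have s1 := abs_sq_sub (G0 J z *ᵥ y) (G0 J' z *ᵥ y')
  have s2 := sn_mul v2 v1
  have s3 := sn_mul v3 v1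
  have hτ' : |ph J' y' z' - ph J' y' z| ≤ e * K ^ 7 * (n * (9 : ℝ)⁻¹ ^ 2) / 2 := by
    have e1 : ph J' y' z' - ph J' y' z = ph J' y' z' - ph J y z +
        ((G0 J z - G0 J' z).trace + (F.sq (G0 J z *ᵥ y) - F.sq (G0 J' z *ᵥ y'))) := by
      rw [trace_sub]
      unfold ph
      ring
    have b1 := le' hK he (a := 0) (b := 5) (by norm_num)
    have b2 := le' hK he (a := 2) (b := 5) (by norm_num)
    have b3 := le' hK he (a := 3) (b := 5) (by norm_num)
    have b4 := up hK he (c := 40) le_rfl (a := 5) (b := 6) (by norm_num)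
    have b5 := up hK he (c := 40) le_rfl (a := 6) (b := 7) (by norm_num)
    have b6 : 2 * e + e * K ^ 2 + 3 * (e * K ^ 5) + 3 * (e * K ^ 3) ≤ e * K ^ 7 / 162 := by
      have : 0 ≤ e * K ^ 5 := by positivity
      linarith
    have b7 := mul_le_mul_of_nonneg_left b6 hn'.le
    rw [e1]
    refine (abs_add_le _ _).trans ((add_le_add hτ ((abs_add_le _ _).trans
      (add_le_add t1 s1))).trans ?_)
    nlinarith
  have hz := W1.loc hn (by linarith) (by positivity) (by linarith) y' hp hτ'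
  have W3 : Win J' z' K⁻¹ 9 := (W.pert hJ he hd hz).mono (by linarith) (by linarith)
  refine ⟨hz, W3, (W0.opG_sub W3 i0 i0 he hd hz).monoN (by positivity) ?_⟩
  rw [inv_inv]
  have b1 := up hK he (c := 2) (by norm_num) (a := 9) (b := 10) (by norm_num)
  nlinarith [mul_le_mul_of_nonneg_left d0 (by positivity : 0 ≤ K * K)]

/-- two neighbouring data `(J, y)`, `(J', y')` -/
structure Nb (K e : ℝ) (J J' : Mat n) (y y' : Vec n) : Prop where
  npos : 0 < n
  hK : 40 ≤ K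
  e0 : 0 ≤ e
  small : e * K ^ 8 ≤ 1
  sym : J'ᵀ = J'
  dJ : OpLe (J' - J) e
  dy : nv (y' - y) ≤ √n * e
  win : Win J (T1.zs J y) (4 * K⁻¹) 8

theorem nv_h0 (hn : 0 < n) (hJ : Jᵀ = J) (y : Vec n) : nv (T1.h0 J y) ≤ √n * 1 := by
  obtain ⟨h1, h2⟩ := T1A.zs_spec hn hJ y
  obtain ⟨lam, O, rfl⟩ := Rad.exists_JO hJ
  have h3 := Rad.trace_G0_nonneg O ((T1.posDef_Nm O).1 h1)
  refine T1.nv_le_of_sq zero_le_one ?_
  unfold T1.G00 at h2
  linarith

theorem ph_zs (hn : 0 < n) (hJ : Jᵀ = J) (y : Vec n) : ph J y (T1.zs J y) = n :=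
  (T1A.zs_spec hn hJ y).2

namespace Nb

variable (N : Nb K e J J' y y')
include N

theorem K0 : 0 < K := by linarith [N.hK]

theorem i0 : 0 < K⁻¹ := inv_pos.2 N.K0

theorem win0 : Win J (T1.zs J y) K⁻¹ 9 := N.win.mono (by linarith [N.i0]) (by norm_num)

theorem ny : nv y ≤ √n * 9 := by
  have e : y = Nm J (T1.zs J y) *ᵥ T1.h0 J y := by
    unfold T1.h0 T1.G00
    rw [mulVec_mulVec, T1A.mul_G0 (N.win0.unit N.i0), one_mulVec]
  have := mv_le (N.win0.opN N.i0) (by norm_num) (nv_h0 N.npos N.win.sym y)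
  rwa [← e, mul_one] at this

theorem sad : |T1.zs J' y' - T1.zs J y| ≤ e * K ^ 7 ∧ Win J' (T1.zs J' y') K⁻¹ 9 ∧
    OpLe (T1.G00 J y - T1.G00 J' y') (e * K ^ 10) := by
  refine root2 N.npos N.hK N.win N.sym N.e0 N.dJ N.dy (sn_mono N.ny (by linarith [N.hK]))
    (T1A.zs_spec N.npos N.sym y').1 ?_ N.small
  rw [ph_zs N.npos N.sym, ph_zs N.npos N.win.sym, sub_self, abs_zero]
  have := N.e0
  positivity

theorem opG : OpLe (T1.G00 J y) K := by simpa [T1.G00] using N.win0.opG N.i0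

theorem opG' : OpLe (T1.G00 J' y') K := by simpa [T1.G00] using N.sad.2.1.opG N.i0

theorem dh0 : nv (T1.h0 J y - T1.h0 J' y') ≤ √n * (e * K ^ 12) := by
  have he := N.e0
  have K0 := N.K0
  refine sn_mono (mv_sub' N.sad.2.2 N.opG' (by positivity) K0.le N.ny
    ((nv_sub_comm _ _).trans_le N.dy)) ?_
  have b1 := up N.hK he (c := 9) (by norm_num) (a := 10) (b := 11) (by norm_num)
  have b2 := le' N.hK he (a := 1) (b := 11) (by norm_num)
  have b3 := up N.hK he (c := 2) (by norm_num) (a := 11) (b := 12) (by norm_num)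
  linarith

theorem dAA : OpLe (T1.AA J y - T1.AA J' y') (e * K ^ 17) := by
  have he := N.e0
  have K0 := N.K0
  have hK := N.hK
  have hn' : (0 : ℝ) < n := Nat.cast_pos.2 N.npos
  have g := N.sad.2.2
  have n0 := nv_h0 N.npos N.win.sym y
  have n1 := nv_h0 N.npos N.sym y'
  have dw : |T1.w0 J y - T1.w0 J' y'| ≤ e * K ^ 10 := by
    unfold T1.w0
    rw [← sub_div, ← trace_sub, abs_div, abs_of_pos hn', div_le_iff₀ hn', mul_comm]
    exact abs_trace_le g (by positivity)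
  have T0 := N.win0.T2_ge N.i0
  have T1' := N.sad.2.1.T2_ge N.i0
  have dT : |T1.T20 J y - T1.T20 J' y'| ≤ n * (2 * (e * K ^ 11)) := by
    have e1 : T1.T20 J y - T1.T20 J' y' = (T1.G00 J y * (T1.G00 J y - T1.G00 J' y') +
        (T1.G00 J y - T1.G00 J' y') * T1.G00 J' y').trace := by
      unfold T1.T20 T2 T1.G00
      rw [← trace_sub, mul_sub, sub_mul, sub_add_sub_cancel]
    rw [e1]
    refine (abs_trace_le ((N.opG.mulN g K0.le (by positivity)).add
      (g.mulN N.opG' (by positivity) K0.le) (by positivity) (by positivity))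
      (by positivity)).trans (le_of_eq ?_)
    ring
  have dc : |2 / T1.T20 J y - 2 / T1.T20 J' y'| ≤ e * K ^ 14 / n := by
    have h1 := abs_inv_sub (by positivity) T0 T1' dT
    have e1 : 2 / T1.T20 J y - 2 / T1.T20 J' y' = 2 * ((T1.T20 J y)⁻¹ - (T1.T20 J' y')⁻¹) := by
      ring
    have e2 : (n : ℝ) * (2 * (e * K ^ 11)) * (n * (9 : ℝ)⁻¹ ^ 2)⁻¹ ^ 2 =
        13122 * (e * K ^ 11) / n := by
      field_simp
      norm_num
      ring
    rw [e2] at h1
    have b1 := up hK he (c := 40) le_rfl (a := 11) (b := 12) (by norm_num)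
    have b2 := up hK he (c := 40) le_rfl (a := 12) (b := 13) (by norm_num)
    have b3 := up hK he (c := 40) le_rfl (a := 13) (b := 14) (by norm_num)
    have b4 : 0 ≤ e * K ^ 11 := by positivity
    have b5 : 2 * (13122 * (e * K ^ 11) / n) ≤ e * K ^ 14 / n := by
      rw [← mul_div_assoc]
      exact div_le_div_of_nonneg_right (by linarith) hn'.le
    rw [e1, abs_mul, abs_two]
    exact (mul_le_mul_of_nonneg_left h1 zero_le_two).trans b5
  have c1 : |2 / T1.T20 J' y'| ≤ 162 / n := by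
    have p : 0 < T1.T20 J' y' := lt_of_lt_of_le (by positivity) T1'
    rw [abs_of_pos (by positivity), div_le_div_iff₀ p hn']
    unfold T1.T20
    linarith
  have u0 := mv_le N.opG K0.le n0
  have u1 := mv_le N.opG' K0.le n1
  have du := mv_sub' g N.opG' (by positivity) K0.le n0 N.dh0
  have e1 : T1.AA J y - T1.AA J' y' = (T1.w0 J y - T1.w0 J' y') • (1 : Mat n) +
      ((2 / T1.T20 J y - 2 / T1.T20 J' y') • vecMulVec (T1.G00 J y *ᵥ T1.h0 J y) (T1.h0 J y) +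
      (2 / T1.T20 J' y') • (vecMulVec (T1.G00 J y *ᵥ T1.h0 J y - T1.G00 J' y' *ᵥ T1.h0 J' y')
        (T1.h0 J y) + vecMulVec (T1.G00 J' y' *ᵥ T1.h0 J' y') (T1.h0 J y - T1.h0 J' y'))) := by
    unfold T1.AA
    rw [sub_vecMulVec, vecMulVec_sub, sub_add_sub_cancel, sub_smul, sub_smul, smul_sub]
    abel
  rw [e1]
  refine ((opLe_one.smul zero_le_one _).add (((op_vv u0 n0).smul (by positivity) _).add
    (((op_vv du n0).add (op_vv u1 N.dh0) (by positivity) (by positivity)).smul (by positivity) _)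
    (by positivity) (by positivity)) (by positivity) (by positivity)).monoN (by positivity) ?_
  have m1 := mul_le_mul_of_nonneg_right dc (by positivity : (0 : ℝ) ≤ n * (K * 1 * 1))
  have m2 := mul_le_mul_of_nonneg_right c1 (by positivity : (0 : ℝ) ≤
    n * ((e * K ^ 10 * 1 + K * (e * K ^ 12)) * 1) + n * (K * 1 * (e * K ^ 12)))
  have e2 : e * K ^ 14 / n * (n * (K * 1 * 1)) = e * K ^ 15 := by field_simp
  have e3 : 162 / (n : ℝ) * (n * ((e * K ^ 10 * 1 + K * (e * K ^ 12)) * 1) +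
      n * (K * 1 * (e * K ^ 12))) = 162 * (e * K ^ 10) + 324 * (e * K ^ 13) := by
    field_simp
    ring
  rw [e2] at m1
  rw [e3] at m2
  have b1 := le' hK he (a := 10) (b := 13) (by norm_num)
  have b2 := up hK he (c := 40) le_rfl (a := 13) (b := 14) (by norm_num)
  have b3 := up hK he (c := 40) le_rfl (a := 14) (b := 15) (by norm_num)
  have b4 := up hK he (c := 40) le_rfl (a := 15) (b := 17) (by norm_num)
  have b5 : 0 ≤ e * K ^ 13 := by positivity
  linarith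

theorem low3 : (9 : ℝ) ^ 2 * K⁻¹⁻¹ ≤ K ^ 3 := by
  rw [inv_inv]
  nlinarith [N.hK, mul_le_mul_of_nonneg_left N.hK N.K0.le]

theorem lowA (v : Vec n) : nv v ≤ K ^ 3 * nv (T1.AA J y *ᵥ v) :=
  (N.win0.AA_low N.npos N.i0 y v).trans (mul_le_mul_of_nonneg_right N.low3 (nv_nonneg _))

theorem lowA' (v : Vec n) : nv v ≤ K ^ 3 * nv (T1.AA J' y' *ᵥ v) :=
  (N.sad.2.1.AA_low N.npos N.i0 y' v).trans (mul_le_mul_of_nonneg_right N.low3 (nv_nonneg _))

theorem dAi : OpLe ((T1.AA J y)⁻¹ - (T1.AA J' y')⁻¹) (e * K ^ 23) := by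
  have he := N.e0
  have K0 := N.K0
  have e1 : (T1.AA J y)⁻¹ - (T1.AA J' y')⁻¹ =
      (-1 : ℝ) • ((T1.AA J y)⁻¹ * (T1.AA J y - T1.AA J' y') * (T1.AA J' y')⁻¹) := by
    rw [mul_sub, sub_mul, Matrix.nonsing_inv_mul _ (isUnit_of_low N.lowA), Matrix.one_mul,
      Matrix.mul_assoc, Matrix.mul_nonsing_inv _ (isUnit_of_low N.lowA'), Matrix.mul_one,
      neg_one_smul, neg_sub]
  rw [e1]
  refine ((((opLe_inv_of_low N.lowA).mulN N.dAA (by positivity) (by positivity)).mulN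
    (opLe_inv_of_low N.lowA') (by positivity) (by positivity)).smul (by positivity) _).monoN
    (by positivity) (le_of_eq ?_)
  rw [abs_neg, abs_one]
  ring

/-- one Picard step -/
theorem step {h h' : Vec n} {d : ℝ} (hd : e ≤ d) (hs : d * K ^ 8 ≤ 1)
    (W : Win J (T1.zh J h) (4 * K⁻¹) 8) (hw : 1 / 2 ≤ wb h) (nh : nv h ≤ √n * 2)
    (dh : nv (h - h') ≤ √n * d) :
    |T1.zh J' h' - T1.zh J h| ≤ d * K ^ 7 ∧
      nv (T1.Pic J y h - T1.Pic J' y' h') ≤ √n * (d * K ^ 27) := by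
  have he := N.e0
  have K0 := N.K0
  have hK := N.hK
  have hn := N.npos
  have hn' : (0 : ℝ) < n := Nat.cast_pos.2 hn
  have r0 := Real.sqrt_nonneg (n : ℝ)
  have d0 : 0 ≤ d := he.trans hd
  have dw := wb_lip hn dh
  have d1 : 40 * d ≤ 1 := by
    have := up hK d0 (c := 40) le_rfl (a := 0) (b := 8) (by norm_num)
    linarith
  have hw' : 1 / 4 ≤ wb h' := by linarith [(abs_le.1 dw).1]
  obtain ⟨p1, r1⟩ := T1A.zh_spec hn N.win.sym h
  obtain ⟨p2, r2⟩ := T1A.zh_spec hn N.sym h'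
  obtain ⟨hz, W', g⟩ := root2 (y := 0) (y' := 0) hn hK W N.sym d0 (N.dJ.monoN he hd)
    (by rw [sub_self, nv_zero]; positivity) (by rw [nv_zero]; positivity) p2
    (by
      rw [ph_zero, ph_zero, T1A.trace_of_res2 hn r1, T1A.trace_of_res2 hn r2, ← mul_sub, abs_mul,
        abs_of_pos hn']
      nlinarith) hs
  refine ⟨hz, ?_⟩
  have g0 : OpLe (G0 J (T1.zh J h)) K := by
    simpa using (W.mono (γ' := K⁻¹) (by linarith [N.i0]) le_rfl).opG N.i0
  have g1 : OpLe (G0 J' (T1.zh J' h')) K := by simpa using W'.opG N.i0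
  have m1 : ∀ g : Vec n, nv (tm g) ≤ √n * 1 := fun g => by
    rw [mul_one]
    exact nv_le_sqrt_n fun i => (Real.abs_tanh_lt_one _).le
  have dm := (T1A.nv_tm_sub h h').trans dh
  have wi : |(wb h)⁻¹| ≤ 2 := by
    rw [abs_of_pos (by positivity), inv_le_comm₀ (by linarith) two_pos]
    linarith
  have dwi : |(wb h)⁻¹ - (wb h')⁻¹| ≤ 2 * d * (1 / 4 : ℝ)⁻¹ ^ 2 :=
    abs_inv_sub (by norm_num) (by linarith) hw' ((abs_sub_comm _ _).trans_le dw)
  have nc : nv (T1A.chi h + y) ≤ √n * 13 := by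
    have a1 := nv_add_le (T1A.chi h) y
    have a2 := nv_sub_le ((wb h)⁻¹ • tm h) h
    rw [nv_smul] at a2
    have a3 := mul_le_mul wi (m1 h) (nv_nonneg _) zero_le_two
    unfold T1A.chi at a1 ⊢
    linarith [N.ny]
  have dc : nv (T1A.chi h + y - (T1A.chi h' + y')) ≤ √n * (36 * d) := by
    have e1 : T1A.chi h + y - (T1A.chi h' + y') = (wb h)⁻¹ • (tm h - tm h') +
        ((wb h)⁻¹ - (wb h')⁻¹) • tm h' - (h - h') - (y' - y) := by
      unfold T1A.chi
      rw [smul_sub, sub_smul]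
      abel
    have a1 := nv_sub_le ((wb h)⁻¹ • (tm h - tm h') + ((wb h)⁻¹ - (wb h')⁻¹) • tm h' - (h - h'))
      (y' - y)
    have a2 := nv_sub_le ((wb h)⁻¹ • (tm h - tm h') + ((wb h)⁻¹ - (wb h')⁻¹) • tm h') (h - h')
    have a3 := nv_add_le ((wb h)⁻¹ • (tm h - tm h')) (((wb h)⁻¹ - (wb h')⁻¹) • tm h')
    rw [nv_smul, nv_smul] at a3
    have a4 := mul_le_mul wi dm (nv_nonneg _) zero_le_two
    have a5 := mul_le_mul dwi (m1 h') (nv_nonneg _) (by positivity)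
    have a6 := sn_mono N.dy hd
    rw [e1]
    norm_num at a5
    linarith
  have P1 : T1.Psi J y h = tm h - G0 J (T1.zh J h) *ᵥ (T1A.chi h + y) :=
    T1A.Psi_eq (T1A.unit_of_pd p1) y h
  have P2 : T1.Psi J' y' h' = tm h' - G0 J' (T1.zh J' h') *ᵥ (T1A.chi h' + y') :=
    T1A.Psi_eq (T1A.unit_of_pd p2) y' h'
  have nP : nv (T1.Psi J y h) ≤ √n * K ^ 2 := by
    have a1 := nv_sub_le (tm h) (G0 J (T1.zh J h) *ᵥ (T1A.chi h + y))
    have a2 := mv_le g0 K0.le nc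
    have a3 : 1 + K * 13 ≤ K ^ 2 := by nlinarith
    rw [P1]
    nlinarith [m1 h]
  have dP : nv (T1.Psi J y h - T1.Psi J' y' h') ≤ √n * (d * K ^ 12) := by
    have a1 := nv_sub_le (tm h - tm h') (G0 J (T1.zh J h) *ᵥ (T1A.chi h + y) -
      G0 J' (T1.zh J' h') *ᵥ (T1A.chi h' + y'))
    have a2 := mv_sub' g g1 (by positivity) K0.le nc dc
    have b1 := le' hK d0 (a := 0) (b := 11) (by norm_num)
    have b2 := up hK d0 (c := 13) (by norm_num) (a := 10) (b := 11) (by norm_num)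
    have b3 := up hK d0 (c := 36) (by norm_num) (a := 1) (b := 11) (by norm_num)
    have b4 := up hK d0 (c := 3) (by norm_num) (a := 11) (b := 12) (by norm_num)
    have a3 : d + (d * K ^ 10 * 13 + K * (36 * d)) ≤ d * K ^ 12 := by linarith
    rw [P1, P2, sub_sub_sub_comm]
    nlinarith
  have a1 := nv_sub_le (h - h') ((T1.AA J y)⁻¹ *ᵥ T1.Psi J y h - (T1.AA J' y')⁻¹ *ᵥ T1.Psi J' y' h')
  have a2 := mv_sub' N.dAi (opLe_inv_of_low N.lowA') (by positivity) (by positivity) nP dP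
  have b1 := le' hK d0 (a := 0) (b := 25) (by norm_num)
  have b2 := mul_le_mul_of_nonneg_right hd (by positivity : 0 ≤ K ^ 25)
  have b3 := le' hK d0 (a := 15) (b := 25) (by norm_num)
  have b4 := up hK d0 (c := 3) (by norm_num) (a := 25) (b := 27) (by norm_num)
  have a3 : d + (e * K ^ 23 * K ^ 2 + K ^ 3 * (d * K ^ 12)) ≤ d * K ^ 27 := by linarith
  unfold T1.Pic
  rw [sub_sub_sub_comm]
  nlinarith

/-- the iterates -/
theorem iter (r : ℕ) (hs : e * K ^ (27 * r + 20) ≤ 1)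
    (hr : ∀ j < r, Win J (T1.zh J (T1.it J y j)) (4 * K⁻¹) 8 ∧ 1 / 2 ≤ wb (T1.it J y j) ∧
      nv (T1.it J y j) ≤ √n * 2) :
    nv (T1.it J y r - T1.it J' y' r) ≤ √n * (e * K ^ (27 * r + 12)) := by
  induction r with
  | zero => exact N.dh0
  | succ r ih =>
    have h1 := ih ((le' N.hK N.e0 (by omega)).trans hs) fun j hj => hr j (by omega)
    obtain ⟨a, b, c⟩ := hr r (by omega)
    have h2 := (N.step (d := e * K ^ (27 * r + 12))
      (by simpa using le' N.hK N.e0 (a := 0) (b := 27 * r + 12) (by omega))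
      (by
        rw [mul_assoc, ← pow_add]
        exact (le' N.hK N.e0 (by omega)).trans hs) a b c h1).2
    rw [T1.it_succ, T1.it_succ]
    rwa [mul_assoc e, ← pow_add, show 27 * r + 12 + 27 = 27 * (r + 1) + 12 by ring] at h2

end Nb

end

/-- points of the region -/
theorem reg_w {L t : ℝ} {S : T1.Dat n} (hs : T1.Sm L t) (A : T1.Adm L t S) (O : OG n) {h : Vec n}
    (R : T1.Reg t (S.J O) (S.y O) h) : |wb h - S.w| ≤ t ^ 144010 ∧ nv h ≤ √n * 2 := by
  have hn' := A.npos'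
  have a0 : nv (T1.h0 (S.J O) (S.y O)) ≤ √n * t ^ 71999 := by
    linarith [A.nv_h0 hs O, nv_nonneg (T1.h0 (S.J O) (S.y O))]
  have e0 : F.sq (T1.h0 (S.J O) (S.y O)) = ∑ a, (S.g a * S.yt a) ^ 2 := by
    rw [A.h0_eq hs, T1.sq_tr]
    rfl
  have n1 := R.near
  have n2 := sn_mono R.cub (hs.pw (b := 143000) (by norm_num))
  have ew := A.w_eq
  rw [← e0] at ew
  generalize T1.h0 (S.J O) (S.y O) = g at a0 n1 ew
  have a1 : nv (g - tm h) ≤ √n * (2 * t ^ 143000) := by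
    have := nv_sub_le (h - tm h) (h - g)
    rw [sub_sub_sub_cancel_left] at this
    linarith
  have a2 : nv (tm h) ≤ √n * (3 * t ^ 71999) := by
    have b1 := nv_sub_le g (g - tm h)
    rw [sub_sub_cancel] at b1
    have b2 := sn_mono a1 (mul_le_mul_of_nonneg_left (hs.pw (b := 71999) (by norm_num)) zero_le_two)
    linarith
  refine ⟨?_, ?_⟩
  · have a3 := abs_sq_sub g (tm h)
    have a4 := sn_mul a0 a1
    have a5 := sn_mul a2 a1
    have a6 := mul_le_mul_of_nonneg_left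
      (hs.cp (C := 8) (by norm_num) (a := 71999 + 143000) (b := 144010) (by norm_num)) hn'.le
    rw [pow_add] at a6
    rw [T1A.wb_eq A.npos, ew, sub_sub_sub_cancel_left, ← sub_div, abs_div, abs_of_pos hn',
      div_le_iff₀ hn']
    linarith
  · have b1 := nv_add_le (h - g) g
    rw [sub_add_cancel] at b1
    linarith [sn_mono n1 (hs.p1 _), sn_mono a0 (hs.p1 _)]

/-- (Ce) -/
theorem ceStmt : T1.CeStmt := by
  refine ⟨288002 * 93, (T1.ev_sm.and T1A.zStmt).mono ?_⟩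
  rintro L t - ⟨hs, hz⟩ n S O J' y' ε A B hJ he hε dJ dy
  obtain ⟨K, hK⟩ : ∃ K, K = t⁻¹ ^ 288002 := ⟨_, rfl⟩
  have Ki : K⁻¹ = t ^ 288002 := by rw [hK, ← inv_pow, inv_inv]
  have K40 : 40 ≤ K := by
    have := hs.ci (C := 40) (by norm_num) (a := 0) (b := 288002) (by norm_num)
    rwa [pow_zero, mul_one, ← hK] at this
  have sm : ε * K ^ (27 * 3 + 20) ≤ 1 := by
    rw [hK, ← pow_mul, mul_comm]
    refine (mul_le_mul_of_nonneg_left hε (hs.i0 _).le).trans ((hs.ip (c := 0) ?_).trans ?_)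
    · norm_num
    · rw [pow_zero]
  have g8 := hs.cp (C := 8) (by norm_num) (a := 288002) (b := 288001) (by norm_num)
  have win : ∀ z, |z - S.z0| ≤ t ^ 288002 → Win (S.J O) z (4 * K⁻¹) 8 := fun z h =>
    win_of_frame O
      (fun a => by rw [Ki]; linarith [A.pow_le_gap hs a, (abs_le.1 h).1, hs.p0 288002])
      (fun a => by linarith [A.gap_le hs a, (abs_le.1 h).2, hs.p1 288002])
  have N : Nb K ε (S.J O) J' (S.y O) y' :=
    ⟨A.npos, K40, he, (le' K40 he (by norm_num)).trans sm, hJ, dJ, dy,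
      win _ (by rw [A.zs_eq hs, sub_self, abs_zero]; exact (hs.p0 _).le)⟩
  have eq : K ^ 93 = t⁻¹ ^ (288002 * 93) := by rw [hK, ← pow_mul]
  rw [← eq]
  refine ⟨(nv_sub_comm _ _).trans_le (N.iter 3 sm fun j hj => ?_), ?_⟩
  · obtain ⟨a, b⟩ := reg_w hs A O (B.reg j (by omega))
    have c := ((hz n S O A).2.2.2.2.2.2 _ a).2.2
    have c1 := mul_le_mul_of_nonneg_left a (hs.p0 143999).le
    rw [← pow_add] at c1
    have c2 := hs.cp (C := 4) (by norm_num) (a := 143999) (b := 0) (by norm_num)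
    have c3 := hs.pw (a := 144010) (b := 143999) (by norm_num)
    rw [pow_zero] at c2
    refine ⟨win _ ((c.trans c1).trans (hs.pw (by norm_num))), ?_, b⟩
    have c4 := (abs_le.1 a).1
    have c5 := A.w_ge' hs
    unfold T1.Dat.h at c4
    linarith
  · have := N.sad.1
    rw [A.zs_eq hs] at this
    exact this.trans (le' K40 he (by norm_num))

end Vale.Agent.N150.T1C
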