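import Vale.Agent.N150.EndTL3
import Vale.Agent.N150.EndMain
import Vale.Agent.N150.EndLowB
import Vale.Agent.N150.T1Meas
import Vale.Agent.N150.T1Alg2
import Vale.Agent.N150.Res2
import Vale.Agent.N150.AdmL
import Vale.Agent.N150.T1Ce

/-! P150 at `β = 1`, endgame, block E6: the no-outlier input of the endgame from THEOREM T1. -/

open MeasureTheory Matrix Filter Topology

namespace Vale.Agent.N150.ETL

open Vale.Agent.P150 Vale.Agent.P150.F Vale.Agent.N150.EC Vale.Agent.N150.End Vale.Agent.N150.T1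
  Vale.Agent.N150.Sp Vale.Agent.N150.Plant Vale.Agent.N150.Edge

variable {n : ℕ}

/-! ### deterministic part -/

theorem nv_Nis {L t : ℝ} {S : Dat n} (hA : Adm L t S) (hs : Sm L t) (O : OG n) {u v : Vec n}
    (h : nv u ≤ t⁻¹ ^ 100 * nv (S.Nis O *ᵥ v)) : nv (S.Nis O *ᵥ u) ≤ t⁻¹ ^ 288200 * nv v := by
  have a1 := (hA.opLe_Nis hs O).nv_le (hs.i0 _).le
  refine (a1 _).trans ((mul_le_mul_of_nonneg_left (h.trans
    (mul_le_mul_of_nonneg_left (a1 v) (hs.i0 _).le)) (hs.i0 _).le).trans ?_)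
  rw [← mul_assoc, ← mul_assoc, ← pow_add, ← pow_add]
  exact mul_le_mul_of_nonneg_right (hs.iw (by norm_num)) (nv_nonneg _)

/-- the output of THEOREM T1 in the form used by the endgame -/
theorem t1Out_of {L t : ℝ} (hs : Sm L t) {S : Dat n} {O : OG n} (hA : Adm L t S) (hG : Good t S O)
    (hO : Out t S O) (h2 : ∀ h, Reg t (S.J O) (S.y O) h → |wb h - S.w| ≤ t ^ 214900) {h : Vec n}
    (hn : nv (h - S.h O 3) ≤ √n * t ^ 259000) (hr : nv (rs1 (S.J O) (S.y O) h) ≤ 1) :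
    T1Out (S.J O) (S.y O) h (S.h O 3) (zh (S.J O)) (√n * t ^ 252000) (t⁻¹ ^ 288200)
      (S.gam + t ^ 288000 / L) (S.gam + 1) 1 := by
  have k : ∀ a : ℕ, 252000 < a → √n * t ^ a ≤ √n * t ^ 252000 / 8 := fun a ha => by
    have := mul_le_mul_of_nonneg_left (hs.cp (C := 8) (by norm_num) ha) (Real.sqrt_nonneg (n : ℝ))
    linarith
  refine ⟨⟨S.hc t O, fun i => (abs_clip_le (hs.p0 _).le _ i).trans ?_, ?_⟩,
    hn.trans (k _ (by norm_num)), hr, fun g hg => ?_, fun g hg v => ?_, fun g g' hg hg' => ?_⟩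
  · have := hs.cp (C := 2) (by norm_num) (show 0 < 71999 by norm_num)
    rw [pow_zero] at this
    linarith
  · rw [nv_sub_comm]
    exact hG.base.clp.trans (k _ (by norm_num))
  · have hw := (h2 g (hO.reg g hg)).trans (hs.pw (show 144010 ≤ 214900 by norm_num))
    have z1 := abs_le.1 (hA.zh_spec hs O hw).1
    have z2 := hA.lo
    have z3 := hA.hi
    have z4 := hs.cLp (C := 2) (k := 1) (by norm_num) (by norm_num) (show 0 < 288000 by norm_num)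
    have z5 : t ^ 288000 / L ≤ L * t ^ 288000 :=
      (div_le_self (hs.p0 _).le hs.L1).trans (le_mul_of_one_le_left (hs.p0 _).le hs.L1)
    rw [pow_zero, pow_one] at z4
    rw [mul_div_assoc] at z2
    exact ⟨by linarith [z1.1], by linarith [z1.2], hA.res2_zh hs O hw⟩
  · have e : v = S.Nis O *ᵥ ((S.Nsq O * Gam (S.J O) g (zh (S.J O) g) * S.Nsq O) *ᵥ
        (S.Nis O *ᵥ (Lm (S.J O) g (zh (S.J O) g) *ᵥ v))) := by
      simp only [Matrix.mulVec_mulVec, ← Matrix.mul_assoc]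
      rw [hA.Nis_mul_Nsq hs O, Matrix.one_mul, Matrix.mul_assoc _ (S.Nsq O), hA.Nsq_mul_Nis hs O,
        Matrix.mul_one, Gam, Matrix.nonsing_inv_mul _ (hO.unit g hg), Matrix.one_mulVec]
    exact (congrArg nv e).trans_le (nv_Nis hA hs O ((hO.gam g hg).nv_le (hs.i0 _).le _))
  · have e : g - g' = S.Nis O *ᵥ (S.Nsq O *ᵥ (g - g')) := by
      rw [Matrix.mulVec_mulVec, hA.Nis_mul_Nsq hs O, Matrix.one_mulVec]
    exact (congrArg nv e).trans_le (nv_Nis hA hs O (hO.close g g' hg hg'))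

theorem G0_conj (lam : Vec n) (O : OG n) (r z : ℝ) :
    G0 (r • JO lam O) z = O.1ᵀ * (diagonal fun a => z - r * lam a)⁻¹ * O.1 := by
  rw [JO_smul, G0, Nm_JO, JO, Matrix.mul_inv_rev, Matrix.mul_inv_rev,
    Matrix.inv_eq_left_inv (OG.transpose_mul O), Matrix.inv_eq_right_inv (OG.transpose_mul O),
    Matrix.mul_assoc]

theorem trace_conj (O : OG n) (M : Mat n) : (O.1ᵀ * M * O.1).trace = M.trace := by
  rw [Matrix.trace_mul_cycle, mul_eq_one_comm.1 (OG.transpose_mul O), Matrix.one_mul]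

theorem T2_conj (lam : Vec n) (O : OG n) (r z : ℝ) : T2 (r • JO lam O) z
    = ((diagonal fun a => z - r * lam a)⁻¹ * (diagonal fun a => z - r * lam a)⁻¹).trace := by
  rw [T2, G0_conj, ← trace_conj O (_⁻¹ * _⁻¹)]
  congr 1
  simp only [Matrix.mul_assoc]
  rw [← Matrix.mul_assoc O.1 O.1ᵀ, mul_eq_one_comm.1 (OG.transpose_mul O), Matrix.one_mul]

theorem ResOK.conj {d C : ℝ} {lam : Vec n} {O : OG n} (h : ResOK d C (JO lam O)) (O' : OG n) :
    ResOK d C (JO lam O') := by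
  intro r z w a1 a2 a3 a4 a5 a6
  rw [G0_conj, trace_conj] at a6
  have := h r z w a1 a2 a3 a4 a5 (by rw [G0_conj, trace_conj]; exact a6)
  rwa [T2_conj, ← T2_conj lam O'] at this

theorem PY_zero {μ : Cfg n → ℝ} (hμ : IsProb μ) (R : Mat n) {B : Set (Vec n)}
    (h : PY μ R 0 B < 1) : (0 : Vec n) ∉ B := by
  intro h0
  have e : ∀ x : Cfg n, {ξ : Vec n | obs R 0 x ξ ∈ B} = Set.univ := fun x =>
    Set.eq_univ_of_forall fun ξ => by
      have : obs R 0 x ξ = 0 := by funext i; simp [obs]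
      simpa [this] using h0
  unfold PY at h
  simp only [e, probReal_univ, mul_one, hμ.2] at h
  exact lt_irrefl _ h

/-- the library input from the canonical good labels -/
theorem tl_of {hp ct : Mat n → Vec n → Vec n} (hm : MP hp) (hc : MP ct) (h0 : ∀ J, ct J 0 = 0)
    {c₀ L R E E₀ B a β b h κ η c : ℝ} {ρ : ℕ → ℝ} {I : ℕ} {J S0 : Mat n} (hD : DiagOK η E₀ J)
    (hJ : OpLe (off J) 3)
    (hP : ∀ j ≤ I, PY (gM (b • off J) 0) S0 (h * j) {y | ¬(DiagOK η E₀ J →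
      Can hp ct c₀ L R E B (ρ j) a β (b - h * j) (b - h * (j + 1 : ℕ)) κ J y)}
      ≤ Real.exp (-(c * n)))
    (hcn : 0 < c * n) (hh : 0 ≤ h) (hb : b ≤ 1) (hI : h * I ≤ b) (hR : 0 < R * √n) (hρ0 : 0 < ρ 0)
    (hρ : ∀ j, ρ j / 8 + 2 * β < ρ (j + 1)) (ha : 20 * √h * √n < a) (hB : 0 ≤ B) (hE : 0 ≤ E)
    (hfin : B * (2 * E + 5 * h * √n + 20 * √h * √n) ≤ R * √n / 8) :
    ∃ G, TL c₀ L R E b h c I (off J) S0 G fun j y => tm (hp (lv (b - h * j) κ J) y) := by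
  have hr : ∀ j ≤ I, 0 ≤ b - h * (j : ℕ) ∧ b - h * (j : ℕ) ≤ 1 := fun j hj => by
    have a1 : h * (j : ℕ) ≤ h * I := mul_le_mul_of_nonneg_left (by exact_mod_cast hj) hh
    have a2 : 0 ≤ h * (j : ℕ) := by positivity
    constructor <;> linarith
  refine ⟨fun j => {y | DiagOK η E₀ J →
      Can hp ct c₀ L R E B (ρ j) a β (b - h * j) (b - h * (j + 1 : ℕ)) κ J y},
    fun j => (mg_can hm hc ..).ms (Fib.MM.const J) measurable_id,
    fun j => cont_tm.measurable.comp (hm.meas (Fib.MM.const _) measurable_id), hP,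
    fun j _ y hy => (hy hD).ctr hR, fun j hj y hy y' hy' hyy => ?_, ?_⟩
  · refine ((hy hD).link (hy' hD) hJ (hr j hj.le).1 (hr j hj.le).2 (hr _ hj).1 (hr _ hj).2
      (δ := h) (le_of_eq ?_) hyy ha (hρ j) hB).trans hfin
    rw [Nat.cast_succ, show b - h * j - (b - h * (j + 1)) = h by ring, abs_of_nonneg hh]
  · have a1 := hP 0 (Nat.zero_le _)
    have a2 : Real.exp (-(c * n)) < 1 := by
      rw [← Real.exp_zero]
      exact Real.exp_lt_exp.2 (by linarith)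
    rw [show h * ((0 : ℕ) : ℝ) = 0 by simp] at a1
    have a3 := not_not.1 (PY_zero (gM_isProb _ _) S0 (a1.trans_lt a2)) hD
    rw [show h * ((0 : ℕ) : ℝ) = 0 by simp]
    refine (a3.zero (h0 _) hρ0).trans (le_trans (mul_le_mul_of_nonneg_left ?_ hB) hfin)
    have : 0 ≤ 5 * h * √n + 20 * √h * √n := by positivity
    linarith

/-! ### one level -/

/-- a measurable reference point which is an approximate solution near the centre -/
def RefOK (hp : ∀ n : ℕ, Mat n → Vec n → Vec n) : Prop := (∀ n, MP (hp n)) ∧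
  Ev fun L t => ∀ (n : ℕ) (S : Dat n) (O : OG n), Adm L t S → Good t S O →
    nv (hp n (S.J O) (S.y O) - S.h O 3) ≤ √n * t ^ 259000 ∧
      nv (rs1 (S.J O) (S.y O) (hp n (S.J O) (S.y O))) ≤ 1

/-- the facts used at the unit `t` -/
structure At (hp : ∀ n : ℕ, Mat n → Vec n → Vec n) (q K : ℕ) (L t : ℝ) : Prop where
  sm : Sm L t
  d6 : ∀ (n : ℕ) (S : Dat n) (O : OG n), Adm L t S → Good t S O → Out t S O
  d2 : ∀ (n : ℕ) (S : Dat n) (O : OG n) (h : Vec n), Adm L t S → Reg t (S.J O) (S.y O) h →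
    |wb h - S.w| ≤ t ^ 214900
  ce : ∀ (n : ℕ) (S : Dat n) (O : OG n) (J' : Mat n) (y' : Vec n) (ε : ℝ), Adm L t S → Base t S O →
    J'ᵀ = J' → 0 ≤ ε → ε ≤ t ^ (2 * q) → OpLe (J' - S.J O) ε → nv (y' - S.y O) ≤ √n * ε →
    nv (it J' y' 3 - S.h O 3) ≤ √n * (ε * t⁻¹ ^ q)
  t1 : ∀ (n : ℕ) (S : Dat n) (x xt : Vec n) (μ : Measure (OG n)), Adm L t S → AdmX L t S xt →
    FibL μ x xt → μ.real {O | ¬Good t S O} ≤ (n : ℝ) ^ K * Real.exp (-(n * t ^ 431998))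
  ref : ∀ (n : ℕ) (S : Dat n) (O : OG n), Adm L t S → Good t S O →
    nv (hp n (S.J O) (S.y O) - S.h O 3) ≤ √n * t ^ 259000 ∧
      nv (rs1 (S.J O) (S.y O) (hp n (S.J O) (S.y O))) ≤ 1

theorem exists_at {hp : ∀ n : ℕ, Mat n → Vec n → Vec n} (h6 : D6Stmt) (hC : CeStmt) (hT : T1Stmt)
    (hr : RefOK hp) {L : ℝ} (hL : 2 ≤ L) :
    ∃ (q K : ℕ) (t₀ : ℝ), 0 < t₀ ∧ ∀ t, 0 < t → t < t₀ → At hp q K L t := by
  obtain ⟨q, hC⟩ := hC
  obtain ⟨K, hT⟩ := hT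
  have h : ∀ᶠ t in 𝓝[>] (0 : ℝ), At hp q K L t := by
    filter_upwards [ev_sm L hL, h6 L hL, T1A.d2Stmt L hL, hC L hL, hT L hL, hr.2 L hL]
      with t a1 a2 a3 a4 a5 a6
    exact ⟨a1, a2, fun n S O h hA hR => (a3 n S O h h 0 0 hA hR hR le_rfl (by simp [nv_zero])).1,
      fun n S O J' y' ε b1 b2 b3 b4 b5 b6 b7 => (a4 n S O J' y' ε b1 b2 b3 b4 b5 b6 b7).1, a5, a6⟩
  obtain ⟨t₀, h0, h1⟩ := (nhdsGT_basis (0 : ℝ)).eventually_iff.1 h
  exact ⟨q, K, t₀, h0, fun t a b => h1 ⟨a, b⟩⟩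

/-- bound of the inverse -/
noncomputable def cB (τ : ℝ) : ℝ := τ⁻¹ ^ 288200
/-- radius of the balls -/
noncomputable def cR (τ : ℝ) : ℝ := τ ^ 252000 / (144 * cB τ)
/-- range of the continuity of the centre -/
noncomputable def cE (q : ℕ) (τ : ℝ) : ℝ := τ ^ (2 * q) * (τ ^ 252000 / 4)

/-- the good labels of a level with unit `t` -/
def GLv (hp : ∀ n : ℕ, Mat n → Vec n → Vec n) (q : ℕ) (τ C η t r r' κ : ℝ) (J : Mat n) (y : Vec n) :
    Prop := DiagOK η 4 J → Can (hp n) (fun J y => it J y 3) (1 / (2 * cB τ)) (36 * cB τ) (cR τ)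
      (1 + C + 4) (cB τ) (√n * t ^ 252000) (√n * cE q τ) (√n * (cE q τ * τ⁻¹ ^ q)) r r' κ J y

theorem mp_it (j : ℕ) : MP fun (J : Mat n) y => it J y j :=
  measurable_it (mm_ent.comp measurable_fst) measurable_snd j

theorem one_le_cB {τ : ℝ} (h0 : 0 < τ) (h1 : τ ≤ 1) : 1 ≤ cB τ :=
  one_le_pow₀ ((one_le_inv₀ h0).2 h1)

theorem cR_pos {τ : ℝ} (h0 : 0 < τ) : 0 < cR τ := by unfold cR cB; positivity

theorem cE_pos (q : ℕ) {τ : ℝ} (h0 : 0 < τ) : 0 < cE q τ := by unfold cE; positivity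

theorem cE_le (q : ℕ) {τ : ℝ} (h0 : 0 < τ) (h1 : τ ≤ 1) : cE q τ ≤ τ ^ (2 * q) :=
  mul_le_of_le_one_right (by positivity) (by linarith [pow_le_one₀ h0.le h1 (n := 252000)])

theorem cE_mul (q : ℕ) {τ : ℝ} (h0 : 0 < τ) (h1 : τ ≤ 1) :
    cE q τ * τ⁻¹ ^ q ≤ τ ^ 252000 / 4 := by
  have e : cE q τ * τ⁻¹ ^ q = τ ^ q * (τ ^ 252000 / 4) := by
    rw [cE, two_mul, pow_add, inv_pow]
    field_simp
  rw [e]
  exact mul_le_of_le_one_left (by positivity) (pow_le_one₀ h0.le h1)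

theorem lv_symm {J : Mat n} (hJ : Jᵀ = J) (r κ : ℝ) : (lv r κ J)ᵀ = lv r κ J := by
  rw [lv, Matrix.transpose_sub, Matrix.transpose_smul, Matrix.transpose_smul, hJ,
    Matrix.transpose_one]

theorem gl_of {hp : ∀ n : ℕ, Mat n → Vec n → Vec n} {q K : ℕ} {L t τ C η r r' κ : ℝ}
    (H : At hp q K L t) (hτ : 0 < τ) (hτt : τ ≤ t) {S : Dat n} {O : OG n} (hA : Adm L t S)
    (hG : Good t S O) {J : Mat n} (hJ : S.J O = lv r κ J) (hJs : Jᵀ = J) (hJ3 : OpLe J 3)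
    (hR : ResOK (τ ^ 288000 / L) C J) (hr : 1 / 2 ≤ r) (hr1 : r ≤ 1) (hg : 2 * r - κ ≤ S.gam)
    (hg' : S.gam ≤ 3 - κ) (hη : 0 ≤ η) (hη' : η * cB τ ≤ 1 / 6) (hC : C / √n * cB τ ≤ 1 / 12)
    (hrr : 3 * |r' - r| ≤ cE q τ) : GLv hp q τ C η t r r' κ J (S.y O) := by
  intro hD
  have hs := H.sm
  have hτ1 : τ ≤ 1 := hτt.trans hs.one
  have hB := one_le_cB hτ hτ1
  have hi : t⁻¹ ≤ τ⁻¹ := inv_anti₀ hτ hτt
  have hε := cE_pos q hτ
  have hn0 := Real.sqrt_nonneg (n : ℝ)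
  have H1 := (t1Out_of hs hA hG (H.d6 n S O hA hG) (fun h => H.d2 n S O h hA) (H.ref n S O hA hG).1
    (H.ref n S O hA hG).2).mono (B' := cB τ) (pow_le_pow_left₀ hs.inv0.le hi _) le_rfl le_rfl le_rfl
  have hc : ∀ s v, 3 * |s - r| ≤ cE q τ → nv (v - S.y O) < √n * cE q τ →
      nv (it (lv s κ J) v 3 - it (lv r κ J) (S.y O) 3) ≤ √n * (cE q τ * τ⁻¹ ^ q) := by
    intro s v h1 h2
    have e : lv s κ J - S.J O = (s - r) • J := by rw [hJ, lv, lv]; module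
    have := H.ce n S O (lv s κ J) v (cE q τ) hA hG.base (lv_symm hJs _ _) hε.le
      ((cE_le q hτ hτ1).trans (pow_le_pow_left₀ hτ.le hτt _))
      (e ▸ (hJ3.smul (by norm_num) (s - r)).monoN (by positivity) (by linarith)) h2.le
    rw [Dat.h, hJ] at this
    exact this.trans (mul_le_mul_of_nonneg_left
      (mul_le_mul_of_nonneg_left (pow_le_pow_left₀ hs.inv0.le hi _) hε.le) hn0)
  rw [Dat.h, hJ] at H1
  have p1 : τ ^ 288000 / L ≤ t ^ 288000 / L :=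
    div_le_div_of_nonneg_right (pow_le_pow_left₀ hτ.le hτt _) hs.L0.le
  have p2 : τ ^ 252000 ≤ t ^ 252000 := pow_le_pow_left₀ hτ.le hτt _
  refine can_of hA.npos H1 hR hD hr hr1 (by linarith) (by linarith) hη (by linarith) (by linarith)
    (mul_nonneg hn0 (hs.p0 _).le) ?_ ?_ le_rfl (fun v => hc r v (by simpa using hε.le))
    fun v => hc r' v hrr
  · have e : 36 * cB τ * (2 * cR τ * √n) = √n * τ ^ 252000 / 2 := by
      rw [cR]; field_simp; ring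
    rw [e]
    linarith [mul_le_mul_of_nonneg_left p2 hn0]
  · have e : (2 * (C / √n) + η + 6 / (36 * cB τ)) * (2 * cB τ)
        = 4 * (C / √n * cB τ) + 2 * (η * cB τ) + 1 / 3 := by
      field_simp; ring
    rw [e]
    linarith

theorem lib_J (b u κ gam z : ℝ) (lam v ξ : Vec n) (O : OG n) :
    (AdmP.libDat b u κ gam z lam v ξ).J O = lv (b - u) κ (JO lam O) := by
  rw [lv, JO_smul, ← JO_const κ O, JO_sub]
  rfl

theorem lib_y (b u κ gam z : ℝ) (lam v ξ : Vec n) (O : OG n) :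
    (AdmP.libDat b u κ gam z lam v ξ).y O = O.1ᵀ *ᵥ yF u lam v ξ := by
  unfold Dat.y
  congr 1
  funext a
  simp only [AdmP.libDat, yF, mul_assoc]

/-- planted probability of a bad label at one level -/
theorem level_le {hp : ∀ n : ℕ, Mat n → Vec n → Vec n} (hm : MP (hp n)) {q K : ℕ}
    {L t τ C η b u r' κ p : ℝ} (H : At hp q K L t) (hn : 0 < n) (hτ : 0 < τ) (hτt : τ ≤ t)
    {lam : Vec n} (hl : ∀ a, |lam a| ≤ 3) (hR : ∀ O, ResOK (τ ^ 288000 / L) C (JO lam O))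
    (hr : 1 / 2 ≤ b - u) (hr1 : b - u ≤ 1) (hη : 0 ≤ η) (hη' : η * cB τ ≤ 1 / 6)
    (hC : C / √n * cB τ ≤ 1 / 12) (hrr : 3 * |r' - (b - u)| ≤ cE q τ)
    (hA : ((spM (diagonal (b • lam)) 0).prod (gpi (Fin n))).real {p | ¬∃ gam z,
      2 * (b - u) - κ ≤ gam ∧ gam ≤ 3 - κ ∧ Adm L t (AdmP.libDat b u κ gam z lam p.1 p.2) ∧
        AdmX L t (AdmP.libDat b u κ gam z lam p.1 p.2) p.1} ≤ p) :
    (plN n (diagonal (b • lam)) 0).real {o | ¬GLv hp q τ C η t (b - u) r' κ (JO lam o.1.1)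
      (o.1.1.1ᵀ *ᵥ yF u lam (xt o.1.1 o.1.2) (o.2 0))}
      ≤ p + (n : ℝ) ^ K * Real.exp (-(n * τ ^ 431998)) := by
  refine planted_le hn _ lam u (G := GLv hp q τ C η t (b - u) r' κ) (mg_can hm (mp_it 3) ..)
    {p | ∃ gam z, 2 * (b - u) - κ ≤ gam ∧ gam ≤ 3 - κ ∧
      Adm L t (AdmP.libDat b u κ gam z lam p.1 p.2) ∧
        AdmX L t (AdmP.libDat b u κ gam z lam p.1 p.2) p.1} (by positivity) hA ?_
  rintro x v ξ ⟨gam, z, g1, g2, a1, a2⟩ hv
  have hF : FibL (fibM (sv x) v) (sv x) v :=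
    ⟨fun i => by unfold sv; cases x i <;> simp [sp], inferInstance, explo_fibM _ _,
      ae_fibM (hv.trans (Law.sq_spin x).symm)⟩
  refine le_trans (measureReal_mono ?_ (measure_ne_top _ _))
    ((H.t1 n _ _ _ _ a1 a2 hF).trans (mul_le_mul_of_nonneg_left (Real.exp_le_exp.2 (neg_le_neg
      (mul_le_mul_of_nonneg_left (pow_le_pow_left₀ hτ.le hτt _) (Nat.cast_nonneg n))))
      (by positivity)))
  refine fun O hO hG => hO ?_
  rw [← lib_y b u κ gam z]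
  exact gl_of H hτ hτt a1 hG (lib_J ..) (JO_tr _ _) (opLe_JO hl O) (hR O) hr hr1 g1 g2 hη hη' hC hrr

/-! ### typical events -/

theorem rigid_fix {δ : ℝ} (hδ : 0 < δ) : ∃ w : ℝ, 0 < w ∧ Edge.kap w ≤ 1 / 1000 ∧ ∀ᶠ n : ℕ in atTop,
    w * (n : ℝ) ^ (-(2 / 3 : ℝ)) ≤ 1 ∧
      (gpi (Pairs n ⊕ Fin n)).real {ω | ¬RigidM w (goeM (Red.famA n) ω)} ≤ δ := by
  obtain ⟨C, -, hC⟩ := rigid_stmt
  have h1 := (tendsto_rpow_neg_atTop (y := 1 / 4) (by norm_num)).const_mul C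
  rw [mul_zero] at h1
  obtain ⟨w, a1, a2, a3⟩ := ((eventually_ge_atTop (1 : ℝ)).and
    ((h1.eventually (ge_mem_nhds hδ)).and ((tendsto_rpow_neg_atTop (y := 3 / 5)
      (by norm_num)).eventually (ge_mem_nhds (show (0 : ℝ) < 1 / 1000 by norm_num))))).exists
  have h2 := ((tendsto_rpow_neg_atTop (y := 2 / 3) (by norm_num)).comp
    tendsto_natCast_atTop_atTop).const_mul w
  rw [mul_zero] at h2
  refine ⟨w, by linarith, a3, ?_⟩
  filter_upwards [h2.eventually (ge_mem_nhds one_pos), eventually_gt_atTop 0] with n b1 b2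
  exact ⟨b1, ENNReal.toReal_le_of_le_ofReal hδ.le
    ((hC w n a1 b1 b2 _ _ Red.goeFam_famA).trans (ENNReal.ofReal_le_ofReal a2))⟩

theorem spec_le (w d C : ℝ) : (gpi (Pairs n ⊕ Fin n)).real {ω | ¬∀ O lam,
      IsEig (goeM (Red.famA n) ω) O lam → Rigid w lam ∧ ∀ O', ResOK d C (JO lam O')}
    ≤ (gpi (Pairs n ⊕ Fin n)).real {ω | ¬RigidM w (goeM (Red.famA n) ω)}
      + (PW n).real {w | ¬ResOK d C (goe w)} := by
  refine le_trans (measureReal_mono ?_ (measure_ne_top _ _)) ((measureReal_union_le _ _).trans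
    (add_le_add le_rfl (gpi_le_PW fun J => ¬ResOK d C J)))
  intro ω hω
  by_contra hc
  simp only [Set.mem_union, Set.mem_ofPred_eq, not_or, not_not] at hc
  refine hω fun O lam h => ⟨hc.1 O lam h,
    ResOK.conj (O := OG.mk' O (mul_eq_one_comm.1 h.1)) ?_⟩
  have := hc.2
  rw [h.2] at this
  exact this

theorem PW_nv {δ : ℝ} (hδ : 0 < δ) :
    ∀ᶠ n : ℕ in atTop, (PW n).real {w | ¬nv (goe w).diag ≤ 4} ≤ δ := by
  filter_upwards [ev_poly 0 (1 / δ) one_pos, eventually_gt_atTop 0] with n h1 hn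
  have hn0 : (0 : ℝ) < n := by exact_mod_cast hn
  have h2 := Tail.chi_tail (fun _ : Fin n => (1 : ℝ)) (V := n) (M := 1) (x := n) hn0 zero_le_one
    hn0.le (by simp) fun _ => le_rfl
  have e : {w : (Pairs n → ℝ) × Vec n | ¬nv (goe w).diag ≤ 4} ⊆ Set.univ ×ˢ {v : Vec n |
      ∑ _i : Fin n, (1 : ℝ) + 2 * √(2 * n * n) + 4 * 1 * n ≤ ∑ i, 1 * v i ^ 2} := by
    intro w hw
    refine ⟨trivial, ?_⟩
    rw [Set.mem_ofPred_eq]
    refine not_lt.1 fun hc => hw (nv_le_of_sq_le (by norm_num) ?_)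
    have h3 : √(2 * n * n) ≤ 3 / 2 * n := Real.sqrt_le_iff.2 ⟨by positivity, by nlinarith⟩
    have h4 : F.sq (goe w).diag = 2 / n * ∑ i, 1 * w.2 i ^ 2 := by
      rw [diag_goe, F.sq, Finset.mul_sum]
      exact Finset.sum_congr rfl fun i _ => by rw [mul_pow, Real.sq_sqrt (by positivity), one_mul]
    simp only [Finset.sum_const, Finset.card_univ, Fintype.card_fin, nsmul_eq_mul, mul_one] at hc
    rw [h4, div_mul_eq_mul_div, div_le_iff₀ hn0]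
    linarith
  refine (measureReal_mono e (measure_ne_top _ _)).trans ?_
  rw [Measure.real, PW, Measure.prod_prod, measure_univ, one_mul]
  refine h2.trans ?_
  rw [pow_zero, mul_one, one_mul, one_div, inv_mul_le_iff₀ hδ, mul_one] at h1
  exact h1

theorem Zb_low {b ε η : ℝ} (hb : 0 ≤ b) (hb1 : b ≤ 1) (w : (Pairs n → ℝ) × Vec n)
    (hD : ∀ a, |√(2 / (n : ℝ)) * w.2 a| ≤ η) (h : n * (Real.log 2 + b ^ 2 / 4 - ε)
      ≤ Real.log (∑ x : Cfg n, Real.exp (b / 2 * qf (skM w.1) (sv x)))) :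
    2 ^ n * Real.exp (b ^ 2 * n / 4 - (ε + η / 2) * n) ≤ Zb b (goe w) := by
  have e : Zb b (goe w) = Real.exp (b / 2 * ∑ a, √(2 / (n : ℝ)) * w.2 a)
      * ∑ x : Cfg n, Real.exp (b / 2 * qf (skM w.1) (sv x)) := by
    rw [Zb, Finset.mul_sum]
    refine Finset.sum_congr rfl fun x _ => ?_
    rw [← Real.exp_add, goe, Law.qf_add', qf_diag_sv]
    congr 1
    ring
  have h1 : |∑ a, √(2 / (n : ℝ)) * w.2 a| ≤ n * η := by
    refine (Finset.abs_sum_le_sum_abs _ _).trans ((Finset.sum_le_card_nsmul _ _ _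
      fun a _ => hD a).trans_eq ?_)
    simp
  have h2 : -(η / 2 * n) ≤ b / 2 * ∑ a, √(2 / (n : ℝ)) * w.2 a := by
    nlinarith [abs_le.1 h1, abs_nonneg (∑ a, √(2 / (n : ℝ)) * w.2 a)]
  have h3 := (Real.le_log_iff_exp_le (Finset.sum_pos (fun x _ => Real.exp_pos _)
    Finset.univ_nonempty)).1 h
  have h4 : (2 : ℝ) ^ n = Real.exp (n * Real.log 2) := by
    rw [Real.exp_nat_mul, Real.exp_log two_pos]
  rw [e, h4, ← Real.exp_add]
  refine le_trans (le_of_eq ?_) (mul_le_mul (Real.exp_le_exp.2 h2) h3 (Real.exp_pos _).le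
    (Real.exp_pos _).le)
  rw [← Real.exp_add]
  congr 1
  ring

/-! ### assembly -/

/-- the unit of a scale -/
noncomputable def un (s : ℝ) : ℝ := s ^ ((288000 : ℕ) : ℝ)⁻¹

theorem un_pow {s : ℝ} (hs : 0 ≤ s) : un s ^ 288000 = s := Real.rpow_inv_natCast_pow hs (by norm_num)

theorem un_pos {s : ℝ} (hs : 0 < s) : 0 < un s := Real.rpow_pos_of_pos hs _

theorem un_mono {s s' : ℝ} (hs : 0 ≤ s) (h : s ≤ s') : un s ≤ un s' :=
  Real.rpow_le_rpow hs h (by positivity)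

theorem un_lt {s t : ℝ} (hs : 0 ≤ s) (ht : 0 < t) (h : s < t ^ 288000) : un s < t :=
  lt_of_pow_lt_pow_left₀ 288000 ht.le (by rwa [un_pow hs])

theorem ev_sqrt (M : ℝ) : ∀ᶠ n : ℕ in atTop, M ≤ √n :=
  (Real.tendsto_sqrt_atTop.comp tendsto_natCast_atTop_atTop).eventually_ge_atTop M

theorem half_exp (K : ℕ) {a c : ℝ} (hc : 0 < c) (h : 2 * c ≤ a) : ∀ᶠ n : ℕ in atTop,
    (n : ℝ) ^ K * Real.exp (-(n * a)) ≤ Real.exp (-(c * n)) / 2 := by
  filter_upwards [ev_poly K 2 hc] with n hn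
  have h1 : Real.exp (-(n * a)) ≤ Real.exp (-(c * n)) * Real.exp (-(c * n)) := by
    rw [← Real.exp_add]
    exact Real.exp_le_exp.2 (by nlinarith [mul_le_mul_of_nonneg_left h (Nat.cast_nonneg n)])
  have h2 := mul_le_mul_of_nonneg_left h1 (show 0 ≤ (n : ℝ) ^ K by positivity)
  nlinarith [mul_le_mul_of_nonneg_right hn (Real.exp_pos (-(c * n))).le]

theorem symm_skM (g : Pairs n → ℝ) : (skM g).IsSymm := Matrix.IsSymm.ext fun i j => skM_symm g j i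

theorem psd_goe {η : ℝ} (hη : η ≤ 1) {w : (Pairs n → ℝ) × Vec n} (hJ : OpLe (skM w.1) 3)
    (hD : ∀ a, |√(2 / (n : ℝ)) * w.2 a| ≤ η) : (goe w + (4 : ℝ) • (1 : Mat n)).PosSemidef := by
  have h1 : OpLe (goe w) (3 + 1) :=
    hJ.add (opLe_diag fun a => (hD a).trans hη) (by norm_num) (by norm_num)
  refine psd_of_qf ?_ fun v => ?_
  · rw [goe, Matrix.transpose_add, Matrix.transpose_add, (symm_skM w.1).eq,
      Matrix.diagonal_transpose, Matrix.transpose_smul, Matrix.transpose_one]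
  · rw [Law.qf_add', Law.qf_smul', Law.qf_one']
    linarith [(abs_le.1 (Law.abs_qf_le (by norm_num) h1 v)).1]

/-- numerical facts on the step `h` -/
structure Nu (n I : ℕ) (b σ h ε : ℝ) : Prop where
  hn : 0 < n
  b0 : 9 / 10 ≤ b
  b1 : b < 1
  s1 : σ ≤ 1 / 10
  h0 : 0 ≤ h
  hI : h * I ≤ 3 * σ
  h1 : √h * √n ≤ 1
  h2 : h * √n ≤ 1
  e1 : 21 ≤ √n * ε
  e2 : 3 * h ≤ ε

theorem nu_of {Nw l : ℕ} {b σ ε : ℝ} (hn : 1 ≤ n) (hNw : 0 < Nw) (b0 : 9 / 10 ≤ b) (b1 : b < 1)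
    (s1 : σ ≤ 1 / 10) (hl : b / Nw * l ≤ 3 * σ) (hε : 0 < ε) (he : 21 / ε ≤ √n) :
    Nu n (l * n) b σ (b / Nw / n) ε := by
  have hn1 : (1 : ℝ) ≤ n := by exact_mod_cast hn
  have hq2 : √(n : ℝ) ≤ n := Real.sqrt_le_iff.2 ⟨by linarith, by nlinarith⟩
  have hNw1 : (1 : ℝ) ≤ Nw := by exact_mod_cast hNw
  have h0 : 0 ≤ b / Nw / n := by positivity
  have h1 : b / Nw / n * n ≤ 1 := by
    rw [div_mul_cancel₀ _ (by linarith), div_le_one (by linarith)]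
    linarith
  have h5 := (mul_le_mul_of_nonneg_left hq2 h0).trans h1
  have h6 := (div_le_iff₀ hε).1 he
  refine ⟨hn, b0, b1, s1, h0, ?_, ?_, h5, h6, ?_⟩
  · rw [Nat.cast_mul, mul_comm (l : ℝ), ← mul_assoc, div_mul_cancel₀ _ (by linarith)]
    exact hl
  · rw [← Real.sqrt_mul h0]
    exact Real.sqrt_le_one.2 h1
  · have k1 := mul_le_mul_of_nonneg_left h6 h0
    have k2 := mul_le_mul_of_nonneg_right h5 hε.le
    linarith

theorem Nu.lev {I : ℕ} {b σ h ε : ℝ} (N : Nu n I b σ h ε) {j : ℕ} (hj : j ≤ I) :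
    0 ≤ h * (j : ℕ) ∧ h * (j : ℕ) ≤ 3 * σ :=
  ⟨mul_nonneg N.h0 (Nat.cast_nonneg j),
    (mul_le_mul_of_nonneg_left (by exact_mod_cast hj) N.h0).trans N.hI⟩

/-- the good labels at the level `j` -/
def GJ (hp : ∀ n : ℕ, Mat n → Vec n → Vec n) (q : ℕ) (τ C η b h κ : ℝ) (j : ℕ) :
    Mat n → Vec n → Prop :=
  GLv hp q τ C η (un ((1 - b) ^ 2 + 6 * (h * j))) (b - h * j) (b - h * (j + 1 : ℕ)) κ

variable {hp : ∀ n : ℕ, Mat n → Vec n → Vec n} {q K I : ℕ} {L τ C η η₁ b σ h κ c cA w₀ δ : ℝ}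

theorem lev_prob (hm : MP (hp n)) (N : Nu n I b σ h (cE q τ)) (hτ : 0 < τ)
    (hat : ∀ u, 0 ≤ u → u ≤ 3 * σ → At hp q K L (un ((1 - b) ^ 2 + 6 * u)))
    (hle : ∀ u, 0 ≤ u → τ ≤ un ((1 - b) ^ 2 + 6 * u)) (hη : 0 ≤ η) (hη' : η * cB τ ≤ 1 / 6)
    (hC : 12 * (C * cB τ) ≤ √n) (hw : w₀ * (n : ℝ) ^ (-(2 / 3 : ℝ)) ≤ 1)
    (hA : ∀ lam : Vec n, Rigid w₀ lam → ∀ u t κ : ℝ, 0 ≤ u → u ≤ 3 * σ → 0 < t →
      t ^ 288000 = (1 - b) ^ 2 + 6 * u →
      ((spM (diagonal (b • lam)) 0).prod (gpi (Fin n))).real {p | ¬∃ gam z,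
        2 * (b - u) - κ ≤ gam ∧ gam ≤ 3 - κ ∧ Adm L t (AdmP.libDat b u κ gam z lam p.1 p.2) ∧
          AdmX L t (AdmP.libDat b u κ gam z lam p.1 p.2) p.1} ≤ Real.exp (-(cA * n)))
    (n1 : Real.exp (-(cA * n)) ≤ Real.exp (-(c * n)) / 2)
    (n2 : (n : ℝ) ^ K * Real.exp (-(n * τ ^ 431998)) ≤ Real.exp (-(c * n)) / 2)
    (n3 : (I + 1) * Real.exp (-(c / 4 * n)) ≤ δ)
    (a1 : (gpi (Pairs n ⊕ Fin n)).real {ω | ¬RigidM w₀ (goeM (Red.famA n) ω)} ≤ δ)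
    (a2 : (PW n).real {w | ¬ResOK (τ ^ 288000 / L) C (goe w)} ≤ δ) :
    (PW n).real {w | 2 ^ n * Real.exp (b ^ 2 * n / 4 - c / 4 * n) ≤ Zb b (goe w) ∧
      ∃ j ∈ Finset.range (I + 1), Real.exp (-(c / 4 * n)) ≤
        qP b (h * j) (GJ hp q τ C η b h κ j) (goe w)} ≤ 4 * δ := by
  have h8 : C / √n * cB τ ≤ 1 / 12 := by
    rw [div_mul_eq_mul_div, div_le_iff₀ (Real.sqrt_pos.2 (Nat.cast_pos.2 N.hn))]
    linarith
  have key := goe_levels N.hn b (c / 4 * n) (Finset.range (I + 1)) (fun j => h * j)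
    (G := GJ hp q τ C η b h κ) (fun j => mg_can hm (mp_it 3) ..)
    (fun lam => Rigid w₀ lam ∧ ∀ O, ResOK (τ ^ 288000 / L) C (JO lam O))
    (p := Real.exp (-(c * n))) (d := Real.exp (-(c / 4 * n))) (Real.exp_pos _).le (Real.exp_pos _)
    (fun lam hS a => by linarith only [(hS.1.1 a).1]) fun lam hS j hj => by
      obtain ⟨u0, u1⟩ := N.lev (Nat.lt_succ_iff.1 (Finset.mem_range.1 hj))
      refine (level_le hm (hat _ u0 u1) N.hn hτ (hle _ u0)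
        (fun a => abs_le.2 ⟨(hS.1.1 a).1, by linarith only [(hS.1.1 a).2, hw]⟩) hS.2
        (by linarith only [u1, N.b0, N.s1]) (by linarith only [u0, N.b1]) hη hη' h8 ?_
        (hA lam hS.1 _ _ κ u0 u1 (hat _ u0 u1).sm.pos (un_pow (by positivity)))).trans
        (by linarith only [n1, n2])
      rw [Nat.cast_succ, show b - h * (j + 1) - (b - h * j) = -h by ring, abs_neg,
        abs_of_nonneg N.h0]
      exact N.e2
  have k3 : Real.exp (-(c / 4 * n)) ≤ δ :=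
    (le_mul_of_one_le_left (Real.exp_pos _).le (by linarith only [Nat.cast_nonneg (α := ℝ) I])).trans n3
  have k4 : ((Finset.range (I + 1)).card : ℝ) * (Real.exp (-(c * n)) /
      (Real.exp (-(2 * (c / 4 * n))) * Real.exp (-(c / 4 * n)))) ≤ δ := by
    rw [← Real.exp_add, ← Real.exp_sub, Finset.card_range, Nat.cast_succ,
      show -(c * n) - (-(2 * (c / 4 * n)) + -(c / 4 * n)) = -(c / 4 * n) by ring]
    exact n3
  exact key.trans ((add_le_add (add_le_add k4 k3)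
    ((spec_le _ _ _).trans (add_le_add a1 a2))).trans_eq (by ring))

theorem tl_event (hm : MP (hp n)) (N : Nu n I b σ h (cE q τ)) (hτ : 0 < τ) (hτ1 : τ ≤ 1)
    (hle : ∀ u, 0 ≤ u → τ ≤ un ((1 - b) ^ 2 + 6 * u)) (hC : 0 < C) (hc : 0 < c) (e1 : η ≤ η₁)
    (e2 : η ≤ 1) (n3 : 8 * (cB τ * (2 * (1 + C + 4) + 25)) / cR τ ≤ √n)
    (a4 : ∀ s : ℝ, 0 ≤ s → s ≤ 1 → ∀ (μ : Cfg n → ℝ) (J S0 S1 : Mat n) (D : Vec n) (B : Set (Vec n)),
      IsProb μ → J.IsSymm → OpLe J 3 → (∀ a, |D a| ≤ η₁) → S0 * S0ᵀ = J + (4 : ℝ) • (1 : Mat n) →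
      S1 * S1ᵀ = J + Matrix.diagonal D + (4 : ℝ) • (1 : Mat n) → MeasurableSet B →
      PY μ S1 s B ≤ Real.exp (-(c / 4 * n)) → PY μ S0 s B ≤ Real.exp (-(c / 4 / 4 * n)))
    {w : (Pairs n → ℝ) × Vec n} (b2 : ∀ a, |√(2 / (n : ℝ)) * w.2 a| ≤ η) (b3 : nv (goe w).diag ≤ 4)
    (b6 : OpLe (skM w.1) 3) (b7 : ∀ j ∈ Finset.range (I + 1),
      qP b (h * j) (GJ hp q τ C η b h κ j) (goe w) < Real.exp (-(c / 4 * n)))
    (S0 : Mat n) (hS0 : S0 * S0ᵀ = skM w.1 + (4 : ℝ) • (1 : Mat n)) :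
    ∃ G, TL (1 / (2 * cB τ)) (36 * cB τ) (cR τ) (1 + C + 4) b h (c / 4 / 4) I (skM w.1) S0 G
      fun j y => tm (hp n ((b - h * j) • goe w - κ • (1 : Mat n)) y) := by
  have hB0 : 0 < cB τ := one_pos.trans_le (one_le_cB hτ hτ1)
  have hR := cR_pos hτ
  have hn : (0 : ℝ) < n := Nat.cast_pos.2 N.hn
  have hq : 0 < √(n : ℝ) := Real.sqrt_pos.2 hn
  have hD : DiagOK η 4 (goe w) := ⟨by rw [diag_goe]; exact b2, b3⟩
  rw [← off_goe w]
  refine tl_of hm (mp_it 3) (fun J => it_zero J 3) (B := cB τ) (a := √n * cE q τ)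
    (β := √n * (cE q τ * τ⁻¹ ^ q)) (ρ := fun j => √n * un ((1 - b) ^ 2 + 6 * (h * j)) ^ 252000)
    hD (by rwa [off_goe]) (fun j hj => ?_) (mul_pos (by linarith only [hc]) hn) N.h0 N.b1.le
    (by linarith only [N.hI, N.s1, N.b0]) (mul_pos hR hq)
    (mul_pos hq (pow_pos (hτ.trans_le (hle _ (N.lev (Nat.zero_le _)).1)) _)) (fun j => ?_)
    (by linarith only [N.h1, N.e1]) hB0.le (by linarith only [hC]) ?_
  · obtain ⟨u0, u1⟩ := N.lev hj
    rw [off_goe]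
    refine a4 _ u0 (by linarith only [u1, N.s1]) _ _ S0 (rt (goe w + (4 : ℝ) • (1 : Mat n))) _ _
      (gM_isProb _ _) (symm_skM _) b6 (fun a => (b2 a).trans e1) hS0 (rt_mul (psd_goe e2 b6 b2))
      ((mg_can hm (mp_it 3) ..).ms (Fib.MM.const _) measurable_id).compl ?_
    have g1 : gM (b • goe w) 0 = gM (b • skM w.1) 0 := by
      have := gM_start b (skM w.1) 0 fun a => √(2 / (n : ℝ)) * w.2 a
      rw [add_zero, add_zero] at this
      unfold goe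
      exact this
    rw [← g1]
    exact (b7 j (Finset.mem_range.2 (Nat.lt_succ_iff.2 hj))).le
  · have u0 : 0 ≤ h * (j : ℕ) := mul_nonneg N.h0 (Nat.cast_nonneg j)
    have u1 : h * (j : ℕ) ≤ h * (j + 1 : ℕ) :=
      mul_le_mul_of_nonneg_left (by exact_mod_cast Nat.le_succ j) N.h0
    have g1 := mul_le_mul_of_nonneg_left (pow_le_pow_left₀ (hτ.le.trans (hle _ u0))
      (un_mono (s := (1 - b) ^ 2 + 6 * (h * (j : ℕ))) (s' := (1 - b) ^ 2 + 6 * (h * (j + 1 : ℕ)))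
        (by linarith only [u0, sq_nonneg (1 - b)]) (by linarith only [u1])) 252000) hq.le
    have g2 := mul_le_mul_of_nonneg_left (pow_le_pow_left₀ hτ.le (hle _ (u0.trans u1)) 252000) hq.le
    have g3 := mul_le_mul_of_nonneg_left (cE_mul q hτ hτ1) hq.le
    have g4 : 0 < √(n : ℝ) * τ ^ 252000 := mul_pos hq (pow_pos hτ _)
    linarith only [g1, g2, g3, g4]
  · rw [div_le_iff₀ hR] at n3
    have g1 := mul_le_mul_of_nonneg_left
      (show 2 * (1 + C + 4) + 5 * h * √n + 20 * √h * √n ≤ 2 * (1 + C + 4) + 25 by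
        linarith only [N.h1, N.h2]) hB0.le
    linarith only [n3, g1]

theorem b_facts (hb : 0 < b) (hσ : 0 < σ) (hσ1 : σ ≤ 1 / 10) (h : b ^ 2 + σ ^ 2 = 1) :
    9 / 10 ≤ b ∧ b < 1 ∧ b ^ 2 ≤ 1 ∧ 0 < (1 - b) ^ 2 ∧ (1 - b) ^ 2 ≤ σ := by
  have hb1 : b < 1 := by nlinarith
  have : 1 - b ≤ σ := by nlinarith
  exact ⟨by linarith, hb1, by nlinarith, pow_pos (sub_pos.2 hb1) 2, by nlinarith⟩

/-- **(E6)** the no-outlier input of the endgame -/
theorem tlStmt_of (h6 : D6Stmt) (hT : T1Stmt) (hr : RefOK hp) :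
    TLStmt fun n M y => tm (hp n M y) := by
  obtain ⟨L, hL, σA, hσA, hA⟩ := AdmP.adm_lib'
  obtain ⟨q, K, t₀, ht₀, hat⟩ := exists_at h6 T1C.ceStmt hT hr hL
  refine ⟨min σA (min (1 / 10) (t₀ ^ 288000 / 20)), by positivity, fun b σ hb hσ hσ0 hbσ => ?_⟩
  obtain ⟨cA, hcA, hA⟩ := hA b σ hb hσ (hσ0.trans (min_le_left _ _)) hbσ
  have hσ1 : σ ≤ 1 / 10 := hσ0.trans ((min_le_right _ _).trans (min_le_left _ _))
  have hσ2 : σ ≤ t₀ ^ 288000 / 20 := hσ0.trans ((min_le_right _ _).trans (min_le_right _ _))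
  obtain ⟨hb2, hb1, hb3, hs0, hs1⟩ := b_facts hb hσ hσ1 hbσ
  have hat' : ∀ u, 0 ≤ u → u ≤ 3 * σ → At hp q K L (un ((1 - b) ^ 2 + 6 * u)) := fun u u0 u1 =>
    hat _ (un_pos (by positivity)) (un_lt (by positivity) ht₀ (by linarith only [hs1, u1, hσ2, hσ]))
  have hle : ∀ u, 0 ≤ u → un ((1 - b) ^ 2) ≤ un ((1 - b) ^ 2 + 6 * u) := fun u u0 =>
    un_mono hs0.le (by linarith only [u0])
  have hτ := un_pos hs0
  have hτ1 : un ((1 - b) ^ 2) ≤ 1 := (hle 0 le_rfl).trans (hat' 0 le_rfl (by positivity)).sm.one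
  clear hat hσ2 hσ0
  generalize un ((1 - b) ^ 2) = τ at hle hτ hτ1
  have hB := one_le_cB hτ hτ1
  have hB0 : 0 < cB τ := one_pos.trans_le hB
  obtain ⟨C, hC, hres⟩ := Res.etl_whp (d := τ ^ 288000 / L) (by positivity)
  obtain ⟨c, hc, hc1, hc2⟩ : ∃ c > (0 : ℝ), 2 * c ≤ cA ∧ 2 * c ≤ τ ^ 431998 :=
    ⟨min cA (τ ^ 431998) / 2, by positivity, by linarith only [min_le_left cA (τ ^ 431998)],
      by linarith only [min_le_right cA (τ ^ 431998)]⟩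
  obtain ⟨η₁, hη₁, hdiag⟩ := diag_unif (c := c / 4) (by positivity)
  obtain ⟨η, hη, e1, e2, e3, e4⟩ : ∃ η > (0 : ℝ), η ≤ η₁ ∧ η ≤ 1 ∧ η ≤ c / 4 ∧ η * cB τ ≤ 1 / 6 :=
    ⟨min (min η₁ 1) (min (c / 4) (1 / 6 / cB τ)), by positivity,
      (min_le_left _ _).trans (min_le_left _ _), (min_le_left _ _).trans (min_le_right _ _),
      (min_le_right _ _).trans (min_le_left _ _),
      (le_div_iff₀ hB0).1 ((min_le_right _ _).trans (min_le_right _ _))⟩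
  refine ⟨1 / (2 * cB τ), by positivity, 36 * cB τ, by linarith only [hB], cR τ,
    cR_pos hτ, 1 + C + 4, c / 4 / 4, 1, by positivity,
    fun Nw l hNw hl κ _ δ hδ => ?_⟩
  have hδ8 : 0 < δ / 8 := by positivity
  obtain ⟨w₀, hw₀, hk, hrig⟩ := rigid_fix hδ8
  filter_upwards [hA w₀ hw₀ hk, hrig, hres _ hδ8, hdiag, PW_diag hη hδ8, PW_nv hδ8,
    PW_fst (G0_op 1 one_pos) hδ8, PW_fst (Law.lowB hb3 (show 0 < c / 8 by positivity)) hδ8,
    ev_sqrt (12 * (C * cB τ)), ev_sqrt (21 / cE q τ),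
    ev_sqrt (8 * (cB τ * (2 * (1 + C + 4) + 25)) / cR τ), half_exp 0 hc hc1, half_exp K hc hc2,
    ev_poly 1 (8 * (l + 1) / δ) (show 0 < c / 4 by positivity), eventually_ge_atTop 1]
    with n a1 a2 a3 a4 a5 a6 a7 a8 n1 n2 n3 n4 n5 n6 hn
  have N := nu_of hn hNw hb2 hb1 hσ1 hl (cE_pos q hτ) n2
  have hn1 : (1 : ℝ) ≤ n := by exact_mod_cast hn
  simp only [pow_one] at n6 ⊢
  rw [pow_zero, one_mul, mul_comm] at n4
  have k1 : (((l * n : ℕ) : ℝ) + 1) * Real.exp (-(c / 4 * n)) ≤ δ / 8 := by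
    rw [div_mul_eq_mul_div, div_mul_eq_mul_div, div_le_one hδ] at n6
    have := mul_le_mul_of_nonneg_right hn1 (Real.exp_pos (-(c / 4 * n))).le
    push_cast
    linarith only [n6, this]
  have k5 := lev_prob (κ := κ) (hr.1 n) N hτ hat' hle hη.le e4 n1 a2.1 a1 n4 n5 k1 a2.2 a3
  refine le_trans (measureReal_mono (fun w hw => ?_) (measure_ne_top _ _))
    ((measureReal_union_le _ _).trans (add_le_add ((measureReal_union_le _ _).trans (add_le_add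
      ((measureReal_union_le _ _).trans (add_le_add ((measureReal_union_le _ _).trans
        (add_le_add k5 a5)) a6)) a7)) a8)) |>.trans (le_of_eq (by ring))
  by_contra hcon
  simp only [Set.mem_union, Set.mem_ofPred_eq, not_or, not_not, not_and, not_exists, not_le,
    not_lt] at hcon
  obtain ⟨⟨⟨⟨b1, b2⟩, b3⟩, b4⟩, b5⟩ := hcon
  have k6 := mul_le_mul_of_nonneg_right e3 (Nat.cast_nonneg (α := ℝ) n)
  exact hw (tl_event (hr.1 n) N hτ hτ1 hle hC hc e1 e2 n3 a4 b2 b3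
    (b4.monoN (by norm_num) (by norm_num)) (b1 (le_trans (mul_le_mul_of_nonneg_left
      (Real.exp_le_exp.2 (by linarith only [k6])) (by positivity)) (Zb_low hb.le hb1.le w b2 b5))))

/-- the Picard iterates are reference points -/
theorem refOK_it (h6 : D6Stmt) (r : ℕ → ℕ) (hr : ∀ n, n ≤ r n) :
    RefOK fun n J y => it J y (r n + 3) := by
  refine ⟨fun n => mp_it _, (ev_sm.and h6).mono fun L t _ H n S O hA hG => ?_⟩
  obtain ⟨hs, H⟩ := H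
  have hO := H n S O hA hG
  refine ⟨(hO.stay _).trans (mul_le_mul_of_nonneg_left (hs.pw (by norm_num)) (Real.sqrt_nonneg _)),
    (hO.res (r n)).trans ?_⟩
  have h1 : t ≤ 1 / 2 := by linarith [hs.c1 (C := 2) (by norm_num)]
  have h2 : t ^ (399000 + 1000 * r n) ≤ (1 / 2) ^ n :=
    (hs.pw (by have := hr n; omega)).trans (pow_le_pow_left₀ hs.pos.le h1 n)
  have h3 : √(n : ℝ) ≤ 2 ^ n := by
    have h4 : (n : ℝ) + 1 ≤ 2 ^ n := by exact_mod_cast Nat.lt_two_pow_self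
    exact Real.sqrt_le_iff.2 ⟨by positivity, by nlinarith [Nat.cast_nonneg (α := ℝ) n]⟩
  refine (mul_le_mul h3 h2 (hs.p0 _).le (by positivity)).trans_eq ?_
  rw [← mul_pow]
  norm_num

/-- (E6) for the Picard point of depth `n + 3` -/
theorem tlStmt_it (h6 : D6Stmt) (hT : T1Stmt) : TLStmt fun n M y => tm (it M y (n + 3)) :=
  tlStmt_of h6 hT (refOK_it h6 (fun n => n) fun _ => le_rfl)

end Vale.Agent.N150.ETL
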