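import Vale.Agent.N150.Stein4
import Vale.Agent.N150.ECDef

/-! P150, block T1, lemma G4 (Stein lemma with a clipped reference point), matrix form. -/

open MeasureTheory ProbabilityTheory Real Set Filter Topology
open scoped Matrix
open Vale.Agent.P150 Vale.Agent.P150.F Vale.Agent.N150.EC

namespace Vale.Agent.N150.Stein

variable {p n : ℕ}

theorem curry_mp (ι κ : Type*) [Fintype ι] [Fintype κ] :
    MeasurePreserving (MeasurableEquiv.curry ι κ ℝ) (gpi (ι × κ))
      (Measure.pi fun _ : ι => gpi κ) := by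
  refine ⟨(MeasurableEquiv.curry ι κ ℝ).measurable, ?_⟩
  have h := Measure.infinitePi_map_curry (fun (_ : ι) (_ : κ) => gaussianReal 0 1)
  simpa only [Measure.infinitePi_eq_pi] using h

/-- columns to rows -/
theorem swap_mp (ι κ : Type*) [Fintype ι] [Fintype κ] :
    MeasurePreserving (fun (g : ι → κ → ℝ) r l => g l r) (Measure.pi fun _ : ι => gpi κ)
      (Measure.pi fun _ : κ => gpi ι) := by
  have h2 := measurePreserving_piCongrLeft (fun _ : κ × ι => gaussianReal 0 1)
    (Equiv.prodComm ι κ)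
  have h := ((curry_mp κ ι).comp h2).comp ((curry_mp ι κ).symm _)
  have e : (fun (g : ι → κ → ℝ) r l => g l r) = (MeasurableEquiv.curry κ ι ℝ ∘
      MeasurableEquiv.piCongrLeft (fun _ : κ × ι => ℝ) (Equiv.prodComm ι κ)) ∘
      (MeasurableEquiv.curry ι κ ℝ).symm := by
    funext g r l
    simp [MeasurableEquiv.curry, MeasurableEquiv.piCongrLeft, Equiv.piCongrLeft]
  rw [e]
  exact h

/-- the rows in the gauge `x = 1` -/
def rows (x : Vec n) (g : Fin p → Vec n) : Fin n → Fin p → ℝ := fun r l => x r * g l r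

theorem rows_mp {x : Vec n} (hx : ∀ r, x r ^ 2 = 1) :
    MeasurePreserving (rows (p := p) x) (Measure.pi fun _ : Fin p => gpi (Fin n)) (gr n p) := by
  have h := measurePreserving_pi (fun _ : Fin n => gpi (Fin p)) (fun _ : Fin n => gpi (Fin p))
    (f := fun r γ l => x r * γ l) fun r => by
      rcases sq_eq_one_iff.1 (hx r) with h | h
      · simp only [h, one_mul]; exact MeasurePreserving.id (gpi (Fin p))
      · simp only [h, neg_mul, one_mul]; exact neg_mp (p := p)
  exact h.comp (swap_mp (Fin p) (Fin n))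

/-- the matrix `VW(h, h)` -/
noncomputable def VV (h : Vec n) : Mat n :=
  Matrix.diagonal (fun r => dv h r - wb h) +
    (2 / (n * wb h)) • Matrix.vecMulVec (tm h) fun r => tm h r * dv h r

/-- the columns `x, g_1, …, g_p` -/
def cols (x : Vec n) (g : Fin p → Vec n) : Fin (p + 1) → Vec n := Fin.cons x g

theorem ip_VV (h u v : Vec n) : ip u (VV h *ᵥ v) = ∑ r, u r * v r * dv h r -
    wb h * ∑ r, u r * v r +
      2 / (n * wb h) * (∑ r, u r * tm h r) * ∑ r, v r * (tm h r * dv h r) := by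
  have e : ∀ r, (VV h *ᵥ v) r = (dv h r - wb h) * v r +
      2 / (n * wb h) * (tm h r * ∑ r, v r * (tm h r * dv h r)) := by
    intro r
    simp only [VV, Matrix.add_mulVec, Matrix.smul_mulVec, Pi.add_apply, Pi.smul_apply,
      Matrix.mulVec_diagonal, Matrix.vecMulVec_mulVec, smul_eq_mul, dotProduct,
      MulOpposite.smul_eq_mul_unop, MulOpposite.unop_op, mul_comm (v _)]
  simp only [ip, e]
  rw [Finset.mul_sum, mul_assoc, Finset.sum_mul, Finset.mul_sum, ← Finset.sum_sub_distrib,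
    ← Finset.sum_add_distrib]
  exact Finset.sum_congr rfl fun r _ => by ring

theorem ip_VV_eq (hn : 0 < n) {x : Vec n} (hx : ∀ r, x r ^ 2 = 1) {cl : ℝ → ℝ} {θ : ℝ}
    (hc : IsClip cl θ) (g : Fin p → Vec n) (al : Fin (p + 1) → ℝ) (i j : Fin (p + 1)) :
    ip (cols x g i) (VV (fun r => cl (∑ l, al l * cols x g l r)) *ᵥ cols x g j) =
      n * QE cl (rows x g) al i j := by
  have hn' : (n : ℝ) ≠ 0 := (Nat.cast_pos.2 hn).ne'
  have h1 : ∀ r l, ht (rows x g r) l = x r * cols x g l r := by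
    intro r l
    induction l using Fin.cases with
    | zero => simp [cols, ← pow_two, hx r]
    | succ l => simp [cols, rows]
  have h2 : ∀ r, tanh (cl (hh al (rows x g r))) =
      x r * tanh (cl (∑ l, al l * cols x g l r)) := by
    intro r
    have : hh al (rows x g r) = x r * ∑ l, al l * cols x g l r := by
      simp only [hh, h1, Finset.mul_sum]
      exact Finset.sum_congr rfl fun l _ => by ring
    rw [this]
    rcases sq_eq_one_iff.1 (hx r) with h | h
    · simp [h]
    · simp [h, hc.odd, tanh_neg]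
  set h : Vec n := fun r => cl (∑ l, al l * cols x g l r) with hh'
  have h3 : ∀ r, tanh (cl (hh al (rows x g r))) = x r * tm h r := h2
  have x0 : ∀ r, cols x g 0 r = x r := fun r => rfl
  have eA : ∀ i j, em (rows x g) al i j (fun t => fc (cl t)) =
      (∑ r, cols x g i r * cols x g j r * dv h r - ∑ r, cols x g i r * cols x g j r) / n := by
    intro i j
    rw [em, ← Finset.sum_sub_distrib]
    refine congrArg (· / (n : ℝ)) (Finset.sum_congr rfl fun r _ => ?_)
    have : dv h r = 1 - tm h r ^ 2 := rfl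
    rw [fc, h1, h1, h3, this]
    linear_combination (-(cols x g i r * cols x g j r * tm h r ^ 2) * (x r ^ 2 + 1)) * hx r
  have eB : (em (rows x g) al i j fun _ => 1) = (∑ r, cols x g i r * cols x g j r) / n := by
    refine congrArg (· / (n : ℝ)) (Finset.sum_congr rfl fun r _ => ?_)
    rw [h1, h1]
    linear_combination (cols x g i r * cols x g j r) * hx r
  have eC : em (rows x g) al 0 0 (fun t => fc (cl t)) = wb h - 1 := by
    rw [eA, wb]
    simp only [x0, ← pow_two, hx, one_mul, Finset.sum_const, Finset.card_univ, Fintype.card_fin,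
      nsmul_eq_mul, mul_one]
    field_simp
  have eD : em (rows x g) al i 0 (fun t => tanh (cl t)) = (∑ r, cols x g i r * tm h r) / n := by
    refine congrArg (· / (n : ℝ)) (Finset.sum_congr rfl fun r _ => ?_)
    beta_reduce
    rw [h1, h3, ht_zero]
    linear_combination (cols x g i r * tm h r) * hx r
  have eE : em (rows x g) al j 0 (fun t => fe (cl t)) =
      (∑ r, cols x g j r * (tm h r * dv h r)) / n := by
    refine congrArg (· / (n : ℝ)) (Finset.sum_congr rfl fun r _ => ?_)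
    have : dv h r = 1 - tm h r ^ 2 := rfl
    beta_reduce
    rw [fe, h1, h3, ht_zero, this]
    linear_combination (cols x g j r * tm h r * (1 - tm h r ^ 2 - x r ^ 2 * tm h r ^ 2)) * hx r
  rw [QE, QQ, eA i j, eB, eC, eD, eE, ip_VV, add_sub_cancel]
  by_cases hw : wb h = 0
  · simp only [hw, mul_zero, div_zero, zero_mul]; field_simp; ring
  · field_simp; ring

/-- **G4**: the compression of `VW(hc, hc)` on the columns, `hc = clip (∑ al_l G_l)` -/
theorem G4 (p : ℕ) : ∃ C : ℝ, 1 ≤ C ∧ ∀ (n : ℕ) (x : Vec n) (cl : ℝ → ℝ) (θ σ a ep : ℝ), 0 < n →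
    (∀ r, x r ^ 2 = 1) → IsClip cl θ → 0 < σ → σ ≤ θ → C * θ ^ 2 ≤ 1 → 0 < ep → ep ≤ 1 → a ≤ 1 →
    exp (-(θ ^ 2 / (8 * σ ^ 2))) ≤ θ ^ 2 * ep →
    ∃ B : Set (Fin p → Vec n), MeasurableSet B ∧
      (Measure.pi fun _ : Fin p => gpi (Fin n)).real B ≤
        C * (1 + 2 * σ * √n / (θ ^ 2 * ep)) ^ (p + 1) * exp (-(n * ep ^ 2)) ∧
      ∀ g ∉ B, ∀ al : Fin (p + 1) → ℝ, |al 0| ≤ a → ∑ l, al l ^ 2 ≤ σ ^ 2 → ∀ i j,
        |ip (cols x g i) (VV (fun r => cl (∑ l, al l * cols x g l r)) *ᵥ cols x g j)| ≤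
          C * n * (θ ^ 2 * ep + σ * a ^ 3 + if i = 0 ∧ j = 0 then a ^ 2 else 0) := by
  have hk := one_le_kp (p := p)
  have hK : 1 ≤ KK p := by rw [KK]; nlinarith
  have hp : (0 : ℝ) ≤ 10 * (p + 1) ^ 2 := by positivity
  have hK2 : KK p ≤ KK p ^ 2 := by nlinarith
  refine ⟨19 * KK p ^ 2 + 5000 + 10 * (p + 1) ^ 2, by nlinarith, ?_⟩
  intro n x cl θ σ a ep hn hx hc hσ hσθ hθ h0 h1 ha hcl
  have hθ0 : 0 < θ := hσ.trans_le hσθ
  have key := QE_tail (p := p) hn hc hσ hσθ (by nlinarith [sq_nonneg θ]) h0 h1 ha hcl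
  set S := {ω : Fin n → Fin p → ℝ | ∃ al : Vec (p + 1), |al 0| ≤ a ∧ ∑ l, al l ^ 2 ≤ σ ^ 2 ∧ ∃ i j,
      19 * KK p ^ 2 * θ ^ 2 * ep + 5000 * (σ * a ^ 3 + if i = 0 ∧ j = 0 then a ^ 2 else 0) <
        |QE cl ω al i j|} with hS
  have hm := measurableSet_toMeasurable (gr n p) S
  refine ⟨rows x ⁻¹' toMeasurable (gr n p) S, (rows_mp hx).measurable hm, ?_, ?_⟩
  · rw [(rows_mp hx).measureReal_preimage hm.nullMeasurableSet, measureReal_def,
      measure_toMeasurable, ← measureReal_def]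
    refine key.trans ?_
    gcongr
    nlinarith
  · intro g hg al g1 g2 i j
    have hn' : (0 : ℝ) < n := Nat.cast_pos.2 hn
    have t : ¬_ := fun h => hg (subset_toMeasurable _ _ ⟨al, g1, g2, i, j, h⟩)
    have ha0 : 0 ≤ a := (abs_nonneg _).trans g1
    rw [ip_VV_eq hn hx hc, abs_mul, abs_of_pos hn', mul_comm _ (n : ℝ), mul_assoc]
    refine mul_le_mul_of_nonneg_left ((not_lt.1 t).trans ?_) hn'.le
    have u1 : 0 ≤ θ ^ 2 * ep := by positivity
    have u2 : 0 ≤ σ * a ^ 3 + if i = 0 ∧ j = 0 then a ^ 2 else 0 := by positivity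
    rw [add_assoc (θ ^ 2 * ep)]
    set v := σ * a ^ 3 + if i = 0 ∧ j = 0 then a ^ 2 else 0
    nlinarith [mul_nonneg hp u1, mul_nonneg hp u2, mul_nonneg (sq_nonneg (KK p)) u2]

end Vale.Agent.N150.Stein
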