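import Vale.Agent.N150.X3b

set_option linter.all false

/-! Base induction of block T1, part c: the frame side. -/

open Matrix Finset

namespace Vale.Agent.N150.X3

open Vale.Agent.P150 Vale.Agent.P150.F Vale.Agent.N150.EC Vale.Agent.N150.TG Sc

variable {n : ℕ} {κ : Type} [Fintype κ]

/-- resolvent multiplier -/
noncomputable def gz (lam : Vec n) (z : ℝ) : Vec n := fun a => (z - lam a)⁻¹
/-- square root of `z - lam` -/
noncomputable def sn (lam : Vec n) (z : ℝ) : Vec n := fun a => √(z - lam a)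
/-- the multiplier `w - (z - lam)⁻¹` -/
noncomputable def kz (lam : Vec n) (w z : ℝ) : Vec n := fun a => w - (z - lam a)⁻¹

/-- the events on the frame side -/
structure FD (S : Sc) (lam : Vec n) (z0 w0 : ℝ) (xt h0 : Vec n) (g Fm : κ → Vec n) : Prop where
  hn : 0 < n
  card : (Fintype.card κ : ℝ) ≤ S.K
  pos : ∀ a, 0 < z0 - lam a
  up : ∀ a, z0 - lam a ≤ S.K
  low : ∀ a, (z0 - lam a)⁻¹ ≤ S.B 1 (-8)
  w1 : 1 / 2 ≤ w0
  w2 : w0 ≤ 1
  T0 : 0 < nn (gz lam z0) ^ 2
  T1 : (nn (gz lam z0) ^ 2)⁻¹ ≤ S.B 1 4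
  hF : ∀ l, Fm l = 0 ∨ S.V 1 6 (Fm l - g l)
  g0 : ∀ l, S.V 1 0 (g l)
  g1 : ∀ l, S.V 1 (-2) (gz lam z0 * g l)
  g2 : ∀ l, S.V 1 0 ((fun a => (√(z0 - lam a))⁻¹) * g l)
  g3 : ∀ i l, S.O 2 4 (ipn (g i) (kz lam w0 z0 * g l))
  g4 : ∀ l, S.O 2 0 (ipn xt (kz lam w0 z0 * g l))
  x0 : S.V 0 0 xt
  x1 : S.V 1 (-6) (gz lam z0 * xt)
  h1 : S.V 1 2 h0
  h2 : ∀ l, ipn (Fm l) h0 = 0

/-- profile of a frame vector -/
structure Prof (S : Sc) (lam : Vec n) (z0 : ℝ) (xt : Vec n) (Fm : κ → Vec n) (p : ℕ) (j : ℤ)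
    (v : Vec n) : Prop where
  l2 : S.V p j v
  nN : S.V p (j + 2) (sn lam z0 * v)
  f : ∀ l, S.O p (j + 6) (ipn (Fm l) v)
  x : S.O p (j + 2) (ipn xt v)

/-- Gaussian like frame vector -/
def Gl (S : Sc) (g : κ → Vec n) (p : ℕ) (j : ℤ) (v : Vec n) : Prop :=
  ∃ be : κ → ℝ, (∀ l, S.O p j (be l)) ∧ S.V p (j + 6) (v - lc g be)

variable {S : Sc} {lam : Vec n} {z0 w0 : ℝ} {xt h0 : Vec n} {g Fm : κ → Vec n}

namespace Prof

variable {p q : ℕ} {j k : ℤ} {u v : Vec n}

theorem mono (h : Prof S lam z0 xt Fm p j v) (hp : p ≤ q) (hj : k ≤ j) :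
    Prof S lam z0 xt Fm q k v :=
  ⟨h.l2.mono hp hj, h.nN.mono hp (by omega), fun l => (h.f l).mono hp (by omega),
    h.x.mono hp (by omega)⟩

theorem sm {c : ℕ} (h : Prof S lam z0 xt Fm p j v) (hs : S.Sm c) (m : ℕ) (hp : p ≤ q + c * m)
    (hj : k + m ≤ j) : Prof S lam z0 xt Fm q k v :=
  ⟨h.l2.sm hs m hp hj, h.nN.sm hs m hp (by omega), fun l => (h.f l).sm hs m hp (by omega),
    h.x.sm hs m hp (by omega)⟩

theorem congr (h : Prof S lam z0 xt Fm p j v) (e : u = v) : Prof S lam z0 xt Fm p j u := e ▸ h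

theorem add (hu : Prof S lam z0 xt Fm p j u) (hv : Prof S lam z0 xt Fm q k v) :
    Prof S lam z0 xt Fm (max p q + 1) (min j k) (u + v) :=
  ⟨hu.l2.add hv.l2, ((hu.nN.add hv.nN).mono le_rfl (by omega)).congr (mul_add _ _ _),
    fun l => (((hu.f l).add (hv.f l)).mono le_rfl (by omega)).congr (ipn_add_right _ _ _),
    ((hu.x.add hv.x).mono le_rfl (by omega)).congr (ipn_add_right _ _ _)⟩

theorem smul {c : ℝ} (hc : S.O q k c) (hv : Prof S lam z0 xt Fm p j v) :
    Prof S lam z0 xt Fm (q + p) (k + j) (c • v) :=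
  ⟨V.smul hc hv.l2, ((V.smul hc hv.nN).mono le_rfl (by omega)).congr (mul_smul_comm _ _ _),
    fun l => ((hc.mul (hv.f l)).mono le_rfl (by omega)).congr (ipn_smul_right _ _ _),
    ((hc.mul hv.x).mono le_rfl (by omega)).congr (ipn_smul_right _ _ _)⟩

theorem neg (hv : Prof S lam z0 xt Fm p j v) : Prof S lam z0 xt Fm p j (-v) :=
  ((smul (O.one_le (x := -1) (by simp)) hv).mono (by omega) (by omega)).congr (by simp)

theorem sub (hu : Prof S lam z0 xt Fm p j u) (hv : Prof S lam z0 xt Fm q k v) :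
    Prof S lam z0 xt Fm (max p q + 1) (min j k) (u - v) :=
  (hu.add hv.neg).congr (sub_eq_add_neg u v)

theorem zero : Prof S lam z0 xt Fm p j 0 :=
  ⟨V.zero, V.zero.congr (mul_zero _), fun l => O.zero.congr (ipn_zero_right _),
    O.zero.congr (ipn_zero_right _)⟩

theorem sum {f : κ → Vec n} (hc : (Fintype.card κ : ℝ) ≤ S.K)
    (h : ∀ l, Prof S lam z0 xt Fm p j (f l)) : Prof S lam z0 xt Fm (p + 1) j (∑ l, f l) :=
  ⟨V.sum hc fun l => (h l).l2, (V.sum hc fun l => (h l).nN).congr (Finset.mul_sum _ _ _),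
    fun i => (O.sum hc fun l => (h l).f i).congr (ipn_sum_right _ _ _),
    (O.sum hc fun l => (h l).x).congr (ipn_sum_right _ _ _)⟩

end Prof

namespace Gl

variable {p q : ℕ} {j k : ℤ} {u v : Vec n}

theorem mono (h : Gl S g p j v) (hp : p ≤ q) (hj : k ≤ j) : Gl S g q k v := by
  obtain ⟨be, h1, h2⟩ := h
  exact ⟨be, fun l => (h1 l).mono hp hj, h2.mono hp (by omega)⟩

theorem sm {c : ℕ} (h : Gl S g p j v) (hs : S.Sm c) (m : ℕ) (hp : p ≤ q + c * m)
    (hj : k + m ≤ j) : Gl S g q k v := by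
  obtain ⟨be, h1, h2⟩ := h
  exact ⟨be, fun l => (h1 l).sm hs m hp hj, h2.sm hs m hp (by omega)⟩

theorem add (hu : Gl S g p j u) (hv : Gl S g q k v) :
    Gl S g (max p q + 1) (min j k) (u + v) := by
  obtain ⟨be, h1, h2⟩ := hu
  obtain ⟨ga, g1, g2⟩ := hv
  refine ⟨be + ga, fun l => (h1 l).add (g1 l), ((h2.add g2).mono le_rfl (by omega)).congr ?_⟩
  rw [lc_add]
  abel

end Gl

/-- multipliers dominated by twice the reference resolvent -/
def Dom (lam : Vec n) (z0 : ℝ) (γ : Vec n) : Prop := ∀ a, |γ a| ≤ 2 * (z0 - lam a)⁻¹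

namespace FD

variable (H : FD S lam z0 w0 xt h0 g Fm)
include H

theorem npos : (0 : ℝ) < n := by exact_mod_cast H.hn

theorem dom0 : Dom lam z0 (gz lam z0) := fun a => by
  have := inv_pos.2 (H.pos a)
  unfold gz
  rw [abs_of_pos this]
  linarith

theorem gz0_O (a : Fin n) : S.O 1 (-8) (gz lam z0 a) :=
  O.of_nonneg (inv_pos.2 (H.pos a)).le (H.low a)

theorem dom_O {γ : Vec n} (hγ : Dom lam z0 γ) (a : Fin n) : S.O 2 (-8) (γ a) :=
  (hγ a).trans (O.two.mul (H.gz0_O a)).le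

theorem dom_V {γ v : Vec n} {p : ℕ} {j : ℤ} (hγ : Dom lam z0 γ) (h : S.V p j (gz lam z0 * v)) :
    S.V (p + 1) j (γ * v) := by
  refine ((V.smul O.two h).mono (by omega) (by omega)).of_abs_le fun a => ?_
  simp only [Pi.mul_apply, Pi.smul_apply, smul_eq_mul, abs_mul, abs_two, gz]
  rw [abs_of_pos (inv_pos.2 (H.pos a)), ← mul_assoc]
  exact mul_le_mul_of_nonneg_right (hγ a) (abs_nonneg _)

theorem sn_O (a : Fin n) : S.O 1 0 (sn lam z0 a) := by
  refine O.of_sq (O.of_nonneg (sq_nonneg _) ?_)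
  unfold sn
  rw [Real.sq_sqrt (H.pos a).le]
  exact (H.up a).trans (B_one.symm.le.trans (B_mono (by omega) (by omega)))

theorem isn_O (a : Fin n) : S.O 1 (-4) (√(z0 - lam a))⁻¹ := by
  refine O.of_sq (O.of_nonneg (sq_nonneg _) ?_)
  rw [inv_pow, Real.sq_sqrt (H.pos a).le]
  exact (H.low a).trans (B_mono (by omega) (by omega))

theorem sn_mul_inv (a : Fin n) : sn lam z0 a * (z0 - lam a)⁻¹ = (√(z0 - lam a))⁻¹ := by
  unfold sn
  have h1 := Real.sqrt_pos.2 (H.pos a)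
  have h2 := Real.mul_self_sqrt (H.pos a).le
  have h3 := (H.pos a).ne'
  field_simp
  linarith

theorem w0_O : S.O 0 0 w0 := O.one_le (abs_le.2 ⟨by linarith [H.w1], H.w2⟩)

theorem F_V (l : κ) : S.V 2 0 (Fm l) := by
  rcases H.hF l with h | h
  · exact V.zero.congr h
  · exact ((h.add (H.g0 l)).mono (by omega) (by omega)).congr (by abel)

theorem gF_V (l : κ) : S.V 3 (-2) (gz lam z0 * Fm l) := by
  rcases H.hF l with h | h
  · exact V.zero.congr (by rw [h, mul_zero])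
  · exact (((V.mul H.gz0_O h).add (H.g1 l)).mono (by omega) (by omega)).congr (by ring)

/-- every vector has a crude profile -/
theorem triv {p : ℕ} {j : ℤ} {v : Vec n} (h : S.V p j v) : Prof S lam z0 xt Fm (p + 2) (j - 6) v :=
  ⟨h.mono (by omega) (by omega), (V.mul H.sn_O h).mono (by omega) (by omega),
    fun l => ((H.F_V l).ip h).mono (by omega) (by omega), (H.x0.ip h).mono (by omega) (by omega)⟩

theorem small {p : ℕ} {j : ℤ} {v : Vec n} (h : S.V p (j + 2) v)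
    (hf : ∀ l, S.O p (j + 6) (ipn (Fm l) v)) : Prof S lam z0 xt Fm (p + 1) j v :=
  ⟨h.mono (by omega) (by omega), (V.mul H.sn_O h).mono (by omega) (by omega),
    fun l => (hf l).mono (by omega) le_rfl, (H.x0.ip h).mono (by omega) (by omega)⟩

/-- the profile of `G v` -/
theorem res {γ : Vec n} (hγ : Dom lam z0 γ) {p : ℕ} {j : ℤ} {v : Vec n} (h : S.V p j v) :
    Prof S lam z0 xt Fm (p + 4) (j - 8) (γ * v) := by
  refine ⟨(V.mul (H.dom_O hγ) h).mono (by omega) (by omega), ?_, fun l => ?_, ?_⟩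
  · have h1 : ∀ a, S.O 2 (-4) ((sn lam z0 * γ) a) := fun a => by
      refine (O.two.mul (H.isn_O a)).of_le ?_
      have h2 := Real.sqrt_pos.2 (H.pos a)
      rw [Pi.mul_apply, abs_mul, abs_mul, abs_two, ← H.sn_mul_inv a, abs_mul,
        abs_of_pos (inv_pos.2 (H.pos a)), mul_left_comm]
      exact mul_le_mul_of_nonneg_left (hγ a) (abs_nonneg _)
    exact ((V.mul h1 h).mono (by omega) (by omega)).congr (mul_assoc _ _ _).symm
  · exact (((H.dom_V hγ (H.gF_V l)).ip h).mono (by omega) (by omega)).congr (ipn_mul _ _ _)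
  · exact (((H.dom_V hγ H.x1).ip h).mono (by omega) (by omega)).congr (ipn_mul _ _ _)

theorem col (l : κ) : Prof S lam z0 xt Fm 4 (-2) (kz lam w0 z0 * g l) := by
  have e : kz lam w0 z0 * g l = w0 • g l - gz lam z0 * g l := by
    funext a
    simp only [kz, gz, Pi.mul_apply, Pi.sub_apply, Pi.smul_apply, smul_eq_mul]
    ring
  have h1 : S.V 2 (-2) (kz lam w0 z0 * g l) :=
    (((V.smul H.w0_O (H.g0 l)).sub (H.g1 l)).mono (by omega) (by omega)).congr e
  refine ⟨h1.mono (by omega) le_rfl, ?_, fun i => ?_, (H.g4 l).mono (by omega) (by omega)⟩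
  · refine (((V.smul H.w0_O (V.mul H.sn_O (H.g0 l))).sub (H.g2 l)).mono (by omega)
      (by omega)).congr ?_
    funext a
    simp only [kz, Pi.mul_apply, Pi.sub_apply, Pi.smul_apply, smul_eq_mul]
    rw [← H.sn_mul_inv a]
    ring
  · rcases H.hF i with h | h
    · exact O.zero.congr (by rw [h, ipn_zero_left])
    · refine (((h.ip h1).add (H.g3 i l)).mono (by omega) (by omega)).congr ?_
      rw [ipn_sub_left]
      ring

theorem gl_V {p : ℕ} {j : ℤ} {v : Vec n} (h : Gl S g p j v) : S.V (p + 3) j v := by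
  obtain ⟨be, h1, h2⟩ := h
  exact (((V.sum H.card fun l => V.smul (h1 l) (H.g0 l)).add h2).mono (by omega)
    (by omega)).congr (by unfold lc; abel)

theorem gl_res {p : ℕ} {j : ℤ} {v : Vec n} (h : Gl S g p j v) :
    S.V (p + 3) (j - 2) (gz lam z0 * v) := by
  obtain ⟨be, h1, h2⟩ := h
  refine (((V.sum H.card fun l => V.smul (h1 l) (H.g1 l)).add (V.mul H.gz0_O h2)).mono (by omega)
    (by omega)).congr ?_
  unfold lc
  simp only [mul_sub, Finset.mul_sum, mul_smul_comm]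
  abel

theorem gl_prof0 {p : ℕ} {j : ℤ} {v : Vec n} (h : Gl S g p j v) :
    Prof S lam z0 xt Fm (p + 6) (j - 2) (kz lam w0 z0 * v) := by
  obtain ⟨be, h1, h2⟩ := h
  refine (((Prof.sum H.card fun l => Prof.smul (h1 l) (H.col l)).add
    ((Prof.smul H.w0_O (H.triv h2)).sub (H.res H.dom0 h2))).mono (by omega) (by omega)).congr ?_
  have e : ∑ l, be l • (kz lam w0 z0 * g l) = kz lam w0 z0 * lc g be := by
    unfold lc
    simp only [Finset.mul_sum, mul_smul_comm]
  rw [e]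
  funext a
  simp only [kz, gz, Pi.mul_apply, Pi.sub_apply, Pi.add_apply, Pi.smul_apply, smul_eq_mul]
  ring

/-- points close to `z0` -/
theorem near_z {c q : ℕ} (hs : S.Sm c) (hq : q + 2 ≤ c) {z : ℝ} (hz : S.O q 10 (z - z0))
    (a : Fin n) : (z0 - lam a) / 2 ≤ z - lam a ∧ z - lam a ≤ 3 / 2 * (z0 - lam a) := by
  have h1 : |(z - z0) * gz lam z0 a| ≤ 1 / 2 :=
    (hz.mul (H.gz0_O a)).trans (B_half hs (by omega) (by omega))
  have h2 := H.pos a
  have h3 : z - z0 = (z - z0) * gz lam z0 a * (z0 - lam a) := by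
    unfold gz
    field_simp
  rw [abs_le] at h1
  constructor <;> nlinarith

theorem z_pos {c q : ℕ} (hs : S.Sm c) (hq : q + 2 ≤ c) {z : ℝ} (hz : S.O q 10 (z - z0))
    (a : Fin n) : 0 < z - lam a := by
  linarith [(H.near_z hs hq hz a).1, H.pos a]

theorem dom_z {c q : ℕ} (hs : S.Sm c) (hq : q + 2 ≤ c) {z : ℝ} (hz : S.O q 10 (z - z0)) :
    Dom lam z0 (gz lam z) := fun a => by
  have h1 := (H.near_z hs hq hz a).1
  have h2 := H.z_pos hs hq hz a
  have h3 := H.pos a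
  unfold gz
  rw [abs_of_pos (inv_pos.2 h2), ← div_eq_mul_inv, inv_eq_one_div, div_le_div_iff₀ h2 h3]
  linarith

theorem low_z {c q : ℕ} (hs : S.Sm c) (hq : q + 2 ≤ c) {z : ℝ} (hz : S.O q 10 (z - z0))
    (a : Fin n) : 2 / 3 * gz lam z0 a ≤ gz lam z a := by
  have h1 := (H.near_z hs hq hz a).2
  have h2 := H.z_pos hs hq hz a
  have h3 := H.pos a
  unfold gz
  rw [← div_eq_mul_inv, inv_eq_one_div, div_le_div_iff₀ h3 h2]
  linarith

/-- profile of `(w - G(z)) v` for a Gaussian like vector -/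
theorem gl_prof {c q : ℕ} (hs : S.Sm c) (hq : q + 2 ≤ c) {w z : ℝ} (hw : S.O q 6 (w - w0))
    (hz : S.O q 10 (z - z0)) {p : ℕ} {j : ℤ} {v : Vec n} (h : Gl S g p j v) :
    Prof S lam z0 xt Fm (p + 9) (j - 2) (kz lam w z * v) := by
  have a1 := (Prof.smul hw (H.triv (H.gl_V h))).sm (q := p + 5) (k := j - 2) hs 1 (by omega)
    (by omega)
  have a2 := (Prof.smul hz (H.res (H.dom_z hs hq hz) (H.gl_res h))).sm (q := p + 7) (k := j - 2)
    hs 1 (by omega) (by omega)
  refine ((((H.gl_prof0 h).add a1).add a2).mono (by omega) (by omega)).congr ?_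
  funext a
  have h2 := (H.z_pos hs hq hz a).ne'
  have h3 := (H.pos a).ne'
  simp only [kz, gz, Pi.mul_apply, Pi.add_apply, Pi.smul_apply, smul_eq_mul]
  field_simp
  ring

theorem T_O : S.O 1 4 (nn (gz lam z0) ^ 2)⁻¹ := O.of_nonneg (inv_pos.2 H.T0).le H.T1

theorem h0_prof : Prof S lam z0 xt Fm 2 0 h0 :=
  H.small (p := 1) (j := 0) (H.h1.mono le_rfl (by omega)) fun l => O.zero.congr (H.h2 l)

/-- solving the preconditioner keeps the profile -/
theorem solve {p : ℕ} {j : ℤ} {D v : Vec n} (hv : Prof S lam z0 xt Fm p j v)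
    (e : w0 • D + (2 / nn (gz lam z0) ^ 2 * ipn h0 D) • (gz lam z0 * h0) = -v) :
    Prof S lam z0 xt Fm (p + 11) j D := by
  have w0p : 0 < w0 := by linarith [H.w1]
  have a0 : 0 ≤ ipn h0 (gz lam z0 * h0) := by
    refine div_nonneg (Finset.sum_nonneg fun a _ => ?_) H.npos.le
    have := inv_pos.2 (H.pos a)
    simp only [Pi.mul_apply, gz]
    nlinarith [mul_self_nonneg (h0 a)]
  have a1 : S.O (p + 2) (j + 2) (ipn h0 D) := by
    have b1 := congrArg (ipn h0) e
    rw [ipn_add_right, ipn_smul_right, ipn_smul_right] at b1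
    have b2 : S.O (1 + p) (2 + j) (ipn h0 (-v)) := H.h1.ip hv.l2.neg
    refine (((inv_O (S := S) H.w1).mul b2).mono (by omega) (by omega)).of_le ?_
    have b3 : 0 ≤ 2 / nn (gz lam z0) ^ 2 * ipn h0 (gz lam z0 * h0) :=
      mul_nonneg (div_nonneg zero_le_two H.T0.le) a0
    have b4 : ipn h0 (-v) = (w0 + 2 / nn (gz lam z0) ^ 2 * ipn h0 (gz lam z0 * h0)) * ipn h0 D := by
      rw [← b1]
      ring
    rw [b4, ← mul_assoc, abs_mul]
    refine le_mul_of_one_le_left (abs_nonneg _) (le_trans ?_ (le_abs_self _))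
    rw [mul_add, inv_mul_cancel₀ w0p.ne']
    linarith [mul_nonneg (inv_pos.2 w0p).le b3]
  have a2 := Prof.smul ((O.two.mul H.T_O).mul a1) (H.res H.dom0 H.h1)
  refine ((Prof.smul (inv_O (S := S) H.w1) (hv.neg.sub a2)).mono (by omega) (by omega)).congr ?_
  rw [← e, ← div_eq_mul_inv, add_sub_cancel_right, smul_smul, inv_mul_cancel₀ w0p.ne', one_smul]

/-- the mixed trace -/
theorem T2b {c q : ℕ} (hs : S.Sm c) (hq : q + 2 ≤ c) {z z' : ℝ} (hz : S.O q 10 (z - z0))
    (hz' : S.O q 10 (z' - z0)) : 0 < ipn (gz lam z) (gz lam z') ∧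
      S.O 3 4 (ipn (gz lam z) (gz lam z'))⁻¹ ∧
      S.O (q + 7) 6 ((ipn (gz lam z) (gz lam z'))⁻¹ - (nn (gz lam z0) ^ 2)⁻¹) := by
  have T0 := H.T0
  have hT : nn (gz lam z0) ^ 2 = ipn (gz lam z0) (gz lam z0) := (ipn_self _).symm
  have g0p : ∀ a, 0 < gz lam z0 a := fun a => inv_pos.2 (H.pos a)
  have a1 : 4 / 9 * nn (gz lam z0) ^ 2 ≤ ipn (gz lam z) (gz lam z') := by
    rw [hT]
    unfold ipn ip
    rw [← mul_div_assoc, Finset.mul_sum]
    refine div_le_div_of_nonneg_right (Finset.sum_le_sum fun a _ => ?_) H.npos.le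
    have b1 := H.low_z hs hq hz a
    have b2 := H.low_z hs hq hz' a
    have b3 := g0p a
    nlinarith [mul_le_mul b1 b2 (by positivity) (by linarith)]
  have a2 : 0 < ipn (gz lam z) (gz lam z') := by linarith
  have a3 : S.O 3 4 (ipn (gz lam z) (gz lam z'))⁻¹ := by
    refine (((O.two.mul O.two).mul H.T_O).mono (by omega) (by omega)).of_le ?_
    rw [abs_of_pos (inv_pos.2 a2), abs_of_pos (by positivity), ← div_eq_mul_inv, inv_eq_one_div,
      div_le_div_iff₀ a2 T0]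
    linarith
  refine ⟨a2, a3, ?_⟩
  have dz : ∀ {y : ℝ}, S.O q 10 (y - z0) →
      nn (gz lam y - gz lam z0) ≤ S.B (q + 2) 2 * nn (gz lam z0) := fun {y} hy => by
    refine nn_le_mul (B_pos _ _).le fun a => ?_
    have e : (gz lam y - gz lam z0) a = -((y - z0) * gz lam y a) * gz lam z0 a := by
      have h2 := (H.z_pos hs hq hy a).ne'
      have h3 := (H.pos a).ne'
      simp only [gz, Pi.sub_apply]
      field_simp
      ring
    rw [e, abs_mul]
    exact mul_le_mul_of_nonneg_right (hy.mul (H.dom_O (H.dom_z hs hq hy) a)).neg (abs_nonneg _)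
  have a4 : nn (gz lam z') ≤ 2 * nn (gz lam z0) := nn_le_mul zero_le_two fun a => by
    rw [abs_of_pos (g0p a)]
    exact H.dom_z hs hq hz' a
  have a5 : |nn (gz lam z0) ^ 2 - ipn (gz lam z) (gz lam z')| ≤
      4 * S.B (q + 2) 2 * nn (gz lam z0) ^ 2 := by
    have e : nn (gz lam z0) ^ 2 - ipn (gz lam z) (gz lam z') =
        -(ipn (gz lam z - gz lam z0) (gz lam z') + ipn (gz lam z0) (gz lam z' - gz lam z0)) := by
      rw [hT, ipn_sub_left, ipn_sub_right]
      ring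
    rw [e, abs_neg]
    have b1 := abs_ipn_le (gz lam z - gz lam z0) (gz lam z')
    have b2 := abs_ipn_le (gz lam z0) (gz lam z' - gz lam z0)
    have b3 := mul_le_mul (dz hz) a4 (nn_nonneg _) (mul_nonneg (B_pos _ _).le (nn_nonneg _))
    have b4 := mul_le_mul_of_nonneg_left (dz hz') (nn_nonneg (gz lam z0))
    have b5 := mul_pos (B_pos (S := S) (q + 2) 2) T0
    refine (abs_add_le _ _).trans ?_
    nlinarith
  have a6 : S.O (q + 2) 2 (S.B (q + 2) 2) := O.of_nonneg (B_pos _ _).le le_rfl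
  refine (((((O.two.mul O.two).mul a6).mul a3)).mono (by omega) (by omega)).of_le ?_
  have b0 := B_pos (S := S) (q + 2) 2
  generalize ipn (gz lam z) (gz lam z') = A at *
  generalize nn (gz lam z0) ^ 2 = T at *
  have e : A⁻¹ - T⁻¹ = (T - A) / T * A⁻¹ := by
    field_simp
  rw [e, abs_mul, abs_mul (2 * 2 * _)]
  refine mul_le_mul_of_nonneg_right ?_ (abs_nonneg _)
  rw [abs_div, abs_of_pos T0, div_le_iff₀ T0, abs_of_pos (a := 2 * 2 * _) (by positivity)]
  linarith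

/-- the trace equations at two points -/
theorem dz_eq {c q : ℕ} (hs : S.Sm c) (hq : q + 2 ≤ c) {z z' w w' : ℝ} (hz : S.O q 10 (z - z0))
    (hz' : S.O q 10 (z' - z0)) (e : ∑ a, gz lam z a = n * w) (e' : ∑ a, gz lam z' a = n * w') :
    z - z' = -(w - w') * (ipn (gz lam z) (gz lam z'))⁻¹ := by
  have h1 := (H.T2b hs hq hz hz').1
  have h2 : (n : ℝ) * (w - w') = -(z - z') * (n * ipn (gz lam z) (gz lam z')) := by
    rw [mul_sub, ← e, ← e', ← Finset.sum_sub_distrib]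
    unfold ipn ip
    rw [mul_div_cancel₀ _ H.npos.ne', Finset.mul_sum]
    refine Finset.sum_congr rfl fun a _ => ?_
    have h2 := (H.z_pos hs hq hz a).ne'
    have h3 := (H.z_pos hs hq hz' a).ne'
    simp only [gz]
    field_simp
    ring
  have h3 := H.npos
  have h4 : w - w' = -(z - z') * ipn (gz lam z) (gz lam z') := by
    refine mul_left_cancel₀ h3.ne' ?_
    rw [h2]
    ring
  rw [h4]
  field_simp

/-- existence of a root of the trace equation close to `z0` -/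
theorem exists_z {c q : ℕ} (hs : S.Sm c) (hq : q + 4 ≤ c) (e0 : ∑ a, gz lam z0 a = n * w0) {w : ℝ}
    (hw : S.O q 6 (w - w0)) : ∃ z, S.O (q + 2) 10 (z - z0) ∧ ∑ a, gz lam z a = n * w := by
  set δ := S.B (q + 2) 10 with hδ
  have δ0 : 0 < δ := B_pos _ _
  have hO : ∀ z ∈ Set.Icc (z0 - δ) (z0 + δ), S.O (q + 2) 10 (z - z0) := fun z hz =>
    abs_le.2 ⟨by linarith [hz.1], by linarith [hz.2]⟩
  have hc : ContinuousOn (fun z => ∑ a, gz lam z a) (Set.Icc (z0 - δ) (z0 + δ)) :=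
    continuousOn_finsetSum _ fun a _ => (continuousOn_id.sub continuousOn_const).inv₀
      fun z hz => (H.z_pos hs (by omega) (hO z hz) a).ne'
  have key : ∀ z, S.O (q + 2) 10 (z - z0) → ∃ T, S.B q 6 ≤ δ * T ∧
      ∑ a, gz lam z a = n * (w0 - (z - z0) * T) := fun z hz => by
    refine ⟨ipn (gz lam z) (gz lam z0), ?_, ?_⟩
    · have b1 : 2 / 3 * nn (gz lam z0) ^ 2 ≤ ipn (gz lam z) (gz lam z0) := by
        rw [← ipn_self]
        unfold ipn ip
        rw [← mul_div_assoc, Finset.mul_sum]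
        refine div_le_div_of_nonneg_right (Finset.sum_le_sum fun a _ => ?_) H.npos.le
        have c1 := H.low_z hs (by omega) hz a
        have c2 : 0 < gz lam z0 a := inv_pos.2 (H.pos a)
        nlinarith
      have b2 : 1 ≤ S.B 1 4 * nn (gz lam z0) ^ 2 := by
        have := mul_le_mul_of_nonneg_right H.T1 H.T0.le
        rwa [inv_mul_cancel₀ H.T0.ne'] at this
      have b3 : δ = S.B (q + 1) 6 * S.B 1 4 := by rw [B_mul]; rfl
      have b4 := two_B (S := S) q 6
      have b5 := B_pos (S := S) q 6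
      have b6 := B_pos (S := S) 1 4
      have b7 := mul_le_mul_of_nonneg_left b1 δ0.le
      have b8 := mul_le_mul_of_nonneg_left b2 (B_pos (S := S) (q + 1) 6).le
      rw [b3] at b7 ⊢
      nlinarith
    · rw [mul_sub, ← e0]
      unfold ipn ip
      rw [mul_left_comm, mul_div_cancel₀ _ H.npos.ne', Finset.mul_sum, ← Finset.sum_sub_distrib]
      refine Finset.sum_congr rfl fun a _ => ?_
      have h2 := (H.z_pos hs (by omega) hz a).ne'
      have h3 := (H.pos a).ne'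
      simp only [gz]
      field_simp
      ring
  obtain ⟨T1, t1, e1⟩ := key (z0 - δ) (hO _ ⟨le_rfl, by linarith⟩)
  obtain ⟨T2, t2, e2⟩ := key (z0 + δ) (hO _ ⟨by linarith, le_rfl⟩)
  have hw' := abs_le.1 hw
  have hn := H.npos
  obtain ⟨z, hz, e⟩ := intermediate_value_Icc' (by linarith : z0 - δ ≤ z0 + δ) hc
    (show (n : ℝ) * w ∈ Set.Icc _ _ from ⟨by
      show ∑ a, gz lam (z0 + δ) a ≤ _
      rw [e2]
      exact mul_le_mul_of_nonneg_left (by nlinarith) hn.le, by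
      show _ ≤ ∑ a, gz lam (z0 - δ) a
      rw [e1]
      exact mul_le_mul_of_nonneg_left (by nlinarith) hn.le⟩)
  exact ⟨z, hO z hz, e⟩

end FD

end Vale.Agent.N150.X3
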