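import Vale.Agent.N150.TG2
import Vale.Agent.N150.T1Def
import Vale.Agent.N150.X3c
import Vale.Agent.N150.Stein5

/-! P150, block T1: the Gaussian event of the base program, in the unit `t` of `T1Def`. -/

open MeasureTheory ProbabilityTheory Real Matrix Function Filter Topology
open scoped ENNReal
open Vale.Agent.P150 Vale.Agent.P150.F

namespace Vale.Agent.N150.TG

open Vale.Agent.N150.Tail Vale.Agent.N150.T1 Vale.Agent.N150.EC

variable {n p : ℕ}

/-! ### small parameter -/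

theorem ev_le {c : ℝ} (hc : 0 < c) : ∀ᶠ t in 𝓝[>] (0 : ℝ), 0 < t ∧ t ≤ c := by
  filter_upwards [Ioc_mem_nhdsGT hc] with t ht using ht

theorem ev_mul (C : ℝ) : ∀ᶠ t in 𝓝[>] (0 : ℝ), 0 < t ∧ C * t ≤ 1 := by
  filter_upwards [ev_le (c := (|C| + 1)⁻¹) (by positivity)] with t ht
  refine ⟨ht.1, ?_⟩
  have h1 : (|C| + 1) * t ≤ 1 := by
    have := mul_le_mul_of_nonneg_left ht.2 (by positivity : 0 ≤ |C| + 1)
    rwa [mul_inv_cancel₀ (by positivity)] at this
  nlinarith [le_abs_self C, ht.1]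

theorem ev_exp {c : ℝ} (hc : 0 < c) (m : ℕ) :
    ∀ᶠ t in 𝓝[>] (0 : ℝ), exp (-(c * t⁻¹)) ≤ t ^ m := by
  filter_upwards [ev_le (c := c ^ (m + 1) / (m + 1).factorial) (by positivity)] with t ht
  have h0 := ht.1
  have h1 := pow_div_factorial_le_exp (c * t⁻¹) (by positivity) (m + 1)
  rw [exp_neg, inv_le_comm₀ (exp_pos _) (by positivity)]
  refine le_trans ?_ h1
  have e : (c * t⁻¹) ^ (m + 1) / (m + 1).factorial =
      c ^ (m + 1) / (m + 1).factorial * t⁻¹ * (t ^ m)⁻¹ := by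
    rw [mul_pow, pow_succ t⁻¹, inv_pow]
    ring
  rw [e]
  refine le_mul_of_one_le_left (by positivity) ?_
  rw [← div_eq_mul_inv, one_le_div h0]
  exact ht.2

section Pw
variable {t C : ℝ}

theorem pw (h0 : 0 < t) (h1 : t ≤ 1) {a b : ℕ} (h : b ≤ a) : t ^ a ≤ t ^ b :=
  pow_le_pow_of_le_one h0.le h1 h

theorem cpw (h0 : 0 < t) (h1 : t ≤ 1) (hC : C * t ≤ 1) {a b : ℕ} (h : b + 1 ≤ a) (hC0 : 0 ≤ C) :
    C * t ^ a ≤ t ^ b :=
  calc C * t ^ a ≤ C * t ^ (b + 1) := mul_le_mul_of_nonneg_left (pw h0 h1 h) hC0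
    _ = C * t * t ^ b := by ring
    _ ≤ 1 * t ^ b := mul_le_mul_of_nonneg_right hC (by positivity)
    _ = _ := one_mul _

theorem ipw (h0 : 0 < t) (h1 : t ≤ 1) {a b : ℕ} (h : a ≤ b) : t⁻¹ ^ a ≤ t⁻¹ ^ b :=
  pow_le_pow_right₀ (one_le_inv₀ h0 |>.2 h1) h

theorem cipw (h0 : 0 < t) (h1 : t ≤ 1) (hC : C * t ≤ 1) {a b : ℕ} (h : a + 1 ≤ b) :
    C * t⁻¹ ^ a ≤ t⁻¹ ^ b := by
  have hC' : C ≤ t⁻¹ := by
    rw [← one_div, le_div_iff₀ h0]
    exact hC
  calc C * t⁻¹ ^ a ≤ t⁻¹ * t⁻¹ ^ a := mul_le_mul_of_nonneg_right hC' (by positivity)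
    _ = t⁻¹ ^ (a + 1) := by ring
    _ ≤ _ := ipw h0 h1 h

theorem inv_mul_pw (h0 : 0 < t) {a b c : ℕ} (h : a + c = b) : t⁻¹ ^ a * t ^ b = t ^ c := by
  rw [← h, pow_add, ← mul_assoc, ← mul_pow, inv_mul_cancel₀ h0.ne', one_pow, one_mul]

theorem inv_mul_pw' (h0 : 0 < t) {a b c : ℕ} (h : b + c = a) : t⁻¹ ^ a * t ^ b = t⁻¹ ^ c := by
  rw [← h, pow_add, mul_right_comm, ← mul_pow, inv_mul_cancel₀ h0.ne', one_pow, one_mul]

theorem le_inv_of_mul (h0 : 0 < t) {a : ℕ} {X Y : ℝ} (h : t ^ a * X ≤ Y) : X ≤ Y * t⁻¹ ^ a := by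
  rw [inv_pow, ← div_eq_mul_inv, le_div_iff₀ (by positivity)]
  linarith

end Pw

theorem diag_mulVec (z v : Vec n) : diagonal z *ᵥ v = z * v :=
  funext fun k => mulVec_diagonal z v k

theorem res_eq (A : Finset (Fin n)) : Rip.res A = diagonal fun k => if k ∈ A then 1 else 0 := rfl

theorem VV_eq' (h : Vec n) : Stein.VV h = VW h h := by
  have e : Db h h = dv h := funext fun i => by simp [Db, ddt, dv]
  have e2 : mu h h = fun r => tm h r * dv h r := funext fun i => by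
    simp only [mu, e]
    ring
  rw [Stein.VV, VW, e, e2]

theorem VW_mulVec (h v : Vec n) : VW h h *ᵥ v = X3.va h v := by
  rw [← VV_eq', Stein.VV, X3.va, add_mulVec, diag_mulVec, smul_mulVec, vecMulVec_mulVec,
    smul_smul]
  congr 2
  unfold X3.ipn
  have : ip (fun r => tm h r * dv h r) v = ip (tm h * dv h) v := rfl
  rw [this]
  ring

/-- the weight of `K0 (1 - P₂)` in the eigenframe -/
noncomputable def kh (t : ℝ) (S : Dat n) : Vec n :=
  fun a => if a ∈ S.low (t ^ 139200) then 0 else 1 - S.g a / S.w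

/-- the Gaussian event of the base program -/
structure FEv (t : ℝ) (S : Dat n) (x xt : Vec n) (g : Fin p → Vec n) : Prop where
  gram : Gram 1 n (4 * n * t ^ 215999) (Fin.cons x g : Fin (p + 1) → Vec n)
  exc : ∀ i, exc (t⁻¹ / (p + 1)) ((Fin.cons x g : Fin (p + 1) → Vec n) i) ≤ 5 * n * t ^ 431998
  stein : ∀ al : Fin (p + 1) → ℝ, |al 0| ≤ t ^ 143999 → ∑ i, al i ^ 2 ≤ t ^ 143999 → ∀ i j,
    |ip ((Fin.cons x g : Fin (p + 1) → Vec n) i)
      (VW (clip (t ^ 71999) (lc (Fin.cons x g) al)) (clip (t ^ 71999) (lc (Fin.cons x g) al)) *ᵥ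
        (Fin.cons x g : Fin (p + 1) → Vec n) j)| ≤
      n * (t ^ 359996 + if i = 0 ∧ j = 0 then t ^ 287997 else 0)
  spr : ∀ j, Rip.Spread 6 (n * t ^ 431998) ((√n)⁻¹ • g j)
  g1 : ∀ j, nv (S.g * g j) ≤ √n * t⁻¹ ^ 72002
  g2 : ∀ j, nv ((fun a => √(S.g a)) * g j) ≤ 2 * √n
  g3 : ∀ i j, |ip (g i) ((fun a => S.w - S.g a) * g j)| ≤ n * t ^ 143997
  x0 : ∀ j, |ip xt (g j)| ≤ 2 * n * t ^ 215999
  x1 : ∀ j, |ip xt (S.g * g j)| ≤ n * t⁻¹ ^ 2
  x2 : ∀ j, |ip xt ((fun a => S.w - S.g a) * g j)| ≤ n * t⁻¹ ^ 3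
  l1 : ∀ j, nv (Rip.res (S.low (t ^ 198400)) *ᵥ g j) ≤ √n * t ^ 148799
  l2 : ∀ j, nv (Rip.res (S.low (t ^ 139200)) *ᵥ g j) ≤ √n * t ^ 104399
  k1 : ∀ j, nv (kh t S * g j) ≤ √n * t⁻¹ ^ 34801
  k2 : ∀ i j, |ip (g i) (kh t S * g j)| ≤ n * t ^ 69599

section AdmFacts
variable {L t : ℝ} {S : Dat n}

theorem adm_npos (h : Adm L t S) : 0 < n := by
  rcases Nat.eq_zero_or_pos n with hn | hn
  · have := h.big
    rw [hn] at this
    norm_num at this
  · exact hn

theorem adm_gap (h : Adm L t S) (a : Fin n) : 2 * t ^ 288000 / L ≤ S.z0 - S.lam a := by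
  linarith [h.lo, h.top a]

theorem adm_g_pos (h : Adm L t S) (hL : 2 ≤ L) (h0 : 0 < t) (a : Fin n) : 0 < S.g a :=
  inv_pos.2 (lt_of_lt_of_le (by positivity) (adm_gap h a))

theorem adm_g_le (h : Adm L t S) (hL : 2 ≤ L) (h0 : 0 < t) (a : Fin n) :
    S.g a ≤ L * t⁻¹ ^ 288000 := by
  have h1 : S.g a ≤ (2 * t ^ 288000 / L)⁻¹ := inv_anti₀ (by positivity) (adm_gap h a)
  refine h1.trans ?_
  rw [inv_div, inv_pow, ← div_eq_mul_inv]
  exact div_le_div_of_nonneg_left (by positivity) (by positivity)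
    (le_mul_of_one_le_left (by positivity) (by norm_num))

theorem adm_g_high (h : Adm L t S) (hL : 2 ≤ L) (h0 : 0 < t) {σ : ℝ} (hσ : 0 < σ) {a : Fin n}
    (ha : a ∉ S.low σ) : S.g a ≤ σ⁻¹ := by
  have h1 : σ < S.gam - S.lam a := by
    by_contra hc
    exact ha (Finset.mem_filter.2 ⟨Finset.mem_univ _, not_lt.1 hc⟩)
  have h2 : 0 < 2 * t ^ 288000 / L := by positivity
  exact inv_anti₀ hσ (by linarith [h.lo])

theorem adm_sum_le (h : Adm L t S) : ∑ a, S.g a ≤ n := by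
  have := h.sad
  have h2 : 0 ≤ ∑ a, (S.g a * S.yt a) ^ 2 := Finset.sum_nonneg fun a _ => sq_nonneg _
  linarith

theorem adm_w_le (h : Adm L t S) : S.w ≤ 1 := by
  have hn : (0 : ℝ) < n := by exact_mod_cast adm_npos h
  rw [Dat.w, div_le_one hn]
  exact adm_sum_le h

theorem adm_le_w (h : Adm L t S) : 1 - L * t ^ 144000 ≤ S.w := by
  have hn : (0 : ℝ) < n := by exact_mod_cast adm_npos h
  rw [Dat.w, le_div_iff₀ hn]
  have := h.sad
  have := h.y2
  linarith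

theorem adm_sum_w (h : Adm L t S) : ∑ a, (S.w - S.g a) = 0 := by
  have hn : (0 : ℝ) < n := by exact_mod_cast adm_npos h
  rw [Finset.sum_sub_distrib, Finset.sum_const, Finset.card_univ, Fintype.card_fin, nsmul_eq_mul,
    Dat.w, mul_div_cancel₀ _ hn.ne', sub_self]

end AdmFacts

/-- the diagonal weights -/
noncomputable def wts (t : ℝ) (S : Dat n) : Fin 6 → Vec n :=
  ![S.g, fun a => √(S.g a), fun a => S.w - S.g a,
    fun a => if a ∈ S.low (t ^ 198400) then 1 else 0,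
    fun a => if a ∈ S.low (t ^ 139200) then 1 else 0, kh t S]

/-- the fixed vectors -/
noncomputable def vcs (S : Dat n) (xt : Vec n) : Fin 2 → Vec n := ![xt, S.g * xt]

theorem sqrt_lev {t : ℝ} (h0 : 0 < t) : √(n * t ^ 431998) = √n * t ^ 215999 := by
  rw [sqrt_mul (Nat.cast_nonneg n), show t ^ 431998 = (t ^ 215999) ^ 2 by rw [← pow_mul],
    sqrt_sq (by positivity)]

theorem sq_ind (A : Finset (Fin n)) : F.sq (fun a => if a ∈ A then (1 : ℝ) else 0) = A.card := by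
  simp [F.sq]

theorem sq_scale {A : ℝ} : (√(n : ℝ) * A) ^ 2 = n * A ^ 2 := by
  rw [mul_pow, sq_sqrt (Nat.cast_nonneg n)]

theorem sqrt_scale (A B : ℝ) : √(n : ℝ) * A * (√n * B) = n * (A * B) := by
  rw [mul_mul_mul_comm, mul_self_sqrt (Nat.cast_nonneg n)]

/-- the standing assumptions of the deterministic part -/
structure Hyp (L t : ℝ) (S : Dat n) (x xt : Vec n) (T : ℝ) (g : Fin p → Vec n) : Prop where
  hL : 2 ≤ L
  h0 : 0 < t
  sm : 16 * L * t ≤ 1
  adm : Adm L t S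
  admx : AdmX L t S xt
  ev : GEv x (wts t S) (vcs S xt) T (n * t ^ 431998) g

namespace Hyp
variable {L t T : ℝ} {S : Dat n} {x xt : Vec n} {g : Fin p → Vec n} (H : Hyp L t S x xt T g)
include H

theorem h1 : t ≤ 1 := by nlinarith [H.hL, H.h0, H.sm]

theorem smc {C : ℝ} (h : C ≤ 16 * L) : C * t ≤ 1 :=
  (mul_le_mul_of_nonneg_right h H.h0.le).trans H.sm

theorem lev0 : 0 ≤ n * t ^ 431998 := by have := H.h0; positivity

theorem one_le (k : ℕ) : 1 ≤ t⁻¹ ^ k := by simpa using ipw H.h0 H.h1 (Nat.zero_le k)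

theorem gpos (a : Fin n) : 0 < S.g a := adm_g_pos H.adm H.hL H.h0 a

theorem half : 1 / 2 ≤ S.w := by
  have h1 := adm_le_w H.adm
  have h2 := cpw (C := 2 * L) H.h0 H.h1 (H.smc (by linarith [H.hL])) (a := 144000) (b := 0)
    (by norm_num) (by linarith [H.hL])
  rw [pow_zero] at h2
  linarith

theorem sqg : ∑ a, S.g a ^ 2 ≤ L * n * t⁻¹ ^ 144000 := le_inv_of_mul H.h0 H.adm.t2hi

theorem gram : Gram 1 n (4 * n * t ^ 215999) (Fin.cons x g : Fin (p + 1) → Vec n) := by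
  refine H.ev.gram.mono ?_
  have h2 := cpw (C := 4) H.h0 H.h1 (H.smc (by linarith [H.hL])) (a := 431998) (b := 215999)
    (by norm_num) (by norm_num)
  have h3 := mul_le_mul_of_nonneg_left h2 (Nat.cast_nonneg (α := ℝ) n)
  have h4 := sqrt_scale (n := n) 1 (t ^ 215999)
  rw [sqrt_lev H.h0]
  linarith

theorem g1 (j : Fin p) : nv (S.g * g j) ≤ √n * t⁻¹ ^ 72002 := by
  have hL := H.hL
  have h0 := H.h0
  have h2 := H.ev.nz_le 0 (M := L * t⁻¹ ^ 288000) (D := √n * (L * t⁻¹ ^ 72000)) (by positivity)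
    (fun k => by
      exact (abs_of_pos (H.gpos k)).trans_le (adm_g_le H.adm hL h0 k)) (by positivity) (by
      rw [sq_scale, mul_pow, ← pow_mul]
      refine H.sqg.trans ?_
      have : 0 ≤ (n : ℝ) * t⁻¹ ^ 144000 := by positivity
      norm_num only
      nlinarith [mul_nonneg this (by nlinarith : 0 ≤ L ^ 2 - L)]) j
  rw [diag_mulVec, sqrt_lev h0] at h2
  refine h2.trans ?_
  have e1 := inv_mul_pw' h0 (a := 288000) (b := 215999) (c := 72001) (by norm_num)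
  have h3 := cipw h0 H.h1 (H.smc (C := 3 * L) (by linarith)) (a := 72001) (b := 72002) le_rfl
  have h4 := mul_le_mul_of_nonneg_left (ipw h0 H.h1 (a := 72000) (b := 72001) (by norm_num))
    (by linarith : 0 ≤ L)
  calc _ = √n * (L * t⁻¹ ^ 72000 + 2 * L * (t⁻¹ ^ 288000 * t ^ 215999)) := by ring
    _ ≤ _ := by
      rw [e1]
      exact mul_le_mul_of_nonneg_left (by linarith) (sqrt_nonneg _)

theorem g2 (j : Fin p) : nv ((fun a => √(S.g a)) * g j) ≤ 2 * √n := by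
  have hL := H.hL
  have h0 := H.h0
  have h2 := H.ev.nz_le 1 (M := L * t⁻¹ ^ 144000) (D := √n) (by positivity)
    (fun k => by
      refine (abs_of_nonneg (sqrt_nonneg _)).trans_le (sqrt_le_iff.2 ⟨by positivity, ?_⟩)
      refine (adm_g_le H.adm hL h0 k).trans ?_
      rw [mul_pow, ← pow_mul]
      exact mul_le_mul_of_nonneg_right (by nlinarith) (by positivity)) (sqrt_nonneg _) (by
      rw [sq_sqrt (Nat.cast_nonneg n)]
      refine le_trans (le_of_eq ?_) (adm_sum_le H.adm)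
      exact Finset.sum_congr rfl fun a _ => sq_sqrt (H.gpos a).le) j
  rw [diag_mulVec, sqrt_lev h0] at h2
  refine h2.trans ?_
  have e1 := inv_mul_pw h0 (a := 144000) (b := 215999) (c := 71999) (by norm_num)
  have h3 := cpw h0 H.h1 (H.smc (C := 2 * L) (by linarith)) (a := 71999) (b := 0) (by norm_num)
    (by linarith)
  rw [pow_zero] at h3
  calc _ = √n * (1 + 2 * L * (t⁻¹ ^ 144000 * t ^ 215999)) := by ring
    _ ≤ √n * 2 := by
      rw [e1]
      exact mul_le_mul_of_nonneg_left (by linarith) (sqrt_nonneg _)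
    _ = _ := mul_comm _ _

theorem g3 (i j : Fin p) : |ip (g i) ((fun a => S.w - S.g a) * g j)| ≤ n * t ^ 143997 := by
  have hL := H.hL
  have h0 := H.h0
  have hw := adm_w_le H.adm
  have hw' := H.half
  have h2 := (H.ev.gz_le H.lev0 2 (M := L * t⁻¹ ^ 288000) (D := √n * (2 * L * t⁻¹ ^ 72000))
    (by positivity) (fun k => by
      have h3 := adm_g_le H.adm hL h0 k
      have h4 := H.gpos k
      have h5 : 1 ≤ L * t⁻¹ ^ 288000 := by nlinarith [H.one_le 288000]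
      exact abs_le.2 ⟨by show _ ≤ S.w - S.g k; linarith, by show S.w - S.g k ≤ _; linarith⟩)
    (by positivity) (by
      have h3 : ∑ a, (S.w - S.g a) ^ 2 ≤ ∑ a, (1 + S.g a ^ 2) :=
        Finset.sum_le_sum fun a _ => by nlinarith [H.gpos a]
      rw [Finset.sum_add_distrib, Finset.sum_const, Finset.card_univ, Fintype.card_fin,
        nsmul_eq_mul, mul_one] at h3
      rw [sq_scale, mul_pow, ← pow_mul]
      refine h3.trans ?_
      have h4 := H.sqg
      have h5 := mul_le_mul_of_nonneg_left (H.one_le 144000) (Nat.cast_nonneg (α := ℝ) n)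
      have : 0 ≤ (n : ℝ) * t⁻¹ ^ 144000 := by positivity
      norm_num only
      nlinarith [mul_nonneg this (by nlinarith : 0 ≤ 4 * L ^ 2 - L - 1)])).abs_le i j
  have e0 : ∑ k, wts t S 2 k = 0 := adm_sum_w H.adm
  rw [diag_mulVec, sqrt_lev h0, e0, abs_zero, zero_add] at h2
  refine h2.trans ?_
  have e1 := inv_mul_pw h0 (a := 288000) (b := 431998) (c := 143998) (by norm_num)
  have e2 := inv_mul_pw h0 (a := 72000) (b := 215999) (c := 143999) (by norm_num)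
  have h3 := cpw h0 H.h1 (H.smc (C := 10 * L) (by linarith)) (a := 143998) (b := 143997) le_rfl
    (by linarith)
  have h4 := mul_le_mul_of_nonneg_left (pw h0 H.h1 (a := 143999) (b := 143998) (by norm_num))
    (by linarith : 0 ≤ L)
  rw [mul_assoc 3, sqrt_scale]
  calc _ = n * (6 * L * (t⁻¹ ^ 72000 * t ^ 215999) + 4 * L * (t⁻¹ ^ 288000 * t ^ 431998)) := by
        ring
    _ ≤ _ := by
      rw [e1, e2]
      exact mul_le_mul_of_nonneg_left (by linarith) (Nat.cast_nonneg n)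

theorem x0 (j : Fin p) : |ip xt (g j)| ≤ 2 * n * t ^ 215999 := by
  have h2 := H.ev.lin_le 0 (D := √n * 1)
    (by rw [mul_one, ← H.admx.nrm, ← nv_eq_sqrt]; exact le_rfl) j
  rw [sqrt_lev H.h0, mul_assoc 2, sqrt_scale] at h2
  exact h2.trans (le_of_eq (by ring))

theorem x1 (j : Fin p) : |ip xt (S.g * g j)| ≤ n * t⁻¹ ^ 2 := by
  have hL := H.hL
  have h0 := H.h0
  have h2 := H.ev.lin_le 1 (D := √n * (L * t⁻¹ ^ 216000)) (nv_le_of_sq_le (by positivity) (by
    rw [sq_scale, mul_pow, ← pow_mul]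
    refine (le_inv_of_mul h0 H.admx.x2).trans ?_
    have : 0 ≤ (n : ℝ) * t⁻¹ ^ 432000 := by positivity
    norm_num only
    nlinarith [mul_nonneg this (by nlinarith : 0 ≤ L ^ 2 - L)])) j
  have e0 : ip (vcs S xt 1) (g j) = ip xt (S.g * g j) :=
    Finset.sum_congr rfl fun a _ => by
      show S.g a * xt a * g j a = xt a * (S.g a * g j a)
      ring
  rw [sqrt_lev h0, mul_assoc 2, sqrt_scale, e0] at h2
  refine h2.trans ?_
  have e1 := inv_mul_pw' h0 (a := 216000) (b := 215999) (c := 1) (by norm_num)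
  have h3 := cipw h0 H.h1 (H.smc (C := 2 * L) (by linarith)) (a := 1) (b := 2) le_rfl
  calc _ = n * (2 * L * (t⁻¹ ^ 216000 * t ^ 215999)) := by ring
    _ ≤ _ := by
      rw [e1]
      exact mul_le_mul_of_nonneg_left h3 (Nat.cast_nonneg n)

theorem x2 (j : Fin p) : |ip xt ((fun a => S.w - S.g a) * g j)| ≤ n * t⁻¹ ^ 3 := by
  have h0 := H.h0
  have e0 : ip xt ((fun a => S.w - S.g a) * g j) = S.w * ip xt (g j) - ip xt (S.g * g j) := by
    unfold ip
    rw [Finset.mul_sum, ← Finset.sum_sub_distrib]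
    exact Finset.sum_congr rfl fun a _ => by simp only [Pi.mul_apply]; ring
  have h2 := H.x0 j
  have h3 := H.x1 j
  have h4 : |S.w * ip xt (g j)| ≤ |ip xt (g j)| := by
    rw [abs_mul, abs_of_nonneg (by linarith [H.half])]
    exact mul_le_of_le_one_left (abs_nonneg _) (adm_w_le H.adm)
  have h5 := abs_sub (S.w * ip xt (g j)) (ip xt (S.g * g j))
  have h6 := pw h0 H.h1 (a := 215999) (b := 0) (by norm_num)
  have h7 := cipw h0 H.h1 (H.smc (C := 3) (by linarith [H.hL])) (a := 2) (b := 3) le_rfl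
  have h8 := mul_le_mul_of_nonneg_left
    (by linarith [H.one_le 2, pow_zero t] : 2 * t ^ 215999 + t⁻¹ ^ 2 ≤ t⁻¹ ^ 3)
    (Nat.cast_nonneg (α := ℝ) n)
  rw [e0]
  linarith

theorem low_aux (a : Fin 6) {A : Finset (Fin n)}
    (hA : wts t S a = fun k => if k ∈ A then 1 else 0) {m : ℕ} (hm : m + 1 ≤ 215999)
    (hc : (A.card : ℝ) ≤ L * n * t ^ ((m + 1) * 2)) (j : Fin p) :
    nv (Rip.res A *ᵥ g j) ≤ √n * t ^ m := by
  have hL := H.hL
  have h0 := H.h0
  have h2 := H.ev.nz_le a (M := 1) (D := √n * (L * t ^ (m + 1))) zero_le_one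
    (fun k => by rw [hA]; dsimp only; split_ifs <;> simp) (by positivity) (by
      rw [hA, sq_ind, sq_scale, mul_pow, ← pow_mul]
      refine hc.trans ?_
      have : 0 ≤ (n : ℝ) * t ^ ((m + 1) * 2) := by positivity
      nlinarith [mul_nonneg this (by nlinarith : 0 ≤ L ^ 2 - L)]) j
  rw [hA, ← res_eq, sqrt_lev h0] at h2
  refine h2.trans ?_
  have h3 := cpw h0 H.h1 (H.smc (C := L + 2) (by linarith)) (a := m + 1) (b := m) le_rfl
    (by linarith)
  have h4 := pw h0 H.h1 hm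
  calc _ = √n * (L * t ^ (m + 1) + 2 * t ^ 215999) := by ring
    _ ≤ _ := mul_le_mul_of_nonneg_left (by linarith) (sqrt_nonneg _)

theorem kh_abs (k : Fin n) : |kh t S k| ≤ 2 * t⁻¹ ^ 139200 := by
  have h0 := H.h0
  have h2 := H.one_le 139200
  unfold kh
  split_ifs with hk
  · rw [abs_zero]
    linarith
  · have h3 := adm_g_high H.adm H.hL h0 (by positivity) hk
    rw [← inv_pow] at h3
    have h4 : S.g k / S.w ≤ 2 * t⁻¹ ^ 139200 := by
      rw [div_le_iff₀ (by linarith [H.half])]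
      nlinarith [H.half]
    have h5 : 0 ≤ S.g k / S.w := div_nonneg (H.gpos k).le (by linarith [H.half])
    exact abs_le.2 ⟨by linarith, by linarith⟩

theorem div_w_le (k : Fin n) : S.g k / S.w ≤ 2 * S.g k := by
  rw [div_le_iff₀ (by linarith [H.half])]
  nlinarith [H.half, H.gpos k]

theorem kh_sq : F.sq (kh t S) ≤ (√n * (3 * L * t⁻¹ ^ 34800)) ^ 2 := by
  have hL := H.hL
  have h0 := H.h0
  have h3 : F.sq (kh t S) ≤ ∑ a, (1 + 4 * if a ∈ (S.low (t ^ 139200))ᶜ then S.g a ^ 2 else 0) := by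
    refine Finset.sum_le_sum fun a _ => ?_
    by_cases ha : a ∈ S.low (t ^ 139200)
    · simp [kh, ha]
    · have h5 : 0 ≤ S.g a / S.w := div_nonneg (H.gpos a).le (by linarith [H.half])
      have h6 := H.div_w_le a
      simp only [kh, ha, if_false, Finset.mem_compl, not_false_eq_true, if_true]
      nlinarith
  rw [Finset.sum_add_distrib, ← Finset.mul_sum, Finset.sum_ite_mem, Finset.univ_inter,
    Finset.sum_const, Finset.card_univ, Fintype.card_fin, nsmul_eq_mul, mul_one] at h3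
  have h4 := le_inv_of_mul h0 H.adm.trhi
  have h5 := mul_le_mul_of_nonneg_left (H.one_le 69600) (Nat.cast_nonneg (α := ℝ) n)
  rw [sq_scale, mul_pow, ← pow_mul]
  have : 0 ≤ (n : ℝ) * t⁻¹ ^ 69600 := by positivity
  norm_num only
  nlinarith [mul_nonneg this (by nlinarith : 0 ≤ 9 * L ^ 2 - 4 * L - 1)]

theorem kh_sum : |∑ a, kh t S a| ≤ 3 * L * n * t ^ 69600 := by
  have hL := H.hL
  have h0 := H.h0
  have hw : S.w ≠ 0 := by linarith [H.half]
  have e1 : ∑ a, (1 - S.g a / S.w) = 0 := by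
    have := adm_sum_w H.adm
    have e : ∀ a, 1 - S.g a / S.w = (S.w - S.g a) / S.w := fun a => by field_simp
    simp_rw [e]
    rw [← Finset.sum_div, this, zero_div]
  have e2 : ∑ a, kh t S a = -∑ a ∈ S.low (t ^ 139200), (1 - S.g a / S.w) := by
    rw [eq_neg_iff_add_eq_zero, ← e1,
      ← Finset.univ_inter (S.low (t ^ 139200)), ← Finset.sum_ite_mem, ← Finset.sum_add_distrib]
    refine Finset.sum_congr rfl fun a _ => ?_
    unfold kh
    split_ifs <;> simp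
  rw [e2, abs_neg]
  refine (Finset.abs_sum_le_sum_abs _ _).trans ?_
  have h3 : ∑ a ∈ S.low (t ^ 139200), |1 - S.g a / S.w| ≤
      ∑ a ∈ S.low (t ^ 139200), (1 + 2 * S.g a) := Finset.sum_le_sum fun a _ => by
    have h5 : 0 ≤ S.g a / S.w := div_nonneg (H.gpos a).le (by linarith [H.half])
    have h6 := H.div_w_le a
    exact abs_le.2 ⟨by linarith, by linarith [H.gpos a]⟩
  rw [Finset.sum_add_distrib, ← Finset.mul_sum, Finset.sum_const, nsmul_eq_mul, mul_one] at h3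
  have h4 := H.adm.c2
  have h5 := H.adm.trlo
  have h6 := mul_le_mul_of_nonneg_left (pw h0 H.h1 (a := 208800) (b := 69600) (by norm_num))
    (by positivity : 0 ≤ L * n)
  linarith

theorem k1 (j : Fin p) : nv (kh t S * g j) ≤ √n * t⁻¹ ^ 34801 := by
  have hL := H.hL
  have h0 := H.h0
  have h2 := H.ev.nz_le 5 (by positivity) H.kh_abs (by positivity) H.kh_sq j
  rw [diag_mulVec, sqrt_lev h0] at h2
  refine h2.trans ?_
  have e1 := inv_mul_pw h0 (a := 139200) (b := 215999) (c := 76799) (by norm_num)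
  have h3 := cipw h0 H.h1 (H.smc (C := 3 * L + 4) (by linarith)) (a := 34800) (b := 34801) le_rfl
  have h4 := pw h0 H.h1 (a := 76799) (b := 0) (by norm_num)
  have h5 := H.one_le 34800
  rw [pow_zero] at h4
  calc _ = √n * (3 * L * t⁻¹ ^ 34800 + 4 * (t⁻¹ ^ 139200 * t ^ 215999)) := by ring
    _ ≤ _ := by
      rw [e1]
      exact mul_le_mul_of_nonneg_left (by linarith) (sqrt_nonneg _)

theorem k2 (i j : Fin p) : |ip (g i) (kh t S * g j)| ≤ n * t ^ 69599 := by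
  have hL := H.hL
  have h0 := H.h0
  have h2 := (H.ev.gz_le H.lev0 5 (by positivity) H.kh_abs (by positivity) H.kh_sq).abs_le i j
  rw [diag_mulVec, sqrt_lev h0, mul_assoc 3, sqrt_scale] at h2
  refine h2.trans ((add_le_add H.kh_sum le_rfl).trans ?_)
  have e1 := inv_mul_pw h0 (a := 139200) (b := 431998) (c := 292798) (by norm_num)
  have e2 := inv_mul_pw h0 (a := 34800) (b := 215999) (c := 181199) (by norm_num)
  have h3 := cpw h0 H.h1 (H.smc (C := 12 * L + 8) (by linarith)) (a := 69600) (b := 69599) le_rfl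
    (by linarith)
  have h4 := mul_le_mul_of_nonneg_left (pw h0 H.h1 (a := 181199) (b := 69600) (by norm_num))
    (by linarith : 0 ≤ L)
  have h5 := pw h0 H.h1 (a := 292798) (b := 69600) (by norm_num)
  calc _ = n * (3 * L * t ^ 69600 + 9 * L * (t⁻¹ ^ 34800 * t ^ 215999) +
        8 * (t⁻¹ ^ 139200 * t ^ 431998)) := by ring
    _ ≤ _ := by
      rw [e1, e2]
      exact mul_le_mul_of_nonneg_left (by linarith) (Nat.cast_nonneg n)

end Hyp

theorem poly_le {t C σ : ℝ} (h0 : 0 < t) (h1 : t ≤ 1) (hn : 1 ≤ n * t ^ 431998) (hC : 0 ≤ C)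
    (hσ0 : 0 ≤ σ) (hσ : σ ≤ 1) {A : ℝ} (hA0 : 0 ≤ A) (hA : (A + C + 3) * t ≤ 1) :
    A + C * (1 + 2 * σ * √n / ((t ^ 71999) ^ 2 * t ^ 215999)) ^ (p + 1) ≤ (n : ℝ) ^ (3 * p + 4) := by
  have hn1 : 1 ≤ n * t := hn.trans (mul_le_mul_of_nonneg_left
    (by simpa using pw h0 h1 (a := 431998) (b := 1) (by norm_num)) (Nat.cast_nonneg n))
  have hn2 : A + C + 3 ≤ n := le_of_mul_le_mul_right (hA.trans hn1) h0
  have hn3 : (1 : ℝ) ≤ n := by linarith
  have h2 : 1 ≤ n * ((t ^ 71999) ^ 2 * t ^ 215999) := by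
    rw [← pow_mul, ← pow_add]
    exact hn.trans (mul_le_mul_of_nonneg_left (pw h0 h1 (by norm_num)) (Nat.cast_nonneg n))
  have h3 : √(n : ℝ) ≤ n := sqrt_le_iff.2 ⟨by linarith, by nlinarith⟩
  have h4 : 2 * σ * √n / ((t ^ 71999) ^ 2 * t ^ 215999) ≤ 2 * (n : ℝ) ^ 2 := by
    rw [div_le_iff₀ (by positivity)]
    have h5 : σ * √n ≤ 1 * n := mul_le_mul hσ h3 (sqrt_nonneg _) zero_le_one
    nlinarith
  have h5 : 1 + 2 * σ * √n / ((t ^ 71999) ^ 2 * t ^ 215999) ≤ (n : ℝ) ^ 3 := by nlinarith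
  have h6 := pow_le_pow_left₀ (by positivity) h5 (p + 1)
  rw [← pow_mul (n : ℝ)] at h6
  have h7 : 1 ≤ (n : ℝ) ^ (3 * (p + 1)) := one_le_pow₀ hn3
  have h8 := mul_le_mul_of_nonneg_left h6 hC
  have h9 := mul_le_mul_of_nonneg_left h7 hA0
  calc _ ≤ (A + C) * (n : ℝ) ^ (3 * (p + 1)) := by linarith
    _ ≤ n * (n : ℝ) ^ (3 * (p + 1)) := mul_le_mul_of_nonneg_right (by linarith) (by linarith)
    _ = _ := by ring

/-- **G1 to G6**: the event of the base program fails with probability `poly(n) exp (-K₀)` -/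
theorem fev_tail (p : ℕ) : Ev fun L t => ∀ (n : ℕ) (S : Dat n) (x xt : Vec n), Adm L t S →
    AdmX L t S xt → (∀ i, x i = 1 ∨ x i = -1) →
    (gf (Fin p) n).real {g | ¬ FEv t S x xt g} ≤
      (n : ℝ) ^ (3 * p + 4) * exp (-(n * t ^ 431998)) := by
  obtain ⟨C, hC1, hC⟩ := Stein.G4 p
  intro L hL
  have hp : (0 : ℝ) < p + 1 := by positivity
  filter_upwards [ev_mul (16 * L), ev_mul (2 * C), ev_mul (p + 1),
    ev_mul (36 * (p + 1) ^ 2 + p + C + 3), ev_exp (c := 1 / (4 * (p + 1))) (by positivity) 431999,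
    ev_exp (c := 1 / 8) (by norm_num) 359997] with t hs1 hs2 hs3 hs4 he1 he2 n S x xt hA hX hx
  have h0 := hs1.1
  have h1 : t ≤ 1 := by nlinarith [hs1.2]
  have hn := adm_npos hA
  have hx2 : ∀ r, x r ^ 2 = 1 := fun r => by rcases hx r with h | h <;> simp [h]
  have hxn : F.sq x = n := by simp [F.sq, hx2]
  have hK : 0 ≤ n * t ^ 431998 := by positivity
  have hθ : (t ^ 71999) ^ 2 = t ^ 143998 := by rw [← pow_mul]
  have hσ : √(t ^ 143999) ^ 2 = t ^ 143999 := sq_sqrt (by positivity)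
  have hσ1 : √(t ^ 143999) ≤ 1 := sqrt_le_one.2 (pow_le_one₀ h0.le h1)
  have hC2 : C * t ≤ 1 := by nlinarith [hs2.2]
  have hcl : Stein.IsClip (fun y => max (-(t ^ 71999)) (min (t ^ 71999) y)) (t ^ 71999) := by
    simpa only [min_comm] using Stein.isClip_max_min (θ := t ^ 71999) (by positivity)
  obtain ⟨B, -, hB, hB'⟩ := hC n x _ (t ^ 71999) √(t ^ 143999) (t ^ 143999) (t ^ 215999) hn hx2 hcl
    (sqrt_pos.2 (by positivity))
    (sqrt_le_iff.2 ⟨by positivity, by rw [hθ]; exact pw h0 h1 (by norm_num)⟩)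
    (by
      rw [hθ]
      simpa using cpw h0 h1 hC2 (a := 143998) (b := 0) (by norm_num) (by linarith))
    (by positivity) (pow_le_one₀ h0.le h1) (pow_le_one₀ h0.le h1)
    (by
      rw [hσ, hθ, ← pow_add]
      refine le_trans (le_of_eq ?_) he2
      congr 2
      rw [show t ^ 143999 = t ^ 143998 * t from pow_succ t 143998]
      field_simp)
  have hG := gev_tail (p := p) hn hxn (wts t S) (vcs S xt) (t⁻¹ / (p + 1)) hK
  have hS := spread_cols (n := n) (κ := Fin p) hK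
  rw [show (t ^ 215999) ^ 2 = t ^ 431998 by rw [← pow_mul]] at hB
  have h12 := (real_or_le _ fun g hg => hg).trans (add_le_add hG hS)
  refine (real_or_le (r := fun g => g ∈ B) _ fun g hg => ?_).trans
    ((add_le_add h12 hB).trans ?_)
  · by_contra hc
    simp only [not_or, not_not, not_exists] at hc
    obtain ⟨⟨c1, c2⟩, c3⟩ := hc
    have H : Hyp L t S x xt (t⁻¹ / (p + 1)) g := ⟨hL, h0, hs1.2, hA, hX, c1⟩
    refine hg ⟨H.gram, fun i => ?_, fun al ha1 ha2 i j => ?_, c2, H.g1, H.g2, H.g3, H.x0, H.x1,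
      H.x2, H.low_aux 3 rfl (by norm_num) hA.c1, H.low_aux 4 rfl (by norm_num) hA.c2, H.k1, H.k2⟩
    · refine (c1.exc_cons hK (fun k => ?_) i).trans ?_
      · rw [hx2, one_le_div hp, ← one_div, le_div_iff₀ h0]
        exact hs3.2
      · have e : -(t⁻¹ / (p + 1)) / 4 = -(1 / (4 * (p + 1)) * t⁻¹) := by field_simp
        rw [e]
        have h3 := cpw h0 h1 (H.smc (C := 6) (by linarith)) (a := 431999) (b := 431998) le_rfl
          (by norm_num)
        have h4 := mul_le_mul_of_nonneg_left (by linarith :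
          6 * exp (-(1 / (4 * (p + 1)) * t⁻¹)) ≤ t ^ 431998) (Nat.cast_nonneg (α := ℝ) n)
        linarith
    · have h3 := hB' g c3 al ha1 (by rwa [hσ]) i j
      have e : (fun r => max (-(t ^ 71999)) (min (t ^ 71999) (∑ l, al l * Stein.cols x g l r))) =
          clip (t ^ 71999) (lc (Fin.cons x g) al) := funext fun r => by
        rw [clip, lc_apply]
        rfl
      rw [e, VV_eq'] at h3
      refine h3.trans ?_
      rw [mul_comm C, mul_assoc]
      refine mul_le_mul_of_nonneg_left ?_ (Nat.cast_nonneg n)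
      have h4 : √(t ^ 143999) * (t ^ 143999) ^ 3 ≤ t ^ 359997 := by
        rw [← pow_mul]
        exact (mul_le_of_le_one_left (by positivity) hσ1).trans (pw h0 h1 (by norm_num))
      have h5 := cpw h0 h1 hs2.2 (a := 359997) (b := 359996) le_rfl (by linarith)
      have h6 := cpw h0 h1 hC2 (a := 287998) (b := 287997) le_rfl (by linarith)
      have h7 := mul_le_mul_of_nonneg_left h4 (by linarith : 0 ≤ C)
      rw [show (t ^ 71999) ^ 2 * t ^ 215999 = t ^ 359997 by rw [hθ, ← pow_add], mul_add, mul_add]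
      refine add_le_add (by linarith) ?_
      split_ifs
      · rwa [← pow_mul]
      · simp
  · have h3 := poly_le (p := p) h0 h1 hA.big (by linarith : 0 ≤ C) (sqrt_nonneg _) hσ1
      (A := 36 * (p + 1) ^ 2 + p) (by positivity) hs4.2
    have h4 := mul_le_mul_of_nonneg_right h3 (exp_pos (-(n * t ^ 431998))).le
    simp only [Fintype.card_fin]
    push_cast
    linarith

theorem close_mono {P₀ : OG n → Mat n} {b : ℕ → Bool} {v : ℕ → OG n → Vec n} {ε ε' : ℝ} {j : ℕ}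
    {O : OG n} {g : Vec n} (h : Fib.Close P₀ b v ε j O g) (hε : ε ≤ ε') :
    Fib.Close P₀ b v ε' j O g := h.imp id fun h => h.trans hε

/-- the coupling of a program of `p` queries with typical Gaussian vectors -/
theorem sim_fev (p : ℕ) : Ev fun L t => ∀ (n : ℕ) (S : Dat n) (x xt : Vec n) (μ : Measure (OG n))
    (P₀ : OG n → Mat n) (b : ℕ → Bool) (v : ℕ → OG n → Vec n), Adm L t S → AdmX L t S xt →
    (∀ i, x i = 1 ∨ x i = -1) → IsProbabilityMeasure μ → Fib.Chain μ P₀ b v p →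
    (∀ O, n - 1 ≤ (P₀ O).trace) →
    μ.real {O | ¬ ∃ g : Fin p → Vec n, FEv t S x xt g ∧ ∀ j : Fin p,
      Fib.Close P₀ b v (t ^ 215998) j O (g j)} ≤
      (n : ℝ) ^ (3 * p + 5) * exp (-(n * t ^ 431998)) := by
  intro L hL
  filter_upwards [fev_tail p L hL, ev_mul (6 * (p + 2))] with t hF hs n S x xt μ P₀ b v hA hX hx
    hμ hC hr
  have h0 := hs.1
  have hp : (0 : ℝ) ≤ p := Nat.cast_nonneg p
  have h1 : t ≤ 1 := by nlinarith [hs.2]
  have hn : (0 : ℝ) < n := by exact_mod_cast adm_npos hA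
  have hK : 0 ≤ n * t ^ 431998 := by positivity
  have h2 := sim_fixed hC hK hr _ (hF n S x xt hA hX hx)
  have hε : 6 * √(1 + p + n * t ^ 431998) / √n ≤ t ^ 215998 := by
    rw [div_le_iff₀ (sqrt_pos.2 hn)]
    have h3 : √(1 + p + n * t ^ 431998) ≤ (p + 2) * √(n * t ^ 431998) := by
      refine sqrt_le_iff.2 ⟨by positivity, ?_⟩
      rw [mul_pow, sq_sqrt hK]
      nlinarith [hA.big, mul_nonneg hp hK, mul_nonneg (mul_nonneg hp hp) hK]
    have h4 := cpw h0 h1 hs.2 (a := 215999) (b := 215998) le_rfl (by positivity)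
    have h5 := mul_le_mul_of_nonneg_right h4 (sqrt_nonneg (n : ℝ))
    rw [sqrt_lev h0] at h3
    linarith
  refine (real_imp_le μ fun O hO => ?_).trans (h2.trans ?_)
  · rintro ⟨g, hg1, hg2⟩
    exact hO ⟨g, hg1, fun j => close_mono (hg2 j) hε⟩
  · have hn1 : 1 ≤ n * t := hA.big.trans (mul_le_mul_of_nonneg_left
      (by simpa using pw h0 h1 (a := 431998) (b := 1) (by norm_num)) hn.le)
    have hn2 : 6 * ((p : ℝ) + 2) ≤ n := le_of_mul_le_mul_right (hs.2.trans hn1) h0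
    have h3 : 1 ≤ (n : ℝ) ^ (3 * p + 4) := one_le_pow₀ (by linarith)
    have h4 : (n : ℝ) ^ (3 * p + 4) + 3 * p ≤ (n : ℝ) ^ (3 * p + 5) := by
      rw [pow_succ (n : ℝ) (3 * p + 4)]
      nlinarith
    have h5 := mul_le_mul_of_nonneg_right h4 (exp_pos (-(n * t ^ 431998))).le
    linarith

/-! ### the event in the scale calculus of `X3` -/

namespace FEv
variable {t : ℝ} {S : Dat n} {x xt : Vec n} {g : Fin p → Vec n} {Z : X3.Sc}

theorem B_ge (h0 : 0 < t) (hZ : Z.t = t ^ 36000) (hK : t⁻¹ ^ 2 ≤ Z.K) (q j m : ℕ)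
    (h : 2 * q + m = 36000 * j) : t ^ m ≤ Z.B q j := by
  rw [X3.Sc.B, hZ, _root_.zpow_natCast, ← pow_mul, ← inv_mul_pw h0 h, pow_mul]
  exact mul_le_mul_of_nonneg_right (pow_le_pow_left₀ (by positivity) hK q) (by positivity)

theorem B_ge' (h0 : 0 < t) (hZ : Z.t = t ^ 36000) (hK : t⁻¹ ^ 2 ≤ Z.K) (q j : ℕ) :
    t⁻¹ ^ (2 * q + 36000 * j) ≤ Z.B q (-j) := by
  rw [X3.Sc.B, hZ, _root_.zpow_neg, _root_.zpow_natCast, ← pow_mul, ← inv_pow, pow_add, pow_mul]
  exact mul_le_mul_of_nonneg_right (pow_le_pow_left₀ (by positivity) hK q) (by positivity)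

theorem V_of (hn : 0 < n) {q : ℕ} {j : ℤ} {v : Vec n} {A : ℝ} (h : nv v ≤ √n * A)
    (hA : A ≤ Z.B q j) : Z.V q j v := by
  have hn' : (0 : ℝ) < n := by exact_mod_cast hn
  refine le_trans ?_ hA
  rw [X3.nn, div_le_iff₀ (sqrt_pos.2 hn'), mul_comm]
  exact h

theorem O_of (hn : 0 < n) {q : ℕ} {j : ℤ} {u v : Vec n} {A : ℝ} (h : |ip u v| ≤ n * A)
    (hA : A ≤ Z.B q j) : Z.O q j (X3.ipn u v) := by
  have hn' : (0 : ℝ) < n := by exact_mod_cast hn
  refine le_trans ?_ hA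
  rw [X3.ipn, abs_div, abs_of_pos hn', div_le_iff₀ hn', mul_comm]
  exact h

theorem col (h : FEv t S x xt g) (h0 : 0 < t) (hs : 4 * t ≤ 1) (i : Fin (p + 1)) :
    nv ((Fin.cons x g : Fin (p + 1) → Vec n) i) ≤ √n * 2 := by
  refine nv_le_of_sq_le (by positivity) ((h.gram.col i).trans ?_)
  have h2 := cpw h0 (by linarith) hs (a := 215999) (b := 0) (by norm_num) (by norm_num)
  have h3 := mul_le_mul_of_nonneg_left h2 (Nat.cast_nonneg (α := ℝ) n)
  have h4 : (0 : ℝ) ≤ n := Nat.cast_nonneg n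
  rw [sq_scale]
  rw [pow_zero] at h3
  linarith

/-- the site events of `X3b` -/
theorem sd (h : FEv t S x xt g) (hn : 0 < n) (h0 : 0 < t) (hs : (p + 5) * t ≤ 1)
    (hZ : Z.t = t ^ 36000) (hK : t⁻¹ ^ 2 ≤ Z.K) :
    X3.SD Z (Fin.cons x g : Fin (p + 1) → Vec n) 0 (t ^ 71999) (t⁻¹ / (p + 1)) (t ^ 143999)
      √(t ^ 143999) := by
  have hp : (0 : ℝ) ≤ p := Nat.cast_nonneg p
  have hn' : (0 : ℝ) < n := by exact_mod_cast hn
  have h1 : t ≤ 1 := by nlinarith
  have hi : ∀ C : ℝ, C ≤ p + 5 → C ≤ Z.K := fun C hC => by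
    have := cipw h0 h1 hs (a := 0) (b := 2) (by norm_num)
    rw [pow_zero, mul_one] at this
    linarith
  have hσ : √(t ^ 143999) ^ 2 = t ^ 143999 := sq_sqrt (by positivity)
  refine ⟨hn, ?_, fun i => ?_, fun i => ?_, by positivity, ?_, by positivity, ?_, sqrt_nonneg _, ?_,
    ?_, fun al ha1 ha2 i j => ?_⟩
  · simpa using hi (p + 1) (by linarith)
  · exact V_of hn (h.col h0 (by nlinarith) i) (by rw [X3.Sc.B_one]; exact Z.hK)
  · refine (h.exc i).trans ?_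
    have h2 := B_ge h0 hZ hK 2 12 431996 (by norm_num)
    have h3 := cpw (C := 5) h0 h1 (by nlinarith) (a := 431998) (b := 431996) (by norm_num)
      (by norm_num)
    have h4 := mul_le_mul_of_nonneg_left (h3.trans h2) hn'.le
    push_cast at h4
    linarith
  · refine le_trans ?_ hK
    refine (div_le_self (by positivity) (by linarith)).trans ?_
    simpa using ipw h0 h1 (a := 1) (b := 2) (by norm_num)
  · rw [← pow_mul]
    exact B_ge h0 hZ hK 1 4 143998 (by norm_num)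
  · refine le_trans (sqrt_le_iff.2 ⟨by positivity, ?_⟩) (B_ge h0 hZ hK 1 2 71998 (by norm_num))
    rw [← pow_mul]
    exact pw h0 h1 (by norm_num)
  · rw [hσ, ← pow_mul, show t ^ 143999 = t ^ (71999 * 2) * t from pow_succ t 143998]
    refine le_of_eq ?_
    simp only [Fintype.card_fin]
    push_cast
    field_simp
  · have h2 := h.stein al ha1 (by rwa [hσ] at ha2) i j
    rw [VW_mulVec] at h2
    rw [X3.ipn, abs_div, abs_of_pos hn', div_le_iff₀ hn', mul_comm]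
    refine le_trans h2 (mul_le_mul_of_nonneg_left ?_ hn'.le)
    refine add_le_add (B_ge h0 hZ hK 2 10 359996 (by norm_num)) ?_
    split_ifs
    · exact (pw h0 h1 (by norm_num)).trans (B_ge h0 hZ hK 2 8 287996 (by norm_num))
    · exact le_rfl

theorem fg1 (h : FEv t S x xt g) (hn : 0 < n) (h0 : 0 < t) (hZ : Z.t = t ^ 36000)
    (hK : t⁻¹ ^ 2 ≤ Z.K) (j : Fin p) : Z.V 1 (-2) (S.g * g j) :=
  V_of hn (h.g1 j) (B_ge' h0 hZ hK 1 2)

theorem fg2 (h : FEv t S x xt g) (hn : 0 < n) (j : Fin p) :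
    Z.V 1 0 ((fun a => √(S.g a)) * g j) :=
  V_of hn ((h.g2 j).trans_eq (mul_comm _ _)) (by rw [X3.Sc.B_one]; exact Z.hK)

theorem fg3 (h : FEv t S x xt g) (hn : 0 < n) (h0 : 0 < t) (h1 : t ≤ 1) (hZ : Z.t = t ^ 36000)
    (hK : t⁻¹ ^ 2 ≤ Z.K) (i j : Fin p) :
    Z.O 2 4 (X3.ipn (g i) ((fun a => S.w - S.g a) * g j)) :=
  O_of hn (h.g3 i j) ((pw h0 h1 (by norm_num)).trans (B_ge h0 hZ hK 2 4 143996 (by norm_num)))

theorem fx2 (h : FEv t S x xt g) (hn : 0 < n) (h0 : 0 < t) (h1 : t ≤ 1) (hZ : Z.t = t ^ 36000)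
    (hK : t⁻¹ ^ 2 ≤ Z.K) (j : Fin p) :
    Z.O 2 0 (X3.ipn xt ((fun a => S.w - S.g a) * g j)) :=
  O_of hn (h.x2 j) ((ipw h0 h1 (by norm_num)).trans (B_ge' h0 hZ hK 2 0))

/-- the site events for free parameters `T, a0, sg` -/
theorem sd_gen (h : FEv t S x xt g) (hn : 0 < n) (h0 : 0 < t) (hs : (p + 5) * t ≤ 1)
    (hZ : Z.t = t ^ 36000) (hK : t⁻¹ ^ 2 ≤ Z.K) {T a0 sg : ℝ} (hT1 : t⁻¹ / (p + 1) ≤ T)
    (hT2 : T ≤ Z.K) (ha : a0 ≤ t ^ 143999) (hs0 : 0 ≤ sg) (hs1 : sg ^ 2 ≤ t ^ 143999)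
    (hs2 : sg ^ 2 * ((p + 1) * T) ≤ t ^ 143998) :
    X3.SD Z (Fin.cons x g : Fin (p + 1) → Vec n) 0 (t ^ 71999) T a0 sg := by
  have H := h.sd hn h0 hs hZ hK
  have hσ : √(t ^ 143999) ^ 2 = t ^ 143999 := sq_sqrt (by positivity)
  refine ⟨hn, H.card, H.hG, fun i => (exc_anti hT1 _).trans (H.hexc i), H.T0.trans hT1, hT2, H.th0,
    H.hth, hs0, (le_sqrt_of_sq_le hs1).trans H.hsg, ?_, fun al ha1 ha2 =>
      H.stein al (ha1.trans ha) (by rw [hσ]; exact ha2.trans hs1)⟩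
  rw [← pow_mul]
  simpa using hs2

/-- the site events for the parameters of `X3e` -/
theorem sd20 {L : ℝ} (h : FEv t S x xt g) (hn : 0 < n) (h0 : 0 < t) (hL : 2 ≤ L)
    (hs : 2 * L * (p + 2) * t ≤ 1) (hZ : Z.t = t ^ 36000) (hK : t⁻¹ ^ 2 ≤ Z.K) :
    X3.SD Z (Fin.cons x g : Fin (p + 1) → Vec n) 0 (t ^ 71999) t⁻¹ (2 * L * t ^ 144000)
      (√(2 * L) * t ^ 72000) := by
  have hp : (0 : ℝ) ≤ p := Nat.cast_nonneg p
  have hm : ∀ C : ℝ, C ≤ 2 * L * (p + 2) → C * t ≤ 1 := fun C hC =>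
    (mul_le_mul_of_nonneg_right hC h0.le).trans hs
  have h1 : t ≤ 1 := by simpa using hm 1 (by nlinarith)
  have h2 := cpw h0 h1 (hm (2 * L) (by nlinarith)) (a := 144000) (b := 143999) le_rfl (by linarith)
  have e : (√(2 * L) * t ^ 72000) ^ 2 = 2 * L * t ^ 144000 := by
    rw [mul_pow, sq_sqrt (by linarith), ← pow_mul]
  refine h.sd_gen hn h0 (hm _ (by nlinarith)) hZ hK (div_le_self (by positivity) (by linarith))
    (le_trans (by simpa using ipw h0 h1 (a := 1) (b := 2) (by norm_num)) hK) h2 (by positivity)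
    (e ▸ h2) ?_
  have e1 := inv_mul_pw h0 (a := 1) (b := 144000) (c := 143999) (by norm_num)
  have h3 := cpw h0 h1 (hm (2 * L * (p + 1)) (by nlinarith)) (a := 143999) (b := 143998) le_rfl
    (by positivity)
  rw [pow_one] at e1
  rw [e]
  calc _ = 2 * L * (p + 1) * (t⁻¹ * t ^ 144000) := by ring
    _ ≤ _ := by rw [e1]; exact h3

theorem fg0 (h : FEv t S x xt g) (hn : 0 < n) (h0 : 0 < t) (hs : 4 * t ≤ 1) (j : Fin p) :
    Z.V 1 0 (g j) :=
  V_of hn (by simpa using h.col h0 hs j.succ) (by rw [X3.Sc.B_one]; exact Z.hK)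

/-- the fields `g0` to `g4` of `X3.FD` -/
theorem fd_g (h : FEv t S x xt g) (hn : 0 < n) (h0 : 0 < t) (hs : 4 * t ≤ 1)
    (hZ : Z.t = t ^ 36000) (hK : t⁻¹ ^ 2 ≤ Z.K) :
    (∀ l, Z.V 1 0 (g l)) ∧ (∀ l, Z.V 1 (-2) (X3.gz S.lam S.z0 * g l)) ∧
      (∀ l, Z.V 1 0 ((fun a => (√(S.z0 - S.lam a))⁻¹) * g l)) ∧
      (∀ i l, Z.O 2 4 (X3.ipn (g i) (X3.kz S.lam S.w S.z0 * g l))) ∧
      ∀ l, Z.O 2 0 (X3.ipn xt (X3.kz S.lam S.w S.z0 * g l)) := by
  refine ⟨h.fg0 hn h0 hs, h.fg1 hn h0 hZ hK, fun l => ?_, h.fg3 hn h0 (by linarith) hZ hK,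
    h.fx2 hn h0 (by linarith) hZ hK⟩
  have := h.fg2 (Z := Z) hn l
  simpa only [Dat.g, sqrt_inv] using this

theorem g2' (h : FEv t S x xt g) (j : Fin p) :
    nv ((fun a => (√(S.z0 - S.lam a))⁻¹) * g j) ≤ 2 * √n := by
  have := h.g2 j
  simpa only [Dat.g, sqrt_inv] using this

end FEv

end Vale.Agent.N150.TG
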