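import Vale.Agent.N150.Tail3
import Vale.Agent.N150.Rip

/-! P150, block T1: Gaussian lemmas for a finite family of independent standard vectors
(Gram matrices, excess of squares, clipping, spread, adapted linear forms). -/

open MeasureTheory ProbabilityTheory Real Matrix Function
open scoped ENNReal
open Vale.Agent.P150 Vale.Agent.P150.F

namespace Vale.Agent.N150.TG

open Vale.Agent.N150.Tail

variable {n : ℕ}

/-- law of a finite family of independent standard Gaussian vectors -/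
noncomputable abbrev gf (κ : Type*) [Fintype κ] (n : ℕ) : Measure (κ → Vec n) :=
  Measure.pi fun _ : κ => gpi (Fin n)

section Fam
variable {κ : Type*} [Fintype κ]

/-! ### columns and slices -/

theorem col_le (j : κ) (E : Vec n → Prop) :
    (gf κ n).real {g | E (g j)} ≤ (gpi (Fin n)).real {v | E v} := by
  have h := (measurePreserving_eval (fun _ : κ => gpi (Fin n)) j).measure_preimage_le {v | E v}
  exact ENNReal.toReal_mono (measure_ne_top _ _) h

theorem cols_le (E : κ → Vec n → Prop) {q : ℝ} (h : ∀ j, (gpi (Fin n)).real {v | E j v} ≤ q) :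
    (gf κ n).real {g | ∃ j, E j (g j)} ≤ Fintype.card κ * q := by
  have h1 := real_exists_le (gf κ n) Finset.univ (fun j g => E j (g j)) (fun _ => q)
    fun j _ => (col_le j (E j)).trans (h j)
  simpa using h1

/-- a measurable event all of whose slices in the coordinate `j` are small is small -/
theorem slice_le [DecidableEq κ] (j : κ) {E : Set (κ → Vec n)} (hE : MeasurableSet E) {q : ℝ}
    (h : ∀ g, (gpi (Fin n)).real {v | update g j v ∈ E} ≤ q) : (gf κ n).real E ≤ q := by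
  have hq : 0 ≤ q := measureReal_nonneg.trans (h 0)
  have hf : Measurable (E.indicator (1 : (κ → Vec n) → ℝ≥0∞)) := measurable_one.indicator hE
  have h1 : gf κ n E ≤ ENNReal.ofReal q := by
    rw [← lintegral_indicator_one hE, lintegral_eq_lmarginal_univ (0 : κ → Vec n),
      lmarginal_erase' _ hf (Finset.mem_univ j)]
    have h2 : ∀ g : κ → Vec n,
        ∫⁻ v, E.indicator (1 : (κ → Vec n) → ℝ≥0∞) (update g j v) ∂gpi (Fin n) ≤
          ENNReal.ofReal q := by
      intro g
      have hm : MeasurableSet {v : Vec n | update g j v ∈ E} := measurable_update g hE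
      have e : (fun v => E.indicator (1 : (κ → Vec n) → ℝ≥0∞) (update g j v)) =
          {v : Vec n | update g j v ∈ E}.indicator 1 := by
        funext v
        by_cases hv : update g j v ∈ E <;> simp [Set.indicator, hv]
      rw [e, lintegral_indicator_one hm, ← ofReal_measureReal (measure_ne_top _ _)]
      exact ENNReal.ofReal_le_ofReal (h g)
    refine (lmarginal_mono (g := fun _ => ENNReal.ofReal q) h2 0).trans ?_
    simp [lmarginal]
  exact ENNReal.toReal_le_of_le_ofReal hq h1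

theorem measurable_ip {Ω : Type*} [MeasurableSpace Ω] {u v : Ω → Vec n} (hu : Measurable u)
    (hv : Measurable v) : Measurable fun w => ip (u w) (v w) := by
  unfold ip
  fun_prop

theorem measurable_nv {Ω : Type*} [MeasurableSpace Ω] {u : Ω → Vec n} (hu : Measurable u) :
    Measurable fun w => nv (u w) := by
  simp_rw [nv_eq_sqrt, F.sq]
  fun_prop

theorem measurable_mulVec {Ω : Type*} [MeasurableSpace Ω] {A : Ω → Mat n} {u : Ω → Vec n}
    (hA : ∀ i k, Measurable fun w => A w i k) (hu : Measurable u) :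
    Measurable fun w => A w *ᵥ u w := by
  refine measurable_pi_lambda _ fun i => ?_
  simp only [mulVec, dotProduct]
  exact Finset.measurable_sum _ fun k _ => (hA i k).mul ((measurable_pi_apply k).comp hu)

/-- linear form with a strict inequality, any vector -/
theorem ip_tail' (a : Vec n) {x : ℝ} (hx : 0 ≤ x) :
    (gpi (Fin n)).real {w | 2 * nv a * √x < |ip a w|} ≤ 2 * exp (-x) := by
  rcases (nv_nonneg a).eq_or_lt with h | h
  · have : {w : Vec n | 2 * nv a * √x < |ip a w|} = ∅ := by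
      ext w
      have h1 := abs_ip_le a w
      rw [← h] at h1 ⊢
      simp only [Set.mem_ofPred_eq, Set.mem_empty_iff_false, iff_false, not_lt]
      linarith
    rw [this, measureReal_empty]
    positivity
  · exact (real_imp_le _ fun w hw => hw.le).trans (ip_tail a le_rfl h hx)

/-- G6: fixed linear forms of all columns -/
theorem lin_cols (c : κ → Vec n) {x : ℝ} (hx : 0 ≤ x) :
    (gf κ n).real {g | ∃ j, 2 * nv (c j) * √x < |ip (c j) (g j)|} ≤
      Fintype.card κ * (2 * exp (-x)) :=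
  cols_le (fun j v => 2 * nv (c j) * √x < |ip (c j) v|) fun j => ip_tail' (c j) hx

/-- G6: a linear form that does not depend on the column `j` -/
theorem ip_adapted [DecidableEq κ] (j : κ) {c : (κ → Vec n) → Vec n} (hc : Measurable c)
    (ha : ∀ g v, c (update g j v) = c g) {x : ℝ} (hx : 0 ≤ x) :
    (gf κ n).real {g | 2 * nv (c g) * √x < |ip (c g) (g j)|} ≤ 2 * exp (-x) := by
  refine slice_le j (measurableSet_lt (((measurable_nv hc).const_mul 2).mul_const _)
    (measurable_ip hc (measurable_pi_apply j)).abs) fun g => ?_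
  simp only [Set.mem_ofPred_eq, ha, update_self]
  exact ip_tail' (c g) hx

/-- G6: a matrix that does not depend on the column `j` -/
theorem norm_adapted [DecidableEq κ] (j : κ) {B : (κ → Vec n) → Mat n}
    (hB : ∀ i k, Measurable fun g => B g i k) (ha : ∀ g v, B (update g j v) = B g) {L D x : ℝ}
    (hL : 0 < L) (hD : 0 ≤ D) (hx : 0 ≤ x) (h1 : ∀ g, OpLe (B g) L) (h2 : ∀ g, hsq (B g) ≤ D ^ 2) :
    (gf κ n).real {g | D + 2 * L * √x ≤ nv (B g *ᵥ g j)} ≤ exp (-x) := by
  refine slice_le j (measurableSet_le measurable_const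
    (measurable_nv (measurable_mulVec hB (measurable_pi_apply j)))) fun g => ?_
  simp only [Set.mem_ofPred_eq, ha, update_self]
  exact nv_mulVec_tail (h1 g) hL hx hD (h2 g)

/-- G5: norms of the images of all columns -/
theorem norm_cols {Z : Mat n} {M D x : ℝ} (hZ : OpLe Z M) (hM : 0 < M) (hx : 0 ≤ x) (hD : 0 ≤ D)
    (h : hsq Z ≤ D ^ 2) :
    (gf κ n).real {g | ∃ j, D + 2 * M * √x ≤ nv (Z *ᵥ g j)} ≤ Fintype.card κ * exp (-x) :=
  cols_le (fun _ v => D + 2 * M * √x ≤ nv (Z *ᵥ v)) fun _ => nv_mulVec_tail hZ hM hx hD h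

/-- two different columns, any matrix -/
theorem pair_tail [DecidableEq κ] {i j : κ} (hij : i ≠ j) {Z : Mat n} {M D x : ℝ} (hZ : OpLe Z M)
    (hM : 0 < M) (hx : 0 ≤ x) (hD : 0 ≤ D) (h : hsq Z ≤ D ^ 2) :
    (gf κ n).real {g | 2 * D * √x + 4 * M * x < |ip (g i) (Z *ᵥ g j)|} ≤ 3 * exp (-x) := by
  have h1 := ip_adapted i (c := fun g : κ → Vec n => Z *ᵥ g j)
    (measurable_mulVec (fun _ _ => measurable_const) (measurable_pi_apply j))
    (fun g v => by rw [update_of_ne hij.symm]) hx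
  have h2 := (col_le j fun v => D + 2 * M * √x ≤ nv (Z *ᵥ v)).trans (nv_mulVec_tail hZ hM hx hD h)
  refine (real_or_le _ fun g hg => ?_).trans ((add_le_add h1 h2).trans (le_of_eq (by ring)))
  by_cases h3 : D + 2 * M * √x ≤ nv (Z *ᵥ g j)
  · exact Or.inr h3
  · left
    have h4 := mul_le_mul_of_nonneg_right (not_le.1 h3).le (sqrt_nonneg x)
    have h5 : √x * √x = x := mul_self_sqrt hx
    rw [ipN_comm]
    calc 2 * nv (Z *ᵥ g j) * √x = 2 * (nv (Z *ᵥ g j) * √x) := by ring
      _ ≤ 2 * ((D + 2 * M * √x) * √x) := by linarith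
      _ = 2 * D * √x + 4 * M * (√x * √x) := by ring
      _ < _ := by rw [h5]; exact hg

theorem abs_qf_le {Z : Mat n} {M : ℝ} (hZ : OpLe Z M) (hM : 0 ≤ M) (v : Vec n) :
    |qf Z v| ≤ M * F.sq v := by
  have h1 := abs_ip_le v (Z *ᵥ v)
  have h2 := mul_le_mul_of_nonneg_left (hZ.nv_le hM v) (nv_nonneg v)
  rw [← nv_sq]
  unfold qf
  nlinarith

/-- `G` has the `Z`-Gram matrix `T • 1` up to `e` in every entry -/
def Gram {κ : Type*} [DecidableEq κ] (Z : Mat n) (T e : ℝ) (G : κ → Vec n) : Prop :=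
  ∀ i j, |ip (G i) (Z *ᵥ G j) - if i = j then T else 0| ≤ e

/-- G1, G5: Gram matrix with a fixed symmetric weight -/
theorem gram_tail [DecidableEq κ] {Z : Mat n} (hs : Zᵀ = Z) {M D x : ℝ} (hZ : OpLe Z M)
    (hM : 0 < M) (hx : 0 ≤ x) (hD : 0 < D) (h : hsq Z ≤ D ^ 2) :
    (gf κ n).real {g | ¬ Gram Z Z.trace (3 * D * √x + 4 * M * x) g} ≤
      3 * Fintype.card κ ^ 2 * exp (-x) := by
  have h1 : ∀ ij ∈ (Finset.univ : Finset (κ × κ)), (gf κ n).real {g | 3 * D * √x + 4 * M * x <
      |ip (g ij.1) (Z *ᵥ g ij.2) - if ij.1 = ij.2 then Z.trace else 0|} ≤ 3 * exp (-x) := by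
    rintro ⟨i, j⟩ -
    by_cases hij : i = j
    · subst hij
      have h2 := hw_tail_abs hs (pow_pos hD 2) hM.le hx h (abs_qf_le hZ hM.le)
      have h3 := (col_le i _).trans h2
      refine (real_imp_le _ fun g hg => ?_).trans (h3.trans (by linarith [exp_pos (-x)]))
      simp only [if_true] at hg
      have := two_sqrt_le (x := x) hD.le
      unfold qf
      linarith
    · refine (real_imp_le _ fun g hg => ?_).trans (pair_tail hij hZ hM hx hD.le h)
      simp only [hij, if_false, sub_zero] at hg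
      have : 0 ≤ D * √x := by positivity
      linarith
  have h2 := real_exists_le (gf κ n) Finset.univ _ _ h1
  refine (real_imp_le _ fun g hg => ?_).trans (h2.trans (le_of_eq ?_))
  · simp only [Gram, not_forall, not_le] at hg
    obtain ⟨i, j, hg⟩ := hg
    exact ⟨(i, j), Finset.mem_univ _, hg⟩
  · simp only [Finset.sum_const, Finset.card_univ, Fintype.card_prod, nsmul_eq_mul, Nat.cast_mul]
    ring

theorem opLe_diagonal {z : Vec n} {M : ℝ} (h : ∀ k, |z k| ≤ M) : OpLe (diagonal z) M := by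
  intro v
  unfold F.sq
  rw [Finset.mul_sum]
  refine Finset.sum_le_sum fun k _ => ?_
  rw [mulVec_diagonal, mul_pow]
  exact mul_le_mul_of_nonneg_right (sq_le_sq' (abs_le.1 (h k)).1 (abs_le.1 (h k)).2) (sq_nonneg _)

theorem hsq_diagonal (z : Vec n) : hsq (diagonal z) = F.sq z := by
  rw [hsq_eq_trace, diagonal_transpose, diagonal_mul_diagonal, trace_diagonal]
  exact Finset.sum_congr rfl fun k _ => (pow_two _).symm

/-- G5 for a diagonal weight -/
theorem gram_diag [DecidableEq κ] {z : Vec n} {M D x : ℝ} (hz : ∀ k, |z k| ≤ M) (hM : 0 < M)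
    (hx : 0 ≤ x) (hD : 0 < D) (h : F.sq z ≤ D ^ 2) :
    (gf κ n).real {g | ¬ Gram (diagonal z) (∑ k, z k) (3 * D * √x + 4 * M * x) g} ≤
      3 * Fintype.card κ ^ 2 * exp (-x) := by
  have := gram_tail (κ := κ) (diagonal_transpose z) (opLe_diagonal hz) hM hx hD
    (by rwa [hsq_diagonal])
  rwa [trace_diagonal] at this

theorem norm_diag {z : Vec n} {M D x : ℝ} (hz : ∀ k, |z k| ≤ M) (hM : 0 < M) (hx : 0 ≤ x)
    (hD : 0 ≤ D) (h : F.sq z ≤ D ^ 2) :
    (gf κ n).real {g | ∃ j, D + 2 * M * √x ≤ nv (diagonal z *ᵥ g j)} ≤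
      Fintype.card κ * exp (-x) :=
  norm_cols (opLe_diagonal hz) hM hx hD (by rwa [hsq_diagonal])

theorem hsq_one : hsq (1 : Mat n) = n := by
  rw [hsq_eq_trace]
  simp

/-- G1 without the sign vector -/
theorem gram_one [DecidableEq κ] (hn : 0 < n) {x : ℝ} (hx : 0 ≤ x) :
    (gf κ n).real {g | ¬ Gram 1 n (3 * √n * √x + 4 * x) g} ≤
      3 * Fintype.card κ ^ 2 * exp (-x) := by
  have hn' : (0 : ℝ) < n := by exact_mod_cast hn
  have := gram_tail (κ := κ) (Z := (1 : Mat n)) transpose_one opLe_one one_pos hx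
    (sqrt_pos.2 hn') (by rw [hsq_one, sq_sqrt hn'.le])
  simpa using this

end Fam

/-- G1 for the family `[a, g_1, .., g_p]`, `|a|^2 = n` -/
theorem gram_cons {p : ℕ} (hn : 0 < n) {a : Vec n} (ha : F.sq a = n) {x : ℝ} (hx : 0 ≤ x) :
    (gf (Fin p) n).real
        {g | ¬ Gram 1 n (3 * √n * √x + 4 * x) (Fin.cons a g : Fin (p + 1) → Vec n)} ≤
      3 * (p + 1) ^ 2 * exp (-x) := by
  have h1 := gram_one (κ := Fin p) hn hx
  have h2 := lin_cols (κ := Fin p) (fun _ => a) hx
  have hna : nv a = √n := by rw [nv_eq_sqrt, ha]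
  have h0 : 0 ≤ √n * √x := by positivity
  refine (real_or_le _ fun g hg => ?_).trans ((add_le_add h1 h2).trans ?_)
  · by_contra hc
    rw [not_or, not_not, not_exists] at hc
    refine hg fun i j => ?_
    have h3 : ∀ j, |ip a (g j)| ≤ 3 * √n * √x + 4 * x := fun j => by
      have := not_lt.1 (hc.2 j)
      rw [hna] at this
      linarith
    refine Fin.cases ?_ (fun i => ?_) i <;> refine Fin.cases ?_ (fun j => ?_) j
    · simp only [Fin.cons_zero, one_mulVec, ipN_self, ha, if_true, sub_self, abs_zero]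
      linarith
    · simpa [(Fin.succ_ne_zero j).symm] using h3 j
    · simpa [Fin.succ_ne_zero i, ipN_comm] using h3 i
    · simpa using hc.1 i j
  · simp only [Fintype.card_fin]
    have := exp_pos (-x)
    have hp : (0 : ℝ) ≤ p := Nat.cast_nonneg p
    nlinarith [mul_nonneg hp this.le]

/-! ### linear combinations (deterministic) -/

section Lc
variable {κ : Type*} [Fintype κ]

/-- the combination `∑ be i • G i` -/
def lc (G : κ → Vec n) (be : κ → ℝ) : Vec n := ∑ i, be i • G i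

theorem lc_apply (G : κ → Vec n) (be : κ → ℝ) (k : Fin n) : lc G be k = ∑ i, be i * G i k := by
  simp [lc, Finset.sum_apply]

theorem lc_add (G : κ → Vec n) (a b : κ → ℝ) : lc G (a + b) = lc G a + lc G b := by
  simp [lc, add_smul, Finset.sum_add_distrib]

theorem lc_sub (G : κ → Vec n) (a b : κ → ℝ) : lc G (a - b) = lc G a - lc G b := by
  simp [lc, sub_smul, Finset.sum_sub_distrib]

theorem lc_smul (G : κ → Vec n) (c : ℝ) (a : κ → ℝ) : lc G (c • a) = c • lc G a := by
  simp [lc, Finset.smul_sum, smul_smul]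

theorem mulVec_lc (Z : Mat n) (G : κ → Vec n) (be : κ → ℝ) :
    Z *ᵥ lc G be = lc (fun i => Z *ᵥ G i) be := by
  simp [lc, mulVec_sum, mulVec_smul]

theorem lc_cons {p : ℕ} (a : Vec n) (g : Fin p → Vec n) (be : Fin (p + 1) → ℝ) :
    lc (Fin.cons a g : Fin (p + 1) → Vec n) be = be 0 • a + lc g fun j => be j.succ := by
  simp [lc, Fin.sum_univ_succ]

theorem ip_lc_right (u : Vec n) (G : κ → Vec n) (be : κ → ℝ) :
    ip u (lc G be) = ∑ i, be i * ip u (G i) := by
  unfold lc
  rw [ip_sum_right]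
  exact Finset.sum_congr rfl fun i _ => ip_smul_right _ _ _

theorem ip_lc_left (u : Vec n) (G : κ → Vec n) (be : κ → ℝ) :
    ip (lc G be) u = ∑ i, be i * ip (G i) u := by
  rw [ipN_comm, ip_lc_right]
  exact Finset.sum_congr rfl fun i _ => by rw [ipN_comm]

theorem sum_abs_sq_le (be : κ → ℝ) :
    (∑ i, |be i|) ^ 2 ≤ Fintype.card κ * ∑ i, be i ^ 2 := by
  have := sq_sum_le_card_mul_sum_sq (s := (Finset.univ : Finset κ)) (f := fun i => |be i|)
  simpa [sq_abs] using this

theorem sum_abs_le {be : κ → ℝ} {S : ℝ} (hS : 0 ≤ S) (h : ∑ i, be i ^ 2 ≤ S ^ 2) :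
    ∑ i, |be i| ≤ √(Fintype.card κ) * S := by
  refine abs_le_of_sq_le_sq' ?_ (by positivity) |>.2
  rw [mul_pow, sq_sqrt (Nat.cast_nonneg _)]
  exact (sum_abs_sq_le be).trans (mul_le_mul_of_nonneg_left h (Nat.cast_nonneg _))

theorem nv_lc_le {G : κ → Vec n} {B : ℝ} (h : ∀ i, nv (G i) ≤ B) (be : κ → ℝ) :
    nv (lc G be) ≤ B * ∑ i, |be i| := by
  refine (nv_sum_le _ _).trans ?_
  rw [Finset.mul_sum]
  refine Finset.sum_le_sum fun i _ => ?_
  rw [nv_smul, mul_comm]
  exact mul_le_mul_of_nonneg_right (h i) (abs_nonneg _)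

theorem abs_ip_lc_le {G : κ → Vec n} {u : Vec n} {B : ℝ} (h : ∀ i, |ip u (G i)| ≤ B)
    (be : κ → ℝ) : |ip u (lc G be)| ≤ B * ∑ i, |be i| := by
  rw [ip_lc_right, Finset.mul_sum]
  refine (Finset.abs_sum_le_sum_abs _ _).trans (Finset.sum_le_sum fun i _ => ?_)
  rw [abs_mul, mul_comm]
  exact mul_le_mul_of_nonneg_right (h i) (abs_nonneg _)

variable [DecidableEq κ]

omit [Fintype κ] in
theorem Gram.mono {Z : Mat n} {T e e' : ℝ} {G : κ → Vec n} (h : Gram Z T e G) (he : e ≤ e') :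
    Gram Z T e' G := fun i j => (h i j).trans he

theorem Gram.left {Z : Mat n} {T e : ℝ} {G : κ → Vec n} (h : Gram Z T e G) (i : κ) (b : κ → ℝ) :
    |ip (G i) (Z *ᵥ lc G b) - T * b i| ≤ e * ∑ j, |b j| := by
  have e1 : ip (G i) (Z *ᵥ lc G b) - T * b i =
      ∑ j, b j * (ip (G i) (Z *ᵥ G j) - if i = j then T else 0) := by
    rw [mulVec_lc, ip_lc_right]
    simp [mul_sub, Finset.sum_sub_distrib, mul_comm]
  rw [e1, Finset.mul_sum]
  refine (Finset.abs_sum_le_sum_abs _ _).trans (Finset.sum_le_sum fun j _ => ?_)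
  rw [abs_mul, mul_comm]
  exact mul_le_mul_of_nonneg_right (h i j) (abs_nonneg _)

/-- bilinear form on two combinations, `l1` form -/
theorem Gram.bil {Z : Mat n} {T e : ℝ} {G : κ → Vec n} (h : Gram Z T e G) (a b : κ → ℝ) :
    |ip (lc G a) (Z *ᵥ lc G b) - T * ∑ i, a i * b i| ≤ e * ((∑ i, |a i|) * ∑ j, |b j|) := by
  have e1 : ip (lc G a) (Z *ᵥ lc G b) - T * ∑ i, a i * b i =
      ∑ i, a i * (ip (G i) (Z *ᵥ lc G b) - T * b i) := by
    rw [ip_lc_left, Finset.mul_sum, ← Finset.sum_sub_distrib]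
    exact Finset.sum_congr rfl fun i _ => by ring
  rw [e1, Finset.sum_mul, Finset.mul_sum]
  refine (Finset.abs_sum_le_sum_abs _ _).trans (Finset.sum_le_sum fun i _ => ?_)
  rw [abs_mul, mul_left_comm]
  exact mul_le_mul_of_nonneg_left (h.left i b) (abs_nonneg _)

/-- bilinear form on two combinations, `l2` form -/
theorem Gram.bil2 {Z : Mat n} {T e A B : ℝ} {G : κ → Vec n} (h : Gram Z T e G) (he : 0 ≤ e)
    {a b : κ → ℝ} (hA : 0 ≤ A) (hB : 0 ≤ B) (ha : ∑ i, a i ^ 2 ≤ A ^ 2)
    (hb : ∑ i, b i ^ 2 ≤ B ^ 2) :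
    |ip (lc G a) (Z *ᵥ lc G b) - T * ∑ i, a i * b i| ≤ Fintype.card κ * e * (A * B) := by
  refine (h.bil a b).trans ?_
  have h1 := mul_le_mul (sum_abs_le hA ha) (sum_abs_le hB hb)
    (Finset.sum_nonneg fun i _ => abs_nonneg _) (by positivity)
  have h2 : √(Fintype.card κ : ℝ) * √(Fintype.card κ : ℝ) = Fintype.card κ :=
    mul_self_sqrt (Nat.cast_nonneg _)
  calc _ ≤ e * (√(Fintype.card κ : ℝ) * A * (√(Fintype.card κ : ℝ) * B)) :=
        mul_le_mul_of_nonneg_left h1 he
    _ = √(Fintype.card κ : ℝ) * √(Fintype.card κ : ℝ) * e * (A * B) := by ring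
    _ = _ := by rw [h2]

theorem Gram.qf {Z : Mat n} {T e : ℝ} {G : κ → Vec n} (h : Gram Z T e G) (he : 0 ≤ e)
    (a : κ → ℝ) :
    |qf Z (lc G a) - T * ∑ i, a i ^ 2| ≤ Fintype.card κ * e * ∑ i, a i ^ 2 := by
  have h1 := h.bil a a
  have h2 := mul_le_mul_of_nonneg_left (sum_abs_sq_le a) he
  simp only [← pow_two] at h1
  unfold F.qf
  linarith

theorem Gram.sq {T e : ℝ} {G : κ → Vec n} (h : Gram 1 T e G) (he : 0 ≤ e) (a : κ → ℝ) :
    |F.sq (lc G a) - T * ∑ i, a i ^ 2| ≤ Fintype.card κ * e * ∑ i, a i ^ 2 := by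
  have := h.qf he a
  rwa [qf_one] at this

theorem Gram.sq_le {T e : ℝ} {G : κ → Vec n} (h : Gram 1 T e G) (he : 0 ≤ e) (a : κ → ℝ) :
    F.sq (lc G a) ≤ (T + Fintype.card κ * e) * ∑ i, a i ^ 2 := by
  have := (abs_le.1 (h.sq he a)).2
  linarith

theorem Gram.le_sq {T e : ℝ} {G : κ → Vec n} (h : Gram 1 T e G) (he : 0 ≤ e) (a : κ → ℝ) :
    (T - Fintype.card κ * e) * ∑ i, a i ^ 2 ≤ F.sq (lc G a) := by
  have := (abs_le.1 (h.sq he a)).1
  linarith

omit [Fintype κ] in
theorem Gram.col {T e : ℝ} {G : κ → Vec n} (h : Gram 1 T e G) (i : κ) : F.sq (G i) ≤ T + e := by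
  have := (abs_le.1 (h i i)).2
  rw [one_mulVec, ipN_self, if_pos rfl] at this
  linarith

omit [Fintype κ] in
theorem Gram.diag {Z : Mat n} {T e : ℝ} {G : κ → Vec n} (h : Gram Z T e G) (i : κ) :
    |F.qf Z (G i) - T| ≤ e := by
  have := h i i
  rwa [if_pos rfl] at this

omit [Fintype κ] in
theorem Gram.abs_le {Z : Mat n} {T e : ℝ} {G : κ → Vec n} (h : Gram Z T e G) (i j : κ) :
    |ip (G i) (Z *ᵥ G j)| ≤ |T| + e := by
  have h1 := h i j
  have h2 : |if i = j then T else 0| ≤ |T| := by split_ifs <;> simp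
  have h3 := abs_sub_abs_le_abs_sub (ip (G i) (Z *ᵥ G j)) (if i = j then T else 0)
  linarith

end Lc

/-! ### excess of squares: G2, G3 and the Abel bound -/

/-- total excess of the squares over the level `t` -/
noncomputable def exc (t : ℝ) (v : Vec n) : ℝ := ∑ k, max (v k ^ 2 - t) 0

theorem exc_nonneg (t : ℝ) (v : Vec n) : 0 ≤ exc t v :=
  Finset.sum_nonneg fun _ _ => le_max_right _ _

theorem exc_anti {t t' : ℝ} (h : t ≤ t') (v : Vec n) : exc t' v ≤ exc t v :=
  Finset.sum_le_sum fun _ _ => max_le_max (by linarith) le_rfl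

theorem exc_of_flat {t : ℝ} {v : Vec n} (h : ∀ k, v k ^ 2 ≤ t) : exc t v = 0 :=
  Finset.sum_eq_zero fun k _ => max_eq_right (by linarith [h k])

theorem exc_le_sq {t : ℝ} (ht : 0 ≤ t) (v : Vec n) : exc t v ≤ F.sq v :=
  Finset.sum_le_sum fun k _ => max_le (by linarith) (sq_nonneg _)

theorem continuous_exc (t : ℝ) : Continuous (exc (n := n) t) := by
  unfold exc
  fun_prop

theorem exc_smul (c t : ℝ) (v : Vec n) : exc (c ^ 2 * t) (c • v) = c ^ 2 * exc t v := by
  unfold exc
  rw [Finset.mul_sum]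
  refine Finset.sum_congr rfl fun k _ => ?_
  rw [mul_max_of_nonneg _ _ (sq_nonneg c), Pi.smul_apply, smul_eq_mul, mul_zero]
  congr 1
  ring

theorem exc_add (t t' : ℝ) (u v : Vec n) :
    exc (2 * t + 2 * t') (u + v) ≤ 2 * exc t u + 2 * exc t' v := by
  unfold exc
  rw [Finset.mul_sum, Finset.mul_sum, ← Finset.sum_add_distrib]
  refine Finset.sum_le_sum fun k _ => ?_
  have h1 := le_max_left (u k ^ 2 - t) 0
  have h2 := le_max_left (v k ^ 2 - t') 0
  have h3 := le_max_right (u k ^ 2 - t) 0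
  have h4 := le_max_right (v k ^ 2 - t') 0
  refine max_le ?_ (by linarith)
  rw [Pi.add_apply]
  nlinarith [sq_nonneg (u k - v k)]

/-- a spread vector plus a small vector -/
theorem exc_add_small (t : ℝ) (u r : Vec n) :
    exc (2 * t) (u + r) ≤ 2 * exc t u + 2 * F.sq r := by
  have h1 := exc_add t 0 u r
  have h2 := exc_le_sq le_rfl r
  rw [mul_zero, add_zero] at h1
  linarith

theorem exc_lc {κ : Type*} [Fintype κ] (G : κ → Vec n) {be : κ → ℝ} {S t u : ℝ}
    (hS : ∑ i, be i ^ 2 ≤ S) (hu : S * (Fintype.card κ * t) ≤ u) :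
    exc u (lc G be) ≤ S * ∑ i, exc t (G i) := by
  have hS0 : 0 ≤ S := (Finset.sum_nonneg fun i _ => sq_nonneg _).trans hS
  unfold exc
  rw [Finset.sum_comm, Finset.mul_sum]
  refine Finset.sum_le_sum fun k _ => max_le ?_
    (mul_nonneg hS0 (Finset.sum_nonneg fun i _ => le_max_right _ _))
  have h1 : lc G be k ^ 2 ≤ S * ∑ i, G i k ^ 2 := by
    rw [lc_apply]
    exact (Finset.sum_mul_sq_le_sq_mul_sq _ _ _).trans
      (mul_le_mul_of_nonneg_right hS (Finset.sum_nonneg fun i _ => sq_nonneg _))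
  have h2 : ∑ i, G i k ^ 2 - Fintype.card κ * t ≤ ∑ i, max (G i k ^ 2 - t) 0 := by
    have : ∑ i, (G i k ^ 2 - t) ≤ ∑ i, max (G i k ^ 2 - t) 0 :=
      Finset.sum_le_sum fun i _ => le_max_left _ _
    simpa [Finset.sum_sub_distrib] using this
  have h3 := mul_le_mul_of_nonneg_left h2 hS0
  linarith

theorem exc_lc_le {κ : Type*} [Fintype κ] {G : κ → Vec n} {be : κ → ℝ} {S t u B : ℝ}
    (hG : ∀ i, exc t (G i) ≤ B) (hS : ∑ i, be i ^ 2 ≤ S) (hu : S * (Fintype.card κ * t) ≤ u) :
    exc u (lc G be) ≤ S * (Fintype.card κ * B) := by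
  have hS0 : 0 ≤ S := (Finset.sum_nonneg fun i _ => sq_nonneg _).trans hS
  refine (exc_lc G hS hu).trans (mul_le_mul_of_nonneg_left ?_ hS0)
  simpa using Finset.sum_le_card_nsmul Finset.univ _ B fun i _ => hG i

/-- Abel bound for all weights -/
theorem exc_abel {t M : ℝ} (v : Vec n) {W : Vec n} (hM : ∀ k, |W k| ≤ M) :
    ∑ k, |W k| * v k ^ 2 ≤ t * ∑ k, |W k| + M * exc t v := by
  unfold exc
  rw [Finset.mul_sum, Finset.mul_sum, ← Finset.sum_add_distrib]
  refine Finset.sum_le_sum fun k _ => ?_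
  have h1 := mul_le_mul_of_nonneg_left (le_max_left (v k ^ 2 - t) 0) (abs_nonneg (W k))
  have h2 := mul_le_mul_of_nonneg_right (hM k) (le_max_right (v k ^ 2 - t) 0)
  linarith

theorem exc_set (t : ℝ) (v : Vec n) (A : Finset (Fin n)) :
    ∑ k ∈ A, v k ^ 2 ≤ t * A.card + exc t v := by
  have h1 : ∑ k ∈ A, (v k ^ 2 - t) ≤ ∑ k ∈ A, max (v k ^ 2 - t) 0 :=
    Finset.sum_le_sum fun k _ => le_max_left _ _
  have h2 : ∑ k ∈ A, max (v k ^ 2 - t) 0 ≤ exc t v :=
    Finset.sum_le_sum_of_subset_of_nonneg (Finset.subset_univ A) fun k _ _ => le_max_right _ _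
  rw [Finset.sum_sub_distrib, Finset.sum_const, nsmul_eq_mul] at h1
  linarith

/-- weighted bilinear form of two vectors with small excess -/
theorem exc_bil {t M B : ℝ} {u v W : Vec n} (hM : ∀ k, |W k| ≤ M) (hM0 : 0 ≤ M)
    (hu : exc t u ≤ B) (hv : exc t v ≤ B) :
    |∑ k, W k * (u k * v k)| ≤ t * ∑ k, |W k| + M * B := by
  have h1 := exc_abel (t := t) u hM
  have h2 := exc_abel (t := t) v hM
  have h3 := mul_le_mul_of_nonneg_left hu hM0
  have h4 := mul_le_mul_of_nonneg_left hv hM0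
  have h5 : ∑ k, |W k * (u k * v k)| ≤ ∑ k, (|W k| * u k ^ 2 + |W k| * v k ^ 2) / 2 := by
    refine Finset.sum_le_sum fun k _ => ?_
    have h6 : |u k * v k| ≤ (u k ^ 2 + v k ^ 2) / 2 :=
      abs_le.2 ⟨by nlinarith [sq_nonneg (u k + v k)], by nlinarith [sq_nonneg (u k - v k)]⟩
    rw [abs_mul]
    nlinarith [mul_le_mul_of_nonneg_left h6 (abs_nonneg (W k))]
  rw [← Finset.sum_div, Finset.sum_add_distrib] at h5
  have h7 := Finset.abs_sum_le_sum_abs (fun k => W k * (u k * v k)) Finset.univ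
  linarith

theorem exc_count {t u : ℝ} (v : Vec n) (A : Finset (Fin n)) (h : ∀ k ∈ A, u ≤ v k ^ 2) :
    (u - t) * A.card ≤ exc t v := by
  have h1 := exc_set t v A
  have h2 := Finset.card_nsmul_le_sum A _ u h
  rw [nsmul_eq_mul] at h2
  linarith

theorem clip_sq {th : ℝ} (hth : 0 ≤ th) (a : ℝ) :
    (a - max (-th) (min th a)) ^ 2 ≤ max (a ^ 2 - th ^ 2) 0 := by
  rcases le_total a th with h1 | h1
  · rw [min_eq_right h1]
    rcases le_total a (-th) with h2 | h2
    · rw [max_eq_left h2]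
      exact le_max_of_le_left (by nlinarith)
    · rw [max_eq_right h2]
      simp
  · rw [min_eq_left h1, max_eq_right (by linarith)]
    exact le_max_of_le_left (by nlinarith)

theorem clip_comm {th : ℝ} (hth : 0 ≤ th) (a : ℝ) :
    min th (max (-th) a) = max (-th) (min th a) := by
  rw [min_max_distrib_left, min_eq_right (by linarith)]

/-- G3, deterministic part -/
theorem exc_clip {th : ℝ} (hth : 0 ≤ th) (v : Vec n) :
    F.sq (v - fun k => max (-th) (min th (v k))) ≤ exc (th ^ 2) v :=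
  Finset.sum_le_sum fun k _ => clip_sq hth (v k)

theorem exc_one_int (t : ℝ) :
    Integrable (fun z : ℝ => exp (max (z ^ 2 - t) 0 / 4)) (gaussianReal 0 1) ∧
      ∫ z, exp (max (z ^ 2 - t) 0 / 4) ∂gaussianReal 0 1 ≤ exp (3 / 2 * exp (-t / 4)) := by
  have h1 : (1 / 4 : ℝ) < 1 / 2 := by norm_num
  have hi := ((integrable_exp_sq_gaussian h1).const_mul (exp (-t / 4))).add
    (integrable_const (1 : ℝ))
  have hle : ∀ z : ℝ, exp (max (z ^ 2 - t) 0 / 4) ≤ exp (-t / 4) * exp (1 / 4 * z ^ 2) + 1 := by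
    intro z
    rw [← exp_add]
    rcases le_total (z ^ 2 - t) 0 with h | h
    · rw [max_eq_right h]
      simp [(exp_pos _).le]
    · rw [max_eq_left h]
      have : (z ^ 2 - t) / 4 = -t / 4 + 1 / 4 * z ^ 2 := by ring
      rw [this]
      linarith
  have hint : Integrable (fun z : ℝ => exp (max (z ^ 2 - t) 0 / 4)) (gaussianReal 0 1) := by
    refine hi.mono' (by fun_prop) (Filter.Eventually.of_forall fun z => ?_)
    rw [Real.norm_of_nonneg (exp_pos _).le]
    exact hle z
  refine ⟨hint, (integral_mono hint hi hle).trans ?_⟩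
  simp only [Pi.add_apply]
  rw [integral_add ((integrable_exp_sq_gaussian h1).const_mul _) (integrable_const _),
    integral_const_mul, integral_exp_sq_gaussian h1]
  have h2 : (√(1 - 2 * (1 / 4 : ℝ)))⁻¹ ≤ 3 / 2 := by
    rw [inv_le_comm₀ (sqrt_pos.2 (by norm_num)) (by norm_num)]
    exact le_sqrt_of_sq_le (by norm_num)
  have h3 := mul_le_mul_of_nonneg_left h2 (exp_pos (-t / 4)).le
  have h4 := add_one_le_exp (3 / 2 * exp (-t / 4))
  simp only [integral_const, probReal_univ, smul_eq_mul, mul_one]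
  linarith

/-- the event behind G2, G3 and the Abel bound -/
theorem exc_tail (t x : ℝ) :
    (gpi (Fin n)).real {v | 4 * x + 6 * n * exp (-t / 4) ≤ exc t v} ≤ exp (-x) := by
  have e : ∀ v : Vec n, exp (exc t v / 4) = ∏ k, exp (max (v k ^ 2 - t) 0 / 4) := by
    intro v
    rw [exc, Finset.sum_div, exp_sum]
  have hi : Integrable (fun v : Vec n => exp (exc t v / 4)) (gpi (Fin n)) := by
    simp_rw [e]
    exact Integrable.fintype_prod (μ := fun _ => gaussianReal 0 1)
      (f := fun _ z => exp (max (z ^ 2 - t) 0 / 4)) fun _ => (exc_one_int t).1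
  have h1 := markov_exp (gpi (Fin n)) hi (x + 3 / 2 * n * exp (-t / 4))
  have h2 : ∫ v : Vec n, exp (exc t v / 4) ∂gpi (Fin n) ≤ exp (3 / 2 * n * exp (-t / 4)) := by
    simp_rw [e]
    rw [integral_fintype_prod_eq_prod (μ := fun _ => gaussianReal 0 1)
      (f := fun (_ : Fin n) z => exp (max (z ^ 2 - t) 0 / 4))]
    refine (Finset.prod_le_prod (fun k _ => integral_nonneg fun z => (exp_pos _).le)
      fun k _ => (exc_one_int t).2).trans (le_of_eq ?_)
    rw [Finset.prod_const, Finset.card_univ, Fintype.card_fin, ← exp_nat_mul]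
    congr 1
    ring
  refine (real_imp_le _ fun v hv => by linarith).trans (h1.trans ?_)
  refine (mul_le_mul_of_nonneg_left h2 (exp_pos _).le).trans (le_of_eq ?_)
  rw [← exp_add]
  congr 1
  ring

theorem exc_cols {κ : Type*} [Fintype κ] (t x : ℝ) :
    (gf κ n).real {g | ∃ j, 4 * x + 6 * n * exp (-t / 4) ≤ exc t (g j)} ≤
      Fintype.card κ * exp (-x) :=
  cols_le (fun _ v => 4 * x + 6 * n * exp (-t / 4) ≤ exc t v) fun _ => exc_tail t x

theorem exc_cons {p : ℕ} {a : Vec n} {g : Fin p → Vec n} {t B : ℝ} (ha : ∀ k, a k ^ 2 ≤ t)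
    (hB : 0 ≤ B) (h : ∀ j, exc t (g j) ≤ B) (i : Fin (p + 1)) :
    exc t ((Fin.cons a g : Fin (p + 1) → Vec n) i) ≤ B := by
  refine Fin.cases ?_ (fun j => ?_) i
  · rw [Fin.cons_zero, exc_of_flat ha]
    exact hB
  · simpa using h j

/-- G3: all combinations with small coefficients are close to their clipped versions -/
theorem clip_lc {κ : Type*} [Fintype κ] {G : κ → Vec n} {al : κ → ℝ} {S t th B : ℝ}
    (hth : 0 ≤ th) (hG : ∀ i, exc t (G i) ≤ B) (hS : ∑ i, al i ^ 2 ≤ S)
    (hu : S * (Fintype.card κ * t) ≤ th ^ 2) :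
    F.sq (lc G al - fun k => max (-th) (min th (lc G al k))) ≤ S * (Fintype.card κ * B) :=
  (exc_clip hth _).trans (exc_lc_le hG hS hu)

/-! ### spread vectors -/

open Vale.Agent.N150.Rip

theorem cone_gauss : Cone (gpi (Fin n)) fun v => (√n)⁻¹ • v := by
  intro S t ht
  rcases Nat.eq_zero_or_pos n with hn | hn
  · subst hn
    refine measureReal_le_one.trans ?_
    simp
  have hn' : (0 : ℝ) < n := by exact_mod_cast hn
  have h1 := chi_set_lin (ι := Fin n) S (x := (n * t - 2 * S.card) / 4)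
  refine (real_imp_le _ fun v hv => ?_).trans (h1.trans (exp_le_exp.2 ?_))
  · have e : ∑ i ∈ S, ((√n)⁻¹ • v) i ^ 2 = (∑ i ∈ S, v i ^ 2) / n := by
      rw [Finset.sum_div]
      refine Finset.sum_congr rfl fun i _ => ?_
      rw [Pi.smul_apply, smul_eq_mul, mul_pow, inv_pow, sq_sqrt hn'.le]
      ring
    rw [e, lt_div_iff₀ hn'] at hv
    linarith
  · have : (0 : ℝ) ≤ S.card := Nat.cast_nonneg _
    have : 0 ≤ n * t := by positivity
    linarith

/-- G2 in the form of `Rip.Spread` -/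
theorem spread_cols {κ : Type*} [Fintype κ] {K : ℝ} (hK : 0 ≤ K) :
    (gf κ n).real {g | ∃ j, ¬ Spread 6 K ((√n)⁻¹ • g j)} ≤ Fintype.card κ * exp (-K) :=
  cols_le (fun _ v => ¬ Spread 6 K ((√n)⁻¹ • v)) fun _ => cone_gauss.spread hK

theorem spread_lc {κ : Type*} [Fintype κ] {G : κ → Vec n} {be : κ → ℝ} {c K S : ℝ}
    (hG : ∀ i, Spread c K (G i)) (hS : ∑ i, be i ^ 2 ≤ S) :
    Spread (S * (Fintype.card κ * c)) K (lc G be) := by
  have hS0 : 0 ≤ S := (Finset.sum_nonneg fun i _ => sq_nonneg _).trans hS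
  intro l A
  have h1 : ∑ k ∈ A, lc G be k ^ 2 ≤ S * ∑ i, ∑ k ∈ A, G i k ^ 2 := by
    rw [Finset.sum_comm, Finset.mul_sum]
    refine Finset.sum_le_sum fun k _ => ?_
    rw [lc_apply]
    exact (Finset.sum_mul_sq_le_sq_mul_sq _ _ _).trans
      (mul_le_mul_of_nonneg_right hS (Finset.sum_nonneg fun i _ => sq_nonneg _))
  have h2 : ∑ i, n * ∑ k ∈ A, G i k ^ 2 ≤ Fintype.card κ * (c * lev n K l A.card) := by
    simpa using Finset.sum_le_card_nsmul Finset.univ _ _ fun i _ => hG i l A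
  rw [← Finset.mul_sum] at h2
  have h3 := mul_le_mul_of_nonneg_left h1 (Nat.cast_nonneg (α := ℝ) n)
  have h4 := mul_le_mul_of_nonneg_left h2 hS0
  linarith

/-! ### measurability of the events -/

section Meas
variable {Ω : Type*} [MeasurableSpace Ω] {κ : Type*} [Fintype κ]

theorem measurable_lc {G : Ω → κ → Vec n} {be : Ω → κ → ℝ} (hG : Measurable G)
    (hb : Measurable be) : Measurable fun w => lc (G w) (be w) := by
  refine measurable_pi_lambda _ fun k => ?_
  simp_rw [lc_apply]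
  fun_prop

theorem measurable_exc {t : Ω → ℝ} {v : Ω → Vec n} (ht : Measurable t) (hv : Measurable v) :
    Measurable fun w => exc (t w) (v w) := by
  unfold exc
  fun_prop

theorem measurable_cons {p : ℕ} {a : Ω → Vec n} {g : Ω → Fin p → Vec n} (ha : Measurable a)
    (hg : Measurable g) : Measurable fun w => (Fin.cons (a w) (g w) : Fin (p + 1) → Vec n) := by
  refine measurable_pi_lambda _ fun i => ?_
  refine Fin.cases ?_ (fun j => ?_) i
  · simpa using ha
  · simp only [Fin.cons_succ]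
    exact (measurable_pi_apply j).comp hg

theorem measurableSet_gram [DecidableEq κ] {Z : Ω → Mat n} {T e : Ω → ℝ} {G : Ω → κ → Vec n}
    (hZ : ∀ i k, Measurable fun w => Z w i k) (hT : Measurable T) (he : Measurable e)
    (hG : Measurable G) : MeasurableSet {w | Gram (Z w) (T w) (e w) (G w)} := by
  have e1 : {w | Gram (Z w) (T w) (e w) (G w)} = ⋂ i, ⋂ j,
      {w | |ip (G w i) (Z w *ᵥ G w j) - if i = j then T w else 0| ≤ e w} := by
    ext w
    simp [Gram]
  rw [e1]
  refine MeasurableSet.iInter fun i => MeasurableSet.iInter fun j => measurableSet_le ?_ he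
  have h1 := measurable_ip ((measurable_pi_apply i).comp hG)
    (measurable_mulVec hZ ((measurable_pi_apply j).comp hG))
  by_cases hij : i = j
  · simp only [hij, if_true] at h1 ⊢
    exact (h1.sub hT).abs
  · simp only [hij, if_false]
    exact (h1.sub measurable_const).abs

theorem measurableSet_spread {c K : ℝ} {v : Ω → Vec n} (hv : Measurable v) :
    MeasurableSet {w | Spread c K (v w)} := by
  have e1 : {w | Spread c K (v w)} = ⋂ l : ℕ, ⋂ S : Finset (Fin n),
      {w | n * ∑ i ∈ S, v w i ^ 2 ≤ c * lev n K l S.card} := by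
    ext w
    simp [Spread]
  rw [e1]
  refine MeasurableSet.iInter fun l => MeasurableSet.iInter fun S =>
    measurableSet_le ?_ measurable_const
  fun_prop

end Meas

end Vale.Agent.N150.TG
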