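import Mathlib
import Vale.Agent.N150.Fib2
import Vale.Agent.N150.Tail3

/-! Coupling of the new directions of a chain of adaptive queries with independent Gaussian
vectors, and the expansion of explored vectors. -/

open MeasureTheory ProbabilityTheory Matrix
open scoped ENNReal

namespace Vale.Agent.N150.Fib

open Vale.Agent.P150 Vale.Agent.P150.F

variable {n : ℕ}

/-! ### independent Gaussian vectors -/

/-- `p` independent standard Gaussian vectors -/
noncomputable abbrev gp (n p : ℕ) : Measure (Fin p → Vec n) := Measure.pi fun _ => gpi (Fin n)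

theorem mp_curry (n p : ℕ) : MeasurePreserving (fun (w : Fin p × Fin n → ℝ) j i => w (j, i))
    (gpi (Fin p × Fin n)) (gp n p) := by
  have h := Measure.infinitePi_map_curry (ι := Fin p) (κ := Fin n) (X := ℝ)
    (fun _ _ => gaussianReal 0 1)
  simp only [Measure.infinitePi_eq_pi] at h
  exact ⟨(MeasurableEquiv.curry (Fin p) (Fin n) ℝ).measurable, h⟩

theorem measurable_snoc {X V : Type*} [MeasurableSpace X] [MeasurableSpace V] {p : ℕ}
    {f : X → Fin p → V} {g : X → V} (hf : Measurable f) (hg : Measurable g) :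
    Measurable fun x => (Fin.snoc (f x) (g x) : Fin (p + 1) → V) := by
  refine measurable_pi_iff.2 fun j => ?_
  refine Fin.lastCases ?_ (fun i => ?_) j
  · simpa only [Fin.snoc_last] using hg
  · simp only [Fin.snoc_castSucc]
    exact (measurable_pi_apply i).comp hf

theorem lint_snoc {p : ℕ} {F : (Fin (p + 1) → Vec n) → ℝ≥0∞} (hF : Measurable F) :
    ∫⁻ ξ, F ξ ∂gp n (p + 1) = ∫⁻ ξ, ∫⁻ x, F (Fin.snoc ξ x) ∂gpi (Fin n) ∂gp n p := by
  have h := (measurePreserving_piFinSuccAbove (fun _ : Fin (p + 1) => gpi (Fin n))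
    (Fin.last p)).symm
  rw [← h.lintegral_comp hF]
  refine (lintegral_prod_symm _ (hF.comp h.measurable).aemeasurable).trans ?_
  refine lintegral_congr fun ξ => lintegral_congr fun x => ?_
  exact congrArg F (Fin.insertNth_last' x ξ)

theorem measurable_nv : Measurable (nv : Vec n → ℝ) := by
  have e : (nv : Vec n → ℝ) = fun v => √(F.sq v) := funext nv_eq_sqrt
  rw [e]
  exact measurable_sq.sqrt

/-! ### one step -/

theorem rp_zero_vec (ρ : ℝ) : rp ρ (0 : Vec n) = 0 := by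
  unfold rp
  rw [smul_zero]

theorem rp_zero (u : Vec n) : rp 0 u = 0 := by
  unfold rp
  simp

theorem rp_rp {ρ : ℝ} (hρ : 0 < ρ) (ρ' : ℝ) (u : Vec n) : rp ρ' (rp ρ u) = rp ρ' u := by
  by_cases hu : u = 0
  · rw [hu, rp_zero_vec]
  · exact rp_smul (div_pos (Real.sqrt_pos.2 hρ) (Real.sqrt_pos.2 (sq_pos' hu))) ρ' u

theorem rp_ne_zero {ρ : ℝ} (hρ : 0 < ρ) {u : Vec n} (hu : u ≠ 0) : rp ρ u ≠ 0 := by
  intro h
  have h1 := sq_rp hρ.le hu
  rw [h] at h1
  simp [F.sq] at h1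
  exact hρ.ne h1

open Classical in
/-- a Gaussian vector whose `Q` part points in the direction `u` -/
noncomputable def cp (Q : Mat n) (u ξ : Vec n) : Vec n :=
  if u = 0 then ξ else rp (F.sq (Q *ᵥ ξ)) u + (1 - Q) *ᵥ ξ

theorem measurable_cp {X : Type*} [MeasurableSpace X] {Q : X → Mat n} {u ξ : X → Vec n}
    (hQ : MM Q) (hu : Measurable u) (hξ : Measurable ξ) :
    Measurable fun x => cp (Q x) (u x) (ξ x) :=
  Measurable.ite (measurableSet_eq_fun hu measurable_const) hξ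
    ((measurable_rp2.comp ((measurable_sq.comp (hQ.mulVec hξ)).prodMk hu)).add
      (((MM.const 1).sub hQ).mulVec hξ))

theorem lint_cp {Q : Mat n} (hQ : IsProj Q) {ρ : ℝ} (hρ : 0 ≤ ρ) {G : Vec n → ℝ≥0∞}
    (hG : Measurable G) :
    ∫⁻ g, ∫⁻ ξ, G (cp Q (rp ρ (Q *ᵥ g)) ξ) ∂gpi (Fin n) ∂gpi (Fin n) = ∫⁻ ξ, G ξ ∂gpi (Fin n) := by
  by_cases h0 : ρ = 0 ∨ Q = 0
  · have e : ∀ g : Vec n, rp ρ (Q *ᵥ g) = 0 := fun g => by
      rcases h0 with h | h
      · rw [h, rp_zero]
      · rw [h, zero_mulVec, rp_zero_vec]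
    simp [e, cp]
  push Not at h0
  have hρ' : 0 < ρ := lt_of_le_of_ne hρ h0.1.symm
  have m1 : Measurable (Function.uncurry fun g ξ : Vec n =>
      G (rs ((1 - Q) *ᵥ ξ) (F.sq (Q *ᵥ ξ)) Q g)) :=
    hG.comp (measurable_rs ((MM.const _).mulVec measurable_snd)
      (measurable_sq.comp ((MM.const _).mulVec measurable_snd)) (MM.const _) measurable_fst)
  have m2 : Measurable (Function.uncurry fun (ξ : Vec n) (U : OG n) => G (U.1 *ᵥ ξ)) :=
    hG.comp ((MM.val measurable_snd).mulVec measurable_fst)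
  calc _ = ∫⁻ g, ∫⁻ ξ, G (rs ((1 - Q) *ᵥ ξ) (F.sq (Q *ᵥ ξ)) Q g) ∂gpi (Fin n) ∂gpi (Fin n) := by
        refine lintegral_congr_ae ?_
        filter_upwards [ae_mulVec_ne_zero h0.2] with g hg
        refine lintegral_congr fun ξ => ?_
        unfold cp rs
        rw [if_neg (rp_ne_zero hρ' hg), rp_rp hρ', add_comm]
    _ = ∫⁻ ξ, ∫⁻ U, G (U.1 *ᵥ ξ) ∂haarH Q ∂gpi (Fin n) := by
        rw [lintegral_lintegral_swap m1.aemeasurable]
        exact lintegral_congr fun ξ =>
          (lint_vec (invOn_haarH Q) le_rfl hQ (trans_HG hQ) ξ hG).symm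
    _ = ∫⁻ _U, ∫⁻ ξ, G ξ ∂gpi (Fin n) ∂haarH Q := by
        rw [lintegral_lintegral_swap m2.aemeasurable]
        exact lintegral_congr fun U => (mp_mulVec (A := U.1) (OG.mul_transpose U)).lintegral_comp hG
    _ = _ := by simp

theorem ae_cp {Q : Mat n} (hQ : IsProj Q) {u : Vec n} (hu : Q *ᵥ u = u) :
    ∀ᵐ ξ ∂gpi (Fin n), u = 0 ∨ rp 1 u = rp 1 (Q *ᵥ cp Q u ξ) := by
  by_cases h0 : u = 0
  · exact ae_of_all _ fun _ => Or.inl h0
  have hQ0 : Q ≠ 0 := fun h => h0 (by rw [← hu, h, zero_mulVec])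
  filter_upwards [ae_mulVec_ne_zero hQ0] with ξ hξ
  right
  have e : Q *ᵥ rp (F.sq (Q *ᵥ ξ)) u = rp (F.sq (Q *ᵥ ξ)) u := by
    unfold rp
    rw [mulVec_smul, hu]
  unfold cp
  rw [if_neg h0, mulVec_add, e, Matrix.mulVec_mulVec, hQ.mul_compl, zero_mulVec, add_zero,
    rp_rp (sq_pos' hξ)]

/-- the side on which the answer lives: frame side for a site query -/
def sd (b : Bool) (O : OG n) (a : Vec n) : Vec n := if b then O.1 *ᵥ a else a

/-- the unexplored projection on the side of the answer -/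
def qs (b : Bool) (P : OG n → Mat n) (O : OG n) : Mat n := if b then Pt P O else P O

theorem sd_rp (b : Bool) (O : OG n) (ρ : ℝ) (a : Vec n) : sd b O (rp ρ a) = rp ρ (sd b O a) := by
  cases b
  · rfl
  · exact (rp_mulVec (OG.transpose_mul O) ρ a).symm

theorem sd_eq_zero {b : Bool} {O : OG n} {a : Vec n} (h : sd b O a = 0) : a = 0 := by
  cases b
  · exact h
  · have h1 : O.1 *ᵥ a = 0 := h
    rw [← OG.tr_mulVec_mulVec O a, h1, mulVec_zero]

theorem qs_sd (b : Bool) (P : OG n → Mat n) (O : OG n) (a : Vec n) :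
    qs b P O *ᵥ sd b O a = sd b O (P O *ᵥ a) := by
  cases b
  · rfl
  · show Pt P O *ᵥ (O.1 *ᵥ a) = O.1 *ᵥ (P O *ᵥ a)
    unfold Pt
    rw [← Matrix.mulVec_mulVec, ← Matrix.mulVec_mulVec, OG.tr_mulVec_mulVec]

theorem trace_qs (b : Bool) (P : OG n → Mat n) (O : OG n) : (qs b P O).trace = (P O).trace := by
  cases b
  · rfl
  · exact Explo.trace_Pt O

theorem measurable_sd (b : Bool) {a : OG n → Vec n} (ha : Measurable a) :
    Measurable fun O => sd b O (a O) := by
  cases b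
  · exact ha
  · exact mm_val.mulVec ha

namespace Explo

variable {μ : Measure (OG n)} {P : OG n → Mat n}

theorem proj_qs (h : Explo μ P) (b : Bool) (O : OG n) : IsProj (qs b P O) := by
  cases b
  · exact h.proj O
  · exact h.proj_Pt O

theorem mm_qs (h : Explo μ P) (b : Bool) : MM (qs b P) := by
  cases b
  · exact h.mm
  · exact h.mm_Pt

theorem adapted_qs (h : Explo μ P) (b : Bool) : Adapted P (qs b P) := by
  cases b
  · exact h.adapted
  · exact h.adapted_Pt

/-- the unexplored part of the next answer is uniform on its sphere -/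
theorem next_query (h : Explo μ P) (b : Bool) {v : OG n → Vec n} (hv : Measurable v)
    (ha : Adapted P v) {G : OG n → Vec n → ℝ≥0∞} (hG : Measurable (Function.uncurry G))
    (hGa : Adapted P G) :
    ∫⁻ O, G O (sd b O (P O *ᵥ dirQ b O (v O))) ∂μ =
      ∫⁻ O, ∫⁻ g, G O (rp (F.sq (P O *ᵥ dirQ b O (v O))) (qs b P O *ᵥ g)) ∂gpi (Fin n) ∂μ := by
  cases b
  · have h1 := h.next_frame hv ha (G := fun O a => G O (a - (Ex P O)ᵀ *ᵥ v O))
      (hG.comp (measurable_fst.prodMk (measurable_snd.sub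
        ((h.mm_Ex.transpose.mulVec hv).comp measurable_fst))))
      (hGa.comp₂ (h.adapted_Ex.comp₂ ha fun E w => Eᵀ *ᵥ w) fun G c (a : Vec n) => G (a - c))
    simp only [nxF, rs, add_sub_cancel_left, sq_Pt] at h1
    refine Eq.trans (lintegral_congr fun O => ?_) h1
    rw [Ex_tr_mulVec (h.proj O), sub_mulVec, one_mulVec, sub_sub_cancel]
    rfl
  · have h1 := h.next_site hv ha (G := fun O a => G O (a - Ex P O *ᵥ v O))
      (hG.comp (measurable_fst.prodMk (measurable_snd.sub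
        ((h.mm_Ex.mulVec hv).comp measurable_fst))))
      (hGa.comp₂ (h.adapted_Ex.comp₂ ha fun E w => E *ᵥ w) fun G c (a : Vec n) => G (a - c))
    simp only [nxS, rs, add_sub_cancel_left] at h1
    refine Eq.trans (lintegral_congr fun O => ?_) h1
    unfold Ex
    rw [← Matrix.mulVec_mulVec, sub_mulVec, one_mulVec, mulVec_sub, sub_sub_cancel]
    rfl

theorem measurable_un (h : Explo μ P) (b : Bool) {v : OG n → Vec n} (hv : Measurable v) :
    Measurable fun O => sd b O (P O *ᵥ dirQ b O (v O)) :=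
  measurable_sd b (h.mm.mulVec (measurable_dirQ measurable_const measurable_id hv))

theorem adapted_un (h : Explo μ P) (b : Bool) {v : OG n → Vec n} (ha : Adapted P v) :
    Adapted (fun O => rm (P O) (dirQ b O (v O))) (fun O => sd b O (P O *ᵥ dirQ b O (v O))) := by
  cases b
  · exact (h.adapted_rm h.adapted _).comp₂ (h.adapted_frame ha) fun A w => A *ᵥ w
  · have h1 := (h.adapted_rm h.adapted_Pt v).comp₂ (h.adapted_site ha) fun A w => A *ᵥ w
    intro O U hU
    have h2 := h1 O U hU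
    have e1 := qs_sd true P (O * U) (v (O * U))
    have e2 := qs_sd true P O (v O)
    exact e1.symm.trans (h2.trans e2)

/-- the coupled vector is a standard Gaussian vector independent of the data -/
theorem lint_cp (h : Explo μ P) (b : Bool) {v : OG n → Vec n} (hv : Measurable v)
    (ha : Adapted P v) {G : OG n → Vec n → ℝ≥0∞} (hG : Measurable (Function.uncurry G))
    (hGa : Adapted P G) :
    ∫⁻ O, ∫⁻ ξ, G O (cp (qs b P O) (sd b O (P O *ᵥ dirQ b O (v O))) ξ) ∂gpi (Fin n) ∂μ =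
      ∫⁻ O, ∫⁻ g, G O g ∂gpi (Fin n) ∂μ := by
  have m : Measurable (Function.uncurry fun (p : OG n × Vec n) (ξ : Vec n) =>
      G p.1 (cp (qs b P p.1) p.2 ξ)) :=
    hG.comp ((measurable_fst.comp measurable_fst).prodMk
      (measurable_cp ((h.mm_qs b).comp (measurable_fst.comp measurable_fst))
        (measurable_snd.comp measurable_fst) measurable_snd))
  rw [h.next_query b hv ha (G := fun O u => ∫⁻ ξ, G O (cp (qs b P O) u ξ) ∂gpi (Fin n))
    m.lintegral_prod_right
    (hGa.comp₂ (h.adapted_qs b) fun G Q (u : Vec n) => ∫⁻ ξ, G (cp Q u ξ) ∂gpi (Fin n))]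
  exact lintegral_congr fun O =>
    Fib.lint_cp (h.proj_qs b O) (sq_nonneg' _) (hG.comp measurable_prodMk_left)

end Explo

/-! ### chains of queries -/

/-- the unexplored site projection after `j` queries -/
noncomputable def pr (P₀ : OG n → Mat n) (b : ℕ → Bool) (v : ℕ → OG n → Vec n) :
    ℕ → OG n → Mat n
  | 0 => P₀
  | j + 1 => fun O => rm (pr P₀ b v j O) (dirQ (b j) O (v j O))

/-- `p` adaptive queries -/
structure Chain (μ : Measure (OG n)) (P₀ : OG n → Mat n) (b : ℕ → Bool) (v : ℕ → OG n → Vec n)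
    (p : ℕ) : Prop where
  base : Explo μ P₀
  meas : ∀ j < p, Measurable (v j)
  adapt : ∀ j < p, Adapted (pr P₀ b v j) (v j)

section Defs

variable (P₀ : OG n → Mat n) (b : ℕ → Bool) (v : ℕ → OG n → Vec n)

/-- the new unit site direction of query `j` (zero if nothing new is explored) -/
noncomputable def eh (j : ℕ) (O : OG n) : Vec n :=
  rp 1 (pr P₀ b v j O *ᵥ dirQ (b j) O (v j O))

/-- the new direction on the random side -/
noncomputable def nw (j : ℕ) (O : OG n) : Vec n := sd (b j) O (eh P₀ b v j O)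

/-- the unexplored projection on the random side -/
noncomputable def qr (j : ℕ) (O : OG n) : Mat n := qs (b j) (pr P₀ b v j) O

/-- exact compatibility of a Gaussian vector with query `j` -/
def Cmp (j : ℕ) (O : OG n) (g : Vec n) : Prop :=
  eh P₀ b v j O = 0 ∨ nw P₀ b v j O = rp 1 (qr P₀ b v j O *ᵥ g)

/-- the new direction is close to the normalised Gaussian vector -/
def Close (ε : ℝ) (j : ℕ) (O : OG n) (g : Vec n) : Prop :=
  eh P₀ b v j O = 0 ∨ nv (nw P₀ b v j O - (√(n : ℝ))⁻¹ • g) ≤ ε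

/-- the coupled Gaussian vectors -/
noncomputable def Gam (p : ℕ) (O : OG n) (ξ : Fin p → Vec n) : Fin p → Vec n := fun j =>
  cp (qr P₀ b v j O) (sd (b j) O (pr P₀ b v j O *ᵥ dirQ (b j) O (v j O))) (ξ j)

end Defs

section Det

variable {P₀ : OG n → Mat n} {b : ℕ → Bool} {v : ℕ → OG n → Vec n} {O : OG n}

theorem pr_succ (j : ℕ) (O : OG n) :
    pr P₀ b v (j + 1) O = rm (pr P₀ b v j O) (dirQ (b j) O (v j O)) := rfl

theorem proj_pr (h : IsProj (P₀ O)) (j : ℕ) : IsProj (pr P₀ b v j O) := by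
  induction j with
  | zero => exact h
  | succ j ih => exact ih.rm _

theorem pr_mul_pr (h : IsProj (P₀ O)) {i j : ℕ} (hij : i ≤ j) :
    pr P₀ b v j O * pr P₀ b v i O = pr P₀ b v j O := by
  induction j, hij using Nat.le_induction with
  | base => exact (proj_pr h i).idem
  | succ j _ ih => rw [pr_succ, ← (proj_pr h j).rm_mul, Matrix.mul_assoc, ih]

theorem trace_pr (j : ℕ) (O : OG n) : (P₀ O).trace - j ≤ (pr P₀ b v j O).trace := by
  induction j with
  | zero => simp [pr]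
  | succ j ih =>
    have h := trace_rm_ge (pr P₀ b v j O) (dirQ (b j) O (v j O))
    rw [pr_succ]
    push_cast
    linarith

/-- explored vectors stay explored -/
theorem pr_zero_mono (h : IsProj (P₀ O)) {i j : ℕ} (hij : i ≤ j) {a : Vec n}
    (ha : pr P₀ b v i O *ᵥ a = 0) : pr P₀ b v j O *ᵥ a = 0 := by
  rw [← pr_mul_pr h hij, ← Matrix.mulVec_mulVec, ha, mulVec_zero]

theorem pr_base (h : IsProj (P₀ O)) (j : ℕ) {a : Vec n} (ha : P₀ O *ᵥ a = 0) :
    pr P₀ b v j O *ᵥ a = 0 := pr_zero_mono h (Nat.zero_le j) ha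

/-- queried directions are explored -/
theorem pr_dir (h : IsProj (P₀ O)) {i j : ℕ} (hij : i < j) :
    pr P₀ b v j O *ᵥ dirQ (b i) O (v i O) = 0 :=
  pr_zero_mono h hij ((proj_pr h i).rm_mulVec_self _)

theorem pr_site (h : IsProj (P₀ O)) {i j : ℕ} (hij : i < j) (hb : b i = true) :
    pr P₀ b v j O *ᵥ v i O = 0 := by
  have h1 := pr_dir (b := b) (v := v) h hij
  rwa [hb] at h1

theorem pr_frame (h : IsProj (P₀ O)) {i j : ℕ} (hij : i < j) (hb : b i = false) :
    pr P₀ b v j O *ᵥ (O.1ᵀ *ᵥ v i O) = 0 := by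
  have h1 := pr_dir (b := b) (v := v) h hij
  rwa [hb] at h1

theorem pr_eh (h : IsProj (P₀ O)) {i j : ℕ} (hij : i ≤ j) :
    pr P₀ b v i O *ᵥ eh P₀ b v j O = eh P₀ b v j O := by
  have h1 : pr P₀ b v i O * pr P₀ b v j O = pr P₀ b v j O := by
    have h2 := congrArg transpose (pr_mul_pr (b := b) (v := v) h hij)
    rwa [transpose_mul, (proj_pr h i).symm, (proj_pr h j).symm] at h2
  unfold eh rp
  rw [mulVec_smul, Matrix.mulVec_mulVec, h1]

theorem base_eh (h : IsProj (P₀ O)) (j : ℕ) : P₀ O *ᵥ eh P₀ b v j O = eh P₀ b v j O :=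
  pr_eh h (Nat.zero_le j)

/-- new directions are orthogonal to everything explored before -/
theorem ip_eh_of (h : IsProj (P₀ O)) {j k : ℕ} (hjk : j ≤ k) {a : Vec n}
    (ha : pr P₀ b v j O *ᵥ a = 0) : ip (eh P₀ b v k O) a = 0 := by
  rw [← pr_eh h hjk, ip_eq_dot, (proj_pr h j).dot, ha, dotProduct_zero]

theorem sq_eh (j : ℕ) (O : OG n) : eh P₀ b v j O = 0 ∨ F.sq (eh P₀ b v j O) = 1 := by
  by_cases h : pr P₀ b v j O *ᵥ dirQ (b j) O (v j O) = 0
  · left
    unfold eh
    rw [h, rp_zero_vec]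
  · exact Or.inr (sq_rp zero_le_one h)

theorem sq_eh_le (j : ℕ) (O : OG n) : F.sq (eh P₀ b v j O) ≤ 1 := sq_rp_le zero_le_one _

theorem nv_eh_le (j : ℕ) (O : OG n) : nv (eh P₀ b v j O) ≤ 1 :=
  nv_le_of_sq_le zero_le_one (by rw [one_pow]; exact sq_eh_le j O)

theorem pj_eq_eh (j : ℕ) (O : OG n) : pj (pr P₀ b v j O *ᵥ dirQ (b j) O (v j O)) =
    vecMulVec (eh P₀ b v j O) (eh P₀ b v j O) := by
  rw [← pj_rp one_pos]
  show pj (eh P₀ b v j O) = _
  rcases sq_eh (P₀ := P₀) (b := b) (v := v) j O with h | h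
  · rw [h, pj_zero, zero_vecMulVec]
  · unfold pj
    rw [h, inv_one, one_smul]

theorem pr_eq (j : ℕ) (O : OG n) : pr P₀ b v j O =
    P₀ O - ∑ i ∈ Finset.range j, vecMulVec (eh P₀ b v i O) (eh P₀ b v i O) := by
  induction j with
  | zero => simp [pr]
  | succ j ih =>
    rw [pr_succ, Finset.sum_range_succ, ← sub_sub, ← ih, ← pj_eq_eh]
    rfl

theorem pr_succ_eh (h : IsProj (P₀ O)) (j : ℕ) : pr P₀ b v (j + 1) O *ᵥ eh P₀ b v j O = 0 := by
  unfold eh rp
  rw [mulVec_smul, Matrix.mulVec_mulVec, pr_mul_pr h (Nat.le_succ j), pr_dir h (Nat.lt_succ_self j),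
    smul_zero]

theorem pr_eh_zero (h : IsProj (P₀ O)) {i j : ℕ} (hij : i < j) :
    pr P₀ b v j O *ᵥ eh P₀ b v i O = 0 := pr_zero_mono h hij (pr_succ_eh h i)

theorem ip_eh_eh (h : IsProj (P₀ O)) {i j : ℕ} (hij : i ≠ j) :
    ip (eh P₀ b v i O) (eh P₀ b v j O) = 0 := by
  rcases lt_or_gt_of_ne hij with h1 | h1
  · rw [ipN_comm]
    exact ip_eh_of h le_rfl (pr_eh_zero h h1)
  · exact ip_eh_of h le_rfl (pr_eh_zero h h1)

theorem vecMulVec_self_mulVec (u a : Vec n) : vecMulVec u u *ᵥ a = ip u a • u := by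
  ext i
  simp only [Matrix.mulVec, dotProduct, vecMulVec_apply, Pi.smul_apply, smul_eq_mul, ip,
    Finset.sum_mul]
  exact Finset.sum_congr rfl fun j _ => by ring

/-- expansion of a vector along the explored directions -/
theorem expand (p : ℕ) (O : OG n) (a : Vec n) :
    a = (1 - P₀ O) *ᵥ a + ∑ j : Fin p, ip (eh P₀ b v j O) a • eh P₀ b v j O +
      pr P₀ b v p O *ᵥ a := by
  rw [pr_eq, Finset.sum_range, sub_mulVec, sub_mulVec, one_mulVec, Matrix.sum_mulVec]
  simp only [vecMulVec_self_mulVec]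
  abel

theorem sq_expand (h : IsProj (P₀ O)) (p : ℕ) (a : Vec n) :
    F.sq ((1 - P₀ O) *ᵥ a) + ∑ j : Fin p, ip (eh P₀ b v j O) a ^ 2 + F.sq (pr P₀ b v p O *ᵥ a) =
      F.sq a := by
  rw [h.compl.sq_eq, (proj_pr h p).sq_eq, sq_eq_dot]
  have h1 := congrArg (fun u => u ⬝ᵥ a) (expand (P₀ := P₀) (b := b) (v := v) p O a)
  simp only [add_dotProduct, sum_dotProduct, smul_dotProduct, smul_eq_mul] at h1
  rw [h1]
  simp only [pow_two, ip_eq_dot]

theorem sum_ip_sq_le (h : IsProj (P₀ O)) (p : ℕ) (a : Vec n) :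
    ∑ j : Fin p, ip (eh P₀ b v j O) a ^ 2 ≤ F.sq a := by
  have h1 := sq_expand (b := b) (v := v) h p a
  linarith [sq_nonneg' ((1 - P₀ O) *ᵥ a), sq_nonneg' (pr P₀ b v p O *ᵥ a)]

/-- an orthogonal family of vectors of length at most one -/
theorem nv_sum_orth {p : ℕ} {e : Fin p → Vec n} (h1 : ∀ j, F.sq (e j) ≤ 1)
    (h2 : ∀ i j, i ≠ j → ip (e i) (e j) = 0) {c : Fin p → ℝ} {r : ℝ} (hr : 0 ≤ r)
    (hc : ∀ j, |c j| ≤ r) : nv (∑ j, c j • e j) ≤ √p * r := by
  refine nv_le_of_sq_le (by positivity) ?_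
  have e1 : F.sq (∑ j, c j • e j) = ∑ j, c j ^ 2 * F.sq (e j) := by
    rw [sq_eq_dot, sum_dotProduct]
    refine Finset.sum_congr rfl fun i _ => ?_
    rw [dotProduct_sum, Finset.sum_eq_single i]
    · rw [← sq_eq_dot, sq_smul']
    · intro j _ hj
      rw [smul_dotProduct, dotProduct_smul, ← ip_eq_dot, h2 i j hj.symm]
      simp
    · simp
  rw [e1, mul_pow, Real.sq_sqrt (Nat.cast_nonneg p)]
  calc ∑ j, c j ^ 2 * F.sq (e j) ≤ ∑ _j : Fin p, r ^ 2 := Finset.sum_le_sum fun j _ => by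
        have h3 : c j ^ 2 ≤ r ^ 2 := by
          rw [← sq_abs]
          exact pow_le_pow_left₀ (abs_nonneg _) (hc j) 2
        nlinarith [h1 j, sq_nonneg (c j), sq_nonneg' (e j)]
    _ = p * r ^ 2 := by simp

theorem nv_sum_small {p : ℕ} {d : Fin p → Vec n} {c : Fin p → ℝ} {ε R : ℝ} (hε : 0 ≤ ε)
    (hR : 0 ≤ R) (h1 : ∀ j, c j = 0 ∨ nv (d j) ≤ ε) (h2 : ∑ j, c j ^ 2 ≤ R ^ 2) :
    nv (∑ j, c j • d j) ≤ √p * (ε * R) := by
  have h3 : ∑ j, |c j| ≤ √p * R := by
    refine (abs_le_of_sq_le_sq' ?_ (by positivity)).2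
    have h4 := sq_sum_le_card_mul_sum_sq (s := (Finset.univ : Finset (Fin p))) (f := fun j => |c j|)
    simp only [sq_abs, Finset.card_univ, Fintype.card_fin] at h4
    rw [mul_pow, Real.sq_sqrt (Nat.cast_nonneg p)]
    exact h4.trans (mul_le_mul_of_nonneg_left h2 (Nat.cast_nonneg p))
  calc nv (∑ j, c j • d j) ≤ ∑ j, nv (c j • d j) := nv_sum_le _ _
    _ ≤ ∑ j, |c j| * ε := Finset.sum_le_sum fun j _ => by
        rw [nv_smul]
        rcases h1 j with h | h
        · simp [h]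
        · exact mul_le_mul_of_nonneg_left h (abs_nonneg _)
    _ ≤ √p * (ε * R) := by
        rw [← Finset.sum_mul]
        nlinarith

/-- coefficients of the site side expansion -/
noncomputable def beS (P₀ : OG n → Mat n) (b : ℕ → Bool) (v : ℕ → OG n → Vec n) (O : OG n)
    (a : Vec n) (j : ℕ) : ℝ := if b j then 0 else ip (eh P₀ b v j O) a

/-- coefficients of the frame side expansion -/
noncomputable def beF (P₀ : OG n → Mat n) (b : ℕ → Bool) (v : ℕ → OG n → Vec n) (O : OG n)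
    (a : Vec n) (j : ℕ) : ℝ := if b j then ip (eh P₀ b v j O) a else 0

theorem beS_add_beF (a : Vec n) (j : ℕ) :
    beS P₀ b v O a j + beF P₀ b v O a j = ip (eh P₀ b v j O) a := by
  unfold beS beF
  split_ifs <;> simp

theorem sq_beS_add (a : Vec n) (j : ℕ) :
    beS P₀ b v O a j ^ 2 + beF P₀ b v O a j ^ 2 = ip (eh P₀ b v j O) a ^ 2 := by
  unfold beS beF
  split_ifs <;> simp

theorem sum_be_sq (h : IsProj (P₀ O)) (p : ℕ) (a : Vec n) :
    F.sq ((1 - P₀ O) *ᵥ a) + ∑ j : Fin p, beS P₀ b v O a j ^ 2 +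
      ∑ j : Fin p, beF P₀ b v O a j ^ 2 + F.sq (pr P₀ b v p O *ᵥ a) = F.sq a := by
  rw [← sq_expand (b := b) (v := v) h p a, add_assoc (F.sq _), ← Finset.sum_add_distrib]
  simp only [sq_beS_add]

theorem sum_beS_le (h : IsProj (P₀ O)) (p : ℕ) (a : Vec n) :
    F.sq ((1 - P₀ O) *ᵥ a) + ∑ j : Fin p, beS P₀ b v O a j ^ 2 ≤ F.sq a := by
  have h1 := sum_be_sq (b := b) (v := v) h p a
  have h2 : 0 ≤ ∑ j : Fin p, beF P₀ b v O a j ^ 2 := Finset.sum_nonneg fun _ _ => sq_nonneg _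
  linarith [sq_nonneg' (pr P₀ b v p O *ᵥ a)]

theorem sum_beF_le (h : IsProj (P₀ O)) (p : ℕ) (a : Vec n) :
    F.sq ((1 - P₀ O) *ᵥ a) + ∑ j : Fin p, beF P₀ b v O a j ^ 2 ≤ F.sq a := by
  have h1 := sum_be_sq (b := b) (v := v) h p a
  have h2 : 0 ≤ ∑ j : Fin p, beS P₀ b v O a j ^ 2 := Finset.sum_nonneg fun _ _ => sq_nonneg _
  linarith [sq_nonneg' (pr P₀ b v p O *ᵥ a)]

/-- **X1**: an explored site vector with small components on the directions of the site queries
is a combination of the Gaussian vectors of the frame queries. -/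
theorem X1 (h : IsProj (P₀ O)) {p : ℕ} {g : Fin p → Vec n} {ε r : ℝ} (hε : 0 ≤ ε) (hr : 0 ≤ r)
    (hg : ∀ j : Fin p, Close P₀ b v ε j O (g j)) {a : Vec n} (ha : pr P₀ b v p O *ᵥ a = 0)
    (hs : ∀ j : Fin p, b j = true → |ip (eh P₀ b v j O) a| ≤ r) :
    nv (a - (1 - P₀ O) *ᵥ a - ∑ j : Fin p, (beS P₀ b v O a j / √n) • g j) ≤
      √p * (r + ε * nv a) := by
  have e : a - (1 - P₀ O) *ᵥ a - ∑ j : Fin p, (beS P₀ b v O a j / √n) • g j =
      ∑ j : Fin p, beF P₀ b v O a j • eh P₀ b v j O +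
        ∑ j : Fin p, beS P₀ b v O a j • (eh P₀ b v j O - (√(n : ℝ))⁻¹ • g j) := by
    have h1 := expand (P₀ := P₀) (b := b) (v := v) p O a
    rw [ha, add_zero] at h1
    simp only [← beS_add_beF, add_smul, Finset.sum_add_distrib] at h1
    simp only [smul_sub, Finset.sum_sub_distrib, smul_smul, ← div_eq_mul_inv]
    rw [sub_eq_iff_eq_add'.2 h1]
    abel
  have h2 := nv_sum_orth (e := fun j : Fin p => eh P₀ b v j O) (fun j => sq_eh_le j O)
    (fun i j hij => ip_eh_eh h (Fin.val_ne_of_ne hij)) (c := fun j => beF P₀ b v O a j) hr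
    fun j => by
      unfold beF
      split_ifs with hb
      · exact hs j hb
      · simpa using hr
  have h3 := nv_sum_small (d := fun j : Fin p => eh P₀ b v j O - (√(n : ℝ))⁻¹ • g j)
    (c := fun j => beS P₀ b v O a j) hε (nv_nonneg a) (fun j => by
      unfold beS
      split_ifs with hb
      · exact Or.inl rfl
      · rcases hg j with h0 | h0
        · left
          rw [h0, ip_eq_dot, zero_dotProduct]
        · right
          simpa only [nw, sd, hb, Bool.false_eq_true, if_false] using h0)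
    (by
      have h4 := sum_beS_le (b := b) (v := v) h p a
      rw [nv_sq]
      linarith [sq_nonneg' ((1 - P₀ O) *ᵥ a)])
  rw [e, mul_add]
  exact (nv_add_le _ _).trans (add_le_add h2 h3)

/-- **X2**: the image of an explored site vector with small components on the directions of the
frame queries is a combination of the Gaussian vectors of the site queries. -/
theorem X2 (h : IsProj (P₀ O)) {p : ℕ} {g : Fin p → Vec n} {ε r : ℝ} (hε : 0 ≤ ε) (hr : 0 ≤ r)
    (hg : ∀ j : Fin p, Close P₀ b v ε j O (g j)) {a : Vec n} (ha : pr P₀ b v p O *ᵥ a = 0)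
    (hs : ∀ j : Fin p, b j = false → |ip (eh P₀ b v j O) a| ≤ r) :
    nv (O.1 *ᵥ a - O.1 *ᵥ ((1 - P₀ O) *ᵥ a) - ∑ j : Fin p, (beF P₀ b v O a j / √n) • g j) ≤
      √p * (r + ε * nv a) := by
  have e : O.1 *ᵥ a - O.1 *ᵥ ((1 - P₀ O) *ᵥ a) - ∑ j : Fin p, (beF P₀ b v O a j / √n) • g j =
      ∑ j : Fin p, beS P₀ b v O a j • O.1 *ᵥ eh P₀ b v j O +
        ∑ j : Fin p, beF P₀ b v O a j • (O.1 *ᵥ eh P₀ b v j O - (√(n : ℝ))⁻¹ • g j) := by
    have h0 := expand (P₀ := P₀) (b := b) (v := v) p O a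
    rw [ha, add_zero] at h0
    have h1 := congrArg (fun u => O.1 *ᵥ u) h0
    simp only [← beS_add_beF, add_smul, Finset.sum_add_distrib, mulVec_add, mulVec_sum,
      mulVec_smul] at h1
    simp only [smul_sub, Finset.sum_sub_distrib, smul_smul, ← div_eq_mul_inv]
    rw [sub_eq_iff_eq_add'.2 h1]
    abel
  have h2 := nv_sum_orth (e := fun j : Fin p => O.1 *ᵥ eh P₀ b v j O)
    (fun j => by rw [sq_mulVec_orth (OG.transpose_mul O)]; exact sq_eh_le j O)
    (fun i j hij => by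
      rw [ip_mulVec_orth (OG.transpose_mul O)]; exact ip_eh_eh h (Fin.val_ne_of_ne hij))
    (c := fun j => beS P₀ b v O a j) hr
    fun j => by
      unfold beS
      split_ifs with hb
      · simpa using hr
      · exact hs j (by simpa using hb)
  have h3 := nv_sum_small (d := fun j : Fin p => O.1 *ᵥ eh P₀ b v j O - (√(n : ℝ))⁻¹ • g j)
    (c := fun j => beF P₀ b v O a j) hε (nv_nonneg a) (fun j => by
      unfold beF
      split_ifs with hb
      · rcases hg j with h0 | h0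
        · left
          rw [h0, ip_eq_dot, zero_dotProduct]
        · right
          simpa only [nw, sd, hb, if_true] using h0
      · exact Or.inl rfl)
    (by
      have h4 := sum_beF_le (b := b) (v := v) h p a
      rw [nv_sq]
      linarith [sq_nonneg' ((1 - P₀ O) *ᵥ a)])
  rw [e, mul_add]
  exact (nv_add_le _ _).trans (add_le_add h2 h3)

end Det

namespace Chain

variable {μ : Measure (OG n)} {P₀ : OG n → Mat n} {b : ℕ → Bool} {v : ℕ → OG n → Vec n} {p : ℕ}

theorem zero (h : Explo μ P₀) : Chain μ P₀ b v 0 :=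
  ⟨h, fun _ hj => absurd hj (Nat.not_lt_zero _), fun _ hj => absurd hj (Nat.not_lt_zero _)⟩

theorem succ (h : Chain μ P₀ b v p) (hm : Measurable (v p)) (ha : Adapted (pr P₀ b v p) (v p)) :
    Chain μ P₀ b v (p + 1) :=
  ⟨h.base, fun j hj => (Nat.lt_succ_iff_lt_or_eq.1 hj).elim (h.meas j) fun e => e ▸ hm,
    fun j hj => (Nat.lt_succ_iff_lt_or_eq.1 hj).elim (h.adapt j) fun e => e ▸ ha⟩

theorem mono (h : Chain μ P₀ b v p) {q : ℕ} (hq : q ≤ p) : Chain μ P₀ b v q :=
  ⟨h.base, fun j hj => h.meas j (hj.trans_le hq), fun j hj => h.adapt j (hj.trans_le hq)⟩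

theorem explo (h : Chain μ P₀ b v p) {j : ℕ} (hj : j ≤ p) : Explo μ (pr P₀ b v j) := by
  induction j with
  | zero => exact h.base
  | succ j ih =>
    exact ((ih (Nat.le_of_succ_le hj)).query measurable_const (Adapted.const (b j)) (h.meas j hj)
      (h.adapt j hj)).1

theorem adapted_mono (h : Chain μ P₀ b v p) {α : Sort*} {D : OG n → α} {i j : ℕ} (hij : i ≤ j)
    (hD : Adapted (pr P₀ b v i) D) : Adapted (pr P₀ b v j) D :=
  hD.mono fun O => pr_mul_pr (h.base.proj O) hij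

theorem adapted_base (h : Chain μ P₀ b v p) {α : Sort*} {D : OG n → α} (j : ℕ)
    (hD : Adapted P₀ D) : Adapted (pr P₀ b v j) D := h.adapted_mono (Nat.zero_le j) hD

/-- earlier answers are known -/
theorem adapted_ans (h : Chain μ P₀ b v p) {i j : ℕ} (hi : i < p) (hij : i < j) :
    Adapted (pr P₀ b v j) (fun O => ans (b i) O (v i O)) :=
  h.adapted_mono hij ((h.explo hi.le).query measurable_const (Adapted.const (b i)) (h.meas i hi)
    (h.adapt i hi)).2

theorem adapted_eh (h : Chain μ P₀ b v p) {i j : ℕ} (hi : i < p) (hij : i < j) :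
    Adapted (pr P₀ b v j) (eh P₀ b v i) := by
  refine h.adapted_mono (i := i + 1) hij ?_
  have h1 := (h.explo hi.le).adapted_rm (h.explo hi.le).adapted (fun O => dirQ (b i) O (v i O))
  have h2 : Adapted (pr P₀ b v (i + 1)) (fun O => dirQ (b i) O (v i O)) := by
    have h3 := h.adapted_ans hi (Nat.lt_succ_self i)
    have h4 := h.adapted_mono (Nat.le_succ i) (h.adapt i hi)
    cases hb : b i
    · simpa only [hb, dirQ, ans, Bool.false_eq_true, if_false] using h3
    · simpa only [dirQ, if_true] using h4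
  exact h1.comp₂ h2 fun A u => rp 1 (A *ᵥ u)

theorem measurable_eh (h : Chain μ P₀ b v p) {i : ℕ} (hi : i < p) : Measurable (eh P₀ b v i) :=
  (measurable_rp 1).comp ((h.explo hi.le).mm.mulVec
    (measurable_dirQ measurable_const measurable_id (h.meas i hi)))

/-- a chain from the deterministic property that each query is a function of the base data and
of the earlier answers -/
theorem of_det (h : Explo μ P₀) (hm : ∀ j < p, Measurable (v j))
    (hd : ∀ j < p, ∀ O U : OG n, U ∈ HG (P₀ O) →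
      (∀ i < j, ans (b i) (O * U) (v i O) = ans (b i) O (v i O)) → v j (O * U) = v j O) :
    Chain μ P₀ b v p := by
  induction p with
  | zero => exact zero h
  | succ p ih =>
    have h1 := ih (fun j hj => hm j (Nat.lt_succ_of_lt hj)) fun j hj => hd j (Nat.lt_succ_of_lt hj)
    refine h1.succ (hm p (Nat.lt_succ_self p)) fun O U hU => ?_
    refine hd p (Nat.lt_succ_self p) O U
      (HG_mono (pr_mul_pr (h.proj O) (Nat.zero_le p)) hU) fun i hi => ?_
    have h2 := h1.adapted_ans hi hi O U hU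
    have h3 := h1.adapted_mono hi.le (h1.adapt i hi) O U hU
    simp only at h2
    rwa [h3] at h2

theorem measurable_Gam (h : Chain μ P₀ b v p) :
    Measurable fun x : OG n × (Fin p → Vec n) => Gam P₀ b v p x.1 x.2 :=
  measurable_pi_iff.2 fun j => measurable_cp
    (((h.explo j.2.le).mm_qs (b j)).comp measurable_fst)
    (((h.explo j.2.le).measurable_un (b j) (h.meas j j.2)).comp measurable_fst)
    ((measurable_pi_apply j).comp measurable_snd)

theorem adapted_Gam (h : Chain μ P₀ b v p) : Adapted (pr P₀ b v p) (Gam P₀ b v p) := by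
  intro O U hU
  funext ξ j
  have h1 := h.adapted_mono j.2.le ((h.explo j.2.le).adapted_qs (b j)) O U hU
  have h2 := h.adapted_mono (i := j + 1) j.2
    ((h.explo j.2.le).adapted_un (b j) (h.adapt j j.2)) O U hU
  unfold Gam qr
  rw [h1, h2]

theorem ae_cmp (h : Chain μ P₀ b v p) (O : OG n) :
    ∀ᵐ ξ ∂gp n p, ∀ j : Fin p, Cmp P₀ b v j O (Gam P₀ b v p O ξ j) := by
  refine ae_all_iff.2 fun j => ?_
  have hE := h.explo j.2.le
  have h1 := ae_cp (hE.proj_qs (b j) O)
    (u := sd (b j) O (pr P₀ b v j O *ᵥ dirQ (b j) O (v j O)))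
    (by rw [qs_sd, (hE.proj O).mulVec_mulVec])
  filter_upwards [(measurePreserving_eval (fun _ : Fin p => gpi (Fin n))
    j).quasiMeasurePreserving.ae h1] with ξ hξ
  rcases hξ with h0 | h0
  · left
    unfold eh
    rw [sd_eq_zero h0, rp_zero_vec]
  · right
    unfold nw eh
    rw [sd_rp]
    exact h0

theorem Gam_snoc (O : OG n) (ξ : Fin p → Vec n) (x : Vec n) :
    Gam P₀ b v (p + 1) O (Fin.snoc ξ x) = Fin.snoc (Gam P₀ b v p O ξ)
      (cp (qr P₀ b v p O) (sd (b p) O (pr P₀ b v p O *ᵥ dirQ (b p) O (v p O))) x) := by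
  funext j
  refine Fin.lastCases ?_ (fun i => ?_) j
  · simp only [Gam, Fin.snoc_last, Fin.val_last]
  · simp only [Gam, Fin.snoc_castSucc, Fin.val_castSucc]

/-- the coupled vectors are independent standard Gaussian vectors, independent of the base data -/
theorem lint_Gam [SFinite μ] (h : Chain μ P₀ b v p) {G : OG n → (Fin p → Vec n) → ℝ≥0∞}
    (hG : Measurable (Function.uncurry G)) (hGa : Adapted P₀ G) :
    ∫⁻ O, ∫⁻ ξ, G O (Gam P₀ b v p O ξ) ∂gp n p ∂μ = ∫⁻ O, ∫⁻ g, G O g ∂gp n p ∂μ := by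
  induction p with
  | zero =>
    refine lintegral_congr fun O => lintegral_congr fun ξ => ?_
    congr 1
    exact Subsingleton.elim _ _
  | succ p ih =>
    have h1 := h.mono (Nat.le_succ p)
    have hE := h1.explo le_rfl
    have hp := Nat.lt_succ_self p
    set c : OG n → Vec n → Vec n := fun O x =>
      cp (qr P₀ b v p O) (sd (b p) O (pr P₀ b v p O *ᵥ dirQ (b p) O (v p O))) x with hc
    have mc : Measurable fun x : OG n × Vec n => c x.1 x.2 :=
      measurable_cp ((hE.mm_qs (b p)).comp measurable_fst)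
        ((hE.measurable_un (b p) (h.meas p hp)).comp measurable_fst) measurable_snd
    have m0 : Measurable fun y : (OG n × (Fin p → Vec n)) × Vec n =>
        G y.1.1 (Fin.snoc (Gam P₀ b v p y.1.1 y.1.2) y.2) :=
      hG.comp (measurable_fst.fst.prodMk
        (measurable_snoc (h1.measurable_Gam.comp measurable_fst) measurable_snd))
    have m1 : Measurable fun y : (OG n × (Fin p → Vec n)) × Vec n =>
        G y.1.1 (Fin.snoc (Gam P₀ b v p y.1.1 y.1.2) (c y.1.1 y.2)) :=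
      m0.comp (measurable_fst.prodMk (mc.comp (measurable_fst.fst.prodMk measurable_snd)))
    have m2 : Measurable fun y : (OG n × (Fin p → Vec n)) × Vec n =>
        G y.1.1 (Fin.snoc y.1.2 y.2) :=
      hG.comp (measurable_fst.fst.prodMk (measurable_snoc measurable_fst.snd measurable_snd))
    calc _ = ∫⁻ O, ∫⁻ ξ, ∫⁻ x, G O (Fin.snoc (Gam P₀ b v p O ξ) (c O x))
            ∂gpi (Fin n) ∂gp n p ∂μ := by
          refine lintegral_congr fun O => ?_
          rw [lint_snoc (F := fun ξ => G O (Gam P₀ b v (p + 1) O ξ))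
            (hG.comp (measurable_const.prodMk (h.measurable_Gam.comp measurable_prodMk_left)))]
          simp only [Gam_snoc, hc]
      _ = ∫⁻ ξ, ∫⁻ O, ∫⁻ x, G O (Fin.snoc (Gam P₀ b v p O ξ) (c O x))
            ∂gpi (Fin n) ∂μ ∂gp n p :=
          lintegral_lintegral_swap m1.lintegral_prod_right'.aemeasurable
      _ = ∫⁻ ξ, ∫⁻ O, ∫⁻ x, G O (Fin.snoc (Gam P₀ b v p O ξ) x) ∂gpi (Fin n) ∂μ ∂gp n p := by
          refine lintegral_congr fun ξ => ?_
          exact hE.lint_cp (b p) (h.meas p hp) (h.adapt p hp)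
            (G := fun O x => G O (Fin.snoc (Gam P₀ b v p O ξ) x))
            (m0.comp ((measurable_fst.prodMk measurable_const).prodMk measurable_snd))
            ((h1.adapted_base p hGa).comp₂ h1.adapted_Gam
              fun G Γ (x : Vec n) => G (Fin.snoc (Γ ξ) x))
      _ = ∫⁻ O, ∫⁻ ξ, ∫⁻ x, G O (Fin.snoc (Gam P₀ b v p O ξ) x) ∂gpi (Fin n) ∂gp n p ∂μ :=
          (lintegral_lintegral_swap m0.lintegral_prod_right'.aemeasurable).symm
      _ = ∫⁻ O, ∫⁻ g, ∫⁻ x, G O (Fin.snoc g x) ∂gpi (Fin n) ∂gp n p ∂μ :=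
          ih h1 (G := fun O g => ∫⁻ x, G O (Fin.snoc g x) ∂gpi (Fin n)) m2.lintegral_prod_right'
            (hGa.comp fun G (g : Fin p → Vec n) => ∫⁻ x, G (Fin.snoc g x) ∂gpi (Fin n))
      _ = _ := lintegral_congr fun O => (lint_snoc (hG.comp measurable_prodMk_left)).symm

/-- the coupled vector `j` is independent of the data before query `j` -/
theorem lint_Gam_one (h : Chain μ P₀ b v p) (j : Fin p) {G : OG n → Vec n → ℝ≥0∞}
    (hG : Measurable (Function.uncurry G)) (hGa : Adapted (pr P₀ b v j) G) :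
    ∫⁻ O, ∫⁻ ξ, G O (Gam P₀ b v p O ξ j) ∂gp n p ∂μ = ∫⁻ O, ∫⁻ g, G O g ∂gpi (Fin n) ∂μ := by
  rw [← (h.explo j.2.le).lint_cp (b j) (h.meas j j.2) (h.adapt j j.2) hG hGa]
  refine lintegral_congr fun O => ?_
  exact (measurePreserving_eval (fun _ : Fin p => gpi (Fin n)) j).lintegral_comp
    (f := fun x => G O (cp (qr P₀ b v j O) (sd (b j) O (pr P₀ b v j O *ᵥ dirQ (b j) O (v j O))) x))
    (hG.comp (measurable_const.prodMk (measurable_cp (MM.const _) measurable_const measurable_id)))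

/-- **SIM**, exact form. -/
theorem sim [IsProbabilityMeasure μ] (h : Chain μ P₀ b v p)
    {B₀ : OG n → (Fin p → Vec n) → Prop}
    (hB₀ : MeasurableSet {x : OG n × (Fin p → Vec n) | B₀ x.1 x.2}) (hBa₀ : Adapted P₀ B₀)
    {A : Set (OG n)} {p₀ : ℝ} (h0 : 0 ≤ p₀) (hp₀ : ∀ O, O ∉ A → (gp n p).real {g | B₀ O g} ≤ p₀)
    {B : Fin p → OG n → Vec n → Prop}
    (hB : ∀ j, MeasurableSet {x : OG n × Vec n | B j x.1 x.2})
    (hBa : ∀ j : Fin p, Adapted (pr P₀ b v j) (B j)) {q : ℝ} (hq0 : 0 ≤ q)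
    (hq : ∀ j O, (gpi (Fin n)).real {g | B j O g} ≤ q) :
    μ.real {O | ¬ ∃ g : Fin p → Vec n, ¬ B₀ O g ∧ ∀ j : Fin p, Cmp P₀ b v j O (g j) ∧
      ¬ B j O (g j)} ≤ μ.real A + p₀ + p * q := by
  have mG := h.measurable_Gam
  have s0 : MeasurableSet {x : OG n × (Fin p → Vec n) | B₀ x.1 (Gam P₀ b v p x.1 x.2)} :=
    (measurable_fst.prodMk mG) hB₀
  have s1 : ∀ j, MeasurableSet {x : OG n × (Fin p → Vec n) | B j x.1 (Gam P₀ b v p x.1 x.2 j)} :=
    fun j => (measurable_fst.prodMk ((measurable_pi_apply j).comp mG)) (hB j)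
  set φ₀ : OG n → ℝ≥0∞ := fun O => gp n p {ξ | B₀ O (Gam P₀ b v p O ξ)} with hφ₀
  set φ : Fin p → OG n → ℝ≥0∞ := fun j O => gp n p {ξ | B j O (Gam P₀ b v p O ξ j)} with hφ
  have mφ₀ : Measurable φ₀ := measurable_measure_prodMk_left s0
  have mφ : ∀ j, Measurable (φ j) := fun j => measurable_measure_prodMk_left (s1 j)
  have e0 : ∫⁻ O, φ₀ O ∂μ = ∫⁻ O, gp n p {g | B₀ O g} ∂μ := by
    have h1 := h.lint_Gam
      (G := fun O g => {x : OG n × (Fin p → Vec n) | B₀ x.1 x.2}.indicator 1 (O, g))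
      (measurable_one.indicator hB₀)
      (hBa₀.comp fun (c : (Fin p → Vec n) → Prop) (g : Fin p → Vec n) =>
        {g | c g}.indicator (1 : (Fin p → Vec n) → ℝ≥0∞) g)
    refine Eq.trans (lintegral_congr fun O => ?_) (h1.trans (lintegral_congr fun O => ?_))
    · exact (lintegral_indicator_one (measurable_prodMk_left s0)).symm
    · exact lintegral_indicator_one (measurable_prodMk_left hB₀)
  have e1 : ∀ j, ∫⁻ O, φ j O ∂μ = ∫⁻ O, gpi (Fin n) {g | B j O g} ∂μ := fun j => by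
    have h1 := h.lint_Gam_one j
      (G := fun O g => {x : OG n × Vec n | B j x.1 x.2}.indicator 1 (O, g))
      (measurable_one.indicator (hB j))
      ((hBa j).comp fun (c : Vec n → Prop) (g : Vec n) =>
        {g | c g}.indicator (1 : Vec n → ℝ≥0∞) g)
    refine Eq.trans (lintegral_congr fun O => ?_) (h1.trans (lintegral_congr fun O => ?_))
    · exact (lintegral_indicator_one (measurable_prodMk_left (s1 j))).symm
    · exact lintegral_indicator_one (measurable_prodMk_left (hB j))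
  have b0 : (∫⁻ O, φ₀ O ∂μ).toReal ≤ μ.real A + p₀ :=
    Explo.lint_le_real e0 (fun _ => prob_le_one) h0 hp₀
  have b1 : ∀ j, (∫⁻ O, φ j O ∂μ).toReal ≤ q := fun j => by
    have h1 := Explo.lint_le_real (A := ∅) (e1 j) (fun _ => prob_le_one) hq0 fun O _ => hq j O
    simpa using h1
  have f0 : ∫⁻ O, φ₀ O ∂μ ≠ ∞ :=
    ne_top_of_le_ne_top ENNReal.one_ne_top ((lintegral_mono fun _ => prob_le_one).trans (by simp))
  have f1 : ∀ j, ∫⁻ O, φ j O ∂μ ≠ ∞ := fun j =>
    ne_top_of_le_ne_top ENNReal.one_ne_top ((lintegral_mono fun _ => prob_le_one).trans (by simp))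
  have key : μ {O | ¬ ∃ g : Fin p → Vec n, ¬ B₀ O g ∧ ∀ j : Fin p, Cmp P₀ b v j O (g j) ∧
      ¬ B j O (g j)} ≤ ∫⁻ O, φ₀ O ∂μ + ∑ j, ∫⁻ O, φ j O ∂μ := by
    have mS : Measurable fun O => φ₀ O + ∑ j, φ j O :=
      mφ₀.add (Finset.measurable_sum _ fun j _ => mφ j)
    have h1 := mul_meas_ge_le_lintegral (μ := μ) mS 1
    rw [one_mul, lintegral_add_left mφ₀, lintegral_finsetSum _ fun j _ => mφ j] at h1
    refine (measure_mono fun O hO => ?_).trans h1
    have h2 : ∀ᵐ ξ ∂gp n p, ξ ∈ {ξ | B₀ O (Gam P₀ b v p O ξ)} ∪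
        ⋃ j, {ξ | B j O (Gam P₀ b v p O ξ j)} := by
      filter_upwards [h.ae_cmp O] with ξ hξ
      by_contra hc
      simp only [Set.mem_union, Set.mem_iUnion, Set.mem_ofPred_eq, not_or, not_exists] at hc
      exact hO ⟨_, hc.1, fun j => ⟨hξ j, hc.2 j⟩⟩
    calc (1 : ℝ≥0∞) = gp n p Set.univ := measure_univ.symm
      _ ≤ gp n p ({ξ | B₀ O (Gam P₀ b v p O ξ)} ∪ ⋃ j, {ξ | B j O (Gam P₀ b v p O ξ j)}) :=
          measure_mono_ae (h2.mono fun ξ hξ _ => hξ)
      _ ≤ φ₀ O + ∑ j, φ j O :=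
          (measure_union_le _ _).trans (add_le_add le_rfl (measure_iUnion_fintype_le _ _))
  have h3 := ENNReal.toReal_mono
    (ENNReal.add_ne_top.2 ⟨f0, ENNReal.sum_ne_top.2 fun j _ => f1 j⟩) key
  rw [ENNReal.toReal_add f0 (ENNReal.sum_ne_top.2 fun j _ => f1 j),
    ENNReal.toReal_sum fun j _ => f1 j] at h3
  have h4 : ∑ j, (∫⁻ O, φ j O ∂μ).toReal ≤ p * q :=
    (Finset.sum_le_sum fun j _ => b1 j).trans (by simp)
  exact h3.trans (add_le_add b0 h4)

/-- **SIM**: outside a small set there are typical Gaussian vectors close to the new directions. -/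
theorem sim_close [IsProbabilityMeasure μ] (h : Chain μ P₀ b v p) {r x : ℝ} (hx : 0 ≤ x)
    (hr : ∀ O, n - r ≤ (P₀ O).trace) {B₀ : OG n → (Fin p → Vec n) → Prop}
    (hB₀ : MeasurableSet {x : OG n × (Fin p → Vec n) | B₀ x.1 x.2}) (hBa₀ : Adapted P₀ B₀)
    {A : Set (OG n)} {p₀ : ℝ} (h0 : 0 ≤ p₀) (hp₀ : ∀ O, O ∉ A → (gp n p).real {g | B₀ O g} ≤ p₀)
    {B : Fin p → OG n → Vec n → Prop}
    (hB : ∀ j, MeasurableSet {x : OG n × Vec n | B j x.1 x.2})
    (hBa : ∀ j : Fin p, Adapted (pr P₀ b v j) (B j)) {q : ℝ} (hq0 : 0 ≤ q)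
    (hq : ∀ j O, (gpi (Fin n)).real {g | B j O g} ≤ q) :
    μ.real {O | ¬ ∃ g : Fin p → Vec n, ¬ B₀ O g ∧ ∀ j : Fin p,
      Close P₀ b v (6 * √(r + p + x) / √n) j O (g j) ∧ ¬ B j O (g j)} ≤
      μ.real A + p₀ + p * (q + 3 * Real.exp (-x)) := by
  set ε : ℝ := 6 * √(r + p + x) / √n with hε
  have mq : ∀ j : Fin p, MM (qr P₀ b v j) := fun j => (h.explo j.2.le).mm_qs (b j)
  have h1 := h.sim hB₀ hBa₀ h0 hp₀ (B := fun j O g => B j O g ∨
      ε < nv (rp 1 (qr P₀ b v j O *ᵥ g) - (√(n : ℝ))⁻¹ • g)) (fun j => (hB j).union ?_)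
    (fun j => (hBa j).comp₂ ((h.explo j.2.le).adapted_qs (b j))
      fun (c : Vec n → Prop) Q (g : Vec n) =>
        c g ∨ ε < nv (rp 1 (Q *ᵥ g) - (√(n : ℝ))⁻¹ • g))
    (q := q + 3 * Real.exp (-x)) (by positivity) fun j O => ?_
  · refine (Tail.real_imp_le μ fun O hO hc => hO ?_).trans h1
    obtain ⟨g, hg0, hg⟩ := hc
    refine ⟨g, hg0, fun j => ?_⟩
    obtain ⟨hg1, hg2⟩ := hg j
    rw [not_or, not_lt] at hg2
    refine ⟨hg1.imp_right fun e => ?_, hg2.1⟩
    rw [e]
    exact hg2.2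
  · have m1 : Measurable fun y : OG n × Vec n => rp 1 (qr P₀ b v j y.1 *ᵥ y.2) :=
      (measurable_rp 1).comp (((mq j).comp measurable_fst).mulVec measurable_snd)
    have m2 : Measurable fun y : OG n × Vec n => (√(n : ℝ))⁻¹ • y.2 := by fun_prop
    exact measurableSet_lt measurable_const (measurable_nv.comp (m1.sub m2))
  · refine (Tail.real_or_le _ fun g hg => hg).trans (add_le_add (hq j O) ?_)
    have hQ := (h.explo j.2.le).proj_qs (b j) O
    have ht : n - (qr P₀ b v j O).trace ≤ r + p := by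
      have h2 := trace_pr (P₀ := P₀) (b := b) (v := v) j O
      have h3 : (j : ℝ) ≤ p := by exact_mod_cast j.2.le
      unfold qr
      rw [trace_qs]
      linarith [hr O]
    refine (Tail.real_imp_le _ fun g hg => ?_).trans
      (Tail.near_gauss hQ.symm hQ.idem 1 ht (σ := (√(n : ℝ))⁻¹) (by positivity) hx)
    rcases Nat.eq_zero_or_pos n with hn | hn
    · exfalso
      subst hn
      have h5 : nv (rp 1 (qr P₀ b v j O *ᵥ g) - (√((0 : ℕ) : ℝ))⁻¹ • g) = 0 := by
        rw [Subsingleton.elim (_ - _) (0 : Vec 0), nv_zero]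
      rw [h5, hε] at hg
      simp at hg
    · have h5 : √(n : ℝ) ≠ 0 := (Real.sqrt_pos.2 (by exact_mod_cast hn)).ne'
      rw [Real.sqrt_one, inv_mul_cancel₀ h5, sub_self, abs_zero, zero_add]
      refine lt_of_eq_of_lt ?_ hg
      rw [hε]
      ring

end Chain

end Vale.Agent.N150.Fib
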