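import Mathlib
import Vale.Agent.N150.Sim

/-! The alternating query program: frame query `O h^j`, site query `chi (h^j)`. -/

open MeasureTheory ProbabilityTheory Matrix
open scoped ENNReal

namespace Vale.Agent.N150.X3P

open Vale.Agent.P150 Vale.Agent.P150.F Vale.Agent.N150.Fib

variable {n : ℕ}

/-- data of an alternating program: the first frame vector, the site map and the update of the
frame vector from (frame iterate, site iterate, image of the site map) -/
structure Alt (n : ℕ) where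
  ht0 : Vec n
  chi : Vec n → Vec n
  nxt : Vec n → Vec n → Vec n → Vec n
  m_chi : Measurable chi
  m_nxt : Measurable fun p : Vec n × Vec n × Vec n => nxt p.1 p.2.1 p.2.2

/-- even queries are frame queries, odd queries are site queries -/
def bA (j : ℕ) : Bool := decide (j % 2 = 1)

theorem bA_even (k : ℕ) : bA (2 * k) = false := by simp [bA]

theorem bA_odd (k : ℕ) : bA (2 * k + 1) = true := by simp [bA, Nat.add_mod]

namespace Alt

variable (π : Alt n)

/-- the frame iterates -/
def ht : ℕ → OG n → Vec n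
  | 0 => fun _ => π.ht0
  | k + 1 => fun O => π.nxt (ht k O) (O.1ᵀ *ᵥ ht k O) (O.1 *ᵥ π.chi (O.1ᵀ *ᵥ ht k O))

/-- the site iterates -/
def hs (k : ℕ) (O : OG n) : Vec n := O.1ᵀ *ᵥ π.ht k O

/-- the queried vectors -/
def vq (j : ℕ) (O : OG n) : Vec n :=
  if j % 2 = 1 then π.chi (π.hs (j / 2) O) else π.ht (j / 2) O

theorem ht_succ (k : ℕ) (O : OG n) :
    π.ht (k + 1) O = π.nxt (π.ht k O) (π.hs k O) (O.1 *ᵥ π.chi (π.hs k O)) := rfl

theorem mul_hs (k : ℕ) (O : OG n) : O.1 *ᵥ π.hs k O = π.ht k O := OG.mulVec_tr_mulVec O _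

theorem vq_even (k : ℕ) (O : OG n) : π.vq (2 * k) O = π.ht k O := by simp [vq]

theorem vq_odd (k : ℕ) (O : OG n) : π.vq (2 * k + 1) O = π.chi (π.hs k O) := by
  have h : (2 * k + 1) / 2 = k := by omega
  simp [vq, Nat.add_mod, h]

theorem dir_even (k : ℕ) (O : OG n) : dirQ (bA (2 * k)) O (π.vq (2 * k) O) = π.hs k O := by
  rw [bA_even, vq_even]
  rfl

theorem dir_odd (k : ℕ) (O : OG n) :
    dirQ (bA (2 * k + 1)) O (π.vq (2 * k + 1) O) = π.chi (π.hs k O) := by
  rw [bA_odd, vq_odd]
  rfl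

theorem measurable_ht (k : ℕ) : Measurable (π.ht k) := by
  induction k with
  | zero => exact measurable_const
  | succ k ih =>
    have h1 : Measurable fun O : OG n => O.1ᵀ *ᵥ π.ht k O := mm_val.transpose.mulVec ih
    exact π.m_nxt.comp (ih.prodMk (h1.prodMk (mm_val.mulVec (π.m_chi.comp h1))))

theorem measurable_hs (k : ℕ) : Measurable (π.hs k) :=
  mm_val.transpose.mulVec (π.measurable_ht k)

theorem measurable_vq (j : ℕ) : Measurable (π.vq j) := by
  unfold vq
  split_ifs
  · exact π.m_chi.comp (π.measurable_hs _)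
  · exact π.measurable_ht _

theorem ht_det {O O' : OG n} (k : ℕ)
    (h : ∀ i < 2 * k, ans (bA i) O' (π.vq i O) = ans (bA i) O (π.vq i O)) :
    π.ht k O' = π.ht k O := by
  induction k with
  | zero => rfl
  | succ k ih =>
    have h0 := ih fun i hi => h i (by omega)
    have h1 := h (2 * k) (by omega)
    have h2 := h (2 * k + 1) (by omega)
    rw [bA_even, vq_even] at h1
    rw [bA_odd, vq_odd] at h2
    have h3 : π.hs k O' = π.hs k O := by
      unfold hs
      rw [h0]
      exact h1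
    have h4 : O'.1 *ᵥ π.chi (π.hs k O) = O.1 *ᵥ π.chi (π.hs k O) := h2
    rw [ht_succ, ht_succ, h0, h3, h4]

variable {μ : Measure (OG n)} {P₀ : OG n → Mat n}

/-- the alternating program is a chain of adaptive queries -/
theorem chain (h : Explo μ P₀) (p : ℕ) : Chain μ P₀ bA π.vq p := by
  refine Chain.of_det h (fun j _ => π.measurable_vq j) fun j _ O U _ ha => ?_
  obtain ⟨k, rfl | rfl⟩ := Nat.even_or_odd' j
  · rw [vq_even, vq_even]
    exact π.ht_det k ha
  · have h0 := π.ht_det k fun i hi => ha i (by omega)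
    have h1 := ha (2 * k) (by omega)
    rw [bA_even, vq_even] at h1
    have h3 : π.hs k (O * U) = π.hs k O := by
      unfold hs
      rw [h0]
      exact h1
    rw [vq_odd, vq_odd, h3]

theorem explo (h : Explo μ P₀) (p : ℕ) : Explo μ (pr P₀ bA π.vq p) := (π.chain h p).explo le_rfl

theorem adapted_ht (h : Explo μ P₀) {k p : ℕ} (hk : 2 * k ≤ p) :
    Adapted (pr P₀ bA π.vq p) (π.ht k) := by
  have h1 := (π.chain h (2 * k + 1)).adapt (2 * k) (Nat.lt_succ_self _)
  rw [funext (π.vq_even k)] at h1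
  exact (π.chain h p).adapted_mono hk h1

theorem adapted_hs (h : Explo μ P₀) {k p : ℕ} (hk : 2 * k < p) :
    Adapted (pr P₀ bA π.vq p) (π.hs k) := by
  have h1 := (π.chain h p).adapted_ans hk hk
  simp only [bA_even, vq_even] at h1
  exact h1

theorem adapted_chi (h : Explo μ P₀) {k p : ℕ} (hk : 2 * k + 1 < p) :
    Adapted (pr P₀ bA π.vq p) (fun O => O.1 *ᵥ π.chi (π.hs k O)) := by
  have h1 := (π.chain h p).adapted_ans hk hk
  simp only [bA_odd, vq_odd] at h1
  exact h1

variable {O : OG n}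

theorem pr_hs (h : IsProj (P₀ O)) {k p : ℕ} (hk : 2 * k < p) :
    pr P₀ bA π.vq p O *ᵥ π.hs k O = 0 := by
  rw [← dir_even]
  exact pr_dir h hk

theorem pr_chi (h : IsProj (P₀ O)) {k p : ℕ} (hk : 2 * k + 1 < p) :
    pr P₀ bA π.vq p O *ᵥ π.chi (π.hs k O) = 0 := by
  rw [← dir_odd]
  exact pr_dir h hk

/-- later directions are orthogonal to the iterates -/
theorem ip_eh_hs (h : IsProj (P₀ O)) {k j : ℕ} (hk : 2 * k < j) :
    ip (eh P₀ bA π.vq j O) (π.hs k O) = 0 := ip_eh_of h le_rfl (π.pr_hs h hk)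

theorem ip_eh_chi (h : IsProj (P₀ O)) {k j : ℕ} (hk : 2 * k + 1 < j) :
    ip (eh P₀ bA π.vq j O) (π.chi (π.hs k O)) = 0 := ip_eh_of h le_rfl (π.pr_chi h hk)

/-- identification of the site iterates with a given sequence -/
theorem hs_eq {h : ℕ → Vec n} (h0 : O.1 *ᵥ h 0 = π.ht0)
    (hs : ∀ k, O.1 *ᵥ h (k + 1) = π.nxt (O.1 *ᵥ h k) (h k) (O.1 *ᵥ π.chi (h k))) (k : ℕ) :
    π.hs k O = h k := by
  have key : ∀ k, π.ht k O = O.1 *ᵥ h k := by
    intro k
    induction k with
    | zero => exact h0.symm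
    | succ k ih =>
      have e : π.hs k O = h k := by
        unfold Alt.hs
        rw [ih, OG.tr_mulVec_mulVec]
      rw [ht_succ, e, ih, hs]
  unfold Alt.hs
  rw [key, OG.tr_mulVec_mulVec]

end Alt

/-! ### the base projection `rm 1 x` -/

theorem isProj_base (x : Vec n) : IsProj (rm (1 : Mat n) x) := isProj_one.rm x

theorem compl_base (x : Vec n) : 1 - rm (1 : Mat n) x = pj x := by
  unfold rm
  rw [one_mulVec, sub_sub_cancel]

theorem base_mulVec (x : Vec n) : rm (1 : Mat n) x *ᵥ x = 0 := isProj_one.rm_mulVec_self x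

theorem trace_base (x : Vec n) : (n : ℝ) - 1 ≤ (rm (1 : Mat n) x).trace := by
  have h := trace_rm_ge (1 : Mat n) x
  rwa [trace_one, Fintype.card_fin] at h

theorem compl_base_mulVec {x : Vec n} (hx : F.sq x = n) (a : Vec n) :
    (1 - rm (1 : Mat n) x) *ᵥ a = (ip x a / n) • x := by
  rw [compl_base, pj_mulVec, hx]
  rfl

theorem adapted_base (x : Vec n) :
    Adapted (fun _ : OG n => rm (1 : Mat n) x) (fun O => O.1 *ᵥ x) :=
  (Adapted.const x).site fun _ => base_mulVec x

end Vale.Agent.N150.X3P
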