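import Vale.Agent.N150.X4A

/-! The base state exported by the base program and the net step of T1 on top of the fibre
compressions. -/

open MeasureTheory Matrix Module

namespace Vale.Agent.N150.X4

open Vale.Agent.P150 Vale.Agent.P150.F Vale.Agent.N150.Rip Vale.Agent.N150.Fib

variable {n : ℕ}

/-- frame matrix `Ph N^(-1/2)` -/
def GhM (T : Finset (Fin n)) (hh : Vec n) : Mat n := diagonal fun a => (1 - ind T a) * hh a

/-- frame matrix `N^(-1/2) Ph Y N^(-1/2)` -/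
def KM (T : Finset (Fin n)) (hh yv : Vec n) : Mat n :=
  diagonal fun a => hh a * ((1 - ind T a) * yv a) * hh a

/-- the constants of the base state -/
structure Par where
  p : ℝ
  v : ℝ
  e1 : ℝ
  q2 : ℝ
  f0 : ℝ
  f1 : ℝ
  f2 : ℝ
  δ0 : ℝ
  k : ℕ

/-- spectral data in the frame (`hh = N^(-1/2)`, `yv = N - 1 / w0`) -/
structure Frm (T₁ T₂ : Finset (Fin n)) (hh yv : Vec n) (h₁ h₂ : ℝ) (c : Cst) : Prop where
  sub : T₁ ⊆ T₂
  h1 : 0 ≤ h₁
  h2 : 0 ≤ h₂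
  b1 : ∀ a, |hh a| ≤ h₁
  b2 : ∀ a, a ∉ T₁ → |hh a| ≤ h₂
  b3 : ∀ a, a ∉ T₂ → |hh a| ≤ c.Γ
  bY : ∀ a, |yv a| ≤ c.y
  Γpos : 0 < c.Γ
  y0 : 0 ≤ c.y
  gF0 : 0 ≤ c.gF
  kF0 : 0 ≤ c.kF
  κF0 : 0 ≤ c.κF
  D0 : 0 ≤ c.D
  kKpos : 0 < c.kK
  τ0 : 0 ≤ c.τ
  hsG : ∑ a ∈ T₂ᶜ, hh a ^ 2 ≤ n * c.D ^ 2
  hsK : ∑ a ∈ T₂ᶜ, (hh a ^ 2 * yv a) ^ 2 ≤ n * c.kK ^ 2
  trK : |∑ a ∈ T₂ᶜ, hh a ^ 2 * yv a| ≤ n * c.τ

/-- the base state: explored site space `1 - P = E + F` -/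
structure BS0 (T₁ T₂ : Finset (Fin n)) (hh yv : Vec n) (c : Cst) (q : Par) (O : OG n)
    (P V E F : Mat n) (e₀ : Vec n) : Prop where
  hE : IsProj E
  hF : IsProj F
  sum : E + F = 1 - P
  tr : (n : ℝ) - P.trace ≤ q.p
  vh : VH V q.v
  b1 : ∀ u u', |ip u ((E * V * E) *ᵥ u')| ≤ q.e1 * (nv u * nv u') + q.q2 * (|ip e₀ u| * |ip e₀ u'|)
  e0 : nv e₀ ≤ 1
  f0 : nv (res T₁ *ᵥ (O.1 *ᵥ e₀)) ≤ q.f0
  f1 : OpLe (res T₁ * (O.1 * F)) q.f1
  f2 : OpLe (res T₂ * (O.1 * F)) q.f2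
  gF : OpLe (GhM T₂ hh * (O.1 * F)) c.gF
  kF : OpLe (KM T₂ hh yv * (O.1 * F)) c.kF
  κF : OpLe ((O.1 * F)ᵀ * KM T₂ hh yv * (O.1 * F)) c.κF
  sp : ∀ A : Finset (Fin n), A.card ≤ q.k → OpLe (E * res A) q.δ0

/-- the base state event -/
def BS (T₁ T₂ : Finset (Fin n)) (hh yv : Vec n) (c : Cst) (q : Par) (O : OG n) (P V : Mat n) :
    Prop := ∃ E F e₀, BS0 T₁ T₂ hh yv c q O P V E F e₀

/-- the structure produced by the nets -/
structure StrX (P H Y V : Mat n) (k : ℕ) (η₁ B η₄ B' η₆ η₇ : ℝ) : Prop where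
  E1 : OpLe (P * (H * V * H) * P) η₁
  E3 : OpLe (P * (H * V * H) * (1 - P)) B
  E3' : OpLe ((1 - P) * (H * V * H) * P) B
  E4 : OpLe (P * (H * V * H) * ((1 - P) * Y) * (H * V * H) * P) η₄
  E5h : ∀ A : Finset (Fin n), A.card ≤ k → OpLe ((1 - P) * (H * res A)) B'
  E6 : ∀ A : Finset (Fin n), A.card ≤ k → OpLe (res A * H * ((1 - P) * Y) * (H * res A)) η₆
  E7 : ∀ A : Finset (Fin n), A.card ≤ k →
    OpLe (P * (H * V * H) * ((1 - P) * Y) * (H * res A)) η₇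
  E7' : ∀ A : Finset (Fin n), A.card ≤ k →
    OpLe (res A * H * ((1 - P) * Y) * (H * V * H) * P) η₇

/-! ### the base state from finite families -/

section Fam

variable {ι : Type*}

/-- sum of the rank one matrices of a family -/
def PS (I : Finset ι) (e : ι → Vec n) : Mat n := ∑ i ∈ I, vecMulVec (e i) (e i)

/-- orthonormal family, zero vectors allowed -/
structure ON (I : Finset ι) (e : ι → Vec n) : Prop where
  orth : ∀ i ∈ I, ∀ j ∈ I, i ≠ j → ip (e i) (e j) = 0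
  unit : ∀ i ∈ I, e i = 0 ∨ F.sq (e i) = 1

theorem PS_mulVec (I : Finset ι) (e : ι → Vec n) (v : Vec n) :
    PS I e *ᵥ v = ∑ i ∈ I, ip (e i) v • e i := by
  unfold PS
  rw [Matrix.sum_mulVec]
  refine Finset.sum_congr rfl fun i _ => ?_
  rw [vecMulVec_mulVec]

theorem PS_tr (I : Finset ι) (e : ι → Vec n) : (PS I e)ᵀ = PS I e := by
  unfold PS
  rw [Matrix.transpose_sum]
  exact Finset.sum_congr rfl fun i _ => transpose_vecMulVec _ _

theorem ON.mono {I J : Finset ι} {e : ι → Vec n} (h : ON J e) (hI : I ⊆ J) : ON I e :=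
  ⟨fun i hi j hj => h.orth i (hI hi) j (hI hj), fun i hi => h.unit i (hI hi)⟩

theorem ON.nv_le {I : Finset ι} {e : ι → Vec n} (h : ON I e) {i : ι} (hi : i ∈ I) :
    nv (e i) ≤ 1 := by
  rcases h.unit i hi with h0 | h1
  · rw [h0, nv_zero]
    exact zero_le_one
  · exact nv_le_of_sq_le zero_le_one (by rw [h1, one_pow])

theorem ON.abs_ip_le {I : Finset ι} {e : ι → Vec n} (h : ON I e) {i : ι} (hi : i ∈ I)
    (v : Vec n) : |ip (e i) v| ≤ nv v :=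
  (F.abs_ip_le _ _).trans (mul_le_of_le_one_left (nv_nonneg v) (h.nv_le hi))

theorem ON.fix {I : Finset ι} {e : ι → Vec n} (h : ON I e) {i : ι} (hi : i ∈ I) :
    PS I e *ᵥ e i = e i := by
  rw [PS_mulVec, Finset.sum_eq_single_of_mem i hi fun j hj hji => by
    rw [h.orth j hj i hi hji, zero_smul]]
  rcases h.unit i hi with h0 | h1
  · rw [h0, smul_zero]
  · rw [ip_self, h1, one_smul]

theorem ON.isProj {I : Finset ι} {e : ι → Vec n} (h : ON I e) : IsProj (PS I e) := by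
  refine ⟨PS_tr I e, ?_⟩
  conv_lhs => enter [2]; unfold PS
  rw [Finset.mul_sum]
  refine Finset.sum_congr rfl fun i hi => ?_
  rw [Matrix.mul_vecMulVec, h.fix hi]

theorem ON.trace_le {I : Finset ι} {e : ι → Vec n} (h : ON I e) :
    (PS I e).trace ≤ I.card := by
  unfold PS
  rw [Matrix.trace_sum, Finset.card_eq_sum_ones, Nat.cast_sum]
  refine Finset.sum_le_sum fun i hi => ?_
  rw [Matrix.trace_vecMulVec, ← ip_dot, ip_self]
  rcases h.unit i hi with h0 | h1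
  · rw [h0]
    simp [F.sq]
  · rw [h1, Nat.cast_one]

theorem ON.opLe_mul {I : Finset ι} {e : ι → Vec n} (h : ON I e) {R : Mat n} {f : ℝ}
    (hf : ∀ i ∈ I, nv (R *ᵥ e i) ≤ f) : OpLe (R * PS I e) (I.card * f) := by
  refine opLe_of_nv fun v => ?_
  rw [← mulVec_mulVec, PS_mulVec, Matrix.mulVec_sum]
  refine (nv_sum_le _ _).trans ?_
  rw [mul_assoc, ← nsmul_eq_mul]
  refine Finset.sum_le_card_nsmul _ _ _ fun i hi => ?_
  rw [mulVec_smul, nv_smul, mul_comm]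
  exact mul_le_mul (hf i hi) (h.abs_ip_le hi v) (abs_nonneg _) ((nv_nonneg _).trans (hf i hi))

theorem ip_sum_left (I : Finset ι) (f : ι → Vec n) (u : Vec n) :
    ip (∑ i ∈ I, f i) u = ∑ i ∈ I, ip (f i) u := by
  rw [ipN_comm, ip_sum_right]
  exact Finset.sum_congr rfl fun i _ => ipN_comm _ _

theorem ip_PS (I : Finset ι) (e : ι → Vec n) (V : Mat n) (u u' : Vec n) :
    ip u ((PS I e * V * PS I e) *ᵥ u') =
      ∑ i ∈ I, ∑ j ∈ I, ip (e i) u * ip (e j) u' * ip (e i) (V *ᵥ e j) := by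
  rw [Matrix.mul_assoc, ← mulVec_mulVec, ip_tr, PS_tr, ← mulVec_mulVec, PS_mulVec, PS_mulVec,
    Matrix.mulVec_sum, ip_sum_left]
  refine Finset.sum_congr rfl fun i _ => ?_
  rw [ip_sum_right]
  refine Finset.sum_congr rfl fun j _ => ?_
  rw [mulVec_smul, ip_smul_left, ip_smul_right, mul_assoc]

theorem ON.bil [DecidableEq ι] {I : Finset ι} {e : ι → Vec n} (h : ON I e) {V : Mat n} {i₀ : ι}
    {a q : ℝ} (ha : 0 ≤ a) (hq : 0 ≤ q)
    (hV : ∀ i ∈ I, ∀ j ∈ I, |ip (e i) (V *ᵥ e j)| ≤ a + if i = i₀ ∧ j = i₀ then q else 0)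
    (u u' : Vec n) : |ip u ((PS I e * V * PS I e) *ᵥ u')| ≤
      I.card ^ 2 * a * (nv u * nv u') + q * (|ip (e i₀) u| * |ip (e i₀) u'|) := by
  rw [ip_PS]
  have hu := nv_nonneg u
  have hu' := nv_nonneg u'
  have key : ∀ i ∈ I, ∀ j ∈ I, |ip (e i) u * ip (e j) u' * ip (e i) (V *ᵥ e j)| ≤
      a * (nv u * nv u') +
        if j = i₀ then if i = i₀ then q * (|ip (e i₀) u| * |ip (e i₀) u'|) else 0 else 0 := by
    intro i hi j hj
    rw [abs_mul, abs_mul]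
    have h1 := mul_le_mul_of_nonneg_left (hV i hi j hj)
      (mul_nonneg (abs_nonneg (ip (e i) u)) (abs_nonneg (ip (e j) u')))
    have h2 := mul_le_mul4 ha (h.abs_ip_le hi u) (h.abs_ip_le hj u') (abs_nonneg _) hu
    by_cases hj0 : j = i₀
    · by_cases hi0 : i = i₀
      · subst hj0
        subst hi0
        simp only [and_self, if_true] at h1 ⊢
        linarith
      · simp only [hi0, false_and, if_false, ite_self] at h1 ⊢
        linarith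
    · simp only [hj0, and_false, if_false] at h1 ⊢
      linarith
  refine (Finset.abs_sum_le_sum_abs _ _).trans ((Finset.sum_le_sum fun i hi =>
    (Finset.abs_sum_le_sum_abs _ _).trans (Finset.sum_le_sum fun j hj => key i hi j hj)).trans ?_)
  simp only [Finset.sum_add_distrib, Finset.sum_const, nsmul_eq_mul, Finset.sum_ite_eq']
  have h0 : 0 ≤ q * (|ip (e i₀) u| * |ip (e i₀) u'|) := by positivity
  have h3 : ∑ i ∈ I, (if i₀ ∈ I then
      if i = i₀ then q * (|ip (e i₀) u| * |ip (e i₀) u'|) else 0 else 0) ≤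
      q * (|ip (e i₀) u| * |ip (e i₀) u'|) := by
    split_ifs with h4
    · rw [Finset.sum_ite_eq', if_pos h4]
    · simpa using h0
  nlinarith

/-- the base state in terms of the explored orthonormal directions: `I` holds `e i₀ = x / √n` and
the answers of the frame queries, `J` the site queries -/
structure BSL (T₁ T₂ : Finset (Fin n)) (hh yv : Vec n) (O : OG n) (P V : Mat n) [DecidableEq ι]
    (I J : Finset ι) (e : ι → Vec n) (i₀ : ι) (v e1 q2 f0 f1 f2 gF kF κF δ0 : ℝ) (k : ℕ) :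
    Prop where
  onI : ON I e
  onJ : ON J e
  mem : i₀ ∈ I
  sum : PS I e + PS J e = 1 - P
  vh : VH V v
  e10 : 0 ≤ e1
  q20 : 0 ≤ q2
  κ0 : 0 ≤ κF
  δ0' : 0 ≤ δ0
  b1 : ∀ i ∈ I, ∀ j ∈ I, |ip (e i) (V *ᵥ e j)| ≤ e1 + if i = i₀ ∧ j = i₀ then q2 else 0
  f0 : nv (res T₁ *ᵥ (O.1 *ᵥ e i₀)) ≤ f0
  f1 : ∀ j ∈ J, nv (res T₁ *ᵥ (O.1 *ᵥ e j)) ≤ f1
  f2 : ∀ j ∈ J, nv (res T₂ *ᵥ (O.1 *ᵥ e j)) ≤ f2
  gF : ∀ j ∈ J, nv (GhM T₂ hh *ᵥ (O.1 *ᵥ e j)) ≤ gF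
  kF : ∀ j ∈ J, nv (KM T₂ hh yv *ᵥ (O.1 *ᵥ e j)) ≤ kF
  κF : ∀ i ∈ J, ∀ j ∈ J, |ip (O.1 *ᵥ e i) (KM T₂ hh yv *ᵥ (O.1 *ᵥ e j))| ≤ κF
  sp : ∀ i ∈ I, ∀ A : Finset (Fin n), A.card ≤ k → nv (res A *ᵥ e i) ≤ δ0

theorem BSL.bs [DecidableEq ι] {T₁ T₂ : Finset (Fin n)} {hh yv : Vec n} {O : OG n} {P V : Mat n}
    {I J : Finset ι} {e : ι → Vec n} {i₀ : ι} {v e1 q2 f0 f1 f2 gF kF κF δ0 : ℝ} {k : ℕ}
    (h : BSL T₁ T₂ hh yv O P V I J e i₀ v e1 q2 f0 f1 f2 gF kF κF δ0 k) {c : Cst} {q : Par}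
    (hp : (I.card : ℝ) + J.card ≤ q.p) (hv : q.v = v) (he : I.card ^ 2 * e1 ≤ q.e1)
    (hq : q2 ≤ q.q2) (h0 : f0 ≤ q.f0) (h1 : J.card * f1 ≤ q.f1) (h2 : J.card * f2 ≤ q.f2)
    (hg : J.card * gF ≤ c.gF) (hk : J.card * kF ≤ c.kF) (hκ : J.card ^ 2 * κF ≤ c.κF)
    (hδ : I.card * δ0 ≤ q.δ0) (hkk : q.k ≤ k) : BS T₁ T₂ hh yv c q O P V := by
  have mono : ∀ {R : Mat n} {f f' : ℝ}, (∀ j ∈ J, nv (R *ᵥ (O.1 *ᵥ e j)) ≤ f) → J.card * f ≤ f' →
      OpLe (R * (O.1 * PS J e)) f' := by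
    intro R f f' hf hf'
    rw [← Matrix.mul_assoc]
    have h3 := h.onJ.opLe_mul (R := R * O.1) (f := f) fun j hj => by
      rw [← mulVec_mulVec]
      exact hf j hj
    refine h3.monoN ?_ hf'
    rcases J.eq_empty_or_nonempty with h4 | ⟨j, hj⟩
    · simp [h4]
    · exact mul_nonneg (Nat.cast_nonneg _) ((nv_nonneg _).trans (hf j hj))
  refine ⟨PS I e, PS J e, e i₀, h.onI.isProj, h.onJ.isProj, h.sum, ?_, hv ▸ h.vh, fun u u' => ?_,
    h.onI.nv_le h.mem, h.f0.trans h0, mono h.f1 h1, mono h.f2 h2, mono h.gF hg, mono h.kF hk, ?_,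
    fun A hA => ?_⟩
  · have h3 := congrArg Matrix.trace h.sum
    rw [Matrix.trace_add, Matrix.trace_sub, Matrix.trace_one, Fintype.card_fin] at h3
    linarith [h.onI.trace_le, h.onJ.trace_le]
  · refine (h.onI.bil h.e10 h.q20 h.b1 u u').trans (add_le_add ?_ ?_)
    · exact mul_le_mul_of_nonneg_right he (mul_nonneg (nv_nonneg _) (nv_nonneg _))
    · exact mul_le_mul_of_nonneg_right hq (by positivity)
  · have hκ0 := h.κ0
    refine (opLe_of_bil (by positivity) fun u u' => ?_).monoN (by positivity) hκ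
    have h3 := h.onJ.bil (V := O.1ᵀ * KM T₂ hh yv * O.1) (i₀ := i₀) hκ0 le_rfl
      (fun i hi j hj => by
        rw [ite_self, add_zero, Matrix.mul_assoc, ← mulVec_mulVec, ip_tr, transpose_transpose,
          ← mulVec_mulVec]
        exact h.κF i hi j hj) u u'
    rw [zero_mul, add_zero] at h3
    rw [transpose_mul, PS_tr]
    simpa only [Matrix.mul_assoc] using h3
  · have hδ0 := h.δ0'
    have h3 := opLe_tr (by positivity) (h.onI.opLe_mul (R := res A) (f := δ0)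
      fun i hi => h.sp i hi A (hA.trans hkk))
    rw [transpose_mul, PS_tr, res_tr] at h3
    exact h3.monoN (by positivity) hδ

end Fam

end Vale.Agent.N150.X4
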