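import Mathlib
import Vale.Agent.N150.X3Prog
import Vale.Agent.N150.X4B
import Vale.Agent.N150.TG

/-! The explored directions of a chain started at a sign vector as an orthonormal family, and the
base structure from Gaussian events. -/

open MeasureTheory Matrix

namespace Vale.Agent.N150.X3P

open Vale.Agent.P150 Vale.Agent.P150.F Vale.Agent.N150.Fib Vale.Agent.N150.Rip

variable {n : ℕ}

/-- the base projection as a constant family -/
noncomputable abbrev PB (x : Vec n) : OG n → Mat n := fun _ => rm (1 : Mat n) x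

/-- all explored site directions, the first one is `x / sqrt n` -/
noncomputable def ef (x : Vec n) (b : ℕ → Bool) (v : ℕ → OG n → Vec n) (p : ℕ) (O : OG n) :
    Fin (p + 1) → Vec n :=
  Fin.cons ((√(n : ℝ))⁻¹ • x) fun j : Fin p => eh (PB x) b v j O

/-- the types of the directions -/
def bf (b : ℕ → Bool) (p : ℕ) : Fin (p + 1) → Bool := Fin.cons false fun j : Fin p => b j

/-- the sign vector and the frame queries -/
def IF (b : ℕ → Bool) (p : ℕ) : Finset (Fin (p + 1)) := Finset.univ.filter fun i => bf b p i = false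

/-- the site queries -/
def JF (b : ℕ → Bool) (p : ℕ) : Finset (Fin (p + 1)) := Finset.univ.filter fun i => bf b p i = true

variable {x : Vec n} {b : ℕ → Bool} {v : ℕ → OG n → Vec n} {p : ℕ} {O : OG n}

theorem ef_zero : ef x b v p O 0 = (√(n : ℝ))⁻¹ • x := rfl

theorem ef_succ (j : Fin p) : ef x b v p O j.succ = eh (PB x) b v j O := rfl

theorem mem_IF {i : Fin (p + 1)} : i ∈ IF b p ↔ bf b p i = false := by
  unfold IF
  rw [Finset.mem_filter]
  exact ⟨fun h => h.2, fun h => ⟨Finset.mem_univ _, h⟩⟩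

theorem mem_JF {i : Fin (p + 1)} : i ∈ JF b p ↔ bf b p i = true := by
  unfold JF
  rw [Finset.mem_filter]
  exact ⟨fun h => h.2, fun h => ⟨Finset.mem_univ _, h⟩⟩

theorem zero_mem_IF : (0 : Fin (p + 1)) ∈ IF b p := mem_IF.2 rfl

theorem succ_mem_IF {j : Fin p} : j.succ ∈ IF b p ↔ b j = false := mem_IF

theorem zero_notMem_JF : (0 : Fin (p + 1)) ∉ JF b p := fun h => Bool.false_ne_true (mem_JF.1 h)

theorem succ_mem_JF {j : Fin p} : j.succ ∈ JF b p ↔ b j = true := mem_JF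

theorem exists_of_mem_JF {i : Fin (p + 1)} (hi : i ∈ JF b p) :
    ∃ j : Fin p, i = j.succ ∧ b j = true := by
  rcases Fin.eq_zero_or_eq_succ i with rfl | ⟨j, rfl⟩
  · exact absurd hi zero_notMem_JF
  · exact ⟨j, rfl, succ_mem_JF.1 hi⟩

theorem card_IF_add (b : ℕ → Bool) (p : ℕ) : (IF b p).card + (JF b p).card = p + 1 := by
  have h := Finset.card_filter_add_card_filter_not (s := (Finset.univ : Finset (Fin (p + 1))))
    (fun i => bf b p i = false)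
  simp only [Bool.not_eq_false, Finset.card_univ, Fintype.card_fin] at h
  exact h

theorem sq_ef_zero (hx : F.sq x = n) : ef x b v p O 0 = 0 ∨ F.sq (ef x b v p O 0) = 1 := by
  rcases Nat.eq_zero_or_pos n with hn | hn
  · left
    subst hn
    exact Subsingleton.elim _ _
  · right
    have hn' : (0 : ℝ) < n := by exact_mod_cast hn
    rw [ef_zero, sq_smul', hx, inv_pow, Real.sq_sqrt hn'.le, inv_mul_cancel₀ hn'.ne']

theorem on_ef (hx : F.sq x = n) (I : Finset (Fin (p + 1))) : X4.ON I (ef x b v p O) := by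
  have h0 : ∀ j : Fin p, ip (eh (PB x) b v j O) ((√(n : ℝ))⁻¹ • x) = 0 := fun j =>
    ip_eh_of (j := 0) (isProj_base x) (Nat.zero_le _)
      (by
        show rm (1 : Mat n) x *ᵥ _ = 0
        rw [mulVec_smul, base_mulVec, smul_zero])
  refine ⟨fun i _ j _ hij => ?_, fun i _ => ?_⟩
  · rcases Fin.eq_zero_or_eq_succ i with rfl | ⟨i, rfl⟩
    · rcases Fin.eq_zero_or_eq_succ j with rfl | ⟨j, rfl⟩
      · exact absurd rfl hij
      · rw [ipN_comm]
        exact h0 j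
    · rcases Fin.eq_zero_or_eq_succ j with rfl | ⟨j, rfl⟩
      · exact h0 i
      · exact ip_eh_eh (isProj_base x) fun e => hij (congrArg Fin.succ (Fin.ext e))
  · rcases Fin.eq_zero_or_eq_succ i with rfl | ⟨i, rfl⟩
    · exact sq_ef_zero hx
    · exact sq_eh i O

theorem nv_ef_le (hx : F.sq x = n) (i : Fin (p + 1)) : nv (ef x b v p O i) ≤ 1 :=
  (on_ef hx Finset.univ).nv_le (Finset.mem_univ i)

theorem PS_ef (hx : F.sq x = n) :
    X4.PS (IF b p) (ef x b v p O) + X4.PS (JF b p) (ef x b v p O) = 1 - pr (PB x) b v p O := by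
  have h := Finset.sum_filter_add_sum_filter_not (Finset.univ : Finset (Fin (p + 1)))
    (fun i => bf b p i = false) fun i => vecMulVec (ef x b v p O i) (ef x b v p O i)
  simp only [Bool.not_eq_false] at h
  have h1 : vecMulVec ((√(n : ℝ))⁻¹ • x) ((√(n : ℝ))⁻¹ • x) = pj x := by
    unfold pj
    rw [smul_vecMulVec, vecMulVec_smul, smul_smul, hx, ← mul_inv,
      Real.mul_self_sqrt (Nat.cast_nonneg n)]
  unfold X4.PS IF JF
  rw [h, Fin.sum_univ_succ, pr_eq, Finset.sum_range, ← sub_add, compl_base, ef_zero, h1]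
  rfl

/-! ### transfer from the Gaussian vectors to the directions -/

theorem nv_near {Z : Mat n} {M N ε : ℝ} (hZ : OpLe Z M) (hM : 0 ≤ M) {a g : Vec n}
    (ha : nv (a - (√(n : ℝ))⁻¹ • g) ≤ ε) (hg : nv (Z *ᵥ g) ≤ N) :
    nv (Z *ᵥ a) ≤ N / √n + M * ε := by
  have e : Z *ᵥ a = (√(n : ℝ))⁻¹ • (Z *ᵥ g) + Z *ᵥ (a - (√(n : ℝ))⁻¹ • g) := by
    rw [mulVec_sub, mulVec_smul, add_sub_cancel]
  have h1 := nv_add_le ((√(n : ℝ))⁻¹ • (Z *ᵥ g)) (Z *ᵥ (a - (√(n : ℝ))⁻¹ • g))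
  have h2 := (hZ.nv_le hM _).trans (mul_le_mul_of_nonneg_left ha hM)
  have h3 : nv ((√(n : ℝ))⁻¹ • (Z *ᵥ g)) ≤ N / √n := by
    rw [nv_smul, abs_of_nonneg (by positivity), div_eq_inv_mul]
    exact mul_le_mul_of_nonneg_left hg (by positivity)
  rw [e]
  linarith

theorem ip_scaled (Z : Mat n) (g g' : Vec n) :
    ip ((√(n : ℝ))⁻¹ • g) (Z *ᵥ ((√(n : ℝ))⁻¹ • g')) = ip g (Z *ᵥ g') / n := by
  rw [mulVec_smul, ip_smul_left, ip_smul_right, ← mul_assoc, ← mul_inv,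
    Real.mul_self_sqrt (Nat.cast_nonneg n), div_eq_inv_mul]

/-- bilinear forms with an operator bound -/
theorem bil_near {V : Mat n} {ν ε : ℝ} (hV : OpLe V ν) (hν : 0 ≤ ν) {a a' c c' : Vec n}
    (ha1 : nv a ≤ 1) (hc1 : nv c ≤ 1) (ha : nv (a - a') ≤ ε) (hc : nv (c - c') ≤ ε) :
    |ip a (V *ᵥ c) - ip a' (V *ᵥ c')| ≤ ν * ε * (2 + ε) := by
  have hε : 0 ≤ ε := (nv_nonneg _).trans ha
  have e : ip a (V *ᵥ c) - ip a' (V *ᵥ c') = ip (a - a') (V *ᵥ c) + ip a' (V *ᵥ (c - c')) := by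
    rw [ip_sub_left, mulVec_sub, ip_sub_right]
    ring
  have h1 : nv a' ≤ 1 + ε := by
    have h2 := nv_sub_le a (a - a')
    rw [sub_sub_cancel] at h2
    linarith
  have h3 : nv (V *ᵥ c) ≤ ν := (hV.nv_le hν c).trans (by nlinarith)
  have h4 : nv (V *ᵥ (c - c')) ≤ ν * ε := (hV.nv_le hν _).trans (mul_le_mul_of_nonneg_left hc hν)
  have h5 := (abs_ip_le (a - a') (V *ᵥ c)).trans (mul_le_mul ha h3 (nv_nonneg _) hε)
  have h6 := (abs_ip_le a' (V *ᵥ (c - c'))).trans (mul_le_mul h1 h4 (nv_nonneg _) (by linarith))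
  rw [e]
  refine (abs_add_le _ _).trans ?_
  nlinarith

/-- bilinear forms with bounds on the images of the Gaussian vectors -/
theorem bil_near' {Z : Mat n} (hs : Zᵀ = Z) {M N ε : ℝ} (hZ : OpLe Z M) (hM : 0 ≤ M)
    {a c g g' : Vec n} (ha : nv (a - (√(n : ℝ))⁻¹ • g) ≤ ε) (hc : nv (c - (√(n : ℝ))⁻¹ • g') ≤ ε)
    (hg : nv (Z *ᵥ g) ≤ N) (hg' : nv (Z *ᵥ g') ≤ N) :
    |ip a (Z *ᵥ c) - ip g (Z *ᵥ g') / n| ≤ ε * (2 * (N / √n) + M * ε) := by
  have hε : 0 ≤ ε := (nv_nonneg _).trans ha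
  have e : ip a (Z *ᵥ c) - ip g (Z *ᵥ g') / n = ip (a - (√(n : ℝ))⁻¹ • g) (Z *ᵥ c) +
      ip (Z *ᵥ ((√(n : ℝ))⁻¹ • g)) (c - (√(n : ℝ))⁻¹ • g') := by
    rw [← ip_scaled, ← hs, ← X4.ip_tr, hs, ip_sub_left, mulVec_sub, ip_sub_right]
    ring
  have h1 := nv_near hZ hM hc hg'
  have h2 : nv (Z *ᵥ ((√(n : ℝ))⁻¹ • g)) ≤ N / √n := by
    rw [mulVec_smul, nv_smul, abs_of_nonneg (by positivity), div_eq_inv_mul]
    exact mul_le_mul_of_nonneg_left hg (by positivity)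
  have h3 := (abs_ip_le _ (Z *ᵥ c)).trans (mul_le_mul ha h1 (nv_nonneg _) hε)
  have h4 := (abs_ip_le _ (c - (√(n : ℝ))⁻¹ • g')).trans
    (mul_le_mul h2 hc (nv_nonneg _) ((nv_nonneg _).trans h2))
  rw [e]
  refine (abs_add_le _ _).trans ?_
  nlinarith

theorem opLe_res (A : Finset (Fin n)) : OpLe (res A) 1 :=
  opLe_of_nv fun w => by
    rw [one_mul]
    exact X4.nv_res A w

section Close

variable {g : Fin p → Vec n} {ε : ℝ}

/-- directions of the first kind are close to the columns of `[x, g]` -/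
theorem close_I (hε : 0 ≤ ε) (hg : ∀ j : Fin p, Close (PB x) b v ε j O (g j)) {i : Fin (p + 1)}
    (hi : i ∈ IF b p) : ef x b v p O i = 0 ∨
      nv (ef x b v p O i - (√(n : ℝ))⁻¹ • (Fin.cons x g : Fin (p + 1) → Vec n) i) ≤ ε := by
  rcases Fin.eq_zero_or_eq_succ i with rfl | ⟨j, rfl⟩
  · right
    rw [ef_zero, Fin.cons_zero, sub_self, nv_zero]
    exact hε
  · have h1 := hg j
    simp only [Close, nw, sd, succ_mem_IF.1 hi, Bool.false_eq_true, if_false] at h1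
    exact h1

theorem close_J (hg : ∀ j : Fin p, Close (PB x) b v ε j O (g j)) {j : Fin p} (hj : b j = true) :
    ef x b v p O j.succ = 0 ∨ nv (O.1 *ᵥ ef x b v p O j.succ - (√(n : ℝ))⁻¹ • g j) ≤ ε := by
  have h1 := hg j
  simp only [Close, nw, sd, hj, if_true] at h1
  exact h1

theorem nv_J (hε : 0 ≤ ε) (hg : ∀ j : Fin p, Close (PB x) b v ε j O (g j)) {Z : Mat n} {M N : ℝ}
    (hZ : OpLe Z M) (hM : 0 ≤ M) (hN : ∀ j, nv (Z *ᵥ g j) ≤ N) {i : Fin (p + 1)}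
    (hi : i ∈ JF b p) : nv (Z *ᵥ (O.1 *ᵥ ef x b v p O i)) ≤ N / √n + M * ε := by
  obtain ⟨j, rfl, hj⟩ := exists_of_mem_JF hi
  rcases close_J hg hj with h | h
  · have h0 : 0 ≤ N := (nv_nonneg _).trans (hN j)
    rw [h, mulVec_zero, mulVec_zero, nv_zero]
    positivity
  · exact nv_near hZ hM h (hN j)

theorem bil_J (hε : 0 ≤ ε) (hg : ∀ j : Fin p, Close (PB x) b v ε j O (g j)) {Z : Mat n}
    (hs : Zᵀ = Z) {M N T : ℝ} (hZ : OpLe Z M) (hM : 0 ≤ M) (hN : ∀ j, nv (Z *ᵥ g j) ≤ N)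
    (hT : ∀ i j, |ip (g i) (Z *ᵥ g j)| ≤ T) {i i' : Fin (p + 1)} (hi : i ∈ JF b p)
    (hi' : i' ∈ JF b p) :
    |ip (O.1 *ᵥ ef x b v p O i) (Z *ᵥ (O.1 *ᵥ ef x b v p O i'))| ≤
      T / n + ε * (2 * (N / √n) + M * ε) := by
  obtain ⟨j, rfl, hj⟩ := exists_of_mem_JF hi
  obtain ⟨j', rfl, hj'⟩ := exists_of_mem_JF hi'
  have h0 : 0 ≤ N := (nv_nonneg _).trans (hN j)
  have h1 : 0 ≤ T := (abs_nonneg _).trans (hT j j')
  rcases close_J hg hj with h | h
  · rw [h, mulVec_zero, ip_eq_dot, zero_dotProduct, abs_zero]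
    positivity
  rcases close_J hg hj' with h' | h'
  · rw [h', mulVec_zero, mulVec_zero, ip_eq_dot, dotProduct_zero, abs_zero]
    positivity
  have h2 := bil_near' hs hZ hM h h' (hN j) (hN j')
  have h3 : |ip (g j) (Z *ᵥ g j') / n| ≤ T / n := by
    rw [abs_div, Nat.abs_cast]
    exact div_le_div_of_nonneg_right (hT j j') (Nat.cast_nonneg n)
  have h4 := abs_sub_abs_le_abs_sub (ip (O.1 *ᵥ ef x b v p O j.succ)
    (Z *ᵥ (O.1 *ᵥ ef x b v p O j'.succ))) (ip (g j) (Z *ᵥ g j') / n)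
  linarith

/-- forms on the directions of the first kind -/
theorem bil_I (hx : F.sq x = n) (hε : 0 ≤ ε) (hg : ∀ j : Fin p, Close (PB x) b v ε j O (g j))
    {V : Mat n} {ν T : ℝ} (hV : OpLe V ν) (hν : 0 ≤ ν) {i i' : Fin (p + 1)} (hi : i ∈ IF b p)
    (hi' : i' ∈ IF b p) (hT : |ip ((Fin.cons x g : Fin (p + 1) → Vec n) i)
      (V *ᵥ (Fin.cons x g : Fin (p + 1) → Vec n) i')| ≤ n * T) (hT0 : 0 ≤ T) :
    |ip (ef x b v p O i) (V *ᵥ ef x b v p O i')| ≤ T + ν * ε * (2 + ε) := by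
  rcases close_I hε hg hi with h | h
  · rw [h, ip_eq_dot, zero_dotProduct, abs_zero]
    positivity
  rcases close_I hε hg hi' with h' | h'
  · rw [h', mulVec_zero, ip_eq_dot, dotProduct_zero, abs_zero]
    positivity
  have h2 := bil_near hV hν (nv_ef_le hx i) (nv_ef_le hx i') h h'
  rw [ip_scaled] at h2
  have h3 : |ip ((Fin.cons x g : Fin (p + 1) → Vec n) i)
      (V *ᵥ (Fin.cons x g : Fin (p + 1) → Vec n) i') / n| ≤ T := by
    rw [abs_div, Nat.abs_cast]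
    exact div_le_of_le_mul₀ (Nat.cast_nonneg n) hT0 (by linarith)
  have h4 := abs_sub_abs_le_abs_sub (ip (ef x b v p O i) (V *ᵥ ef x b v p O i'))
    (ip ((Fin.cons x g : Fin (p + 1) → Vec n) i)
      (V *ᵥ (Fin.cons x g : Fin (p + 1) → Vec n) i') / n)
  linarith

/-- sparse components of the directions of the first kind -/
theorem sparse_I (hε : 0 ≤ ε) (hg : ∀ j : Fin p, Close (PB x) b v ε j O (g j)) {t B : ℝ}
    (ht : 0 ≤ t) (hxt : ∀ a, x a ^ 2 ≤ t) (hB : 0 ≤ B) (he : ∀ j, TG.exc t (g j) ≤ B) {k : ℕ}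
    {i : Fin (p + 1)} (hi : i ∈ IF b p) {A : Finset (Fin n)} (hA : A.card ≤ k) :
    nv (res A *ᵥ ef x b v p O i) ≤ √(t * k + B) / √n + ε := by
  rcases close_I hε hg hi with h | h
  · rw [h, mulVec_zero, nv_zero]
    positivity
  have h1 : nv (res A *ᵥ (Fin.cons x g : Fin (p + 1) → Vec n) i) ≤ √(t * k + B) := by
    rw [nv_eq_sqrt, sq_res]
    refine Real.sqrt_le_sqrt ((TG.exc_set t _ A).trans (add_le_add ?_ (TG.exc_cons hxt hB he i)))
    exact mul_le_mul_of_nonneg_left (by exact_mod_cast hA) ht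
  have h2 := nv_near (opLe_res A) zero_le_one h h1
  rwa [one_mul] at h2

/-- the base structure from the Gaussian events -/
theorem bsl_of (hx : F.sq x = n) (hε : 0 ≤ ε) (hg : ∀ j : Fin p, Close (PB x) b v ε j O (g j))
    {T₁ T₂ : Finset (Fin n)} {hh yv : Vec n} {V : Mat n} {ν e1 q2 : ℝ} (hV : X4.VH V ν)
    (he1 : 0 ≤ e1) (hq2 : 0 ≤ q2)
    (hb1 : ∀ i ∈ IF b p, ∀ j ∈ IF b p, |ip (ef x b v p O i) (V *ᵥ ef x b v p O j)| ≤
      e1 + if i = 0 ∧ j = 0 then q2 else 0)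
    {N₀ N₁ N₂ NG MG NK MK TK t B : ℝ} (h0 : nv (res T₁ *ᵥ (O.1 *ᵥ x)) ≤ N₀)
    (h1 : ∀ j, nv (res T₁ *ᵥ g j) ≤ N₁) (h2 : ∀ j, nv (res T₂ *ᵥ g j) ≤ N₂)
    (hG : OpLe (X4.GhM T₂ hh) MG) (hMG : 0 ≤ MG) (hNG : ∀ j, nv (X4.GhM T₂ hh *ᵥ g j) ≤ NG)
    (hK : OpLe (X4.KM T₂ hh yv) MK) (hMK : 0 ≤ MK) (hNK0 : 0 ≤ NK)
    (hNK : ∀ j, nv (X4.KM T₂ hh yv *ᵥ g j) ≤ NK) (hTK0 : 0 ≤ TK)
    (hTK : ∀ i j, |ip (g i) (X4.KM T₂ hh yv *ᵥ g j)| ≤ TK)
    (ht : 0 ≤ t) (hxt : ∀ a, x a ^ 2 ≤ t) (hB : 0 ≤ B) (he : ∀ j, TG.exc t (g j) ≤ B) (k : ℕ) :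
    X4.BSL T₁ T₂ hh yv O (pr (PB x) b v p O) V (IF b p) (JF b p) (ef x b v p O) 0 ν e1 q2
      (N₀ / √n) (N₁ / √n + ε) (N₂ / √n + ε) (NG / √n + MG * ε) (NK / √n + MK * ε)
      (TK / n + ε * (2 * (NK / √n) + MK * ε)) (√(t * k + B) / √n + ε) k := by
  refine ⟨on_ef hx _, on_ef hx _, zero_mem_IF, PS_ef hx, hV, he1, hq2, by positivity,
    by positivity, hb1, ?_, fun j hj => ?_, fun j hj => ?_, fun j hj => nv_J hε hg hG hMG hNG hj,
    fun j hj => nv_J hε hg hK hMK hNK hj,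
    fun i hi j hj => bil_J hε hg (diagonal_transpose _) hK hMK hNK hTK hi hj,
    fun i hi A hA => sparse_I hε hg ht hxt hB he hi hA⟩
  · rw [ef_zero, mulVec_smul, mulVec_smul, nv_smul, abs_of_nonneg (by positivity), div_eq_inv_mul]
    exact mul_le_mul_of_nonneg_left h0 (by positivity)
  · simpa only [one_mul] using nv_J hε hg (opLe_res T₁) zero_le_one h1 hj
  · simpa only [one_mul] using nv_J hε hg (opLe_res T₂) zero_le_one h2 hj

/-- X1 in the form `a = [x, g] β / sqrt n + small` -/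
theorem X1_lc (hx : F.sq x = n) (hε : 0 ≤ ε) (hg : ∀ j : Fin p, Close (PB x) b v ε j O (g j))
    {r : ℝ} (hr : 0 ≤ r) {a : Vec n} (ha : pr (PB x) b v p O *ᵥ a = 0)
    (hs : ∀ j : Fin p, b j = true → |ip (eh (PB x) b v j O) a| ≤ r) :
    ∃ al : Fin (p + 1) → ℝ, al 0 = ip x a / n ∧ n * ∑ i, al i ^ 2 ≤ F.sq a ∧
      (∀ j : Fin p, al j.succ = beS (PB x) b v O a j / √n) ∧
      nv (a - TG.lc (Fin.cons x g : Fin (p + 1) → Vec n) al) ≤ √p * (r + ε * nv a) := by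
  refine ⟨Fin.cons (ip x a / n) fun j : Fin p => beS (PB x) b v O a j / √n, rfl, ?_,
    fun _ => rfl, ?_⟩
  · have h1 := sum_beS_le (P₀ := PB x) (b := b) (v := v) (O := O) (isProj_base x) p a
    rw [compl_base_mulVec hx, sq_smul', hx] at h1
    rw [Fin.sum_univ_succ, mul_add, Finset.mul_sum]
    simp only [Fin.cons_zero, Fin.cons_succ]
    refine le_trans (add_le_add (le_of_eq (mul_comm _ _)) (Finset.sum_le_sum fun j _ => ?_)) h1
    rw [div_pow, Real.sq_sqrt (Nat.cast_nonneg n)]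
    rcases Nat.eq_zero_or_pos n with hn | hn
    · simp [hn, sq_nonneg]
    · rw [mul_div_cancel₀ _ (by exact_mod_cast hn.ne')]
  · have h1 := X1 (P₀ := PB x) (isProj_base x) hε hr hg ha hs
    rw [compl_base_mulVec hx, sub_sub] at h1
    rw [TG.lc_cons]
    exact h1

/-- X2 in the form `O a = (x.a / n) O x + g β / sqrt n + small` -/
theorem X2_lc (hx : F.sq x = n) (hε : 0 ≤ ε) (hg : ∀ j : Fin p, Close (PB x) b v ε j O (g j))
    {r : ℝ} (hr : 0 ≤ r) {a : Vec n} (ha : pr (PB x) b v p O *ᵥ a = 0)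
    (hs : ∀ j : Fin p, b j = false → |ip (eh (PB x) b v j O) a| ≤ r) :
    ∃ be : Fin p → ℝ, ∑ j, be j ^ 2 ≤ F.sq a ∧ (∀ j : Fin p, be j = beF (PB x) b v O a j) ∧
      nv (O.1 *ᵥ a - (√(n : ℝ))⁻¹ • TG.lc g be) ≤ |ip x a| / √n + √p * (r + ε * nv a) := by
  refine ⟨fun j => beF (PB x) b v O a j, ?_, fun _ => rfl, ?_⟩
  · have h1 := sum_beF_le (P₀ := PB x) (b := b) (v := v) (O := O) (isProj_base x) p a
    linarith [sq_nonneg' ((1 - PB x O) *ᵥ a)]
  · have h1 := X2 (P₀ := PB x) (isProj_base x) hε hr hg ha hs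
    have e1 : (√(n : ℝ))⁻¹ • TG.lc g (fun j => beF (PB x) b v O a j) =
        ∑ j : Fin p, (beF (PB x) b v O a j / √n) • g j := by
      unfold TG.lc
      rw [Finset.smul_sum]
      exact Finset.sum_congr rfl fun j _ => by rw [smul_smul, div_eq_inv_mul]
    have h2 : nv (O.1 *ᵥ ((1 - PB x O) *ᵥ a)) ≤ |ip x a| / √n := by
      rw [X4.nv_orth, compl_base_mulVec hx, nv_smul, nv_eq_sqrt, hx, abs_div, Nat.abs_cast]
      rcases Nat.eq_zero_or_pos n with hn | hn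
      · simp [hn]
      · have h3 : (0 : ℝ) < n := by exact_mod_cast hn
        have h4 := Real.sqrt_pos.2 h3
        rw [div_mul_eq_mul_div, div_le_div_iff₀ h3 h4, mul_assoc, Real.mul_self_sqrt h3.le]
    have h3 := nv_add_le (O.1 *ᵥ ((1 - PB x O) *ᵥ a))
      (O.1 *ᵥ a - O.1 *ᵥ ((1 - PB x O) *ᵥ a) - ∑ j : Fin p, (beF (PB x) b v O a j / √n) • g j)
    rw [sub_right_comm, add_sub_cancel] at h3
    rw [e1]
    rw [sub_right_comm] at h1
    linarith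

end Close

end Vale.Agent.N150.X3P
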