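import Mathlib
import Vale.Agent.N150.X3BS
import Vale.Agent.N150.T1Def

/-! The base program of block T1 as an alternating program: equivariance of the Picard iteration,
the explored projections `E`, `F` and the exploration `BExp`. -/

open MeasureTheory Matrix

namespace Vale.Agent.N150.X3P

open Vale.Agent.P150 Vale.Agent.P150.F Vale.Agent.N150.Fib Vale.Agent.N150.EC Vale.Agent.N150.T1

variable {n : ℕ}

/-! ### conjugation -/

/-- `Oᵀ A O` -/
def cj (O : OG n) (A : Mat n) : Mat n := O.1ᵀ * A * O.1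

section Conj

variable (O : OG n) (A B J : Mat n) (y : Vec n)

theorem cj_mul : cj O A * cj O B = cj O (A * B) := by
  unfold cj
  rw [show O.1ᵀ * A * O.1 * (O.1ᵀ * B * O.1) = O.1ᵀ * (A * (O.1 * O.1ᵀ) * B) * O.1 by
    simp only [Matrix.mul_assoc], OG.mul_transpose, Matrix.mul_one]

theorem cj_one : cj O 1 = 1 := by
  unfold cj
  rw [Matrix.mul_one, OG.transpose_mul]

theorem cj_mulVec : cj O A *ᵥ (O.1ᵀ *ᵥ y) = O.1ᵀ *ᵥ (A *ᵥ y) := by
  unfold cj
  rw [← mulVec_mulVec, ← mulVec_mulVec, OG.mulVec_tr_mulVec]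

theorem mul_cj_mulVec : O.1 *ᵥ (cj O A *ᵥ y) = A *ᵥ (O.1 *ᵥ y) := by
  unfold cj
  rw [← mulVec_mulVec, ← mulVec_mulVec, OG.mulVec_tr_mulVec]

theorem trace_cj : (cj O A).trace = A.trace := by
  unfold cj
  rw [trace_mul_comm, ← Matrix.mul_assoc, OG.mul_transpose, Matrix.one_mul]

theorem inv_cj : (cj O A)⁻¹ = cj O A⁻¹ := by
  unfold cj
  rw [Matrix.mul_inv_rev, Matrix.mul_inv_rev, inv_eq_left_inv (OG.transpose_mul O),
    inv_eq_left_inv (OG.mul_transpose O), Matrix.mul_assoc]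

theorem cj_back : cj O⁻¹ (cj O A) = A := by
  unfold cj
  rw [OG.coe_inv, transpose_transpose, show O.1 * (O.1ᵀ * A * O.1) * O.1ᵀ =
    O.1 * O.1ᵀ * A * (O.1 * O.1ᵀ) by simp only [Matrix.mul_assoc], OG.mul_transpose,
    Matrix.one_mul, Matrix.mul_one]

theorem posDef_cj_of {A : Mat n} (h : A.PosDef) : (cj O A).PosDef := by
  have h1 := h.conjTranspose_mul_mul_same (B := O.1) fun u v e => by
    have e' : O.1 *ᵥ u = O.1 *ᵥ v := e
    rw [← OG.tr_mulVec_mulVec O u, e', OG.tr_mulVec_mulVec]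
  rwa [conjTranspose_eq_transpose_of_trivial] at h1

theorem posDef_cj : (cj O A).PosDef ↔ A.PosDef :=
  ⟨fun h => cj_back O A ▸ posDef_cj_of O⁻¹ h, posDef_cj_of O⟩

theorem cj_vecMulVec (u v : Vec n) :
    cj O (vecMulVec u v) = vecMulVec (O.1ᵀ *ᵥ u) (O.1ᵀ *ᵥ v) := by
  unfold cj
  rw [Matrix.mul_vecMulVec, Matrix.vecMulVec_mul, mulVec_transpose O.1 v]

theorem Nm_cj (z : ℝ) : Nm (cj O J) z = cj O (Nm J z) := by
  unfold Nm cj
  rw [Matrix.mul_sub, Matrix.sub_mul, Matrix.mul_smul, Matrix.smul_mul, Matrix.mul_one,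
    OG.transpose_mul]

theorem G0_cj (z : ℝ) : G0 (cj O J) z = cj O (G0 J z) := by
  unfold G0
  rw [Nm_cj, inv_cj]

theorem zr_cj (τ : ℝ) : zr (cj O J) τ = zr J τ := by
  simp only [zr, Nm_cj, G0_cj, posDef_cj, trace_cj]

theorem zh_cj (h : Vec n) : zh (cj O J) h = zh J h := zr_cj O J _

theorem zs_cj : zs (cj O J) (O.1ᵀ *ᵥ y) = zs J y := by
  simp only [zs, Nm_cj, G0_cj, posDef_cj, trace_cj, cj_mulVec, X4.sq_orth_tr]

theorem G00_cj : G00 (cj O J) (O.1ᵀ *ᵥ y) = cj O (G00 J y) := by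
  unfold G00
  rw [zs_cj, G0_cj]

theorem h0_cj : h0 (cj O J) (O.1ᵀ *ᵥ y) = O.1ᵀ *ᵥ h0 J y := by
  unfold h0
  rw [G00_cj, cj_mulVec]

theorem w0_cj : w0 (cj O J) (O.1ᵀ *ᵥ y) = w0 J y := by
  unfold w0
  rw [G00_cj, trace_cj]

theorem T20_cj : T20 (cj O J) (O.1ᵀ *ᵥ y) = T20 J y := by
  unfold T20 T2
  rw [zs_cj, G0_cj, cj_mul, trace_cj]

theorem AA_cj : AA (cj O J) (O.1ᵀ *ᵥ y) = cj O (AA J y) := by
  unfold AA
  rw [w0_cj, T20_cj, G00_cj, h0_cj, cj_mulVec, ← cj_vecMulVec]
  unfold cj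
  rw [Matrix.mul_add, Matrix.add_mul, Matrix.mul_smul, Matrix.smul_mul, Matrix.mul_one,
    OG.transpose_mul, Matrix.mul_smul, Matrix.smul_mul]

end Conj

theorem wb_ne (hn : 0 < n) (h : Vec n) : wb h ≠ 0 := by
  have : Nonempty (Fin n) := ⟨⟨0, hn⟩⟩
  have h1 : 0 < ∑ i, dv h i := Finset.sum_pos (fun i _ => by
    have := Real.tanh_sq_lt_one (h i)
    unfold dv
    linarith) Finset.univ_nonempty
  exact (div_pos h1 (by exact_mod_cast hn)).ne'

theorem tm_eq (h : Vec n) : tm h = wb h • (h + chi h) := by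
  rcases Nat.eq_zero_or_pos n with hn | hn
  · subst hn
    exact Subsingleton.elim _ _
  · unfold chi
    rw [add_sub_cancel, smul_smul, mul_inv_cancel₀ (wb_ne hn h), one_smul]

theorem res1_eq (J : Mat n) (y h : Vec n) (z : ℝ) :
    res1 J y h z = Nm J z *ᵥ (wb h • (h + chi h)) - chi h - y := by
  rw [← tm_eq]
  unfold res1 chi
  rw [sub_mulVec, smul_mulVec, one_mulVec]
  abel

/-- the Picard update in frame coordinates -/
noncomputable def nxtP (J : Mat n) (y ht h c : Vec n) : Vec n :=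
  ht - (AA J y)⁻¹ *ᵥ (G0 J (zh J h) *ᵥ (Nm J (zh J h) *ᵥ (wb h • (ht + c)) - c - y))

theorem Pic_cj (O : OG n) (J : Mat n) (y h : Vec n) :
    O.1 *ᵥ Pic (cj O J) (O.1ᵀ *ᵥ y) h = nxtP J y (O.1 *ᵥ h) h (O.1 *ᵥ chi h) := by
  unfold Pic nxtP Psi rs1
  rw [AA_cj, inv_cj, zh_cj, G0_cj, res1_eq, Nm_cj, mulVec_sub, mul_cj_mulVec, mul_cj_mulVec,
    mulVec_sub O.1, mulVec_sub O.1, mul_cj_mulVec, mulVec_smul, mulVec_add, OG.mulVec_tr_mulVec]

/-! ### measurability -/

theorem measurable_tanh : Measurable Real.tanh := by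
  rw [show Real.tanh = fun x => Real.sinh x / Real.cosh x from
    funext Real.tanh_eq_sinh_div_cosh]
  exact Real.continuous_sinh.measurable.div Real.continuous_cosh.measurable

theorem measurable_tm : Measurable (tm : Vec n → Vec n) :=
  measurable_pi_lambda _ fun i => measurable_tanh.comp (measurable_pi_apply i)

theorem measurable_sum_dv : Measurable fun h : Vec n => ∑ i, dv h i :=
  Finset.measurable_fun_sum _ fun i _ =>
    ((measurable_tanh.comp (measurable_pi_apply i)).pow_const 2).const_sub 1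

theorem measurable_wb : Measurable (wb : Vec n → ℝ) := measurable_sum_dv.div_const _

theorem measurable_chi : Measurable (chi : Vec n → Vec n) :=
  (measurable_wb.inv.smul measurable_tm).sub measurable_id

theorem measurable_zr (hn : 0 < n) (J : Mat n) : Measurable (zr J) := by
  set S : ℝ → Set ℝ := fun τ => {z | (Nm J z).PosDef ∧ (G0 J z).trace ≤ τ} with hS
  have hb : ∀ τ, BddBelow (S τ) := fun τ => ⟨J ⟨0, hn⟩ ⟨0, hn⟩, fun z hz => by
    have h1 := hz.1.diag_pos (i := ⟨0, hn⟩)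
    simp only [Nm, Matrix.sub_apply, Matrix.smul_apply, one_apply_eq, smul_eq_mul, mul_one] at h1
    linarith⟩
  have hm : ∀ {τ τ' : ℝ}, τ ≤ τ' → S τ ⊆ S τ' := fun h z hz => ⟨hz.1, hz.2.trans h⟩
  refine measurable_of_Iio fun a => ?_
  have h1 : MeasurableSet {τ | ∃ z ∈ S τ, z < a} :=
    (IsUpperSet.ordConnected fun τ τ' h hz =>
      hz.imp fun z (hz : z ∈ S τ ∧ z < a) => And.intro (hm h hz.1) hz.2).measurableSet
  have h2 : MeasurableSet {τ | (S τ).Nonempty} :=
    (IsUpperSet.ordConnected fun τ τ' h hz => hz.mono (hm h)).measurableSet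
  have e : zr J ⁻¹' Set.Iio a = {τ | ∃ z ∈ S τ, z < a} ∪ ({τ | (S τ).Nonempty}ᶜ ∩ {_τ | 0 < a}) := by
    ext τ
    show sInf (S τ) < a ↔ (∃ z ∈ S τ, z < a) ∨ (¬(S τ).Nonempty ∧ 0 < a)
    rcases (S τ).eq_empty_or_nonempty with h | h
    · simp [h]
    · rw [csInf_lt_iff (hb τ) h]
      simp [h]
  rw [e]
  exact h1.union (h2.compl.inter (MeasurableSet.const _))

theorem measurable_zh (J : Mat n) : Measurable (zh J) := by
  rcases Nat.eq_zero_or_pos n with hn | hn
  · subst hn
    exact Subsingleton.measurable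
  · exact (measurable_zr hn J).comp measurable_sum_dv

theorem mm_det {X : Type*} [MeasurableSpace X] {B : X → Mat n} (hB : MM B) :
    Measurable fun s => (B s).det := by
  simp only [Matrix.det_apply']
  exact Finset.measurable_fun_sum _ fun σ _ =>
    (Finset.measurable_fun_prod _ fun i _ => hB _ _).const_mul _

theorem mm_inv {X : Type*} [MeasurableSpace X] {B : X → Mat n} (hB : MM B) :
    MM fun s => (B s)⁻¹ := fun i j => by
  simp only [Matrix.inv_def, Matrix.smul_apply, Matrix.adjugate_apply, Ring.inverse_eq_inv',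
    smul_eq_mul]
  refine (mm_det hB).inv.mul (mm_det fun a b => ?_)
  simp only [Matrix.updateRow_apply]
  split_ifs
  · exact measurable_const
  · exact hB a b

theorem measurable_nxtP (J : Mat n) (y : Vec n) :
    Measurable fun p : Vec n × Vec n × Vec n => nxtP J y p.1 p.2.1 p.2.2 := by
  have hz : Measurable fun p : Vec n × Vec n × Vec n => zh J p.2.1 :=
    (measurable_zh J).comp measurable_snd.fst
  have hN : MM fun p : Vec n × Vec n × Vec n => Nm J (zh J p.2.1) :=
    (MM.smul hz (MM.const _)).sub (MM.const _)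
  have hw : Measurable fun p : Vec n × Vec n × Vec n => wb p.2.1 :=
    measurable_wb.comp measurable_snd.fst
  exact measurable_fst.sub ((MM.const _).mulVec ((mm_inv hN).mulVec
    (((hN.mulVec (hw.smul (measurable_fst.add measurable_snd.snd))).sub
      measurable_snd.snd).sub measurable_const)))

/-! ### the base program -/

/-- frame query `O h^j`, site query `chi h^j` -/
noncomputable def prog (S : Dat n) : Alt n where
  ht0 := h0 (diagonal S.lam) S.yt
  chi := chi
  nxt := nxtP (diagonal S.lam) S.yt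
  m_chi := measurable_chi
  m_nxt := measurable_nxtP _ _

theorem J_eq (S : Dat n) (O : OG n) : S.J O = cj O (diagonal S.lam) := by
  unfold Dat.J Sp.JO cj
  rfl

theorem y_eq (S : Dat n) (O : OG n) : S.y O = O.1ᵀ *ᵥ S.yt := rfl

theorem mul_h_zero (S : Dat n) (O : OG n) : O.1 *ᵥ S.h O 0 = h0 (diagonal S.lam) S.yt := by
  unfold Dat.h it
  rw [Function.iterate_zero_apply, J_eq, y_eq, h0_cj, OG.mulVec_tr_mulVec]

theorem mul_h_succ (S : Dat n) (O : OG n) (k : ℕ) : O.1 *ᵥ S.h O (k + 1) =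
    nxtP (diagonal S.lam) S.yt (O.1 *ᵥ S.h O k) (S.h O k) (O.1 *ᵥ chi (S.h O k)) := by
  unfold Dat.h it
  rw [Function.iterate_succ_apply', ← Pic_cj, ← J_eq, ← y_eq]

theorem prog_hs (S : Dat n) (k : ℕ) (O : OG n) : (prog S).hs k O = S.h O k :=
  (prog S).hs_eq (mul_h_zero S O) (mul_h_succ S O) k

/-- the queried vectors -/
noncomputable abbrev vP (S : Dat n) : ℕ → OG n → Vec n := (prog S).vq
/-- the unexplored projection after `p` queries -/
noncomputable abbrev PP (S : Dat n) (x : Vec n) (p : ℕ) : OG n → Mat n := pr (PB x) bA (vP S) p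
/-- the new directions -/
noncomputable abbrev eP (S : Dat n) (x : Vec n) (j : ℕ) (O : OG n) : Vec n :=
  eh (PB x) bA (vP S) j O
/-- the span of `x` and of the answers of the frame queries -/
noncomputable def EP (S : Dat n) (x : Vec n) (p : ℕ) (O : OG n) : Mat n :=
  X4.PS (IF bA p) (ef x bA (vP S) p O)
/-- the span of the site queries -/
noncomputable def FP (S : Dat n) (x : Vec n) (p : ℕ) (O : OG n) : Mat n :=
  X4.PS (JF bA p) (ef x bA (vP S) p O)

section Prog

variable (S : Dat n) (x : Vec n) (O : OG n)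

theorem vP_even (k : ℕ) : vP S (2 * k) O = O.1 *ᵥ S.h O k := by
  rw [← prog_hs, Alt.mul_hs]
  exact (prog S).vq_even k O

theorem vP_odd (k : ℕ) : vP S (2 * k + 1) O = chi (S.h O k) := by
  rw [← prog_hs]
  exact (prog S).vq_odd k O

theorem PP_h {k p : ℕ} (hk : 2 * k < p) : PP S x p O *ᵥ S.h O k = 0 := by
  rw [← prog_hs]
  exact (prog S).pr_hs (isProj_base x) hk

theorem PP_chi {k p : ℕ} (hk : 2 * k + 1 < p) : PP S x p O *ᵥ chi (S.h O k) = 0 := by
  rw [← prog_hs]
  exact (prog S).pr_chi (isProj_base x) hk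

theorem PP_x (p : ℕ) : PP S x p O *ᵥ x = 0 := pr_base (isProj_base x) p (base_mulVec x)

theorem ip_eP_h {k j : ℕ} (hk : 2 * k < j) : ip (eP S x j O) (S.h O k) = 0 :=
  ip_eh_of (isProj_base x) le_rfl (PP_h S x O hk)

theorem ip_eP_chi {k j : ℕ} (hk : 2 * k + 1 < j) : ip (eP S x j O) (chi (S.h O k)) = 0 :=
  ip_eh_of (isProj_base x) le_rfl (PP_chi S x O hk)

theorem ip_eP_x (j : ℕ) : ip (eP S x j O) x = 0 := ip_eh_of (isProj_base x) le_rfl (PP_x S x O j)

theorem measurable_h (k : ℕ) : Measurable fun O => S.h O k := by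
  rw [← funext (prog_hs S k)]
  exact (prog S).measurable_hs k

end Prog

theorem measurable_clip (θ : ℝ) : Measurable (clip θ : Vec n → Vec n) :=
  measurable_pi_lambda _ fun i =>
    measurable_const.max (measurable_const.min (measurable_pi_apply i))

section Exp

variable {μ : Measure (OG n)} {x : Vec n} {b : ℕ → Bool} {v : ℕ → OG n → Vec n} {p : ℕ}

theorem mm_PS (h : Chain μ (PB x) b v p) (I : Finset (Fin (p + 1))) :
    MM fun O => X4.PS I (ef x b v p O) := by
  have h1 : ∀ i, Measurable fun O => ef x b v p O i := fun i => by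
    rcases Fin.eq_zero_or_eq_succ i with rfl | ⟨j, rfl⟩
    · exact measurable_const
    · exact h.measurable_eh j.2
  intro i j
  simp only [X4.PS, Matrix.sum_apply]
  exact Finset.measurable_fun_sum _ fun l _ => MM.vecMulVec (h1 l) (h1 l) i j

theorem adapted_ef (h : Chain μ (PB x) b v p) : Adapted (pr (PB x) b v p) (ef x b v p) := by
  intro O U hU
  funext i
  rcases Fin.eq_zero_or_eq_succ i with rfl | ⟨j, rfl⟩
  · rw [ef_zero, ef_zero]
  · rw [ef_succ, ef_succ]
    exact h.adapted_eh j.2 j.2 O U hU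

theorem adapted_PS (h : Chain μ (PB x) b v p) (I : Finset (Fin (p + 1))) :
    Adapted (pr (PB x) b v p) fun O => X4.PS I (ef x b v p O) := fun O U hU => by
  show X4.PS I (ef x b v p (O * U)) = X4.PS I (ef x b v p O)
  rw [adapted_ef h O U hU]

end Exp

theorem sq_of_sgn {x : Vec n} (hx : ∀ i, x i = 1 ∨ x i = -1) : F.sq x = n := by
  unfold F.sq
  rw [Finset.sum_congr rfl fun i _ => show x i ^ 2 = 1 by rcases hx i with h | h <;> simp [h]]
  simp

theorem chain_prog (S : Dat n) {μ : Measure (OG n)} {x xt : Vec n} (h : FibL μ x xt) (p : ℕ) :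
    Chain μ (PB x) bA (vP S) p := (prog S).chain h.explo p

theorem adapted_h (S : Dat n) {μ : Measure (OG n)} {x xt : Vec n} (h : FibL μ x xt) {k p : ℕ}
    (hk : 2 * k < p) : Adapted (PP S x p) fun O => S.h O k := by
  rw [← funext (prog_hs S k)]
  exact (prog S).adapted_hs h.explo hk

/-- the base program is an exploration which contains `h ^ 3` -/
theorem bexp (t : ℝ) (S : Dat n) {μ : Measure (OG n)} {x xt : Vec n} (h : FibL μ x xt) {p : ℕ}
    (hp : 7 ≤ p) : BExp t S μ (PP S x p) (EP S x p) (FP S x p) where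
  explo := (chain_prog S h p).explo le_rfl
  mE := mm_PS (chain_prog S h p) _
  mF := mm_PS (chain_prog S h p) _
  aE := adapted_PS (chain_prog S h p) _
  aF := adapted_PS (chain_prog S h p) _
  sum := fun _ => PS_ef (sq_of_sgn h.sgn)
  mh := (measurable_clip _).comp (measurable_h S 3)
  ah := fun O U hU => congrArg (clip _) (adapted_h S h (k := 3) (by omega) O U hU)

end Vale.Agent.N150.X3P
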