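import Vale.Agent.N150.X3e
import Vale.Agent.N150.X3I
import Vale.Agent.N150.TG3

/-! Base induction of block T1, part f: the deterministic core on the event `FEv`. -/

open Matrix

namespace Vale.Agent.N150.X3

open Vale.Agent.P150 Vale.Agent.P150.F Vale.Agent.N150.Fib Vale.Agent.N150.X3P Vale.Agent.N150.T1

variable {n : ℕ} {L t : ℝ} {S : Dat n} {x xt : Vec n} {O : OG n} {g : Fin 8 → Vec n}

theorem ge_of (hs : Sm L t) (hA : Adm L t S) (h : TG.FEv t S x xt g) : GE hs S x xt g := by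
  have hK : t⁻¹ ^ 2 ≤ (sc hs).K := hs.iw (by norm_num)
  obtain ⟨a0, a1, a2, a3, a4⟩ := h.fd_g (Z := sc hs) hA.npos hs.pos (hs.c1 (by norm_num)) rfl hK
  refine ⟨h.sd20 hA.npos hs.pos hs.hL ?_ rfl hK, a0, a1, a2, a3, a4⟩
  have := hs.cL (C := 20) (a := 1) (by norm_num) (by norm_num)
  push_cast
  linarith

/-- the deterministic core of the base program -/
theorem core (hs : Sm L t) (hA : Adm L t S) (hX : AdmX L t S xt) (hx : ∀ i, x i = 1 ∨ x i = -1)
    (hO : O.1 *ᵥ x = xt) (hE : TG.FEv t S x xt g)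
    (hg : ∀ j : Fin 8, Close (PB x) bA (vP S) (t ^ 215998) j O (g j)) :
    Base t S O ∧ F.sq (S.hc t O) ≤ n * t ^ 143999 ∧ ∀ i ∈ IF bA 8, ∀ j ∈ IF bA 8,
      |ip (ef x bA (vP S) 8 O i) (VW (S.hc t O) (S.hc t O) *ᵥ ef x bA (vP S) 8 O j)| ≤
        t ^ 359000 + if i = 0 ∧ j = 0 then t ^ 287900 else 0 :=
  det_main (π := prog S) hs hA hX (sq_of_sgn hx) hO rfl (fun k => prog_hs S k O) (hs.p0 _).le
    (hs.pw (by norm_num)) hg (ge_of hs hA hE)

end Vale.Agent.N150.X3
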