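import Vale.Agent.N150.X3J
import Vale.Agent.N150.X3f

/-! The base program of block T1. -/

namespace Vale.Agent.N150.X3P

open Vale.Agent.N150.T1

theorem coreStmt : CoreStmt :=
  ev_of_sm fun _ _ hs _ _ _ _ _ _ hA hX hx hO hE hg => X3.core hs hA hX hx hO hE hg

theorem x3Stmt : X3Stmt := x3_of coreStmt

end Vale.Agent.N150.X3P
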