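import Mathlib

/-! Bookkeeping of powers of a small parameter `t`: `Lp t x a` means `0 ≤ x ≤ t ^ a`, `a : ℤ`. -/

open Filter Topology

namespace Vale.Agent.N150.Pw

/-- `t` is small with respect to `L` and to all numerical constants -/
structure Sm (L t : ℝ) : Prop where
  t0 : 0 < t
  L2 : 2 ≤ L
  tL : L * t ≤ 1
  t1 : 10000000 * t ≤ 1

theorem ev_sm {L : ℝ} (hL : 2 ≤ L) : ∀ᶠ t in 𝓝[>] (0 : ℝ), Sm L t := by
  have h1 : ∀ c : ℝ, ∀ᶠ t in 𝓝[>] (0 : ℝ), c * t ≤ 1 := fun c => by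
    refine Filter.Eventually.filter_mono nhdsWithin_le_nhds ?_
    have h : Tendsto (fun t : ℝ => c * t) (𝓝 0) (𝓝 (c * 0)) := tendsto_id.const_mul c
    rw [mul_zero] at h
    exact h.eventually (eventually_le_nhds one_pos)
  filter_upwards [self_mem_nhdsWithin, h1 L, h1 10000000] with t h0 h2 h3
  exact ⟨h0, hL, h2, h3⟩

/-- `0 ≤ x ≤ t ^ a` -/
def Lp (t x : ℝ) (a : ℤ) : Prop := 0 ≤ x ∧ x ≤ t ^ a

variable {L t x y : ℝ} {a b : ℤ}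

namespace Sm

theorem le_one (h : Sm L t) : t ≤ 1 := by linarith [h.t0, h.t1]

theorem zmono (h : Sm L t) (hab : b ≤ a) : t ^ a ≤ t ^ b :=
  zpow_le_zpow_right_of_le_one₀ h.t0 h.le_one hab

theorem pmono (h : Sm L t) {j k : ℕ} (hjk : j ≤ k) : t ^ k ≤ t ^ j :=
  pow_le_pow_of_le_one h.t0.le h.le_one hjk

theorem pow_le_one (h : Sm L t) (k : ℕ) : t ^ k ≤ 1 := pow_le_one₀ h.t0.le h.le_one

theorem mono (h : Sm L t) (hx : Lp t x a) (hab : b ≤ a) : Lp t x b :=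
  ⟨hx.1, hx.2.trans (h.zmono hab)⟩

theorem pow (h : Sm L t) (k : ℕ) : Lp t (t ^ k) k := ⟨pow_nonneg h.t0.le k, (zpow_natCast t k).ge⟩

theorem inv (h : Sm L t) (k : ℕ) : Lp t (t⁻¹ ^ k) (-k) :=
  ⟨pow_nonneg (inv_nonneg.2 h.t0.le) k, by rw [zpow_neg, zpow_natCast, inv_pow]⟩

theorem self (h : Sm L t) : Lp t t 1 := ⟨h.t0.le, (zpow_one t).ge⟩

theorem inv1 (h : Sm L t) : Lp t t⁻¹ (-1) := ⟨inv_nonneg.2 h.t0.le, (zpow_neg_one t).ge⟩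

theorem of_mul (h : Sm L t) (h0 : 0 ≤ x) (h1 : x * t ≤ 1) : Lp t x (-1) :=
  ⟨h0, by rw [zpow_neg_one, ← one_div, le_div_iff₀ h.t0]; exact h1⟩

/-- numerical constants -/
theorem num (h : Sm L t) (c : ℝ) (h0 : 0 ≤ c) (h1 : c ≤ 10000000) : Lp t c (-1) :=
  h.of_mul h0 ((mul_le_mul_of_nonneg_right h1 h.t0.le).trans h.t1)

theorem cL (h : Sm L t) : Lp t L (-1) := h.of_mul (by linarith [h.L2]) h.tL

theorem of_le_one (h0 : 0 ≤ x) (h1 : x ≤ 1) : Lp t x 0 := ⟨h0, by rwa [zpow_zero]⟩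

theorem mul (h : Sm L t) (hx : Lp t x a) (hy : Lp t y b) : Lp t (x * y) (a + b) :=
  ⟨mul_nonneg hx.1 hy.1, by
    rw [zpow_add₀ h.t0.ne']
    exact mul_le_mul hx.2 hy.2 hy.1 (hx.1.trans hx.2)⟩

theorem sq (h : Sm L t) (hx : Lp t x a) : Lp t (x ^ 2) (a + a) := by
  rw [pow_two]
  exact h.mul hx hx

theorem add (h : Sm L t) (hx : Lp t x a) (hy : Lp t y b) : Lp t (x + y) (min a b - 1) := by
  have h1 := (h.mono hx (min_le_left a b)).2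
  have h2 := (h.mono hy (min_le_right a b)).2
  have h3 := (h.mul (h.num 2 (by norm_num) (by norm_num))
    (⟨zpow_nonneg h.t0.le _, le_rfl⟩ : Lp t (t ^ min a b) (min a b))).2
  rw [show -1 + min a b = min a b - 1 by ring] at h3
  exact ⟨add_nonneg hx.1 hy.1, by linarith⟩

theorem cmul (h : Sm L t) (c : ℝ) (h0 : 0 ≤ c) (h1 : c ≤ 10000000) (hx : Lp t x a) :
    Lp t (c * x) (-1 + a) := h.mul (h.num c h0 h1) hx

theorem div_pow (h : Sm L t) (hx : Lp t x a) (k : ℕ) : Lp t (x / t ^ k) (a + -k) := by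
  rw [div_eq_mul_inv, ← inv_pow]
  exact h.mul hx (h.inv k)

theorem of_le (hx : Lp t y a) (h0 : 0 ≤ x) (hxy : x ≤ y) : Lp t x a := ⟨h0, hxy.trans hx.2⟩

theorem le_pow (h : Sm L t) (hx : Lp t x a) (k : ℕ) (hk : (k : ℤ) ≤ a) : x ≤ t ^ k := by
  have := (h.mono hx hk).2
  rwa [zpow_natCast] at this

theorem le_inv (h : Sm L t) (hx : Lp t x a) (k : ℕ) (hk : -(k : ℤ) ≤ a) : x ≤ t⁻¹ ^ k := by
  have := (h.mono hx hk).2
  rwa [zpow_neg, zpow_natCast, ← inv_pow] at this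

theorem le_one' (h : Sm L t) (hx : Lp t x a) (hk : 0 ≤ a) : x ≤ 1 := by
  have := (h.mono hx hk).2
  rwa [zpow_zero] at this

/-- a positive power is below any numerical fraction -/
theorem small (h : Sm L t) (hx : Lp t x a) (hk : 1 ≤ a) : x ≤ 1 / 10000000 := by
  have h1 := (h.mono hx hk).2
  rw [zpow_one] at h1
  linarith [h.t1]

/-- `log (t⁻¹ ^ k) ≤ k / t` -/
theorem log_le (h : Sm L t) (k : ℕ) : Real.log (t⁻¹ ^ k) ≤ k * t⁻¹ := by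
  rw [Real.log_pow]
  refine mul_le_mul_of_nonneg_left ?_ (Nat.cast_nonneg k)
  linarith [Real.log_le_sub_one_of_pos (inv_pos.2 h.t0)]

theorem sqrt_pow (h : Sm L t) (k : ℕ) : √(t ^ (2 * k)) = t ^ k := by
  rw [mul_comm, pow_mul, Real.sqrt_sq (pow_nonneg h.t0.le k)]

/-- `t ^ (2 k) ≤ ν` gives `(√ν)⁻¹ ≤ t⁻¹ ^ k` -/
theorem inv_sqrt_le (h : Sm L t) {k : ℕ} {ν : ℝ} (hν : t ^ (2 * k) ≤ ν) : |(√ν)⁻¹| ≤ t⁻¹ ^ k := by
  rw [abs_of_nonneg (inv_nonneg.2 (Real.sqrt_nonneg ν)), inv_pow]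
  refine inv_anti₀ (pow_pos h.t0 k) ?_
  rw [← h.sqrt_pow k]
  exact Real.sqrt_le_sqrt hν

end Sm

end Vale.Agent.N150.Pw
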