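import Vale.Agent.N150.X4Co2

/-! Compressions on one fibre: the four statements. -/

open MeasureTheory Matrix Module

namespace Vale.Agent.N150.X4

open Vale.Agent.P150 Vale.Agent.P150.F Vale.Agent.N150.Fib

variable {n : ℕ}

namespace Co

theorem kh_base (O : OG n) {F G K : Mat n} {c : Cst} (h : KH (O.1 * F) G K c) :
    KH F (G * O.1) (O.1ᵀ * K * O.1) c := by
  have e : ∀ a b, ip a ((O.1ᵀ * K * O.1) *ᵥ b) = ip (O.1 *ᵥ a) (K *ᵥ (O.1 *ᵥ b)) := fun a b => by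
    rw [← Matrix.mulVec_mulVec, ← Matrix.mulVec_mulVec, ip_tr, transpose_transpose]
  refine ⟨?_, h.Γpos, h.y0, h.gF0, h.kF0, h.κF0, h.D0, h.kKpos, h.τ0, ?_, fun a b => ?_,
    fun w => ?_, fun w => ?_, fun a b => ?_, ?_, ?_, ?_⟩
  · rw [transpose_mul, transpose_mul, transpose_transpose, h.sym, Matrix.mul_assoc]
  · simpa using h.opG.mulN (Rip.opLe_orth O) h.Γpos.le zero_le_one
  · rw [e, ← Matrix.mulVec_mulVec, ← Matrix.mulVec_mulVec]
    exact h.fac _ _
  · have := h.gF w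
    rwa [← Matrix.mulVec_mulVec, Matrix.mulVec_mulVec (F *ᵥ w)] at this
  · have := h.kF w
    rw [← Matrix.mulVec_mulVec] at this
    rwa [← Matrix.mulVec_mulVec, ← Matrix.mulVec_mulVec, nv_orth_tr]
  · have := h.κF a b
    rw [← Matrix.mulVec_mulVec, ← Matrix.mulVec_mulVec] at this
    rwa [e]
  · have := Rip.hsq_mul_le' G (Rip.opLe_orth O) zero_le_one
    linarith [h.hsG]
  · have h1 := Rip.hsq_mul_le' (O.1ᵀ * K) (Rip.opLe_orth O) zero_le_one
    have h2 := Rip.hsq_mul_le (Rip.opLe_orth_tr O) K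
    linarith [h.hsK]
  · rw [trace_mul_cycle, OG.mul_transpose, Matrix.one_mul]
    exact h.trK

/-- `y U = s • O α U` with `α` covariant once the direction `z` is removed -/
def Pt (O : OG n) (P E : Mat n) (δ q s : ℝ) (y : OG n → Vec n) : Prop :=
  ∃ z : Vec n, ∀ T, Two P T → T *ᵥ z = 0 →
    ∃ α, Cov P E T α δ q ∧ ∀ U, y U = s • (O.1 *ᵥ α U)

section Points

variable {O : OG n} {P E F V G K : Mat n} {p x v β φ δ₀ δ : ℝ} {c : Cst}

theorem pt_site (h : Lev P E F p x) {a : Vec n} (ha : nv a = 1) (h0 : nv (E *ᵥ a) ≤ δ₀ * nv a)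
    (hδ : δ₀ + 700 * ep n x ≤ δ) :
    Pt O P E δ (15 * Real.exp (-x)) 1 fun U => (O * U).1 *ᵥ a := by
  refine ⟨0, fun T hT _ => ?_⟩
  have h1 := cov_site h hT ha.le (by rwa [ha, mul_one] at h0) hδ
  refine ⟨_, ⟨h1.meas, h1.cov, h1.le1, h1.small.trans ?_⟩, fun U => ?_⟩
  · linarith [Real.exp_pos (-x)]
  · simp only [one_smul, OG.coe_mul, Matrix.mulVec_mulVec]

theorem pt_frame (h : Lev P E F p x) (hV : VH V v) (hβ : 0 ≤ β) (hE : OpLe (E * V * E) (β * v))
    {u : Vec n} (hu : nv u = 1) (h0 : nv ((O.1 * F)ᵀ *ᵥ u) ≤ φ * nv u)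
    (hδ : β + φ + 700 * ep n x ≤ δ) :
    Pt O P E δ (15 * Real.exp (-x)) (2 * v) fun U => cj (O * U) V *ᵥ u := by
  refine ⟨O.1ᵀ *ᵥ u, fun T hT hz => ⟨_, cov_frame h hT hV (by rw [nv_orth_tr, hu]) hz hβ hE
    (by rwa [hu, mul_one, transpose_mul, h.hF.symm, ← Matrix.mulVec_mulVec] at h0) hδ,
    fun U => ?_⟩⟩
  have hv := hV.1
  unfold aV cj
  rw [mulVec_smul, smul_smul, mul_inv_cancel₀ (by positivity), one_smul]
  simp only [OG.coe_mul, transpose_mul, Matrix.mulVec_mulVec, Matrix.mul_assoc]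

theorem pt_pair (h : Lev P E F p x) (hK : KH (O.1 * F) G K c) {q s s' : ℝ}
    {y y' : OG n → Vec n} (hs : 0 < s) (hs' : 0 < s') (h1 : Pt O P E δ q s y)
    (h2 : Pt O P E δ q s' y') :
    (haarH P).real {U | s * c.B (ep n x) δ < nv (G *ᵥ y U) ∨
      s * s' * c.η (ep n x) δ < |ip (y U) (K *ᵥ y' U)|} ≤ q + q + 8 * Real.exp (-x) := by
  obtain ⟨z, h1⟩ := h1
  obtain ⟨z', h2⟩ := h2
  have hT := two_rm h.hP z z'
  obtain ⟨α, a1, a2⟩ := h1 _ hT (rm_rm_left h.hP z z')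
  obtain ⟨α', b1, b2⟩ := h2 _ hT (rm_rm_right h.hP z z')
  refine (Tail.real_imp_le _ fun U hU => ?_).trans (comb h hT (kh_base O hK) a1 b1)
  rw [a2, b2, mulVec_smul, mulVec_smul, nv_smul, ip_smul_left, ip_smul_right, ← mul_assoc,
    abs_mul, abs_of_pos hs, abs_of_pos (mul_pos hs hs')] at hU
  rw [← Matrix.mulVec_mulVec, ← Matrix.mulVec_mulVec, ← Matrix.mulVec_mulVec, ip_tr,
    transpose_transpose]
  exact hU.imp (fun h => lt_of_mul_lt_mul_left h hs.le)
    fun h => lt_of_mul_lt_mul_left h (mul_pos hs hs').le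

theorem B_nonneg (hK : KH F G K c) {e : ℝ} (he : 0 ≤ e) (hδ : 0 ≤ δ) : 0 ≤ c.B e δ := by
  have := hK.Γpos
  have := hK.gF0
  have := hK.D0
  unfold Cst.B
  positivity

theorem η_nonneg (hK : KH F G K c) {e : ℝ} (he : 0 ≤ e) (hδ : 0 ≤ δ) : 0 ≤ c.η e δ := by
  have := B_nonneg hK he hδ
  have := hK.Γpos
  have := hK.y0
  have := hK.κF0
  have := hK.kF0
  have := hK.τ0
  have := hK.kKpos
  unfold Cst.η
  positivity

theorem net1 (h : Lev P E F p x) (hK : KH (O.1 * F) G K c) (hδ : 0 ≤ δ) {s t : ℝ} (hs : 0 < s)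
    (ht : t = 2 * (s * c.B (ep n x) δ)) (W : Submodule ℝ (Vec n)) (A : OG n → Mat n)
    (hA : ∀ u ∈ W, nv u = 1 → Pt O P E δ (15 * Real.exp (-x)) s fun U => A U *ᵥ u) :
    (haarH P).real {U | ¬ ∀ u ∈ W, nv ((G * A U) *ᵥ u) ≤ t * nv u} ≤
      Real.exp (2 * finrank ℝ W) * (38 * Real.exp (-x)) := by
  rw [ht]
  refine Rip.net_norm (haarH P) W (fun U => G * A U)
    (mul_nonneg hs.le (B_nonneg hK (ep_nonneg n x) hδ)) (by positivity) fun u hu h1 => ?_
  refine ((Tail.real_imp_le _ fun U hU => Or.inl ?_).trans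
    (pt_pair h hK hs hs (hA u hu h1) (hA u hu h1))).trans (le_of_eq (by ring))
  rwa [Matrix.mulVec_mulVec]

theorem net2 (h : Lev P E F p x) (hK : KH (O.1 * F) G K c) (hδ : 0 ≤ δ) {s s' t : ℝ} (hs : 0 < s)
    (hs' : 0 < s') (ht : t = 4 * (s * s' * c.η (ep n x) δ)) (W W' : Submodule ℝ (Vec n))
    (A A' M : OG n → Mat n) (hM : ∀ U, M U = (A U)ᵀ * K * A' U)
    (hA : ∀ u ∈ W, nv u = 1 → Pt O P E δ (15 * Real.exp (-x)) s fun U => A U *ᵥ u)
    (hA' : ∀ u ∈ W', nv u = 1 → Pt O P E δ (15 * Real.exp (-x)) s' fun U => A' U *ᵥ u) :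
    (haarH P).real {U | ¬ ∀ u ∈ W, ∀ u' ∈ W', |ip u (M U *ᵥ u')| ≤ t * (nv u * nv u')} ≤
      Real.exp (2 * (finrank ℝ W + finrank ℝ W')) * (38 * Real.exp (-x)) := by
  rw [ht]
  refine Rip.net_bilinear (haarH P) W W' M
    (mul_nonneg (mul_pos hs hs').le (η_nonneg hK (ep_nonneg n x) hδ)) (by positivity)
    fun u hu u' hu' h1 h2 => ?_
  refine ((Tail.real_imp_le _ fun U hU => Or.inr ?_).trans
    (pt_pair h hK hs hs' (hA u hu h1) (hA' u' hu' h2))).trans (le_of_eq (by ring))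
  rw [hM, ← Matrix.mulVec_mulVec, ← Matrix.mulVec_mulVec, ip_tr, transpose_transpose] at hU
  exact hU.trans_le (le_abs_self _)

end Points

theorem cj_tr (O : OG n) (V : Mat n) : (cj O V)ᵀ = cj O Vᵀ := by
  unfold cj
  rw [transpose_mul, transpose_mul, transpose_transpose, Matrix.mul_assoc]

theorem op_tr {E V : Mat n} (hE : IsProj E) {t : ℝ} (ht : 0 ≤ t) (h : OpLe (E * V * E) t) :
    OpLe (E * Vᵀ * E) t := by
  have h1 := Rip.opLe_transpose h ht
  rwa [transpose_mul, transpose_mul, hE.symm, ← Matrix.mul_assoc] at h1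

theorem exp_le {a b x : ℝ} (h : a ≤ b) :
    Real.exp a * (38 * Real.exp (-x)) ≤ 38 * Real.exp (b - x) := by
  rw [mul_left_comm, ← Real.exp_add]
  exact mul_le_mul_of_nonneg_left (Real.exp_le_exp.2 (by linarith)) (by norm_num)

theorem choose_le {k : ℕ} (hk : 1 ≤ k) (hn : k ≤ n) :
    (n.choose k : ℝ) ≤ Real.exp (k * (1 + Real.log (n / k))) := by
  have hk0 : (0 : ℝ) < k := by exact_mod_cast hk
  have hn0 : (0 : ℝ) < n := by exact_mod_cast (lt_of_lt_of_le hk hn)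
  have h1 : (n.choose k : ℝ) ≤ (n : ℝ) ^ k / k.factorial := by
    exact_mod_cast Nat.choose_le_pow_div (α := ℝ) k n
  have h2 := Real.pow_div_factorial_le_exp (k : ℝ) hk0.le k
  rw [mul_add, mul_one, Real.exp_add, Real.exp_nat_mul, Real.exp_log (div_pos hn0 hk0)]
  refine h1.trans (le_trans (le_of_eq ?_) (mul_le_mul_of_nonneg_right h2 (by positivity)))
  rw [div_pow]
  field_simp

end Co

open Co

theorem c1 : C1Stmt := by
  intro n O P E F V p x v W W' h hV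
  have hv := hV.1
  have he := ep_nonneg n x
  have h1 := Rip.net_bilinear (haarH P) W W'
    (fun U => cj (O * U) V - cj O ((1 - P) * V * (1 - P))) (a := 600 * v * ep n x)
    (p := 7 * Real.exp (-x)) (by positivity) (by positivity) fun a _ b _ ha hb => by
      refine (Tail.real_imp_le _ fun U hU => ?_).trans
        (fl_tr (lev_big h) hV (a := O.1ᵀ *ᵥ a) (b := O.1ᵀ *ᵥ b) (by rw [nv_orth_tr, ha])
          (by rw [nv_orth_tr, hb]))
      refine lt_of_lt_of_le ?_ (le_abs_self _)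
      have e1 : ip a (cj (O * U) V *ᵥ b) =
          ip (U.1ᵀ *ᵥ O.1ᵀ *ᵥ a) (V *ᵥ U.1ᵀ *ᵥ O.1ᵀ *ᵥ b) := by
        rw [← ip_tr, ← ip_tr]
        unfold cj
        simp only [OG.coe_mul, transpose_mul, Matrix.mulVec_mulVec, Matrix.mul_assoc]
      have e2 : ip a (cj O ((1 - P) * V * (1 - P)) *ᵥ b) =
          ip ((1 - P) *ᵥ O.1ᵀ *ᵥ a) (V *ᵥ (1 - P) *ᵥ O.1ᵀ *ᵥ b) := by
        nth_rewrite 3 [← h.hP.compl.symm]
        rw [← ip_tr, ← ip_tr]
        unfold cj
        simp only [Matrix.mulVec_mulVec, Matrix.mul_assoc]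
      rw [sub_mulVec, ip_sub_right, e1, e2] at hU
      have := mul_nonneg hv.le he
      linarith
  refine le_trans (Tail.real_imp_le _ fun U hU => ?_) (h1.trans ?_)
  · unfold C1 at hU
    rwa [show 2400 * v * ep n x = 4 * (600 * v * ep n x) by ring] at hU
  · rw [mul_left_comm, ← Real.exp_add, ← sub_eq_add_neg]
    exact mul_le_mul_of_nonneg_right (by norm_num) (Real.exp_pos _).le

theorem c2 : C2Stmt := by
  intro n O P E F V G K p x v β φ δ c W h hV hK hβ hφ hE hW hδ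
  have hv := hV.1
  have hv2 : 0 < 2 * v := by positivity
  have hδ0 : 0 ≤ δ := by linarith [ep_nonneg n x]
  have p1 := fun u hu h1 => pt_frame (O := O) h hV hβ hE h1 (hW u hu) hδ
  have p2 := fun u hu h1 => pt_frame (O := O) h (vh_tr hV) hβ
    (op_tr h.hE (mul_nonneg hβ hv.le) hE) h1 (hW u hu) hδ
  have n1 := net1 h hK hδ0 hv2 (t := 4 * v * c.B (ep n x) δ) (by ring) W _ p1
  have n2 := net1 h hK hδ0 hv2 (t := 4 * v * c.B (ep n x) δ) (by ring) W _ p2
  have n3 := net2 h hK hδ0 hv2 hv2 (t := 16 * v ^ 2 * c.η (ep n x) δ) (by ring) W W _ _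
    (fun U => cj (O * U) V * K * cj (O * U) V) (fun U => by rw [cj_tr, transpose_transpose]) p2 p1
  have hd : (0 : ℝ) ≤ finrank ℝ W := Nat.cast_nonneg _
  refine (or_ae P (fun U _ hU => ?_) n1 (or_le n2 n3)).trans ?_
  · unfold C2 at hU
    rwa [not_and_or, not_and_or] at hU
  · have e1 := exp_le (x := x) (show 2 * (finrank ℝ W : ℝ) ≤ 4 * finrank ℝ W by linarith)
    have e2 := exp_le (x := x)
      (show 2 * ((finrank ℝ W : ℝ) + finrank ℝ W) ≤ 4 * finrank ℝ W by linarith)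
    linarith [Real.exp_pos (4 * (finrank ℝ W : ℝ) - x)]

theorem c3 : C3Stmt := by
  intro n O P E F V G K p x v β φ δ₀ δ c W A h hV hK hβ hφ h0 hE hW hA hδ hδ'
  have hv := hV.1
  have hv2 : 0 < 2 * v := by positivity
  have hδ0 : 0 ≤ δ := by linarith [ep_nonneg n x]
  have p1 := fun u hu h1 => pt_frame (O := O) h hV hβ hE h1 (hW u hu) hδ
  have p2 := fun u hu h1 => pt_frame (O := O) h (vh_tr hV) hβ
    (op_tr h.hE (mul_nonneg hβ hv.le) hE) h1 (hW u hu) hδ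
  have p3 := fun a ha h1 => pt_site (O := O) h h1 (hA a ha) hδ'
  have n1 := net1 h hK hδ0 one_pos (t := 2 * c.B (ep n x) δ) (by ring) A _ p3
  have n2 := net2 h hK hδ0 one_pos one_pos (t := 4 * c.η (ep n x) δ) (by ring) A A _ _
    (fun U => (O * U).1ᵀ * K * (O * U).1) (fun U => rfl) p3 p3
  have n3 := net2 h hK hδ0 hv2 one_pos (t := 8 * v * c.η (ep n x) δ) (by ring) W A _ _
    (fun U => cj (O * U) V * K * (O * U).1) (fun U => by rw [cj_tr, transpose_transpose]) p2 p3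
  have n4 := net2 h hK hδ0 one_pos hv2 (t := 8 * v * c.η (ep n x) δ) (by ring) A W _ _
    (fun U => (O * U).1ᵀ * K * cj (O * U) V) (fun U => rfl) p3 p1
  have hd : (0 : ℝ) ≤ finrank ℝ W := Nat.cast_nonneg _
  have hd' : (0 : ℝ) ≤ finrank ℝ A := Nat.cast_nonneg _
  refine (or_ae P (fun U _ hU => ?_) n1 (or_le n2 (or_le n3 n4))).trans ?_
  · unfold C3 at hU
    rwa [not_and_or, not_and_or, not_and_or] at hU
  · have e1 := exp_le (x := x)
      (show 2 * (finrank ℝ A : ℝ) ≤ 2 * finrank ℝ W + 4 * finrank ℝ A by linarith)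
    have e2 := exp_le (x := x) (show 2 * ((finrank ℝ A : ℝ) + finrank ℝ A) ≤
      2 * finrank ℝ W + 4 * finrank ℝ A by linarith)
    have e3 := exp_le (x := x) (show 2 * ((finrank ℝ W : ℝ) + finrank ℝ A) ≤
      2 * finrank ℝ W + 4 * finrank ℝ A by linarith)
    have e4 := exp_le (x := x) (show 2 * ((finrank ℝ A : ℝ) + finrank ℝ W) ≤
      2 * finrank ℝ W + 4 * finrank ℝ A by linarith)
    linarith [Real.exp_pos (2 * (finrank ℝ W : ℝ) + 4 * finrank ℝ A - x)]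

theorem C3.mono {V G K : Mat n} {v B η : ℝ} {W A A' : Submodule ℝ (Vec n)} {O : OG n}
    (h : C3 V G K v B η W A' O) (hA : A ≤ A') : C3 V G K v B η W A O :=
  ⟨fun c hc => h.1 c (hA hc), fun c hc c' hc' => h.2.1 c (hA hc) c' (hA hc'),
    fun u hu c hc => h.2.2.1 u hu c (hA hc), fun c hc => h.2.2.2 c (hA hc)⟩

theorem c3All : C3AllStmt := by
  intro n O P E F V G K p x v β φ δ₀ δ c W k h hV hK hβ hφ h0 hE hW hk hn hA hδ hδ'
  have h1 := Rip.real_exists_le (haarH P) (Finset.univ.powersetCard k)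
    (fun A U => ¬ C3 V G K v (c.B (ep n x) δ) (c.η (ep n x) δ) W (Rip.supp A) (O * U))
    (p := 400 * Real.exp (2 * finrank ℝ W + 4 * k - x)) fun A hA' => by
      have h2 := (Finset.mem_powersetCard.1 hA').2
      have h3 := c3 n O P E F V G K p x v β φ δ₀ δ c W (Rip.supp A) h hV hK hβ hφ h0 hE hW
        (hA A h2.le) hδ hδ'
      rwa [Rip.finrank_supp, h2] at h3
  refine (Tail.real_imp_le _ fun U hU => ?_).trans (h1.trans ?_)
  · by_contra hc
    push Not at hc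
    refine hU fun A hA' => ?_
    obtain ⟨A', h2, h3⟩ := Finset.exists_superset_card_eq hA' (by rwa [Fintype.card_fin])
    exact (hc A' (Finset.mem_powersetCard.2 ⟨Finset.subset_univ _, h3⟩)).mono
      fun a ha i hi => ha i fun h4 => hi (h2 h4)
  · rw [Finset.card_powersetCard, Finset.card_univ, Fintype.card_fin, mul_left_comm]
    refine mul_le_mul_of_nonneg_left ?_ (by norm_num)
    refine (mul_le_mul_of_nonneg_right (choose_le hk hn) (Real.exp_pos _).le).trans ?_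
    rw [← Real.exp_add]
    exact le_of_eq (congrArg _ (by ring))

end Vale.Agent.N150.X4
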