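import Vale.Agent.N150.X4C
import Vale.Agent.N150.X4Core
import Vale.Agent.N150.T1Def
import Vale.Agent.N150.D4
import Vale.Agent.N150.Pw

/-! The statement `T1.X4Stmt` from the three fibre compressions. -/

open MeasureTheory Matrix Module Filter Topology

namespace Vale.Agent.N150.X4

open Vale.Agent.P150 Vale.Agent.P150.F Vale.Agent.N150.Rip Vale.Agent.N150.Fib
  Vale.Agent.N150.EC Vale.Agent.N150.Pw

variable {n : ℕ}

/-- an arbitrary set of good data intersected with a measurable event -/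
theorem inter_le {μ : Measure (OG n)} [IsProbabilityMeasure μ] {P : OG n → Mat n} (h : Explo μ P)
    {A B : Set (OG n)} (hB : MeasurableSet B) {p : ℝ} (h0 : 0 ≤ p)
    (hp : ∀ O ∈ A, (haarH (P O)).real {U | O * U ∈ B} ≤ p) : μ.real (A ∩ B) ≤ p := by
  have h1 := h.meas_inter_le famH (A := {O | haarH (P O) {U | O * U ∈ B} ≤ ENNReal.ofReal p})
    (measurableSet_le (h.measurable_fibre famH hB) measurable_const)
    ((h.adapted_fibre B).comp fun m => m ≤ ENNReal.ofReal p) hB (p := ENNReal.ofReal p)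
    fun _ hO => hO
  have h2 : μ (A ∩ B) ≤ ENNReal.ofReal p := by
    refine (measure_mono (Set.inter_subset_inter_left B fun O hO => ?_)).trans
      (h1.trans (mul_le_of_le_one_right' prob_le_one))
    have := (invOn_haarH (P O)).prob
    change haarH (P O) {U | O * U ∈ B} ≤ ENNReal.ofReal p
    rw [← ofReal_measureReal (measure_ne_top _ _)]
    exact ENNReal.ofReal_le_ofReal (hp O hO)
  exact ENNReal.toReal_le_of_le_ofReal h0 h2

/-! ### the data -/

noncomputable def hhS (S : T1.Dat n) : Vec n := fun a => (√(S.z0 - S.lam a))⁻¹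

noncomputable def yvS (S : T1.Dat n) : Vec n := fun a => S.z0 - S.lam a - S.w⁻¹

noncomputable def cS (t : ℝ) : Cst :=
  ⟨t⁻¹ ^ 69600, 8, t⁻¹ ^ 3, t⁻¹ ^ 35000, t ^ 60000, 1, t⁻¹ ^ 34802, t ^ 69597⟩

noncomputable def qS (n : ℕ) (t : ℝ) : Par :=
  ⟨12, t ^ 143998, t ^ 350000, t ^ 287000, t ^ 27199, t ^ 148700, t ^ 104300, t ^ 104300,
    ⌊n * t ^ 360000⌋₊⟩

section Adm

variable {L t : ℝ} {S : T1.Dat n}

theorem one_le_mul (h : Sm L t) (a : T1.Adm L t S) {k : ℕ} (hk : k ≤ 431998) :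
    1 ≤ n * t ^ k :=
  a.big.trans (mul_le_mul_of_nonneg_left (h.pmono hk) (Nat.cast_nonneg n))

theorem n_big (h : Sm L t) (a : T1.Adm L t S) : (10000000 : ℝ) ≤ n := by
  have h1 := one_le_mul h a (k := 1) (by norm_num)
  have h2 := h.t1
  have h0 := h.t0
  rw [pow_one] at h1
  by_contra hc
  nlinarith

theorem n_pos (h : Sm L t) (a : T1.Adm L t S) : (0 : ℝ) < n := by linarith [n_big h a]

theorem gap_ge (h : Sm L t) (a : T1.Adm L t S) (i : Fin n) :
    t ^ (2 * 144001) ≤ S.z0 - S.lam i := by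
  have h1 := a.lo
  have h2 := a.top i
  have hL : 0 < L := by linarith [h.L2]
  have h3 : t ^ (2 * 144001) ≤ 2 * t ^ 288000 / L := by
    rw [le_div_iff₀ hL, mul_comm]
    have h4 := h.le_pow (h.mul h.cL (h.pow (2 * 144001))) 288000 (by norm_num)
    have h5 := pow_nonneg h.t0.le 288000
    linarith
  exact (h3.trans (le_sub_iff_add_le'.2 h1)).trans (sub_le_sub_left h2 _)

theorem gap_pos (h : Sm L t) (a : T1.Adm L t S) (i : Fin n) : 0 < S.z0 - S.lam i :=
  (pow_pos h.t0 _).trans_le (gap_ge h a i)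

theorem g_pos (h : Sm L t) (a : T1.Adm L t S) (i : Fin n) : 0 < S.g i := inv_pos.2 (gap_pos h a i)

theorem hh_sq (h : Sm L t) (a : T1.Adm L t S) (i : Fin n) : hhS S i ^ 2 = S.g i := by
  unfold hhS T1.Dat.g
  rw [inv_pow, Real.sq_sqrt (gap_pos h a i).le]

theorem sum_g (h : Sm L t) (a : T1.Adm L t S) : ∑ i, S.g i = n * S.w := by
  unfold T1.Dat.w
  rw [mul_div_cancel₀ _ (n_pos h a).ne']

theorem w_le (h : Sm L t) (a : T1.Adm L t S) : S.w ≤ 1 := by
  have h1 := a.sad
  have h2 : 0 ≤ ∑ i, (S.g i * S.yt i) ^ 2 := Finset.sum_nonneg fun _ _ => sq_nonneg _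
  rw [sum_g h a] at h1
  have h3 := n_pos h a
  by_contra hc
  nlinarith

theorem le_w (h : Sm L t) (a : T1.Adm L t S) : 1 / 2 ≤ S.w := by
  have h1 := a.sad
  have h2 := a.y2
  rw [sum_g h a] at h1
  have h3 := n_pos h a
  have h4 := h.small (h.mul h.cL (h.pow 144000)) (by norm_num)
  by_contra hc
  nlinarith

theorem hh_yv (h : Sm L t) (a : T1.Adm L t S) (i : Fin n) :
    hhS S i ^ 2 * yvS S i = 1 - S.g i / S.w := by
  rw [hh_sq h a]
  unfold yvS T1.Dat.g
  have := (gap_pos h a i).ne'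
  have hw : S.w ≠ 0 := by linarith [le_w h a]
  field_simp

theorem gw_le (h : Sm L t) (a : T1.Adm L t S) (i : Fin n) :
    0 ≤ S.g i / S.w ∧ S.g i / S.w ≤ 2 * S.g i := by
  have h1 := le_w h a
  have h2 := g_pos h a i
  refine ⟨by positivity, ?_⟩
  rw [div_le_iff₀ (by linarith)]
  nlinarith

theorem high (h : Sm L t) (a : T1.Adm L t S) {k : ℕ} {i : Fin n} (hi : i ∉ S.low (t ^ (2 * k))) :
    |hhS S i| ≤ t⁻¹ ^ k := by
  refine h.inv_sqrt_le ?_
  simp only [T1.Dat.low, Finset.mem_filter, Finset.mem_univ, true_and, not_le] at hi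
  have h1 := a.lo
  have hL : 0 < L := by linarith [h.L2]
  have h2 : 0 ≤ 2 * t ^ 288000 / L := by
    have := h.t0
    positivity
  linarith

theorem frm (h : Sm L t) (a : T1.Adm L t S) :
    Frm (S.low (t ^ 198400)) (S.low (t ^ 139200)) (hhS S) (yvS S) (t⁻¹ ^ 144001) (t⁻¹ ^ 99200)
      (cS t) := by
  have h0 := h.t0
  have hn := n_pos h a
  have hw := le_w h a
  have hw1 := w_le h a
  refine ⟨fun i hi => ?_, by positivity, by positivity, fun i => h.inv_sqrt_le (gap_ge h a i),
    fun i hi => high h a (k := 99200) hi, fun i hi => high h a (k := 69600) hi, fun i => ?_,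
    pow_pos (inv_pos.2 h0) _, by norm_num [cS], (h.inv 3).1, (h.inv 35000).1, (h.pow 60000).1,
    zero_le_one, pow_pos (inv_pos.2 h0) _, (h.pow 69597).1, ?_, ?_, ?_⟩
  · simp only [T1.Dat.low, Finset.mem_filter, Finset.mem_univ, true_and] at hi ⊢
    exact hi.trans (h.pmono (by norm_num))
  · change |S.z0 - S.lam i - S.w⁻¹| ≤ 8
    have h1 := gap_pos h a i
    have h2 := a.hi
    have h3 := a.bot i
    have h4 := h.le_one' (h.mul h.cL (h.pow 288000)) (by norm_num)
    have h5 : S.w⁻¹ ≤ 2 := by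
      rw [inv_le_comm₀ (by linarith) (by norm_num)]
      linarith
    have h6 : 0 ≤ S.w⁻¹ := by positivity
    rw [abs_le]
    constructor <;> linarith
  · change _ ≤ n * (1 : ℝ) ^ 2
    simp only [hh_sq h a]
    have h1 : ∑ i ∈ (S.low (t ^ 139200))ᶜ, S.g i ≤ ∑ i, S.g i :=
      Finset.sum_le_sum_of_subset_of_nonneg (Finset.subset_univ _) fun i _ _ => (g_pos h a i).le
    rw [sum_g h a] at h1
    nlinarith
  · change _ ≤ n * (t⁻¹ ^ 34802) ^ 2
    simp only [hh_yv h a]
    have h1 : ∑ i ∈ (S.low (t ^ 139200))ᶜ, (1 - S.g i / S.w) ^ 2 ≤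
        ∑ i ∈ (S.low (t ^ 139200))ᶜ, (2 + 8 * S.g i ^ 2) := Finset.sum_le_sum fun i _ => by
      obtain ⟨k1, k2⟩ := gw_le h a i
      have k3 := pow_le_pow_left₀ k1 k2 2
      nlinarith [sq_nonneg (1 + S.g i / S.w)]
    rw [Finset.sum_add_distrib, Finset.sum_const, nsmul_eq_mul, ← Finset.mul_sum] at h1
    have h2 : (((S.low (t ^ 139200))ᶜ).card : ℝ) ≤ n := by
      exact_mod_cast (Finset.card_le_univ _).trans (Fintype.card_fin n).le
    have h3 : ∑ i ∈ (S.low (t ^ 139200))ᶜ, S.g i ^ 2 ≤ L * n * t⁻¹ ^ 69600 := by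
      rw [inv_pow, ← div_eq_mul_inv, le_div_iff₀ (pow_pos h0 _), mul_comm]
      exact a.trhi
    have h4 := h.le_inv (h.add (h.num 2 (by norm_num) (by norm_num))
      (h.cmul 8 (by norm_num) (by norm_num) (h.mul h.cL (h.inv 69600)))) (34802 * 2) (by norm_num)
    rw [pow_mul] at h4
    have h5 := mul_le_mul_of_nonneg_left h4 hn.le
    nlinarith
  · change _ ≤ n * t ^ 69597
    simp only [hh_yv h a]
    have h1 := Finset.sum_add_sum_compl (S.low (t ^ 139200)) fun i => 1 - S.g i / S.w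
    have h2 : ∑ i, (1 - S.g i / S.w) = 0 := by
      rw [Finset.sum_sub_distrib, ← Finset.sum_div, sum_g h a, mul_div_assoc,
        div_self (by linarith : S.w ≠ 0)]
      simp
    have h3 : |∑ i ∈ S.low (t ^ 139200), (1 - S.g i / S.w)| ≤
        ∑ i ∈ S.low (t ^ 139200), (1 + 2 * S.g i) :=
      (Finset.abs_sum_le_sum_abs _ _).trans (Finset.sum_le_sum fun i _ => by
        obtain ⟨k1, k2⟩ := gw_le h a i
        rw [abs_le]
        constructor <;> linarith)
    rw [Finset.sum_add_distrib, Finset.sum_const, nsmul_eq_mul, ← Finset.mul_sum] at h3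
    rw [show ∑ i ∈ (S.low (t ^ 139200))ᶜ, (1 - S.g i / S.w) =
      -∑ i ∈ S.low (t ^ 139200), (1 - S.g i / S.w) by linarith, abs_neg]
    have h4 := h.le_pow (h.add (h.mul h.cL (h.pow 208800))
      (h.cmul 2 (by norm_num) (by norm_num) (h.mul h.cL (h.pow 69600)))) 69597 (by norm_num)
    have h5 := mul_le_mul_of_nonneg_left h4 hn.le
    have h6 := a.c2
    have h7 := a.trlo
    nlinarith

theorem ep_eq (h : Sm L t) (a : T1.Adm L t S) (k : ℕ) : ep n (n * t ^ (2 * k)) = t ^ k := by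
  unfold ep
  rw [mul_div_cancel_left₀ _ (n_pos h a).ne', h.sqrt_pow]

theorem lp_B (h : Sm L t) : Lp t ((cS t).B (t ^ 104398) (t ^ 104298)) (-6) := by
  refine h.mono (h.add (h.add (h.add (h.mul (h.inv 69600) (h.pow 104298)) (h.inv 3))
    (h.cmul 3 (by norm_num) (by norm_num) (Sm.of_le_one zero_le_one le_rfl)))
    (h.mul (h.cmul 9 (by norm_num) (by norm_num) (h.inv 69600)) (h.pow 104398))) (by norm_num)

theorem lp_η (h : Sm L t) : Lp t ((cS t).η (t ^ 104398) (t ^ 104298)) 34600 := by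
  have n8 := h.num 8 (by norm_num) (by norm_num)
  refine h.mono (h.add (h.add (h.add (h.add (h.add
    (h.mul (h.mul (h.mul (h.cmul 2 (by norm_num) (by norm_num) n8) (h.inv 69600)) (h.pow 104298))
      (lp_B h)) (h.pow 60000))
    (h.mul (h.cmul 10 (by norm_num) (by norm_num) (h.pow 104398)) (h.inv 35000)))
    (h.cmul 2 (by norm_num) (by norm_num) (h.pow 69597)))
    (h.mul (h.cmul 170 (by norm_num) (by norm_num) (h.inv 34802)) (h.pow 104398)))
    (h.mul (h.mul (h.cmul 300 (by norm_num) (by norm_num) n8) (h.sq (h.inv 69600)))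
      (h.sq (h.pow 104398)))) (by norm_num)

theorem twelve_le (h : Sm L t) (a : T1.Adm L t S) {k : ℕ} (hk : k ≤ 431997) :
    12 ≤ n * t ^ k := by
  have h1 := one_le_mul h a (k := k + 1) (by omega)
  have h2 := h.t1
  have h0 := h.t0
  rw [pow_succ, ← mul_assoc] at h1
  by_contra hc
  nlinarith

theorem num (h : Sm L t) (a : T1.Adm L t S) :
    Num n (t⁻¹ ^ 144001) (t⁻¹ ^ 99200) (cS t) (qS n t) (n * t ^ (2 * 148798)) (n * t ^ (2 * 104398))
      (t ^ 104298) (t ^ 4000) (t⁻¹ ^ 10) := by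
  have hn := n_pos h a
  have hb := n_big h a
  have v := h.pow 143998
  have h1 := h.inv 144001
  have h2 := h.inv 99200
  have B := lp_B h
  have η := lp_η h
  have up : ∀ k : ℕ, n * t ^ k ≤ n := fun k => mul_le_of_le_one_right hn.le (h.pow_le_one k)
  refine ⟨one_le_mul h a (by norm_num), twelve_le h a (by norm_num), up _,
    one_le_mul h a (by norm_num), twelve_le h a (by norm_num), up _, ?_, (h.pow _).1, (h.pow _).1,
    (h.pow _).1, (h.pow _).1, (h.pow _).1, ?_, ?_, ?_, ?_, ?_, ?_, ?_, ?_, ?_, ?_⟩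
  · change 2 * ((12 : ℝ) + 2) ≤ n
    linarith
  · exact Nat.le_floor (by rw [Nat.cast_one]; exact one_le_mul h a (by norm_num))
  · exact Nat.floor_le_of_le (up _)
  · rw [ep_eq h a]
    exact h.le_pow (h.add (h.add (h.div_pow (h.add (h.pow 350000) (h.pow 287000)) 143998)
      (h.pow 104300)) (h.cmul 700 (by norm_num) (by norm_num) (h.pow 104398))) 104298 (by norm_num)
  · rw [ep_eq h a]
    exact h.le_pow (h.add (h.pow 104300) (h.cmul 700 (by norm_num) (by norm_num) (h.pow 104398)))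
      104298 (by norm_num)
  · rw [ep_eq h a, ep_eq h a]
    exact h.le_pow (h.add
      (h.mul (h.add (h.add (h.add
        (h.mul (h.cmul 2400 (by norm_num) (by norm_num) v) (h.pow 148798)) (h.pow 350000))
        (h.mul (h.pow 287000) (h.sq (h.pow 27199))))
        (h.mul (h.cmul 4 (by norm_num) (by norm_num) v) (h.pow 148700))) (h.sq h1))
      (h.mul (h.add (h.add (h.add
        (h.mul (h.cmul 2400 (by norm_num) (by norm_num) v) (h.pow 104398)) (h.pow 350000))
        (h.pow 287000))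
        (h.mul (h.cmul 4 (by norm_num) (by norm_num) v) (h.pow 104300)))
        (h.add (h.mul (h.cmul 2 (by norm_num) (by norm_num) h1) h2) (h.sq h2)))) 4000 (by norm_num)
  · rw [ep_eq h a]
    exact h.le_inv (h.mul (h.mul (h.cmul 4 (by norm_num) (by norm_num) v) B) h1) 10 (by norm_num)
  · rw [ep_eq h a]
    exact h.le_pow (h.mul (h.mul (h.cmul 16 (by norm_num) (by norm_num) (h.sq v)) η) (h.sq h1))
      4000 (by norm_num)
  · rw [ep_eq h a]
    exact h.le_inv (h.cmul 2 (by norm_num) (by norm_num) B) 10 (by norm_num)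
  · rw [ep_eq h a]
    exact h.le_pow (h.cmul 4 (by norm_num) (by norm_num) η) 4000 (by norm_num)
  · rw [ep_eq h a]
    exact h.le_pow (h.mul (h.mul (h.cmul 8 (by norm_num) (by norm_num) v) η) h1) 4000
      (by norm_num)

theorem vh (h : Sm L t) (a : T1.Adm L t S) {hc : Vec n} (h1 : ∀ i, |hc i| ≤ t ^ 71999)
    (h2 : F.sq hc ≤ n * t ^ 143999) : VH (T1.VW hc hc) (t ^ 143998) := by
  have hn := n_pos h a
  have h0 := h.t0
  have e : t ^ 143998 = (t ^ 71999) ^ 2 := by rw [← pow_mul]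
  have d1 : ∀ i, 1 - t ^ 143998 ≤ dv hc i ∧ dv hc i ≤ 1 := fun i => by
    have k := pow_le_pow_left₀ (abs_nonneg _) ((D4.abs_tanh_le (hc i)).trans (h1 i)) 2
    rw [sq_abs, ← e] at k
    unfold dv
    constructor <;> nlinarith [sq_nonneg (Real.tanh (hc i))]
  have sw : ∑ i, dv hc i = n * wb hc := by
    unfold wb
    rw [mul_div_cancel₀ _ hn.ne']
  have w1 : 1 - t ^ 143998 ≤ wb hc := by
    have k := Finset.card_nsmul_le_sum Finset.univ (dv hc) _ fun i _ => (d1 i).1
    rw [Finset.card_univ, Fintype.card_fin, nsmul_eq_mul, sw] at k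
    exact le_of_mul_le_mul_left k hn
  have w2 : wb hc ≤ 1 := by
    have k := Finset.sum_le_card_nsmul Finset.univ (dv hc) _ fun i _ => (d1 i).2
    rw [Finset.card_univ, Fintype.card_fin, nsmul_eq_mul, sw] at k
    exact le_of_mul_le_mul_left k hn
  have w3 : 1 / 2 ≤ wb hc := by linarith [h.small (h.pow 143998) (by norm_num)]
  have db : T1.Db hc hc = dv hc := funext fun i => if_pos rfl
  refine ⟨pow_pos h0 _, diagonal fun i => dv hc i - wb hc, (2 / (n * wb hc)) • tm hc, T1.mu hc hc,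
    ?_, diagonal_transpose _, ?_, fun w => ?_, ?_⟩
  · unfold T1.VW
    rw [db, smul_vecMulVec]
  · rw [trace_diagonal, Finset.sum_sub_distrib, sw]
    simp
  · have k := (opLe_diag (u := fun i => dv hc i - wb hc) (pow_nonneg h0.le 143998) fun i => by
      rw [abs_le]
      constructor <;> linarith [(d1 i).1, (d1 i).2]).nv_le (pow_nonneg h0.le _) w
    refine (abs_ip_le _ _).trans ?_
    rw [← nv_sq]
    nlinarith [mul_le_mul_of_nonneg_left k (nv_nonneg w)]
  · have k1 : nv (tm hc) ≤ nv hc := D4.nv_tm hc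
    have k2 : nv (T1.mu hc hc) ≤ nv hc := nv_mono fun i => by
      unfold T1.mu
      rw [db, show (tm hc i + tm hc i) * dv hc i / 2 = tm hc i * dv hc i by ring, abs_mul]
      have k3 : |dv hc i| ≤ 1 := by
        rw [abs_le]
        constructor <;> linarith [(d1 i).1, (d1 i).2, h.pow_le_one 143998]
      exact (mul_le_of_le_one_right (abs_nonneg _) k3).trans (D4.abs_tanh_le _)
    have k4 : nv (tm hc) * nv (T1.mu hc hc) ≤ n * t ^ 143999 := by
      refine (mul_le_mul k1 k2 (nv_nonneg _) (nv_nonneg _)).trans ?_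
      rwa [← pow_two, nv_sq]
    have k5 : 0 ≤ 2 / (n * wb hc) := by positivity
    rw [nv_smul, abs_of_nonneg k5, mul_assoc]
    refine (mul_le_mul_of_nonneg_left k4 k5).trans ?_
    rw [div_mul_eq_mul_div, div_le_iff₀ (by positivity), pow_succ t 143998]
    have k6 := h.t1
    have k7 : 0 < n * t ^ 143998 := by positivity
    nlinarith

theorem opLe_of_tr {O : OG n} {M : Mat n} {c : ℝ} (h : OpLe (O.1ᵀ * M) c) : OpLe M c := fun v => by
  have := h v
  rwa [← mulVec_mulVec, sq_orth_tr] at this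

theorem K0_eq (h : Sm L t) (a : T1.Adm L t S) (O : OG n) :
    S.K0 O * (1 - S.P (t ^ 139200) O) =
      O.1ᵀ * KM (S.low (t ^ 139200)) (hhS S) (yvS S) * O.1 := by
  change dg _ O * (1 - dg (ind _) O) = dg _ O
  rw [one_sub_dg, dg_mul]
  congr 1
  funext i
  rw [← hh_yv h a]
  ring

theorem bs (h : Sm L t) (a : T1.Adm L t S) {x xt hc : Vec n} (ax : T1.AdmX L t S xt) {O : OG n}
    (hx : O.1 *ᵥ x = xt) {P E F' : Mat n} (hs : E + F' = 1 - P) (b : T1.BS t S O x E F' hc) :
    BS (S.low (t ^ 198400)) (S.low (t ^ 139200)) (hhS S) (yvS S) (cS t) (qS n t) O P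
      (T1.VW hc hc) := by
  have hn := n_pos h a
  have h0 := h.t0
  have hs0 : 0 < √(n : ℝ) := Real.sqrt_pos.2 hn
  have sx : F.sq x = n := by rw [← ax.nrm, ← hx, sq_orth]
  refine ⟨E, F', (√(n : ℝ))⁻¹ • x, b.pE, b.pF, hs, ?_, vh h a b.clp b.nrm, fun u u' => ?_, ?_, ?_,
    opLe_of_tr (O := O) ?_, opLe_of_tr (O := O) ?_, fun v => ?_, opLe_of_tr (O := O) ?_, ?_,
    fun A hA => ?_⟩
  · have k := congrArg Matrix.trace hs
    rw [Matrix.trace_add, Matrix.trace_sub, Matrix.trace_one, Fintype.card_fin] at k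
    change _ ≤ (12 : ℝ)
    linarith [b.tr]
  · rw [Matrix.mul_assoc, ← mulVec_mulVec, ip_tr, b.pE.symm, ← mulVec_mulVec]
    refine (b.b1 u u').trans (le_of_eq ?_)
    change _ = t ^ 350000 * _ + t ^ 287000 * _
    rw [ip_smul_left, ip_smul_left, abs_mul, abs_mul, abs_of_pos (inv_pos.2 hs0)]
    congr 2
    rw [div_eq_iff hn.ne']
    nth_rewrite 3 [← Real.mul_self_sqrt hn.le]
    field_simp
  · rw [nv_smul, abs_of_pos (inv_pos.2 hs0), nv_eq_sqrt, sx, inv_mul_cancel₀ hs0.ne']
  · change _ ≤ t ^ 27199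
    rw [mulVec_smul, mulVec_smul, hx, nv_smul, abs_of_pos (inv_pos.2 hs0),
      inv_mul_le_iff₀ hs0]
    refine nv_le_of_sq_le (by positivity) ?_
    rw [mul_pow, Real.sq_sqrt hn.le, sq_res, ← pow_mul]
    have k1 : ∑ i ∈ S.low (t ^ 198400), xt i ^ 2 ≤
        ∑ i, (L * t ^ 288000 + t ^ 198400) * (S.g i * xt i ^ 2) := by
      have hL := (h.mul h.cL (h.pow 288000)).1
      refine (Finset.sum_le_sum fun i hi => ?_).trans
        (Finset.sum_le_sum_of_subset_of_nonneg (Finset.subset_univ _) fun i _ _ => by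
          have := g_pos h a i
          positivity)
      simp only [T1.Dat.low, Finset.mem_filter, Finset.mem_univ, true_and] at hi
      rw [← mul_assoc]
      refine le_mul_of_one_le_left (sq_nonneg _) ?_
      unfold T1.Dat.g
      rw [← div_eq_mul_inv, one_le_div (gap_pos h a i)]
      linarith [a.hi]
    rw [← Finset.mul_sum] at k1
    have k2 : ∑ i, S.g i * xt i ^ 2 ≤ L * n * t⁻¹ ^ 144000 := by
      rw [inv_pow, ← div_eq_mul_inv, le_div_iff₀ (pow_pos h0 _), mul_comm]
      exact ax.x1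
    have k3 := h.add (h.mul h.cL (h.pow 288000)) (h.pow 198400)
    have k4 := h.le_pow (h.mul k3 (h.mul h.cL (h.inv 144000))) (27199 * 2) (by norm_num)
    have k5 := mul_le_mul_of_nonneg_left k2 k3.1
    have k6 := mul_le_mul_of_nonneg_left k4 hn.le
    refine (k1.trans k5).trans (le_trans (le_of_eq ?_) k6)
    ring
  · have := b.b21
    unfold T1.Dat.P at this
    simpa only [Matrix.mul_assoc, qS, cS] using this
  · have := b.b22
    unfold T1.Dat.P at this
    simpa only [Matrix.mul_assoc, qS, cS] using this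
  · refine le_trans ?_ (b.b3 v)
    change _ ≤ F.sq ((dg (hhS S) O * F') *ᵥ v)
    rw [← mulVec_mulVec, ← mulVec_mulVec, ← mulVec_mulVec, dg_mulVec, sq_orth_tr]
    refine Finset.sum_le_sum fun i _ => ?_
    unfold GhM ind
    rw [mulVec_diagonal]
    split_ifs
    · rw [sub_self, zero_mul, zero_mul, zero_pow two_ne_zero]
      exact sq_nonneg _
    · rw [sub_zero, one_mul]
  · have := b.b4
    rw [K0_eq h a] at this
    simpa only [Matrix.mul_assoc, qS, cS] using this
  · have := b.b5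
    rw [Matrix.mul_assoc F', K0_eq h a] at this
    rw [transpose_mul, b.pF.symm]
    simpa only [Matrix.mul_assoc, qS, cS] using this
  · change OpLe _ (t ^ 104300)
    have hA' : (A.card : ℝ) ≤ n * t ^ 360000 := (Nat.le_floor_iff (by positivity)).1 hA
    have k0 : OpLe (res A * E) (t ^ 104300) := fun v => by
      have hv := sqN_nonneg v
      have k1 := (b.b6 v).sparse (by positivity) (k := n * t ^ 360000) (by positivity)
        (mul_le_of_le_one_right hn.le (h.pow_le_one _)) A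
      rw [div_mul_cancel_left₀ hn.ne', ← inv_pow] at k1
      have k2 := h.log_le 360000
      have k3 := one_le_mul h a (k := 360000) (by norm_num)
      have k4 : (Real.log (t⁻¹ ^ 360000) + 2) * (A.card + 1) ≤
          (360000 * t⁻¹ + 2) * (n * (2 * t ^ 360000)) :=
        mul_le_mul (by push_cast at k2; linarith) (by linarith) (by positivity) (by positivity)
      have k5 := h.le_pow (h.mul (h.inv 10) (h.add (h.add (h.pow 431000) (h.pow 360000))
        (h.mul (h.add (h.cmul 360000 (by norm_num) (by norm_num) h.inv1)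
          (h.num 2 (by norm_num) (by norm_num)))
          (h.cmul 2 (by norm_num) (by norm_num) (h.pow 360000))))) (104300 * 2) (by norm_num)
      rw [← mulVec_mulVec, sq_res, ← pow_mul]
      refine le_of_mul_le_mul_left (k1.trans ?_) hn
      have k6 := mul_le_mul_of_nonneg_left (add_le_add_left k4 (n * t ^ 431000 + n * t ^ 360000))
        (by positivity : 0 ≤ t⁻¹ ^ 10 * F.sq v)
      have k7 := mul_le_mul_of_nonneg_left k5 (by positivity : 0 ≤ n * F.sq v)
      refine le_trans (le_of_eq ?_) (k6.trans (le_trans (le_of_eq ?_) (k7.trans (le_of_eq ?_))))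
      · ring
      · ring
      · ring
    have k8 := opLe_tr (pow_nonneg h0.le _) k0
    rwa [transpose_mul, b.pE.symm, res_tr] at k8

theorem strA (O : OG n) {hc : Vec n} (h1 : ∀ i, |hc i| ≤ t ^ 71999)
    (h2 : F.sq hc ≤ n * t ^ 143999) {η B : ℝ}
    (s : StrX (dg (ind (S.low (t ^ 139200))) O) (dg (hhS S) O) (dg (yvS S) O) (T1.VW hc hc)
      (qS n t).k η B η B η η) : T1.StrA t η B S O hc := by
  have fl : ∀ A : Finset (Fin n), (A.card : ℝ) ≤ n * t ^ 360000 → A.card ≤ (qS n t).k :=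
    fun A hA => Nat.le_floor hA
  have eP : S.P (t ^ 139200) O = dg (ind (S.low (t ^ 139200))) O := rfl
  have eN : S.Nis O = dg (hhS S) O := rfl
  have eY : S.Y O = dg (yvS S) O := rfl
  have cm : dg (yvS S) O * (1 - dg (ind (S.low (t ^ 139200))) O) =
      (1 - dg (ind (S.low (t ^ 139200))) O) * dg (yvS S) O := by
    rw [one_sub_dg, dg_mul, dg_mul]
    congr 1
    funext i
    ring
  have eI : ∀ A, (S.IA O A)ᵀ = res A * dg (hhS S) O := fun A => by
    unfold T1.Dat.IA
    rw [transpose_mul, eN, dg_tr, res_tr]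
  refine ⟨h1, h2, s.E1, s.E3, s.E3', ?_, fun A hA => s.E5h A (fl A hA), fun A hA => ?_,
    fun A hA => ?_, fun A hA => ?_⟩
  · rw [Matrix.mul_assoc _ (1 - S.P (t ^ 139200) O) (S.Y O)]
    exact s.E4
  · rw [eI, Matrix.mul_assoc _ (S.Y O), eP, eY, cm]
    exact s.E6 A (fl A hA)
  · rw [Matrix.mul_assoc _ (1 - S.P (t ^ 139200) O) (S.Y O)]
    exact s.E7 A (fl A hA)
  · rw [eI, Matrix.mul_assoc _ (S.Y O), eP, eY, cm]
    exact s.E7' A (fl A hA)

theorem fail_le (h : Sm L t) (a : T1.Adm L t S) :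
    fail n (S.low (t ^ 198400)).card (S.low (t ^ 139200)).card (qS n t).k (n * t ^ (2 * 148798))
      (n * t ^ (2 * 104398)) ≤ (n : ℝ) ^ 1 * Real.exp (-(n * t ^ 431998)) := by
  have hn := n_pos h a
  have hb := n_big h a
  have h0 := h.t0
  have c1 := a.c1
  have c2 := a.c2
  have e1 := mul_le_mul_of_nonneg_left (h.le_pow (h.add (h.cmul 4 (by norm_num) (by norm_num)
    (h.mul h.cL (h.pow 297600))) (h.pow 431998)) (2 * 148798) (by norm_num)) hn.le
  have e2 := mul_le_mul_of_nonneg_left (h.le_pow (h.add (h.cmul 4 (by norm_num) (by norm_num)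
    (h.mul h.cL (h.pow 208800))) (h.pow 431998)) (2 * 104398) (by norm_num)) hn.le
  have e3 := mul_le_mul_of_nonneg_left (h.le_pow (h.add (h.add (h.cmul 2 (by norm_num) (by norm_num)
    (h.mul h.cL (h.pow 208800))) (h.mul (h.pow 360000) (h.add (h.num 5 (by norm_num) (by norm_num))
      (h.cmul 360001 (by norm_num) (by norm_num) h.inv1)))) (h.pow 431998)) (2 * 104398)
      (by norm_num)) hn.le
  have k0 := one_le_mul h a (k := 360000) (by norm_num)
  have k1 : ((qS n t).k : ℝ) ≤ n * t ^ 360000 := Nat.floor_le (by positivity)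
  have k2 : n * t ^ 360000 < (qS n t).k + 1 := Nat.lt_floor_add_one _
  have k3 : (1 : ℝ) ≤ (qS n t).k := by exact_mod_cast (num h a).k1
  have k4 : Real.log (n / (qS n t).k) ≤ 360001 * t⁻¹ := by
    refine le_trans (Real.log_le_log (by positivity) ?_) (by exact_mod_cast h.log_le 360001)
    rw [div_le_iff₀ (by linarith), inv_pow, ← div_eq_inv_mul, le_div_iff₀ (pow_pos h0 _),
      pow_succ t 360000, ← mul_assoc]
    nlinarith [h.t1]
  have k5 : ((qS n t).k : ℝ) * (5 + Real.log (n / (qS n t).k)) ≤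
      n * t ^ 360000 * (5 + 360001 * t⁻¹) := by
    refine mul_le_mul k1 (by linarith) ?_ (by positivity)
    have k6 : ((qS n t).k : ℝ) ≤ n := by exact_mod_cast (num h a).kn
    have := Real.log_nonneg ((one_le_div (by linarith)).2 k6)
    linarith
  have f1 : Real.exp (4 * ((S.low (t ^ 198400)).card : ℝ) - n * t ^ (2 * 148798)) ≤
      Real.exp (-(n * t ^ 431998)) := Real.exp_le_exp.2 (by linarith)
  have f2 : Real.exp (4 * ((S.low (t ^ 139200)).card : ℝ) - n * t ^ (2 * 104398)) ≤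
      Real.exp (-(n * t ^ 431998)) := Real.exp_le_exp.2 (by linarith)
  have f3 : Real.exp (2 * ((S.low (t ^ 139200)).card : ℝ) +
      (qS n t).k * (5 + Real.log (n / (qS n t).k)) - n * t ^ (2 * 104398)) ≤
      Real.exp (-(n * t ^ 431998)) := Real.exp_le_exp.2 (by linarith)
  have f4 := mul_le_mul_of_nonneg_right hb (Real.exp_pos (-(n * t ^ 431998))).le
  have f5 := Real.exp_pos (-(n * t ^ 431998))
  unfold fail
  rw [pow_one]
  linarith

end Adm

theorem mm_VW {X : Type*} [MeasurableSpace X] {h : X → Vec n} (hh : Measurable h) :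
    MM fun x => T1.VW (h x) (h x) := by
  have db : ∀ v : Vec n, T1.Db v v = dv v := fun v => funext fun i => if_pos rfl
  have mt : Measurable Real.tanh := by
    have e : Real.tanh = fun x => Real.sinh x / Real.cosh x := funext Real.tanh_eq_sinh_div_cosh
    rw [e]
    exact Real.measurable_sinh.div Real.measurable_cosh
  have m1 : ∀ i, Measurable fun x => tm (h x) i := fun i => mt.comp ((measurable_pi_apply i).comp hh)
  have m2 : ∀ i, Measurable fun x => dv (h x) i := fun i =>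
    measurable_const.sub ((m1 i).pow_const 2)
  have m3 : Measurable fun x => wb (h x) :=
    (Finset.measurable_sum _ fun i _ => m2 i).div_const _
  unfold T1.VW T1.mu
  simp only [db]
  exact (MM.diagonal (measurable_pi_iff.2 fun i => (m2 i).sub m3)).add
    (MM.smul (measurable_const.div (measurable_const.mul m3)) (MM.vecMulVec
      (measurable_pi_iff.2 m1)
      (measurable_pi_iff.2 fun i => (((m1 i).add (m1 i)).mul (m2 i)).div_const 2)))

/-- (X4) from the three fibre compressions -/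
theorem x4Stmt_of (s1 : C1Stmt) (s2 : C2Stmt) (s3 : C3AllStmt) : T1.X4Stmt := by
  refine ⟨1, fun L hL => ?_⟩
  filter_upwards [ev_sm hL] with t h
  intro n S x xt μ P E F' a ax fb be
  have := fb.prob
  have hV := mm_VW be.mh
  have key := inter_le be.explo
    (A := {O | O.1 *ᵥ x = xt ∧ T1.BS t S O x (E O) (F' O) (S.hc t O)})
    (ms_strX (mm_dg (ind (S.low (t ^ 139200)))) (mm_dg (hhS S)) (mm_dg (yvS S)) hV (qS n t).k
      (t ^ 4000) (t⁻¹ ^ 10) (t ^ 4000) (t⁻¹ ^ 10) (t ^ 4000) (t ^ 4000)).compl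
    (fail_nonneg _ _ _ _ _ _) fun O hO => le_trans (le_of_eq (measureReal_congr (by
      filter_upwards [famH.ae_HG (P O)] with U hU
      change (¬ StrX _ _ _ (T1.VW (S.hc t (O * U)) (S.hc t (O * U))) _ _ _ _ _ _ _) =
        (¬ StrX _ _ _ (T1.VW (S.hc t O) (S.hc t O)) _ _ _ _ _ _ _)
      rw [be.ah O U hU])))
      (fibre s1 s2 s3 (be.explo.proj O) (frm h a) (num h a) (bs h a ax hO.1 (be.sum O) hO.2))
  refine le_trans (le_trans ?_ key) (fail_le h a)
  refine ENNReal.toReal_mono (measure_ne_top _ _) (measure_mono_ae ?_)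
  filter_upwards [fb.ae] with O hO hb
  exact ⟨⟨hO, hb.1⟩, fun s => hb.2 (strA O hb.1.clp hb.1.nrm s)⟩

/-- (X4) -/
theorem x4Stmt : T1.X4Stmt := x4Stmt_of c1 c2 c3All

end Vale.Agent.N150.X4
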