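import Vale.Agent.N150.T1Meas
import Vale.Agent.N150.T1D4
import Vale.Agent.N150.X3Main
import Vale.Agent.N150.X4

/-! THEOREM T1. -/

namespace Vale.Agent.N150.T1

theorem t1Stmt : T1Stmt := t1_of X3P.x3Stmt X4.x4Stmt sprStmt

end Vale.Agent.N150.T1
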