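import Vale.Agent.N150.M0Top
import Vale.Agent.N150.BrDef
import Vale.Agent.N150.CapTap
import Vale.Agent.N150.Adm3
import Vale.Agent.N150.EndBr

/-! P150, milestone M0: statements. -/

open Matrix MeasureTheory Filter Topology

namespace Vale.Agent.N150.M0

open Vale.Agent.P150 Vale.Agent.P150.F Vale.Agent.P150.F.Ms Vale.Agent.N150.EC
open Vale.Agent.N150.T1 Vale.Agent.N150.Cap Vale.Agent.N150.Plant Vale.Agent.N150.Sp

/-- selectors of the reference point -/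
abbrev HS : Type := ∀ n : ℕ, Mat n → Vec n → Vec n

/-- the reference means of a selector -/
noncomputable def selOf (hs : HS) : Br.Sel := fun n _ J y => tm (hs n J y)

/-- (MEAS) the selector and its spectral parameter are jointly measurable -/
def MeasM (hs : HS) : Prop := ∀ (n : ℕ) (α : Type) [MeasurableSpace α] (J : α → Mat n)
  (y : α → Vec n), MMat J → MVec y →
    (MVec fun a => hs n (J a) (y a)) ∧ Measurable fun a => zh (J a) (hs n (J a) (y a))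

/-- (NEAR) on the good set the selected point is close to the third iterate and to its clipping -/
def NearM (hs : HS) : Prop := Ev fun L t => ∀ (n : ℕ) (S : Dat n) (O : OG n),
  Adm L t S → Good t S O → Ball t (S.J O) (S.y O) (hs n (S.J O) (S.y O)) ∧
    nv (hs n (S.J O) (S.y O) - S.hc t O) ≤ √n * t ^ 252000 / 2

/-- (DET) two consecutive good points give a good step, for every small step, uniformly in `n` -/
def DetM (hs : HS) : Prop := ∃ a : ℕ, Ev fun L t => ∀ (n : ℕ) (S S' : Dat n) (O O' : OG n)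
  (R : Mat n) (x ξ : Vec n) (δ : ℝ),
    Adm L t S → Good t S O → Adm L t S' → Good t S' O' → Rᵀ = R → OpLe R 1 →
    (∀ i, |x i| ≤ 1) → nv ξ ≤ n → 0 < δ → ((n : ℝ) ^ a) ^ 8 * δ ≤ 1 →
    S'.J O' = S.J O - δ • (R * Rᵀ) → S'.y O' = S.y O + δ • ((R * Rᵀ) *ᵥ x) + √δ • (R *ᵥ ξ) →
    TapSt ((n : ℝ) ^ a) δ (S.J O) (S.y O) (hs n (S.J O) (S.y O))
      (zh (S.J O) (hs n (S.J O) (S.y O))) (S'.J O') (S'.y O') (hs n (S'.J O') (S'.y O'))
      (zh (S'.J O') (hs n (S'.J O') (S'.y O')))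

/-- (ADM) admissible data along the cap flow, at an arbitrary rate -/
def AdmM : Prop := ∀ A : ℝ, 1 ≤ A → ∃ C : ℝ, 2 ≤ C ∧ ∃ s0 > (0 : ℝ), ∀ (n : ℕ) (w : ℝ)
  (lam : Vec n) (t : ℕ → ℝ) (d : ℝ) (k0 N : ℕ) (z : ℝ), Edge.Rigid w lam → 0 < n → 0 < w →
    Edge.kap w ≤ 1 / 1000 → Grid lam t d → 20 * Edge.sc0 n w ≤ t k0 → t N ≤ s0 → 0 ≤ z →
    z ≤ A * Path.uu n (t k0) →
    (spN n (diagonal lam) 0).real {q | ¬∀ k, k0 ≤ k → k ≤ N →
      ∃ z0, Adm.Raw C (t k) (lamC lam (t k)) (yF lam t q.1 q.2 k) q.1 z0}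
        ≤ 4000 * n ^ 8 * (N + 1) * Real.exp (-z)

/-- (CAP) the cap part of the milestone, at the level of the Haar measure -/
def CapM (sel : Br.Sel) : Prop := ∃ γ : ℝ, 0 < γ ∧ γ < 1 ∧ ∃ T0 > (0 : ℝ), ∀ T : ℝ, 0 < T →
  T ≤ T0 → ∀ CT c : ℝ, 0 < CT → 0 < c → ∃ k0 > (0 : ℝ), ∀ᶠ n : ℕ in atTop,
    ∀ (w : ℝ) (lam : Vec n), Edge.Rigid w lam → 1 ≤ w → Edge.kap w ≤ 1 / 1000 →
      w ≤ (n : ℝ) ^ (1 / 7 : ℝ) →
      ∃ (t : ℕ → ℝ) (d : ℝ) (hG : Grid lam t d) (N : ℕ), T ≤ t N ∧ t N ≤ 2 * T ∧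
        ∀ ε : ℝ, 0 < ε → (haar n).real {O | ε ≤ LR (diagonal lam) 0 O ∧
          Br.TA hG N (sel n 0) CT CT (Real.exp (-(c * n))) O ∧ ¬PrN γ k0 (gM (JO lam O) 0)}
            ≤ Real.exp (-((n : ℝ) ^ γ)) / ε

/-- (RED) the reduction -/
def RedStmt : Prop := ∀ sel : Br.Sel, CapM sel → End.TermH sel →
  ∃ γ : ℝ, 0 < γ ∧ γ < 1 ∧ UpExp γ

end Vale.Agent.N150.M0
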