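import Vale.Agent.N150.TapHl
import Vale.Agent.N150.M0Def

/-! P150: the limit of the Picard orbit as a selector. -/

open Matrix MeasureTheory Filter Topology

namespace Vale.Agent.N150.Tap

open Vale.Agent.P150 Vale.Agent.P150.F Vale.Agent.P150.F.Ms Vale.Agent.N150.EC
  Vale.Agent.N150.Sp Vale.Agent.N150.T1

/-- the selector -/
noncomputable def hsL : M0.HS := fun _ J y => hl J y

theorem measM : M0.MeasM hsL := fun _ _ _ _ _ hJ hy => ⟨mv_hl hJ hy, ms_zh_hl hJ hy⟩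

theorem nearM : M0.NearM hsL := fun L hL =>
  (evPk L hL).mono fun _ h n S O ha g => ⟨hl_ball (h n S O ha) g, hl_hc' (h n S O ha) g⟩

theorem sqrt_geo {r : ℝ} (h0 : 0 ≤ r) (hr : r ≤ 1 / 2) (n : ℕ) : √n * r ^ n ≤ 1 := by
  have h1 : (n : ℝ) ≤ 2 ^ n := by exact_mod_cast (Nat.lt_two_pow_self (n := n)).le
  have h2 : (1 : ℝ) ≤ 2 ^ n := one_le_pow₀ (by norm_num)
  have h3 : √(n : ℝ) ≤ 2 ^ n := Real.sqrt_le_iff.2 ⟨by linarith, by nlinarith⟩
  calc √n * r ^ n ≤ 2 ^ n * (1 / 2) ^ n :=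
        mul_le_mul h3 (pow_le_pow_left₀ h0 hr n) (pow_nonneg h0 n) (by linarith)
    _ = 1 := by rw [← mul_pow]; norm_num

/-- distance of the limit from the iterates number `n + 3 + i` -/
theorem hl_far {n : ℕ} {L t : ℝ} {S : Dat n} {O : OG n} (k : D6.Pk L t S O) (g : Good t S O)
    {j : ℕ} (hj : n ≤ j) : nv (hl (S.J O) (S.y O) - S.h O (j + 3)) ≤ t ^ 255000 := by
  refine (hl_rate k g j).trans ?_
  have h1 := sqrt_geo (k.p0 1000) (r_half k) n
  have h2 : (t ^ 1000) ^ j ≤ (t ^ 1000) ^ n :=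
    pow_le_pow_of_le_one (k.p0 _) ((r_half k).trans (by norm_num)) hj
  calc √n * t ^ (255000 + 1000 * j) = t ^ 255000 * (√n * (t ^ 1000) ^ j) := by
        rw [pow_add, pow_mul]; ring
    _ ≤ t ^ 255000 * 1 := mul_le_mul_of_nonneg_left ((k.sc h2).trans h1) (k.p0 _)
    _ = _ := mul_one _

theorem tm_far {n : ℕ} {L t : ℝ} {S : Dat n} {O : OG n} (k : D6.Pk L t S O) (g : Good t S O)
    {j : ℕ} (hj : n ≤ j) :
    nv (tm (hl (S.J O) (S.y O)) - Br.mT (j + 3) (S.J O) (S.y O)) ≤ t ^ 255000 :=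
  (T1A.nv_tm_sub _ _).trans (hl_far k g hj)

/-- the reference means `tanh` of the limit -/
theorem selOK : Br.SelOK (M0.selOf hsL) :=
  ⟨fun _ _ _ _ _ _ hJ hy => mv_tm (mv_hl hJ hy), fun L hL =>
    (evPk L hL).mono fun _ h => Eventually.of_forall fun n _ S O ha g =>
      (tm_far (h n S O ha) g le_rfl).trans
        (pow_le_one₀ (h n S O ha).sm.pos.le (h n S O ha).sm.le_one)⟩

/-- the reference means of late iterates -/
theorem selOK_it (r : ℕ → ℕ → ℕ) (hr : ∀ n i, n ≤ r n i) :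
    Br.SelOK fun n i J y => Br.mT (r n i + 3) J y :=
  ⟨fun _ _ _ _ _ _ hJ hy => mv_tm (mv_it hJ hy _), fun L hL =>
    (evPk L hL).mono fun t h => Eventually.of_forall fun n i S O ha g => by
      have k := h n S O ha
      have h1 := tm_far k g (hr n i)
      have h2 := tm_far k g le_rfl
      have h3 : 2 * t ^ 255000 ≤ t ^ 0 := k.sm.mon2 (k.sm.c (by norm_num)) _ _ (by norm_num)
      have h4 := nv_sub_triangle (Br.mT (r n i + 3) (S.J O) (S.y O)) (tm (hl (S.J O) (S.y O)))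
        (Br.mT (n + 3) (S.J O) (S.y O))
      rw [nv_sub_comm] at h1
      rw [pow_zero] at h3
      linarith⟩

end Vale.Agent.N150.Tap
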