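import Vale.Agent.N150.EndTL4
import Vale.Agent.N150.T1Main
import Vale.Agent.N150.D6c
import Vale.Agent.N150.TapHlM

/-! P150 at `β = 1`, endgame, block E6: unconditional form. -/

namespace Vale.Agent.N150.ETL

open Vale.Agent.P150 Vale.Agent.P150.F

theorem refOK_hl : RefOK Tap.hsL := by
  refine ⟨fun n => measurable_pi_lambda _ (Tap.mv_hl (mm_ent.comp measurable_fst)
    fun i => (measurable_pi_apply i).comp measurable_snd), Tap.hlStmt.mono ?_⟩
  intro L t _ H n S O hA hG
  refine ⟨(H n S O hA hG).near, ?_⟩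
  change nv (T1.rs1 _ _ (Tap.hl _ _)) ≤ 1
  rw [(H n S O hA hG).res, nv_zero]
  exact zero_le_one

/-- **(E6)** for the limit of the Picard orbit -/
theorem tlStmt : End.TLStmt fun n => M0.selOf Tap.hsL n 0 :=
  tlStmt_of D6.d6Stmt T1.t1Stmt refOK_hl

end Vale.Agent.N150.ETL
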