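import Vale.Agent.N150.EndBr
import Vale.Agent.N150.AsmDef
import Vale.Agent.N150.LowZ3

/-! P150 at `β = 1`: the terminal bound in the form used by the path assembly. -/

open Matrix MeasureTheory Filter Topology

namespace Vale.Agent.N150.End

open Vale.Agent.P150 Vale.Agent.P150.F
open Vale.Agent.N150.Cap Vale.Agent.N150.Plant Vale.Agent.N150.Sp Vale.Agent.N150.Br

variable {n : ℕ}

theorem ev_wn_one : ∀ᶠ n : ℕ in atTop, 1 ≤ Asm.wn n := Asm.tendsto_wn.eventually_ge_atTop 1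

theorem ev_wn_kap {c : ℝ} (hc : 0 < c) : ∀ᶠ n : ℕ in atTop, Edge.kap (Asm.wn n) ≤ c :=
  ((tendsto_rpow_neg_atTop (show (0 : ℝ) < 3 / 5 by norm_num)).comp Asm.tendsto_wn).eventually
    (ge_mem_nhds hc)

theorem ev_wn_le : ∀ᶠ n : ℕ in atTop, Asm.wn n ≤ (n : ℝ) ^ (1 / 7 : ℝ) := by
  have h1 := (isLittleO_log_rpow_atTop (show (0 : ℝ) < 1 / 7 by norm_num)).bound one_pos
  filter_upwards [tendsto_natCast_atTop_atTop.eventually h1, ev_wn_one] with n h2 h3
  rw [one_mul, Real.norm_eq_abs, Real.norm_eq_abs,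
    abs_of_nonneg (Real.rpow_nonneg (Nat.cast_nonneg n) _)] at h2
  have h4 : Asm.wn n * Asm.wn n = Real.log n := Real.mul_self_sqrt (Real.log_natCast_nonneg n)
  nlinarith [le_abs_self (Real.log n)]

theorem ev_wn_sc0 {c : ℝ} (hc : 0 < c) : ∀ᶠ n : ℕ in atTop, Edge.sc0 n (Asm.wn n) ≤ c := by
  filter_upwards [LowZ.sc0_small hc, ev_wn_le, ev_wn_one, eventually_ge_atTop 1] with n h1 h2 h3 h4
  have h5 := h1 _ h2
  have h6 : (1 : ℝ) ≤ √n := Real.one_le_sqrt.2 (by exact_mod_cast h4)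
  have h7 := Edge.sc0_pos (n := n) h4 (show 0 < Asm.wn n by linarith)
  nlinarith

/-- the partition function is not small, in the form of the likelihood ratio -/
theorem low_LR {δ : ℝ} (hδ : 0 < δ) : ∀ᶠ n : ℕ in atTop, ∀ lam : Vec n,
    Edge.Rigid (Asm.wn n) lam → (haar n).real {O | LR (diagonal lam) 0 O < 1 / 2} ≤ δ := by
  filter_upwards [LowZ.lowZ hδ, ev_wn_one, ev_wn_le] with n h h1 h2 lam hl
  refine le_trans (measureReal_mono (fun O hO => ?_) (measure_ne_top _ _)) (h _ h1 h2 lam hl)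
  have h3 : Zc (diagonal lam) 0 O / (2 ^ n * ISM (diagonal lam) 0) < 1 / 2 := hO
  rw [div_lt_iff₀ (nrm_pos _ _), ISM_diag] at h3
  have e : Zc (diagonal lam) 0 O = ZO lam 0 O := by
    unfold Zc ZO
    simp only [HM_diag]
    rfl
  show ZO lam 0 O ≤ 2 ^ n * IS lam 0 / 2
  linarith

theorem TA_mono {lam : Vec n} {t : ℕ → ℝ} {d : ℝ} {hG : Grid lam t d} {N : ℕ}
    {sel : Mat n → Vec n → Vec n} {CT M θ CT' M' θ' : ℝ} {O : OG n} (h : TA hG N sel CT M θ O)
    (h1 : CT ≤ CT') (h2 : M ≤ M') (h3 : θ ≤ θ') : TA hG N sel CT' M' θ' O :=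
  ⟨h.1.mono h1 h3 h3, (PE_mono (fun x => (gM_pos _ _ x).le) fun _ _ hx => h2.trans_lt hx).trans
    (h.2.trans h3)⟩

theorem termQ_of {sel : Sel} (h : TermH sel) (i : ℕ) : Asm.TermQ fun n => sel n i := by
  obtain ⟨T0, hT0, h⟩ := h
  refine ⟨T0, hT0, fun T hT hT1 => ?_⟩
  obtain ⟨b, σ, EG, hb, hE, CT, hCT, c, hc, h⟩ := h T hT hT1
  refine ⟨b, σ, EG, max CT 1, c, hb, le_max_right _ _, hc, ?_, fun d hd => ?_⟩
  · exact (ENNReal.tendsto_toReal ENNReal.zero_ne_top).comp hE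
  filter_upwards [h, low_LR (half_pos hd), ev_wn_one, ev_wn_kap hc, ev_wn_sc0 hc,
    ev_poly 0 (4 / d) hc] with n h1 h2 h3 h4 h5 h6 lam J W hJ hW hl hJW t dl hG N _ h7 h8
  have h9 := h1 _ lam hl h3 h4 h5 J W hJ hW hJW t dl hG N h7 h8 i (1 / 2) (by norm_num)
  refine le_trans (measureReal_mono (fun O hO => ?_) (measure_ne_top _ _))
    ((measureReal_union_le _ _).trans ((add_le_add (h2 lam hl) h9).trans ?_))
  · by_cases hO' : LR (diagonal lam) 0 O < 1 / 2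
    · exact Or.inl hO'
    · exact Or.inr ⟨not_lt.1 hO', hO.1, fun hA =>
        hO.2 (TA_mono hA (le_max_left _ _) (le_max_left _ _) le_rfl)⟩
  · rw [pow_zero, mul_one, div_mul_eq_mul_div, div_le_one hd] at h6
    linarith

/-- **[TERM]** from the bridge and the no-outlier input of the endgame -/
theorem termQ_of_TL {sel cen : Sel} (hc : SelOK cen) (hB : BrStmt sel cen)
    (hT : TLStmt fun n => cen n 0) (i : ℕ) : Asm.TermQ fun n => sel n i :=
  termQ_of (termH_of_TL hc hB hT) i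

end Vale.Agent.N150.End
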