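import Mathlib
import Vale.Agent.P150.Bdl.B37
import Vale.Agent.P150.Bdl.B25

set_option linter.all false

section

/-! The scalar inequality behind star-shapedness is strict. -/

open MeasureTheory ProbabilityTheory Filter Topology Set

namespace Vale.Agent.N150.G3

open Vale.Agent.P150.F

lemma gauss_pow_succ (k : ℕ) :
    ∫ x, x ^ (k + 2) ∂(gaussianReal 0 1) = (k + 1) * ∫ x, x ^ k ∂(gaussianReal 0 1) := by
  set φ : ℝ → ℝ := gaussianPDFReal 0 1 with hφ
  have h4 : φ = fun y => (Real.sqrt (2 * Real.pi))⁻¹ * Real.exp (-(y ^ 2) / 2) := by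
    funext y
    rw [hφ, gaussianPDFReal_def]
    simp
  have hφd : ∀ x, HasDerivAt φ (-(x * φ x)) x := by
    intro x
    have h2 : HasDerivAt (fun y : ℝ => -(y ^ 2) / 2) (-(2 * x) / 2) x := by
      have h0 := ((hasDerivAt_pow 2 x).neg).div_const (2 : ℝ)
      simpa using h0
    have h3 := (h2.exp).const_mul ((Real.sqrt (2 * Real.pi))⁻¹)
    rw [h4]
    refine h3.congr_deriv ?_
    ring
  have hkφ : ∀ k : ℕ, Integrable (fun x => x ^ k * φ x) := by
    intro k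
    have h1 := g5_integrable_pow_gauss k
    rw [gaussianReal_of_var_ne_zero _ one_ne_zero] at h1
    have h2 := (integrable_withDensity_iff_integrable_smul'
      (measurable_gaussianPDF 0 1) (by
        refine Filter.Eventually.of_forall fun x => ?_
        exact gaussianPDF_lt_top)).mp h1
    refine h2.congr (Filter.Eventually.of_forall fun x => ?_)
    simp only [smul_eq_mul, gaussianPDF, ENNReal.toReal_ofReal (gaussianPDFReal_nonneg 0 1 x)]
    ring
  have key := integral_mul_deriv_eq_deriv_mul_of_integrable (u := fun x => x ^ (k + 1)) (v := φ)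
    (u' := fun x => (k + 1) * x ^ k) (v' := fun x => -(x * φ x))
    (fun x _ => by simpa using hasDerivAt_pow (k + 1) x) (fun x _ => hφd x)
    (by
      refine (hkφ (k + 2)).neg.congr (Filter.Eventually.of_forall fun x => ?_)
      show -(x ^ (k + 2) * φ x) = x ^ (k + 1) * -(x * φ x)
      ring)
    (by
      refine ((hkφ k).const_mul (k + 1)).congr (Filter.Eventually.of_forall fun x => ?_)
      show (k + 1) * (x ^ k * φ x) = (k + 1) * x ^ k * φ x
      ring)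
    (hkφ (k + 1))
  have e1 : ∀ j : ℕ, ∫ x, x ^ j ∂(gaussianReal 0 1) = ∫ x, x ^ j * φ x := by
    intro j
    rw [integral_gaussianReal_eq_integral_smul one_ne_zero]
    refine integral_congr_ae (Filter.Eventually.of_forall fun x => ?_)
    show φ x * x ^ j = x ^ j * φ x
    ring
  have e4 : ∫ x, x ^ (k + 1) * -(x * φ x) = - ∫ x, x ^ (k + 2) * φ x := by
    rw [← integral_neg]
    refine integral_congr_ae (Filter.Eventually.of_forall fun x => ?_)
    show x ^ (k + 1) * -(x * φ x) = -(x ^ (k + 2) * φ x)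
    ring
  have e5 : ∫ x, (k + 1) * x ^ k * φ x = (k + 1) * ∫ x, x ^ k * φ x := by
    rw [← integral_const_mul]
    refine integral_congr_ae (Filter.Eventually.of_forall fun x => ?_)
    show (k + 1) * x ^ k * φ x = (k + 1) * (x ^ k * φ x)
    ring
  rw [e4, e5] at key
  rw [e1, e1]
  linarith only [key]

lemma gm0 : ∫ x, x ^ 0 ∂(gaussianReal 0 1) = (1 : ℝ) := by simp
lemma gm2 : ∫ x, x ^ 2 ∂(gaussianReal 0 1) = (1 : ℝ) := by
  rw [gauss_pow_succ 0, gm0]; norm_num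
lemma gm4 : ∫ x, x ^ 4 ∂(gaussianReal 0 1) = (3 : ℝ) := by
  rw [gauss_pow_succ 2, gm2]; norm_num
lemma gm6 : ∫ x, x ^ 6 ∂(gaussianReal 0 1) = (15 : ℝ) := by
  rw [gauss_pow_succ 4, gm4]; norm_num
lemma gm8 : ∫ x, x ^ 8 ∂(gaussianReal 0 1) = (105 : ℝ) := by
  rw [gauss_pow_succ 6, gm6]; norm_num
lemma gm10 : ∫ x, x ^ 10 ∂(gaussianReal 0 1) = (945 : ℝ) := by
  rw [gauss_pow_succ 8, gm8]; norm_num

/-- tangent line inequality for `m⁴/3 + m⁶/5` -/
lemma tangent (m u : ℝ) :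
    u ^ 4 / 3 + u ^ 6 / 5 + (4 / 3 * u ^ 3 + 6 / 5 * u ^ 5) * (m - u) ≤ m ^ 4 / 3 + m ^ 6 / 5 := by
  have h4 : 0 ≤ (m - u) ^ 2 * ((m + u) ^ 2 + 2 * u ^ 2) := by positivity
  have h6 : 0 ≤ (m - u) ^ 2 * ((m ^ 2 + m * u) ^ 2 + 2 * (u * m + u ^ 2) ^ 2 + 3 * u ^ 4) := by
    positivity
  nlinarith [h4, h6]

/-- pointwise polynomial bound -/
lemma Psi_poly {q b : ℝ} (hq : 0 ≤ q) (hb : 0 < b) (hab : (1 - 2 * q) * b = 1) (x : ℝ) :
    SSI.Psi q x ≤ x ^ 2 * b - (x * b) ^ 4 / 3 - (x * b) ^ 6 / 5 +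
      (4 / 3 * (x * b) ^ 3 + 6 / 5 * (x * b) ^ 5) ^ 2 * b / 4 := by
  refine ciSup_le fun m => ?_
  have hm : |(m : ℝ)| < 1 := abs_lt.2 m.2
  have h1 := S_ge_poly hm 3
  simp only [Finset.sum_range_succ, Finset.sum_range_zero] at h1
  norm_num at h1
  set u := x * b with hu
  set a := 1 - 2 * q with ha
  have hx : x = a * u := by rw [hu]; linear_combination (-x) * hab
  have h2 := tangent m u
  set D := 4 / 3 * u ^ 3 + 6 / 5 * u ^ 5 with hD
  have h3 : 0 ≤ b * (a * ((m : ℝ) - u) + D / 2) ^ 2 := by positivity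
  have e1 : b * (a * ((m : ℝ) - u) + D / 2) ^ 2 =
      a * (m - u) ^ 2 + D * (m - u) + D ^ 2 * b / 4 := by
    linear_combination (a * ((m : ℝ) - u) ^ 2 + D * (m - u)) * hab
  have e2 : x ^ 2 * b = a * u ^ 2 := by
    rw [hx]; linear_combination (a * u ^ 2) * hab
  have e3 : 2 * x * m + 2 * q * (m : ℝ) ^ 2 = (m : ℝ) ^ 2 + a * u ^ 2 - a * (m - u) ^ 2 := by
    rw [hx, ha]; ring
  have e4 : ((m : ℝ) ^ 2) ^ 2 = (m : ℝ) ^ 4 := by ring
  have e5 : ((m : ℝ) ^ 2) ^ 3 = (m : ℝ) ^ 6 := by ring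
  rw [SSI.ph, e2, e3]
  rw [e1] at h3
  linarith only [h1, h2, h3, e4, e5]

lemma WW_poly {σ b : ℝ} (hb : 0 < b) (hab : (1 - 2 * σ ^ 2) * b = 1) :
    SSI.WW σ ≤ σ ^ 2 * b - σ ^ 4 * b ^ 4 - 3 * σ ^ 6 * b ^ 6 + 20 / 3 * σ ^ 6 * b ^ 7 +
      84 * σ ^ 8 * b ^ 9 + 1701 / 5 * σ ^ 10 * b ^ 11 := by
  have I := g5_integrable_pow_gauss
  have h1 : SSI.WW σ ≤ ∫ g, ((σ ^ 2 * b) * g ^ 2 + (-(σ ^ 4 * b ^ 4 / 3)) * g ^ 4 +
      (4 / 9 * σ ^ 6 * b ^ 7 - σ ^ 6 * b ^ 6 / 5) * g ^ 6 + (4 / 5 * σ ^ 8 * b ^ 9) * g ^ 8 +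
      (9 / 25 * σ ^ 10 * b ^ 11) * g ^ 10) ∂(gaussianReal 0 1) := by
    refine integral_mono (SSI.integrable_Psi (sq_nonneg σ) σ) ?_ fun g => ?_
    · exact (((((I 2).const_mul _).add ((I 4).const_mul _)).add ((I 6).const_mul _)).add
        ((I 8).const_mul _)).add ((I 10).const_mul _)
    · refine (Psi_poly (sq_nonneg σ) hb hab (σ * g)).trans (le_of_eq ?_)
      ring
  rw [integral_add, integral_add, integral_add, integral_add] at h1
  · simp only [integral_const_mul, gm2, gm4, gm6, gm8, gm10] at h1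
    linarith only [h1]
  all_goals first
    | exact (I _).const_mul _
    | exact ((I 2).const_mul _).add ((I 4).const_mul _)
    | exact (((I 2).const_mul _).add ((I 4).const_mul _)).add ((I 6).const_mul _)
    | exact ((((I 2).const_mul _).add ((I 4).const_mul _)).add ((I 6).const_mul _)).add
        ((I 8).const_mul _)

/-- the gap is strict at small overlaps -/
lemma WW_small {σ : ℝ} (h0 : 0 < σ) (h1 : σ ^ 2 ≤ 1 / 1000) :
    SSI.WW σ ≤ σ ^ 2 + σ ^ 4 - σ ^ 6 / 10 := by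
  set q := σ ^ 2 with hq
  have hq0 : 0 < q := by positivity
  have ha : 0 < 1 - 2 * q := by linarith
  set b := (1 - 2 * q)⁻¹ with hb
  have hb0 : 0 < b := by positivity
  have hab : (1 - 2 * q) * b = 1 := mul_inv_cancel₀ ha.ne'
  have h := WW_poly hb0 hab
  have hb1 : 1 ≤ b := by nlinarith
  have hb2 : b ≤ 10021 / 10000 := by nlinarith
  have p2 : b ^ 7 ≤ 1015 / 1000 := (pow_le_pow_left₀ hb0.le hb2 7).trans (by norm_num)
  have p3 : b ^ 9 ≤ 102 / 100 := (pow_le_pow_left₀ hb0.le hb2 9).trans (by norm_num)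
  have p4 : b ^ 11 ≤ 103 / 100 := (pow_le_pow_left₀ hb0.le hb2 11).trans (by norm_num)
  have p5 : 1 ≤ b ^ 6 := one_le_pow₀ hb1
  have p6 : 4 ≤ b * (b ^ 3 + b ^ 2 + b + 1) := by
    have := one_le_pow₀ (n := 3) hb1
    have := one_le_pow₀ (n := 2) hb1
    nlinarith
  have e : σ ^ 2 * b - σ ^ 4 * b ^ 4 - 3 * σ ^ 6 * b ^ 6 + 20 / 3 * σ ^ 6 * b ^ 7 +
      84 * σ ^ 8 * b ^ 9 + 1701 / 5 * σ ^ 10 * b ^ 11 = σ ^ 2 + σ ^ 4 + q ^ 3 *
      (4 * b - 2 * (b * (b ^ 3 + b ^ 2 + b + 1)) - 3 * b ^ 6 + 20 / 3 * b ^ 7 + 84 * (q * b ^ 9)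
        + 1701 / 5 * (q ^ 2 * b ^ 11)) := by
    have f4 : σ ^ 4 = q ^ 2 := by rw [hq]; ring
    have f6 : σ ^ 6 = q ^ 3 := by rw [hq]; ring
    have f8 : σ ^ 8 = q ^ 4 := by rw [hq]; ring
    have f10 : σ ^ 10 = q ^ 5 := by rw [hq]; ring
    rw [f4, f6, f8, f10, ← hq]
    linear_combination (q + 2 * q ^ 2 - q ^ 2 * (b ^ 3 + b ^ 2 + b + 1)) * hab
  have p7 : q * b ^ 9 ≤ 1 / 1000 * (102 / 100) := mul_le_mul h1 p3 (by positivity) (by norm_num)
  have p8 : q ^ 2 * b ^ 11 ≤ (1 / 1000) ^ 2 * (103 / 100) :=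
    mul_le_mul (pow_le_pow_left₀ hq0.le h1 2) p4 (by positivity) (by norm_num)
  have p9 : 4 * b - 2 * (b * (b ^ 3 + b ^ 2 + b + 1)) - 3 * b ^ 6 + 20 / 3 * b ^ 7 + 84 * (q * b ^ 9)
        + 1701 / 5 * (q ^ 2 * b ^ 11) ≤ -(1 / 10) := by
    linarith only [hb2, p2, p5, p6, p7, p8]
  have p10 := mul_le_mul_of_nonneg_left p9 (pow_pos hq0 3).le
  have f6 : σ ^ 6 = q ^ 3 := by rw [hq]; ring
  rw [e] at h
  rw [f6]
  linarith only [h, p10]

/-- `W s - s² - s⁴` is nonincreasing -/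
lemma WW_mono (hPT : SSI.PT) (hBD : SSI.BD) {s σ : ℝ} (hs : 0 ≤ s) (hσ : s ≤ σ)
    (ht : σ ^ 2 ≤ 24 / 25) : SSI.WW σ - σ ^ 2 - σ ^ 4 ≤ SSI.WW s - s ^ 2 - s ^ 4 := by
  rcases hσ.eq_or_lt with rfl | hlt
  · exact le_rfl
  have hσ1 : σ ≤ 1 := by nlinarith
  have step : ∀ s s' : ℝ, 0 ≤ s → s < s' → s' ≤ σ →
      SSI.WW s' - s' ^ 2 - s' ^ 4 ≤ SSI.WW s - s ^ 2 - s ^ 4 + 7 * (s' - s) ^ 2 := by
    intro s s' h0 h1 h2
    have h3 := SSI.WW_step hPT hBD h0 h1
      (le_trans (pow_le_pow_left₀ (by linarith only [h1, h0]) h2 2) ht)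
    have h5 : s' ≤ 1 := by linarith only [h2, hσ1]
    have h6 : s ≤ 1 := by linarith only [h5, h1]
    have k1 : (s' - s) * (2 * s' + 4 * s' ^ 3) - (s' ^ 2 - s ^ 2) - (s' ^ 4 - s ^ 4) =
      (s' - s) ^ 2 * (1 + s' ^ 2 + s' * (s' + s) + (s' ^ 2 + s' * s + s ^ 2)) := by ring
    have k2 : 1 + s' ^ 2 + s' * (s' + s) + (s' ^ 2 + s' * s + s ^ 2) ≤ 7 := by
      have : 0 ≤ s' := by linarith only [h1, h0]
      linarith only [mul_le_mul h6 h6 h0 zero_le_one, mul_le_mul h5 h5 this zero_le_one,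
        mul_le_mul h5 h6 h0 zero_le_one]
    linarith only [mul_le_mul_of_nonneg_left k2 (sq_nonneg (s' - s)), h3, k1]
  have hd : 0 < σ - s := by linarith
  have ind : ∀ N : ℕ, 0 < N → ∀ j : ℕ, j ≤ N →
      SSI.WW (s + j * ((σ - s) / N)) - (s + j * ((σ - s) / N)) ^ 2 - (s + j * ((σ - s) / N)) ^ 4 ≤
        SSI.WW s - s ^ 2 - s ^ 4 + 7 * j * ((σ - s) / N) ^ 2 := by
    intro N hN j
    have hNr : (0 : ℝ) < N := by exact_mod_cast hN
    have hpos : 0 < (σ - s) / N := by positivity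
    induction j with
    | zero => intro _; simp
    | succ j ih =>
      intro hj
      have h1 := ih (by omega)
      have hjr : ((j + 1 : ℕ) : ℝ) ≤ N := by exact_mod_cast hj
      have h3 : ((j + 1 : ℕ) : ℝ) * ((σ - s) / N) ≤ σ - s := by
        calc ((j + 1 : ℕ) : ℝ) * ((σ - s) / N) ≤ N * ((σ - s) / N) :=
              mul_le_mul_of_nonneg_right hjr hpos.le
          _ = σ - s := by field_simp
      have h2 := step (s + j * ((σ - s) / N)) (s + (j + 1 : ℕ) * ((σ - s) / N)) (by positivity)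
        (by push_cast; linarith only [hpos]) (by linarith only [h3])
      push_cast at h2 ⊢
      linarith only [h2, h1]
  have hlim : ∀ N : ℕ, 0 < N →
      SSI.WW σ - σ ^ 2 - σ ^ 4 - (SSI.WW s - s ^ 2 - s ^ 4) ≤ 7 / N := by
    intro N hN
    have hNr : (0 : ℝ) < N := by exact_mod_cast hN
    have := ind N hN N le_rfl
    have e : s + (N : ℝ) * ((σ - s) / N) = σ := by field_simp; ring
    rw [e] at this
    have e2 : 7 * (N : ℝ) * ((σ - s) / N) ^ 2 = 7 * (σ - s) ^ 2 / N := by field_simp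
    rw [e2] at this
    have h3 : 7 * (σ - s) ^ 2 / N ≤ 7 / N := by
      apply div_le_div_of_nonneg_right _ hNr.le
      nlinarith
    linarith only [this, h3]
  have hfin : SSI.WW σ - σ ^ 2 - σ ^ 4 - (SSI.WW s - s ^ 2 - s ^ 4) ≤ 0 := by
    refine ge_of_tendsto (x := atTop) (f := fun N : ℕ => (7 : ℝ) / N) ?_ ?_
    · exact tendsto_const_div_atTop_nhds_zero_nat 7
    · filter_upwards [eventually_gt_atTop 0] with N hN
      exact hlim N hN
  linarith only [hfin]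

/-- strict scalar inequality with a margin that is uniform on `q ≥ a` -/
theorem ss_strict {a : ℝ} (ha : 0 < a) : ∃ γ > (0 : ℝ), ∀ q, a ≤ q → q ≤ 24 / 25 →
    ∫ g, SSI.Psi q (√q * g) ∂(gaussianReal 0 1) ≤ q + q ^ 2 - γ := by
  set s : ℝ := √(min a (1 / 1000)) with hs
  have hm0 : 0 < min a (1 / 1000) := by positivity
  have hs0 : 0 < s := Real.sqrt_pos.2 hm0
  have hs2 : s ^ 2 = min a (1 / 1000) := Real.sq_sqrt hm0.le
  refine ⟨s ^ 6 / 10, by positivity, fun q hq hq1 => ?_⟩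
  have hq0 : 0 ≤ q := ha.le.trans hq
  have h1 := WW_small hs0 (hs2.le.trans (min_le_right _ _))
  have h2 := WW_mono SSI.PT_holds SSI.BD_holds hs0.le
    (Real.sqrt_le_sqrt ((min_le_left _ _).trans hq) : s ≤ √q)
    (by rw [Real.sq_sqrt hq0]; exact hq1)
  have e : √q ^ 4 = q ^ 2 := by
    have : √q ^ 4 = (√q ^ 2) ^ 2 := by ring
    rw [this, Real.sq_sqrt hq0]
  rw [SSI.WW, Real.sq_sqrt hq0, e] at h2
  linarith only [h1, h2]

end Vale.Agent.N150.G3
end

section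

/-! Star-shapedness of the TAP free energy away from `0` at the critical temperature. -/

open MeasureTheory ProbabilityTheory Real Set Filter Topology

namespace Vale.Agent.P150.F.One

open Vale.Agent.N150.G3

variable {n : ℕ}

lemma det_high_one (hn : 0 < n) {h m : Vec n} (hh : sq h ≤ (101 / 100) ^ 2 * n)
    (hm : ∀ i, |m i| < 1) (hq : 19 / 20 ≤ qq m) : 1 / 20 ≤ redF 1 h m := by
  have h1 := S_jensen hm (by simpa [qq, sq] using hq)
  have h2 := abs_ip_div_le hn (h := h) (m := m) hh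
  have h3 := (abs_le.1 h2).2
  have e1 : (∑ i, m i ^ 2) / n = qq m := rfl
  have e2 : (∑ i, m i * artanh (m i)) / n = aM m := rfl
  rw [e1, e2] at h1
  unfold redF
  set q := qq m
  set s := ip h m / n
  set A := aM m
  have hq0 : 0 ≤ q := by linarith only [hq]
  have h4 : √q * s ≤ 101 / 100 * q := by
    have := mul_le_mul_of_nonneg_left h3 (Real.sqrt_nonneg q)
    have e : √q * (101 / 100 * √q) = 101 / 100 * q := by
      have := Real.mul_self_sqrt hq0
      linear_combination (101 / 100) * this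
    linarith only [e, this]
  linarith only [h4, h1]

lemma cover_one {a η : ℝ} (hη : 0 < η) :
    ∃ T : Finset ℝ, (∀ t ∈ T, t ∈ Icc a (19 / 20)) ∧
      ∀ q ∈ Icc a (19 / 20), ∃ t ∈ T, 202 / 100 * |√q - √t| + |-2 * t| * |q - t|
        + |q * (1 - q) - t * (1 - t)| ≤ η := by
  set U : ℝ → Set ℝ := fun t => {q | 202 / 100 * |√q - √t| + |-2 * t| * |q - t|
        + |q * (1 - q) - t * (1 - t)| < η} with hU
  have hUn : ∀ t ∈ Icc a (19 / 20), U t ∈ 𝓝 t := by
    intro t _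
    have hc : Continuous fun q : ℝ => 202 / 100 * |√q - √t| + |-2 * t| * |q - t|
        + |q * (1 - q) - t * (1 - t)| := by fun_prop
    refine (isOpen_lt hc continuous_const).mem_nhds ?_
    simp [hη]
  obtain ⟨T, hT1, hT2⟩ := isCompact_Icc.elim_nhds_subcover U hUn
  refine ⟨T, hT1, fun q hq => ?_⟩
  obtain ⟨t, ht, hqt⟩ := Set.mem_iUnion₂.1 (hT2 hq)
  exact ⟨t, ht, le_of_lt hqt⟩

/-- The deterministic lower bound at `β = 1`. -/
theorem det_main_one {a : ℝ} (ha : 0 < a) :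
    ∃ (T : Finset (ℝ → ℝ)), (∀ φ ∈ T, Continuous φ ∧ ∃ C : ℝ, ∀ x, |φ x| ≤ C * (1 + x ^ 2)) ∧
      ∃ ε > 0, ∃ c > 0, c ≤ 1 / 20 ∧ ∀ n : ℕ, 0 < n → ∀ h : Vec n,
        (∀ φ ∈ T, |∑ i, φ (h i) - n * ∫ x, φ x ∂(gaussianReal 0 1)| ≤ ε * n) →
        sq h ≤ (101 / 100) ^ 2 * n ∧
        ∀ m : Vec n, (∀ i, |m i| < 1) → a ≤ qq m → c ≤ redF 1 h m := by
  classical
  obtain ⟨γ, hγ, hss⟩ := ss_strict ha
  have hη0 : 0 < γ / 4 := by positivity
  obtain ⟨T0, hT, hcov⟩ := cover_one (a := a) hη0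
  refine ⟨insert (fun x => x ^ 2) (T0.image fun t => fun x => SSI.Psi t (√t * x)), ?_,
    min (γ / 4) (1 / 100), by positivity, min (γ / 2) (1 / 20),
    by positivity, min_le_right _ _, ?_⟩
  · intro φ hφ
    rcases Finset.mem_insert.1 hφ with rfl | hφ
    · refine ⟨by fun_prop, 1, fun x => ?_⟩
      rw [abs_of_nonneg (sq_nonneg x)]
      linarith only []
    · obtain ⟨t, ht, rfl⟩ := Finset.mem_image.1 hφ
      have h0 : 0 ≤ t := ha.le.trans (hT t ht).1
      have h1 : t ≤ 1 := (hT t ht).2.trans (by norm_num)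
      refine ⟨(SSI.Psi_continuous h0).comp (by fun_prop), 4, fun x => ?_⟩
      rw [abs_of_nonneg (SSI.Psi_nonneg h0 _)]
      refine (SSI.Psi_le h0 _).trans ?_
      have h2 : √t ≤ 1 := by rw [Real.sqrt_le_left zero_le_one]; simpa using h1
      have h3 : |√t * x| ≤ |x| := by
        rw [abs_mul, abs_of_nonneg (Real.sqrt_nonneg t)]
        exact mul_le_of_le_one_left (abs_nonneg x) h2
      have h4 : |x| ≤ (1 + x ^ 2) / 2 := by
        rw [← sq_abs]
        linarith only [sq_nonneg (|x| - 1)]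
      linarith only [h1, h3, h4, sq_nonneg x]
  · intro n hn h hh
    have hn' : (0 : ℝ) < n := by exact_mod_cast hn
    have hsq : sq h ≤ (101 / 100) ^ 2 * n := by
      have h1 := hh (fun x => x ^ 2) (Finset.mem_insert_self _ _)
      simp only [gm2, mul_one] at h1
      have h2 := (abs_le.1 h1).2
      have h3 : min (γ / 4) (1 / 100) * (n : ℝ) ≤ 1 / 100 * n :=
        mul_le_mul_of_nonneg_right (min_le_right _ _) hn'.le
      unfold sq
      linarith only [h3, h2, hn']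
    refine ⟨hsq, fun m hm hq => ?_⟩
    rcases le_total (qq m) (19 / 20) with hq2 | hq2
    · refine (min_le_left _ _).trans ?_
      obtain ⟨t, ht, hη2⟩ := hcov (qq m) ⟨hq, hq2⟩
      have h0 : 0 ≤ t := ha.le.trans (hT t ht).1
      have h3 : ∀ x m : ℝ, |m| < 1 →
          2 * x * m - m * Real.artanh m - -2 * t * m ^ 2 ≤ SSI.Psi t x := by
        intro x m hm
        have := SSI.le_Psi (q := t) (x := x) h0 hm
        rw [SSI.ph] at this
        linarith only [this]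
      have h4 := hss t (hT t ht).1 ((hT t ht).2.trans (by norm_num))
      have h5 := hh (fun x => SSI.Psi t (√t * x)) (Finset.mem_insert_of_mem
        (Finset.mem_image_of_mem _ ht))
      set E := ∫ g, SSI.Psi t (√t * g) ∂(gaussianReal 0 1) with hE
      have h6 : ∑ i, SSI.Psi t (√t * h i) ≤ ((E + γ) + (min (γ / 4) (1 / 100) - γ)) * n := by
        have := (abs_le.1 h5).2
        linarith only [this]
      have h7 := det_one hn h3 (E := E + γ) (by linarith only [h4]) hsq h6 hm hη2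
      have h8 : min (γ / 4) (1 / 100) ≤ γ / 4 := min_le_left _ _
      linarith only [h7, h8]
    · exact (min_le_right _ _).trans (det_high_one hn hsq hm hq2)

/-- the expectation of the comparison supremum is negative -/
lemma integral_FB_le' {β a c : ℝ} (hβ0 : 0 ≤ β) (hβ1 : β ≤ 1) (hc : 0 < c) (hc20 : c ≤ 1 / 20)
    {T : Finset (ℝ → ℝ)} (hT : ∀ φ ∈ T, Continuous φ ∧ ∃ C : ℝ, ∀ x, |φ x| ≤ C * (1 + x ^ 2))
    {ε : ℝ} (hε : 0 < ε)
    (hdet : ∀ n : ℕ, 0 < n → ∀ h : Vec n,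
        (∀ φ ∈ T, |∑ i, φ (h i) - n * ∫ x, φ x ∂(gaussianReal 0 1)| ≤ ε * n) →
        sq h ≤ (101 / 100) ^ 2 * n ∧
        ∀ m : Vec n, (∀ i, |m i| < 1) → a ≤ qq m → c ≤ redF β h m) (N : ℕ) :
    ∀ᶠ n : ℕ in atTop, ∫ h, FB β a N h ∂(gpi (Fin n)) ≤ -(3 * c / 4) := by
  have hbad : Tendsto (fun n : ℕ => ∑ φ ∈ T, (gpi (Fin n)).real
      {h | ε * n < |∑ i, φ (h i) - n * ∫ x, φ x ∂gaussianReal 0 1|}) atTop (𝓝 0) := by
    have := tendsto_finsetSum T (fun φ hφ => by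
      obtain ⟨h1, C, hC⟩ := hT φ hφ
      exact lln h1 hC hε)
    simpa using this
  have hexp := tendsto_exp_lin (c := c ^ 2 / 256) (by positivity) 0
  simp only [pow_zero, one_mul] at hexp
  filter_upwards [(tendsto_order.1 hbad).2 (1 / 2) (by norm_num),
    (tendsto_order.1 hexp).2 (1 / 2) (by norm_num), eventually_gt_atTop 0] with n h1 h2 hn
  by_contra hcon
  rw [not_le] at hcon
  have htail := (lip_FB hn hβ0 hβ1 a N).tail_lower (t := c / 4) (by positivity) (by positivity)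
  rw [tail_const hn] at htail
  set E := ∫ h, FB β a N h ∂(gpi (Fin n)) with hE
  set B : (ℝ → ℝ) → Set (Vec n) := fun φ =>
    {h | ε * n < |∑ i, φ (h i) - n * ∫ x, φ x ∂gaussianReal 0 1|} with hB
  have hcover : (univ : Set (Vec n)) ⊆ (⋃ φ ∈ T, B φ) ∪ {h | FB β a N h ≤ E - c / 4} := by
    intro h _
    by_cases hh : h ∈ ⋃ φ ∈ T, B φ
    · exact Or.inl hh
    · right
      have hh2 : ∀ φ ∈ T, |∑ i, φ (h i) - n * ∫ x, φ x ∂(gaussianReal 0 1)| ≤ ε * n := by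
        intro φ hφ
        by_contra hcon2
        exact hh (Set.mem_iUnion₂.2 ⟨φ, hφ, not_le.1 hcon2⟩)
      obtain ⟨h3, h4⟩ := hdet n hn h hh2
      have h5 := FB_le hn hβ0 hβ1 hc20 N h3 h4
      show FB β a N h ≤ E - c / 4
      linarith only [hcon, h5]
  have h6 : (1 : ℝ) ≤ (gpi (Fin n)).real ((⋃ φ ∈ T, B φ) ∪ {h | FB β a N h ≤ E - c / 4}) := by
    have := measureReal_mono (μ := gpi (Fin n)) hcover
    simpa using this
  have h7 := measureReal_union_le (μ := gpi (Fin n)) (⋃ φ ∈ T, B φ) {h | FB β a N h ≤ E - c / 4}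
  have h8 : (gpi (Fin n)).real (⋃ φ ∈ T, B φ) ≤ ∑ φ ∈ T, (gpi (Fin n)).real (B φ) :=
    measureReal_biUnion_finset_le T B
  linarith only [h1, h2, htail, h6, h7, h8]

/-- **[G3]** at the critical temperature -/
theorem G3_one : ∀ q₀ > (0 : ℝ), ∃ c > (0 : ℝ), ∀ᶠ i in whpF, SS 1 q₀ c (skM i.2) := by
  intro q₀ hq₀
  have hb0 : (0 : ℝ) ≤ 1 := zero_le_one
  have hb1 : (1 : ℝ) ≤ 1 := le_rfl
  have ha : 0 < q₀ / 2 := by positivity
  obtain ⟨T, hT, ε, hε, c, hc, hc20, hdet⟩ := det_main_one ha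
  obtain ⟨N, hN⟩ := exists_nat_ge (max (32 / c) (2 / (q₀ / 2)))
  have hN1 : 32 / ((N : ℝ) + 1) ≤ c := by
    have h1 : 32 / c ≤ (N : ℝ) + 1 := (le_max_left _ _).trans (hN.trans (by linarith only [hc20, hc]))
    rw [div_le_iff₀ hc] at h1
    rw [div_le_iff₀ (by positivity)]
    linarith only [h1]
  have hN2 : 2 / ((N : ℝ) + 1) ≤ q₀ / 2 := by
    have h1 : 2 / (q₀ / 2) ≤ (N : ℝ) + 1 := (le_max_right _ _).trans (hN.trans (by linarith only [hc, hc20]))
    rw [div_le_iff₀ ha] at h1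
    rw [div_le_iff₀ (by positivity)]
    linarith only [h1]
  refine ⟨c / 4, by positivity, ?_⟩
  obtain ⟨b, hb, N1, hop⟩ := opLe_three
  have t1 := tendsto_exp_lin hb 0
  have t2 := tendsto_exp_lin (c := c ^ 2 / 256) (by positivity) 0
  refine eventually_whpF_of_real
    (fun n : ℕ => Real.exp (-(b * n)) + Real.exp (-(c ^ 2 / 256 * n))) ?_ ?_
  · have := t1.add t2
    simpa using this
  filter_upwards [eventually_ge_atTop N1, eventually_gt_atTop 0,
    integral_FB_le' hb0 hb1 hc hc20 hT hε hdet N] with n hnN hn hEB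
  have htail := (lip_FA hn hb0 hb1 (q₀ / 2) N).tail (t := c / 4) (by (clear * - hn; positivity)) (by positivity)
  rw [tail_const hn] at htail
  have hEA := (FA_le_FB hn 1 (q₀ / 2) N).trans hEB
  set E := ∫ g, FA 1 (q₀ / 2) N g ∂(gpi (Pairs n)) with hE
  have hsub : {g : Pairs n → ℝ | ¬ SS 1 q₀ (c / 4) (skM g)} ⊆
      {g | ¬ OpLe (skM g) 3} ∪ {g | E + c / 4 ≤ FA 1 (q₀ / 2) N g} := by
    intro g hg
    by_contra hcon
    rw [Set.mem_union, not_or] at hcon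
    obtain ⟨h1, h2⟩ := hcon
    have h1' : OpLe (skM g) 3 := not_not.1 h1
    have h2' : FA 1 (q₀ / 2) N g < E + c / 4 := not_le.1 h2
    apply hg
    have h3 := ss_of_FA hn hb0 hb1 hN1 hN2 h1' (by linarith only [hEA, h2'])
    have e : 2 * (q₀ / 2) = q₀ := by ring
    rwa [e] at h3
  have h4 : (disorder n).real {g : Pairs n → ℝ | ¬ SS 1 q₀ (c / 4) (skM g)} ≤
      (disorder n).real {g | ¬ OpLe (skM g) 3} +
        (gpi (Pairs n)).real {g | E + c / 4 ≤ FA 1 (q₀ / 2) N g} := by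
    refine (measureReal_mono (μ := gpi (Pairs n)) hsub).trans ?_
    exact measureReal_union_le _ _
  linarith only [htail, h4, hop n hnN]

end Vale.Agent.P150.F.One
end
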