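import Mathlib

set_option linter.all false

namespace Vale.Agent.N150.Haar

open Matrix

variable {ι : Type*} [Fintype ι] [DecidableEq ι]

/-- the orthogonal group on the index type `ι` -/
abbrev OG (ι : Type*) [Fintype ι] [DecidableEq ι] := Matrix.orthogonalGroup ι ℝ

/-- Frobenius norm -/
noncomputable def fro (A : Matrix ι ι ℝ) : ℝ := √(∑ i, ∑ j, A i j ^ 2)

/-- Frobenius inner product -/
def ip (A B : Matrix ι ι ℝ) : ℝ := ∑ i, ∑ j, A i j * B i j

lemma fro_nonneg (A : Matrix ι ι ℝ) : 0 ≤ fro A := Real.sqrt_nonneg _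

lemma fro_sq' (A : Matrix ι ι ℝ) : fro A ^ 2 = ∑ i, ∑ j, A i j ^ 2 :=
  Real.sq_sqrt (by positivity)

lemma fro_sq (A : Matrix ι ι ℝ) : fro A ^ 2 = ip A A := by
  rw [fro_sq']; simp only [ip, sq]

lemma ip_comm (A B : Matrix ι ι ℝ) : ip A B = ip B A := by simp only [ip, mul_comm]

lemma ip_eq_trace (A B : Matrix ι ι ℝ) : ip A B = trace (Aᵀ * B) := by
  simp only [ip, trace, diag, mul_apply, transpose_apply]
  exact Finset.sum_comm

lemma ip_add_left (A B C : Matrix ι ι ℝ) : ip (A + B) C = ip A C + ip B C := by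
  simp only [ip, Matrix.add_apply, add_mul, Finset.sum_add_distrib]

lemma ip_add_right (A B C : Matrix ι ι ℝ) : ip A (B + C) = ip A B + ip A C := by
  simp only [ip, Matrix.add_apply, mul_add, Finset.sum_add_distrib]

lemma ip_sub_left (A B C : Matrix ι ι ℝ) : ip (A - B) C = ip A C - ip B C := by
  simp only [ip, Matrix.sub_apply, sub_mul, Finset.sum_sub_distrib]

lemma ip_sub_right (A B C : Matrix ι ι ℝ) : ip A (B - C) = ip A B - ip A C := by
  simp only [ip, Matrix.sub_apply, mul_sub, Finset.sum_sub_distrib]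

lemma fro_add_sq (A B : Matrix ι ι ℝ) : fro (A + B) ^ 2 = fro A ^ 2 + 2 * ip A B + fro B ^ 2 := by
  simp only [fro_sq, ip_add_left, ip_add_right, ip_comm B A]; ring

lemma fro_sub_sq (A B : Matrix ι ι ℝ) : fro (A - B) ^ 2 = fro A ^ 2 - 2 * ip A B + fro B ^ 2 := by
  simp only [fro_sq, ip_sub_left, ip_sub_right, ip_comm B A]; ring

section
open scoped Matrix.Norms.Frobenius

lemma fro_eq_norm (A : Matrix ι ι ℝ) : fro A = ‖A‖ := by
  rw [frobenius_norm_def, fro, Real.sqrt_eq_rpow]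
  simp only [Real.norm_eq_abs, Real.rpow_two, sq_abs]

lemma fro_add_le (A B : Matrix ι ι ℝ) : fro (A + B) ≤ fro A + fro B := by
  simp only [fro_eq_norm]; exact norm_add_le _ _

lemma fro_sub_le (A B : Matrix ι ι ℝ) : fro (A - B) ≤ fro A + fro B := by
  simp only [fro_eq_norm]; exact norm_sub_le _ _

lemma fro_neg (A : Matrix ι ι ℝ) : fro (-A) = fro A := by
  simp only [fro_eq_norm]; exact norm_neg _

lemma fro_sub_comm (A B : Matrix ι ι ℝ) : fro (A - B) = fro (B - A) := by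
  simp only [fro_eq_norm]; exact norm_sub_rev _ _

lemma fro_smul (c : ℝ) (A : Matrix ι ι ℝ) : fro (c • A) = |c| * fro A := by
  simp only [fro_eq_norm]; rw [norm_smul, Real.norm_eq_abs]

lemma fro_mul_le (A B : Matrix ι ι ℝ) : fro (A * B) ≤ fro A * fro B := by
  simp only [fro_eq_norm]; exact frobenius_norm_mul _ _

lemma fro_transpose (A : Matrix ι ι ℝ) : fro Aᵀ = fro A := by
  simp only [fro_eq_norm]; exact frobenius_norm_transpose _

lemma fro_triangle (A B C : Matrix ι ι ℝ) : fro (A - C) ≤ fro (A - B) + fro (B - C) := by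
  simp only [fro_eq_norm]; exact norm_sub_le_norm_sub_add_norm_sub _ _ _

lemma fro_eq_zero {A : Matrix ι ι ℝ} (h : fro A = 0) : A = 0 := by
  rw [fro_eq_norm] at h; exact norm_eq_zero.1 h

end

lemma fro_zero : fro (0 : Matrix ι ι ℝ) = 0 := by simp [fro]

lemma abs_entry_le (A : Matrix ι ι ℝ) (i j : ι) : |A i j| ≤ fro A := by
  refine Real.abs_le_sqrt ?_
  calc A i j ^ 2 ≤ ∑ j, A i j ^ 2 :=
        Finset.single_le_sum (f := fun j => A i j ^ 2) (fun _ _ => sq_nonneg _) (Finset.mem_univ j)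
    _ ≤ _ := Finset.single_le_sum (f := fun i => ∑ j, A i j ^ 2) (fun _ _ => by positivity)
        (Finset.mem_univ i)

lemma continuous_fro : Continuous (fro : Matrix ι ι ℝ → ℝ) := by
  unfold fro
  fun_prop

lemma OG.mul_tr (U : OG ι) : (U : Matrix ι ι ℝ) * (U : Matrix ι ι ℝ)ᵀ = 1 :=
  (Matrix.mem_orthogonalGroup_iff ι ℝ).1 U.2

lemma OG.tr_mul (U : OG ι) : (U : Matrix ι ι ℝ)ᵀ * (U : Matrix ι ι ℝ) = 1 :=
  (Matrix.mem_orthogonalGroup_iff' ι ℝ).1 U.2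

lemma OG.coe_inv (U : OG ι) : ((U⁻¹ : OG ι) : Matrix ι ι ℝ) = (U : Matrix ι ι ℝ)ᵀ := by
  have h : (U : Matrix ι ι ℝ) * ((U⁻¹ : OG ι) : Matrix ι ι ℝ) = 1 :=
    congrArg Subtype.val (mul_inv_cancel U)
  calc ((U⁻¹ : OG ι) : Matrix ι ι ℝ)
      = ((U : Matrix ι ι ℝ)ᵀ * (U : Matrix ι ι ℝ)) * ((U⁻¹ : OG ι) : Matrix ι ι ℝ) := by
        rw [OG.tr_mul, one_mul]
    _ = _ := by rw [mul_assoc, h, mul_one]

lemma OG.coe_mul (U V : OG ι) : ((U * V : OG ι) : Matrix ι ι ℝ) = (U : Matrix ι ι ℝ) * V := rfl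

lemma OG.coe_one : ((1 : OG ι) : Matrix ι ι ℝ) = 1 := rfl

lemma ip_orth_mul (U : OG ι) (A B : Matrix ι ι ℝ) : ip (U.1 * A) (U.1 * B) = ip A B := by
  rw [ip_eq_trace, ip_eq_trace, transpose_mul, mul_assoc, ← mul_assoc (U.1)ᵀ, OG.tr_mul, one_mul]

lemma ip_mul_orth (U : OG ι) (A B : Matrix ι ι ℝ) : ip (A * U.1) (B * U.1) = ip A B := by
  rw [ip_eq_trace, ip_eq_trace, transpose_mul, mul_assoc, trace_mul_comm, mul_assoc, mul_assoc,
    OG.mul_tr, mul_one]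

lemma fro_orth_mul (U : OG ι) (A : Matrix ι ι ℝ) : fro (U.1 * A) = fro A := by
  rw [← sq_eq_sq₀ (fro_nonneg _) (fro_nonneg _), fro_sq, fro_sq, ip_orth_mul]

lemma fro_mul_orth (U : OG ι) (A : Matrix ι ι ℝ) : fro (A * U.1) = fro A := by
  rw [← sq_eq_sq₀ (fro_nonneg _) (fro_nonneg _), fro_sq, fro_sq, ip_mul_orth]

lemma fro_orth (U : OG ι) : fro U.1 = √(Fintype.card ι) := by
  have h : fro U.1 ^ 2 = Fintype.card ι := by
    rw [fro_sq, ip_eq_trace, OG.tr_mul, trace_one]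
  rw [← h, Real.sqrt_sq (fro_nonneg _)]

lemma fro_OG_sub (O U V : OG ι) : fro ((O * U).1 - (O * V).1) = fro (U.1 - V.1) := by
  rw [OG.coe_mul, OG.coe_mul, ← mul_sub, fro_orth_mul]

lemma fro_sub_OG (O U V : OG ι) : fro ((U * O).1 - (V * O).1) = fro (U.1 - V.1) := by
  rw [OG.coe_mul, OG.coe_mul, ← sub_mul, fro_mul_orth]

/-! ### The Cayley transform -/

lemma ip_skew {B : Matrix ι ι ℝ} (hB : Bᵀ = -B) (C : Matrix ι ι ℝ) : ip C (B * C) = 0 := by
  have h1 : ip C (B * C) = -ip C (B * C) := by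
    conv_lhs => rw [ip_comm, ip_eq_trace, transpose_mul, hB]
    rw [ip_eq_trace, mul_neg, neg_mul, trace_neg, mul_assoc]
  linarith

lemma fro_le_one_sub_mul {B : Matrix ι ι ℝ} (hB : Bᵀ = -B) (C : Matrix ι ι ℝ) :
    fro C ≤ fro ((1 - B) * C) := by
  rw [← sq_le_sq₀ (fro_nonneg _) (fro_nonneg _), sub_mul, one_mul, fro_sub_sq, ip_skew hB]
  nlinarith [sq_nonneg (fro (B * C))]

lemma isUnit_one_sub {B : Matrix ι ι ℝ} (hB : Bᵀ = -B) : IsUnit (1 - B).det := by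
  rw [isUnit_iff_ne_zero]
  intro h
  obtain ⟨v, hv, h0⟩ := Matrix.exists_mulVec_eq_zero_iff.2 h
  have h1 := fro_le_one_sub_mul hB (Matrix.of fun i _ => v i)
  have h2 : (1 - B) * (Matrix.of fun i (_ : ι) => v i) = 0 := by
    ext i j
    have := congrFun h0 i
    simpa [mul_apply, mulVec, dotProduct] using this
  rw [h2, fro_zero] at h1
  have h3 := fro_eq_zero (le_antisymm h1 (fro_nonneg _))
  apply hv
  funext i
  simpa using congrFun (congrFun h3 i) i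

/-- the resolvent `(1 - B)⁻¹` -/
noncomputable def rs (B : Matrix ι ι ℝ) : Matrix ι ι ℝ := (1 - B)⁻¹

lemma rs_mul {B : Matrix ι ι ℝ} (hB : Bᵀ = -B) : rs B * (1 - B) = 1 :=
  nonsing_inv_mul _ (isUnit_one_sub hB)

lemma mul_rs {B : Matrix ι ι ℝ} (hB : Bᵀ = -B) : (1 - B) * rs B = 1 :=
  mul_nonsing_inv _ (isUnit_one_sub hB)

lemma skew_neg {B : Matrix ι ι ℝ} (hB : Bᵀ = -B) : (-B)ᵀ = -(-B) := by
  rw [transpose_neg, hB]

lemma rs_transpose {B : Matrix ι ι ℝ} (hB : Bᵀ = -B) : (rs B)ᵀ = rs (-B) := by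
  unfold rs
  rw [transpose_nonsing_inv, transpose_sub, transpose_one, hB]

lemma fro_rs_mul {B : Matrix ι ι ℝ} (hB : Bᵀ = -B) (C : Matrix ι ι ℝ) :
    fro (rs B * C) ≤ fro C := by
  have := fro_le_one_sub_mul hB (rs B * C)
  rwa [← mul_assoc, mul_rs hB, one_mul] at this

lemma fro_mul_rs {B : Matrix ι ι ℝ} (hB : Bᵀ = -B) (C : Matrix ι ι ℝ) :
    fro (C * rs B) ≤ fro C := by
  rw [← fro_transpose, transpose_mul, rs_transpose hB, ← fro_transpose C]
  exact fro_rs_mul (skew_neg hB) _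

/-- the Cayley transform `(1 - B)⁻¹ (1 + B) = 2 (1 - B)⁻¹ - 1` -/
noncomputable def cay (B : Matrix ι ι ℝ) : Matrix ι ι ℝ := (2 : ℝ) • rs B - 1

lemma cay_transpose {B : Matrix ι ι ℝ} (hB : Bᵀ = -B) : (cay B)ᵀ = cay (-B) := by
  unfold cay
  rw [transpose_sub, transpose_smul, rs_transpose hB, transpose_one]

lemma rs_sub {A B : Matrix ι ι ℝ} (hA : Aᵀ = -A) (hB : Bᵀ = -B) :
    rs A - rs B = rs A * (A - B) * rs B := by
  have : A - B = (1 - B) - (1 - A) := by abel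
  rw [this, mul_sub, sub_mul, mul_assoc, mul_rs hB, rs_mul hA, mul_one, one_mul]

lemma cay_mul_neg {B : Matrix ι ι ℝ} (hB : Bᵀ = -B) : cay B * cay (-B) = 1 := by
  have h1 : rs B + rs (-B) = (2 : ℝ) • (rs B * rs (-B)) := by
    have h2 : rs B * ((1 - -B) + (1 - B)) * rs (-B) = rs B + rs (-B) := by
      rw [mul_add, add_mul, mul_assoc, mul_rs (skew_neg hB), rs_mul hB, mul_one, one_mul]
    rw [← h2]
    have h3 : (1 - -B) + (1 - B) = (2 : ℝ) • (1 : Matrix ι ι ℝ) := by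
      rw [two_smul]; abel
    rw [h3, Matrix.mul_smul, mul_one, Matrix.smul_mul]
  unfold cay
  rw [sub_mul, mul_sub, mul_sub, mul_one, one_mul, one_mul, Matrix.smul_mul, Matrix.mul_smul, ← h1,
    smul_add]
  abel

lemma cay_mem {B : Matrix ι ι ℝ} (hB : Bᵀ = -B) : cay B ∈ Matrix.orthogonalGroup ι ℝ := by
  rw [Matrix.mem_orthogonalGroup_iff, cay_transpose hB, cay_mul_neg hB]

/-- the Cayley transform as an element of the orthogonal group -/
noncomputable def cayG (B : Matrix ι ι ℝ) (hB : Bᵀ = -B) : OG ι := ⟨cay B, cay_mem hB⟩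

lemma fro_cay_sub {A B : Matrix ι ι ℝ} (hA : Aᵀ = -A) (hB : Bᵀ = -B) :
    fro (cay A - cay B) ≤ 2 * fro (A - B) := by
  have : cay A - cay B = (2 : ℝ) • (rs A * (A - B) * rs B) := by
    unfold cay; rw [← rs_sub hA hB, smul_sub]; abel
  rw [this, fro_smul, abs_two]
  exact mul_le_mul_of_nonneg_left ((fro_mul_rs hB _).trans (fro_rs_mul hA _)) (by norm_num)

lemma cay_zero : cay (0 : Matrix ι ι ℝ) = 1 := by
  unfold cay rs
  rw [sub_zero, inv_one, two_smul]; abel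

lemma skew_zero : (0 : Matrix ι ι ℝ)ᵀ = -0 := by simp

lemma fro_cay_sub_one {A : Matrix ι ι ℝ} (hA : Aᵀ = -A) : fro (cay A - 1) ≤ 2 * fro A := by
  have := fro_cay_sub hA skew_zero
  rwa [cay_zero, sub_zero] at this

lemma fro_cay_second {B : Matrix ι ι ℝ} (hB : Bᵀ = -B) :
    fro (cay B - 1 - (2 : ℝ) • B) ≤ 2 * fro B ^ 2 := by
  have h1 : rs B = 1 + B * rs B := by
    have := mul_rs hB
    rw [sub_mul, one_mul] at this
    rw [← this]; abel
  have h2 : cay B - 1 - (2 : ℝ) • B = (2 : ℝ) • (B * B * rs B) := by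
    unfold cay
    have h3 : rs B = 1 + B + B * B * rs B := by
      conv_lhs => rw [h1, h1]
      rw [mul_add, mul_one, mul_assoc, add_assoc]
    conv_lhs => rw [h3]
    simp only [two_smul]; abel
  rw [h2, fro_smul, abs_two, sq]
  exact mul_le_mul_of_nonneg_left ((fro_mul_rs hB _).trans (fro_mul_le _ _)) (by norm_num)

lemma skew_conj {B : Matrix ι ι ℝ} (hB : Bᵀ = -B) (T : Matrix ι ι ℝ) :
    (T * B * Tᵀ)ᵀ = -(T * B * Tᵀ) := by
  rw [transpose_mul, transpose_mul, transpose_transpose, hB, neg_mul, mul_neg, mul_assoc]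

lemma cay_conj {B : Matrix ι ι ℝ} (hB : Bᵀ = -B) (T : OG ι) :
    cay (T.1 * B * (T.1)ᵀ) = T.1 * cay B * (T.1)ᵀ := by
  have h1 : rs (T.1 * B * (T.1)ᵀ) = T.1 * rs B * (T.1)ᵀ := by
    unfold rs
    refine inv_eq_right_inv ?_
    have h2 : 1 - T.1 * B * (T.1)ᵀ = T.1 * (1 - B) * (T.1)ᵀ := by
      rw [mul_sub, sub_mul, mul_one, OG.mul_tr]
    rw [h2]
    have h3 := mul_rs hB
    unfold rs at h3
    calc T.1 * (1 - B) * (T.1)ᵀ * (T.1 * (1 - B)⁻¹ * (T.1)ᵀ)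
        = T.1 * ((1 - B) * ((T.1)ᵀ * T.1) * (1 - B)⁻¹) * (T.1)ᵀ := by simp only [mul_assoc]
      _ = 1 := by rw [OG.tr_mul, mul_one, h3, mul_one, OG.mul_tr]
  unfold cay
  rw [h1, mul_sub, sub_mul, mul_one, OG.mul_tr, Matrix.mul_smul, Matrix.smul_mul]

lemma cayG_conj {B : Matrix ι ι ℝ} (hB : Bᵀ = -B) (T : OG ι) :
    cayG (T.1 * B * (T.1)ᵀ) (skew_conj hB _) = T * cayG B hB * T⁻¹ := by
  apply Subtype.ext
  rw [OG.coe_mul, OG.coe_mul, OG.coe_inv]
  exact cay_conj hB T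

lemma one_sub_mul_cay {B : Matrix ι ι ℝ} (hB : Bᵀ = -B) : (1 - B) * cay B = 1 + B := by
  unfold cay
  rw [mul_sub, Matrix.mul_smul, mul_rs hB, mul_one, two_smul]; abel

lemma det_cay {B : Matrix ι ι ℝ} (hB : Bᵀ = -B) : (cay B).det = 1 := by
  have h1 := congrArg det (one_sub_mul_cay hB)
  have h2 : (1 + B).det = (1 - B).det := by
    rw [← det_transpose, transpose_add, transpose_one, hB, sub_eq_add_neg]
  rw [det_mul, h2] at h1
  exact (isUnit_one_sub hB).mul_left_cancel (by rw [h1, mul_one])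

/-- the commutator with a Cayley transform -/
lemma comm_cay {X : Matrix ι ι ℝ} (hX : Xᵀ = -X) (K : Matrix ι ι ℝ) :
    2 * fro (K * X - X * K) - 4 * fro X ^ 2 * fro K ≤ fro (K * cay X - cay X * K) := by
  set E := cay X - 1 - (2 : ℝ) • X with hE
  have h1 : K * cay X - cay X * K = (2 : ℝ) • (K * X - X * K) + (K * E - E * K) := by
    have : cay X = 1 + (2 : ℝ) • X + E := by rw [hE]; abel
    rw [this]
    simp only [mul_add, add_mul, mul_one, one_mul, Matrix.mul_smul, Matrix.smul_mul, smul_sub]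
    abel
  have h2 : fro E ≤ 2 * fro X ^ 2 := fro_cay_second hX
  have h3 : fro (K * E - E * K) ≤ 4 * fro X ^ 2 * fro K := by
    have := fro_sub_le (K * E) (E * K)
    have := fro_mul_le K E
    have := fro_mul_le E K
    have := mul_le_mul_of_nonneg_left h2 (fro_nonneg K)
    linarith
  have h4 := fro_sub_le ((2 : ℝ) • (K * X - X * K) + (K * E - E * K)) (K * E - E * K)
  rw [add_sub_cancel_right, fro_smul, abs_two] at h4
  rw [h1]
  linarith

/-- the coupling estimate: `|V T⁻¹ U T - U| ≤ |K U + U K| / 2 + 2 |V - 1|²`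
for `K` the skew part of `V` and `T` the Cayley transform of `K / 4`. -/
lemma coupling (V : OG ι) :
    ∃ (K : Matrix ι ι ℝ) (T : OG ι), K = (1 / 2 : ℝ) • (V.1 - (V.1)ᵀ) ∧
      T.1 = cay ((1 / 4 : ℝ) • K) ∧ Kᵀ = -K ∧ fro K ≤ fro (V.1 - 1) ∧
      (∀ U : OG ι, fro ((V * (T⁻¹ * U * T)).1 - U.1) ≤
        fro (K * U.1 + U.1 * K) / 2 + 2 * fro (V.1 - 1) ^ 2) := by
  set K : Matrix ι ι ℝ := (1 / 2 : ℝ) • (V.1 - (V.1)ᵀ) with hK
  have hKs : Kᵀ = -K := by
    rw [hK, transpose_smul, transpose_sub, transpose_transpose, ← smul_neg, neg_sub]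
  set d := fro (V.1 - 1) with hd
  have hd0 : 0 ≤ d := fro_nonneg _
  have hKd : fro K ≤ d := by
    have h1 : V.1 - (V.1)ᵀ = (V.1 - 1) - (V.1 - 1)ᵀ := by
      rw [transpose_sub, transpose_one]; abel
    have h2 := fro_sub_le (V.1 - 1) (V.1 - 1)ᵀ
    rw [fro_transpose, ← h1] at h2
    rw [hK, fro_smul, abs_of_pos (by norm_num)]
    linarith
  set B : Matrix ι ι ℝ := (1 / 4 : ℝ) • K with hB
  have hBs : Bᵀ = -B := by rw [hB, transpose_smul, hKs, smul_neg]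
  have hBd : fro B = fro K / 4 := by
    rw [hB, fro_smul, abs_of_pos (by norm_num)]; ring
  refine ⟨K, cayG B hBs, rfl, rfl, hKs, hKd, fun U => ?_⟩
  set T : OG ι := cayG B hBs with hT
  have hTt : (T.1)ᵀ = cay (-B) := cay_transpose hBs
  set E1 : Matrix ι ι ℝ := V.1 - 1 - K with hE1
  set E2 : Matrix ι ι ℝ := cay (-B) - 1 - (2 : ℝ) • (-B) with hE2
  have hE1d : fro E1 ≤ d ^ 2 / 2 := by
    have h1 : E1 = (-(1 / 2) : ℝ) • ((V.1 - 1)ᵀ * (V.1 - 1)) := by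
      rw [transpose_sub, transpose_one, sub_mul, mul_sub, mul_sub, OG.tr_mul, hE1, hK]
      ext i j
      simp only [Matrix.sub_apply, Matrix.smul_apply, smul_eq_mul, mul_one, one_mul]
      ring
    have h2 := fro_mul_le (V.1 - 1)ᵀ (V.1 - 1)
    rw [fro_transpose] at h2
    rw [h1, fro_smul, abs_neg, abs_of_pos (by norm_num)]
    nlinarith
  have hE2d : fro E2 ≤ d ^ 2 / 8 := by
    have h1 := fro_cay_second (skew_neg hBs)
    rw [fro_neg, hBd] at h1
    have h2 : fro K ^ 2 ≤ d ^ 2 := pow_le_pow_left₀ (fro_nonneg _) hKd 2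
    nlinarith
  have hT1 : fro (cay (-B) - 1) ≤ d / 2 := by
    have h1 := fro_cay_sub_one (skew_neg hBs)
    rw [fro_neg, hBd] at h1
    linarith
  have h0 : fro ((V * (T⁻¹ * U * T)).1 - U.1) = fro (V.1 * (T.1)ᵀ * U.1 - U.1 * (T.1)ᵀ) := by
    rw [← fro_mul_orth T⁻¹, OG.coe_inv, OG.coe_mul, OG.coe_mul, OG.coe_mul, OG.coe_inv, sub_mul]
    simp only [mul_assoc, OG.mul_tr, mul_one]
  set E3 : Matrix ι ι ℝ := (V.1 - 1) * (cay (-B) - 1) + E1 + E2 with hE3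
  have h1 : V.1 * (T.1)ᵀ * U.1 - U.1 * (T.1)ᵀ =
      (1 / 2 : ℝ) • (K * U.1 + U.1 * K) + (E3 * U.1 - U.1 * E2) := by
    have h2 : (2 : ℝ) • (-B) = -((1 / 2 : ℝ) • K) := by
      rw [hB, smul_neg, smul_smul]; norm_num
    have h3 : K = (1 / 2 : ℝ) • K + (1 / 2 : ℝ) • K := by rw [← add_smul]; norm_num
    have h4 : V.1 * cay (-B) = 1 + (1 / 2 : ℝ) • K + E3 := by
      rw [hE3, hE1, hE2, h2, sub_mul, mul_sub, mul_sub, mul_one, one_mul, one_mul]
      conv_rhs => enter [2, 1, 2, 2]; rw [h3]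
      abel
    have h5 : cay (-B) = 1 - (1 / 2 : ℝ) • K + E2 := by rw [hE2, h2]; abel
    rw [hTt, h4]
    conv_lhs => enter [2]; rw [h5]
    simp only [add_mul, mul_add, mul_sub, one_mul, mul_one, Matrix.smul_mul, Matrix.mul_smul,
      smul_add]
    abel
  have h6 : fro E3 ≤ d * (d / 2) + d ^ 2 / 2 + d ^ 2 / 8 := by
    have := fro_add_le ((V.1 - 1) * (cay (-B) - 1) + E1) E2
    have := fro_add_le ((V.1 - 1) * (cay (-B) - 1)) E1
    have := fro_mul_le (V.1 - 1) (cay (-B) - 1)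
    have := mul_le_mul_of_nonneg_left hT1 hd0
    linarith
  rw [h0, h1]
  have h7 := fro_add_le ((1 / 2 : ℝ) • (K * U.1 + U.1 * K)) (E3 * U.1 - U.1 * E2)
  have h8 := fro_sub_le (E3 * U.1) (U.1 * E2)
  rw [fro_mul_orth, fro_orth_mul] at h8
  rw [fro_smul, abs_of_pos (by norm_num)] at h7
  nlinarith

/-- parallelogram law for `K U` and `U K` -/
lemma fro_anti_sq (K : Matrix ι ι ℝ) (U : OG ι) :
    fro (K * U.1 + U.1 * K) ^ 2 = 4 * fro K ^ 2 - fro (K * U.1 - U.1 * K) ^ 2 := by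
  rw [fro_add_sq, fro_sub_sq, fro_mul_orth, fro_orth_mul]; ring

end Vale.Agent.N150.Haar
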