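import Vale.Agent.N150.HaarA
import Vale.Agent.P150.Bdl.B1

set_option linter.all false

namespace Vale.Agent.N150.Haar

open Matrix MeasureTheory ProbabilityTheory
open Vale.Agent.P150 (gpi)
open Vale.Agent.P150.F (Lip ed)

variable {ι : Type*} [Fintype ι] [DecidableEq ι]

/-- The standard Gaussian measure is invariant under linear isometries. -/
lemma gauss_iso {κ : Type*} [Fintype κ] (ρ : (κ → ℝ) →ₗ[ℝ] (κ → ℝ))
    (h : ∀ z, ∑ e, ρ z e ^ 2 = ∑ e, z e ^ 2) : MeasurePreserving ρ (gpi κ) (gpi κ) := by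
  classical
  let L : EuclideanSpace ℝ κ →ₗ[ℝ] EuclideanSpace ℝ κ :=
    (WithLp.linearEquiv 2 ℝ (κ → ℝ)).symm.toLinearMap ∘ₗ ρ ∘ₗ
      (WithLp.linearEquiv 2 ℝ (κ → ℝ)).toLinearMap
  have hL : ∀ x, ‖L x‖ = ‖x‖ := by
    intro x
    rw [EuclideanSpace.norm_eq, EuclideanSpace.norm_eq]
    congr 1
    have := h x.ofLp
    simpa [L] using this
  let I : EuclideanSpace ℝ κ →ₗᵢ[ℝ] EuclideanSpace ℝ κ := ⟨L, hL⟩
  let E : EuclideanSpace ℝ κ ≃ₗᵢ[ℝ] EuclideanSpace ℝ κ := I.toLinearIsometryEquiv rfl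
  have h1 : (gpi κ).map (WithLp.toLp 2) = stdGaussian (EuclideanSpace ℝ κ) :=
    map_pi_eq_stdGaussian
  have h2 := stdGaussian_map (E := EuclideanSpace ℝ κ) E
  have hm : Measurable (WithLp.ofLp : EuclideanSpace ℝ κ → (κ → ℝ)) := by fun_prop
  have hm2 : Measurable (WithLp.toLp 2 : (κ → ℝ) → EuclideanSpace ℝ κ) := by fun_prop
  have h3 : (ρ : (κ → ℝ) → (κ → ℝ)) =
      (WithLp.ofLp : EuclideanSpace ℝ κ → (κ → ℝ)) ∘ E ∘ (WithLp.toLp 2) := by
    funext x
    rfl
  have h4 : gpi κ = (stdGaussian (EuclideanSpace ℝ κ)).map WithLp.ofLp := by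
    rw [← h1, Measure.map_map hm hm2]
    exact Measure.map_id.symm
  refine ⟨ρ.continuous_of_finiteDimensional.measurable, ?_⟩
  rw [h3, ← Measure.map_map hm (by fun_prop), ← Measure.map_map (by fun_prop) hm2, h1, h2, ← h4]

lemma integral_coord_mul {κ : Type*} [Fintype κ] [DecidableEq κ] (p q : κ) :
    ∫ g, g p * g q ∂gpi κ = if p = q then 1 else 0 := by
  split_ifs with h
  · subst h
    have h1 : MeasurePreserving (Function.eval p) (gpi κ) (gaussianReal 0 1) :=
      measurePreserving_eval (fun _ => gaussianReal 0 1) p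
    have h2 : ∫ x : ℝ, x * x ∂gaussianReal 0 1 = 1 := by
      have h3 := variance_id_gaussianReal (μ := 0) (v := 1)
      rw [variance_eq_integral (by fun_prop)] at h3
      simpa [sq] using h3
    rw [← h2, ← h1.map_eq, integral_map h1.measurable.aemeasurable
      (Continuous.aestronglyMeasurable (by fun_prop))]
  · let ρ : (κ → ℝ) →ₗ[ℝ] (κ → ℝ) :=
      { toFun := fun g e => (if e = p then -1 else 1) * g e
        map_add' := fun g g' => by funext e; simp [mul_add]
        map_smul' := fun c g => by funext e; simp }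
    have h1 := gauss_iso ρ (fun z => Finset.sum_congr rfl fun e _ => by
      show ((if e = p then -1 else 1) * z e) ^ 2 = _
      split_ifs <;> ring)
    have h2 : ∫ g, g p * g q ∂gpi κ = ∫ g, ρ g p * ρ g q ∂gpi κ := by
      conv_lhs => rw [← h1.map_eq]
      rw [integral_map h1.measurable.aemeasurable (Continuous.aestronglyMeasurable (by fun_prop))]
    have h3 : ∀ g : κ → ℝ, ρ g p * ρ g q = -(g p * g q) := by
      intro g
      show ((if p = p then -1 else 1) * g p) * ((if q = p then -1 else 1) * g q) = _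
      rw [if_pos rfl, if_neg (Ne.symm h)]; ring
    simp only [h3, integral_neg] at h2
    linarith

lemma integrable_coord_mul {κ : Type*} [Fintype κ] (p q : κ) :
    Integrable (fun g : κ → ℝ => g p * g q) (gpi κ) := by
  have h : ∀ p : κ, MemLp (fun g : κ → ℝ => g p) 2 (gpi κ) := fun p =>
    (memLp_id_gaussianReal' (μ := 0) (v := 1) 2 (by simp)).comp_measurePreserving
      (measurePreserving_eval (fun _ => gaussianReal 0 1) p)
  exact (h p).integrable_mul (h q)

/-- the Gaussian matrix -/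
def mat (g : ι × ι → ℝ) : Matrix ι ι ℝ := Matrix.of fun i j => g (i, j)

/-- the skew Gaussian matrix -/
def sk (g : ι × ι → ℝ) : Matrix ι ι ℝ := mat g - (mat g)ᵀ

lemma sk_skew (g : ι × ι → ℝ) : (sk g)ᵀ = -sk g := by
  rw [sk, transpose_sub, transpose_transpose, neg_sub]

lemma fro_mat_sub (g g' : ι × ι → ℝ) : fro (mat g - mat g') = ed g g' := by
  unfold fro ed
  rw [Fintype.sum_prod_type]
  rfl

lemma fro_sk_sub (g g' : ι × ι → ℝ) : fro (sk g - sk g') ≤ 2 * ed g g' := by
  have h : sk g - sk g' = (mat g - mat g') - (mat g - mat g')ᵀ := by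
    rw [sk, sk, transpose_sub]; abel
  have h2 := fro_sub_le (mat g - mat g') (mat g - mat g')ᵀ
  rw [fro_transpose, fro_mat_sub, ← h] at h2
  linarith

lemma lip_fro_sk : Lip 2 (fun g : ι × ι → ℝ => fro (sk g)) := by
  intro g g'
  refine le_trans (abs_sub_le_iff.2 ⟨?_, ?_⟩) (fro_sk_sub g g')
  · have := fro_add_le (sk g - sk g') (sk g')
    rw [sub_add_cancel] at this
    linarith
  · have := fro_add_le (sk g' - sk g) (sk g)
    rw [sub_add_cancel, fro_sub_comm] at this
    linarith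

lemma integrable_fro_sk_pow (k : ℕ) :
    Integrable (fun g : ι × ι → ℝ => fro (sk g) ^ k) (gpi (ι × ι)) := by
  refine (((lip_fro_sk (ι := ι)).integrable_exp 1).const_mul (k.factorial : ℝ)).mono'
    (lip_fro_sk.measurable.pow_const k).aestronglyMeasurable (ae_of_all _ fun g => ?_)
  rw [Real.norm_eq_abs, abs_of_nonneg (pow_nonneg (fro_nonneg _) _), one_mul]
  have := Real.pow_div_factorial_le_exp _ (fro_nonneg (sk g)) k
  rwa [div_le_iff₀ (by positivity), mul_comm] at this

lemma integrable_sk_mul (a b l i : ι) :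
    Integrable (fun g : ι × ι → ℝ => sk g a b * sk g l i) (gpi (ι × ι)) := by
  have h : (fun g : ι × ι → ℝ => sk g a b * sk g l i) = fun g =>
      g (a, b) * g (l, i) - g (a, b) * g (i, l) - g (b, a) * g (l, i) + g (b, a) * g (i, l) := by
    funext g
    show (g (a, b) - g (b, a)) * (g (l, i) - g (i, l)) = _
    ring
  rw [h]
  exact (((integrable_coord_mul _ _).sub (integrable_coord_mul _ _)).sub
    (integrable_coord_mul _ _)).add (integrable_coord_mul _ _)

lemma integral_sk_mul (a b l i : ι) :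
    ∫ g, sk g a b * sk g l i ∂gpi (ι × ι) =
      2 * ((if a = l then if b = i then 1 else 0 else 0) -
        (if a = i then if b = l then 1 else 0 else 0)) := by
  have h : (fun g : ι × ι → ℝ => sk g a b * sk g l i) = fun g =>
      g (a, b) * g (l, i) - g (a, b) * g (i, l) - g (b, a) * g (l, i) + g (b, a) * g (i, l) := by
    funext g
    show (g (a, b) - g (b, a)) * (g (l, i) - g (i, l)) = _
    ring
  rw [h, integral_add, integral_sub, integral_sub]
  · simp only [integral_coord_mul, Prod.mk.injEq, ← ite_and, and_comm (a := b = l),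
      and_comm (a := b = i)]
    ring
  · exact integrable_coord_mul _ _
  · exact integrable_coord_mul _ _
  · exact (integrable_coord_mul _ _).sub (integrable_coord_mul _ _)
  · exact integrable_coord_mul _ _
  · exact ((integrable_coord_mul _ _).sub (integrable_coord_mul _ _)).sub (integrable_coord_mul _ _)
  · exact integrable_coord_mul _ _

lemma trace_expand (N M A : Matrix ι ι ℝ) :
    trace (N * A * M * A) = ∑ i, ∑ l, ∑ b, ∑ a, N i a * M b l * (A a b * A l i) := by
  simp only [trace, diag, mul_apply, Finset.sum_mul]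
  refine Finset.sum_congr rfl fun i _ => Finset.sum_congr rfl fun l _ =>
    Finset.sum_congr rfl fun b _ => Finset.sum_congr rfl fun a _ => by ring

lemma integrable_trace (N M : Matrix ι ι ℝ) :
    Integrable (fun g : ι × ι → ℝ => trace (N * sk g * M * sk g)) (gpi (ι × ι)) := by
  simp only [trace_expand]
  exact integrable_finset_sum _ fun i _ => integrable_finset_sum _ fun l _ =>
    integrable_finset_sum _ fun b _ => integrable_finset_sum _ fun a _ =>
      (integrable_sk_mul _ _ _ _).const_mul _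

/-- Wick formula for the skew Gaussian matrix -/
lemma integral_trace (N M : Matrix ι ι ℝ) :
    ∫ g, trace (N * sk g * M * sk g) ∂gpi (ι × ι) = 2 * (ip N M - trace N * trace M) := by
  simp only [trace_expand]
  rw [integral_finset_sum _ fun i _ => integrable_finset_sum _ fun l _ =>
    integrable_finset_sum _ fun b _ => integrable_finset_sum _ fun a _ =>
      (integrable_sk_mul _ _ _ _).const_mul _]
  have h : ∀ i, ∫ g, ∑ l, ∑ b, ∑ a, N i a * M b l * (sk g a b * sk g l i) ∂gpi (ι × ι) =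
      ∑ l, 2 * (N i l * M i l - N i i * M l l) := by
    intro i
    rw [integral_finset_sum _ fun l _ =>
      integrable_finset_sum _ fun b _ => integrable_finset_sum _ fun a _ =>
        (integrable_sk_mul _ _ _ _).const_mul _]
    refine Finset.sum_congr rfl fun l _ => ?_
    rw [integral_finset_sum _ fun b _ => integrable_finset_sum _ fun a _ =>
        (integrable_sk_mul _ _ _ _).const_mul _]
    have h2 : ∀ b, ∫ g, ∑ a, N i a * M b l * (sk g a b * sk g l i) ∂gpi (ι × ι) =
        2 * ((if b = i then N i l * M b l else 0) - if b = l then N i i * M b l else 0) := by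
      intro b
      rw [integral_finset_sum _ fun a _ => (integrable_sk_mul _ _ _ _).const_mul _]
      simp only [integral_const_mul, integral_sk_mul, mul_sub, mul_ite, mul_one, mul_zero,
        Finset.sum_sub_distrib, Finset.sum_ite_eq', Finset.mem_univ, if_true]
      split_ifs <;> ring
    simp only [h2, mul_sub, mul_ite, mul_zero, Finset.sum_sub_distrib, Finset.sum_ite_eq',
      Finset.mem_univ, if_true]
  simp only [h, ip, trace, diag]
  rw [Finset.sum_mul_sum]
  simp only [mul_sub, Finset.mul_sum, Finset.sum_sub_distrib]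

lemma comm_sq_eq {K A : Matrix ι ι ℝ} (hK : Kᵀ = -K) (hA : Aᵀ = -A) :
    fro (K * A - A * K) ^ 2 =
      -2 * trace (1 * A * (Kᵀ * K) * A) - 2 * trace (K * A * K * A) := by
  have h1 : fro (A * K) = fro (K * A) := by
    rw [← fro_transpose, transpose_mul, hK, hA, neg_mul_neg]
  have h2 : fro (K * A) ^ 2 = -trace (1 * A * (Kᵀ * K) * A) := by
    rw [fro_sq, ip_eq_trace, transpose_mul, hA, neg_mul, neg_mul, trace_neg, one_mul]
    simp only [mul_assoc]
  have h3 : ip (K * A) (A * K) = trace (K * A * K * A) := by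
    rw [ip_comm, ip_eq_trace, transpose_mul, hK, hA, neg_mul_neg]
    simp only [mul_assoc]
  rw [fro_sub_sq, h1, h2, h3]; ring

lemma integrable_comm_sq {K : Matrix ι ι ℝ} (hK : Kᵀ = -K) :
    Integrable (fun g : ι × ι → ℝ => fro (K * sk g - sk g * K) ^ 2) (gpi (ι × ι)) := by
  simp only [comm_sq_eq hK (sk_skew _)]
  exact ((integrable_trace _ _).const_mul _).sub ((integrable_trace _ _).const_mul _)

lemma integral_comm_sq {K : Matrix ι ι ℝ} (hK : Kᵀ = -K) :
    ∫ g, fro (K * sk g - sk g * K) ^ 2 ∂gpi (ι × ι) =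
      4 * ((Fintype.card ι : ℝ) - 2) * fro K ^ 2 := by
  simp only [comm_sq_eq hK (sk_skew _)]
  rw [integral_sub ((integrable_trace _ _).const_mul _) ((integrable_trace _ _).const_mul _),
    integral_const_mul, integral_const_mul, integral_trace, integral_trace]
  have h1 : trace K = 0 := by
    have := trace_transpose K
    rw [hK, trace_neg] at this
    linarith
  have h2 : trace (Kᵀ * K) = fro K ^ 2 := by rw [fro_sq, ip_eq_trace]
  have h3 : ip 1 (Kᵀ * K) = fro K ^ 2 := by rw [ip_eq_trace, transpose_one, one_mul, h2]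
  rw [h1, h2, h3, trace_one, ← fro_sq]
  ring

/-- conjugation of the Gaussian matrix -/
def cj (T : OG ι) : (ι × ι → ℝ) →ₗ[ℝ] (ι × ι → ℝ) where
  toFun g := fun p => (T.1 * mat g * (T.1)ᵀ) p.1 p.2
  map_add' g g' := by
    funext p
    have : mat (g + g') = mat g + mat g' := rfl
    rw [this, mul_add, add_mul]; rfl
  map_smul' c g := by
    funext p
    have : mat (c • g) = c • mat g := rfl
    rw [this, Matrix.mul_smul, Matrix.smul_mul]; rfl

lemma mat_cj (T : OG ι) (g : ι × ι → ℝ) : mat (cj T g) = T.1 * mat g * (T.1)ᵀ := rfl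

lemma sk_cj (T : OG ι) (g : ι × ι → ℝ) : sk (cj T g) = T.1 * sk g * (T.1)ᵀ := by
  rw [sk, mat_cj, sk, transpose_mul, transpose_mul, transpose_transpose, mul_sub, sub_mul]
  simp only [mul_assoc]

lemma cj_mp (T : OG ι) : MeasurePreserving (cj T) (gpi (ι × ι)) (gpi (ι × ι)) := by
  refine gauss_iso _ fun g => ?_
  have h : ∀ g : ι × ι → ℝ, ∑ e, g e ^ 2 = fro (mat g) ^ 2 := by
    intro g; rw [fro_sq', Fintype.sum_prod_type]; rfl
  rw [h, h, mat_cj, ← OG.coe_inv, fro_mul_orth, fro_orth_mul]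

/-! ### Connectivity -/

/-- Householder reflection matrix -/
noncomputable def rf (w : ι → ℝ) : Matrix ι ι ℝ := 1 - (2 / (w ⬝ᵥ w)) • vecMulVec w w

lemma rf_transpose (w : ι → ℝ) : (rf w)ᵀ = rf w := by
  unfold rf
  rw [transpose_sub, transpose_one, transpose_smul, transpose_vecMulVec]

lemma rf_mulVec (w x : ι → ℝ) : rf w *ᵥ x = x - ((2 / (w ⬝ᵥ w)) * (w ⬝ᵥ x)) • w := by
  unfold rf
  rw [Matrix.sub_mulVec, Matrix.one_mulVec, Matrix.smul_mulVec, Matrix.vecMulVec_mulVec]
  ext i
  simp [smul_smul, mul_comm]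

lemma rf_mul_self (w : ι → ℝ) : rf w * rf w = 1 := by
  by_cases hw : w ⬝ᵥ w = 0
  · unfold rf
    rw [hw]; simp
  · have h1 : vecMulVec w w * vecMulVec w w = (w ⬝ᵥ w) • vecMulVec w w := by
      ext i j
      simp only [Matrix.mul_apply, Matrix.vecMulVec_apply, Matrix.smul_apply, smul_eq_mul,
        dotProduct, Finset.sum_mul]
      refine Finset.sum_congr rfl fun k _ => ?_
      ring
    unfold rf
    rw [sub_mul, one_mul, mul_sub, mul_one, Matrix.smul_mul, Matrix.mul_smul, h1, smul_smul,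
      smul_smul]
    have h2 : 2 / (w ⬝ᵥ w) * (2 / (w ⬝ᵥ w)) * (w ⬝ᵥ w) = 2 / (w ⬝ᵥ w) + 2 / (w ⬝ᵥ w) := by
      field_simp; ring
    rw [h2, add_smul]
    abel

/-- Householder reflection as an element of the orthogonal group -/
noncomputable def rfG (w : ι → ℝ) : OG ι :=
  ⟨rf w, by rw [Matrix.mem_orthogonalGroup_iff, rf_transpose, rf_mul_self]⟩

lemma rfG_mul_self (w : ι → ℝ) : rfG w * rfG w = 1 := Subtype.ext (rf_mul_self w)

lemma rfG_inv (w : ι → ℝ) : (rfG w)⁻¹ = rfG w := inv_eq_of_mul_eq_one_right (rfG_mul_self w)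

lemma OG.dot (U : OG ι) (x y : ι → ℝ) : (U.1 *ᵥ x) ⬝ᵥ (U.1 *ᵥ y) = x ⬝ᵥ y := by
  rw [Matrix.dotProduct_mulVec, Matrix.vecMul_mulVec, OG.tr_mul, Matrix.vecMul_one]

lemma conj_rfG (h : OG ι) (w : ι → ℝ) : h * rfG w * h⁻¹ = rfG (h.1 *ᵥ w) := by
  apply Subtype.ext
  rw [OG.coe_mul, OG.coe_mul, OG.coe_inv]
  show h.1 * rf w * (h.1)ᵀ = rf _
  unfold rf
  rw [OG.dot, mul_sub, mul_one, sub_mul, OG.mul_tr, Matrix.mul_smul, Matrix.smul_mul,
    Matrix.mul_vecMulVec, Matrix.vecMulVec_mul, Matrix.vecMul_transpose]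

lemma rfG_smul {c : ℝ} (hc : c ≠ 0) (w : ι → ℝ) : rfG (c • w) = rfG w := by
  apply Subtype.ext
  show rf _ = rf _
  unfold rf
  congr 1
  rw [smul_dotProduct, dotProduct_smul, smul_vecMulVec, vecMulVec_smul, smul_smul, smul_smul]
  congr 1
  simp only [smul_eq_mul]
  by_cases hw : w ⬝ᵥ w = 0
  · simp [hw]
  · field_simp

lemma rfG_zero : rfG (0 : ι → ℝ) = 1 := by
  apply Subtype.ext
  show rf _ = 1
  simp [rf]

/-- the reflection exchanging two vectors of the same length -/
lemma rf_sub_mulVec {a b : ι → ℝ} (h : a ⬝ᵥ a = b ⬝ᵥ b) : rf (a - b) *ᵥ b = a := by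
  rw [rf_mulVec]
  by_cases h0 : (a - b) ⬝ᵥ (a - b) = 0
  · have h1 : a - b = 0 := dotProduct_self_eq_zero.1 h0
    rw [h1, smul_zero, sub_zero]
    exact (sub_eq_zero.1 h1).symm
  · have h1 : (a - b) ⬝ᵥ (a - b) = -2 * ((a - b) ⬝ᵥ b) := by
      simp only [sub_dotProduct, dotProduct_sub, dotProduct_comm b a, h]; ring
    have h2 : 2 / ((a - b) ⬝ᵥ (a - b)) * ((a - b) ⬝ᵥ b) = -1 := by
      rw [div_mul_eq_mul_div, div_eq_iff h0, h1]; ring
    rw [h2]; simp

/-- a Cayley transform moving `a` to `b` -/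
lemma exists_cay_mulVec {a b : ι → ℝ} (h : a ⬝ᵥ a = b ⬝ᵥ b) (h0 : a ⬝ᵥ a + a ⬝ᵥ b ≠ 0) :
    ∃ (B : Matrix ι ι ℝ) (hB : Bᵀ = -B), cay B *ᵥ a = b := by
  set B : Matrix ι ι ℝ := (a ⬝ᵥ a + a ⬝ᵥ b)⁻¹ • (vecMulVec b a - vecMulVec a b) with hBd
  have hB : Bᵀ = -B := by
    rw [hBd, transpose_smul, transpose_sub, transpose_vecMulVec, transpose_vecMulVec, ← smul_neg,
      neg_sub]
  refine ⟨B, hB, ?_⟩
  have h1 : B *ᵥ (a + b) = b - a := by
    rw [hBd, Matrix.smul_mulVec, Matrix.sub_mulVec, Matrix.vecMulVec_mulVec,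
      Matrix.vecMulVec_mulVec, dotProduct_add, dotProduct_add, dotProduct_comm b a, ← h]
    ext i
    simp only [Pi.smul_apply, Pi.sub_apply, smul_eq_mul, MulOpposite.smul_eq_mul_unop,
      MulOpposite.unop_op]
    field_simp
    ring
  have h2 : (1 + B) *ᵥ a = (1 - B) *ᵥ b := by
    rw [mulVec_add] at h1
    rw [add_mulVec, sub_mulVec, one_mulVec, one_mulVec]
    have : B *ᵥ a = b - a - B *ᵥ b := by rw [← h1]; abel
    rw [this]; abel
  have h3 : cay B = rs B * (1 + B) := by
    rw [← one_sub_mul_cay hB, ← mul_assoc, rs_mul hB, one_mul]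
  rw [h3, ← mulVec_mulVec, h2, mulVec_mulVec, rs_mul hB, one_mulVec]

lemma rf_pair_mem (H : Subgroup (OG ι)) (hH : ∀ B hB, cayG B hB ∈ H) {v w : ι → ℝ} (hv : v ≠ 0)
    (hw : w ≠ 0) : rfG v * rfG w ∈ H := by
  have hv' : 0 < v ⬝ᵥ v :=
    lt_of_le_of_ne (Finset.sum_nonneg fun i _ => mul_self_nonneg (v i)) fun h => hv (dotProduct_self_eq_zero.1 h.symm)
  have hw' : 0 < w ⬝ᵥ w :=
    lt_of_le_of_ne (Finset.sum_nonneg fun i _ => mul_self_nonneg (w i)) fun h => hw (dotProduct_self_eq_zero.1 h.symm)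
  obtain ⟨c, hc0, hc, hc1⟩ : ∃ c : ℝ, c ≠ 0 ∧ c ^ 2 * (w ⬝ᵥ w) = v ⬝ᵥ v ∧ 0 ≤ c * (w ⬝ᵥ v) := by
    have h1 : √(v ⬝ᵥ v / (w ⬝ᵥ w)) ^ 2 * (w ⬝ᵥ w) = v ⬝ᵥ v := by
      rw [Real.sq_sqrt (by positivity)]; field_simp
    have h2 : 0 < √(v ⬝ᵥ v / (w ⬝ᵥ w)) := Real.sqrt_pos.2 (by positivity)
    rcases le_total 0 (w ⬝ᵥ v) with h | h
    · exact ⟨_, h2.ne', h1, mul_nonneg h2.le h⟩
    · exact ⟨-√(v ⬝ᵥ v / (w ⬝ᵥ w)), neg_ne_zero.2 h2.ne', by rw [neg_sq, h1], by nlinarith⟩
  have h1 : (c • w) ⬝ᵥ (c • w) = v ⬝ᵥ v := by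
    rw [smul_dotProduct, dotProduct_smul, ← hc]; simp only [smul_eq_mul]; ring
  obtain ⟨B, hB, hBa⟩ := exists_cay_mulVec h1 (by
    rw [h1, smul_dotProduct, smul_eq_mul]; linarith)
  have h2 : rfG v = cayG B hB * rfG w * (cayG B hB)⁻¹ := by
    rw [← rfG_smul hc0 w, conj_rfG]
    show _ = rfG (cay B *ᵥ _)
    rw [hBa]
  have h3 : rfG v * rfG w = cayG B hB * (rfG w * cayG B hB * (rfG w)⁻¹)⁻¹ := by
    rw [h2, rfG_inv]
    simp only [_root_.mul_inv_rev, rfG_inv, mul_assoc]
  rw [h3, ← cayG_conj]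
  exact H.mul_mem (hH _ _) (H.inv_mem (hH _ _))

lemma mem_or_mem (H : Subgroup (OG ι)) (hH : ∀ B hB, cayG B hB ∈ H) {w : ι → ℝ} (hw : w ≠ 0)
    (V : OG ι) : V ∈ H ∨ V * rfG w ∈ H := by
  have key : ∀ S : Finset ι, ∀ V : OG ι,
      (∀ k, k ∉ S → V.1 *ᵥ Pi.single k 1 = Pi.single k 1) → V ∈ H ∨ V * rfG w ∈ H := by
    intro S
    induction S using Finset.induction_on with
    | empty =>
      intro V hV
      left
      have : V = 1 := by
        apply Subtype.ext
        ext i j
        have := congrFun (hV j (by simp)) i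
        simpa [Matrix.one_apply, Pi.single_apply] using this
      rw [this]; exact H.one_mem
    | insert k S hk ih =>
      intro V hV
      set a : ι → ℝ := (V⁻¹).1 *ᵥ Pi.single k 1 with ha
      have hVa : V.1 *ᵥ a = Pi.single k 1 := by
        rw [ha, mulVec_mulVec, ← OG.coe_mul, mul_inv_cancel, OG.coe_one, one_mulVec]
      have haa : a ⬝ᵥ a = (Pi.single k 1 : ι → ℝ) ⬝ᵥ Pi.single k 1 := OG.dot _ _ _
      set u : ι → ℝ := a - Pi.single k 1 with hu
      have h1 := ih (V * rfG u) (by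
        intro j hj
        rw [OG.coe_mul, ← mulVec_mulVec]
        show V.1 *ᵥ (rf u *ᵥ _) = _
        by_cases hjk : j = k
        · rw [hjk, hu, rf_sub_mulVec haa, hVa]
        · have hj' := hV j (by simp [hjk, hj])
          have h2 : u ⬝ᵥ Pi.single j 1 = 0 := by
            have h3 := OG.dot V a (Pi.single j 1)
            rw [hVa, hj'] at h3
            rw [hu, sub_dotProduct, ← h3, sub_self]
          rw [rf_mulVec, h2, mul_zero, zero_smul, sub_zero, hj'])
      by_cases hu0 : u = 0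
      · rwa [hu0, rfG_zero, mul_one] at h1
      · rcases h1 with h1 | h1
        · right
          have := H.mul_mem h1 (rf_pair_mem H hH hu0 hw)
          rwa [mul_assoc, ← mul_assoc (rfG u), rfG_mul_self, one_mul] at this
        · left
          have := H.mul_mem h1 (rf_pair_mem H hH hw hu0)
          rwa [mul_assoc, mul_assoc, ← mul_assoc (rfG w), rfG_mul_self, one_mul, rfG_mul_self,
            mul_one] at this
  exact key Finset.univ V (by simp)

/-- a subgroup containing the Cayley transforms and an element of determinant `≠ 1` is everything -/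
lemma mem_of_cay (H : Subgroup (OG ι)) (hH : ∀ B hB, cayG B hB ∈ H) {R : OG ι} (hR : R ∈ H)
    (hd : R.1.det ≠ 1) (V : OG ι) : V ∈ H := by
  rcases isEmpty_or_nonempty ι with h | ⟨⟨k⟩⟩
  · exact absurd (det_isEmpty) hd
  have hw : (Pi.single k 1 : ι → ℝ) ≠ 0 := by
    intro h
    simpa using congrFun h k
  let S : Subgroup (OG ι) :=
    { carrier := {V | V.1.det = 1}
      mul_mem' := by
        intro a b ha hb
        show (a.1 * b.1).det = 1
        rw [det_mul, ha, hb, one_mul]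
      one_mem' := det_one
      inv_mem' := by
        intro a ha
        show ((a⁻¹ : OG ι).1).det = 1
        rw [OG.coe_inv, det_transpose]; exact ha }
  have h1 : rfG (Pi.single k 1) ∈ H := by
    rcases mem_or_mem (H ⊓ S) (fun B hB => ⟨hH B hB, det_cay hB⟩) hw R with h | h
    · exact absurd h.2 hd
    · have := H.mul_mem (H.inv_mem hR) h.1
      rwa [inv_mul_cancel_left] at this
  rcases mem_or_mem H hH hw V with h | h
  · exact h
  · have := H.mul_mem h h1
    rwa [mul_assoc, rfG_mul_self, mul_one] at this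

end Vale.Agent.N150.Haar
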