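import Vale.Agent.N150.HaarB

set_option linter.all false

namespace Vale.Agent.N150.Haar

open Matrix MeasureTheory ProbabilityTheory Filter Topology
open Vale.Agent.P150 (gpi)
open Vale.Agent.P150.F (Lip ed)

variable {ι : Type*} [Fintype ι] [DecidableEq ι]

/-- the stabiliser `{V | V (1 - P) = 1 - P}` -/
def St (P : Matrix ι ι ℝ) : Subgroup (OG ι) where
  carrier := {V | V.1 * (1 - P) = 1 - P}
  mul_mem' := by
    intro a b ha hb
    show a.1 * b.1 * (1 - P) = 1 - P
    rw [mul_assoc, hb, ha]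
  one_mem' := one_mul _
  inv_mem' := by
    intro a ha
    show (a⁻¹ : OG ι).1 * (1 - P) = 1 - P
    have ha' : a.1 * (1 - P) = 1 - P := ha
    conv_lhs => rw [← ha']
    rw [← mul_assoc, OG.coe_inv, OG.tr_mul, one_mul]

lemma mem_St {P : Matrix ι ι ℝ} {V : OG ι} : V ∈ St P ↔ V.1 * (1 - P) = 1 - P := Iff.rfl

lemma St_left {P : Matrix ι ι ℝ} (hP : Pᵀ = P) {V : OG ι} (hV : V ∈ St P) :
    (1 - P) * V.1 = 1 - P := by
  have h := congrArg transpose (mem_St.1 ((St P).inv_mem hV))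
  rwa [transpose_mul, OG.coe_inv, transpose_transpose, transpose_sub, transpose_one, hP] at h

lemma St_comm {P : Matrix ι ι ℝ} (hP : Pᵀ = P) {V : OG ι} (hV : V ∈ St P) : V.1 * P = P * V.1 := by
  have h1 := St_left hP hV
  have h2 := mem_St.1 hV
  rw [sub_mul, one_mul] at h1
  rw [mul_sub, mul_one, ← h1] at h2
  exact sub_right_injective h2

lemma cayG_mem_St {P B : Matrix ι ι ℝ} (hB : Bᵀ = -B) (h : B * (1 - P) = 0) :
    cayG B hB ∈ St P := by
  show cay B * (1 - P) = 1 - P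
  have h1 : rs B * (1 - P) = 1 - P := by
    have h2 : (1 - B) * (1 - P) = 1 - P := by rw [sub_mul, one_mul, h, sub_zero]
    conv_lhs => rw [← h2]
    rw [← mul_assoc, rs_mul hB, one_mul]
  unfold cay
  rw [sub_mul, Matrix.smul_mul, h1, one_mul, two_smul]; abel

/-- infinitesimal Lipschitz bound along the fibres `O * St P` -/
def LL (P : Matrix ι ι ℝ) (L : ℝ) (f : OG ι → ℝ) : Prop :=
  ∀ η > 0, ∃ δ > 0, ∀ O V : OG ι, V ∈ St P → fro (V.1 - 1) ≤ δ →
    |f (O * V) - f O| ≤ (L + η) * fro (V.1 - 1)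

lemma LL.two {P : Matrix ι ι ℝ} {L : ℝ} {f : OG ι → ℝ} (hf : LL P L f) (η : ℝ) (hη : 0 < η) :
    ∃ δ > 0, ∀ O U U' : OG ι, U ∈ St P → U' ∈ St P → fro (U'.1 - U.1) ≤ δ →
      |f (O * U') - f (O * U)| ≤ (L + η) * fro (U'.1 - U.1) := by
  obtain ⟨δ, hδ, h⟩ := hf η hη
  refine ⟨δ, hδ, fun O U U' hU hU' hd => ?_⟩
  have h1 : fro ((U⁻¹ * U').1 - 1) = fro (U'.1 - U.1) := by
    have := fro_OG_sub U (U⁻¹ * U') 1
    rw [mul_inv_cancel_left, mul_one] at this
    exact this.symm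
  have h2 := h (O * U) (U⁻¹ * U') ((St P).mul_mem ((St P).inv_mem hU) hU') (by rwa [h1])
  rwa [h1, mul_assoc, mul_inv_cancel_left] at h2

lemma lip_of_local {φ : ℝ → ℝ} {C ρ : ℝ} (hρ : 0 < ρ)
    (h : ∀ s t, |t - s| ≤ ρ → |φ t - φ s| ≤ C * |t - s|) : |φ 1 - φ 0| ≤ C := by
  obtain ⟨N, hN⟩ := exists_nat_one_div_lt hρ
  set d : ℝ := 1 / ((N : ℝ) + 1) with hd
  have hd0 : 0 < d := by positivity
  have key : ∀ k : ℕ, |φ (k * d) - φ 0| ≤ C * (k * d) := by
    intro k
    induction k with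
    | zero => simp
    | succ k ih =>
      have h1 := h (k * d) ((k + 1 : ℕ) * d)
      have h2 : |((k + 1 : ℕ) : ℝ) * d - k * d| = d := by
        push_cast; rw [show ((k : ℝ) + 1) * d - k * d = d by ring, abs_of_pos hd0]
      rw [h2] at h1
      have h3 := abs_sub_le (φ ((k + 1 : ℕ) * d)) (φ (k * d)) (φ 0)
      have h4 := h1 hN.le
      push_cast at *
      linarith
  have h5 := key (N + 1)
  have h6 : ((N + 1 : ℕ) : ℝ) * d = 1 := by rw [hd]; push_cast; field_simp
  rwa [h6, mul_one] at h5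

lemma LL.cay_lip {P : Matrix ι ι ℝ} {L : ℝ} {f : OG ι → ℝ} (hf : LL P L f) (hL : 0 ≤ L) (O : OG ι)
    {A B : Matrix ι ι ℝ} (hA : Aᵀ = -A) (hB : Bᵀ = -B) (hA' : A * (1 - P) = 0)
    (hB' : B * (1 - P) = 0) :
    |f (O * cayG A hA) - f (O * cayG B hB)| ≤ 2 * L * fro (A - B) := by
  have hs : ∀ t : ℝ, (B + t • (A - B))ᵀ = -(B + t • (A - B)) := by
    intro t
    rw [transpose_add, transpose_smul, transpose_sub, hA, hB, neg_add, ← smul_neg]
    congr 2; abel
  have hs' : ∀ t : ℝ, (B + t • (A - B)) * (1 - P) = 0 := by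
    intro t
    rw [add_mul, Matrix.smul_mul, sub_mul, hA', hB']; simp
  have hD := fro_nonneg (A - B)
  refine le_of_forall_pos_le_add fun ε hε => ?_
  obtain ⟨δ, hδ, h⟩ := hf.two (ε / (2 * fro (A - B) + 1)) (by positivity)
  have h1 := lip_of_local (φ := fun t => f (O * cayG _ (hs t)))
    (C := (L + ε / (2 * fro (A - B) + 1)) * (2 * fro (A - B)))
    (ρ := δ / (2 * fro (A - B) + 1)) (by positivity) (by
      intro s t hst
      have h2 : fro (cay (B + t • (A - B)) - cay (B + s • (A - B))) ≤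
          2 * fro (A - B) * |t - s| := by
        refine (fro_cay_sub (hs t) (hs s)).trans (le_of_eq ?_)
        rw [show B + t • (A - B) - (B + s • (A - B)) = (t - s) • (A - B) by
          rw [sub_smul]; abel, fro_smul]
        ring
      have h3 : 2 * fro (A - B) * |t - s| ≤ δ := by
        rw [le_div_iff₀ (by positivity)] at hst
        nlinarith [abs_nonneg (t - s)]
      refine (h O _ _ (cayG_mem_St (hs s) (hs' s)) (cayG_mem_St (hs t) (hs' t))
        (h2.trans h3)).trans ?_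
      rw [mul_assoc]
      exact mul_le_mul_of_nonneg_left h2 (by positivity))
  have e1 : cayG _ (hs 1) = cayG A hA := by congr 1; simp
  have e0 : cayG _ (hs 0) = cayG B hB := by congr 1; simp
  simp only [e1, e0] at h1
  refine h1.trans ?_
  have h4 : ε / (2 * fro (A - B) + 1) * (2 * fro (A - B)) ≤ ε := by
    rw [div_mul_eq_mul_div, div_le_iff₀ (by positivity)]
    nlinarith
  nlinarith

/-- the generator of one step -/
noncomputable def gen (P : Matrix ι ι ℝ) (σ : ℝ) (g : ι × ι → ℝ) : Matrix ι ι ℝ :=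
  σ • (P * sk g * Pᵀ)

lemma gen_skew (P : Matrix ι ι ℝ) (σ : ℝ) (g : ι × ι → ℝ) : (gen P σ g)ᵀ = -gen P σ g := by
  rw [gen, transpose_smul, skew_conj (sk_skew g), smul_neg]

/-- one step of the walk -/
noncomputable def step (P : Matrix ι ι ℝ) (σ : ℝ) (g : ι × ι → ℝ) : OG ι :=
  cayG (gen P σ g) (gen_skew P σ g)

/-- the Markov operator of the walk -/
noncomputable def wk (P : Matrix ι ι ℝ) (σ : ℝ) (f : OG ι → ℝ) (O : OG ι) : ℝ :=
  ∫ g, f (O * step P σ g) ∂gpi (ι × ι)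

section Proj

variable {P : Matrix ι ι ℝ} (hP : Pᵀ = P) (hPP : P * P = P)
include hP hPP

lemma fro_proj_mul (C : Matrix ι ι ℝ) : fro (P * C) ≤ fro C := by
  have h1 : C = P * C + (1 - P) * C := by rw [sub_mul, one_mul]; abel
  have h2 : ip (P * C) ((1 - P) * C) = 0 := by
    rw [ip_eq_trace, transpose_mul, hP, mul_assoc, ← mul_assoc P, mul_sub, mul_one, hPP, sub_self]
    simp
  have h3 := fro_add_sq (P * C) ((1 - P) * C)
  rw [← h1, h2] at h3
  rw [← sq_le_sq₀ (fro_nonneg _) (fro_nonneg _)]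
  nlinarith [sq_nonneg (fro ((1 - P) * C))]

lemma fro_proj_conj (C : Matrix ι ι ℝ) : fro (P * C * Pᵀ) ≤ fro C := by
  rw [← fro_transpose, transpose_mul, transpose_transpose]
  refine (fro_proj_mul hP hPP _).trans ?_
  rw [fro_transpose]
  exact fro_proj_mul hP hPP _

lemma gen_mul (σ : ℝ) (g : ι × ι → ℝ) : gen P σ g * (1 - P) = 0 := by
  rw [gen, Matrix.smul_mul, mul_assoc, hP, mul_sub, mul_one, hPP, sub_self]; simp

lemma step_mem (σ : ℝ) (g : ι × ι → ℝ) : step P σ g ∈ St P :=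
  cayG_mem_St _ (gen_mul hP hPP σ g)

lemma fro_gen_sub (σ : ℝ) (g g' : ι × ι → ℝ) :
    fro (gen P σ g - gen P σ g') ≤ 2 * |σ| * ed g g' := by
  rw [gen, gen, ← smul_sub, ← sub_mul, ← mul_sub, fro_smul]
  have := (fro_proj_conj hP hPP (sk g - sk g')).trans (fro_sk_sub g g')
  nlinarith [abs_nonneg σ]

lemma continuous_step (σ : ℝ) : Continuous (step P σ) := by
  refine Continuous.subtype_mk (continuous_matrix fun i j => ?_) _
  refine Lip.continuous (L := 4 * |σ|) fun g g' => ?_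
  have h1 := abs_entry_le (cay (gen P σ g) - cay (gen P σ g')) i j
  have h2 := fro_cay_sub (gen_skew P σ g) (gen_skew P σ g')
  have h3 := fro_gen_sub hP hPP σ g g'
  rw [Matrix.sub_apply] at h1
  linarith

lemma LL.lip_step {L : ℝ} {f : OG ι → ℝ} (hf : LL P L f) (hL : 0 ≤ L) (σ : ℝ) (O : OG ι) :
    Lip (4 * |σ| * L) (fun g => f (O * step P σ g)) := by
  intro g g'
  refine (hf.cay_lip hL O _ _ (gen_mul hP hPP σ g) (gen_mul hP hPP σ g')).trans ?_
  have := mul_le_mul_of_nonneg_left (fro_gen_sub hP hPP σ g g') hL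
  nlinarith

lemma step_cj (σ : ℝ) {T : OG ι} (hT : T ∈ St P) (g : ι × ι → ℝ) :
    step P σ (cj T g) = T * step P σ g * T⁻¹ := by
  rw [step, step, ← cayG_conj]
  congr 1
  have h1 := St_comm hP hT
  have h2 : (T.1)ᵀ * P = P * (T.1)ᵀ := by rw [← OG.coe_inv]; exact St_comm hP ((St P).inv_mem hT)
  rw [gen, gen, sk_cj, hP, Matrix.mul_smul, Matrix.smul_mul]
  congr 1
  calc P * (T.1 * sk g * (T.1)ᵀ) * P = (P * T.1) * sk g * ((T.1)ᵀ * P) := by simp only [mul_assoc]
    _ = _ := by rw [← h1, h2]; simp only [mul_assoc]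

lemma comm_gen_sq {K : Matrix ι ι ℝ} (hK : Kᵀ = -K) (hK' : K * (1 - P) = 0) (A : Matrix ι ι ℝ)
    (hA : Aᵀ = -A) :
    fro (K * (P * A * Pᵀ) - P * A * Pᵀ * K) ^ 2 =
      -2 * trace (P * A * (Kᵀ * K) * A) - 2 * trace (K * A * K * A) := by
  have h1 : K * P = K := by rw [mul_sub, mul_one, sub_eq_zero] at hK'; exact hK'.symm
  have h2 : P * K = K := by
    have := congrArg transpose h1
    rw [transpose_mul, hP, hK, mul_neg, neg_inj] at this
    exact this
  have h3 : P * Kᵀ = Kᵀ := by rw [hK, mul_neg, h2]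
  rw [comm_sq_eq hK (skew_conj hA P), hP]
  congr 2
  · rw [one_mul, trace_mul_comm]
    calc trace (P * A * P * (P * A * P * (Kᵀ * K)))
        = trace (P * A * (P * P) * A * (P * Kᵀ) * K) := by simp only [mul_assoc]
      _ = trace (P * (A * P * A * Kᵀ * K)) := by rw [hPP, h3]; simp only [mul_assoc]
      _ = trace (A * P * A * Kᵀ * (K * P)) := by rw [trace_mul_comm]; simp only [mul_assoc]
      _ = trace (A * (P * A * (Kᵀ * K))) := by rw [h1]; simp only [mul_assoc]
      _ = _ := trace_mul_comm _ _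
  · calc trace (K * (P * A * P) * K * (P * A * P))
        = trace ((K * P) * A * (P * (K * P)) * A * P) := by simp only [mul_assoc]
      _ = trace (P * (K * A * K * A)) := by rw [h1, h2, trace_mul_comm]
      _ = _ := by rw [← mul_assoc, ← mul_assoc, ← mul_assoc, h2]

lemma integral_comm_gen {K : Matrix ι ι ℝ} (hK : Kᵀ = -K) (hK' : K * (1 - P) = 0) :
    Integrable (fun g => fro (K * (P * sk g * Pᵀ) - P * sk g * Pᵀ * K) ^ 2) (gpi (ι × ι)) ∧
    ∫ g, fro (K * (P * sk g * Pᵀ) - P * sk g * Pᵀ * K) ^ 2 ∂gpi (ι × ι) =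
      4 * (trace P - 2) * fro K ^ 2 := by
  simp only [comm_gen_sq hP hPP hK hK' _ (sk_skew _)]
  refine ⟨((integrable_trace _ _).const_mul _).sub ((integrable_trace _ _).const_mul _), ?_⟩
  rw [integral_sub ((integrable_trace _ _).const_mul _) ((integrable_trace _ _).const_mul _),
    integral_const_mul, integral_const_mul, integral_trace, integral_trace]
  have h1 : trace K = 0 := by
    have := trace_transpose K
    rw [hK, trace_neg] at this
    linarith
  have h2 : trace (Kᵀ * K) = fro K ^ 2 := by rw [fro_sq, ip_eq_trace]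
  have h4 : K * P = K := by rw [mul_sub, mul_one, sub_eq_zero] at hK'; exact hK'.symm
  have h3 : ip P (Kᵀ * K) = fro K ^ 2 := by
    rw [ip_eq_trace, hP, trace_mul_comm, mul_assoc, h4, h2]
  rw [h1, h2, h3, ← fro_sq]
  ring

/-- the mean of the anticommutator -/
lemma integral_anti {σ : ℝ} (hσ : 4 * σ ^ 2 * ∫ g, fro (sk g) ^ 4 ∂gpi (ι × ι) ≤ trace P - 2)
    {K : Matrix ι ι ℝ} (hK : Kᵀ = -K) (hK' : K * (1 - P) = 0) :
    Integrable (fun g => fro (K * (step P σ g).1 + (step P σ g).1 * K) / 2) (gpi (ι × ι)) ∧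
    (∀ g, fro (K * (step P σ g).1 + (step P σ g).1 * K) / 2 ≤ fro K) ∧
    ∫ g, fro (K * (step P σ g).1 + (step P σ g).1 * K) / 2 ∂gpi (ι × ι) ≤
      (1 - σ ^ 2 * (trace P - 2) / 2) * fro K := by
  have hb : ∀ g, fro (K * (step P σ g).1 + (step P σ g).1 * K) / 2 ≤ fro K := by
    intro g
    have := fro_add_le (K * (step P σ g).1) ((step P σ g).1 * K)
    rw [fro_mul_orth, fro_orth_mul] at this
    linarith
  have hc : Continuous fun g => fro (K * (step P σ g).1 + (step P σ g).1 * K) / 2 := by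
    have h1 : Continuous fun g => (step P σ g).1 :=
      continuous_subtype_val.comp (continuous_step hP hPP σ)
    exact (continuous_fro.comp ((continuous_const.mul h1).add (h1.mul continuous_const))).div_const _
  have hi : Integrable (fun g => fro (K * (step P σ g).1 + (step P σ g).1 * K) / 2)
      (gpi (ι × ι)) := by
    refine (integrable_const (fro K)).mono' hc.aestronglyMeasurable (ae_of_all _ fun g => ?_)
    rw [Real.norm_eq_abs, abs_of_nonneg (div_nonneg (fro_nonneg _) (by norm_num))]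
    exact hb g
  refine ⟨hi, hb, ?_⟩
  rcases (fro_nonneg K).eq_or_lt with hk | hk
  · refine (integral_mono hi (integrable_const (fro K)) hb).trans ?_
    rw [← hk]; simp
  obtain ⟨i1, i2⟩ := integral_comm_gen hP hPP hK hK'
  have i3 := integrable_fro_sk_pow (ι := ι) 4
  have hpt : ∀ g, fro K * (fro (K * (step P σ g).1 + (step P σ g).1 * K) / 2) ≤
      fro K ^ 2 - σ ^ 2 / 4 * fro (K * (P * sk g * Pᵀ) - P * sk g * Pᵀ * K) ^ 2 +
        2 * σ ^ 4 * fro K ^ 2 * fro (sk g) ^ 4 := by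
    intro g
    have h1 := fro_anti_sq K (step P σ g)
    have h2 := comm_cay (gen_skew P σ g) K
    have h3 : fro (K * gen P σ g - gen P σ g * K) =
        |σ| * fro (K * (P * sk g * Pᵀ) - P * sk g * Pᵀ * K) := by
      rw [gen, Matrix.mul_smul, Matrix.smul_mul, ← smul_sub, fro_smul]
    have h4 : fro (gen P σ g) ^ 2 ≤ σ ^ 2 * fro (sk g) ^ 2 := by
      rw [gen, fro_smul, mul_pow, sq_abs]
      exact mul_le_mul_of_nonneg_left
        (pow_le_pow_left₀ (fro_nonneg _) (fro_proj_conj hP hPP _) 2) (sq_nonneg _)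
    rw [h3] at h2
    change _ ≤ fro (K * (step P σ g).1 - (step P σ g).1 * K) at h2
    set c := fro (K * (step P σ g).1 - (step P σ g).1 * K) with hc
    set a := fro (K * (P * sk g * Pᵀ) - P * sk g * Pᵀ * K) with ha
    set s := fro (K * (step P σ g).1 + (step P σ g).1 * K) with hs
    have ha0 : 0 ≤ a := fro_nonneg _
    have h5 : 2 * (|σ| * a) ≤ c + 4 * (σ ^ 2 * fro (sk g) ^ 2) * fro K := by nlinarith
    have h6 : (2 * (|σ| * a)) ^ 2 ≤ (c + 4 * (σ ^ 2 * fro (sk g) ^ 2) * fro K) ^ 2 :=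
      pow_le_pow_left₀ (by positivity) h5 2
    rw [mul_pow, mul_pow, sq_abs] at h6
    nlinarith [sq_nonneg (s / 2 - fro K), sq_nonneg (c - 4 * (σ ^ 2 * fro (sk g) ^ 2) * fro K)]
  have i4 : Integrable (fun g => fro K ^ 2 -
      σ ^ 2 / 4 * fro (K * (P * sk g * Pᵀ) - P * sk g * Pᵀ * K) ^ 2) (gpi (ι × ι)) :=
    (integrable_const _).sub (i1.const_mul _)
  have i5 : Integrable (fun g => fro K ^ 2 -
      σ ^ 2 / 4 * fro (K * (P * sk g * Pᵀ) - P * sk g * Pᵀ * K) ^ 2 +
      2 * σ ^ 4 * fro K ^ 2 * fro (sk g) ^ 4) (gpi (ι × ι)) := i4.add (i3.const_mul _)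
  have h7 := integral_mono (hi.const_mul (fro K)) i5 hpt
  rw [integral_const_mul, integral_add i4 (i3.const_mul _),
    integral_sub (integrable_const _) (i1.const_mul _), integral_const_mul, integral_const_mul,
    i2] at h7
  simp only [integral_const, probReal_univ, smul_eq_mul, one_mul] at h7
  refine le_of_mul_le_mul_left (h7.trans ?_) hk
  have h8 := mul_le_mul_of_nonneg_left hσ (show 0 ≤ σ ^ 2 * fro K ^ 2 / 2 by positivity)
  nlinarith

/-- contraction of the infinitesimal Lipschitz constant -/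
lemma LL.wk {L : ℝ} {f : OG ι → ℝ} (hf : LL P L f) (hL : 0 ≤ L) {σ : ℝ}
    (hσ : 4 * σ ^ 2 * ∫ g, fro (sk g) ^ 4 ∂gpi (ι × ι) ≤ trace P - 2)
    (hσ2 : σ ^ 2 * (trace P - 2) ≤ 2) :
    LL P ((1 - σ ^ 2 * (trace P - 2) / 2) * L) (wk P σ f) := by
  intro η hη
  set κ := 1 - σ ^ 2 * (trace P - 2) / 2 with hκ
  have hκ0 : 0 ≤ κ := by linarith
  have hκ1 : κ ≤ 1 := by
    have h0 : 0 ≤ ∫ g, fro (sk g) ^ 4 ∂gpi (ι × ι) :=
      integral_nonneg fun g => pow_nonneg (fro_nonneg _) _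
    have h1 : 0 ≤ trace P - 2 := le_trans (by positivity) hσ
    have := mul_nonneg (sq_nonneg σ) h1
    linarith
  set η1 := min 1 (η / (2 * L + 3)) with hη1
  have hη10 : 0 < η1 := lt_min one_pos (by positivity)
  have hη11 : η1 ≤ 1 := min_le_left _ _
  have hη12 : η1 * (2 * L + 3) ≤ η := by
    rw [← le_div_iff₀ (by positivity)]; exact min_le_right _ _
  obtain ⟨δ, hδ, h⟩ := hf.two η1 hη10
  refine ⟨min (δ / 3) η1, lt_min (by positivity) hη10, fun O V hV hd => ?_⟩
  obtain ⟨K, T, hKd, hTd, hK, hKV, hc⟩ := coupling V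
  have hK' : K * (1 - P) = 0 := by
    have h1 : (V.1)ᵀ * (1 - P) = 1 - P := by
      rw [← OG.coe_inv]; exact mem_St.1 ((St P).inv_mem hV)
    rw [hKd, Matrix.smul_mul, sub_mul, mem_St.1 hV, h1, sub_self, smul_zero]
  have hT : T ∈ St P := by
    have h1 : ((1 / 4 : ℝ) • K)ᵀ = -((1 / 4 : ℝ) • K) := by rw [transpose_smul, hK, smul_neg]
    have h2 : T = cayG _ h1 := Subtype.ext hTd
    rw [h2]
    exact cayG_mem_St _ (by rw [Matrix.smul_mul, hK', smul_zero])
  obtain ⟨j1, j2, j3⟩ := integral_anti hP hPP hσ hK hK'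
  rw [← hκ] at j3
  set d := fro (V.1 - 1) with hdd
  have hd0 : 0 ≤ d := fro_nonneg _
  have hd1 : d ≤ δ / 3 := hd.trans (min_le_left _ _)
  have hd2 : d ≤ η1 := hd.trans (min_le_right _ _)
  have e1 : Haar.wk P σ f (O * V) =
      ∫ g, f (O * V * step P σ (cj T⁻¹ g)) ∂gpi (ι × ι) := by
    unfold Haar.wk
    conv_lhs => rw [← (cj_mp T⁻¹).map_eq]
    rw [integral_map (cj_mp T⁻¹).measurable.aemeasurable
      (hf.lip_step hP hPP hL σ (O * V)).continuous.aestronglyMeasurable]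
  have i1 : Integrable (fun g => f (O * V * step P σ (cj T⁻¹ g))) (gpi (ι × ι)) :=
    (cj_mp T⁻¹).integrable_comp_of_integrable (hf.lip_step hP hPP hL σ (O * V)).integrable
  have i2 := (hf.lip_step hP hPP hL σ O).integrable
  have hpt : ∀ g, |f (O * V * step P σ (cj T⁻¹ g)) - f (O * step P σ g)| ≤
      (L + η1) * (fro (K * (step P σ g).1 + (step P σ g).1 * K) / 2 + 2 * d ^ 2) := by
    intro g
    rw [step_cj hP hPP σ ((St P).inv_mem hT), inv_inv, mul_assoc O V]
    have h1 := hc (step P σ g)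
    have h2 := j2 g
    refine (h O _ _ (step_mem hP hPP σ g) ((St P).mul_mem hV ((St P).mul_mem
      ((St P).mul_mem ((St P).inv_mem hT) (step_mem hP hPP σ g)) hT)) (h1.trans ?_)).trans
      (mul_le_mul_of_nonneg_left h1 (by positivity))
    nlinarith
  rw [e1, Haar.wk, ← integral_sub i1 i2]
  refine (abs_integral_le_integral_abs).trans ?_
  have j4 : Integrable (fun g => (L + η1) *
      (fro (K * (step P σ g).1 + (step P σ g).1 * K) / 2 + 2 * d ^ 2)) (gpi (ι × ι)) :=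
    (j1.add (integrable_const _)).const_mul _
  refine (integral_mono (i1.sub i2).abs j4 hpt).trans ?_
  rw [integral_const_mul, integral_add j1 (integrable_const _)]
  simp only [integral_const, probReal_univ, smul_eq_mul, one_mul]
  have h3 : κ * fro K ≤ κ * d := mul_le_mul_of_nonneg_left hKV hκ0
  have h4 : 2 * d ^ 2 ≤ 2 * η1 * d := by nlinarith
  calc _ ≤ (L + η1) * ((κ + 2 * η1) * d) :=
        mul_le_mul_of_nonneg_left (by linarith) (by positivity)
    _ = ((L + η1) * (κ + 2 * η1)) * d := by ring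
    _ ≤ _ := mul_le_mul_of_nonneg_right (by nlinarith) hd0

lemma wk_inv {L : ℝ} {f : OG ι → ℝ} (hf : LL P L f) (hL : 0 ≤ L) (σ : ℝ) {R : OG ι} (hR : R ∈ St P)
    (hfR : ∀ O, f (O * R) = f O) (O : OG ι) : wk P σ f (O * R) = wk P σ f O := by
  unfold wk
  conv_rhs => rw [← (cj_mp R).map_eq]
  rw [integral_map (cj_mp R).measurable.aemeasurable
    (hf.lip_step hP hPP hL σ O).continuous.aestronglyMeasurable]
  refine integral_congr_ae (ae_of_all _ fun g => ?_)
  simp only
  rw [step_cj hP hPP σ hR, ← hfR (O * (R * step P σ g * R⁻¹))]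
  simp only [mul_assoc, inv_mul_cancel, mul_one]

end Proj

lemma wk_bound (P : Matrix ι ι ℝ) (σ : ℝ) {f : OG ι → ℝ} {M : ℝ} (hM : ∀ O, |f O| ≤ M) (O : OG ι) :
    |wk P σ f O| ≤ M := by
  have := norm_integral_le_of_norm_le_const (μ := gpi (ι × ι))
    (f := fun g => f (O * step P σ g)) (C := M) (ae_of_all _ fun g => hM _)
  simpa [wk] using this

end Vale.Agent.N150.Haar
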