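import Vale.Agent.N150.HaarC

set_option linter.all false

namespace Vale.Agent.N150.Haar

open Matrix MeasureTheory ProbabilityTheory Filter Topology
open Vale.Agent.P150 (gpi)
open Vale.Agent.P150.F (Lip ed)

variable {ι : Type*} [Fintype ι] [DecidableEq ι]

lemma secondCountable : SecondCountableTopology (OG ι) := by
  have : SecondCountableTopology (Matrix ι ι ℝ) :=
    inferInstanceAs (SecondCountableTopology (ι → ι → ℝ))
  exact TopologicalSpace.Subtype.secondCountableTopology _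

/-! ### Connectivity of the stabiliser -/

lemma rfG_mem_St {P : Matrix ι ι ℝ} (hP : Pᵀ = P) {u : ι → ℝ} (hu : P *ᵥ u = u) :
    rfG u ∈ St P := by
  show rf u * (1 - P) = 1 - P
  have h : u ᵥ* (1 - P) = 0 := by
    rw [vecMul_sub, vecMul_one, ← hP, vecMul_transpose, hu, sub_self]
  unfold rf
  rw [sub_mul, one_mul, Matrix.smul_mul, Matrix.vecMulVec_mul, h]
  simp

lemma exists_cay_mulVec' {P : Matrix ι ι ℝ} (hP : Pᵀ = P) {a b : ι → ℝ} (ha : P *ᵥ a = a)
    (hb : P *ᵥ b = b) (h : a ⬝ᵥ a = b ⬝ᵥ b) (h0 : a ⬝ᵥ a + a ⬝ᵥ b ≠ 0) :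
    ∃ (B : Matrix ι ι ℝ) (hB : Bᵀ = -B), B * (1 - P) = 0 ∧ cay B *ᵥ a = b := by
  set B : Matrix ι ι ℝ := (a ⬝ᵥ a + a ⬝ᵥ b)⁻¹ • (vecMulVec b a - vecMulVec a b) with hBd
  have hB : Bᵀ = -B := by
    rw [hBd, transpose_smul, transpose_sub, transpose_vecMulVec, transpose_vecMulVec, ← smul_neg,
      neg_sub]
  refine ⟨B, hB, ?_, ?_⟩
  · have h1 : ∀ u : ι → ℝ, P *ᵥ u = u → u ᵥ* (1 - P) = 0 := fun u hu => by
      rw [vecMul_sub, vecMul_one, ← hP, vecMul_transpose, hu, sub_self]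
    rw [hBd, Matrix.smul_mul, sub_mul, Matrix.vecMulVec_mul, Matrix.vecMulVec_mul, h1 a ha, h1 b hb]
    simp
  have h1 : B *ᵥ (a + b) = b - a := by
    rw [hBd, Matrix.smul_mulVec, Matrix.sub_mulVec, Matrix.vecMulVec_mulVec,
      Matrix.vecMulVec_mulVec, dotProduct_add, dotProduct_add, dotProduct_comm b a, ← h]
    ext i
    simp only [Pi.smul_apply, Pi.sub_apply, smul_eq_mul, MulOpposite.smul_eq_mul_unop,
      MulOpposite.unop_op]
    field_simp
    ring
  have h2 : (1 + B) *ᵥ a = (1 - B) *ᵥ b := by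
    rw [mulVec_add] at h1
    rw [add_mulVec, sub_mulVec, one_mulVec, one_mulVec]
    have : B *ᵥ a = b - a - B *ᵥ b := by rw [← h1]; abel
    rw [this]; abel
  have h3 : cay B = rs B * (1 + B) := by
    rw [← one_sub_mul_cay hB, ← mul_assoc, rs_mul hB, one_mul]
  rw [h3, ← mulVec_mulVec, h2, mulVec_mulVec, rs_mul hB, one_mulVec]

lemma rf_pair_mem' {P : Matrix ι ι ℝ} (hP : Pᵀ = P) (H : Subgroup (OG ι))
    (hH : ∀ B hB, B * (1 - P) = 0 → cayG B hB ∈ H) {v w : ι → ℝ} (hv : v ≠ 0)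
    (hw : w ≠ 0) (hPv : P *ᵥ v = v) (hPw : P *ᵥ w = w) : rfG v * rfG w ∈ H := by
  have hv' : 0 < v ⬝ᵥ v :=
    lt_of_le_of_ne (Finset.sum_nonneg fun i _ => mul_self_nonneg (v i)) fun h =>
      hv (dotProduct_self_eq_zero.1 h.symm)
  have hw' : 0 < w ⬝ᵥ w :=
    lt_of_le_of_ne (Finset.sum_nonneg fun i _ => mul_self_nonneg (w i)) fun h =>
      hw (dotProduct_self_eq_zero.1 h.symm)
  obtain ⟨c, hc0, hc, hc1⟩ : ∃ c : ℝ, c ≠ 0 ∧ c ^ 2 * (w ⬝ᵥ w) = v ⬝ᵥ v ∧ 0 ≤ c * (w ⬝ᵥ v) := by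
    have h1 : √(v ⬝ᵥ v / (w ⬝ᵥ w)) ^ 2 * (w ⬝ᵥ w) = v ⬝ᵥ v := by
      rw [Real.sq_sqrt (by positivity)]; field_simp
    have h2 : 0 < √(v ⬝ᵥ v / (w ⬝ᵥ w)) := Real.sqrt_pos.2 (by positivity)
    rcases le_total 0 (w ⬝ᵥ v) with h | h
    · exact ⟨_, h2.ne', h1, mul_nonneg h2.le h⟩
    · exact ⟨-√(v ⬝ᵥ v / (w ⬝ᵥ w)), neg_ne_zero.2 h2.ne', by rw [neg_sq, h1], by nlinarith⟩
  have h1 : (c • w) ⬝ᵥ (c • w) = v ⬝ᵥ v := by
    rw [smul_dotProduct, dotProduct_smul, ← hc]; simp only [smul_eq_mul]; ring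
  obtain ⟨B, hB, hB0, hBa⟩ := exists_cay_mulVec' hP (by rw [mulVec_smul, hPw]) hPv h1 (by
    rw [h1, smul_dotProduct, smul_eq_mul]; linarith)
  have h2 : rfG v = cayG B hB * rfG w * (cayG B hB)⁻¹ := by
    rw [← rfG_smul hc0 w, conj_rfG]
    show _ = rfG (cay B *ᵥ _)
    rw [hBa]
  have h3 : rfG v * rfG w = cayG B hB * (rfG w * cayG B hB * (rfG w)⁻¹)⁻¹ := by
    rw [h2, rfG_inv]
    simp only [_root_.mul_inv_rev, rfG_inv, mul_assoc]
  rw [h3, ← cayG_conj]
  refine H.mul_mem (hH _ _ hB0) (H.inv_mem (hH _ _ ?_))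
  have h4 : ((rfG w).1)ᵀ * (1 - P) = 1 - P := by
    rw [← OG.coe_inv]; exact mem_St.1 ((St P).inv_mem (rfG_mem_St hP hPw))
  rw [mul_assoc, h4, mul_assoc, hB0, mul_zero]

lemma mem_or_mem' {P : Matrix ι ι ℝ} (hP : Pᵀ = P) (hPP : P * P = P) (H : Subgroup (OG ι))
    (hH : ∀ B hB, B * (1 - P) = 0 → cayG B hB ∈ H) {w : ι → ℝ} (hw : w ≠ 0) (hPw : P *ᵥ w = w)
    {V : OG ι} (hV : V ∈ St P) : V ∈ H ∨ V * rfG w ∈ H := by
  have key : ∀ S : Finset ι, ∀ V : OG ι, V ∈ St P →
      (∀ k, k ∉ S → V.1 *ᵥ (P *ᵥ Pi.single k 1) = P *ᵥ Pi.single k 1) →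
      V ∈ H ∨ V * rfG w ∈ H := by
    intro S
    induction S using Finset.induction_on with
    | empty =>
      intro V hVs hV
      left
      have h1 : V.1 * P = P := by
        ext i j
        have := congrFun (hV j (by simp)) i
        rw [mulVec_mulVec] at this
        simpa using this
      have : V = 1 := by
        apply Subtype.ext
        have h2 := mem_St.1 hVs
        rw [mul_sub, mul_one, h1, sub_left_inj] at h2
        exact h2
      rw [this]; exact H.one_mem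
    | insert k S hk ih =>
      intro V hVs hV
      set c : ι → ℝ := P *ᵥ Pi.single k 1 with hc
      have hPc : P *ᵥ c = c := by rw [hc, mulVec_mulVec, hPP]
      set a : ι → ℝ := (V⁻¹).1 *ᵥ c with ha
      have hVa : V.1 *ᵥ a = c := by
        rw [ha, mulVec_mulVec, ← OG.coe_mul, mul_inv_cancel, OG.coe_one, one_mulVec]
      have haa : a ⬝ᵥ a = c ⬝ᵥ c := OG.dot _ _ _
      set u : ι → ℝ := a - c with hu
      have hPu : P *ᵥ u = u := by
        rw [hu, mulVec_sub, hPc, ha, mulVec_mulVec, ← St_comm hP ((St P).inv_mem hVs),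
          ← mulVec_mulVec, hPc]
      have h1 := ih (V * rfG u) ((St P).mul_mem hVs (rfG_mem_St hP hPu)) (by
        intro j hj
        rw [OG.coe_mul, ← mulVec_mulVec]
        show V.1 *ᵥ (rf u *ᵥ _) = _
        by_cases hjk : j = k
        · rw [hjk, ← hc, hu, rf_sub_mulVec haa, hVa]
        · have hj' := hV j (by simp [hjk, hj])
          have h2 : u ⬝ᵥ (P *ᵥ Pi.single j 1) = 0 := by
            have h3 := OG.dot V a (P *ᵥ Pi.single j 1)
            rw [hVa, hj'] at h3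
            rw [hu, sub_dotProduct, ← h3, sub_self]
          rw [rf_mulVec, h2, mul_zero, zero_smul, sub_zero, hj'])
      by_cases hu0 : u = 0
      · rwa [hu0, rfG_zero, mul_one] at h1
      · rcases h1 with h1 | h1
        · right
          have := H.mul_mem h1 (rf_pair_mem' hP H hH hu0 hw hPu hPw)
          rwa [mul_assoc, ← mul_assoc (rfG u), rfG_mul_self, one_mul] at this
        · left
          have := H.mul_mem h1 (rf_pair_mem' hP H hH hw hu0 hPw hPu)
          rwa [mul_assoc, mul_assoc, ← mul_assoc (rfG w), rfG_mul_self, one_mul, rfG_mul_self,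
            mul_one] at this
  exact key Finset.univ V hV (by simp)

/-- determinant one -/
def SOG (ι : Type*) [Fintype ι] [DecidableEq ι] : Subgroup (OG ι) where
  carrier := {V | V.1.det = 1}
  mul_mem' := by
    intro a b ha hb
    show (a.1 * b.1).det = 1
    rw [det_mul, ha, hb, one_mul]
  one_mem' := det_one
  inv_mem' := by
    intro a ha
    show ((a⁻¹ : OG ι).1).det = 1
    rw [OG.coe_inv, det_transpose]; exact ha

lemma det_rf {w : ι → ℝ} (hw : w ≠ 0) : (rf w).det = -1 := by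
  have hw' : w ⬝ᵥ w ≠ 0 := fun h => hw (dotProduct_self_eq_zero.1 h)
  have h : rf w = 1 + replicateCol Unit ((-(2 / (w ⬝ᵥ w))) • w) * replicateRow Unit w := by
    rw [← vecMulVec_eq, smul_vecMulVec, neg_smul, rf, sub_eq_add_neg]
  rw [h, det_one_add_replicateCol_mul_replicateRow, dotProduct_smul, smul_eq_mul]
  field_simp
  ring

lemma exists_range {P : Matrix ι ι ℝ} (hPP : P * P = P) (h : trace P ≠ 0) :
    ∃ w : ι → ℝ, w ≠ 0 ∧ P *ᵥ w = w := by
  by_contra hc
  push Not at hc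
  apply h
  have : P = 0 := by
    ext i j
    by_contra h1
    refine hc (P *ᵥ Pi.single j 1) (fun h2 => h1 ?_) (by rw [mulVec_mulVec, hPP])
    simpa using congrFun h2 i
  rw [this, trace_zero]

/-- the elements of determinant one of the stabiliser are products of Cayley transforms -/
lemma mem_of_det {P : Matrix ι ι ℝ} (hP : Pᵀ = P) (hPP : P * P = P) (h : trace P ≠ 0)
    (H : Subgroup (OG ι)) (hH : ∀ B hB, B * (1 - P) = 0 → cayG B hB ∈ H)
    {V : OG ι} (hV : V ∈ St P) (hd : V.1.det = 1) : V ∈ H := by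
  obtain ⟨w, hw, hPw⟩ := exists_range hPP h
  rcases mem_or_mem' hP hPP (H ⊓ SOG ι) (fun B hB h0 => ⟨hH B hB h0, det_cay hB⟩) hw hPw hV with
    h1 | h1
  · exact h1.1
  · have h2 : (V.1 * rf w).det = 1 := h1.2
    rw [det_mul, hd, det_rf hw] at h2
    norm_num at h2

lemma det_cases (V : OG ι) : V.1.det = 1 ∨ V.1.det = -1 := by
  have h := congrArg det (OG.mul_tr V)
  rw [det_mul, det_transpose, det_one] at h
  exact mul_self_eq_one_iff.1 h

lemma mem_of_refl {P : Matrix ι ι ℝ} (hP : Pᵀ = P) (hPP : P * P = P) (h : trace P ≠ 0)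
    (H : Subgroup (OG ι)) (hH : ∀ B hB, B * (1 - P) = 0 → cayG B hB ∈ H)
    {R : OG ι} (hR : R ∈ St P) (hRH : R ∈ H) (hd : R.1.det ≠ 1) {V : OG ι} (hV : V ∈ St P) :
    V ∈ H := by
  rcases det_cases V with h1 | h1
  · exact mem_of_det hP hPP h H hH hV h1
  · have h2 := (det_cases R).resolve_left hd
    have h3 := mem_of_det hP hPP h H hH ((St P).mul_mem hV hR) (by
      rw [OG.coe_mul, det_mul, h1, h2]; norm_num)
    have := H.mul_mem h3 (H.inv_mem hRH)
    rwa [mul_inv_cancel_right] at this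

/-! ### The exponential moment -/

variable [MeasurableSpace (OG ι)] [BorelSpace (OG ι)]

section Proj

variable {P : Matrix ι ι ℝ} (hP : Pᵀ = P) (hPP : P * P = P)
include hP hPP

lemma measurable_mul_step (σ : ℝ) :
    Measurable fun p : OG ι × (ι × ι → ℝ) => p.1 * step P σ p.2 := by
  haveI := secondCountable (ι := ι)
  exact (continuous_fst.mul ((continuous_step hP hPP σ).comp continuous_snd)).measurable

lemma measurable_wk (σ : ℝ) {f : OG ι → ℝ} (hf : Measurable f) : Measurable (wk P σ f) :=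
  (StronglyMeasurable.integral_prod_right' (ν := gpi (ι × ι))
    (hf.comp (measurable_mul_step hP hPP σ)).stronglyMeasurable).measurable

lemma integral_wk (μ : Measure (OG ι)) [IsProbabilityMeasure μ]
    (hμ : ∀ B hB, B * (1 - P) = 0 → μ.map (fun O => O * cayG B hB) = μ) (σ : ℝ)
    {f : OG ι → ℝ} (hf : Measurable f) {M : ℝ} (hM : ∀ O, |f O| ≤ M) :
    ∫ O, wk P σ f O ∂μ = ∫ O, f O ∂μ := by
  haveI := secondCountable (ι := ι)
  unfold wk
  rw [integral_integral_swap]
  · have h : ∀ g, ∫ O, f (O * step P σ g) ∂μ = ∫ O, f O ∂μ := by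
      intro g
      conv_rhs => rw [← hμ _ (gen_skew P σ g) (gen_mul hP hPP σ g)]
      rw [integral_map (measurable_mul_const _).aemeasurable hf.aestronglyMeasurable]
      rfl
    simp only [h, integral_const, probReal_univ, smul_eq_mul, one_mul]
  · exact (integrable_const M).mono'
      (hf.comp (measurable_mul_step hP hPP σ)).aestronglyMeasurable (ae_of_all _ fun p => hM _)

end Proj

lemma integrable_of_bound {α : Type*} [MeasurableSpace α] (μ : Measure α) [IsFiniteMeasure μ]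
    {f : α → ℝ} (hf : Measurable f) {M : ℝ} (hM : ∀ O, |f O| ≤ M) : Integrable f μ :=
  (integrable_const M).mono' hf.aestronglyMeasurable (ae_of_all _ fun p => hM _)

lemma exp_bound {α : Type*} {f : α → ℝ} {M : ℝ} (hM : ∀ O, |f O| ≤ M) (c : ℝ) (O : α) :
    |Real.exp (c * f O)| ≤ Real.exp (|c| * M) := by
  rw [abs_of_pos (Real.exp_pos _)]
  refine Real.exp_le_exp.2 ((le_abs_self _).trans ?_)
  rw [abs_mul]
  exact mul_le_mul_of_nonneg_left (hM O) (abs_nonneg _)

section Proj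

variable {P : Matrix ι ι ℝ} (hP : Pᵀ = P) (hPP : P * P = P)
include hP hPP

lemma mgf_step (μ : Measure (OG ι)) [IsProbabilityMeasure μ]
    (hμ : ∀ B hB, B * (1 - P) = 0 → μ.map (fun O => O * cayG B hB) = μ) (σ : ℝ)
    {f : OG ι → ℝ} (hf : Measurable f) {M : ℝ} (hM : ∀ O, |f O| ≤ M) {L : ℝ} (hL : 0 ≤ L)
    (hl : LL P L f) (c : ℝ) :
    ∫ O, Real.exp (c * f O) ∂μ ≤
      Real.exp (c ^ 2 * (16 * σ ^ 2 * L ^ 2)) * ∫ O, Real.exp (c * wk P σ f O) ∂μ := by
  have m1 : Measurable fun O => Real.exp (c * f O) := (hf.const_mul c).exp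
  rw [← integral_wk hP hPP μ hμ σ m1 (exp_bound hM c), ← integral_const_mul]
  refine integral_mono
    (integrable_of_bound μ (measurable_wk hP hPP σ m1) (wk_bound P σ (exp_bound hM c)))
    ((integrable_of_bound μ ((measurable_wk hP hPP σ hf).const_mul c).exp
      (exp_bound (wk_bound P σ hM) c)).const_mul _) fun O => ?_
  have h1 := (hl.lip_step hP hPP hL σ O).mgf_le c
  have h2 : (4 * |σ| * L) ^ 2 = 16 * σ ^ 2 * L ^ 2 := by rw [mul_pow, mul_pow, sq_abs]; ring
  rw [h2] at h1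
  have h3 : wk P σ (fun O => Real.exp (c * f O)) O =
      (∫ g, Real.exp (c * (f (O * step P σ g) - wk P σ f O)) ∂gpi (ι × ι)) *
        Real.exp (c * wk P σ f O) := by
    rw [← integral_mul_const]
    refine integral_congr_ae (ae_of_all _ fun g => ?_)
    simp only
    rw [← Real.exp_add]; congr 1; ring
  simp only
  rw [h3]
  exact mul_le_mul_of_nonneg_right h1 (Real.exp_pos _).le

/-- Exponential moment bound along the fibres (general form). -/
theorem mgf_core (hm : 2 < trace P) (μ : Measure (OG ι)) [IsProbabilityMeasure μ]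
    (hμ : ∀ B hB, B * (1 - P) = 0 → μ.map (fun O => O * cayG B hB) = μ)
    {f : OG ι → ℝ} (hf : Measurable f) {M : ℝ} (hM : ∀ O, |f O| ≤ M) {L : ℝ} (hL : 0 ≤ L)
    (hl : LL P L f) (O₀ : OG ι)
    (hconn : ∀ H : Subgroup (OG ι), (∀ B hB, B * (1 - P) = 0 → cayG B hB ∈ H) →
      (∀ R ∈ St P, (∀ O, f (O * R) = f O) → R ∈ H) → ∀ᵐ O ∂μ, O₀⁻¹ * O ∈ H) (c : ℝ) :
    ∫ O, Real.exp (c * (f O - ∫ O', f O' ∂μ)) ∂μ ≤
      Real.exp (32 * c ^ 2 * L ^ 2 / (trace P - 2)) := by
  set m2 := trace P - 2 with hm2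
  have hm0 : 0 < m2 := by linarith
  set M4 := ∫ g, fro (sk g) ^ 4 ∂gpi (ι × ι) with hM4
  have hM40 : 0 ≤ M4 := integral_nonneg fun g => pow_nonneg (fro_nonneg _) _
  obtain ⟨σ, hs0, hs1, hs2⟩ : ∃ σ : ℝ, 0 < σ ^ 2 ∧ 4 * σ ^ 2 * M4 ≤ m2 ∧ σ ^ 2 * m2 ≤ 2 := by
    have h0 : 0 < min (m2 / (4 * M4 + 1)) (2 / m2) := lt_min (by positivity) (by positivity)
    refine ⟨√(min (m2 / (4 * M4 + 1)) (2 / m2)), ?_, ?_, ?_⟩ <;> rw [Real.sq_sqrt h0.le]
    · exact h0
    · have h1 := min_le_left (m2 / (4 * M4 + 1)) (2 / m2)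
      rw [le_div_iff₀ (by positivity)] at h1
      nlinarith
    · have h1 := min_le_right (m2 / (4 * M4 + 1)) (2 / m2)
      rwa [le_div_iff₀ hm0] at h1
  set κ := 1 - σ ^ 2 * m2 / 2 with hκ
  have hκ0 : 0 ≤ κ := by linarith
  have hκ1 : κ < 1 := by have := mul_pos hs0 hm0; linarith
  have it : ∀ N : ℕ, Measurable ((wk P σ)^[N] f) ∧ (∀ O, |(wk P σ)^[N] f O| ≤ M) ∧
      LL P (κ ^ N * L) ((wk P σ)^[N] f) ∧ ∫ O, (wk P σ)^[N] f O ∂μ = ∫ O, f O ∂μ ∧
      (∀ R ∈ St P, (∀ O, f (O * R) = f O) → ∀ O, (wk P σ)^[N] f (O * R) = (wk P σ)^[N] f O) ∧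
      ∫ O, Real.exp (c * f O) ∂μ ≤
        Real.exp (c ^ 2 * (32 / m2) * (L ^ 2 - (κ ^ N * L) ^ 2)) *
          ∫ O, Real.exp (c * (wk P σ)^[N] f O) ∂μ := by
    intro N
    induction N with
    | zero => exact ⟨hf, hM, by simpa using hl, rfl, fun R _ h => h, by simp⟩
    | succ N ih =>
      obtain ⟨a1, a2, a3, a4, a5, a6⟩ := ih
      have hL' : 0 ≤ κ ^ N * L := by positivity
      rw [Function.iterate_succ_apply']
      refine ⟨measurable_wk hP hPP σ a1, wk_bound P σ a2, ?_, ?_, ?_, ?_⟩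
      · have := a3.wk hP hPP hL' hs1 hs2
        rwa [← hm2, ← hκ, ← mul_assoc, ← pow_succ'] at this
      · rw [integral_wk hP hPP μ hμ σ a1 a2, a4]
      · exact fun R hR h => wk_inv hP hPP a3 hL' σ hR (a5 R hR h)
      · refine a6.trans ((mul_le_mul_of_nonneg_left (mgf_step hP hPP μ hμ σ a1 a2 hL' a3 c)
          (Real.exp_pos _).le).trans ?_)
        rw [← mul_assoc, ← Real.exp_add]
        refine mul_le_mul_of_nonneg_right (Real.exp_le_exp.2 ?_)
          (integral_nonneg fun O => (Real.exp_pos _).le)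
        have h1 : 16 * σ ^ 2 ≤ 32 / m2 * (1 - κ ^ 2) := by
          have h2 : 32 / m2 * (1 - κ) = 16 * σ ^ 2 := by rw [hκ]; field_simp; ring
          have h3 : 1 - κ ≤ 1 - κ ^ 2 := by nlinarith
          rw [← h2]
          exact mul_le_mul_of_nonneg_left h3 (by positivity)
        have h4 := mul_le_mul_of_nonneg_left h1 (show 0 ≤ c ^ 2 * (κ ^ N * L) ^ 2 by positivity)
        rw [pow_succ κ N]
        nlinarith
  set E := ∫ O, f O ∂μ with hE
  let H : Subgroup (OG ι) :=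
    { carrier := {V | ∀ O, Tendsto (fun N => (wk P σ)^[N] f (O * V) - (wk P σ)^[N] f O) atTop (𝓝 0)}
      mul_mem' := by
        intro a b ha hb O
        have := (hb (O * a)).add (ha O)
        simpa [mul_assoc] using this
      one_mem' := by intro O; simp
      inv_mem' := by
        intro a ha O
        have := (ha (O * a⁻¹)).neg
        simpa using this }
  have hH := hconn H (by
    intro B hB h0 O
    have hz : cayG (0 : Matrix ι ι ℝ) skew_zero = 1 := Subtype.ext cay_zero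
    refine squeeze_zero_norm (a := fun N => 2 * (κ ^ N * L) * fro (B - 0)) (fun N => ?_) ?_
    · have := (it N).2.2.1.cay_lip (by positivity) O hB skew_zero h0 (zero_mul _)
      rwa [hz, mul_one] at this
    · have := (((tendsto_pow_atTop_nhds_zero_of_lt_one hκ0 hκ1).mul_const L).const_mul 2).mul_const
        (fro (B - 0))
      simpa using this) (by
    intro R hR h O
    simp only [(it _).2.2.2.2.1 R hR h O, sub_self]
    exact tendsto_const_nhds)
  have t1 : ∀ᵐ O ∂μ, Tendsto (fun N => (wk P σ)^[N] f O - (wk P σ)^[N] f O₀) atTop (𝓝 0) := by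
    filter_upwards [hH] with O hO
    simpa using hO O₀
  have t2 : Tendsto (fun N => E - (wk P σ)^[N] f O₀) atTop (𝓝 0) := by
    have h1 := tendsto_integral_of_dominated_convergence (μ := μ)
      (F := fun N O => (wk P σ)^[N] f O - (wk P σ)^[N] f O₀) (f := fun _ => 0) (fun _ => M + M)
      (fun N => ((it N).1.sub_const _).aestronglyMeasurable) (integrable_const _)
      (fun N => ae_of_all _ fun O => (abs_sub _ _).trans
        (add_le_add ((it N).2.1 O) ((it N).2.1 O₀))) t1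
    simp only [integral_zero] at h1
    refine h1.congr fun N => ?_
    rw [integral_sub (integrable_of_bound μ (it N).1 (it N).2.1) (integrable_const _),
      (it N).2.2.2.1]
    simp
  have t3 : Tendsto (fun N => ∫ O, Real.exp (c * (wk P σ)^[N] f O) ∂μ) atTop
      (𝓝 (Real.exp (c * E))) := by
    have h1 := tendsto_integral_of_dominated_convergence (μ := μ)
      (F := fun N O => Real.exp (c * (wk P σ)^[N] f O)) (f := fun _ => Real.exp (c * E))
      (fun _ => Real.exp (|c| * M))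
      (fun N => ((it N).1.const_mul c).exp.aestronglyMeasurable) (integrable_const _)
      (fun N => ae_of_all _ fun O => exp_bound (it N).2.1 c O) (by
        filter_upwards [t1] with O hO
        have h2 : Tendsto (fun N => (wk P σ)^[N] f O) atTop (𝓝 E) := by
          have := (hO.sub t2).add_const E
          simpa using this
        exact (Real.continuous_exp.tendsto _).comp (h2.const_mul c))
    simpa using h1
  have t4 : ∫ O, Real.exp (c * f O) ∂μ ≤ Real.exp (32 * c ^ 2 * L ^ 2 / m2) * Real.exp (c * E) := by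
    refine ge_of_tendsto' (t3.const_mul _) fun N => (it N).2.2.2.2.2.trans ?_
    refine mul_le_mul_of_nonneg_right (Real.exp_le_exp.2 ?_)
      (integral_nonneg fun O => (Real.exp_pos _).le)
    have h1 : 0 ≤ c ^ 2 * (32 / m2) * (κ ^ N * L) ^ 2 := by positivity
    have h2 : 32 * c ^ 2 * L ^ 2 / m2 = c ^ 2 * (32 / m2) * L ^ 2 := by ring
    nlinarith
  have h5 : ∫ O, Real.exp (c * (f O - E)) ∂μ =
      (∫ O, Real.exp (c * f O) ∂μ) * Real.exp (-(c * E)) := by
    rw [← integral_mul_const]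
    refine integral_congr_ae (ae_of_all _ fun O => ?_)
    simp only
    rw [← Real.exp_add]; congr 1; ring
  rw [h5]
  refine (mul_le_mul_of_nonneg_right t4 (Real.exp_pos _).le).trans (le_of_eq ?_)
  rw [mul_assoc, ← Real.exp_add, add_neg_cancel, Real.exp_zero, mul_one]

end Proj

end Vale.Agent.N150.Haar
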