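import Vale.Agent.N150.HaarD
import Vale.Agent.N150.Haar0

set_option linter.all false

namespace Vale.Agent.N150.Haar

open Matrix MeasureTheory ProbabilityTheory Filter Topology

section Gen

variable {ι : Type*} [Fintype ι] [DecidableEq ι]

lemma det_eq_one_of_near {V : OG ι} (h : fro (V.1 - 1) < 2) : V.1.det = 1 := by
  refine (det_cases V).resolve_right fun hd => ?_
  have h1 : (1 + V.1).det = 0 := by
    have h2 : 1 + V.1 = V.1 * (1 + V.1)ᵀ := by
      rw [transpose_add, transpose_one, mul_add, mul_one, OG.mul_tr, add_comm]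
    have h3 := congrArg det h2
    rw [det_mul, det_transpose, hd] at h3
    linarith
  obtain ⟨v, hv, h0⟩ := Matrix.exists_mulVec_eq_zero_iff.2 h1
  set C : Matrix ι ι ℝ := Matrix.of fun i _ => v i with hC
  have h2 : (1 + V.1) * C = 0 := by
    ext i j
    have := congrFun h0 i
    simpa [hC, mul_apply, mulVec, dotProduct] using this
  have h3 : (V.1 - 1) * C = (-2 : ℝ) • C := by
    rw [add_mul, one_mul] at h2
    rw [sub_mul, one_mul, eq_neg_of_add_eq_zero_right h2, neg_smul, two_smul]; abel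
  have h4 := fro_mul_le (V.1 - 1) C
  rw [h3, fro_smul, abs_neg, abs_two] at h4
  have h5 : fro C = 0 := by
    by_contra h6
    have h7 := lt_of_le_of_ne (fro_nonneg C) (Ne.symm h6)
    nlinarith
  apply hv
  funext i
  simpa [hC] using congrFun (congrFun (fro_eq_zero h5) i) i

/-- infinitesimal Lipschitz bound (Frobenius norm) on a set of orthogonal matrices -/
def LLon (S : Set (OG ι)) (L : ℝ) (f : OG ι → ℝ) : Prop :=
  ∀ η > 0, ∃ δ > 0, ∀ U ∈ S, ∀ V ∈ S, fro (U.1 - V.1) ≤ δ →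
    |f U - f V| ≤ (L + η) * fro (U.1 - V.1)

lemma LLon.of_lip {S : Set (OG ι)} {L : ℝ} {f : OG ι → ℝ}
    (h : ∀ U ∈ S, ∀ V ∈ S, |f U - f V| ≤ L * fro (U.1 - V.1)) : LLon S L f :=
  fun η hη => ⟨1, one_pos, fun U hU V hV _ => (h U hU V hV).trans
    (mul_le_mul_of_nonneg_right (by linarith) (fro_nonneg _))⟩

lemma LLon.neg {S : Set (OG ι)} {L : ℝ} {f : OG ι → ℝ} (h : LLon S L f) :
    LLon S L (fun U => -f U) := by
  intro η hη
  obtain ⟨δ, hδ, h1⟩ := h η hη
  refine ⟨δ, hδ, fun U hU V hV hd => ?_⟩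
  rw [show -f U - -f V = -(f U - f V) by ring, abs_neg]
  exact h1 U hU V hV hd

lemma LLon.continuousOn {S : Set (OG ι)} {L : ℝ} {f : OG ι → ℝ} (h : LLon S L f) :
    ContinuousOn f S := by
  intro V hV
  obtain ⟨δ, hδ, h1⟩ := h 1 one_pos
  have hc : Continuous fun U : OG ι => fro (U.1 - V.1) :=
    continuous_fro.comp (continuous_subtype_val.sub continuous_const)
  have h0 : Tendsto (fun U : OG ι => fro (U.1 - V.1)) (𝓝[S] V) (𝓝 0) := by
    have := (hc.tendsto V).mono_left (nhdsWithin_le_nhds (s := S))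
    rwa [sub_self, fro_zero] at this
  rw [ContinuousWithinAt, tendsto_iff_norm_sub_tendsto_zero]
  refine squeeze_zero' (Eventually.of_forall fun _ => norm_nonneg _) ?_
    (by simpa using h0.const_mul (L + 1))
  filter_upwards [self_mem_nhdsWithin, h0.eventually (ge_mem_nhds hδ)] with U hU hd
  exact h1 U hU V hV hd

/-- Chernoff bound -/
lemma tail_of_mgf {α : Type*} [MeasurableSpace α] {μ : Measure α} [IsProbabilityMeasure μ]
    {X : α → ℝ} {D : ℝ} (hD : 0 < D) (hi : ∀ c, Integrable (fun a => Real.exp (c * X a)) μ)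
    (h : ∀ c, ∫ a, Real.exp (c * X a) ∂μ ≤ Real.exp (c ^ 2 * D)) {t : ℝ} (ht : 0 ≤ t) :
    μ.real {a | t ≤ X a} ≤ Real.exp (-(t ^ 2 / (4 * D))) := by
  have h1 := measure_ge_le_exp_mul_mgf (μ := μ) (X := X) (t := t / (2 * D)) t (by positivity) (hi _)
  refine h1.trans ((mul_le_mul_of_nonneg_left (h _) (Real.exp_pos _).le).trans (le_of_eq ?_))
  rw [← Real.exp_add]; congr 1; field_simp; ring

end Gen

variable {n : ℕ} {P : Matrix (Fin n) (Fin n) ℝ}

lemma fro_eq_hsq (A : Matrix (Fin n) (Fin n) ℝ) : fro A = √(Vale.Agent.P150.F.hsq A) := rfl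

/-- the exponential moment bound on a subgroup between `SG P` and `HG P` -/
theorem mgf_sub (hP : Pᵀ = P) (hPP : P * P = P) (hm : 2 < trace P) {S : Subgroup (OG (Fin n))}
    (hS : IsClosed (S : Set (OG (Fin n)))) (h1 : SG P ≤ S) (h2 : S ≤ HG P)
    {ν : Measure (OG (Fin n))} (hν : InvOn S ν) {f : OG (Fin n) → ℝ} {L : ℝ} (hL : 0 ≤ L)
    (hf : LLon S L f)
    (hconn : ∀ H : Subgroup (OG (Fin n)), SG P ≤ H →
      (∀ R ∈ S, (∀ U ∈ S, f (U * R) = f U) → R ∈ H) → S ≤ H) :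
    Integrable f ν ∧ ∀ c : ℝ,
      Integrable (fun U => Real.exp (c * (f U - ∫ V, f V ∂ν))) ν ∧
      ∫ U, Real.exp (c * (f U - ∫ V, f V ∂ν)) ∂ν ≤
        Real.exp (c ^ 2 * (32 * L ^ 2 / (trace P - 2))) := by
  classical
  haveI := hν.prob
  set F : OG (Fin n) → ℝ := (S : Set (OG (Fin n))).piecewise f (fun _ => 0) with hF
  have hF1 : ∀ U ∈ S, F U = f U := fun U hU => Set.piecewise_eq_of_mem _ _ _ hU
  have hF0 : ∀ U, U ∉ S → F U = 0 := fun U hU => Set.piecewise_eq_of_notMem _ _ _ hU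
  have hFm : Measurable F :=
    hf.continuousOn.measurable_piecewise continuousOn_const hS.measurableSet
  obtain ⟨M, hM⟩ := hS.isCompact.exists_bound_of_continuousOn hf.continuousOn
  have hFM : ∀ U, |F U| ≤ M := by
    intro U
    by_cases hU : U ∈ S
    · rw [hF1 U hU]; exact hM U hU
    · rw [hF0 U hU, abs_zero]; exact (norm_nonneg _).trans (hM 1 S.one_mem)
  have hae : F =ᵐ[ν] f := by filter_upwards [hν.ae] with U hU using hF1 U hU
  have hcay : ∀ B hB, B * (1 - P) = 0 → cayG B hB ∈ SG P := fun B hB h0 =>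
    ⟨cayG_mem_St hB h0, det_cay hB⟩
  have hLL : LL P L F := by
    intro η hη
    obtain ⟨δ, hδ, h3⟩ := hf η hη
    refine ⟨min δ 1, lt_min hδ one_pos, fun O V hV hd => ?_⟩
    have hVS : V ∈ S := h1 ⟨hV, det_eq_one_of_near (by linarith [min_le_right δ 1])⟩
    by_cases hO : O ∈ S
    · have h4 : fro ((O * V).1 - O.1) = fro (V.1 - 1) := by
        have := fro_OG_sub O V 1
        rwa [mul_one] at this
      rw [hF1 _ hO, hF1 _ (S.mul_mem hO hVS), ← h4]
      exact h3 _ (S.mul_mem hO hVS) _ hO (by rw [h4]; exact hd.trans (min_le_left _ _))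
    · rw [hF0 _ hO, hF0 _ (fun h => hO ((S.mul_mem_cancel_right hVS).1 h)), sub_self, abs_zero]
      exact mul_nonneg (by linarith) (fro_nonneg _)
  have hint : ∫ V, F V ∂ν = ∫ V, f V ∂ν := integral_congr_ae hae
  refine ⟨(integrable_of_bound ν hFm hFM).congr hae, fun c => ?_⟩
  have hae2 : (fun U => Real.exp (c * (F U - ∫ V, F V ∂ν))) =ᵐ[ν]
      fun U => Real.exp (c * (f U - ∫ V, f V ∂ν)) := by
    filter_upwards [hae] with U hU
    rw [hU, hint]
  refine ⟨(integrable_of_bound ν ((hFm.sub_const _).const_mul c).exp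
    (exp_bound (M := M + |∫ V, F V ∂ν|) (fun U => (abs_sub _ _).trans
      (add_le_add (hFM U) le_rfl)) c)).congr hae2, ?_⟩
  rw [← integral_congr_ae hae2]
  refine (mgf_core hP hPP hm ν (fun B hB h0 => hν.right (h1 (hcay B hB h0))) hFm hFM hL hLL 1
    (fun H hH hR => ?_) c).trans (le_of_eq (by congr 1; ring))
  have h5 : S ≤ H := by
    refine hconn H (fun V hV => mem_of_det hP hPP (by linarith) H hH hV.1 hV.2)
      fun R hRS hfR => hR R (h2 hRS) fun O => ?_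
    by_cases hO : O ∈ S
    · rw [hF1 _ hO, hF1 _ (S.mul_mem hO hRS), hfR O hO]
    · rw [hF0 _ hO, hF0 _ (fun h => hO ((S.mul_mem_cancel_right hRS).1 h))]
  filter_upwards [hν.ae] with U hU
  rw [inv_one, one_mul]
  exact h5 hU

/-- Concentration on `SG P`: exponential moments. -/
theorem mgf_SG (hP : Pᵀ = P) (hPP : P * P = P) (hm : 2 < trace P)
    {ν : Measure (OG (Fin n))} (hν : InvOn (SG P) ν) {f : OG (Fin n) → ℝ} {L : ℝ} (hL : 0 ≤ L)
    (hf : LLon (SG P) L f) :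
    Integrable f ν ∧ ∀ c : ℝ,
      Integrable (fun U => Real.exp (c * (f U - ∫ V, f V ∂ν))) ν ∧
      ∫ U, Real.exp (c * (f U - ∫ V, f V ∂ν)) ∂ν ≤
        Real.exp (c ^ 2 * (32 * L ^ 2 / (trace P - 2))) :=
  mgf_sub hP hPP hm (isClosed_SG P) le_rfl SG_le_HG hν hL hf fun H h _ => h

/-- Concentration on `HG P` for functions invariant under one element of determinant `-1`. -/
theorem mgf_HG (hP : Pᵀ = P) (hPP : P * P = P) (hm : 2 < trace P)
    {ν : Measure (OG (Fin n))} (hν : InvOn (HG P) ν) {f : OG (Fin n) → ℝ} {L : ℝ} (hL : 0 ≤ L)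
    (hf : LLon (HG P) L f) {R : OG (Fin n)} (hR : R ∈ HG P) (hd : R.1.det ≠ 1)
    (hfR : ∀ U ∈ HG P, f (U * R) = f U) :
    Integrable f ν ∧ ∀ c : ℝ,
      Integrable (fun U => Real.exp (c * (f U - ∫ V, f V ∂ν))) ν ∧
      ∫ U, Real.exp (c * (f U - ∫ V, f V ∂ν)) ∂ν ≤
        Real.exp (c ^ 2 * (32 * L ^ 2 / (trace P - 2))) := by
  refine mgf_sub hP hPP hm (isClosed_HG P) SG_le_HG le_rfl hν hL hf fun H h h' V hV => ?_
  exact mem_of_refl hP hPP (by linarith) H
    (fun B hB h0 => h ⟨cayG_mem_St hB h0, det_cay hB⟩) hR (h' R hR hfR) hd hV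

/-- tails from the exponential moments -/
theorem tails_of {α : Type*} [MeasurableSpace α] {ν : Measure α} [IsProbabilityMeasure ν]
    {f : α → ℝ} {E L m : ℝ} (hL : 0 < L) (hm : 2 < m)
    (h : ∀ c : ℝ, Integrable (fun U => Real.exp (c * (f U - E))) ν ∧
      ∫ U, Real.exp (c * (f U - E)) ∂ν ≤ Real.exp (c ^ 2 * (32 * L ^ 2 / (m - 2))))
    {t : ℝ} (ht : 0 ≤ t) :
    ν.real {U | E + t ≤ f U} ≤ Real.exp (-((m - 2) * t ^ 2 / (128 * L ^ 2))) ∧
    ν.real {U | f U ≤ E - t} ≤ Real.exp (-((m - 2) * t ^ 2 / (128 * L ^ 2))) ∧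
    ν.real {U | t ≤ |f U - E|} ≤ 2 * Real.exp (-((m - 2) * t ^ 2 / (128 * L ^ 2))) := by
  have hm' : 0 < m - 2 := by linarith
  have hD : 0 < 32 * L ^ 2 / (m - 2) := by positivity
  have e : t ^ 2 / (4 * (32 * L ^ 2 / (m - 2))) = (m - 2) * t ^ 2 / (128 * L ^ 2) := by
    field_simp; ring
  have a1 := tail_of_mgf hD (fun c => (h c).1) (fun c => (h c).2) ht
  have a2 := tail_of_mgf (μ := ν) (X := fun U => -(f U - E)) hD
    (fun c => by simpa only [mul_neg, neg_mul] using (h (-c)).1)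
    (fun c => by simpa only [mul_neg, neg_mul, neg_sq] using (h (-c)).2) ht
  rw [e] at a1 a2
  refine ⟨le_trans (measureReal_mono fun U hU => ?_) a1,
    le_trans (measureReal_mono fun U hU => ?_) a2, ?_⟩
  · simp only [Set.mem_setOf_eq] at hU ⊢; linarith
  · simp only [Set.mem_setOf_eq] at hU ⊢; linarith
  · refine le_trans (measureReal_mono (s₂ := {U | t ≤ f U - E} ∪ {U | t ≤ -(f U - E)})
      fun U hU => (le_abs.1 (show t ≤ |f U - E| from hU) :
        t ≤ f U - E ∨ t ≤ -(f U - E))) ((measureReal_union_le _ _).trans (by linarith))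

/-- Concentration on `SG P`: upper, lower and two-sided tails. -/
theorem tail_SG (hP : Pᵀ = P) (hPP : P * P = P) (hm : 2 < trace P)
    {ν : Measure (OG (Fin n))} (hν : InvOn (SG P) ν) {f : OG (Fin n) → ℝ} {L : ℝ} (hL : 0 < L)
    (hf : LLon (SG P) L f) {t : ℝ} (ht : 0 ≤ t) :
    ν.real {U | (∫ V, f V ∂ν) + t ≤ f U} ≤
      Real.exp (-((trace P - 2) * t ^ 2 / (128 * L ^ 2))) ∧
    ν.real {U | f U ≤ (∫ V, f V ∂ν) - t} ≤
      Real.exp (-((trace P - 2) * t ^ 2 / (128 * L ^ 2))) ∧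
    ν.real {U | t ≤ |f U - ∫ V, f V ∂ν|} ≤
      2 * Real.exp (-((trace P - 2) * t ^ 2 / (128 * L ^ 2))) :=
  haveI := hν.prob
  tails_of hL hm (mgf_SG hP hPP hm hν hL.le hf).2 ht

/-- Concentration on `HG P` for functions invariant under one element of determinant `-1`. -/
theorem tail_HG (hP : Pᵀ = P) (hPP : P * P = P) (hm : 2 < trace P)
    {ν : Measure (OG (Fin n))} (hν : InvOn (HG P) ν) {f : OG (Fin n) → ℝ} {L : ℝ} (hL : 0 < L)
    (hf : LLon (HG P) L f) {R : OG (Fin n)} (hR : R ∈ HG P) (hd : R.1.det ≠ 1)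
    (hfR : ∀ U ∈ HG P, f (U * R) = f U) {t : ℝ} (ht : 0 ≤ t) :
    ν.real {U | (∫ V, f V ∂ν) + t ≤ f U} ≤
      Real.exp (-((trace P - 2) * t ^ 2 / (128 * L ^ 2))) ∧
    ν.real {U | f U ≤ (∫ V, f V ∂ν) - t} ≤
      Real.exp (-((trace P - 2) * t ^ 2 / (128 * L ^ 2))) ∧
    ν.real {U | t ≤ |f U - ∫ V, f V ∂ν|} ≤
      2 * Real.exp (-((trace P - 2) * t ^ 2 / (128 * L ^ 2))) :=
  haveI := hν.prob
  tails_of hL hm (mgf_HG hP hPP hm hν hL.le hf hR hd hfR).2 ht

/-- Concentration for the Haar measure of the full orthogonal group. -/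
theorem tail_haar (hn : 3 ≤ n) {f : OG (Fin n) → ℝ} {L : ℝ} (hL : 0 < L)
    (hf : LLon Set.univ L f) {R : OG (Fin n)} (hd : R.1.det ≠ 1) (hfR : ∀ U, f (U * R) = f U)
    {t : ℝ} (ht : 0 ≤ t) :
    (haar n).real {U | (∫ V, f V ∂haar n) + t ≤ f U} ≤
      Real.exp (-(((n : ℝ) - 2) * t ^ 2 / (128 * L ^ 2))) ∧
    (haar n).real {U | f U ≤ (∫ V, f V ∂haar n) - t} ≤
      Real.exp (-(((n : ℝ) - 2) * t ^ 2 / (128 * L ^ 2))) ∧
    (haar n).real {U | t ≤ |f U - ∫ V, f V ∂haar n|} ≤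
      2 * Real.exp (-(((n : ℝ) - 2) * t ^ 2 / (128 * L ^ 2))) := by
  have h3 : (3 : ℝ) ≤ n := by exact_mod_cast hn
  have htr : trace (1 : Matrix (Fin n) (Fin n) ℝ) = n := by simp
  have := tail_HG (P := 1) transpose_one (mul_one _) (by rw [htr]; linarith)
    (ν := haar n) (by rw [HG_one]; exact invOn_haar) hL (by rw [HG_one]; exact hf)
    (by rw [HG_one]; exact Subgroup.mem_top R) hd (fun U _ => hfR U) ht
  rwa [htr] at this

end Vale.Agent.N150.Haar
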