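import Vale.Agent.N150.Hc

set_option linter.all false

namespace Vale.Agent.N150

open Matrix MeasureTheory Filter Topology Set

variable {n : ℕ}

/-- second moment from a sub-Gaussian tail -/
lemma Haar.sq_of_tail {α : Type*} [MeasurableSpace α] {μ : Measure α} [IsProbabilityMeasure μ]
    {X : α → ℝ} (hX : Integrable (fun a => X a ^ 2) μ) {b : ℝ} (hb : 0 < b)
    (h : ∀ t, 0 ≤ t → μ.real {a | t ≤ |X a|} ≤ 2 * Real.exp (-(b * t ^ 2))) :
    ∫ a, X a ^ 2 ∂μ ≤ 2 / b := by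
  rw [hX.integral_eq_integral_meas_le (ae_of_all _ fun a => sq_nonneg _)]
  have hi : IntegrableOn (fun t : ℝ => 2 * Real.exp (-b * t)) (Ioi 0) :=
    (exp_neg_integrableOn_Ioi 0 hb).const_mul 2
  refine (integral_mono_of_nonneg (ae_of_all _ fun t => measureReal_nonneg) hi ?_).trans
    (le_of_eq ?_)
  · filter_upwards [ae_restrict_mem measurableSet_Ioi] with t ht
    have ht' : (0 : ℝ) ≤ t := le_of_lt ht
    have h1 := h (√t) (Real.sqrt_nonneg _)
    rw [Real.sq_sqrt ht', ← neg_mul] at h1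
    refine le_trans (measureReal_mono fun a ha => ?_) h1
    exact Real.sqrt_le_iff.2 ⟨abs_nonneg _, by rw [sq_abs]; exact ha⟩
  · rw [integral_const_mul, integral_exp_mul_Ioi (by linarith)]
    simp [div_eq_mul_inv]

variable {μ : Measure (OG n)} [IsProbabilityMeasure μ] {c : ℝ}

/-- variance bound -/
theorem Conc.var (h : Conc μ c) (hc : 0 < c) {f : OG n → ℝ} {L : ℝ} (hL : 0 < L)
    (hf : LipO univ L f) : ∫ U, (f U - ∫ V, f V ∂μ) ^ 2 ∂μ ≤ 2 * L ^ 2 / c := by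
  have hfc := hf.continuous
  have h1 := Haar.sq_of_tail (μ := μ) (X := fun U => f U - ∫ V, f V ∂μ)
    (integrable_of_continuous (by fun_prop) μ) (b := c / L ^ 2) (by positivity) fun t ht => by
      have := h f L t hL ht hf
      rwa [show c * t ^ 2 / L ^ 2 = c / L ^ 2 * t ^ 2 by ring] at this
  refine h1.trans (le_of_eq ?_)
  field_simp

/-- McShane extension with mean zero of a function which is odd under a measure preserving
isometry mapping the good set to itself -/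
theorem LipO.extend_odd {G : Set (OG n)} {L : ℝ} (hL : 0 ≤ L) {f : OG n → ℝ} (hf : LipO G L f)
    {φ : OG n → OG n} (hφ : MeasurePreserving φ μ μ) (hiso : ∀ U V, dO (φ U) (φ V) = dO U V)
    (hG : ∀ U ∈ G, φ U ∈ G) (hodd : ∀ U ∈ G, f (φ U) = -f U) :
    ∃ g : OG n → ℝ, LipO univ L g ∧ (∀ U ∈ G, g U = f U) ∧ ∫ U, g U ∂μ = 0 := by
  obtain ⟨F, hF, he⟩ := hf.extend hL
  have iF := integrable_of_continuous hF.continuous μ
  refine ⟨fun U => (F U - F (φ U)) / 2, fun U _ V _ => ?_, fun U hU => ?_, ?_⟩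
  · have h1 := abs_le.1 (hF U trivial V trivial)
    have h2 := abs_le.1 (hF (φ U) trivial (φ V) trivial)
    rw [hiso] at h2
    exact abs_le.2 ⟨by linarith [h1.1, h2.2], by linarith [h1.2, h2.1]⟩
  · simp only [he U hU, he _ (hG U hU), hodd U hU]; ring
  · have h1 : ∫ U, F (φ U) ∂μ = ∫ U, F U ∂μ := by
      conv_rhs => rw [← hφ.map_eq]
      rw [integral_map hφ.measurable.aemeasurable hF.continuous.aestronglyMeasurable]
    have iF' : Integrable (fun U => F (φ U)) μ := hφ.integrable_comp_of_integrable iF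
    rw [integral_div, integral_sub iF iF', h1]
    simp

/-- tails of an odd function on a good set (no condition on the mass of the good set) -/
theorem Conc.odd_tail (h : Conc μ c) {G : Set (OG n)} {L : ℝ} (hL : 0 < L) {f : OG n → ℝ}
    (hf : LipO G L f) {φ : OG n → OG n} (hφ : MeasurePreserving φ μ μ)
    (hiso : ∀ U V, dO (φ U) (φ V) = dO U V) (hG : ∀ U ∈ G, φ U ∈ G)
    (hodd : ∀ U ∈ G, f (φ U) = -f U) {t : ℝ} (ht : 0 ≤ t) :
    μ.real {U | U ∈ G ∧ t ≤ |f U|} ≤ 2 * Real.exp (-(c * t ^ 2 / L ^ 2)) := by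
  obtain ⟨g, hg, he, h0⟩ := hf.extend_odd hL.le hφ hiso hG hodd
  refine le_trans (measureReal_mono fun U hU => ?_) (h g L t hL ht hg)
  simp only [mem_setOf_eq] at hU ⊢
  rw [h0, sub_zero, he U hU.1]; exact hU.2

/-- vector lemma, core form -/
theorem Conc.vec_core (h : Conc μ c) (hc : 0 < c) {α : Type*} (A : Finset α) {G : Set (OG n)}
    {L : α → ℝ} (hL : ∀ a ∈ A, 0 < L a) {g : α → OG n → ℝ} (hg : ∀ a ∈ A, LipO univ (L a) (g a))
    {N : OG n → ℝ} {L₂ : ℝ} (hL₂ : 0 ≤ L₂) (hN : LipO G L₂ N)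
    (hNg : ∀ U ∈ G, N U ≤ √(∑ a ∈ A, (g a U - ∫ V, g a V ∂μ) ^ 2))
    {q r t : ℝ} (hq : q ≤ μ.real G) (hr0 : 0 ≤ r) (hr : 4 * Real.exp (-(c * r ^ 2)) < q)
    (ht : 0 ≤ t) :
    μ.real {U | U ∈ G ∧ 2 * √((∑ a ∈ A, L a ^ 2) / (c * q)) + L₂ * (r + t) < N U} ≤
      2 * Real.exp (-(c * t ^ 2)) := by
  have hq0 : 0 < q := lt_trans (by positivity) hr
  set S := ∑ a ∈ A, L a ^ 2 with hS
  have hS0 : 0 ≤ S := Finset.sum_nonneg fun a _ => sq_nonneg _
  set Y : OG n → ℝ := fun U => ∑ a ∈ A, (g a U - ∫ V, g a V ∂μ) ^ 2 with hY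
  have iY : ∀ a ∈ A, Integrable (fun U => (g a U - ∫ V, g a V ∂μ) ^ 2) μ := fun a ha => by
    have := (hg a ha).continuous
    exact integrable_of_continuous (by fun_prop) μ
  have hY1 : ∫ U, Y U ∂μ ≤ 2 * S / c := by
    rw [hY, integral_finset_sum _ iY, hS, Finset.mul_sum, Finset.sum_div]
    exact Finset.sum_le_sum fun a ha => h.var hc (hL a ha) (hg a ha)
  have hY2 : μ.real {U | 4 * S / (c * q) < Y U} ≤ q / 2 := by
    rcases hS0.eq_or_lt with h0 | h0
    · have hA : A = ∅ := by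
        by_contra hne
        obtain ⟨a, ha⟩ := Finset.nonempty_iff_ne_empty.2 hne
        have := Finset.single_le_sum (f := fun a => L a ^ 2) (fun a _ => sq_nonneg _) ha
        have := pow_pos (hL a ha) 2
        linarith
      simp only [hY, hA, Finset.sum_empty, ← h0]
      simp [hq0.le, div_nonneg]
    · have h1 := mul_meas_ge_le_integral_of_nonneg (μ := μ) (f := Y)
        (ae_of_all _ fun U => Finset.sum_nonneg fun a _ => sq_nonneg _)
        (integrable_finset_sum _ iY) (4 * S / (c * q))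
      have h2 : μ.real {U | 4 * S / (c * q) < Y U} ≤ μ.real {U | 4 * S / (c * q) ≤ Y U} :=
        measureReal_mono fun U hU => (le_of_lt (show 4 * S / (c * q) < Y U from hU) :
          4 * S / (c * q) ≤ Y U)
      have h3 : 0 < 4 * S / (c * q) := by positivity
      refine h2.trans (le_of_mul_le_mul_left ((h1.trans hY1).trans (le_of_eq ?_)) h3)
      field_simp; ring
  set B := {U | U ∈ G ∧ Y U ≤ 4 * S / (c * q)} with hB
  have hB1 : 2 * Real.exp (-(c * r ^ 2)) < μ.real B := by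
    have h1 : μ.real G ≤ μ.real B + μ.real {U | 4 * S / (c * q) < Y U} := by
      refine le_trans (measureReal_mono fun U hU => ?_) (measureReal_union_le _ _)
      rcases le_or_gt (Y U) (4 * S / (c * q)) with h2 | h2
      · exact Or.inl ⟨hU, h2⟩
      · exact Or.inr h2
    linarith
  refine le_trans (measureReal_mono fun U hU => ?_) (h.blowup hr0 ht hB1)
  intro V hV
  by_contra hlt
  have h1 := (abs_le.1 (hN U hU.1 V hV.1)).2
  have h2 : N V ≤ 2 * √(S / (c * q)) := by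
    refine (hNg V hV.1).trans ((Real.sqrt_le_sqrt hV.2).trans (le_of_eq ?_))
    rw [mul_div_assoc, Real.sqrt_mul (by norm_num), show (4 : ℝ) = 2 ^ 2 by norm_num,
      Real.sqrt_sq (by norm_num)]
  have h3 := mul_le_mul_of_nonneg_left (not_le.1 hlt).le hL₂
  have h4 := hU.2
  linarith

/-- **Haar vector lemma**: odd components -/
theorem Conc.vec_odd (h : Conc μ c) (hc : 0 < c) {α : Type*} (A : Finset α) {G : Set (OG n)}
    {L : α → ℝ} (hL : ∀ a ∈ A, 0 < L a) {f : α → OG n → ℝ} (hf : ∀ a ∈ A, LipO G (L a) (f a))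
    {φ : α → OG n → OG n} (hφ : ∀ a ∈ A, MeasurePreserving (φ a) μ μ)
    (hiso : ∀ a ∈ A, ∀ U V, dO (φ a U) (φ a V) = dO U V) (hG : ∀ a ∈ A, ∀ U ∈ G, φ a U ∈ G)
    (hodd : ∀ a ∈ A, ∀ U ∈ G, f a (φ a U) = -f a U)
    {L₂ : ℝ} (hL₂ : 0 ≤ L₂) (hN : LipO G L₂ fun U => √(∑ a ∈ A, f a U ^ 2))
    {q r t : ℝ} (hq : q ≤ μ.real G) (hr0 : 0 ≤ r) (hr : 4 * Real.exp (-(c * r ^ 2)) < q)
    (ht : 0 ≤ t) :
    μ.real {U | U ∈ G ∧
        2 * √((∑ a ∈ A, L a ^ 2) / (c * q)) + L₂ * (r + t) < √(∑ a ∈ A, f a U ^ 2)} ≤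
      2 * Real.exp (-(c * t ^ 2)) := by
  classical
  have key : ∀ a, ∃ g : OG n → ℝ, a ∈ A →
      LipO univ (L a) g ∧ (∀ U ∈ G, g U = f a U) ∧ ∫ U, g U ∂μ = 0 := by
    intro a
    by_cases ha : a ∈ A
    · obtain ⟨g, hg⟩ := (hf a ha).extend_odd (hL a ha).le (hφ a ha) (hiso a ha) (hG a ha)
        (hodd a ha)
      exact ⟨g, fun _ => hg⟩
    · exact ⟨0, fun h => absurd h ha⟩
  choose g hg using key
  refine h.vec_core hc A hL (fun a ha => (hg a ha).1) hL₂ hN (fun U hU => le_of_eq ?_) hq hr0 hr ht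
  congr 1
  refine Finset.sum_congr rfl fun a ha => ?_
  rw [(hg a ha).2.2, (hg a ha).2.1 U hU, sub_zero]

/-- vector lemma: components centred at constants close to the means over the good set -/
theorem Conc.vec_mean (h : Conc μ c) (hc : 0 < c) {α : Type*} (A : Finset α) {G : Set (OG n)}
    (hGm : MeasurableSet G) {L B : α → ℝ} (hL : ∀ a ∈ A, 0 < L a) (hB : ∀ a ∈ A, 0 ≤ B a)
    {f : α → OG n → ℝ} (hf : ∀ a ∈ A, LipO G (L a) (f a)) (hb : ∀ a ∈ A, ∀ U ∈ G, |f a U| ≤ B a) :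
    ∃ m : α → ℝ, (∀ a ∈ A, |m a - ∫ U in G, f a U ∂μ| ≤ B a * μ.real Gᶜ) ∧
      (∀ a ∈ A, ∫ U in G, (f a U - m a) ^ 2 ∂μ ≤ 2 * L a ^ 2 / c) ∧
      (∀ a ∈ A, ∀ t, 0 ≤ t →
        μ.real {U | U ∈ G ∧ t ≤ |f a U - m a|} ≤ 2 * Real.exp (-(c * t ^ 2 / L a ^ 2))) ∧
      ∀ L₂ q r t : ℝ, 0 ≤ L₂ → (LipO G L₂ fun U => √(∑ a ∈ A, (f a U - m a) ^ 2)) →
        q ≤ μ.real G → 0 ≤ r → 4 * Real.exp (-(c * r ^ 2)) < q → 0 ≤ t →
        μ.real {U | U ∈ G ∧ 2 * √((∑ a ∈ A, L a ^ 2) / (c * q)) + L₂ * (r + t) <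
          √(∑ a ∈ A, (f a U - m a) ^ 2)} ≤ 2 * Real.exp (-(c * t ^ 2)) := by
  classical
  have key : ∀ a, ∃ g : OG n → ℝ, a ∈ A →
      LipO univ (L a) g ∧ (∀ U ∈ G, g U = f a U) ∧ ∀ U, |g U| ≤ B a := by
    intro a
    by_cases ha : a ∈ A
    · obtain ⟨g, hg⟩ := (hf a ha).extend_bdd (hL a ha).le (hB a ha) (hb a ha)
      exact ⟨g, fun _ => hg⟩
    · exact ⟨0, fun h => absurd h ha⟩
  choose g hg using key
  refine ⟨fun a => ∫ V, g a V ∂μ, fun a ha => ?_, fun a ha => ?_, fun a ha t ht => ?_,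
    fun L₂ q r t hL₂ hN hq hr0 hr ht => ?_⟩
  · obtain ⟨h1, h2, h3⟩ := hg a ha
    simp only
    rw [← integral_add_compl hGm (integrable_of_continuous h1.continuous μ),
      setIntegral_congr_fun hGm (g := f a) fun U hU => h2 U hU, add_sub_cancel_left]
    exact norm_setIntegral_le_of_norm_le_const (μ := μ) (s := Gᶜ) (f := g a) (C := B a)
      (measure_lt_top _ _) fun U _ => h3 U
  · obtain ⟨h1, h2, h3⟩ := hg a ha
    have hgc := h1.continuous
    refine le_trans ?_ (h.var hc (hL a ha) h1)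
    rw [setIntegral_congr_fun hGm (g := fun U => (g a U - ∫ V, g a V ∂μ) ^ 2)
      fun U hU => by simp only [h2 U hU]]
    exact setIntegral_le_integral (integrable_of_continuous (by fun_prop) μ)
      (ae_of_all _ fun U => sq_nonneg _)
  · obtain ⟨h1, h2, h3⟩ := hg a ha
    refine le_trans (measureReal_mono fun U hU => ?_) (h (g a) (L a) t (hL a ha) ht h1)
    simp only [mem_setOf_eq] at hU ⊢
    rw [h2 U hU.1]; exact hU.2
  · refine h.vec_core hc A hL (fun a ha => (hg a ha).1) hL₂ hN (fun U hU => le_of_eq ?_) hq hr0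
      hr ht
    congr 1
    exact Finset.sum_congr rfl fun a ha => by rw [(hg a ha).2.1 U hU]

omit [IsProbabilityMeasure μ] in
/-- right multiplication by an element of the group is a measure preserving isometry -/
lemma InvOn.mp_right {H : Subgroup (OG n)} (h : InvOn H μ) {R : OG n} (hR : R ∈ H) :
    MeasurePreserving (fun U => U * R) μ μ := ⟨measurable_mul_const R, h.right hR⟩

omit [IsProbabilityMeasure μ] in
lemma InvOn.mp_left {H : Subgroup (OG n)} (h : InvOn H μ) {R : OG n} (hR : R ∈ H) :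
    MeasurePreserving (fun U => R * U) μ μ := ⟨measurable_const_mul R, h.left R hR⟩

/-- the rotation by `π` in the plane spanned by two orthogonal vectors of the range of `P` -/
lemma rot_pi_mem_SG {P : Matrix (Fin n) (Fin n) ℝ} (hP : Pᵀ = P) {a b : Fin n → ℝ}
    (ha : P *ᵥ a = a) (hb : P *ᵥ b = b) (ha0 : a ⬝ᵥ a ≠ 0) (hb0 : b ⬝ᵥ b ≠ 0) :
    rflG a * rflG b ∈ SG P := by
  refine ⟨(HG P).mul_mem (rflG_mem_HG hP ha) (rflG_mem_HG hP hb), ?_⟩
  rw [OG.coe_mul, det_mul, rflG_val, rflG_val, det_rfl' ha0, det_rfl' hb0]; norm_num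

end Vale.Agent.N150
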