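import Vale.Agent.N150.Haar0
import Vale.Agent.N150.HaarD

/-! Consequences of sub-Gaussian concentration on `O(n)`: extension from a good set, blow-up,
local Lipschitz bounds along Cayley paths, Ward identities. -/

namespace Vale.Agent.N150

open Matrix MeasureTheory Filter Topology Set
open Vale.Agent.N150.Haar (fro cay cayG rs fro_nonneg fro_triangle fro_sub_comm fro_zero)

variable {n : ℕ}

/-- Frobenius distance on the group -/
noncomputable def dO (U V : OG n) : ℝ := fro (U.1 - V.1)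

lemma dO_nonneg (U V : OG n) : 0 ≤ dO U V := fro_nonneg _

lemma dO_self (U : OG n) : dO U U = 0 := by rw [dO, sub_self, fro_zero]

lemma dO_comm (U V : OG n) : dO U V = dO V U := fro_sub_comm _ _

lemma dO_triangle (U V W : OG n) : dO U W ≤ dO U V + dO V W := fro_triangle _ _ _

lemma dO_mul_left (O U V : OG n) : dO (O * U) (O * V) = dO U V := Haar.fro_OG_sub O U V

lemma dO_mul_right (O U V : OG n) : dO (U * O) (V * O) = dO U V := Haar.fro_sub_OG O U V

lemma dO_inv (U V : OG n) : dO U⁻¹ V⁻¹ = dO U V := by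
  rw [dO, OG.coe_inv, OG.coe_inv, ← transpose_sub, Haar.fro_transpose, dO]

lemma continuous_dO : Continuous fun p : OG n × OG n => dO p.1 p.2 :=
  Haar.continuous_fro.comp
    ((continuous_val.comp continuous_fst).sub (continuous_val.comp continuous_snd))

/-- `f` is `L`-Lipschitz on `G` for the Frobenius distance -/
def LipO (G : Set (OG n)) (L : ℝ) (f : OG n → ℝ) : Prop :=
  ∀ U ∈ G, ∀ V ∈ G, |f U - f V| ≤ L * dO U V

lemma LipO.mono {G G' : Set (OG n)} {L : ℝ} {f : OG n → ℝ} (h : LipO G L f) (hG : G' ⊆ G) :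
    LipO G' L f := fun U hU V hV => h U (hG hU) V (hG hV)

lemma LipO.continuous {L : ℝ} {f : OG n → ℝ} (h : LipO univ L f) : Continuous f := by
  refine continuous_iff_continuousAt.2 fun U => ?_
  rw [ContinuousAt, tendsto_iff_norm_sub_tendsto_zero]
  have h1 : Tendsto (fun V => L * dO V U) (𝓝 U) (𝓝 (L * dO U U)) :=
    ((continuous_dO.comp (continuous_id.prodMk continuous_const)).tendsto U).const_mul L
  rw [dO_self, mul_zero] at h1
  exact squeeze_zero (fun _ => norm_nonneg _) (fun V => h V trivial U trivial) h1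

lemma integrable_of_continuous {f : OG n → ℝ} (hf : Continuous f) (μ : Measure (OG n))
    [IsFiniteMeasure μ] : Integrable f μ :=
  hf.integrable_of_hasCompactSupport (HasCompactSupport.of_compactSpace f)

/-- **McShane extension** -/
theorem LipO.extend {G : Set (OG n)} {L : ℝ} (hL : 0 ≤ L) {f : OG n → ℝ} (h : LipO G L f) :
    ∃ g : OG n → ℝ, LipO univ L g ∧ ∀ U ∈ G, g U = f U := by
  let _ : PseudoMetricSpace (OG n) :=
    { dist := dO, dist_self := dO_self, dist_comm := dO_comm, dist_triangle := dO_triangle }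
  have h1 : LipschitzOnWith L.toNNReal f G := by
    refine LipschitzOnWith.of_dist_le_mul fun U hU V hV => ?_
    rw [Real.coe_toNNReal _ hL, Real.dist_eq]
    exact h U hU V hV
  obtain ⟨g, hg, he⟩ := h1.extend_real
  refine ⟨g, fun U _ V _ => ?_, fun U hU => (he hU).symm⟩
  have := hg.dist_le_mul U V
  rwa [Real.coe_toNNReal _ hL, Real.dist_eq] at this

/-- extension which keeps a bound -/
theorem LipO.extend_bdd {G : Set (OG n)} {L B : ℝ} (hL : 0 ≤ L) (hB : 0 ≤ B) {f : OG n → ℝ}
    (h : LipO G L f) (hf : ∀ U ∈ G, |f U| ≤ B) :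
    ∃ g : OG n → ℝ, LipO univ L g ∧ (∀ U ∈ G, g U = f U) ∧ ∀ U, |g U| ≤ B := by
  obtain ⟨g, hg, he⟩ := h.extend hL
  refine ⟨fun U => max (-B) (min B (g U)), fun U _ V _ => ?_, fun U hU => ?_, fun U => ?_⟩
  · refine le_trans ?_ (hg U trivial V trivial)
    refine (abs_max_sub_max_le_max _ _ _ _).trans (max_le (by simp) ?_)
    exact (abs_min_sub_min_le_max _ _ _ _).trans (max_le (by simp) le_rfl)
  · have := abs_le.1 (hf U hU)
    simp only [he U hU]
    rw [min_eq_right this.2, max_eq_right this.1]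
  · exact abs_le.2 ⟨le_max_left _ _, max_le (by linarith) (min_le_left _ _)⟩

/-- sub-Gaussian concentration of Lipschitz functions with rate `c` -/
def Conc (μ : Measure (OG n)) (c : ℝ) : Prop :=
  ∀ (f : OG n → ℝ) (L t : ℝ), 0 < L → 0 ≤ t → LipO univ L f →
    μ.real {U | t ≤ |f U - ∫ V, f V ∂μ|} ≤ 2 * Real.exp (-(c * t ^ 2 / L ^ 2))

lemma Conc.mono {μ : Measure (OG n)} {c c' : ℝ} (h : Conc μ c) (hc : c' ≤ c) : Conc μ c' :=
  fun f L t hL ht hf => (h f L t hL ht hf).trans (by gcongr)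

/-- Chernoff: a bound on the Laplace transform gives concentration -/
theorem conc_of_mgf {μ : Measure (OG n)} [IsProbabilityMeasure μ] {σ : ℝ} (hσ : 0 < σ)
    (h : ∀ (f : OG n → ℝ) (L l : ℝ), 0 < L → LipO univ L f →
      ∫ U, Real.exp (l * (f U - ∫ V, f V ∂μ)) ∂μ ≤ Real.exp (σ * l ^ 2 * L ^ 2)) :
    Conc μ (1 / (4 * σ)) := by
  intro f L t hL ht hf
  set a := ∫ V, f V ∂μ
  have hc := hf.continuous
  have key : ∀ s : ℝ, s ^ 2 = 1 → μ.real {U | t ≤ s * (f U - a)} ≤
      Real.exp (-(1 / (4 * σ) * t ^ 2 / L ^ 2)) := by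
    intro s hs
    set l := t / (2 * σ * L ^ 2) with hl
    have hl0 : 0 ≤ l := by positivity
    have hi : Integrable (fun U => Real.exp (l * s * (f U - a))) μ :=
      integrable_of_continuous (by fun_prop) μ
    have h1 := mul_meas_ge_le_integral_of_nonneg (μ := μ)
      (f := fun U => Real.exp (l * s * (f U - a))) (ae_of_all _ fun U => (Real.exp_pos _).le) hi
      (Real.exp (l * t))
    have h2 : μ.real {U | t ≤ s * (f U - a)} ≤
        μ.real {U | Real.exp (l * t) ≤ Real.exp (l * s * (f U - a))} := by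
      refine measureReal_mono fun U hU => ?_
      simp only [mem_ofPred_eq] at hU ⊢
      rw [mul_assoc]
      exact Real.exp_le_exp.2 (mul_le_mul_of_nonneg_left hU hl0)
    have h3 := h1.trans (h f L (l * s) hL hf)
    rw [mul_pow, hs, mul_one] at h3
    refine h2.trans ?_
    rw [mul_comm, ← le_div_iff₀ (Real.exp_pos _), ← Real.exp_sub] at h3
    refine h3.trans (le_of_eq (congrArg Real.exp ?_))
    rw [hl]; field_simp; ring
  have hsub : {U | t ≤ |f U - a|} ⊆ {U | t ≤ 1 * (f U - a)} ∪ {U | t ≤ -1 * (f U - a)} := by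
    intro U hU
    simp only [mem_ofPred_eq, mem_union, one_mul, neg_mul] at hU ⊢
    exact le_abs.1 hU
  have := (measureReal_mono hsub).trans (measureReal_union_le (μ := μ) _ _)
  linarith [key 1 (by norm_num), key (-1) (by norm_num)]

section

variable {μ : Measure (OG n)} [IsProbabilityMeasure μ] {c : ℝ}

/-- concentration on a set where the function is Lipschitz -/
theorem Conc.on_good (h : Conc μ c) {G : Set (OG n)} {L : ℝ} (hL : 0 < L) {f : OG n → ℝ}
    (hf : LipO G L f) : ∃ a : ℝ, ∀ t, 0 ≤ t →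
      μ.real {U | U ∈ G ∧ t ≤ |f U - a|} ≤ 2 * Real.exp (-(c * t ^ 2 / L ^ 2)) := by
  obtain ⟨g, hg, he⟩ := hf.extend hL.le
  refine ⟨∫ V, g V ∂μ, fun t ht => le_trans (measureReal_mono fun U hU => ?_) (h g L t hL ht hg)⟩
  simp only [mem_ofPred_eq] at hU ⊢
  rw [he U hU.1]; exact hU.2

/-- the same with the constant identified: it is the mean over the good set up to `B μ(Gᶜ)` -/
theorem Conc.on_good_mean (h : Conc μ c) {G : Set (OG n)} (hG : MeasurableSet G) {L B : ℝ}
    (hL : 0 < L) (hB : 0 ≤ B) {f : OG n → ℝ} (hf : LipO G L f) (hb : ∀ U ∈ G, |f U| ≤ B) :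
    ∃ a : ℝ, |a - ∫ U in G, f U ∂μ| ≤ B * μ.real Gᶜ ∧ ∀ t, 0 ≤ t →
      μ.real {U | U ∈ G ∧ t ≤ |f U - a|} ≤ 2 * Real.exp (-(c * t ^ 2 / L ^ 2)) := by
  obtain ⟨g, hg, he, hgb⟩ := hf.extend_bdd hL.le hB hb
  refine ⟨∫ V, g V ∂μ, ?_, fun t ht =>
    le_trans (measureReal_mono fun U hU => ?_) (h g L t hL ht hg)⟩
  · rw [← integral_add_compl hG (integrable_of_continuous hg.continuous μ),
      setIntegral_congr_fun hG (g := f) fun U hU => he U hU, add_sub_cancel_left]
    have := norm_setIntegral_le_of_norm_le_const (μ := μ) (s := Gᶜ) (f := g) (C := B)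
      (measure_lt_top _ _) fun U _ => hgb U
    exact this
  · simp only [mem_ofPred_eq] at hU ⊢
    rw [he U hU.1]; exact hU.2

omit [IsProbabilityMeasure μ] in
/-- Lipschitz on a set of full measure is enough -/
theorem Conc.of_ae (h : Conc μ c) {G : Set (OG n)} (hG : ∀ᵐ U ∂μ, U ∈ G) {L : ℝ} (hL : 0 < L)
    {f : OG n → ℝ} (hf : LipO G L f) {t : ℝ} (ht : 0 ≤ t) :
    μ.real {U | t ≤ |f U - ∫ V, f V ∂μ|} ≤ 2 * Real.exp (-(c * t ^ 2 / L ^ 2)) := by
  obtain ⟨g, hg, he⟩ := hf.extend hL.le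
  have h1 : f =ᵐ[μ] g := by filter_upwards [hG] with U hU using (he U hU).symm
  rw [integral_congr_ae h1]
  refine le_trans (le_of_eq ?_) (h g L t hL ht hg)
  refine measureReal_congr ?_
  filter_upwards [h1] with U hU
  show (t ≤ |f U - _|) = (t ≤ |g U - _|)
  rw [hU]

/-- distance to a set -/
noncomputable def dS (A : Set (OG n)) (U : OG n) : ℝ := ⨅ V : A, dO U V

lemma dS_le {A : Set (OG n)} (U : OG n) {V : OG n} (hV : V ∈ A) : dS A U ≤ dO U V :=
  ciInf_le ⟨0, by rintro _ ⟨W, rfl⟩; exact dO_nonneg _ _⟩ (⟨V, hV⟩ : A)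

lemma dS_nonneg (A : Set (OG n)) (U : OG n) : 0 ≤ dS A U :=
  Real.iInf_nonneg fun _ => dO_nonneg _ _

lemma exists_of_dS_lt {A : Set (OG n)} (hA : A.Nonempty) {U : OG n} {r : ℝ} (h : dS A U < r) :
    ∃ V ∈ A, dO U V < r := by
  have := hA.to_subtype
  obtain ⟨V, hV⟩ := exists_lt_of_ciInf_lt h
  exact ⟨V, V.2, hV⟩

lemma lipO_dS {A : Set (OG n)} (hA : A.Nonempty) : LipO univ 1 (dS A) := by
  have key : ∀ U V, dS A U - dS A V ≤ dO U V := by
    intro U V
    refine le_of_forall_pos_lt_add fun ε hε => ?_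
    obtain ⟨W, hW, h⟩ := exists_of_dS_lt hA (U := V) (r := dS A V + ε) (by linarith)
    linarith [dS_le U hW, dO_triangle U V W]
  intro U _ V _
  rw [one_mul, abs_sub_le_iff]
  exact ⟨key U V, (key V U).trans_eq (dO_comm _ _)⟩

/-- **blow-up**: a set that is not too small is close to almost every point -/
theorem Conc.blowup (h : Conc μ c) {A : Set (OG n)} {r t : ℝ} (hr : 0 ≤ r)
    (ht : 0 ≤ t) (hA : 2 * Real.exp (-(c * r ^ 2)) < μ.real A) :
    μ.real {U | ∀ V ∈ A, r + t ≤ dO U V} ≤ 2 * Real.exp (-(c * t ^ 2)) := by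
  have hne : A.Nonempty := by
    rcases A.eq_empty_or_nonempty with rfl | h'
    · simp only [measureReal_empty] at hA
      linarith [Real.exp_pos (-(c * r ^ 2))]
    · exact h'
  have hl := lipO_dS hne
  set a := ∫ V, dS A V ∂μ
  have ha0 : 0 ≤ a := integral_nonneg fun V => dS_nonneg A V
  have h1 : a < r := by
    by_contra hlt
    have hle : r ≤ a := not_lt.1 hlt
    have h2 := h _ 1 r one_pos hr hl
    rw [one_pow, div_one] at h2
    refine absurd (le_trans (measureReal_mono fun U hU => ?_) h2) (not_le.2 hA)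
    have h3 : dS A U = 0 := le_antisymm ((dS_le U hU).trans_eq (dO_self U)) (dS_nonneg A U)
    simp only [mem_ofPred_eq, h3, zero_sub, abs_neg]
    exact hle.trans (le_abs_self _)
  have h2 := h _ 1 t one_pos ht hl
  rw [one_pow, div_one] at h2
  refine le_trans (measureReal_mono fun U hU => ?_) h2
  simp only [mem_ofPred_eq] at hU ⊢
  have h3 : r + t ≤ dS A U := by
    have := hne.to_subtype
    exact le_ciInf fun V => hU V V.2
  exact le_trans (by linarith) (le_abs_self _)

/-- two sets that are not too small contain close points -/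
theorem Conc.sep (h : Conc μ c) {A B : Set (OG n)} {r : ℝ} (hr : 0 ≤ r)
    (hA : 2 * Real.exp (-(c * r ^ 2 / 4)) < μ.real A)
    (hB : 2 * Real.exp (-(c * r ^ 2 / 4)) < μ.real B) : ∃ U ∈ A, ∃ V ∈ B, dO U V < r := by
  have e : c * r ^ 2 / 4 = c * (r / 2) ^ 2 := by ring
  rw [e] at hA hB
  by_contra hn
  push Not at hn
  have h1 := h.blowup (r := r / 2) (t := r / 2) (by linarith) (by linarith) hB
  refine absurd (le_trans (measureReal_mono fun U hU => ?_) h1) (not_le.2 hA)
  intro V hV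
  rw [add_halves]
  exact hn U hU V hV

lemma real_iUnion_le {s : ℕ → Set (OG n)} (hs : Monotone s) {p : ℝ}
    (h : ∀ k, μ.real (s k) ≤ p) : μ.real (⋃ k, s k) ≤ p := by
  have h1 := (ENNReal.tendsto_toReal (measure_ne_top μ _)).comp
    (tendsto_measure_iUnion_atTop (μ := μ) hs)
  exact le_of_tendsto' h1 h

/-- **concentration from a local oscillation bound on a good set** (no measurability needed) -/
theorem Conc.of_local (h : Conc μ c) {G : Set (OG n)} {r D : ℝ} (hr : 0 ≤ r)
    (hG : 2 * Real.exp (-(c * r ^ 2 / 4)) < μ.real G) {f : OG n → ℝ}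
    (hf : ∀ U ∈ G, ∀ V ∈ G, dO U V < r → |f U - f V| ≤ D) :
    ∃ a : ℝ, μ.real {U | U ∈ G ∧ D / 2 < |f U - a|} ≤ 4 * Real.exp (-(c * r ^ 2 / 4)) := by
  set p := 2 * Real.exp (-(c * r ^ 2 / 4)) with hp
  have key : ∀ x y : ℝ, p < μ.real {U | U ∈ G ∧ f U ≤ x} → p < μ.real {U | U ∈ G ∧ y ≤ f U} →
      y ≤ x + D := by
    intro x y hx hy
    obtain ⟨U, hU, V, hV, hd⟩ := h.sep hr hx hy
    have := abs_le.1 (hf U hU.1 V hV.1 hd)
    linarith [hU.2, hV.2]
  have hne : ∃ x : ℝ, p < μ.real {U | U ∈ G ∧ f U ≤ x} := by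
    by_contra hn
    push Not at hn
    have h1 := real_iUnion_le (μ := μ) (s := fun k : ℕ => {U | U ∈ G ∧ f U ≤ k})
      (fun k l hkl U hU => ⟨hU.1, hU.2.trans (by exact_mod_cast hkl)⟩) fun k => hn k
    refine absurd (le_trans (measureReal_mono fun U hU => ?_) h1) (not_le.2 hG)
    obtain ⟨k, hk⟩ := exists_nat_ge (f U)
    exact mem_iUnion.2 ⟨k, hU, hk⟩
  have hne' : ∃ y : ℝ, p < μ.real {U | U ∈ G ∧ y ≤ f U} := by
    by_contra hn
    push Not at hn
    have h1 := real_iUnion_le (μ := μ) (s := fun k : ℕ => {U | U ∈ G ∧ -(k : ℝ) ≤ f U})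
      (fun k l hkl U hU => ⟨hU.1, le_trans (neg_le_neg (by exact_mod_cast hkl)) hU.2⟩)
      fun k => hn _
    refine absurd (le_trans (measureReal_mono fun U hU => ?_) h1) (not_le.2 hG)
    obtain ⟨k, hk⟩ := exists_nat_ge (-f U)
    exact mem_iUnion.2 ⟨k, hU, by linarith⟩
  set S := {x : ℝ | p < μ.real {U | U ∈ G ∧ f U ≤ x}} with hS
  obtain ⟨y0, hy0⟩ := hne'
  have hb : BddBelow S := ⟨y0 - D, fun x hx => by linarith [key x y0 hx hy0]⟩
  have hlow : μ.real {U | U ∈ G ∧ f U < sInf S} ≤ p := by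
    have h1 := real_iUnion_le (μ := μ)
      (s := fun k : ℕ => {U | U ∈ G ∧ f U ≤ sInf S - 1 / ((k : ℝ) + 1)}) (p := p)
      (fun k l hkl U hU => ⟨hU.1, hU.2.trans (by
        have : (k : ℝ) ≤ l := by exact_mod_cast hkl
        gcongr)⟩) fun k => by
          by_contra hk
          have h2 := csInf_le hb (show sInf S - 1 / ((k : ℝ) + 1) ∈ S from not_le.1 hk)
          have : (0 : ℝ) < 1 / ((k : ℝ) + 1) := by positivity
          linarith
    refine le_trans (measureReal_mono fun U hU => ?_) h1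
    obtain ⟨k, hk⟩ := exists_nat_one_div_lt (sub_pos.2 hU.2)
    exact mem_iUnion.2 ⟨k, hU.1, by linarith⟩
  have hup : μ.real {U | U ∈ G ∧ sInf S + D < f U} ≤ p := by
    have h1 := real_iUnion_le (μ := μ)
      (s := fun k : ℕ => {U | U ∈ G ∧ sInf S + D + 1 / ((k : ℝ) + 1) ≤ f U}) (p := p)
      (fun k l hkl U hU => ⟨hU.1, le_trans (by
        have : (k : ℝ) ≤ l := by exact_mod_cast hkl
        gcongr) hU.2⟩) fun k => by
          by_contra hk
          have : (0 : ℝ) < 1 / ((k : ℝ) + 1) := by positivity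
          obtain ⟨x, hx, hx'⟩ := exists_lt_of_csInf_lt hne
            (show sInf S < sInf S + 1 / ((k : ℝ) + 1) by linarith)
          linarith [key x _ hx (not_le.1 hk)]
    refine le_trans (measureReal_mono fun U hU => ?_) h1
    obtain ⟨k, hk⟩ := exists_nat_one_div_lt (sub_pos.2 hU.2)
    exact mem_iUnion.2 ⟨k, hU.1, by linarith⟩
  refine ⟨sInf S + D / 2, ?_⟩
  have hsub : {U | U ∈ G ∧ D / 2 < |f U - (sInf S + D / 2)|} ⊆
      {U | U ∈ G ∧ f U < sInf S} ∪ {U | U ∈ G ∧ sInf S + D < f U} := by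
    rintro U ⟨hU, h1⟩
    rcases lt_abs.1 h1 with h2 | h2
    · exact Or.inr ⟨hU, by linarith⟩
    · exact Or.inl ⟨hU, by linarith⟩
  have := (measureReal_mono hsub).trans (measureReal_union_le (μ := μ) _ _)
  linarith

/-- identification of the constant with the mean of a bounded measurable function -/
theorem abs_sub_integral_le {f : OG n → ℝ} (hm : Measurable f) {B D q a : ℝ}
    (hb : ∀ U, |f U| ≤ B) (hq : q < 1) (h : μ.real {U | D < |f U - a|} ≤ q) :
    |a - ∫ U, f U ∂μ| ≤ D + 2 * B * q := by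
  set S := {U | D < |f U - a|} with hS
  have hSm : MeasurableSet S := measurableSet_lt measurable_const (hm.sub_const a).abs
  have hB : 0 ≤ B := (abs_nonneg _).trans (hb 1)
  have hne : ∃ U, U ∉ S := by
    by_contra hn
    push Not at hn
    have : S = univ := eq_univ_of_forall hn
    rw [this] at h
    simp only [probReal_univ] at h
    linarith
  obtain ⟨U0, hU0⟩ := hne
  have ha : |a| ≤ B + D := by
    have h1 : |f U0 - a| ≤ D := not_lt.1 hU0
    have h2 := abs_le.1 h1
    have h3 := abs_le.1 (hb U0)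
    exact abs_le.2 ⟨by linarith, by linarith⟩
  have hi : Integrable f μ :=
    Integrable.of_bound hm.aestronglyMeasurable B (ae_of_all _ fun U => hb U)
  have e : a - ∫ U, f U ∂μ = ∫ U, (a - f U) ∂μ := by
    rw [integral_sub (integrable_const a) hi]; simp
  have hi2 : Integrable (fun U => D + S.indicator (fun _ => 2 * B) U) μ :=
    (integrable_const D).add ((integrable_const _).indicator hSm)
  rw [e]
  refine (abs_integral_le_integral_abs).trans ?_
  refine (integral_mono ((integrable_const a).sub hi).abs hi2 fun U => ?_).trans ?_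
  · show |a - f U| ≤ D + S.indicator (fun _ => 2 * B) U
    by_cases hU : U ∈ S
    · rw [indicator_of_mem hU]
      have h2 := abs_le.1 ha
      have h3 := abs_le.1 (hb U)
      exact abs_le.2 ⟨by linarith, by linarith⟩
    · rw [indicator_of_notMem hU, add_zero, abs_sub_comm]
      exact not_lt.1 hU
  · rw [integral_add (integrable_const D) ((integrable_const _).indicator hSm),
      integral_indicator hSm]
    simp only [integral_const, probReal_univ, smul_eq_mul, one_mul, MeasurableSet.univ,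
      measureReal_restrict_apply, univ_inter]
    nlinarith

/-- local oscillation bound on a good set: concentration about the mean -/
theorem Conc.of_local_mean (h : Conc μ c) {G : Set (OG n)} {r D B p : ℝ}
    (hr : 0 ≤ r) (hG : μ.real Gᶜ ≤ p)
    (hp : p + 4 * Real.exp (-(c * r ^ 2 / 4)) < 1) {f : OG n → ℝ} (hm : Measurable f)
    (hb : ∀ U, |f U| ≤ B) (hf : ∀ U ∈ G, ∀ V ∈ G, dO U V < r → |f U - f V| ≤ D) :
    μ.real {U | U ∈ G ∧ D + 2 * B * (p + 4 * Real.exp (-(c * r ^ 2 / 4))) <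
      |f U - ∫ V, f V ∂μ|} ≤ 4 * Real.exp (-(c * r ^ 2 / 4)) := by
  have h0 : 1 ≤ μ.real G + μ.real Gᶜ := by
    have := measureReal_union_le (μ := μ) G Gᶜ
    rwa [union_compl_self, probReal_univ] at this
  have he := Real.exp_pos (-(c * r ^ 2 / 4))
  obtain ⟨a, ha⟩ := h.of_local hr (by linarith) hf
  have h1 : μ.real {U | D / 2 < |f U - a|} ≤ p + 4 * Real.exp (-(c * r ^ 2 / 4)) := by
    have hsub : {U | D / 2 < |f U - a|} ⊆ Gᶜ ∪ {U | U ∈ G ∧ D / 2 < |f U - a|} := by
      intro U hU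
      by_cases hG : U ∈ G
      · exact Or.inr ⟨hG, hU⟩
      · exact Or.inl hG
    have := (measureReal_mono hsub).trans (measureReal_union_le (μ := μ) _ _)
    linarith
  have h2 := abs_sub_integral_le hm hb hp h1
  refine le_trans (measureReal_mono fun U hU => ?_) ha
  refine ⟨hU.1, ?_⟩
  have h3 := abs_sub_le (f U) a (∫ V, f V ∂μ)
  linarith [hU.2]

end

/-! ### Cayley paths -/

variable {P : Matrix (Fin n) (Fin n) ℝ}

/-- skew matrices acting on the range of `P` -/
def Sk (P B : Matrix (Fin n) (Fin n) ℝ) : Prop := Bᵀ = -B ∧ B * (1 - P) = 0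

lemma Sk.smul {B : Matrix (Fin n) (Fin n) ℝ} (h : Sk P B) (t : ℝ) : Sk P (t • B) :=
  ⟨by rw [transpose_smul, h.1, smul_neg], by rw [Matrix.smul_mul, h.2, smul_zero]⟩

lemma Sk.cay_mem {B : Matrix (Fin n) (Fin n) ℝ} (h : Sk P B) : cayG B h.1 ∈ SG P := by
  refine ⟨?_, Haar.det_cay h.1⟩
  show cay B * (1 - P) = 1 - P
  have h1 : (1 - B) * (1 - P) = 1 - P := by rw [sub_mul, one_mul, h.2, sub_zero]
  have h2 : rs B * (1 - P) = 1 - P := by
    conv_lhs => rw [← h1, ← mul_assoc, Haar.rs_mul h.1, one_mul]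
  rw [cay, sub_mul, Matrix.smul_mul, h2, one_mul, two_smul, add_sub_cancel_right]

/-- the Cayley path `t ↦ U cay (t B)` -/
noncomputable def cp (U : OG n) {B : Matrix (Fin n) (Fin n) ℝ} (hB : Sk P B) (t : ℝ) : OG n :=
  U * cayG (t • B) (hB.smul t).1

variable {B : Matrix (Fin n) (Fin n) ℝ}

lemma cp_zero (U : OG n) (hB : Sk P B) : cp U hB 0 = U := by
  apply Subtype.ext
  show U.1 * cay ((0 : ℝ) • B) = U.1
  rw [zero_smul, Haar.cay_zero, mul_one]

lemma cp_one (U : OG n) (hB : Sk P B) : cp U hB 1 = U * cayG B hB.1 := by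
  apply Subtype.ext
  show U.1 * cay ((1 : ℝ) • B) = U.1 * cay B
  rw [one_smul]

lemma cp_val (U : OG n) (hB : Sk P B) (t : ℝ) : (cp U hB t).1 = U.1 * cay (t • B) := rfl

lemma inv_mul_cp (U : OG n) (hB : Sk P B) (t : ℝ) : U⁻¹ * cp U hB t ∈ SG P := by
  rw [cp, inv_mul_cancel_left]; exact (hB.smul t).cay_mem

lemma cp_rel (U : OG n) (hB : Sk P B) (s t : ℝ) : (cp U hB s)⁻¹ * cp U hB t ∈ SG P := by
  have := (SG P).mul_mem ((SG P).inv_mem (inv_mul_cp U hB s)) (inv_mul_cp U hB t)
  simpa [mul_assoc] using this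

lemma dO_cp (U : OG n) (hB : Sk P B) (s t : ℝ) :
    dO (cp U hB s) (cp U hB t) ≤ 2 * fro B * |s - t| := by
  rw [cp, cp, dO_mul_left]
  refine (Haar.fro_cay_sub (hB.smul s).1 (hB.smul t).1).trans (le_of_eq ?_)
  rw [← sub_smul, Haar.fro_smul]; ring

lemma continuous_cp (U : OG n) (hB : Sk P B) : Continuous (cp U hB) := by
  refine continuous_OG fun i j => continuous_iff_continuousAt.2 fun t => ?_
  rw [ContinuousAt, tendsto_iff_norm_sub_tendsto_zero]
  have h1 : Tendsto (fun s => 2 * fro B * |s - t|) (𝓝 t) (𝓝 (2 * fro B * |t - t|)) :=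
    (by fun_prop : Continuous fun s => 2 * fro B * |s - t|).tendsto t
  rw [sub_self, abs_zero, mul_zero] at h1
  refine squeeze_zero (fun _ => norm_nonneg _) (fun s => ?_) h1
  exact (Haar.abs_entry_le ((cp U hB s).1 - (cp U hB t).1) i j).trans (dO_cp U hB s t)

/-- close points of one fibre are joined by a short Cayley path -/
theorem exists_cp {U V : OG n} (h : U⁻¹ * V ∈ HG P) (hd : dO U V ≤ 1) :
    ∃ (B : Matrix (Fin n) (Fin n) ℝ) (hB : Sk P B), fro B ≤ dO U V ∧ cp U hB 1 = V := by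
  set W := U⁻¹ * V with hW
  have hd' : fro (W.1 - 1) = dO U V := by
    rw [← dO_mul_left U⁻¹, inv_mul_cancel, dO_comm]; rfl
  have key : ∀ C, fro C ≤ fro ((W.1 + 1) * C) := by
    intro C
    have e : (2 : ℝ) • C = (W.1 + 1) * C - (W.1 - 1) * C := by
      rw [add_mul, sub_mul, one_mul, two_smul]; abel
    have h1 := Haar.fro_sub_le ((W.1 + 1) * C) ((W.1 - 1) * C)
    rw [← e, Haar.fro_smul] at h1
    have h2 := Haar.fro_mul_le (W.1 - 1) C
    have h3 := mul_le_mul_of_nonneg_right (hd'.trans_le hd) (fro_nonneg C)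
    rw [abs_two] at h1
    linarith
  have hu : IsUnit (W.1 + 1).det := by
    rw [isUnit_iff_ne_zero]
    intro h0
    obtain ⟨v, hv, h0⟩ := Matrix.exists_mulVec_eq_zero_iff.2 h0
    have h1 := key (Matrix.of fun i _ => v i)
    have h2 : (W.1 + 1) * (Matrix.of fun i (_ : Fin n) => v i) = 0 := by
      ext i j
      have := congrFun h0 i
      simpa [mul_apply, mulVec, dotProduct] using this
    rw [h2, fro_zero] at h1
    have h3 := Haar.fro_eq_zero (le_antisymm h1 (fro_nonneg _))
    apply hv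
    funext i
    simpa using congrFun (congrFun h3 i) i
  set M := W.1 + 1 with hM
  have m1 : M * M⁻¹ = 1 := mul_nonsing_inv _ hu
  have m2 : M⁻¹ * M = 1 := nonsing_inv_mul _ hu
  have e1 : M * (M⁻¹ * (W.1 - 1)) = W.1 - 1 := by rw [← mul_assoc, m1, one_mul]
  have e2 : M⁻¹ * (W.1 - 1) * M = W.1 - 1 := by
    have : (W.1 - 1) * M = M * (W.1 - 1) := by rw [hM]; noncomm_ring
    rw [mul_assoc, this, ← mul_assoc, m2, one_mul]
  have e3 : (M⁻¹ * (W.1 - 1))ᵀ * M = -(W.1 - 1) := by
    have h1 := congrArg (fun A => Aᵀ * W.1) e1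
    have h2 : Mᵀ * W.1 = M := by
      rw [hM, transpose_add, transpose_one, add_mul, OG.transpose_mul, one_mul, add_comm]
    simp only [transpose_mul M, mul_assoc] at h1
    rw [h2, transpose_sub, transpose_one, sub_mul, OG.transpose_mul, one_mul] at h1
    rw [h1, neg_sub]
  have hs : (M⁻¹ * (W.1 - 1))ᵀ = -(M⁻¹ * (W.1 - 1)) := by
    have h1 : (M⁻¹ * (W.1 - 1))ᵀ * M * M⁻¹ = -(M⁻¹ * (W.1 - 1)) * M * M⁻¹ := by
      rw [e3, neg_mul (M⁻¹ * (W.1 - 1)) M, e2]
    rwa [mul_assoc, m1, mul_one, mul_assoc, m1, mul_one] at h1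
  have hk : Sk P (M⁻¹ * (W.1 - 1)) :=
    ⟨hs, by rw [mul_assoc, sub_mul, mem_HG.1 h, one_mul, sub_self, mul_zero]⟩
  refine ⟨_, hk, ?_, ?_⟩
  · rw [← hd']
    exact (key _).trans_eq (by rw [e1])
  · have h1 : (1 - M⁻¹ * (W.1 - 1)) * M = (2 : ℝ) • 1 := by
      rw [sub_mul, one_mul, e2, hM, two_smul]; abel
    have h2 : M = (2 : ℝ) • rs (M⁻¹ * (W.1 - 1)) := by
      have := congrArg (fun A => rs (M⁻¹ * (W.1 - 1)) * A) h1
      simp only [← mul_assoc, Haar.rs_mul hs, one_mul, Matrix.mul_smul, mul_one] at this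
      exact this
    have h3 : cay (M⁻¹ * (W.1 - 1)) = W.1 := by rw [cay, ← h2, hM, add_sub_cancel_right]
    rw [cp_one]
    have h4 : cayG (M⁻¹ * (W.1 - 1)) hk.1 = W := Subtype.ext h3
    rw [h4, hW, mul_inv_cancel_left]

/-- infinitesimal Lipschitz bound at `U` along the fibre `U * SG P` -/
def ILip (P : Matrix (Fin n) (Fin n) ℝ) (f : OG n → ℝ) (L : ℝ) (U : OG n) : Prop :=
  ∀ ε > 0, ∃ δ > 0, ∀ V, U⁻¹ * V ∈ SG P → dO U V < δ → |f V - f U| ≤ (L + ε) * dO U V

lemma ILip.mono {f : OG n → ℝ} {L L' : ℝ} {U : OG n} (h : ILip P f L U) (hL : L ≤ L') :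
    ILip P f L' U := fun ε hε => by
  obtain ⟨δ, hδ, h1⟩ := h ε hε
  exact ⟨δ, hδ, fun V hV hd => (h1 V hV hd).trans
    (mul_le_mul_of_nonneg_right (by linarith) (dO_nonneg _ _))⟩

/-- a first order bound with a quadratic remainder gives the infinitesimal bound -/
lemma ILip.of_sq {f : OG n → ℝ} {L K δ : ℝ} {U : OG n} (hδ : 0 < δ)
    (h : ∀ V, U⁻¹ * V ∈ SG P → dO U V < δ → |f V - f U| ≤ L * dO U V + K * dO U V ^ 2) :
    ILip P f L U := fun ε hε => by
  refine ⟨min δ (ε / (|K| + 1)), by positivity, fun V hV hd => ?_⟩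
  have h1 := h V hV (hd.trans_le (min_le_left _ _))
  have h2 : dO U V * (|K| + 1) < ε :=
    (lt_div_iff₀ (by positivity)).1 (hd.trans_le (min_le_right _ _))
  have h3 := dO_nonneg U V
  have h4 : K * dO U V ≤ ε := by nlinarith [le_abs_self K]
  nlinarith

/-- **continuity argument along a Cayley path.** `g` is the monitored quantity: it is closed under
limits along the path (`hc`) and infinitesimally Lipschitz as long as it is at most `b`. -/
theorem path_boot {g : OG n → ℝ} {L b : ℝ} (hL : 0 ≤ L) (U : OG n) (hB : Sk P B)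
    (hc : LowerSemicontinuousOn (fun t => g (cp U hB t)) (Icc 0 1))
    (hl : ∀ t ∈ Ico (0 : ℝ) 1, g (cp U hB t) ≤ b → ILip P g L (cp U hB t))
    (hb : g U + 2 * L * fro B < b) :
    ∀ t ∈ Icc (0 : ℝ) 1, g (cp U hB t) ≤ g U + 2 * L * fro B * t := by
  have hF := fro_nonneg B
  have key : ∀ ε > 0, g U + 2 * (L + ε) * fro B ≤ b →
      ∀ t ∈ Icc (0 : ℝ) 1, g (cp U hB t) ≤ g U + 2 * (L + ε) * fro B * t := by
    intro ε hε hε'
    have hcl : IsClosed ({t : ℝ | g (cp U hB t) ≤ g U + 2 * (L + ε) * fro B * t} ∩ Icc 0 1) := by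
      have h1 : LowerSemicontinuousOn
          (fun t => g (cp U hB t) + -(g U + 2 * (L + ε) * fro B * t)) (Icc 0 1) :=
        hc.add ((by fun_prop : Continuous fun t : ℝ =>
          -(g U + 2 * (L + ε) * fro B * t)).lowerSemicontinuous.lowerSemicontinuousOn _)
      refine isClosed_of_closure_subset fun t ht => ?_
      have ht' : t ∈ Icc (0 : ℝ) 1 :=
        isClosed_Icc.closure_subset (closure_mono inter_subset_right ht)
      refine ⟨?_, ht'⟩
      by_contra hn
      have h2 := h1 t ht' 0 (by simp only [mem_ofPred_eq, not_le] at hn; linarith)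
      rw [mem_closure_iff_frequently] at ht
      rw [eventually_nhdsWithin_iff] at h2
      obtain ⟨s, hs, hs'⟩ := (ht.and_eventually h2).exists
      have := hs' hs.2
      have h3 := hs.1
      simp only [mem_ofPred_eq] at h3
      linarith
    refine hcl.Icc_subset_of_forall_exists_gt (by simp [cp_zero]) ?_
    rintro x ⟨hx, hx'⟩ y hy
    simp only [mem_ofPred_eq] at hx
    have h0 : 0 ≤ 2 * (L + ε) * fro B := by positivity
    obtain ⟨δ, hδ, h1⟩ := hl x hx' (by nlinarith [hx'.2]) ε hε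
    set s := min y (x + δ / (2 * fro B + 1)) with hs
    have hxs : x < s := lt_min hy (by
      have : 0 < δ / (2 * fro B + 1) := by positivity
      linarith)
    have h2 := dO_cp U hB x s
    rw [abs_sub_comm, abs_of_pos (sub_pos.2 hxs)] at h2
    have h3 : (s - x) * (2 * fro B + 1) ≤ δ :=
      (le_div_iff₀ (by positivity)).1 (by linarith [min_le_right y (x + δ / (2 * fro B + 1))])
    have h4 := h1 _ (cp_rel U hB x s) (by nlinarith)
    refine ⟨s, ?_, hxs, min_le_left _ _⟩
    simp only [mem_ofPred_eq]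
    have h5 := (abs_le.1 h4).2
    have h6 := mul_le_mul_of_nonneg_left h2 (by positivity : 0 ≤ L + ε)
    nlinarith
  intro t ht
  refine le_of_forall_pos_le_add fun η hη => ?_
  set ε := min η (b - (g U + 2 * L * fro B)) / (2 * fro B + 1) with hε
  have hm : 0 < min η (b - (g U + 2 * L * fro B)) := lt_min hη (by linarith)
  have hε0 : 0 < ε := by positivity
  have h1 : ε * (2 * fro B + 1) = min η (b - (g U + 2 * L * fro B)) := by
    rw [hε]; field_simp
  have h2 := min_le_left η (b - (g U + 2 * L * fro B))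
  have h3 := min_le_right η (b - (g U + 2 * L * fro B))
  have h4 := key ε hε0 (by nlinarith) t ht
  have h5 : ε * fro B * t ≤ ε * fro B * 1 := mul_le_mul_of_nonneg_left ht.2 (by positivity)
  nlinarith

lemma ILip.continuousAt_cp {f : OG n → ℝ} {L : ℝ} {U : OG n} {hB : Sk P B} {t : ℝ}
    (h : ILip P f L (cp U hB t)) : ContinuousAt (fun s => f (cp U hB s)) t := by
  obtain ⟨δ, hδ, h1⟩ := h 1 one_pos
  have h2 : Tendsto (fun s => dO (cp U hB t) (cp U hB s)) (𝓝 t) (𝓝 0) := by
    have := (continuous_dO.comp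
      (continuous_const (y := cp U hB t).prodMk (continuous_cp U hB))).tendsto t
    simpa [dO_self, Function.comp_def] using this
  rw [ContinuousAt, tendsto_iff_norm_sub_tendsto_zero]
  have h3 := h2.const_mul (L + 1)
  rw [mul_zero] at h3
  refine squeeze_zero' (Eventually.of_forall fun _ => norm_nonneg _) ?_ h3
  filter_upwards [h2.eventually (gt_mem_nhds hδ)] with s hs using h1 _ (cp_rel U hB t s) hs

/-- an infinitesimal bound along the whole path bounds the increment -/
theorem path_lip {f : OG n → ℝ} {L : ℝ} (hL : 0 ≤ L) (U : OG n) (hB : Sk P B)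
    (hl : ∀ t ∈ Icc (0 : ℝ) 1, ILip P f L (cp U hB t)) :
    |f (cp U hB 1) - f U| ≤ 2 * L * fro B := by
  have key : ∀ f : OG n → ℝ, (∀ t ∈ Icc (0 : ℝ) 1, ILip P f L (cp U hB t)) →
      f (cp U hB 1) ≤ f U + 2 * L * fro B := by
    intro f hl
    have := path_boot (g := f) (b := f U + 2 * L * fro B + 1) hL U hB
      (ContinuousOn.lowerSemicontinuousOn fun t ht =>
        (hl t ht).continuousAt_cp.continuousWithinAt)
      (fun t ht _ => hl t (Ico_subset_Icc_self ht)) (by linarith) 1 (by simp)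
    rwa [mul_one] at this
  have h1 := key f hl
  have h2 := key (fun V => -f V) fun t ht ε hε => by
    obtain ⟨δ, hδ, h⟩ := hl t ht ε hε
    exact ⟨δ, hδ, fun V hV hd => by rw [← neg_sub', abs_neg]; exact h V hV hd⟩
  exact abs_le.2 ⟨by linarith, by linarith⟩

/-- gradient bound on the `2r`-neighbourhood of a point gives the two-point bound -/
theorem lip_of_nbhd {f : OG n → ℝ} {L : ℝ} (hL : 0 ≤ L) {U V : OG n} (h : U⁻¹ * V ∈ HG P)
    (hd : dO U V ≤ 1)
    (hl : ∀ W, U⁻¹ * W ∈ SG P → dO U W ≤ 2 * dO U V → ILip P f L W) :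
    |f U - f V| ≤ 2 * L * dO U V := by
  obtain ⟨B, hB, h1, h2⟩ := exists_cp h hd
  have h3 := path_lip (f := f) hL U hB fun t ht => hl _ (inv_mul_cp U hB t) (by
    have h4 := dO_cp U hB 0 t
    rw [cp_zero, zero_sub, abs_neg, abs_of_nonneg ht.1] at h4
    nlinarith [ht.1, ht.2, fro_nonneg B])
  rw [h2, abs_sub_comm] at h3
  exact h3.trans (by gcongr)

/-- **stable good sets**: `g` is continuous and has gradient at most `Lg` on `{g ≤ b}`, where `f`
has gradient at most `L`; then `f` is `2L`-Lipschitz from every point of `{g ≤ a}` up to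
the distance `r` as soon as `a + 2 Lg r < b`. -/
theorem lip_of_stable {f g : OG n → ℝ} {L Lg a b r : ℝ} (hL : 0 ≤ L) (hLg : 0 ≤ Lg) {U V : OG n}
    (h : U⁻¹ * V ∈ HG P) (hd : dO U V ≤ r) (hr : r ≤ 1) (hg : LowerSemicontinuous g)
    (hl : ∀ W, U⁻¹ * W ∈ SG P → g W ≤ b → ILip P g Lg W ∧ ILip P f L W) (ha : g U ≤ a)
    (hb : a + 2 * Lg * r < b) :
    g V ≤ a + 2 * Lg * r ∧ |f U - f V| ≤ 2 * L * dO U V := by
  obtain ⟨B, hB, h1, h2⟩ := exists_cp h (hd.trans hr)
  have hF := fro_nonneg B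
  have h0 : 2 * Lg * fro B ≤ 2 * Lg * r := by gcongr; exact h1.trans hd
  have h3 := path_boot (g := g) (b := b) hLg U hB
    ((hg.comp (continuous_cp U hB)).lowerSemicontinuousOn _)
    (fun t _ ht => (hl _ (inv_mul_cp U hB t) ht).1) (by linarith)
  have h5 : ∀ t ∈ Icc (0 : ℝ) 1, g (cp U hB t) ≤ a + 2 * Lg * r := fun t ht => by
    have h6 : 2 * Lg * fro B * t ≤ 2 * Lg * fro B * 1 :=
      mul_le_mul_of_nonneg_left ht.2 (by positivity)
    linarith [h3 t ht]
  have h4 := path_lip (f := f) hL U hB fun t ht =>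
    (hl _ (inv_mul_cp U hB t) ((h5 t ht).trans hb.le)).2
  rw [h2, abs_sub_comm] at h4
  exact ⟨h2 ▸ h5 1 (by simp), h4.trans (by gcongr)⟩

/-! ### Ward identities -/

/-- Ward identity along a curve in the subgroup -/
theorem InvOn.ward {H : Subgroup (OG n)} {ν : Measure (OG n)} (h : InvOn H ν) {γ : ℝ → OG n}
    (hγ : ∀ t, γ t ∈ H) (h0 : γ 0 = 1) {F D : OG n → ℝ} (hF : Measurable F) (hi : Integrable F ν)
    {K : ℝ} (hK : ∀ᶠ t in 𝓝 (0 : ℝ), ∀ U ∈ H, |F (U * γ t) - F U| ≤ K * |t|)
    (hD : ∀ U ∈ H, HasDerivAt (fun t => F (U * γ t)) (D U) 0) : ∫ U, D U ∂ν = 0 := by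
  have := h.prob
  have h1 := tendsto_integral_filter_of_dominated_convergence (μ := ν) (l := 𝓝[≠] (0 : ℝ))
    (F := fun t U => t⁻¹ • (F (U * γ (0 + t)) - F (U * γ 0))) (f := D) (fun _ => K)
    (Eventually.of_forall fun t => (((hF.comp (measurable_mul_const _)).sub
      (hF.comp (measurable_mul_const _))).const_smul t⁻¹).aestronglyMeasurable)
    (by
      filter_upwards [nhdsWithin_le_nhds hK, self_mem_nhdsWithin] with t ht ht0
      filter_upwards [h.ae] with U hU
      have h2 : 0 < |t| := abs_pos.2 ht0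
      rw [zero_add, h0, mul_one, norm_smul, norm_inv, Real.norm_eq_abs, Real.norm_eq_abs,
        inv_mul_le_iff₀ h2, mul_comm]
      exact ht U hU)
    (integrable_const K)
    (by
      filter_upwards [h.ae] with U hU
      exact hasDerivAt_iff_tendsto_slope_zero.1 (hD U hU))
  have h3 : ∀ g ∈ H, Integrable (fun U => F (U * g)) ν := fun g hg => by
    have h4 : Integrable F (ν.map fun U => U * g) := by rwa [h.right hg]
    exact h4.comp_measurable (measurable_mul_const g)
  have h2 : ∀ t : ℝ, ∫ U, t⁻¹ • (F (U * γ (0 + t)) - F (U * γ 0)) ∂ν = 0 := fun t => by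
    rw [integral_smul, integral_sub (h3 _ (hγ _)) (h3 _ (hγ _)), h.int_right (hγ _),
      h.int_right (hγ _), sub_self, smul_zero]
  simp only [h2] at h1
  exact (tendsto_nhds_unique tendsto_const_nhds h1).symm

/-- the Cayley curve `t ↦ cay ((t/2) X)` has velocity `X` at `0` -/
lemma hasDerivAt_cay {X : Matrix (Fin n) (Fin n) ℝ} (hX : Xᵀ = -X) (i j : Fin n) :
    HasDerivAt (fun t : ℝ => cay ((t / 2) • X) i j) (X i j) 0 := by
  rw [hasDerivAt_iff_isLittleO_nhds_zero]
  have h1 : ∀ t : ℝ, ‖cay (((0 + t) / 2) • X) i j - cay (((0 : ℝ) / 2) • X) i j - t • X i j‖ ≤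
      fro X ^ 2 * ‖t ^ 2‖ := by
    intro t
    have hs : ((t / 2) • X)ᵀ = -((t / 2) • X) := by rw [transpose_smul, hX, smul_neg]
    have h2 := (Haar.abs_entry_le _ i j).trans (Haar.fro_cay_second hs)
    rw [Haar.fro_smul, smul_smul, mul_pow, sq_abs] at h2
    rw [zero_add, zero_div, zero_smul, Haar.cay_zero, Real.norm_eq_abs, Real.norm_eq_abs,
      abs_of_nonneg (sq_nonneg t)]
    have e : 2 * (t / 2) = t := by ring
    rw [e] at h2
    refine le_trans h2 ?_
    nlinarith [mul_nonneg (sq_nonneg t) (sq_nonneg (fro X))]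
  exact (Asymptotics.IsBigO.of_bound _ (Eventually.of_forall h1)).trans_isLittleO
    (Asymptotics.isLittleO_pow_id (by norm_num))

lemma hasDerivAt_mul_cay {X : Matrix (Fin n) (Fin n) ℝ} (hX : Xᵀ = -X)
    (A : Matrix (Fin n) (Fin n) ℝ) :
    HasDerivAt (fun t : ℝ => fun i j => (A * cay ((t / 2) • X)) i j) (fun i j => (A * X) i j) 0 := by
  refine hasDerivAt_pi.2 fun i => hasDerivAt_pi.2 fun j => ?_
  simp only [mul_apply]
  exact HasDerivAt.fun_sum fun k _ => (hasDerivAt_cay hX k j).const_mul (A i k)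

/-- **Ward identity** on a fibre, Lipschitz form: `D U` is the derivative of `F` at `U` along the
Cayley curve with velocity `U X` -/
theorem ward_lip {X : Matrix (Fin n) (Fin n) ℝ} (hX : Sk P X) {F D : OG n → ℝ} {L : ℝ}
    (hF : Measurable F) (hL : LipO (SG P) L F)
    (hD : ∀ U ∈ SG P, HasDerivAt (fun t : ℝ => F (cp U hX (t / 2))) (D U) 0) :
    ∫ U, D U ∂haarP P = 0 := by
  have hb : ∀ U ∈ SG P, |F U| ≤ |F 1| + |L| * (2 * √n) := fun U hU => by
    have h1 := hL U hU 1 (SG P).one_mem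
    have h2 : dO U 1 ≤ 2 * √n := by
      have := Haar.fro_sub_le U.1 (1 : OG n).1
      rw [Haar.fro_orth, Haar.fro_orth, Fintype.card_fin] at this
      rw [dO]; linarith
    have h3 : L * dO U 1 ≤ |L| * (2 * √n) :=
      mul_le_mul (le_abs_self L) h2 (dO_nonneg _ _) (abs_nonneg L)
    have h4 := abs_add_le (F U - F 1) (F 1)
    rw [sub_add_cancel] at h4
    linarith
  refine (invOn_haarP P).ward (γ := fun t => cayG ((t / 2) • X) (hX.smul _).1)
    (fun t => (hX.smul _).cay_mem) ?_ hF ?_ (K := |L| * fro X)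
    (Eventually.of_forall fun t U hU => ?_) hD
  · apply Subtype.ext
    show cay (((0 : ℝ) / 2) • X) = 1
    rw [zero_div, zero_smul, Haar.cay_zero]
  · exact Integrable.of_bound hF.aestronglyMeasurable _
      ((invOn_haarP P).ae.mono fun U hU => hb U hU)
  · have h1 := hL _ ((SG P).mul_mem hU (hX.smul (t / 2)).cay_mem) U hU
    have h2 := dO_cp U hX (t / 2) 0
    rw [cp_zero, sub_zero, abs_div, abs_two] at h2
    refine h1.trans ((mul_le_mul (le_abs_self L) h2 (dO_nonneg _ _) (abs_nonneg L)).trans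
      (le_of_eq (by ring)))

/-- **Ward identity** on the fibre `O * SG P` for a `C¹` function of the matrix entries -/
theorem ward_smooth {X : Matrix (Fin n) (Fin n) ℝ} (hX : Sk P X) (O : OG n)
    {f : (Fin n → Fin n → ℝ) → ℝ} (hf : ContDiff ℝ 1 f) :
    ∫ U, fderiv ℝ f (fun i j => (O * U).1 i j) (fun i j => ((O * U).1 * X) i j) ∂haarP P = 0 := by
  obtain ⟨K, hK⟩ := (isCompact_closedBall (0 : Fin n → Fin n → ℝ) 1).exists_bound_of_continuousOn
    (hf.continuous_fderiv one_ne_zero).continuousOn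
  have hd := hf.differentiable one_ne_zero
  have hm : ∀ U : OG n, (fun i j => U.1 i j) ∈ Metric.closedBall (0 : Fin n → Fin n → ℝ) 1 := by
    intro U
    rw [mem_closedBall_zero_iff, pi_norm_le_iff_of_nonneg zero_le_one]
    exact fun i => (pi_norm_le_iff_of_nonneg zero_le_one).2 fun j => OG.abs_le_one U i j
  have hK0 : 0 ≤ K := (norm_nonneg _).trans (hK 0 (by simp))
  refine ward_lip hX (F := fun U => f fun i j => (O * U).1 i j) (L := K) ?_ ?_ ?_
  · exact (hf.continuous.comp (continuous_pi fun i => continuous_pi fun j =>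
      (continuous_entry i j).comp (continuous_const.mul continuous_id))).measurable
  · intro U _ V _
    have h1 := (convex_closedBall (0 : Fin n → Fin n → ℝ) 1).norm_image_sub_le_of_norm_fderiv_le
      (fun x _ => hd x) hK (hm (O * V)) (hm (O * U))
    refine le_trans h1 (mul_le_mul_of_nonneg_left ?_ hK0)
    rw [← dO_mul_left O]
    refine (pi_norm_le_iff_of_nonneg (dO_nonneg _ _)).2 fun i =>
      (pi_norm_le_iff_of_nonneg (dO_nonneg _ _)).2 fun j => ?_
    exact Haar.abs_entry_le ((O * U).1 - (O * V).1) i j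
  · intro U _
    have h1 := hasDerivAt_mul_cay hX.1 (O * U).1
    have h2 : HasFDerivAt f (fderiv ℝ f fun i j => (O * U).1 i j)
        ((fun t : ℝ => fun i j => ((O * U).1 * cay ((t / 2) • X)) i j) 0) := by
      simp only [zero_div, zero_smul, Haar.cay_zero, mul_one]
      exact (hd _).hasFDerivAt
    have h3 := h2.comp_hasDerivAt (0 : ℝ) h1
    refine h3.congr_of_eventuallyEq (Eventually.of_forall fun t => ?_)
    simp only [Function.comp_apply, OG.coe_mul, cp_val, mul_assoc]

/-! ### Functions invariant under a reflection -/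

lemma mul_inv_mem_SG {O R : OG n} (hO : O ∈ HG P) (hR : R ∈ HG P) (h1 : O.1.det ≠ 1)
    (h2 : R.1.det ≠ 1) : O * R⁻¹ ∈ SG P ∧ R⁻¹ * O ∈ SG P := by
  have e1 := (OG.det_eq O).resolve_left h1
  have e2 := (OG.det_eq R).resolve_left h2
  refine ⟨⟨(HG P).mul_mem hO ((HG P).inv_mem hR), ?_⟩,
    ⟨(HG P).mul_mem ((HG P).inv_mem hR) hO, ?_⟩⟩ <;>
  · rw [OG.coe_mul, OG.coe_inv, det_mul, det_transpose, e1, e2]; norm_num

theorem lint_haarH_of_right {R : OG n} (hR : R ∈ HG P) (hd : R.1.det ≠ 1) {F : OG n → ENNReal}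
    (hF : Measurable F) (h : ∀ U, F (U * R) = F U) :
    ∫⁻ U, F U ∂haarH P = ∫⁻ U, F U ∂haarP P := by
  rw [← (invOn_haarH P).lint_fibre_left (invOn_haarP P) SG_le_HG hF,
    lintegral_congr_ae (g := fun _ => ∫⁻ U, F U ∂haarP P)]
  · simp
  · filter_upwards [(invOn_haarH P).ae] with O hO
    by_cases h1 : O.1.det = 1
    · exact (invOn_haarP P).lint_right ⟨hO, h1⟩ hF
    · rw [← (invOn_haarP P).lint_right (mul_inv_mem_SG hO hR h1 hd).1 hF]
      refine lintegral_congr fun U => ?_
      rw [← h (U * (O * R⁻¹))]; simp [mul_assoc]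

theorem lint_haarH_of_left {R : OG n} (hR : R ∈ HG P) (hd : R.1.det ≠ 1) {F : OG n → ENNReal}
    (hF : Measurable F) (h : ∀ U, F (R * U) = F U) :
    ∫⁻ U, F U ∂haarH P = ∫⁻ U, F U ∂haarP P := by
  rw [← (invOn_haarH P).lint_fibre (invOn_haarP P) SG_le_HG hF,
    lintegral_congr_ae (g := fun _ => ∫⁻ U, F U ∂haarP P)]
  · simp
  · filter_upwards [(invOn_haarH P).ae] with O hO
    by_cases h1 : O.1.det = 1
    · exact (invOn_haarP P).lint_left ⟨hO, h1⟩ hF
    · rw [← (invOn_haarP P).lint_left (mul_inv_mem_SG hO hR h1 hd).2 hF]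
      refine lintegral_congr fun U => ?_
      rw [← h (R⁻¹ * O * U)]; simp [mul_assoc]

/-- the law of a function invariant under one reflection is the same on both groups -/
theorem map_haarH_eq {α : Type*} [MeasurableSpace α] {R : OG n} (hR : R ∈ HG P)
    (hd : R.1.det ≠ 1) {f : OG n → α} (hf : Measurable f)
    (h : (∀ U, f (R * U) = f U) ∨ ∀ U, f (U * R) = f U) :
    (haarH P).map f = (haarP P).map f := by
  ext s hs
  rw [← lintegral_indicator_one hs, ← lintegral_indicator_one hs,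
    lintegral_map (measurable_one.indicator hs) hf, lintegral_map (measurable_one.indicator hs) hf]
  rcases h with h | h
  · exact lint_haarH_of_left hR hd ((measurable_one.indicator hs).comp hf) fun U => by rw [h]
  · exact lint_haarH_of_right hR hd ((measurable_one.indicator hs).comp hf) fun U => by rw [h]

/-- concentration on the full stabiliser for functions invariant under one reflection -/
theorem Conc.of_refl {c : ℝ} (hc : Conc (haarP P) c) {R : OG n} (hR : R ∈ HG P)
    (hd : R.1.det ≠ 1) {f : OG n → ℝ} {L t : ℝ} (hL : 0 < L) (ht : 0 ≤ t) (hf : LipO univ L f)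
    (h : (∀ U, f (R * U) = f U) ∨ ∀ U, f (U * R) = f U) :
    (haarH P).real {U | t ≤ |f U - ∫ V, f V ∂haarH P|} ≤
      2 * Real.exp (-(c * t ^ 2 / L ^ 2)) := by
  have hm := hf.continuous.measurable
  have e := map_haarH_eq hR hd hm h
  have e1 : ∫ V, f V ∂haarH P = ∫ V, f V ∂haarP P := by
    have h1 := integral_map (μ := haarH P) hm.aemeasurable (f := id) aestronglyMeasurable_id
    have h2 := integral_map (μ := haarP P) hm.aemeasurable (f := id) aestronglyMeasurable_id
    rw [e] at h1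
    exact h1.symm.trans h2
  have hs : MeasurableSet {x : ℝ | t ≤ |x - ∫ V, f V ∂haarP P|} :=
    measurableSet_le measurable_const (measurable_id.sub_const _).abs
  have e2 := congrArg (fun m : Measure ℝ => m.real {x : ℝ | t ≤ |x - ∫ V, f V ∂haarP P|}) e
  simp only [map_measureReal_apply hm hs] at e2
  rw [e1]
  exact e2.trans_le (hc f L t hL ht hf)

/-- Laplace transform bound on `SO(range P)` -/
theorem mgf_haarP (hP : Pᵀ = P) (hPP : P * P = P) (hm : 2 < trace P) {f : OG n → ℝ} {L : ℝ}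
    (hL : 0 ≤ L) (hf : LipO univ L f) (l : ℝ) :
    ∫ U, Real.exp (l * (f U - ∫ V, f V ∂haarP P)) ∂haarP P ≤
      Real.exp (32 * l ^ 2 * L ^ 2 / (trace P - 2)) := by
  obtain ⟨M, hM⟩ := isCompact_univ.exists_bound_of_continuousOn hf.continuous.continuousOn
  refine Haar.mgf_core hP hPP hm (haarP P) (fun B hB h0 => (invOn_haarP P).right
    ⟨Haar.cayG_mem_St hB h0, Haar.det_cay hB⟩) hf.continuous.measurable (M := M)
    (fun O => hM O trivial) hL (fun η hη => ⟨1, one_pos, fun O V _ _ => ?_⟩) 1 (fun H h1 _ => ?_) l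
  · have h2 := hf (O * V) trivial (O * 1) trivial
    rw [dO_mul_left, mul_one] at h2
    exact h2.trans (mul_le_mul_of_nonneg_right (by linarith) (fro_nonneg _))
  · filter_upwards [(invOn_haarP P).ae] with O hO
    rw [inv_one, one_mul]
    exact Haar.mem_of_det hP hPP (by linarith) H h1 hO.1 hO.2

/-- **concentration on `SO(range P)`** with rate `(rank P - 2)/128` -/
theorem conc_haarP (hP : Pᵀ = P) (hPP : P * P = P) (hm : 2 < trace P) :
    Conc (haarP P) ((trace P - 2) / 128) := by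
  have h := conc_of_mgf (μ := haarP P) (σ := 32 / (trace P - 2)) (div_pos (by norm_num) (by linarith))
    fun f L l hL hf => (mgf_haarP hP hPP hm hL.le hf l).trans_eq (by congr 1; ring)
  rwa [show 1 / (4 * (32 / (trace P - 2))) = (trace P - 2) / 128 by
    have : trace P - 2 ≠ 0 := by linarith
    field_simp; ring] at h

/-- concentration passes to left translates (fibres `O * SG P`) -/
theorem Conc.fibre {μ : Measure (OG n)} {c : ℝ} (h : Conc μ c) (O : OG n) {f : OG n → ℝ}
    {L t : ℝ} (hL : 0 < L) (ht : 0 ≤ t) (hf : LipO univ L f) :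
    μ.real {U | t ≤ |f (O * U) - ∫ V, f (O * V) ∂μ|} ≤ 2 * Real.exp (-(c * t ^ 2 / L ^ 2)) :=
  h (fun U => f (O * U)) L t hL ht fun U _ V _ =>
    (hf _ trivial _ trivial).trans_eq (by rw [dO_mul_left])

/-- concentration passes to right translates (fibres `SG P * O`) -/
theorem Conc.fibre_right {μ : Measure (OG n)} {c : ℝ} (h : Conc μ c) (O : OG n) {f : OG n → ℝ}
    {L t : ℝ} (hL : 0 < L) (ht : 0 ≤ t) (hf : LipO univ L f) :
    μ.real {U | t ≤ |f (U * O) - ∫ V, f (V * O) ∂μ|} ≤ 2 * Real.exp (-(c * t ^ 2 / L ^ 2)) :=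
  h (fun U => f (U * O)) L t hL ht fun U _ V _ =>
    (hf _ trivial _ trivial).trans_eq (by rw [dO_mul_right])

lemma Conc.map_mul_left {μ : Measure (OG n)} {c : ℝ} (h : Conc μ c) (O : OG n) :
    Conc (μ.map fun U => O * U) c := fun f L t hL ht hf => by
  have hm : Measurable fun U : OG n => O * U := (continuous_const.mul continuous_id).measurable
  have hc := hf.continuous
  rw [integral_map hm.aemeasurable hc.aestronglyMeasurable, map_measureReal_apply hm
    (measurableSet_le measurable_const (hc.measurable.sub_const _).abs)]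
  exact h.fibre O hL ht hf

lemma Conc.map_mul_right {μ : Measure (OG n)} {c : ℝ} (h : Conc μ c) (O : OG n) :
    Conc (μ.map fun U => U * O) c := fun f L t hL ht hf => by
  have hm : Measurable fun U : OG n => U * O := (continuous_id.mul continuous_const).measurable
  have hc := hf.continuous
  rw [integral_map hm.aemeasurable hc.aestronglyMeasurable, map_measureReal_apply hm
    (measurableSet_le measurable_const (hc.measurable.sub_const _).abs)]
  exact h.fibre_right O hL ht hf

/-- concentration on the full stabiliser `O(range P)` for functions invariant under one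
reflection of the stabiliser -/
theorem conc_haarH (hP : Pᵀ = P) (hPP : P * P = P) (hm : 2 < trace P) {R : OG n} (hR : R ∈ HG P)
    (hd : R.1.det ≠ 1) {f : OG n → ℝ} {L t : ℝ} (hL : 0 < L) (ht : 0 ≤ t) (hf : LipO univ L f)
    (h : (∀ U, f (R * U) = f U) ∨ ∀ U, f (U * R) = f U) :
    (haarH P).real {U | t ≤ |f U - ∫ V, f V ∂haarH P|} ≤
      2 * Real.exp (-((trace P - 2) / 128 * t ^ 2 / L ^ 2)) :=
  (conc_haarP hP hPP hm).of_refl hR hd hL ht hf h

/-- events invariant under one reflection have the same probability on both groups -/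
theorem real_haarH_eq {R : OG n} (hR : R ∈ HG P) (hd : R.1.det ≠ 1) {S : Set (OG n)}
    (hS : MeasurableSet S) (h : (∀ U, R * U ∈ S ↔ U ∈ S) ∨ ∀ U, U * R ∈ S ↔ U ∈ S) :
    (haarH P).real S = (haarP P).real S := by
  have hm : Measurable fun U => U ∈ S := measurableSet_setOfPred.1 hS
  have e := map_haarH_eq hR hd hm (h.imp (fun h U => propext (h U)) fun h U => propext (h U))
  have e2 := congrArg (fun m : Measure Prop => m.real {True}) e
  simp only [map_measureReal_apply hm (measurableSet_singleton True)] at e2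
  simpa [preimage] using e2

theorem integral_haarH_eq {R : OG n} (hR : R ∈ HG P) (hd : R.1.det ≠ 1) {f : OG n → ℝ}
    (hf : Measurable f) (h : (∀ U, f (R * U) = f U) ∨ ∀ U, f (U * R) = f U) :
    ∫ U, f U ∂haarH P = ∫ U, f U ∂haarP P := by
  have h1 := integral_map (μ := haarH P) hf.aemeasurable (f := id) aestronglyMeasurable_id
  have h2 := integral_map (μ := haarP P) hf.aemeasurable (f := id) aestronglyMeasurable_id
  rw [map_haarH_eq hR hd hf h] at h1
  exact h1.symm.trans h2

/-- union over fibres: a bound valid on every fibre `O * SG P` holds for the Haar measure -/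
theorem real_haar_le_of_fibre (P : Matrix (Fin n) (Fin n) ℝ) {S : Set (OG n)} (hS : MeasurableSet S)
    {p : ℝ} (h : ∀ O, (haarP P).real {U | O * U ∈ S} ≤ p) : (haar n).real S ≤ p := by
  have hp : 0 ≤ p := le_trans measureReal_nonneg (h 1)
  refine ENNReal.toReal_le_of_le_ofReal hp ?_
  rw [← lintegral_indicator_one hS, ← lint_haar_fibre P (measurable_one.indicator hS)]
  refine (lintegral_mono (g := fun _ => ENNReal.ofReal p) fun O => ?_).trans (by simp)
  have hm : MeasurableSet {U : OG n | O * U ∈ S} := measurable_const_mul O hS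
  have e : (fun U => S.indicator (1 : OG n → ENNReal) (O * U)) =
      {U : OG n | O * U ∈ S}.indicator 1 := rfl
  simp only
  rw [e, lintegral_indicator_one hm]
  exact (ENNReal.le_ofReal_iff_toReal_le (measure_ne_top _ _) hp).2 (h O)

theorem real_haar_le_of_fibre_left (P : Matrix (Fin n) (Fin n) ℝ) {S : Set (OG n)}
    (hS : MeasurableSet S) {p : ℝ} (h : ∀ O, (haarP P).real {U | U * O ∈ S} ≤ p) :
    (haar n).real S ≤ p := by
  have hp : 0 ≤ p := le_trans measureReal_nonneg (h 1)
  refine ENNReal.toReal_le_of_le_ofReal hp ?_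
  rw [← lintegral_indicator_one hS, ← lint_haar_fibre_left P (measurable_one.indicator hS)]
  refine (lintegral_mono (g := fun _ => ENNReal.ofReal p) fun O => ?_).trans (by simp)
  have hm : MeasurableSet {U : OG n | U * O ∈ S} := measurable_mul_const O hS
  have e : (fun U => S.indicator (1 : OG n → ENNReal) (U * O)) =
      {U : OG n | U * O ∈ S}.indicator 1 := rfl
  simp only
  rw [e, lintegral_indicator_one hm]
  exact (ENNReal.le_ofReal_iff_toReal_le (measure_ne_top _ _) hp).2 (h O)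

end Vale.Agent.N150
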