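import Mathlib
import Vale.Agent.P150.Bdl.B23

/-!
# P150 at `β = 1`: Cayley transforms and the Frobenius norm

Deterministic matrix facts for the Cayley-walk proof of concentration on the stabiliser groups
`{U orthogonal | U (1 - P) = 1 - P, det U = 1}`.
-/

set_option linter.all false

open MeasureTheory ProbabilityTheory Filter Topology
open scoped Matrix

namespace Vale.Agent.N150.HC

open Vale.Agent.P150 Vale.Agent.P150.F

variable {n : ℕ}

/-! ### Frobenius norm -/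

/-- Frobenius norm -/
noncomputable def fn (A : Mat n) : ℝ := Real.sqrt (hsq A)

theorem hsq_nn' (A : Mat n) : 0 ≤ hsq A :=
  Finset.sum_nonneg fun _ _ => Finset.sum_nonneg fun _ _ => sq_nonneg _

theorem fn_nonneg (A : Mat n) : 0 ≤ fn A := Real.sqrt_nonneg _

theorem fn_sq (A : Mat n) : fn A ^ 2 = hsq A := Real.sq_sqrt (hsq_nn' A)

theorem fn_eq_norm (A : Mat n) :
    fn A = ‖(WithLp.toLp 2 (fun p : Fin n × Fin n => A p.1 p.2) :
      EuclideanSpace ℝ (Fin n × Fin n))‖ := by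
  rw [EuclideanSpace.norm_eq, fn, hsq, Fintype.sum_prod_type]
  simp

theorem fn_add_le (A B : Mat n) : fn (A + B) ≤ fn A + fn B := by
  rw [fn_eq_norm, fn_eq_norm, fn_eq_norm]
  have : (fun p : Fin n × Fin n => (A + B) p.1 p.2) =
      (fun p : Fin n × Fin n => A p.1 p.2) + (fun p : Fin n × Fin n => B p.1 p.2) := rfl
  rw [this, WithLp.toLp_add]
  exact norm_add_le _ _

theorem fn_smul (c : ℝ) (A : Mat n) : fn (c • A) = |c| * fn A := by
  rw [fn_eq_norm, fn_eq_norm]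
  have : (fun p : Fin n × Fin n => (c • A) p.1 p.2) =
      c • (fun p : Fin n × Fin n => A p.1 p.2) := rfl
  rw [this, WithLp.toLp_smul, norm_smul, Real.norm_eq_abs]

theorem fn_neg (A : Mat n) : fn (-A) = fn A := by
  have := fn_smul (-1) A
  simpa using this

theorem fn_sub_comm (A B : Mat n) : fn (A - B) = fn (B - A) := by
  rw [← fn_neg, neg_sub]

theorem fn_sub_le (A B : Mat n) : fn (A - B) ≤ fn A + fn B := by
  rw [sub_eq_add_neg]
  exact (fn_add_le _ _).trans (by rw [fn_neg])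

theorem fn_zero : fn (0 : Mat n) = 0 := by simp [fn, hsq]

theorem fn_triangle (A B C : Mat n) : fn (A - C) ≤ fn (A - B) + fn (B - C) := by
  have := fn_add_le (A - B) (B - C)
  rwa [sub_add_sub_cancel] at this

theorem eq_zero_of_fn {A : Mat n} (h : fn A = 0) : A = 0 := by
  rw [fn_eq_norm, norm_eq_zero] at h
  ext i j
  have := congrArg (fun v : EuclideanSpace ℝ (Fin n × Fin n) => v (i, j)) h
  simpa using this

theorem hsq_eq_trace (A : Mat n) : hsq A = (Aᵀ * A).trace := by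
  unfold hsq Matrix.trace
  rw [Finset.sum_comm]
  refine Finset.sum_congr rfl fun j _ => ?_
  simp [Matrix.mul_apply, pow_two]

theorem hsq_tr (A : Mat n) : hsq Aᵀ = hsq A := by
  unfold hsq
  rw [Finset.sum_comm]
  rfl

theorem fn_transpose (A : Mat n) : fn Aᵀ = fn A := by unfold fn; rw [hsq_tr]

theorem fn_le_of_hsq {A B : Mat n} (h : hsq A ≤ hsq B) : fn A ≤ fn B := Real.sqrt_le_sqrt h

theorem hsq_mul_le (A B : Mat n) : hsq (A * B) ≤ hsq A * hsq B := by
  have h1 : hsq B = ∑ j, ∑ k, B k j ^ 2 := by unfold hsq; rw [Finset.sum_comm]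
  rw [h1]
  unfold hsq
  rw [Finset.sum_mul_sum]
  refine Finset.sum_le_sum fun i _ => Finset.sum_le_sum fun j _ => ?_
  rw [Matrix.mul_apply]
  exact Finset.sum_mul_sq_le_sq_mul_sq _ _ _

theorem fn_mul_le (A B : Mat n) : fn (A * B) ≤ fn A * fn B := by
  unfold fn
  rw [← Real.sqrt_mul (hsq_nn' A)]
  exact Real.sqrt_le_sqrt (hsq_mul_le A B)

theorem hsq_orth_mul {Q : Mat n} (hQ : Qᵀ * Q = 1) (A : Mat n) : hsq (Q * A) = hsq A := by
  rw [hsq_eq_trace, hsq_eq_trace, Matrix.transpose_mul, Matrix.mul_assoc, ← Matrix.mul_assoc Qᵀ,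
    hQ, Matrix.one_mul]

theorem orth_comm {Q : Mat n} (hQ : Qᵀ * Q = 1) : Q * Qᵀ = 1 := mul_eq_one_comm.1 hQ

theorem hsq_mul_orth {Q : Mat n} (hQ : Qᵀ * Q = 1) (A : Mat n) : hsq (A * Q) = hsq A := by
  rw [← hsq_tr, Matrix.transpose_mul, hsq_orth_mul (by simpa using orth_comm hQ), hsq_tr]

theorem fn_orth_mul {Q : Mat n} (hQ : Qᵀ * Q = 1) (A : Mat n) : fn (Q * A) = fn A := by
  unfold fn; rw [hsq_orth_mul hQ]

theorem fn_mul_orth {Q : Mat n} (hQ : Qᵀ * Q = 1) (A : Mat n) : fn (A * Q) = fn A := by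
  unfold fn; rw [hsq_mul_orth hQ]

theorem hsq_para (A B : Mat n) : hsq (A + B) + hsq (A - B) = 2 * hsq A + 2 * hsq B := by
  unfold hsq
  simp only [Finset.mul_sum, ← Finset.sum_add_distrib, Matrix.add_apply, Matrix.sub_apply]
  refine Finset.sum_congr rfl fun i _ => Finset.sum_congr rfl fun j _ => ?_
  ring

theorem hsq_one' : hsq (1 : Mat n) = n := by
  rw [hsq_eq_trace]; simp

theorem fn_orth {Q : Mat n} (hQ : Qᵀ * Q = 1) : fn Q = Real.sqrt n := by
  have := hsq_orth_mul hQ 1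
  rw [Matrix.mul_one, hsq_one'] at this
  rw [fn, this]

theorem abs_entry_le_fn (A : Mat n) (i j : Fin n) : |A i j| ≤ fn A := by
  rw [fn, ← Real.sqrt_sq_eq_abs]
  refine Real.sqrt_le_sqrt ?_
  calc A i j ^ 2 ≤ ∑ j, A i j ^ 2 :=
        Finset.single_le_sum (f := fun j => A i j ^ 2) (fun _ _ => sq_nonneg _) (Finset.mem_univ j)
    _ ≤ hsq A := Finset.single_le_sum (f := fun i => ∑ j, A i j ^ 2)
        (fun _ _ => Finset.sum_nonneg fun _ _ => sq_nonneg _) (Finset.mem_univ i)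

theorem continuous_fn : Continuous (fn : Mat n → ℝ) := by
  unfold fn hsq
  fun_prop

/-- a symmetric projection is a contraction -/
theorem hsq_proj_mul_le {P : Mat n} (hs : Pᵀ = P) (hP : P * P = P) (A : Mat n) :
    hsq (P * A) ≤ hsq A := by
  have h1 : hsq (P * A) + hsq ((1 - P) * A) = hsq A := by
    rw [hsq_eq_trace, hsq_eq_trace, hsq_eq_trace, ← Matrix.trace_add]
    congr 1
    simp only [Matrix.transpose_mul, Matrix.transpose_sub, Matrix.transpose_one, hs]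
    have e1 : Aᵀ * P * (P * A) = Aᵀ * (P * A) := by
      rw [Matrix.mul_assoc, ← Matrix.mul_assoc P, hP]
    have e2 : (1 - P) * (1 - P) = 1 - P := by
      rw [Matrix.sub_mul, Matrix.mul_sub, Matrix.mul_sub, hP]; simp
    have e3 : Aᵀ * (1 - P) * ((1 - P) * A) = Aᵀ * ((1 - P) * A) := by
      rw [Matrix.mul_assoc, ← Matrix.mul_assoc (1 - P), e2]
    rw [e1, e3, ← Matrix.mul_add, ← Matrix.add_mul]
    simp
  linarith [hsq_nn' ((1 - P) * A)]

theorem fn_proj_mul_le {P : Mat n} (hs : Pᵀ = P) (hP : P * P = P) (A : Mat n) :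
    fn (P * A) ≤ fn A := fn_le_of_hsq (hsq_proj_mul_le hs hP A)

theorem fn_mul_proj_le {P : Mat n} (hs : Pᵀ = P) (hP : P * P = P) (A : Mat n) :
    fn (A * P) ≤ fn A := by
  rw [← fn_transpose, Matrix.transpose_mul, hs, ← fn_transpose A]
  exact fn_proj_mul_le hs hP _

/-! ### Cayley transform -/

/-- resolvent `(1 - X)⁻¹` -/
noncomputable def rs (X : Mat n) : Mat n := (1 - X)⁻¹

/-- Cayley transform `(1 + X)(1 - X)⁻¹` -/
noncomputable def cay (X : Mat n) : Mat n := (2 : ℝ) • rs X - 1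

theorem hsq_one_sub_mul {X : Mat n} (hX : Xᵀ = -X) (B : Mat n) :
    hsq ((1 - X) * B) = hsq B + hsq (X * B) := by
  rw [hsq_eq_trace, hsq_eq_trace, hsq_eq_trace, ← Matrix.trace_add]
  congr 1
  simp only [Matrix.transpose_mul, Matrix.transpose_sub, Matrix.transpose_one, hX]
  noncomm_ring

theorem isUnit_of_fn {M : Mat n} (h : ∀ B : Mat n, M * B = 0 → B = 0) : IsUnit M.det := by
  rw [← Matrix.isUnit_iff_isUnit_det, ← Matrix.mulVec_injective_iff_isUnit]
  intro u v huv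
  have h1 : M * (Matrix.of fun i (_ : Fin n) => (u - v) i) = 0 := by
    ext i j
    have : (M.mulVec (u - v)) i = 0 := by rw [Matrix.mulVec_sub, huv]; simp
    simpa [Matrix.mul_apply, Matrix.mulVec, dotProduct] using this
  have h2 := h _ h1
  funext i
  have := congrFun (congrFun h2 i) i
  simpa [sub_eq_zero] using this

theorem isUnit_one_sub {X : Mat n} (hX : Xᵀ = -X) : IsUnit (1 - X).det := by
  refine isUnit_of_fn fun B hB => ?_
  have h := hsq_one_sub_mul hX B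
  rw [hB] at h
  have h0 : hsq (0 : Mat n) = 0 := by simp [hsq]
  apply eq_zero_of_fn
  have : hsq B = 0 := by linarith [hsq_nn' B, hsq_nn' (X * B)]
  rw [fn, this, Real.sqrt_zero]

theorem mul_rs {X : Mat n} (hX : Xᵀ = -X) : (1 - X) * rs X = 1 :=
  Matrix.mul_nonsing_inv _ (isUnit_one_sub hX)

theorem rs_mul {X : Mat n} (hX : Xᵀ = -X) : rs X * (1 - X) = 1 :=
  Matrix.nonsing_inv_mul _ (isUnit_one_sub hX)

theorem anti_neg {X : Mat n} (hX : Xᵀ = -X) : (-X)ᵀ = -(-X) := by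
  rw [Matrix.transpose_neg, hX]

theorem anti_smul {X : Mat n} (hX : Xᵀ = -X) (c : ℝ) : (c • X)ᵀ = -(c • X) := by
  rw [Matrix.transpose_smul, hX, smul_neg]

theorem rs_transpose {X : Mat n} (hX : Xᵀ = -X) : (rs X)ᵀ = rs (-X) := by
  unfold rs
  rw [Matrix.transpose_nonsing_inv, Matrix.transpose_sub, Matrix.transpose_one, hX]

theorem fn_rs_mul_le {X : Mat n} (hX : Xᵀ = -X) (B : Mat n) : fn (rs X * B) ≤ fn B := by
  refine fn_le_of_hsq ?_
  have h := hsq_one_sub_mul hX (rs X * B)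
  rw [← Matrix.mul_assoc, mul_rs hX, Matrix.one_mul] at h
  linarith [hsq_nn' (X * (rs X * B))]

theorem fn_mul_rs_le {X : Mat n} (hX : Xᵀ = -X) (B : Mat n) : fn (B * rs X) ≤ fn B := by
  rw [← fn_transpose, Matrix.transpose_mul, rs_transpose hX, ← fn_transpose B]
  exact fn_rs_mul_le (anti_neg hX) _

theorem cay_orth {X : Mat n} (hX : Xᵀ = -X) : (cay X)ᵀ * cay X = 1 := by
  have h1 := mul_rs hX
  have h2 := rs_mul (anti_neg hX)
  have h3 : rs X + rs (-X) = (2 : ℝ) • (rs (-X) * rs X) := by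
    calc rs X + rs (-X) = rs (-X) * (1 - -X) * rs X + rs (-X) * ((1 - X) * rs X) := by
          rw [h1, h2, Matrix.one_mul, Matrix.mul_one]
      _ = (2 : ℝ) • (rs (-X) * rs X) := by
          rw [two_smul]; noncomm_ring
  unfold cay
  rw [Matrix.transpose_sub, Matrix.transpose_smul, Matrix.transpose_one, rs_transpose hX]
  have : ((2 : ℝ) • rs (-X) - 1) * ((2 : ℝ) • rs X - 1) =
      (2 : ℝ) • ((2 : ℝ) • (rs (-X) * rs X) - (rs X + rs (-X))) + 1 := by
    simp only [two_smul]; noncomm_ring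
  rw [this, h3, sub_self, smul_zero, zero_add]

theorem cay_transpose {X : Mat n} (hX : Xᵀ = -X) : (cay X)ᵀ = cay (-X) := by
  unfold cay
  rw [Matrix.transpose_sub, Matrix.transpose_smul, Matrix.transpose_one, rs_transpose hX]

theorem cay_zero : cay (0 : Mat n) = 1 := by
  unfold cay rs
  rw [sub_zero, inv_one, two_smul]; simp

theorem cay_sub {X Y : Mat n} (hX : Xᵀ = -X) (hY : Yᵀ = -Y) :
    cay X - cay Y = (2 : ℝ) • (rs X * (X - Y) * rs Y) := by
  have : rs X * (X - Y) * rs Y = rs X * ((1 - Y) * rs Y) - rs X * (1 - X) * rs Y := by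
    noncomm_ring
  rw [this, mul_rs hY, rs_mul hX, Matrix.mul_one, Matrix.one_mul, smul_sub]
  unfold cay
  abel

theorem fn_cay_sub {X Y : Mat n} (hX : Xᵀ = -X) (hY : Yᵀ = -Y) :
    fn (cay X - cay Y) ≤ 2 * fn (X - Y) := by
  rw [cay_sub hX hY, fn_smul, abs_of_pos (by norm_num : (0 : ℝ) < 2)]
  have := (fn_mul_rs_le hY (rs X * (X - Y))).trans (fn_rs_mul_le hX (X - Y))
  linarith

theorem cay_expand {X : Mat n} (hX : Xᵀ = -X) :
    cay X = 1 + (2 : ℝ) • X + (2 : ℝ) • (X * X * rs X) := by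
  have h1 := mul_rs hX
  have h2 : rs X = 1 + X * rs X := by
    rw [← h1]; noncomm_ring
  have h3 : rs X = 1 + X + X * X * rs X := by
    calc rs X = 1 + X * rs X := h2
      _ = 1 + X * (1 + X * rs X) := by congr 2
      _ = 1 + X + X * X * rs X := by noncomm_ring
  unfold cay
  conv_lhs => rw [h3]
  simp only [two_smul]
  abel

theorem fn_sq_rs_le {X : Mat n} (hX : Xᵀ = -X) : fn (X * X * rs X) ≤ fn X ^ 2 := by
  refine (fn_mul_rs_le hX _).trans ?_
  rw [pow_two]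
  exact fn_mul_le _ _

theorem cay_conj {X W : Mat n} (hX : Xᵀ = -X) (hW : Wᵀ * W = 1) :
    cay (W * X * Wᵀ) = W * cay X * Wᵀ := by
  have hW' := orth_comm hW
  have h1 : rs (W * X * Wᵀ) = W * rs X * Wᵀ := by
    unfold rs
    apply Matrix.inv_eq_left_inv
    have e : (1 - W * X * Wᵀ) = W * (1 - X) * Wᵀ := by
      rw [Matrix.mul_sub, Matrix.sub_mul, Matrix.mul_one, hW']
    rw [e]
    calc W * (1 - X)⁻¹ * Wᵀ * (W * (1 - X) * Wᵀ)
        = W * ((1 - X)⁻¹ * (Wᵀ * W) * (1 - X)) * Wᵀ := by simp only [Matrix.mul_assoc]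
      _ = 1 := by
        rw [hW, Matrix.mul_one]
        have := rs_mul hX
        unfold rs at this
        rw [this, Matrix.mul_one, hW']
  unfold cay
  rw [h1, Matrix.mul_sub, Matrix.sub_mul, Matrix.mul_one, hW', Matrix.mul_smul, Matrix.smul_mul]

theorem cay_fix {X Q : Mat n} (hX : Xᵀ = -X) (hQ : X * Q = 0) : cay X * Q = Q := by
  have h1 : rs X * Q = Q := by
    calc rs X * Q = rs X * ((1 - X) * Q) := by rw [Matrix.sub_mul, hQ, Matrix.one_mul, sub_zero]
      _ = Q := by rw [← Matrix.mul_assoc, rs_mul hX, Matrix.one_mul]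
  unfold cay
  rw [Matrix.sub_mul, Matrix.smul_mul, h1, Matrix.one_mul, two_smul]
  abel

theorem det_cay {X : Mat n} (hX : Xᵀ = -X) : (cay X).det = 1 := by
  have h1 : cay X * (1 - X) = (1 - X)ᵀ := by
    unfold cay
    rw [Matrix.sub_mul, Matrix.smul_mul, rs_mul hX, Matrix.transpose_sub, Matrix.transpose_one, hX,
      Matrix.one_mul, two_smul]
    abel
  have h2 := congrArg Matrix.det h1
  rw [Matrix.det_mul, Matrix.det_transpose] at h2
  have h3 : (1 - X).det ≠ 0 := (isUnit_one_sub hX).ne_zero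
  exact mul_right_cancel₀ h3 (by rw [h2, one_mul])

/-- inverse Cayley transform -/
theorem exists_cay {g Q : Mat n} (hg : gᵀ * g = 1) (hu : IsUnit (g + 1).det) (hQ : g * Q = Q) :
    ∃ X : Mat n, Xᵀ = -X ∧ X * Q = 0 ∧ cay X = g ∧ (g + 1) * X = g - 1 := by
  set T := (g + 1)⁻¹ with hT
  have h1 : (g + 1) * T = 1 := Matrix.mul_nonsing_inv _ hu
  have h2 : T * (g + 1) = 1 := Matrix.nonsing_inv_mul _ hu
  have h3 : Tᵀ = T * g := by
    have e1 : (g + 1)ᵀ * (g * T) = 1 := by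
      rw [Matrix.transpose_add, Matrix.transpose_one, ← Matrix.mul_assoc, Matrix.add_mul, hg,
        Matrix.one_mul, add_comm, h1]
    have e2 : Tᵀ * (g + 1)ᵀ = 1 := by rw [← Matrix.transpose_mul, h1, Matrix.transpose_one]
    have e3 : g * T = T * g := by
      have a1 : g * T = 1 - T := by rw [← h1]; noncomm_ring
      have a2 : T * g = 1 - T := by rw [← h2]; noncomm_ring
      rw [a1, a2]
    calc Tᵀ = Tᵀ * ((g + 1)ᵀ * (g * T)) := by rw [e1, Matrix.mul_one]
      _ = T * g := by rw [← Matrix.mul_assoc, e2, Matrix.one_mul, e3]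
  have hanti : (1 - (2 : ℝ) • T)ᵀ = -(1 - (2 : ℝ) • T) := by
    rw [Matrix.transpose_sub, Matrix.transpose_smul, Matrix.transpose_one, h3]
    have a2 : T * g = 1 - T := by rw [← h2]; noncomm_ring
    rw [a2]
    simp only [two_smul]
    abel
  refine ⟨1 - (2 : ℝ) • T, hanti, ?_, ?_, ?_⟩
  · have e1 : (2 : ℝ) • (T * Q) = Q := by
      calc (2 : ℝ) • (T * Q) = T * ((g + 1) * Q) := by
            rw [Matrix.add_mul, hQ, Matrix.one_mul, Matrix.mul_add, two_smul]
        _ = Q := by rw [← Matrix.mul_assoc, h2, Matrix.one_mul]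
    rw [Matrix.sub_mul, Matrix.smul_mul, e1, Matrix.one_mul, sub_self]
  · have e1 : rs (1 - (2 : ℝ) • T) = (1 / 2 : ℝ) • (g + 1) := by
      unfold rs
      apply Matrix.inv_eq_left_inv
      rw [sub_sub_cancel, Matrix.smul_mul, Matrix.mul_smul, smul_smul, h1]
      norm_num
    unfold cay
    rw [e1, smul_smul]
    norm_num
  · rw [Matrix.mul_sub, Matrix.mul_smul, h1, Matrix.mul_one, two_smul]
    abel

/-- near the identity every orthogonal matrix is a Cayley transform -/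
theorem exists_cay_near {g Q : Mat n} (hg : gᵀ * g = 1) (h1 : fn (g - 1) ≤ 1) (hQ : g * Q = Q) :
    ∃ X : Mat n, Xᵀ = -X ∧ X * Q = 0 ∧ cay X = g ∧ fn X ≤ fn (g - 1) ∧
      2 * fn X ≤ fn (g - 1) * (1 + fn (g - 1)) := by
  have key : ∀ B : Mat n, 2 * fn B ≤ fn ((g + 1) * B) + fn (g - 1) * fn B := by
    intro B
    have e : (2 : ℝ) • B = (g + 1) * B - (g - 1) * B := by rw [two_smul]; noncomm_ring
    have h2 := fn_sub_le ((g + 1) * B) ((g - 1) * B)
    rw [← e, fn_smul, abs_of_pos (by norm_num : (0 : ℝ) < 2)] at h2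
    linarith [fn_mul_le (g - 1) B]
  have hu : IsUnit (g + 1).det := by
    refine isUnit_of_fn fun B hB => eq_zero_of_fn ?_
    have h2 := key B
    rw [hB, fn_zero] at h2
    nlinarith [fn_nonneg B, fn_nonneg (g - 1)]
  obtain ⟨X, hX, hXQ, hc, he⟩ := exists_cay hg hu hQ
  have h2 := key X
  rw [he] at h2
  have h3 : fn X ≤ fn (g - 1) := by nlinarith [fn_nonneg X, fn_nonneg (g - 1)]
  refine ⟨X, hX, hXQ, hc, h3, ?_⟩
  nlinarith [fn_nonneg X, fn_nonneg (g - 1)]

/-- `cay (X/2)` is an approximate square root of `cay X` -/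
theorem fn_cay_half {X : Mat n} (hX : Xᵀ = -X) (h1 : fn X ≤ 1) :
    fn (cay X - cay ((1 / 2 : ℝ) • X) * cay ((1 / 2 : ℝ) • X)) ≤ 6 * fn X ^ 2 := by
  have hY := anti_smul hX (1 / 2)
  set E := (2 : ℝ) • (((1 / 2 : ℝ) • X) * ((1 / 2 : ℝ) • X) * rs ((1 / 2 : ℝ) • X)) with hE
  have hW : cay ((1 / 2 : ℝ) • X) = 1 + X + E := by
    rw [cay_expand hY, smul_smul]; norm_num [hE]
  have hEn : fn E ≤ fn X ^ 2 / 2 := by
    rw [hE, fn_smul, abs_of_pos (by norm_num : (0 : ℝ) < 2)]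
    have := fn_sq_rs_le hY
    rw [fn_smul, abs_of_pos (by norm_num : (0 : ℝ) < 1 / 2)] at this
    nlinarith
  rw [hW, cay_expand hX]
  have e : 1 + (2 : ℝ) • X + (2 : ℝ) • (X * X * rs X) - (1 + X + E) * (1 + X + E) =
      (2 : ℝ) • (X * X * rs X) - ((X + E) * (X + E) + (2 : ℝ) • E) := by
    simp only [two_smul]; noncomm_ring
  rw [e]
  have a1 := fn_sub_le ((2 : ℝ) • (X * X * rs X)) ((X + E) * (X + E) + (2 : ℝ) • E)
  have a2 := fn_add_le ((X + E) * (X + E)) ((2 : ℝ) • E)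
  have a3 := fn_mul_le (X + E) (X + E)
  have a4 := fn_add_le X E
  have a5 := fn_sq_rs_le hX
  rw [fn_smul, abs_of_pos (by norm_num : (0 : ℝ) < 2)] at a1 a2
  have x0 := fn_nonneg X
  have a6 : fn (X + E) ≤ 3 / 2 * fn X := by nlinarith
  have a7 : fn (X + E) * fn (X + E) ≤ (3 / 2 * fn X) * (3 / 2 * fn X) :=
    mul_self_le_mul_self (fn_nonneg _) a6
  nlinarith

/-- the coupling estimate: `W V W - V` for `W = cay (X/2)` -/
theorem fn_sandwich {X V : Mat n} (hX : Xᵀ = -X) (hV : Vᵀ * V = 1) :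
    fn (cay ((1 / 2 : ℝ) • X) * V * cay ((1 / 2 : ℝ) • X) - V) ≤ fn (X * V + V * X) + fn X ^ 2 := by
  have hY := anti_smul hX (1 / 2)
  set E := (2 : ℝ) • (((1 / 2 : ℝ) • X) * ((1 / 2 : ℝ) • X) * rs ((1 / 2 : ℝ) • X)) with hE
  have hW : cay ((1 / 2 : ℝ) • X) = 1 + X + E := by
    rw [cay_expand hY, smul_smul]; norm_num [hE]
  have hEn : fn E ≤ fn X ^ 2 / 2 := by
    rw [hE, fn_smul, abs_of_pos (by norm_num : (0 : ℝ) < 2)]
    have := fn_sq_rs_le hY
    rw [fn_smul, abs_of_pos (by norm_num : (0 : ℝ) < 1 / 2)] at this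
    nlinarith
  have ho := cay_orth hY
  set W := cay ((1 / 2 : ℝ) • X) with hWd
  have e1 : W * V * W - V = (W * V - V * Wᵀ) * W := by
    rw [Matrix.sub_mul, Matrix.mul_assoc V, ho, Matrix.mul_one]
  rw [e1, fn_mul_orth ho]
  have e2 : W * V - V * Wᵀ = (X * V + V * X) + (E * V - V * Eᵀ) := by
    rw [hW, Matrix.transpose_add, Matrix.transpose_add, Matrix.transpose_one, hX]
    noncomm_ring
  rw [e2]
  have a1 := fn_add_le (X * V + V * X) (E * V - V * Eᵀ)
  have a2 := fn_sub_le (E * V) (V * Eᵀ)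
  rw [fn_mul_orth hV, fn_orth_mul hV, fn_transpose] at a2
  linarith

theorem fn_sandwich_crude {X V : Mat n} (hX : Xᵀ = -X) (hV : Vᵀ * V = 1) :
    fn (cay ((1 / 2 : ℝ) • X) * V * cay ((1 / 2 : ℝ) • X) - V) ≤ 2 * fn X + fn X ^ 2 := by
  refine (fn_sandwich hX hV).trans ?_
  have := fn_add_le (X * V) (V * X)
  rw [fn_mul_orth hV, fn_orth_mul hV] at this
  linarith

/-- anticommutator against commutator -/
theorem fn_anticomm_le {K V : Mat n} (hV : Vᵀ * V = 1) (hK : 0 < fn K) :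
    fn (K * V + V * K) ≤ 2 * fn K - hsq (K * V - V * K) / (4 * fn K) := by
  have h := hsq_para (K * V) (V * K)
  rw [hsq_mul_orth hV, hsq_orth_mul hV, ← fn_sq (K * V + V * K), ← fn_sq K] at h
  have e : hsq (K * V - V * K) = 4 * fn K ^ 2 - fn (K * V + V * K) ^ 2 := by linarith
  rw [e, le_sub_iff_add_le, ← le_sub_iff_add_le', div_le_iff₀ (by positivity)]
  nlinarith [sq_nonneg (fn (K * V + V * K) - 2 * fn K)]

/-- lower bound for the commutator with a Cayley transform -/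
theorem hsq_comm_cay {K X : Mat n} (hX : Xᵀ = -X) :
    2 * hsq (K * X - X * K) - 16 * fn X ^ 4 * hsq K ≤ hsq (K * cay X - cay X * K) := by
  set E := X * X * rs X with hE
  have hEn : fn E ≤ fn X ^ 2 := fn_sq_rs_le hX
  have e : (2 : ℝ) • (K * X - X * K) =
      (K * cay X - cay X * K) - (2 : ℝ) • (K * E - E * K) := by
    rw [cay_expand hX, ← hE]
    simp only [two_smul]; noncomm_ring
  have a1 := fn_sub_le (K * cay X - cay X * K) ((2 : ℝ) • (K * E - E * K))
  rw [← e, fn_smul, fn_smul, abs_of_pos (by norm_num : (0 : ℝ) < 2)] at a1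
  have a2 := fn_sub_le (K * E) (E * K)
  have a3 := fn_mul_le K E
  have a4 := fn_mul_le E K
  have k0 := fn_nonneg K
  have a5 : fn K * fn E ≤ fn K * fn X ^ 2 := mul_le_mul_of_nonneg_left hEn k0
  have a6 : 2 * fn (K * X - X * K) ≤ fn (K * cay X - cay X * K) + 4 * (fn K * fn X ^ 2) := by
    nlinarith
  rw [← fn_sq, ← fn_sq, ← fn_sq]
  have a7 : (2 * fn (K * X - X * K)) ^ 2 ≤
      (fn (K * cay X - cay X * K) + 4 * (fn K * fn X ^ 2)) ^ 2 :=
    pow_le_pow_left₀ (by linarith [fn_nonneg (K * X - X * K)]) a6 2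
  nlinarith [sq_nonneg (fn (K * cay X - cay X * K) - 4 * (fn K * fn X ^ 2))]

end Vale.Agent.N150.HC
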