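import Mathlib
import Vale.Agent.N150.HcMat

/-!
# P150 at `β = 1`: concentration on the stabiliser groups by a Cayley walk

`P` is a symmetric projection of trace `m > 2`. A probability measure `μ` on the orthogonal group
that is invariant under right multiplication by `SG P = {W | W (1 - P) = 1 - P, det W = 1}` and is
carried by one coset `O * SG P` has sub-Gaussian concentration with variance proxy `O(L²/m)` for
functions that are `L`-Lipschitz in the Frobenius norm.
-/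

set_option linter.all false

open MeasureTheory ProbabilityTheory Filter Topology
open scoped Matrix

namespace Vale.Agent.N150.HC

open Vale.Agent.P150 Vale.Agent.P150.F

variable {n : ℕ}

/-- the orthogonal group -/
abbrev OM (n : ℕ) := Matrix.orthogonalGroup (Fin n) ℝ

theorem oo (U : OM n) : U.1ᵀ * U.1 = 1 := (Matrix.mem_orthogonalGroup_iff' _ _).1 U.2

/-! ### Gaussian rotation invariance -/

theorem mp_integral {α β : Type*} [MeasurableSpace α] [MeasurableSpace β] {μ : Measure α}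
    {ν : Measure β} {T : α → β} (hT : MeasurePreserving T μ ν) {F : β → ℝ}
    (hF : AEStronglyMeasurable F ν) : ∫ x, F (T x) ∂μ = ∫ y, F y ∂ν := by
  rw [← hT.map_eq] at hF ⊢
  rw [integral_map hT.measurable.aemeasurable hF]

/-- linear maps that preserve the sum of squares preserve the standard Gaussian -/
theorem mp_gpi_of_iso {ι : Type*} [Fintype ι] (T : (ι → ℝ) →ₗ[ℝ] (ι → ℝ))
    (hT : ∀ g, ∑ i, T g i ^ 2 = ∑ i, g i ^ 2) : MeasurePreserving T (gpi ι) (gpi ι) := by
  let e := WithLp.linearEquiv 2 ℝ (ι → ℝ)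
  let T' : EuclideanSpace ℝ ι →ₗᵢ[ℝ] EuclideanSpace ℝ ι :=
    { toLinearMap := e.symm.toLinearMap ∘ₗ T ∘ₗ e.toLinearMap
      norm_map' := fun x => by
        rw [EuclideanSpace.norm_eq, EuclideanSpace.norm_eq]
        congr 1
        simpa [e] using hT x.ofLp }
  let f := T'.toLinearIsometryEquiv rfl
  have hTc : Continuous T := T.continuous_of_finiteDimensional
  refine ⟨hTc.measurable, ?_⟩
  have h1 := stdGaussian_map f
  rw [← map_pi_eq_stdGaussian] at h1
  have h2 := congrArg (Measure.map (WithLp.ofLp : EuclideanSpace ℝ ι → (ι → ℝ))) h1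
  rw [Measure.map_map (by fun_prop) (by fun_prop), Measure.map_map (by fun_prop) (by fun_prop),
    Measure.map_map (by fun_prop) (by fun_prop)] at h2
  have e1 : ((WithLp.ofLp : EuclideanSpace ℝ ι → (ι → ℝ)) ∘ ⇑f) ∘ WithLp.toLp 2 = T := by
    funext g; rfl
  have e2 : (WithLp.ofLp : EuclideanSpace ℝ ι → (ι → ℝ)) ∘ WithLp.toLp 2 = id := by
    funext g; rfl
  rw [e1, e2, Measure.map_id] at h2
  exact h2

/-! ### The random generator -/

/-- matrix with given entries -/
def mk (g : Fin n × Fin n → ℝ) : Mat n := Matrix.of fun i j => g (i, j)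

/-- antisymmetric generator supported on the range of `P` -/
def gen (P : Mat n) (g : Fin n × Fin n → ℝ) : Mat n := Pᵀ * (mk g - (mk g)ᵀ) * P

theorem gen_anti (P : Mat n) (g : Fin n × Fin n → ℝ) : (gen P g)ᵀ = -gen P g := by
  unfold gen
  simp only [Matrix.transpose_mul, Matrix.transpose_sub, Matrix.transpose_transpose]
  noncomm_ring

theorem gen_fix {P : Mat n} (hP : P * P = P) (g : Fin n × Fin n → ℝ) : gen P g * (1 - P) = 0 := by
  unfold gen
  rw [Matrix.mul_assoc, Matrix.mul_sub P, hP, Matrix.mul_one, sub_self, Matrix.mul_zero]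

theorem fn_mk_sub (g g' : Fin n × Fin n → ℝ) : fn (mk g - mk g') = ed g g' := by
  unfold fn ed hsq mk
  rw [Fintype.sum_prod_type]
  rfl

theorem fn_gen_sub {P : Mat n} (hs : Pᵀ = P) (hP : P * P = P) (g g' : Fin n × Fin n → ℝ) :
    fn (gen P g - gen P g') ≤ 2 * ed g g' := by
  have e : gen P g - gen P g' = P * ((mk g - mk g') - (mk g - mk g')ᵀ) * P := by
    unfold gen
    rw [hs, Matrix.transpose_sub]
    noncomm_ring
  rw [e]
  refine (fn_mul_proj_le hs hP _).trans ((fn_proj_mul_le hs hP _).trans ?_)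
  have := fn_sub_le (mk g - mk g') (mk g - mk g')ᵀ
  rw [fn_transpose, fn_mk_sub] at this
  linarith

theorem lip_fn_gen {P : Mat n} (hs : Pᵀ = P) (hP : P * P = P) :
    Lip 2 (fun g : Fin n × Fin n → ℝ => fn (gen P g)) := by
  intro g g'
  have h1 := fn_gen_sub hs hP g g'
  have h2 := fn_add_le (gen P g - gen P g') (gen P g')
  have h3 := fn_add_le (gen P g' - gen P g) (gen P g)
  rw [sub_add_cancel] at h2 h3
  rw [fn_sub_comm] at h3
  rw [abs_le]
  constructor <;> linarith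

theorem integrable_fn_gen_four {P : Mat n} (hs : Pᵀ = P) (hP : P * P = P) :
    Integrable (fun g : Fin n × Fin n → ℝ => fn (gen P g) ^ 4) (gpi _) := by
  have h := lip_fn_gen hs hP
  refine ((h.integrable_exp 1).const_mul 24).mono' (h.measurable.pow_const 4).aestronglyMeasurable
    (ae_of_all _ fun g => ?_)
  rw [Real.norm_eq_abs, abs_of_nonneg (pow_nonneg (fn_nonneg _) 4), one_mul]
  have := Real.pow_div_factorial_le_exp (fn (gen P g)) (fn_nonneg _) 4
  norm_num [Nat.factorial] at this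
  linarith

theorem sum4_a (A B C D : Mat n) :
    ∑ i, ∑ j, ∑ a, ∑ b, (A i a * B b j) * (C i a * D b j) = (Aᵀ * C).trace * (Bᵀ * D).trace := by
  have h1 : (Aᵀ * C).trace = ∑ i, ∑ a, A i a * C i a := by
    unfold Matrix.trace
    rw [Finset.sum_comm]
    simp [Matrix.mul_apply]
  have h2 : (Bᵀ * D).trace = ∑ j, ∑ b, B b j * D b j := by
    unfold Matrix.trace
    simp [Matrix.mul_apply]
  rw [h1, h2, Finset.sum_mul_sum]
  refine Finset.sum_congr rfl fun i _ => Finset.sum_congr rfl fun j _ => ?_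
  rw [Finset.sum_mul_sum]
  refine Finset.sum_congr rfl fun a _ => Finset.sum_congr rfl fun b _ => ?_
  ring

theorem sum4_b (A B C D : Mat n) :
    ∑ i, ∑ j, ∑ a, ∑ b, (A i a * B b j) * (C i b * D a j) = (Cᵀ * A * D * Bᵀ).trace := by
  have h1 : (Cᵀ * A * D * Bᵀ).trace = ∑ b, ∑ j, ∑ a, ∑ i, C i b * A i a * D a j * B b j := by
    unfold Matrix.trace
    simp [Matrix.mul_apply, Finset.sum_mul]
  rw [h1]
  calc ∑ i, ∑ j, ∑ a, ∑ b, (A i a * B b j) * (C i b * D a j)
      = ∑ j, ∑ a, ∑ i, ∑ b, (A i a * B b j) * (C i b * D a j) := by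
        rw [Finset.sum_comm]
        exact Finset.sum_congr rfl fun j _ => Finset.sum_comm
    _ = ∑ j, ∑ a, ∑ b, ∑ i, (A i a * B b j) * (C i b * D a j) :=
        Finset.sum_congr rfl fun j _ => Finset.sum_congr rfl fun a _ => Finset.sum_comm
    _ = ∑ j, ∑ b, ∑ a, ∑ i, (A i a * B b j) * (C i b * D a j) :=
        Finset.sum_congr rfl fun j _ => Finset.sum_comm
    _ = ∑ b, ∑ j, ∑ a, ∑ i, (A i a * B b j) * (C i b * D a j) := Finset.sum_comm
    _ = _ := by
        refine Finset.sum_congr rfl fun b _ => Finset.sum_congr rfl fun j _ =>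
          Finset.sum_congr rfl fun a _ => Finset.sum_congr rfl fun i _ => ?_
        ring

theorem mul_mk_apply (A B : Mat n) (g : Fin n × Fin n → ℝ) (i j : Fin n) :
    (A * mk g * B) i j = ∑ p : Fin n × Fin n, (A i p.1 * B p.2 j) * g p := by
  rw [Fintype.sum_prod_type, Finset.sum_comm]
  simp only [Matrix.mul_apply, mk, Matrix.of_apply, Finset.sum_mul]
  refine Finset.sum_congr rfl fun b _ => Finset.sum_congr rfl fun a _ => ?_
  ring

theorem mul_mkT_apply (A B : Mat n) (g : Fin n × Fin n → ℝ) (i j : Fin n) :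
    (A * (mk g)ᵀ * B) i j = ∑ p : Fin n × Fin n, (A i p.2 * B p.1 j) * g p := by
  rw [Fintype.sum_prod_type]
  simp only [Matrix.mul_apply, mk, Matrix.of_apply, Matrix.transpose_apply, Finset.sum_mul]
  refine Finset.sum_congr rfl fun b _ => Finset.sum_congr rfl fun a _ => ?_
  ring

/-- coefficients of the commutator -/
def cf (P K : Mat n) (i j : Fin n) (p : Fin n × Fin n) : ℝ :=
  K i p.1 * P p.2 j - K i p.2 * P p.1 j - (P i p.1 * K p.2 j - P i p.2 * K p.1 j)

theorem comm_gen_apply {P K : Mat n} (hs : Pᵀ = P) (hKP : K * P = K) (hPK : P * K = K)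
    (g : Fin n × Fin n → ℝ) (i j : Fin n) :
    (K * gen P g - gen P g * K) i j = ∑ p, cf P K i j p * g p := by
  have e : K * gen P g - gen P g * K =
      K * mk g * P - K * (mk g)ᵀ * P - (P * mk g * K - P * (mk g)ᵀ * K) := by
    unfold gen
    rw [hs]
    have a1 : K * (P * (mk g - (mk g)ᵀ) * P) = K * (mk g - (mk g)ᵀ) * P := by
      rw [← Matrix.mul_assoc, ← Matrix.mul_assoc, hKP]
    have a2 : P * (mk g - (mk g)ᵀ) * P * K = P * (mk g - (mk g)ᵀ) * K := by
      rw [Matrix.mul_assoc, hPK]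
    rw [a1, a2]
    noncomm_ring
  rw [e]
  simp only [Matrix.sub_apply, mul_mk_apply, mul_mkT_apply, ← Finset.sum_sub_distrib, cf]
  refine Finset.sum_congr rfl fun p _ => ?_
  ring

theorem sum_cf_sq {P K : Mat n} (hs : Pᵀ = P) (hP : P * P = P) (hK : Kᵀ = -K) (hKP : K * P = K)
    (hPK : P * K = K) : ∑ i, ∑ j, ∑ p, cf P K i j p ^ 2 = 4 * (P.trace - 2) * hsq K := by
  have t0 : K.trace = 0 := by
    have := Matrix.trace_transpose K
    rw [hK, Matrix.trace_neg] at this
    linarith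
  have tKK : (K * K).trace = -hsq K := by
    rw [hsq_eq_trace, hK, Matrix.neg_mul, Matrix.trace_neg, neg_neg]
  have s1 := sum4_a K P K P
  have s2 := sum4_a K P P K
  have s3 := sum4_a P K P K
  have s4 := sum4_b K P K P
  have s5 := sum4_b K P P K
  have s6 := sum4_b P K K P
  have s7 := sum4_b P K P K
  simp only [hs, hK, hP, hKP, hPK, Matrix.neg_mul, Matrix.mul_neg, Matrix.trace_neg, t0, tKK,
    neg_neg, Matrix.mul_assoc, neg_zero, mul_zero] at s1 s2 s3 s4 s5 s6 s7
  have sw : ∀ F : Fin n → Fin n → Fin n → Fin n → ℝ,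
      ∑ i, ∑ j, ∑ a, ∑ b, F i j b a = ∑ i, ∑ j, ∑ a, ∑ b, F i j a b := fun F =>
    Finset.sum_congr rfl fun i _ => Finset.sum_congr rfl fun j _ => Finset.sum_comm
  have s1' := sw fun i j a b => (K i a * P b j) * (K i a * P b j)
  have s2' := sw fun i j a b => (K i a * P b j) * (P i a * K b j)
  have s3' := sw fun i j a b => (P i a * K b j) * (P i a * K b j)
  have e : ∑ i, ∑ j, ∑ p, cf P K i j p ^ 2 =
      ∑ i, ∑ j, ∑ a, ∑ b, (K i a * P b j) * (K i a * P b j)
      + ∑ i, ∑ j, ∑ a, ∑ b, (K i b * P a j) * (K i b * P a j)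
      + ∑ i, ∑ j, ∑ a, ∑ b, (P i a * K b j) * (P i a * K b j)
      + ∑ i, ∑ j, ∑ a, ∑ b, (P i b * K a j) * (P i b * K a j)
      - 2 * ∑ i, ∑ j, ∑ a, ∑ b, (K i a * P b j) * (P i a * K b j)
      - 2 * ∑ i, ∑ j, ∑ a, ∑ b, (K i b * P a j) * (P i b * K a j)
      - 2 * ∑ i, ∑ j, ∑ a, ∑ b, (K i a * P b j) * (K i b * P a j)
      + 2 * ∑ i, ∑ j, ∑ a, ∑ b, (K i a * P b j) * (P i b * K a j)
      + 2 * ∑ i, ∑ j, ∑ a, ∑ b, (P i a * K b j) * (K i b * P a j)
      - 2 * ∑ i, ∑ j, ∑ a, ∑ b, (P i a * K b j) * (P i b * K a j) := by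
    simp only [Fintype.sum_prod_type, Finset.mul_sum, ← Finset.sum_add_distrib,
      ← Finset.sum_sub_distrib, cf]
    refine Finset.sum_congr rfl fun i _ => Finset.sum_congr rfl fun j _ =>
      Finset.sum_congr rfl fun a _ => Finset.sum_congr rfl fun b _ => ?_
    ring
  rw [e, s1', s2', s3', s1, s2, s3, s4, s5, s6, s7]
  ring

theorem hsq_comm_gen {P K : Mat n} (hs : Pᵀ = P) (hKP : K * P = K) (hPK : P * K = K)
    (g : Fin n × Fin n → ℝ) :
    hsq (K * gen P g - gen P g * K) = ∑ i, ∑ j, (∑ p, cf P K i j p * g p) ^ 2 := by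
  unfold hsq
  simp only [comm_gen_apply hs hKP hPK]

theorem integrable_hsq_comm_gen {P K : Mat n} (hs : Pᵀ = P) (hKP : K * P = K) (hPK : P * K = K) :
    Integrable (fun g => hsq (K * gen P g - gen P g * K)) (gpi _) := by
  simp only [hsq_comm_gen hs hKP hPK]
  exact integrable_finsetSum _ fun i _ => integrable_finsetSum _ fun j _ =>
    L6b.integrable_lin_sq _

theorem integral_hsq_comm_gen {P K : Mat n} (hs : Pᵀ = P) (hP : P * P = P) (hK : Kᵀ = -K)
    (hKP : K * P = K) (hPK : P * K = K) :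
    ∫ g, hsq (K * gen P g - gen P g * K) ∂gpi _ = 4 * (P.trace - 2) * hsq K := by
  simp only [hsq_comm_gen hs hKP hPK]
  rw [integral_finsetSum _ fun i _ => integrable_finsetSum _ fun j _ => L6b.integrable_lin_sq _,
    ← sum_cf_sq hs hP hK hKP hPK]
  refine Finset.sum_congr rfl fun i _ => ?_
  rw [integral_finsetSum _ fun j _ => L6b.integrable_lin_sq _]
  exact Finset.sum_congr rfl fun j _ => L6b.integral_lin_sq _

theorem anti_fix {P K : Mat n} (hs : Pᵀ = P) (hK : Kᵀ = -K) (h : K * (1 - P) = 0) :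
    K * P = K ∧ P * K = K := by
  have h1 : K * P = K := by
    rw [Matrix.mul_sub, Matrix.mul_one, sub_eq_zero] at h
    exact h.symm
  refine ⟨h1, ?_⟩
  have h2 := congrArg Matrix.transpose h1
  rw [Matrix.transpose_mul, hs, hK, Matrix.mul_neg, neg_inj] at h2
  exact h2

/-- conjugation of the Gaussian entries -/
def cj (W : Mat n) : (Fin n × Fin n → ℝ) →ₗ[ℝ] (Fin n × Fin n → ℝ) where
  toFun g p := (W * mk g * Wᵀ) p.1 p.2
  map_add' g g' := by
    funext p
    have : mk (g + g') = mk g + mk g' := rfl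
    rw [this, Matrix.mul_add, Matrix.add_mul]
    rfl
  map_smul' c g := by
    funext p
    have : mk (c • g) = c • mk g := rfl
    rw [this, Matrix.mul_smul, Matrix.smul_mul]
    rfl

theorem mk_cj (W : Mat n) (g : Fin n × Fin n → ℝ) : mk (cj W g) = W * mk g * Wᵀ := rfl

theorem mp_cj {W : Mat n} (hW : Wᵀ * W = 1) : MeasurePreserving (cj W) (gpi _) (gpi _) := by
  refine mp_gpi_of_iso _ fun g => ?_
  have h1 : ∀ g : Fin n × Fin n → ℝ, ∑ p, g p ^ 2 = hsq (mk g) := fun g => by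
    unfold hsq mk
    rw [Fintype.sum_prod_type]
    rfl
  rw [h1, h1, mk_cj, hsq_mul_orth (by simpa using orth_comm hW), hsq_orth_mul hW]

theorem comm_of_fix {P W : Mat n} (hs : Pᵀ = P) (hW : Wᵀ * W = 1) (h : W * (1 - P) = 1 - P) :
    W * P = P * W := by
  have h1 : Wᵀ * (1 - P) = 1 - P := by
    conv_lhs => rw [← h]
    rw [← Matrix.mul_assoc, hW, Matrix.one_mul]
  have h2 := congrArg Matrix.transpose h1
  rw [Matrix.transpose_mul, Matrix.transpose_transpose, Matrix.transpose_sub, Matrix.transpose_one,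
    hs] at h2
  have h3 : W * (1 - P) = (1 - P) * W := by rw [h, h2]
  rw [Matrix.mul_sub, Matrix.sub_mul, Matrix.mul_one, Matrix.one_mul] at h3
  exact sub_right_injective h3

theorem gen_cj {P W : Mat n} (hs : Pᵀ = P) (hc : W * P = P * W) (g : Fin n × Fin n → ℝ) :
    gen P (cj W g) = W * gen P g * Wᵀ := by
  have hc' : P * Wᵀ = Wᵀ * P := by
    have := congrArg Matrix.transpose hc
    rwa [Matrix.transpose_mul, Matrix.transpose_mul, hs] at this
  unfold gen
  rw [mk_cj, hs]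
  simp only [Matrix.transpose_mul, Matrix.transpose_transpose]
  have e1 : W * (P * (mk g - (mk g)ᵀ) * P) * Wᵀ = (W * P) * (mk g - (mk g)ᵀ) * (P * Wᵀ) := by
    simp only [Matrix.mul_assoc]
  rw [e1, hc, hc']
  noncomm_ring

/-- one step of the walk -/
noncomputable def step (P : Mat n) (s : ℝ) (g : Fin n × Fin n → ℝ) : OM n :=
  ⟨cay (s • gen P g), (Matrix.mem_orthogonalGroup_iff' _ _).2
    (cay_orth (anti_smul (gen_anti P g) s))⟩

theorem step_val (P : Mat n) (s : ℝ) (g : Fin n × Fin n → ℝ) :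
    (step P s g).1 = cay (s • gen P g) := rfl

theorem sgen_fix {P : Mat n} (hP : P * P = P) (s : ℝ) (g : Fin n × Fin n → ℝ) :
    (s • gen P g) * (1 - P) = 0 := by rw [Matrix.smul_mul, gen_fix hP, smul_zero]

theorem step_fix {P : Mat n} (hP : P * P = P) (s : ℝ) (g : Fin n × Fin n → ℝ) :
    (step P s g).1 * (1 - P) = 1 - P :=
  cay_fix (anti_smul (gen_anti P g) s) (sgen_fix hP s g)

theorem step_det (P : Mat n) (s : ℝ) (g : Fin n × Fin n → ℝ) : (step P s g).1.det = 1 :=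
  det_cay (anti_smul (gen_anti P g) s)

theorem fn_sgen_sub {P : Mat n} (hs : Pᵀ = P) (hP : P * P = P) {s : ℝ} (h0 : 0 ≤ s)
    (g g' : Fin n × Fin n → ℝ) : fn (s • gen P g - s • gen P g') ≤ 2 * s * ed g g' := by
  rw [← smul_sub, fn_smul, abs_of_nonneg h0]
  have := mul_le_mul_of_nonneg_left (fn_gen_sub hs hP g g') h0
  linarith

theorem fn_step_sub {P : Mat n} (hs : Pᵀ = P) (hP : P * P = P) {s : ℝ} (h0 : 0 ≤ s)
    (g g' : Fin n × Fin n → ℝ) : fn ((step P s g).1 - (step P s g').1) ≤ 4 * s * ed g g' := by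
  have h1 := fn_cay_sub (anti_smul (gen_anti P g) s) (anti_smul (gen_anti P g') s)
  have h2 := fn_sgen_sub hs hP h0 g g'
  rw [step_val, step_val]
  linarith

theorem continuous_step {P : Mat n} (hs : Pᵀ = P) (hP : P * P = P) {s : ℝ} (h0 : 0 ≤ s) :
    Continuous (step P s) := by
  refine Continuous.subtype_mk (f := fun g => cay (s • gen P g)) ?_ _
  refine continuous_pi fun i => continuous_pi fun j => ?_
  refine Lip.continuous (L := 4 * s) fun g g' => ?_
  exact (abs_entry_le_fn ((step P s g).1 - (step P s g').1) i j).trans (fn_step_sub hs hP h0 g g')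

theorem step_cj {P : Mat n} (hs : Pᵀ = P) (s : ℝ) (W : OM n) (h : W.1 * (1 - P) = 1 - P)
    (g : Fin n × Fin n → ℝ) : step P s (cj W.1 g) * W = W * step P s g := by
  apply Subtype.ext
  show cay (s • gen P (cj W.1 g)) * W.1 = W.1 * cay (s • gen P g)
  rw [gen_cj hs (comm_of_fix hs (oo W) h), ← Matrix.smul_mul, ← Matrix.mul_smul,
    cay_conj (anti_smul (gen_anti P g) s) (oo W), Matrix.mul_assoc, (oo W), Matrix.mul_one]

/-- the commutator with one step is large on average -/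
theorem integral_comm_step {P K : Mat n} (hs : Pᵀ = P) (hP : P * P = P) (hK : Kᵀ = -K)
    (hKf : K * (1 - P) = 0) {s : ℝ} (h0 : 0 ≤ s)
    (hsm : 8 * s ^ 2 * ∫ g, fn (gen P g) ^ 4 ∂gpi _ ≤ P.trace - 2) :
    Integrable (fun g => hsq (K * (step P s g).1 - (step P s g).1 * K)) (gpi _) ∧
    6 * (P.trace - 2) * s ^ 2 * hsq K ≤
      ∫ g, hsq (K * (step P s g).1 - (step P s g).1 * K) ∂gpi _ := by
  obtain ⟨hKP, hPK⟩ := anti_fix hs hK hKf
  have hc : Continuous fun g => (step P s g).1 :=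
    continuous_subtype_val.comp (continuous_step hs hP h0)
  have hi : Integrable (fun g => hsq (K * (step P s g).1 - (step P s g).1 * K)) (gpi _) := by
    refine Integrable.of_bound (C := (2 * fn K) ^ 2) ?_ (ae_of_all _ fun g => ?_)
    · refine Continuous.aestronglyMeasurable ?_
      simp only [← fn_sq]
      exact (continuous_fn.comp ((continuous_const.mul hc).sub (hc.mul continuous_const))).pow 2
    · rw [Real.norm_eq_abs, abs_of_nonneg (hsq_nn' _), ← fn_sq]
      refine pow_le_pow_left₀ (fn_nonneg _) ?_ 2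
      have := fn_sub_le (K * (step P s g).1) ((step P s g).1 * K)
      rw [fn_mul_orth (oo (step P s g)), fn_orth_mul (oo (step P s g))] at this
      linarith
  refine ⟨hi, ?_⟩
  have i1 := integrable_hsq_comm_gen hs hKP hPK
  have i2 := integrable_fn_gen_four hs hP
  have h1 : ∫ g, (2 * s ^ 2 * hsq (K * gen P g - gen P g * K)
      - 16 * s ^ 4 * hsq K * fn (gen P g) ^ 4) ∂gpi _ ≤
      ∫ g, hsq (K * (step P s g).1 - (step P s g).1 * K) ∂gpi _ := by
    refine integral_mono ((i1.const_mul _).sub (i2.const_mul _)) hi fun g => ?_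
    have h2 := hsq_comm_cay (K := K) (anti_smul (gen_anti P g) s)
    have e1 : K * s • gen P g - s • gen P g * K = s • (K * gen P g - gen P g * K) := by
      rw [Matrix.mul_smul, Matrix.smul_mul, smul_sub]
    rw [e1, ← fn_sq (s • _), fn_smul, fn_smul, abs_of_nonneg h0, mul_pow, mul_pow, fn_sq] at h2
    simp only [step_val]
    linarith
  rw [integral_sub (i1.const_mul _) (i2.const_mul _), integral_const_mul, integral_const_mul,
    integral_hsq_comm_gen hs hP hK hKP hPK] at h1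
  have h3 : 0 ≤ s ^ 2 * hsq K := mul_nonneg (sq_nonneg s) (hsq_nn' K)
  nlinarith [mul_le_mul_of_nonneg_left hsm h3]

/-! ### Lipschitz notions -/

/-- global Lipschitz bound -/
def GLip (f : OM n → ℝ) (L : ℝ) : Prop := ∀ U V : OM n, |f U - f V| ≤ L * fn (U.1 - V.1)

/-- infinitesimal Lipschitz bound along the cosets of the stabiliser of `1 - P` -/
def ILip (P : Mat n) (f : OM n → ℝ) (L : ℝ) : Prop :=
  ∀ ε : ℝ, 0 < ε → ∃ δ : ℝ, 0 < δ ∧ ∀ U V : OM n, U.1 * (1 - P) = V.1 * (1 - P) →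
    fn (U.1 - V.1) < δ → |f U - f V| ≤ (L + ε) * fn (U.1 - V.1)

theorem GLip.ilip {f : OM n → ℝ} {L : ℝ} (h : GLip f L) (P : Mat n) : ILip P f L := by
  intro ε hε
  refine ⟨1, one_pos, fun U V _ _ => (h U V).trans ?_⟩
  exact mul_le_mul_of_nonneg_right (by linarith) (fn_nonneg _)

theorem GLip.continuous {f : OM n → ℝ} {L : ℝ} (h : GLip f L) : Continuous f := by
  rw [continuous_iff_continuousAt]
  intro V
  have hc : Continuous fun U : OM n => L * fn (U.1 - V.1) :=
    continuous_const.mul (continuous_fn.comp (continuous_subtype_val.sub continuous_const))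
  have h1 : Tendsto (fun U : OM n => L * fn (U.1 - V.1)) (𝓝 V) (𝓝 0) := by
    have := hc.tendsto V
    simpa [fn_zero] using this
  have h2 : Tendsto (fun U => f U - f V) (𝓝 V) (𝓝 0) :=
    squeeze_zero_norm (fun U => by rw [Real.norm_eq_abs]; exact h U V) h1
  have h3 := h2.add_const (f V)
  simp only [sub_add_cancel, zero_add] at h3
  exact h3

theorem GLip.abs_sub_le {f : OM n → ℝ} {L : ℝ} (h : GLip f L) (hL : 0 ≤ L) (U V : OM n) :
    |f U - f V| ≤ L * (2 * Real.sqrt n) := by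
  refine (h U V).trans (mul_le_mul_of_nonneg_left ?_ hL)
  have := fn_sub_le U.1 V.1
  rw [fn_orth (oo U), fn_orth (oo V)] at this
  linarith

theorem fn_mul_left_sub (U V W : OM n) : fn ((U * V).1 - (U * W).1) = fn (V.1 - W.1) := by
  show fn (U.1 * V.1 - U.1 * W.1) = _
  rw [← Matrix.mul_sub, fn_orth_mul (oo U)]

theorem fn_mul_right_sub (U V W : OM n) : fn ((V * U).1 - (W * U).1) = fn (V.1 - W.1) := by
  show fn (V.1 * U.1 - W.1 * U.1) = _
  rw [← Matrix.sub_mul, fn_mul_orth (oo U)]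

/-- Cayley transform as a group element -/
noncomputable def cayG (X : Mat n) (hX : Xᵀ = -X) : OM n :=
  ⟨cay X, (Matrix.mem_orthogonalGroup_iff' _ _).2 (cay_orth hX)⟩

/-- integration of the infinitesimal bound along a Cayley segment -/
theorem ILip.path {P : Mat n} {f : OM n → ℝ} {L : ℝ} (h : ILip P f L) (hL : 0 ≤ L) {X Y : Mat n}
    (hX : Xᵀ = -X) (hY : Yᵀ = -Y) (hXf : X * (1 - P) = 0) (hYf : Y * (1 - P) = 0) (U : OM n) :
    |f (U * cayG X hX) - f (U * cayG Y hY)| ≤ L * (2 * fn (X - Y)) := by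
  have d0 : 0 ≤ 2 * fn (X - Y) := by linarith [fn_nonneg (X - Y)]
  have key : ∀ ε : ℝ, 0 < ε →
      |f (U * cayG X hX) - f (U * cayG Y hY)| ≤ (L + ε) * (2 * fn (X - Y)) := by
    intro ε hε
    obtain ⟨δ, hδ, H⟩ := h ε hε
    obtain ⟨N, hN⟩ := exists_nat_gt (2 * fn (X - Y) / δ)
    have hN0 : (0 : ℝ) < N := lt_of_le_of_lt (div_nonneg d0 hδ.le) hN
    have hZ : ∀ t : ℝ, (Y + t • (X - Y))ᵀ = -(Y + t • (X - Y)) := fun t => by
      rw [Matrix.transpose_add, Matrix.transpose_smul, Matrix.transpose_sub, hX, hY]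
      simp only [smul_sub, smul_neg]
      abel
    have hZf : ∀ t : ℝ, (Y + t • (X - Y)) * (1 - P) = 0 := fun t => by
      rw [Matrix.add_mul, Matrix.smul_mul, Matrix.sub_mul X, hXf, hYf]; simp
    have ind : ∀ k : ℕ, |f (U * cayG _ (hZ ((k : ℝ) / N))) - f (U * cayG Y hY)| ≤
        k * ((L + ε) * (2 * fn (X - Y) / N)) := by
      intro k
      induction k with
      | zero =>
        have : cayG _ (hZ (((0 : ℕ) : ℝ) / N)) = cayG Y hY := by
          apply Subtype.ext
          show cay _ = cay _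
          simp
        rw [this]; simp
      | succ k ih =>
        have hd : fn ((U * cayG _ (hZ (((k + 1 : ℕ) : ℝ) / N))).1 -
            (U * cayG _ (hZ ((k : ℝ) / N))).1) ≤ 2 * fn (X - Y) / N := by
          rw [fn_mul_left_sub]
          refine (fn_cay_sub (hZ _) (hZ _)).trans ?_
          have e : Y + (((k + 1 : ℕ) : ℝ) / N) • (X - Y) - (Y + ((k : ℝ) / N) • (X - Y)) =
              (1 / (N : ℝ)) • (X - Y) := by
            rw [add_sub_add_left_eq_sub, ← sub_smul]
            congr 1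
            push_cast
            ring
          rw [e, fn_smul, abs_of_pos (by positivity)]
          exact le_of_eq (by ring)
        have h1 := H (U * cayG _ (hZ (((k + 1 : ℕ) : ℝ) / N))) (U * cayG _ (hZ ((k : ℝ) / N)))
          (by
            show U.1 * cay _ * (1 - P) = U.1 * cay _ * (1 - P)
            rw [Matrix.mul_assoc, Matrix.mul_assoc, cay_fix (hZ _) (hZf _), cay_fix (hZ _) (hZf _)])
          (lt_of_le_of_lt hd (by
            rw [div_lt_iff₀ hN0]
            rw [div_lt_iff₀ hδ] at hN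
            linarith))
        have h2 := mul_le_mul_of_nonneg_left hd (by linarith : 0 ≤ L + ε)
        have h3 := abs_sub_le (f (U * cayG _ (hZ (((k + 1 : ℕ) : ℝ) / N))))
          (f (U * cayG _ (hZ ((k : ℝ) / N)))) (f (U * cayG Y hY))
        have e : ((k + 1 : ℕ) : ℝ) * ((L + ε) * (2 * fn (X - Y) / N)) =
            k * ((L + ε) * (2 * fn (X - Y) / N)) + (L + ε) * (2 * fn (X - Y) / N) := by
          push_cast; ring
        rw [e]
        linarith
    have hfin := ind N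
    have e1 : cayG _ (hZ ((N : ℝ) / N)) = cayG X hX := by
      apply Subtype.ext
      show cay _ = cay _
      rw [div_self hN0.ne', one_smul, add_sub_cancel]
    rw [e1] at hfin
    refine hfin.trans (le_of_eq ?_)
    field_simp
  refine le_of_forall_pos_le_add fun η hη => ?_
  have h1 := key (η / (2 * fn (X - Y) + 1)) (by positivity)
  have h2 : η / (2 * fn (X - Y) + 1) * (2 * fn (X - Y)) ≤ η := by
    rw [div_mul_eq_mul_div, div_le_iff₀ (by positivity)]
    nlinarith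
  linarith

theorem ILip.lip_step {P : Mat n} (hs : Pᵀ = P) (hP : P * P = P) {f : OM n → ℝ} {L : ℝ}
    (h : ILip P f L) (hL : 0 ≤ L) {s : ℝ} (h0 : 0 ≤ s) (U : OM n) :
    Lip (4 * s * L) (fun g => f (U * step P s g)) := by
  intro g g'
  have h1 := h.path hL (anti_smul (gen_anti P g) s) (anti_smul (gen_anti P g') s)
    (sgen_fix hP s g) (sgen_fix hP s g') U
  have h2 := mul_le_mul_of_nonneg_left (fn_sgen_sub hs hP h0 g g') hL
  have e1 : step P s g = cayG _ (anti_smul (gen_anti P g) s) := rfl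
  have e2 : step P s g' = cayG _ (anti_smul (gen_anti P g') s) := rfl
  simp only [e1, e2]
  linarith

/-! ### The Markov operator -/

/-- one averaging step -/
noncomputable def TT (P : Mat n) (s : ℝ) (f : OM n → ℝ) (U : OM n) : ℝ :=
  ∫ g, f (U * step P s g) ∂gpi _

theorem GLip.integrable_step {P : Mat n} (hs : Pᵀ = P) (hP : P * P = P) {f : OM n → ℝ} {L : ℝ}
    (h : GLip f L) (hL : 0 ≤ L) {s : ℝ} (h0 : 0 ≤ s) (U W : OM n) :
    Integrable (fun g => f (U * step P s g * W)) (gpi _) := by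
  have h1 : GLip (fun V => f (V * W)) L := fun V V' => by
    have := h (V * W) (V' * W)
    rwa [fn_mul_right_sub] at this
  exact ((h1.ilip P).lip_step hs hP hL h0 U).integrable

theorem GLip.TT {P : Mat n} (hs : Pᵀ = P) (hP : P * P = P) {f : OM n → ℝ} {L : ℝ}
    (h : GLip f L) (hL : 0 ≤ L) {s : ℝ} (h0 : 0 ≤ s) : GLip (TT P s f) L := by
  intro U V
  have i1 := ((h.ilip P).lip_step hs hP hL h0 U).integrable
  have i2 := ((h.ilip P).lip_step hs hP hL h0 V).integrable
  unfold HC.TT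
  rw [← integral_sub i1 i2]
  have := norm_integral_le_of_norm_le_const (μ := gpi (Fin n × Fin n))
    (f := fun g => f (U * step P s g) - f (V * step P s g)) (C := L * fn (U.1 - V.1))
    (ae_of_all _ fun g => by
      have := h (U * step P s g) (V * step P s g)
      rwa [fn_mul_right_sub] at this)
  simpa using this

theorem TT_conj {P : Mat n} (hs : Pᵀ = P) (hP : P * P = P) {f : OM n → ℝ} {L0 : ℝ}
    (hG : GLip f L0) (hL0 : 0 ≤ L0) {s : ℝ} (h0 : 0 ≤ s) (U W : OM n)
    (hWf : W.1 * (1 - P) = 1 - P) :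
    HC.TT P s f (U * W) = ∫ g, f (U * step P s g * W) ∂gpi _ := by
  have i1 := hG.integrable_step hs hP hL0 h0 U W
  rw [← mp_integral (mp_cj (oo W)) i1.aestronglyMeasurable]
  unfold HC.TT
  refine integral_congr_ae (ae_of_all _ fun g => ?_)
  simp only
  rw [mul_assoc U (step P s _) W, step_cj hs s W hWf, mul_assoc U]

theorem sandwich_pt {P : Mat n} (hP : P * P = P) {f : OM n → ℝ} {L δ : ℝ} (hL : 0 ≤ L)
    (H : ∀ U V : OM n, U.1 * (1 - P) = V.1 * (1 - P) → fn (U.1 - V.1) < δ →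
      |f U - f V| ≤ L * fn (U.1 - V.1))
    {X : Mat n} (hX : Xᵀ = -X) (hXf : X * (1 - P) = 0) (hx0 : 0 < fn X)
    (hx : 2 * fn X + fn X ^ 2 < δ) (U S : OM n) (hS : S.1 * (1 - P) = 1 - P) :
    |f (U * cayG _ (anti_smul hX (1 / 2)) * S * cayG _ (anti_smul hX (1 / 2))) - f (U * S)| ≤
      L * (2 * fn X + fn X ^ 2 - hsq (X * S.1 - S.1 * X) / (4 * fn X)) := by
  have hY := anti_smul hX (1 / 2)
  have hYf : ((1 / 2 : ℝ) • X) * (1 - P) = 0 := by rw [Matrix.smul_mul, hXf, smul_zero]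
  set W := cayG _ hY with hW
  have hWf : W.1 * (1 - P) = 1 - P := cay_fix hY hYf
  have e : fn ((U * W * S * W).1 - (U * S).1) =
      fn (cay ((1 / 2 : ℝ) • X) * S.1 * cay ((1 / 2 : ℝ) • X) - S.1) := by
    rw [mul_assoc, mul_assoc, fn_mul_left_sub, ← mul_assoc]
    rfl
  have b2 := H (U * W * S * W) (U * S)
    (by
      show U.1 * W.1 * S.1 * W.1 * (1 - P) = U.1 * S.1 * (1 - P)
      simp only [Matrix.mul_assoc, hWf, hS])
    (by
      rw [e]
      exact lt_of_le_of_lt (fn_sandwich_crude hX (oo S)) hx)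
  refine b2.trans (mul_le_mul_of_nonneg_left ?_ hL)
  rw [e]
  have b3 := fn_sandwich hX (oo S)
  have b4 := fn_anticomm_le (K := X) (oo S) hx0
  linarith only [b3, b4]

theorem sandwich_int {P : Mat n} (hs : Pᵀ = P) (hP : P * P = P) {f : OM n → ℝ} {L L0 δ : ℝ}
    (hG : GLip f L0) (hL0 : 0 ≤ L0) (hL : 0 ≤ L)
    (H : ∀ U V : OM n, U.1 * (1 - P) = V.1 * (1 - P) → fn (U.1 - V.1) < δ →
      |f U - f V| ≤ L * fn (U.1 - V.1))
    {s : ℝ} (h0 : 0 ≤ s) (hsm : 8 * s ^ 2 * ∫ g, fn (gen P g) ^ 4 ∂gpi _ ≤ P.trace - 2)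
    {X : Mat n} (hX : Xᵀ = -X) (hXf : X * (1 - P) = 0) (hx0 : 0 < fn X)
    (hx : 2 * fn X + fn X ^ 2 < δ) (U : OM n) :
    |HC.TT P s f (U * cayG _ (anti_smul hX (1 / 2)) * cayG _ (anti_smul hX (1 / 2)))
        - HC.TT P s f U| ≤
      L * (2 * (1 - 3 / 4 * (P.trace - 2) * s ^ 2) * fn X + fn X ^ 2) := by
  have hY := anti_smul hX (1 / 2)
  have hYf : ((1 / 2 : ℝ) • X) * (1 - P) = 0 := by rw [Matrix.smul_mul, hXf, smul_zero]
  have b1 := fun g => sandwich_pt hP hL H hX hXf hx0 hx U (step P s g) (step_fix hP s g)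
  set W := cayG _ hY with hW
  have hWf : W.1 * (1 - P) = 1 - P := cay_fix hY hYf
  have i1 := hG.integrable_step hs hP hL0 h0 (U * W) W
  have i2 := ((hG.ilip P).lip_step hs hP hL0 h0 U).integrable
  obtain ⟨i3, c3⟩ := integral_comm_step hs hP hX hXf h0 hsm
  rw [TT_conj hs hP hG hL0 h0 (U * W) W hWf]
  unfold HC.TT
  rw [← integral_sub i1 i2]
  have b5 : |∫ g, (f (U * W * step P s g * W) - f (U * step P s g)) ∂gpi _| ≤
      ∫ g, L * (2 * fn X + fn X ^ 2 -
        hsq (X * (step P s g).1 - (step P s g).1 * X) / (4 * fn X)) ∂gpi _ := by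
    refine (abs_integral_le_integral_abs).trans (integral_mono (i1.sub i2).abs ?_ b1)
    exact ((integrable_const _).sub (i3.div_const _)).const_mul _
  refine b5.trans ?_
  rw [integral_const_mul, integral_sub (integrable_const _) (i3.div_const _), integral_div]
  refine mul_le_mul_of_nonneg_left ?_ hL
  simp only [integral_const, probReal_univ, smul_eq_mul, one_mul]
  have b6 : 6 * (P.trace - 2) * s ^ 2 * hsq X / (4 * fn X) ≤
      (∫ g, hsq (X * (step P s g).1 - (step P s g).1 * X) ∂gpi _) / (4 * fn X) :=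
    div_le_div_of_nonneg_right c3 (by positivity)
  have b7 : 6 * (P.trace - 2) * s ^ 2 * hsq X / (4 * fn X) =
      2 * fn X - 2 * (1 - 3 / 4 * (P.trace - 2) * s ^ 2) * fn X := by
    rw [← fn_sq]
    field_simp
    ring
  linarith only [b6, b7]

theorem contr_arith {θ L L0 ε x d : ℝ} (θ0 : 0 ≤ θ) (θ1 : θ ≤ 1) (hL : 0 ≤ L) (hL0 : 0 ≤ L0)
    (hε : 0 < ε) (x0 : 0 ≤ x) (hx1 : x ≤ d) (hx2 : 2 * x ≤ d * (1 + d))
    (d3 : d * (6 * L0 + 2 * (L + ε / 2)) ≤ ε / 2) :
    L0 * (6 * x ^ 2) + (L + ε / 2) * (2 * θ * x + x ^ 2) ≤ (θ * L + ε) * d := by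
  have d0 : 0 ≤ d := x0.trans hx1
  have x2 : x ^ 2 ≤ d ^ 2 := pow_le_pow_left₀ x0 hx1 2
  have c6 : 2 * θ * x + x ^ 2 ≤ θ * d + 2 * d ^ 2 := by
    have a1 : θ * (2 * x) ≤ θ * (d * (1 + d)) := mul_le_mul_of_nonneg_left hx2 θ0
    have a2 : θ * d ^ 2 ≤ d ^ 2 := mul_le_of_le_one_left (sq_nonneg d) θ1
    nlinarith
  have c7 : (L + ε / 2) * (2 * θ * x + x ^ 2) ≤ (L + ε / 2) * (θ * d + 2 * d ^ 2) :=
    mul_le_mul_of_nonneg_left c6 (by linarith)
  have c8 : L0 * (6 * x ^ 2) ≤ L0 * (6 * d ^ 2) := mul_le_mul_of_nonneg_left (by linarith) hL0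
  have c9 : d * (d * (6 * L0 + 2 * (L + ε / 2))) ≤ d * (ε / 2) := mul_le_mul_of_nonneg_left d3 d0
  have c10 : θ * (ε / 2 * d) ≤ ε / 2 * d := mul_le_of_le_one_left (by positivity) θ1
  have e : L0 * (6 * d ^ 2) + (L + ε / 2) * (θ * d + 2 * d ^ 2) =
      θ * L * d + θ * (ε / 2 * d) + d * (d * (6 * L0 + 2 * (L + ε / 2))) := by ring
  linarith only [c7, c8, c9, c10, e]

/-- **contraction** of the infinitesimal Lipschitz constant -/
theorem ILip.TT {P : Mat n} (hs : Pᵀ = P) (hP : P * P = P) {f : OM n → ℝ} {L L0 : ℝ}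
    (hG : GLip f L0) (hL0 : 0 ≤ L0) (h : ILip P f L) (hL : 0 ≤ L) {s : ℝ} (h0 : 0 ≤ s)
    (hm : 0 ≤ P.trace - 2) (hsm : 8 * s ^ 2 * ∫ g, fn (gen P g) ^ 4 ∂gpi _ ≤ P.trace - 2)
    (hθ : 3 / 4 * (P.trace - 2) * s ^ 2 ≤ 1) :
    ILip P (TT P s f) ((1 - 3 / 4 * (P.trace - 2) * s ^ 2) * L) := by
  have θ0 : 0 ≤ 1 - 3 / 4 * (P.trace - 2) * s ^ 2 := by linarith only [hθ]
  have θ1 : 1 - 3 / 4 * (P.trace - 2) * s ^ 2 ≤ 1 := by
    have : 0 ≤ 3 / 4 * (P.trace - 2) * s ^ 2 := by positivity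
    linarith only [this]
  intro ε hε
  obtain ⟨δ, hδ, H⟩ := h (ε / 2) (by linarith only [hε])
  have M0 : 0 ≤ 6 * L0 + 2 * (L + ε / 2) := by positivity
  refine ⟨min (min 1 (δ / 3)) (ε / 2 / (6 * L0 + 2 * (L + ε / 2) + 1)), by positivity,
    fun V U hf hd => ?_⟩
  have d0 : 0 ≤ fn (V.1 - U.1) := fn_nonneg _
  have d1 : fn (V.1 - U.1) ≤ 1 := (hd.le.trans (min_le_left _ _)).trans (min_le_left _ _)
  have d2 : fn (V.1 - U.1) < δ / 3 :=
    lt_of_lt_of_le hd ((min_le_left _ _).trans (min_le_right _ _))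
  have d3 : fn (V.1 - U.1) * (6 * L0 + 2 * (L + ε / 2)) ≤ ε / 2 := by
    have := hd.le.trans (min_le_right _ _)
    rw [le_div_iff₀ (by positivity)] at this
    linarith only [this, d0]
  have hg : (U.1ᵀ * V.1)ᵀ * (U.1ᵀ * V.1) = 1 := by
    rw [Matrix.transpose_mul, Matrix.transpose_transpose, Matrix.mul_assoc, ← Matrix.mul_assoc U.1,
      orth_comm (oo U), Matrix.one_mul, oo V]
  have hgd : fn (U.1ᵀ * V.1 - 1) = fn (V.1 - U.1) := by
    rw [← fn_orth_mul (oo U), Matrix.mul_sub, ← Matrix.mul_assoc, orth_comm (oo U),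
      Matrix.one_mul, Matrix.mul_one]
  have hgf : U.1ᵀ * V.1 * (1 - P) = 1 - P := by
    rw [Matrix.mul_assoc, hf, ← Matrix.mul_assoc, oo U, Matrix.one_mul]
  obtain ⟨X, hX, hXf, hc, hx1, hx2⟩ := exists_cay_near hg (hgd.le.trans d1) hgf
  rw [hgd] at hx1 hx2
  have hV : V.1 = U.1 * cay X := by
    rw [hc, ← Matrix.mul_assoc, orth_comm (oo U), Matrix.one_mul]
  have x0 : 0 ≤ fn X := fn_nonneg X
  rcases eq_or_lt_of_le x0 with hx0 | hx0
  · have : V = U := by
      apply Subtype.ext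
      rw [hV, eq_zero_of_fn hx0.symm, cay_zero, Matrix.mul_one]
    rw [this, sub_self, abs_zero, sub_self, fn_zero, mul_zero]
  have c4 := sandwich_int hs hP hG hL0 (by linarith only [hL, hε] : 0 ≤ L + ε / 2) H h0 hsm hX hXf
    hx0 (by nlinarith only [hx1, d1, d2, x0]) U
  set W := cayG _ (anti_smul hX (1 / 2)) with hW
  have c1 : |HC.TT P s f V - HC.TT P s f (U * W * W)| ≤ L0 * (6 * fn X ^ 2) := by
    refine (hG.TT hs hP hL0 h0 V (U * W * W)).trans (mul_le_mul_of_nonneg_left ?_ hL0)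
    have e : V.1 - (U * W * W).1 =
        U.1 * (cay X - cay ((1 / 2 : ℝ) • X) * cay ((1 / 2 : ℝ) • X)) := by
      rw [hV, Matrix.mul_sub, ← Matrix.mul_assoc]
      rfl
    rw [e, fn_orth_mul (oo U)]
    exact fn_cay_half hX (hx1.trans d1)
  have c5 := abs_sub_le (HC.TT P s f V) (HC.TT P s f (U * W * W)) (HC.TT P s f U)
  have c6 := contr_arith θ0 θ1 hL hL0 hε x0 hx1 hx2 d3
  linarith only [c1, c4, c5, c6]

/-! ### Generation of the stabiliser group -/

/-- `W` is joined to `1` with finite length inside the stabiliser -/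
def Reach (P : Mat n) (W : OM n) : Prop :=
  ∃ D : ℝ, ∀ (F : OM n → ℝ) (L : ℝ), 0 ≤ L → ILip P F L → ∀ U : OM n, |F (U * W) - F U| ≤ D * L

theorem Reach.one (P : Mat n) : Reach P 1 := ⟨0, fun F L _ _ U => by simp⟩

theorem Reach.mul {P : Mat n} {V W : OM n} (hV : Reach P V) (hW : Reach P W) :
    Reach P (V * W) := by
  obtain ⟨D, hD⟩ := hV
  obtain ⟨D', hD'⟩ := hW
  refine ⟨D + D', fun F L hL hF U => ?_⟩
  have h1 := hD F L hL hF U
  have h2 := hD' F L hL hF (U * V)
  have h3 := abs_sub_le (F (U * V * W)) (F (U * V)) (F U)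
  rw [← mul_assoc]
  linarith

theorem reach_of_isUnit {P : Mat n} (W : OM n) (hf : W.1 * (1 - P) = 1 - P)
    (hu : IsUnit (W.1 + 1).det) : Reach P W := by
  obtain ⟨X, hX, hXf, hc, -⟩ := exists_cay (oo W) hu hf
  refine ⟨2 * fn X, fun F L hL hF U => ?_⟩
  have h0 : (0 : Mat n)ᵀ = -0 := by simp
  have h1 := hF.path hL hX h0 hXf (by simp) U
  have e1 : cayG X hX = W := Subtype.ext hc
  have e2 : cayG 0 h0 = 1 := Subtype.ext cay_zero
  rw [e1, e2, mul_one, sub_zero] at h1
  linarith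

/-- reflection in the hyperplane orthogonal to `u` -/
noncomputable def rf (u : Vec n) : Mat n := 1 - (2 / (u ⬝ᵥ u)) • Matrix.vecMulVec u u

theorem rf_mulVec (u x : Vec n) : rf u *ᵥ x = x - (2 * (u ⬝ᵥ x) / (u ⬝ᵥ u)) • u := by
  unfold rf
  rw [Matrix.sub_mulVec, Matrix.one_mulVec, Matrix.smul_mulVec, Matrix.vecMulVec_mulVec]
  congr 1
  funext i
  simp
  ring

theorem rf_transpose (u : Vec n) : (rf u)ᵀ = rf u := by
  unfold rf
  rw [Matrix.transpose_sub, Matrix.transpose_one, Matrix.transpose_smul, Matrix.transpose_vecMulVec]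

theorem ext_mulVec {A B : Mat n} (h : ∀ x, A *ᵥ x = B *ᵥ x) : A = B := by
  ext i j
  have := congrFun (h (Pi.single j 1)) i
  simpa using this

theorem rf_rf {u : Vec n} (hu : u ⬝ᵥ u ≠ 0) : rf u * rf u = 1 := by
  refine ext_mulVec fun x => ?_
  rw [← Matrix.mulVec_mulVec, rf_mulVec, rf_mulVec, Matrix.one_mulVec, dotProduct_sub,
    dotProduct_smul, smul_eq_mul, sub_sub, ← add_smul]
  have : 2 * (u ⬝ᵥ x) / (u ⬝ᵥ u) +
      2 * (u ⬝ᵥ x - 2 * (u ⬝ᵥ x) / (u ⬝ᵥ u) * (u ⬝ᵥ u)) / (u ⬝ᵥ u) = 0 := by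
    field_simp
    ring
  rw [this, zero_smul, sub_zero]

theorem det_rf {u : Vec n} (hu : u ⬝ᵥ u ≠ 0) : (rf u).det = -1 := by
  have e : rf u = 1 + Matrix.replicateCol Unit (-(2 / (u ⬝ᵥ u)) • u) * Matrix.replicateRow Unit u := by
    unfold rf
    rw [← Matrix.vecMulVec_eq Unit]
    ext i j
    simp [Matrix.vecMulVec_apply]
    ring
  rw [e, Matrix.det_one_add_replicateCol_mul_replicateRow, dotProduct_smul, smul_eq_mul]
  field_simp
  ring

theorem rf_fix {P : Mat n} (hs : Pᵀ = P) {u : Vec n} (hu : P *ᵥ u = u) :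
    rf u * (1 - P) = 1 - P := by
  refine ext_mulVec fun x => ?_
  rw [← Matrix.mulVec_mulVec, rf_mulVec]
  have : u ⬝ᵥ ((1 - P) *ᵥ x) = 0 := by
    rw [Matrix.dotProduct_mulVec, ← Matrix.mulVec_transpose, Matrix.transpose_sub,
      Matrix.transpose_one, hs, Matrix.sub_mulVec, hu, Matrix.one_mulVec, sub_self, zero_dotProduct]
  rw [this]
  simp

/-- reflection as a group element -/
noncomputable def rfG (u : Vec n) (hu : u ⬝ᵥ u ≠ 0) : OM n :=
  ⟨rf u, (Matrix.mem_orthogonalGroup_iff' _ _).2 (by rw [rf_transpose, rf_rf hu])⟩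

theorem reach_rf_rf_aux {P : Mat n} (hs : Pᵀ = P) {u v : Vec n} (hu : u ⬝ᵥ u ≠ 0)
    (hv : v ⬝ᵥ v ≠ 0) (hPu : P *ᵥ u = u) (hPv : P *ᵥ v = v) (huv : u ⬝ᵥ v ≠ 0) :
    Reach P (rfG u hu * rfG v hv) := by
  refine reach_of_isUnit _ ?_ ?_
  · show rf u * rf v * (1 - P) = 1 - P
    rw [Matrix.mul_assoc, rf_fix hs hPv, rf_fix hs hPu]
  · show IsUnit (rf u * rf v + 1).det
    rw [← Matrix.isUnit_iff_isUnit_det, ← Matrix.mulVec_injective_iff_isUnit]
    have key : ∀ x : Vec n, (rf u * rf v + 1) *ᵥ x = 0 → x = 0 := by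
      intro x hx
      have h1 : rf u *ᵥ ((rf u * rf v + 1) *ᵥ x) = 0 := by rw [hx, Matrix.mulVec_zero]
      rw [Matrix.mulVec_mulVec, Matrix.mul_add, ← Matrix.mul_assoc, rf_rf hu, Matrix.one_mul,
        Matrix.mul_one, Matrix.add_mulVec, rf_mulVec, rf_mulVec] at h1
      set a := 2 * (u ⬝ᵥ x) / (u ⬝ᵥ u) with ha
      set b := 2 * (v ⬝ᵥ x) / (v ⬝ᵥ v) with hb
      have ha' : a * (u ⬝ᵥ u) = 2 * (u ⬝ᵥ x) := by rw [ha]; field_simp
      have hb' : b * (v ⬝ᵥ v) = 2 * (v ⬝ᵥ x) := by rw [hb]; field_simp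
      have h2 := congrArg (fun w => u ⬝ᵥ w) h1
      have h3 := congrArg (fun w => v ⬝ᵥ w) h1
      simp only [dotProduct_add, dotProduct_sub, dotProduct_smul, smul_eq_mul, dotProduct_zero]
        at h2 h3
      rw [dotProduct_comm v u] at h3
      have hb0 : b = 0 := by
        have : b * (u ⬝ᵥ v) = 0 := by linarith
        exact (mul_eq_zero.1 this).resolve_right huv
      have ha0 : a = 0 := by
        have : a * (u ⬝ᵥ v) = 0 := by linarith
        exact (mul_eq_zero.1 this).resolve_right huv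
      rw [ha0, hb0, zero_smul, zero_smul, sub_zero] at h1
      funext i
      have := congrFun h1 i
      simp at this
      exact this
    intro x y hxy
    have := key (x - y) (by rw [Matrix.mulVec_sub, hxy, sub_self])
    exact sub_eq_zero.1 this

theorem reach_rf_rf {P : Mat n} (hs : Pᵀ = P) {u v : Vec n} (hu : u ⬝ᵥ u ≠ 0)
    (hv : v ⬝ᵥ v ≠ 0) (hPu : P *ᵥ u = u) (hPv : P *ᵥ v = v) :
    Reach P (rfG u hu * rfG v hv) := by
  by_cases huv : u ⬝ᵥ v = 0
  · have hvu : v ⬝ᵥ u = 0 := by rw [dotProduct_comm, huv]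
    have u0 : 0 ≤ u ⬝ᵥ u := Finset.sum_nonneg fun i _ => mul_self_nonneg _
    have v0 : 0 ≤ v ⬝ᵥ v := Finset.sum_nonneg fun i _ => mul_self_nonneg _
    have hw : (u + v) ⬝ᵥ (u + v) ≠ 0 := by
      rw [add_dotProduct, dotProduct_add, dotProduct_add, huv, hvu]
      have := lt_of_le_of_ne u0 hu.symm
      linarith
    have hPw : P *ᵥ (u + v) = u + v := by rw [Matrix.mulVec_add, hPu, hPv]
    have h1 := reach_rf_rf_aux hs hu hw hPu hPw (by rw [dotProduct_add, huv, add_zero]; exact hu)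
    have h2 := reach_rf_rf_aux hs hw hv hPw hPv (by rw [add_dotProduct, huv, zero_add]; exact hv)
    have h3 := h1.mul h2
    have e : rfG (u + v) hw * rfG (u + v) hw = 1 := Subtype.ext (rf_rf hw)
    rwa [mul_assoc, ← mul_assoc (rfG (u + v) hw), e, one_mul] at h3
  · exact reach_rf_rf_aux hs hu hv hPu hPv huv

theorem orth_dot {g : Mat n} (hg : gᵀ * g = 1) (x y : Vec n) : (g *ᵥ x) ⬝ᵥ (g *ᵥ y) = x ⬝ᵥ y := by
  rw [Matrix.dotProduct_mulVec, ← Matrix.mulVec_transpose, Matrix.mulVec_mulVec, hg,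
    Matrix.one_mulVec]

theorem reach_aux {P : Mat n} (hs : Pᵀ = P) (hP : P * P = P) (k : ℕ) : ∀ g : OM n,
    g.1 * (1 - P) = 1 - P →
    n ≤ Module.finrank ℝ (LinearMap.ker (Matrix.toLin' (g.1 - 1))) + k →
    (g.1.det = 1 → Reach P g) ∧
      (g.1.det = -1 → ∀ (u : Vec n) (hu : u ⬝ᵥ u ≠ 0), P *ᵥ u = u → Reach P (rfG u hu * g)) := by
  have base : ∀ g : OM n, (∀ v, g.1 *ᵥ v = v) → (g.1.det = 1 → Reach P g) ∧
      (g.1.det = -1 → ∀ (u : Vec n) (hu : u ⬝ᵥ u ≠ 0), P *ᵥ u = u → Reach P (rfG u hu * g)) := by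
    intro g hg
    have e : g = 1 := Subtype.ext (ext_mulVec fun x => by rw [hg]; exact (Matrix.one_mulVec x).symm)
    subst e
    refine ⟨fun _ => Reach.one P, fun h => ?_⟩
    have h1 : (1 : OM n).1.det = 1 := Matrix.det_one
    rw [h1] at h
    norm_num at h
  have memk : ∀ (g : Mat n) (v : Vec n), v ∈ LinearMap.ker (Matrix.toLin' (g - 1)) ↔ g *ᵥ v = v := by
    intro g v
    rw [LinearMap.mem_ker, Matrix.toLin'_apply, Matrix.sub_mulVec, Matrix.one_mulVec, sub_eq_zero]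
  induction k with
  | zero =>
    intro g _ hk
    refine base g fun v => (memk _ v).1 ?_
    have : LinearMap.ker (Matrix.toLin' (g.1 - 1)) = ⊤ := by
      apply Submodule.eq_top_of_finrank_eq
      have h1 := Submodule.finrank_le (LinearMap.ker (Matrix.toLin' (g.1 - 1)))
      rw [Module.finrank_fin_fun] at h1 ⊢
      omega
    rw [this]
    trivial
  | succ k ih =>
    intro g hf hk
    by_cases hall : ∀ v, g.1 *ᵥ v = v
    · exact base g hall
    push Not at hall
    obtain ⟨v, hv⟩ := hall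
    set u := g.1 *ᵥ v - v with hud
    have hu : u ⬝ᵥ u ≠ 0 := fun h => hv (sub_eq_zero.1 (dotProduct_self_eq_zero.1 h))
    have hc := comm_of_fix hs (oo g) hf
    have hPu : P *ᵥ u = u := by
      have h1 : (1 - P) * g.1 = 1 - P := by
        have := hf
        rw [Matrix.mul_sub, Matrix.mul_one] at this
        rw [Matrix.sub_mul, Matrix.one_mul, ← hc, this]
      have h2 : (1 - P) *ᵥ u = 0 := by
        rw [hud, Matrix.mulVec_sub, Matrix.mulVec_mulVec, h1, sub_self]
      rw [Matrix.sub_mulVec, Matrix.one_mulVec, sub_eq_zero] at h2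
      exact h2.symm
    have hf' : (rfG u hu * g).1 * (1 - P) = 1 - P := by
      show rf u * g.1 * (1 - P) = 1 - P
      rw [Matrix.mul_assoc, hf, rf_fix hs hPu]
    have hlt : LinearMap.ker (Matrix.toLin' (g.1 - 1)) <
        LinearMap.ker (Matrix.toLin' ((rfG u hu * g).1 - 1)) := by
      rw [SetLike.lt_iff_le_and_exists]
      refine ⟨fun w hw => ?_, v, ?_, fun h => hv ((memk _ v).1 h)⟩
      · rw [memk] at hw ⊢
        show (rf u * g.1) *ᵥ w = w
        have h1 : u ⬝ᵥ w = 0 := by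
          rw [hud, sub_dotProduct]
          conv_lhs => rw [← hw]
          rw [orth_dot (oo g), hw, sub_self]
        rw [← Matrix.mulVec_mulVec, hw, rf_mulVec, h1]
        simp
      · rw [memk]
        show (rf u * g.1) *ᵥ v = v
        have h1 : 2 * (u ⬝ᵥ (g.1 *ᵥ v)) = u ⬝ᵥ u := by
          have h2 := orth_dot (oo g) v v
          rw [hud]
          simp only [sub_dotProduct, dotProduct_sub]
          rw [dotProduct_comm (g.1 *ᵥ v) v]
          linarith
        rw [← Matrix.mulVec_mulVec, rf_mulVec, h1, div_self hu, one_smul, hud, sub_sub_cancel]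
    have hr := Submodule.finrank_lt_finrank_of_lt hlt
    obtain ⟨ih1, ih2⟩ := ih (rfG u hu * g) hf' (by omega)
    have hdet : (rfG u hu * g).1.det = -g.1.det := by
      show (rf u * g.1).det = _
      rw [Matrix.det_mul, det_rf hu, neg_one_mul]
    have e : rfG u hu * (rfG u hu * g) = g := by
      have : rfG u hu * rfG u hu = 1 := Subtype.ext (rf_rf hu)
      rw [← mul_assoc, this, one_mul]
    refine ⟨fun h => ?_, fun h w hw hPw => ?_⟩
    · have := ih2 (by rw [hdet, h]) u hu hPu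
      rwa [e] at this
    · have h1 := ih1 (by rw [hdet, h, neg_neg])
      have h2 := (reach_rf_rf hs hw hu hPw hPu).mul h1
      rwa [mul_assoc, e] at h2

/-- every element of the special stabiliser is reached -/
theorem reach_of_det {P : Mat n} (hs : Pᵀ = P) (hP : P * P = P) (g : OM n)
    (hf : g.1 * (1 - P) = 1 - P) (hd : g.1.det = 1) : Reach P g :=
  (reach_aux hs hP n g hf (Nat.le_add_left _ _)).1 hd

/-! ### The moment generating function -/

section mgf

variable [MeasurableSpace (OM n)] [BorelSpace (OM n)]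

theorem integrable_of_cont {μ : Measure (OM n)} [IsProbabilityMeasure μ] {F : OM n → ℝ}
    (hF : Continuous F) {C : ℝ} (hC : ∀ U, |F U| ≤ C) : Integrable F μ :=
  Integrable.of_bound hF.aestronglyMeasurable C (ae_of_all _ hC)

theorem integral_step {P : Mat n} (hs : Pᵀ = P) (hP : P * P = P) {s : ℝ} (h0 : 0 ≤ s)
    {μ : Measure (OM n)} [IsProbabilityMeasure μ]
    (hinv : ∀ W : OM n, W.1 * (1 - P) = 1 - P → W.1.det = 1 → μ.map (fun U => U * W) = μ)
    {F : OM n → ℝ} (hF : Continuous F) {C : ℝ} (hC : ∀ U, |F U| ≤ C) :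
    ∫ U, F U ∂μ = ∫ U, ∫ g, F (U * step P s g) ∂gpi _ ∂μ := by
  have hc : Continuous fun p : OM n × (Fin n × Fin n → ℝ) => F (p.1 * step P s p.2) :=
    hF.comp (continuous_fst.mul ((continuous_step hs hP h0).comp continuous_snd))
  have hi : Integrable (Function.uncurry fun (U : OM n) g => F (U * step P s g))
      (μ.prod (gpi (Fin n × Fin n))) :=
    Integrable.of_bound hc.aestronglyMeasurable C (ae_of_all _ fun p => hC _)
  rw [integral_integral_swap hi]
  have h1 : ∀ g, ∫ U, F (U * step P s g) ∂μ = ∫ U, F U ∂μ := fun g =>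
    mp_integral ⟨(continuous_id.mul continuous_const).measurable,
      hinv _ (step_fix hP s g) (step_det P s g)⟩ hF.aestronglyMeasurable
  simp only [h1, integral_const, probReal_univ, smul_eq_mul, one_mul]

theorem GLip.abs_le {f : OM n → ℝ} {L : ℝ} (h : GLip f L) (hL : 0 ≤ L) (U : OM n) :
    |f U| ≤ |f 1| + L * (2 * Real.sqrt n) := by
  have h1 := h.abs_sub_le hL U 1
  have h2 := abs_sub_abs_le_abs_sub (f U) (f 1)
  linarith

theorem GLip.exp_le {f : OM n → ℝ} {L : ℝ} (h : GLip f L) (hL : 0 ≤ L) (l : ℝ) (U : OM n) :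
    |Real.exp (l * f U)| ≤ Real.exp (|l| * (|f 1| + L * (2 * Real.sqrt n))) := by
  rw [abs_of_pos (Real.exp_pos _)]
  refine Real.exp_le_exp.2 ((le_abs_self _).trans ?_)
  rw [abs_mul]
  exact mul_le_mul_of_nonneg_left (h.abs_le hL U) (abs_nonneg _)

theorem GLip.integrable_exp {f : OM n → ℝ} {L : ℝ} (h : GLip f L) (hL : 0 ≤ L) (l : ℝ)
    (μ : Measure (OM n)) [IsProbabilityMeasure μ] : Integrable (fun U => Real.exp (l * f U)) μ :=
  integrable_of_cont (Real.continuous_exp.comp (continuous_const.mul h.continuous)) (h.exp_le hL l)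

theorem mgf_step {P : Mat n} (hs : Pᵀ = P) (hP : P * P = P) {s : ℝ} (h0 : 0 ≤ s)
    {μ : Measure (OM n)} [IsProbabilityMeasure μ]
    (hinv : ∀ W : OM n, W.1 * (1 - P) = 1 - P → W.1.det = 1 → μ.map (fun U => U * W) = μ)
    {f : OM n → ℝ} {L L0 : ℝ} (hG : GLip f L0) (hL0 : 0 ≤ L0) (h : ILip P f L) (hL : 0 ≤ L)
    (l : ℝ) : ∫ U, Real.exp (l * f U) ∂μ ≤
      Real.exp (l ^ 2 * (4 * s * L) ^ 2) * ∫ U, Real.exp (l * TT P s f U) ∂μ := by
  rw [integral_step hs hP h0 hinv (F := fun U => Real.exp (l * f U))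
    (Real.continuous_exp.comp (continuous_const.mul hG.continuous)) (hG.exp_le hL0 l),
    ← integral_const_mul]
  refine integral_mono_of_nonneg (ae_of_all _ fun U => integral_nonneg fun g => (Real.exp_pos _).le)
    (((hG.TT hs hP hL0 h0).integrable_exp hL0 l μ).const_mul _) (ae_of_all _ fun U => ?_)
  have h1 := (h.lip_step hs hP hL h0 U).mgf_le l
  have e : ∀ g, Real.exp (l * f (U * step P s g)) =
      Real.exp (l * (f (U * step P s g) - TT P s f U)) * Real.exp (l * TT P s f U) := fun g => by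
    rw [← Real.exp_add]; congr 1; ring
  simp only [e]
  rw [integral_mul_const]
  exact mul_le_mul_of_nonneg_right h1 (Real.exp_pos _).le

theorem integral_TT {P : Mat n} (hs : Pᵀ = P) (hP : P * P = P) {s : ℝ} (h0 : 0 ≤ s)
    {μ : Measure (OM n)} [IsProbabilityMeasure μ]
    (hinv : ∀ W : OM n, W.1 * (1 - P) = 1 - P → W.1.det = 1 → μ.map (fun U => U * W) = μ)
    {f : OM n → ℝ} {L0 : ℝ} (hG : GLip f L0) (hL0 : 0 ≤ L0) :
    ∫ U, TT P s f U ∂μ = ∫ U, f U ∂μ :=
  (integral_step hs hP h0 hinv hG.continuous (hG.abs_le hL0)).symm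

theorem exists_step_size {P : Mat n} (hm : 2 < P.trace) : ∃ s : ℝ, 0 < s ∧
    8 * s ^ 2 * ∫ g, fn (gen P g) ^ 4 ∂gpi _ ≤ P.trace - 2 ∧
    3 / 4 * (P.trace - 2) * s ^ 2 ≤ 1 := by
  set M := ∫ g, fn (gen P g) ^ 4 ∂gpi (Fin n × Fin n) with hM
  have M0 : 0 ≤ M := integral_nonneg fun g => pow_nonneg (fn_nonneg _) 4
  set a := P.trace - 2 with ha
  have a0 : 0 < a := by linarith
  refine ⟨Real.sqrt (min (a / (8 * M + 1)) (1 / a)), Real.sqrt_pos.2 (by positivity), ?_, ?_⟩
  · rw [Real.sq_sqrt (by positivity)]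
    have h1 : min (a / (8 * M + 1)) (1 / a) ≤ a / (8 * M + 1) := min_le_left _ _
    have h2 : 0 ≤ min (a / (8 * M + 1)) (1 / a) := by positivity
    rw [le_div_iff₀ (by positivity)] at h1
    nlinarith
  · rw [Real.sq_sqrt (by positivity)]
    have h1 : min (a / (8 * M + 1)) (1 / a) ≤ 1 / a := min_le_right _ _
    rw [le_div_iff₀ a0] at h1
    nlinarith

/-- **Concentration on a coset of the special stabiliser**, moment generating function. -/
theorem mgf_le {P : Mat n} (hs : Pᵀ = P) (hP : P * P = P) (hm : 2 < P.trace)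
    {μ : Measure (OM n)} [IsProbabilityMeasure μ]
    (hinv : ∀ W : OM n, W.1 * (1 - P) = 1 - P → W.1.det = 1 → μ.map (fun U => U * W) = μ)
    (O : OM n) (hsupp : ∀ᵐ U ∂μ, U.1 * (1 - P) = O.1 * (1 - P) ∧ U.1.det = O.1.det)
    {f : OM n → ℝ} {L L0 : ℝ} (hG : GLip f L0) (hL0 : 0 ≤ L0) (h : ILip P f L) (hL : 0 ≤ L)
    (l : ℝ) : ∫ U, Real.exp (l * (f U - ∫ V, f V ∂μ)) ∂μ ≤
      Real.exp (22 * l ^ 2 * L ^ 2 / (P.trace - 2)) := by
  obtain ⟨s, hs0, hsm, hθ⟩ := exists_step_size hm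
  have a0 : 0 < P.trace - 2 := by linarith only [hm]
  set c := 3 / 4 * (P.trace - 2) * s ^ 2 with hc
  have c0 : 0 < c := by positivity
  have θ0 : 0 ≤ 1 - c := by linarith only [hθ]
  set F : ℕ → OM n → ℝ := fun N => (TT P s)^[N] f with hF
  have Fs : ∀ N, F (N + 1) = TT P s (F N) := fun N => Function.iterate_succ_apply' _ _ _
  have ind : ∀ N, GLip (F N) L0 ∧ ILip P (F N) ((1 - c) ^ N * L) ∧ ∫ U, F N U ∂μ = ∫ U, f U ∂μ ∧
      ∫ U, Real.exp (l * f U) ∂μ ≤
        Real.exp (l ^ 2 * (4 * s * L) ^ 2 * (1 - (1 - c) ^ N) / c) *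
          ∫ U, Real.exp (l * F N U) ∂μ := by
    intro N
    induction N with
    | zero => exact ⟨hG, by simpa [hF] using h, rfl, by simp [hF]⟩
    | succ N ih =>
      obtain ⟨h1, h2, h3, h4⟩ := ih
      have hLN : 0 ≤ (1 - c) ^ N * L := by positivity
      rw [Fs]
      refine ⟨h1.TT hs hP hL0 hs0.le, ?_, (integral_TT hs hP hs0.le hinv h1 hL0).trans h3, ?_⟩
      · have := ILip.TT hs hP h1 hL0 h2 hLN hs0.le a0.le hsm hθ
        rwa [← hc, ← mul_assoc, ← pow_succ'] at this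
      · have h5 := mgf_step hs hP hs0.le hinv h1 hL0 h2 hLN l
        refine h4.trans ((mul_le_mul_of_nonneg_left h5 (Real.exp_pos _).le).trans ?_)
        rw [← mul_assoc, ← Real.exp_add]
        refine mul_le_mul_of_nonneg_right (Real.exp_le_exp.2 ?_)
          (integral_nonneg fun U => (Real.exp_pos _).le)
        have p1 : (1 - c) ^ N ≤ 1 := pow_le_one₀ θ0 (by linarith only [c0])
        have p0 : 0 ≤ (1 - c) ^ N := pow_nonneg θ0 N
        have e1 : l ^ 2 * (4 * s * L) ^ 2 * (1 - (1 - c) ^ (N + 1)) / c =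
            l ^ 2 * (4 * s * L) ^ 2 * (1 - (1 - c) ^ N) / c
              + l ^ 2 * (4 * s * L) ^ 2 * (1 - c) ^ N := by
          field_simp
          ring
        have e2 : l ^ 2 * (4 * s * ((1 - c) ^ N * L)) ^ 2 =
            l ^ 2 * (4 * s * L) ^ 2 * ((1 - c) ^ N * (1 - c) ^ N) := by ring
        have e3 : (1 - c) ^ N * (1 - c) ^ N ≤ (1 - c) ^ N := mul_le_of_le_one_left p0 p1
        have e4 := mul_le_mul_of_nonneg_left e3
          (by positivity : 0 ≤ l ^ 2 * (4 * s * L) ^ 2)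
        rw [e1, e2]
        linarith only [e4]
  set E := ∫ V, f V ∂μ with hE
  -- pointwise flattening
  have hpt : ∀ᵐ U ∂μ, Tendsto (fun N => F N U - F N O) atTop (𝓝 0) := by
    filter_upwards [hsupp] with U hU
    have hW : (O⁻¹ * U).1 = O.1ᵀ * U.1 := rfl
    obtain ⟨D, hD⟩ := reach_of_det hs hP (O⁻¹ * U)
      (by rw [hW, Matrix.mul_assoc, hU.1, ← Matrix.mul_assoc, oo O, Matrix.one_mul])
      (by rw [hW, Matrix.det_mul, hU.2, ← Matrix.det_mul, oo O, Matrix.det_one])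
    have h1 : Tendsto (fun N : ℕ => D * ((1 - c) ^ N * L)) atTop (𝓝 0) := by
      have := ((tendsto_pow_atTop_nhds_zero_of_lt_one θ0 (by linarith only [c0])).mul_const
        L).const_mul D
      simpa using this
    refine squeeze_zero_norm (fun N => ?_) h1
    have := hD (F N) _ (by positivity) (ind N).2.1 O
    rwa [mul_inv_cancel_left] at this
  have hb : ∀ N U, |F N U - F N O| ≤ L0 * (2 * Real.sqrt n) := fun N U =>
    (ind N).1.abs_sub_le hL0 U O
  have hcont : ∀ N, Continuous fun U => F N U - F N O := fun N =>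
    (ind N).1.continuous.sub continuous_const
  have t1 : Tendsto (fun N => ∫ U, (F N U - F N O) ∂μ) atTop (𝓝 (∫ _U, (0 : ℝ) ∂μ)) :=
    tendsto_integral_of_dominated_convergence (fun _ => L0 * (2 * Real.sqrt n))
      (fun N => (hcont N).aestronglyMeasurable) (integrable_const _)
      (fun N => ae_of_all _ fun U => hb N U) hpt
  have t2 : Tendsto (fun N => F N O - E) atTop (𝓝 0) := by
    have e : ∀ N, F N O - E = -∫ U, (F N U - F N O) ∂μ := fun N => by
      rw [integral_sub (integrable_of_cont (ind N).1.continuous ((ind N).1.abs_le hL0))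
        (integrable_const _), (ind N).2.2.1]
      simp
    simp only [e]
    simpa using t1.neg
  have t3 : Tendsto (fun N => ∫ U, Real.exp (l * (F N U - F N O)) ∂μ) atTop
      (𝓝 (∫ _U, (1 : ℝ) ∂μ)) := by
    refine tendsto_integral_of_dominated_convergence
      (fun _ => Real.exp (|l| * (L0 * (2 * Real.sqrt n))))
      (fun N => (Real.continuous_exp.comp (continuous_const.mul (hcont N))).aestronglyMeasurable)
      (integrable_const _) (fun N => ae_of_all _ fun U => ?_) ?_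
    · rw [Real.norm_eq_abs, abs_of_pos (Real.exp_pos _)]
      refine Real.exp_le_exp.2 ((le_abs_self _).trans ?_)
      rw [abs_mul]
      exact mul_le_mul_of_nonneg_left (hb N U) (abs_nonneg _)
    · filter_upwards [hpt] with U hU
      have := (Real.continuous_exp.tendsto _).comp (hU.const_mul l)
      simpa [Function.comp_def] using this
  have t4 : Tendsto (fun N => Real.exp (l * (F N O - E)) * ∫ U, Real.exp (l * (F N U - F N O)) ∂μ)
      atTop (𝓝 1) := by
    have := ((Real.continuous_exp.tendsto _).comp (t2.const_mul l)).mul t3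
    simpa using this
  have hB : l ^ 2 * (4 * s * L) ^ 2 / c ≤ 22 * l ^ 2 * L ^ 2 / (P.trace - 2) := by
    have e : l ^ 2 * (4 * s * L) ^ 2 / c = 64 / 3 * (l ^ 2 * L ^ 2 / (P.trace - 2)) := by
      rw [hc]; field_simp; ring
    have e' : 22 * l ^ 2 * L ^ 2 / (P.trace - 2) = 22 * (l ^ 2 * L ^ 2 / (P.trace - 2)) := by ring
    have : 0 ≤ l ^ 2 * L ^ 2 / (P.trace - 2) := by positivity
    rw [e, e']
    linarith only [this]
  have t5 := t4.const_mul (Real.exp (22 * l ^ 2 * L ^ 2 / (P.trace - 2)))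
  rw [mul_one] at t5
  refine ge_of_tendsto' t5 fun N => ?_
  have h4 := (ind N).2.2.2
  have e1 : ∫ U, Real.exp (l * (f U - E)) ∂μ = Real.exp (-(l * E)) * ∫ U, Real.exp (l * f U) ∂μ := by
    rw [← integral_const_mul]
    refine integral_congr_ae (ae_of_all _ fun U => ?_)
    simp only
    rw [← Real.exp_add]; congr 1; ring
  have e2 : Real.exp (l * (F N O - E)) * ∫ U, Real.exp (l * (F N U - F N O)) ∂μ =
      Real.exp (-(l * E)) * ∫ U, Real.exp (l * F N U) ∂μ := by
    rw [← integral_const_mul, ← integral_const_mul]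
    refine integral_congr_ae (ae_of_all _ fun U => ?_)
    simp only
    rw [← Real.exp_add, ← Real.exp_add]; congr 1; ring
  rw [e1, e2, mul_left_comm]
  refine mul_le_mul_of_nonneg_left (h4.trans (mul_le_mul_of_nonneg_right
    (Real.exp_le_exp.2 (le_trans ?_ hB)) (integral_nonneg fun U => (Real.exp_pos _).le)))
    (Real.exp_pos _).le
  refine div_le_div_of_nonneg_right ?_ c0.le
  exact mul_le_of_le_one_right (by positivity) (by linarith only [pow_nonneg θ0 N])

/-- Chernoff bound from a sub-Gaussian moment generating function -/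
theorem tail_of_mgf {Ω : Type*} [MeasurableSpace Ω] {μ : Measure Ω} [IsProbabilityMeasure μ]
    {Y : Ω → ℝ} {v : ℝ} (hv : 0 < v) (hi : ∀ l : ℝ, Integrable (fun ω => Real.exp (l * Y ω)) μ)
    (h : ∀ l : ℝ, ∫ ω, Real.exp (l * Y ω) ∂μ ≤ Real.exp (v * l ^ 2)) {t : ℝ} (ht : 0 ≤ t) :
    μ.real {ω | t ≤ Y ω} ≤ Real.exp (-(t ^ 2 / (4 * v))) := by
  set l := t / (2 * v) with hl
  have l0 : 0 ≤ l := by positivity
  have h2 := mul_meas_ge_le_integral_of_nonneg (μ := μ) (f := fun ω => Real.exp (l * Y ω))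
    (ae_of_all _ fun ω => (Real.exp_pos _).le) (hi l) (Real.exp (l * t))
  have h3 : μ.real {ω | t ≤ Y ω} ≤ μ.real {ω | Real.exp (l * t) ≤ Real.exp (l * Y ω)} :=
    measureReal_mono fun ω hω => Real.exp_le_exp.2 (mul_le_mul_of_nonneg_left hω l0)
  have h4 : Real.exp (l * t) * μ.real {ω | t ≤ Y ω} ≤ Real.exp (v * l ^ 2) :=
    (mul_le_mul_of_nonneg_left h3 (Real.exp_pos _).le).trans (h2.trans (h l))
  have h5 : μ.real {ω | t ≤ Y ω} ≤ Real.exp (v * l ^ 2) * Real.exp (-(l * t)) := by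
    rw [Real.exp_neg, ← div_eq_mul_inv, le_div_iff₀ (Real.exp_pos _)]
    linarith
  refine h5.trans (le_of_eq ?_)
  rw [← Real.exp_add]
  congr 1
  rw [hl]
  field_simp
  ring

/-- **Concentration on a coset of the special stabiliser**, upper tail. -/
theorem tail_upper {P : Mat n} (hs : Pᵀ = P) (hP : P * P = P) (hm : 2 < P.trace)
    {μ : Measure (OM n)} [IsProbabilityMeasure μ]
    (hinv : ∀ W : OM n, W.1 * (1 - P) = 1 - P → W.1.det = 1 → μ.map (fun U => U * W) = μ)
    (O : OM n) (hsupp : ∀ᵐ U ∂μ, U.1 * (1 - P) = O.1 * (1 - P) ∧ U.1.det = O.1.det)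
    {f : OM n → ℝ} {L L0 : ℝ} (hG : GLip f L0) (hL0 : 0 ≤ L0) (h : ILip P f L) (hL : 0 < L)
    {t : ℝ} (ht : 0 ≤ t) : μ.real {U | t ≤ f U - ∫ V, f V ∂μ} ≤
      Real.exp (-((P.trace - 2) * t ^ 2 / (88 * L ^ 2))) := by
  have a0 : 0 < P.trace - 2 := by linarith only [hm]
  have hG' : GLip (fun U => f U - ∫ V, f V ∂μ) L0 := fun U V => by simpa using hG U V
  have := tail_of_mgf (μ := μ) (Y := fun U => f U - ∫ V, f V ∂μ)
    (v := 22 * L ^ 2 / (P.trace - 2)) (by positivity) (fun l => hG'.integrable_exp hL0 l μ)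
    (fun l => (mgf_le hs hP hm hinv O hsupp hG hL0 h hL.le l).trans (le_of_eq (by congr 1; ring))) ht
  refine this.trans (le_of_eq ?_)
  congr 2
  field_simp
  ring

/-- **Concentration on a coset of the special stabiliser**, two-sided tail. -/
theorem tail_abs {P : Mat n} (hs : Pᵀ = P) (hP : P * P = P) (hm : 2 < P.trace)
    {μ : Measure (OM n)} [IsProbabilityMeasure μ]
    (hinv : ∀ W : OM n, W.1 * (1 - P) = 1 - P → W.1.det = 1 → μ.map (fun U => U * W) = μ)
    (O : OM n) (hsupp : ∀ᵐ U ∂μ, U.1 * (1 - P) = O.1 * (1 - P) ∧ U.1.det = O.1.det)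
    {f : OM n → ℝ} {L L0 : ℝ} (hG : GLip f L0) (hL0 : 0 ≤ L0) (h : ILip P f L) (hL : 0 < L)
    {t : ℝ} (ht : 0 ≤ t) : μ.real {U | t ≤ |f U - ∫ V, f V ∂μ|} ≤
      2 * Real.exp (-((P.trace - 2) * t ^ 2 / (88 * L ^ 2))) := by
  have h1 := tail_upper hs hP hm hinv O hsupp hG hL0 h hL ht
  have hG' : GLip (fun U => -f U) L0 := fun U V => by
    have := hG U V
    rwa [← abs_neg, neg_sub', ] at this
  have h' : ILip P (fun U => -f U) L := fun ε hε => by
    obtain ⟨δ, hδ, H⟩ := h ε hε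
    refine ⟨δ, hδ, fun U V a b => ?_⟩
    have := H U V a b
    rwa [← abs_neg, neg_sub'] at this
  have h2 := tail_upper hs hP hm hinv O hsupp hG' hL0 h' hL ht
  rw [integral_neg] at h2
  have h3 : {U | t ≤ |f U - ∫ V, f V ∂μ|} ⊆
      {U | t ≤ f U - ∫ V, f V ∂μ} ∪ {U | t ≤ -f U - -∫ V, f V ∂μ} := by
    intro U hU
    rcases le_abs.1 (show t ≤ |f U - ∫ V, f V ∂μ| from hU) with a | a
    · exact Or.inl a
    · right
      show t ≤ -f U - -∫ V, f V ∂μ
      linarith only [a]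
  refine (measureReal_mono h3).trans ((measureReal_union_le _ _).trans ?_)
  linarith only [h1, h2]

end mgf

end Vale.Agent.N150.HC
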