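import Vale.Agent.N150.KBPw

/-! Closing of the Ward system at a typical point. -/

namespace Vale.Agent.N150.KB

open Matrix
open Vale.Agent.P150 Vale.Agent.P150.F
open Vale.Agent.N150.Wd (cm)
open Vale.Agent.N150.Haar (fro)

variable {n : ℕ} {B : ℝ}

/-- `n ^ (-1/2)` -/
noncomputable def ep (n : ℕ) : ℝ := (√(n : ℝ))⁻¹

theorem sqrt_div_n (hn : 0 < n) : √(n : ℝ) / n = ep n := by
  have hn' : (0 : ℝ) < n := by exact_mod_cast hn
  have h1 : 0 < √(n : ℝ) := Real.sqrt_pos.2 hn'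
  rw [ep, div_eq_iff hn'.ne', eq_inv_mul_iff_mul_eq₀ h1.ne', sq_sqrt_n]

theorem ep_mul (hn : 0 < n) (e : ℝ) : ep n * (√(n : ℝ) * e) = e := by
  have hn' : (0 : ℝ) < n := by exact_mod_cast hn
  have h1 : 0 < √(n : ℝ) := Real.sqrt_pos.2 hn'
  rw [ep, ← mul_assoc, inv_mul_cancel₀ h1.ne', one_mul]

theorem Sm.nrm {p : ℕ} {x : ℝ} (hn : 0 < n) (h : Sm B p √n x) : Sm B p (ep n) (x / n) := by
  have hn' : (0 : ℝ) < n := by exact_mod_cast hn
  exact (h.div hn').eq (sqrt_div_n hn)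

theorem Sm.divn {p : ℕ} {x e : ℝ} (hn : 0 < n) (h : Sm B p (n * e) x) : Sm B p e (x / n) := by
  have hn' : (0 : ℝ) < n := by exact_mod_cast hn
  exact (h.div hn').eq (mul_div_cancel_left₀ e hn'.ne')

theorem Fr.nm1 {p : ℕ} {A : Mat n} (hn : 0 < n) (h : Fr B p 1 A) : Sm B p (ep n) (nm A) :=
  (h.tr.eq (mul_one _)).nrm hn

/-- the algebraic setting -/
structure Al (B : ℝ) (P Γ G a C D Q N G0 : Mat n) (w : ℝ) : Prop where
  pj : Pj B P
  hGD : G = D * Γ
  hGT : G = Γᵀ * D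
  hBG : a * G = 1 - Γ - C * G
  hGB : G * a = 1 - Γᵀ - G * C
  ha : a = N - w⁻¹ • (1 : Mat n)
  hN : G0 * N = 1
  oΓ : Op B 1 Γ
  oG : Op B 1 G
  oa : Op B 2 a
  oQ : Op B 1 Q
  oN : Op B 1 N
  o0 : Op B 1 G0
  oD : Op B 0 D
  fC : Fr B 3 1 C
  sw : Sm B 1 1 w⁻¹

namespace Al

variable {P Γ G a C D Q N G0 : Mat n} {w : ℝ} (h : Al B P Γ G a C D Q N G0 w)
include h

theorem hn : 0 < n := h.pj.npos

theorem phi0 : Sm B 4 (ep n) (nm (G * a) - (1 - nm Γ)) := by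
  have hn' : (n : ℝ) ≠ 0 := by exact_mod_cast h.hn.ne'
  refine (((Fr.opl h.oG h.fC).nm1 h.hn).neg.congr ?_)
  rw [h.hGB]
  simp only [nm, trace_sub, trace_one, trace_transpose, Fintype.card_fin]
  field_simp
  ring

/-- first identity -/
theorem I1 {W : Mat n} {e : ℝ} (hW : Fr B 0 e W) (h1 : Sm B 1 (n * e) (cm P G a (Γᵀ * W))) :
    Sm B 14 e (nm G * (a * (Γᵀ * W)).trace - (1 - nm Γ) * (Γᵀ * W).trace) := by
  have hM := Fr.opl h.oΓ.tr hW
  have t1 := h.pj.cm_main h.oG h.oa hM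
  have t2 := (h.phi0.mul hM.tr).eq (ep_mul h.hn e)
  exact ((((h1.divn h.hn).sub t1).add t2).congr (by ring)).mono (by norm_num)

/-- first identity, weight `D W` -/
theorem I2 {W : Mat n} {e : ℝ} (hW : Fr B 0 e W)
    (h1 : Sm B 1 (n * e) (cm P G a (Γᵀ * (D * W)))) :
    Sm B 16 e (nm G * (W.trace - (Γ * W).trace) - (1 - nm Γ) * (G * W).trace) := by
  have t1 := h.I1 (Fr.opl h.oD hW) h1
  rw [← mul_assoc Γᵀ, ← h.hGT, ← mul_assoc a, h.hBG] at t1
  have t2 := (h.oG.nm h.hn).mul1 ((h.fC.trm (Fr.opl h.oG hW)).eq (one_mul e))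
  refine ((t1.add t2).congr ?_).mono (by norm_num)
  simp only [sub_mul, one_mul, trace_sub, mul_assoc]
  ring

/-- frame identity -/
theorem I3 {R : Mat n} (hR : Op B 3 R)
    (h1 : Sm B 1 (n * √n) (cm P G R 1 - cm P G a (G * R))) :
    Sm B 18 (ep n) (nm G * nm R - nm G * nm (G * R * N) - (nm Γ - nm G * w⁻¹) * nm (G * R)) := by
  have hn' : (n : ℝ) ≠ 0 := by exact_mod_cast h.hn.ne'
  have t1 := (h.pj.cm_main h.oG hR (Op.one h.pj.hB).fr).nrm h.hn
  have t2 := (h.pj.cm_main h.oG h.oa (h.oG.mul hR).fr).nrm h.hn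
  have t3 := h.phi0.mul1' ((h.oG.mul hR).nm h.hn)
  have t0 := (h1.divn h.hn).nrm h.hn
  refine ((((t0.sub t1).add t2).sub t3).congr ?_).mono (by norm_num)
  have e1 : (a * (G * R)).trace = (G * R * N).trace - w⁻¹ * (G * R).trace := by
    conv_lhs => rw [h.ha]
    rw [sub_mul, trace_sub, trace_mul_comm N, smul_mul_assoc, one_mul, trace_smul, smul_eq_mul]
  rw [e1]
  simp only [nm, mul_one, trace_one, Fintype.card_fin]
  field_simp
  ring

theorem xi0 : Sm B 8 (ep n) (nm (G * Q * G * a) - nm (G * Q) + nm (D * (Γ * Q * Γᵀ))) := by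
  have hn' : (n : ℝ) ≠ 0 := by exact_mod_cast h.hn.ne'
  refine ((((Fr.opl ((h.oG.mul h.oQ).mul h.oG) h.fC).nm1 h.hn).neg.congr ?_)).mono (by norm_num)
  have e1 : G * Q * G * a = G * Q - D * (Γ * Q * Γᵀ) - G * Q * G * C := by
    rw [mul_assoc (G * Q), h.hGB, ← mul_assoc D, ← mul_assoc D, ← h.hGD]
    noncomm_ring
  rw [e1]
  simp only [nm, trace_sub]
  field_simp
  ring

/-- second identity -/
theorem I4 {W : Mat n} {e : ℝ} (hW : Fr B 0 e W) (hs : Wᵀ = W) {k : ℕ}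
    (hφ : Sm B k (ep n) (1 - nm Γ)) (hτ : 1 / 2 ≤ nm G)
    (h1 : Sm B 1 (n * e) (cm P G a (Γᵀ * W)))
    (h2 : Sm B 1 (n * e) (cm P G a (Γᵀ * (D * W))))
    (h3 : Sm B 1 (n * e) (cm P G Q (Γᵀ * W) - cm P G a (G * Q * Γᵀ * W) -
      cm P (G * Q * G) a (Γᵀ * W))) :
    Sm B (k + 40) e (nm G * (Γ * Q * Γᵀ * W).trace - nm (D * (Γ * Q * Γᵀ)) * W.trace) := by
  have hM := Fr.opl h.oΓ.tr hW
  have hS := (h.oG.mul h.oQ).mul h.oG
  have hM2 := Fr.opl ((h.oG.mul h.oQ).mul h.oΓ.tr) hW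
  have t1 := h.pj.cm_main h.oG h.oQ hM
  have t2 := h.pj.cm_main h.oG h.oa hM2
  have t3 := h.pj.cm_main hS h.oa hM
  have t0 := h3.divn h.hn
  -- the trace of `a Γᵀ W`
  have u1 : Sm B _ e (a * (Γᵀ * W)).trace :=
    (((h.I1 hW h1).add ((hφ.mul hM.tr).eq (ep_mul h.hn e))).congr (by ring)).div_of hτ
  -- the trace of `Γᵀ W`
  have e0 : (Γᵀ * W).trace = (Γ * W).trace := by
    rw [← trace_transpose, transpose_mul, transpose_transpose, hs, trace_mul_comm]
  have u2 : Sm B _ e (W.trace - (Γ * W).trace) :=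
    (((h.I2 hW h2).add ((hφ.mul (Fr.opl h.oG hW).tr).eq (ep_mul h.hn e))).congr
      (by ring)).div_of hτ
  have u3 := (hS.nm h.hn).mul1 u1
  have u4 := (((h.phi0.add hφ).congr (y := nm (G * a)) (by ring)).mul hM2.tr).eq (ep_mul h.hn e)
  have u5 := (h.xi0.mul hM.tr).eq (ep_mul h.hn e)
  have u6 := ((h.oD.mul ((h.oΓ.mul h.oQ).mul h.oΓ.tr)).nm h.hn).mul1 u2
  have u7 := (h.oG.nm h.hn).mul1 ((h.fC.trm hM2).eq (one_mul e))
  have e1 : (a * (G * Q * Γᵀ * W)).trace = (Q * (Γᵀ * W)).trace - (Γ * Q * Γᵀ * W).trace -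
      (C * (G * Q * Γᵀ * W)).trace := by
    rw [← trace_sub, ← trace_sub]
    congr 1
    rw [mul_assoc G, mul_assoc G, ← mul_assoc a, h.hBG]
    noncomm_ring
  refine ((((((((((t0.sub t1).add t2).add t3).add u3).sub u4).sub u5).sub u6).sub u7).congr
    ?_).mono (by omega))
  rw [e1, e0]
  ring

/-- second frame identity -/
theorem I5 {k : ℕ} (hσ : Sm B k (ep n) (nm Γ - nm G * w⁻¹))
    (h1 : Sm B 1 (n * √n) (cm P G Q (G * G0) + cm P (G * Q * G) G0 1 -
      cm P G a (G * Q * G * G0) - cm P (G * Q * G) a (G * G0))) :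
    Sm B (k + 30) (ep n) (nm G * nm (Q * (G * G0)) - nm (D * (Γ * Q * Γᵀ)) * nm (G * G0) -
      nm G * nm (G * Q * G) + nm (G * Q * G) * (nm G0 - nm G + w⁻¹ * nm (G * G0))) := by
  have hn' : (n : ℝ) ≠ 0 := by exact_mod_cast h.hn.ne'
  have hS := (h.oG.mul h.oQ).mul h.oG
  have hM := h.oG.mul h.o0
  have t1 := (h.pj.cm_main h.oG h.oQ hM.fr).nrm h.hn
  have t2 := (h.pj.cm_main hS h.o0 (Op.one h.pj.hB).fr).nrm h.hn
  have t3 := (h.pj.cm_main h.oG h.oa (hS.mul h.o0).fr).nrm h.hn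
  have t4 := (h.pj.cm_main hS h.oa hM.fr).nrm h.hn
  have t0 := (h1.divn h.hn).nrm h.hn
  have u1 := h.phi0.mul1' ((hS.mul h.o0).nm h.hn)
  have u2 := h.xi0.mul1' (hM.nm h.hn)
  have u3 := hσ.mul1' ((hS.mul h.o0).nm h.hn)
  have e1 : ∀ X : Mat n, (a * (X * G0)).trace = X.trace - w⁻¹ * (X * G0).trace := fun X => by
    conv_lhs => rw [h.ha]
    rw [sub_mul, trace_sub, trace_mul_comm N, mul_assoc X, h.hN, mul_one, smul_mul_assoc, one_mul,
      trace_smul, smul_eq_mul]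
  refine (((((((((t0.sub t1).sub t2).add t3).add t4).sub u1).sub u2).add u3).congr
    ?_).mono (by omega))
  rw [e1, e1]
  simp only [nm, mul_one, trace_one, Fintype.card_fin]
  field_simp
  ring

end Al

/-- closing of the first level -/
theorem close1 {τ γ w v gV gV2 gD g0 vr B1 B2 ε : ℝ} {a : ℕ} (hτ : τ = w * γ + v)
    (hγ : |γ - 1| ≤ 1 / 10) (hv : |v| ≤ 1 / 50) (hw : 99 / 100 ≤ w) (hw1 : w ≤ 1)
    (hD : |γ - gD| ≤ 1 / 50) (hV2 : |gV2| ≤ vr * B1) (hvr : 0 ≤ vr) (hg0 : |g0| ≤ B2)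
    (hs : vr * B1 * B2 ≤ 1 / 100) (h1 : 1 ≤ B1) (h2 : B2 ≤ B) (hgV : Sm B 1 1 gV)
    (E1 : Sm B a ε (τ * (w - τ) - (1 - γ) * gD)) (E2 : Sm B a ε (τ * (0 - v) - (1 - γ) * gV))
    (E3 : Sm B a ε (τ * (vr - gV) - (1 - γ) * (gV2 + w * gV)))
    (E4 : Sm B a ε (τ * w - τ * τ - (γ - τ * w⁻¹) * g0)) :
    1 / 2 ≤ τ ∧ Sm B (a + 10) ε (1 - γ) ∧ Sm B (a + 15) ε (γ - τ * w⁻¹) ∧
      Sm B (a + 15) ε (τ - w) := by
  have hB := E1.1
  rw [abs_le] at hγ hv hD
  have hw0 : 0 < w := by linarith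
  have hτ1 : 87 / 100 ≤ τ := by rw [hτ]; nlinarith
  have hτ2 : τ ≤ 112 / 100 := by rw [hτ]; nlinarith
  have hwv : 97 / 100 ≤ w + v := by linarith
  set g1 := (τ * vr - (1 - γ) * gV2) / (w + v) with hg1
  have b1 : |g1| ≤ 2 * (vr * B1) := by
    rw [hg1, abs_div, abs_of_pos (show 0 < w + v by linarith), div_le_iff₀ (by linarith)]
    have a1 : |τ * vr| ≤ 112 / 100 * (vr * B1) := by
      rw [abs_of_nonneg (by positivity)]; nlinarith [mul_nonneg hvr (sub_nonneg.2 h1)]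
    have a2 : |(1 - γ) * gV2| ≤ 1 / 10 * (vr * B1) := by
      rw [abs_mul]
      exact mul_le_mul (abs_le.2 ⟨by linarith, by linarith⟩) hV2 (abs_nonneg _) (by norm_num)
    have a3 := abs_sub (τ * vr) ((1 - γ) * gV2)
    have a4 : 0 ≤ vr * B1 := by positivity
    nlinarith
  have sτ : Sm B 1 1 τ := .of_two hB (abs_le.2 ⟨by linarith, by linarith⟩)
  have sφ : Sm B 1 1 (1 - γ) := .of_two hB (abs_le.2 ⟨by linarith, by linarith⟩)
  have sg0 : Sm B 1 1 g0 := .of_le hB (hg0.trans h2)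
  have hwi : w⁻¹ ≤ 100 / 99 := by rw [inv_le_comm₀ hw0 (by norm_num)]; linarith
  have hwi0 : 0 < w⁻¹ := inv_pos.2 hw0
  have sw : Sm B 1 1 w⁻¹ := .of_two hB (abs_le.2 ⟨by linarith, by linarith⟩)
  have sD : Sm B 1 1 gD := .of_two hB (abs_le.2 ⟨by linarith, by linarith⟩)
  have u1 : Sm B _ ε (gV - g1) := (E3.neg.congr (y := (w + v) * (gV - g1)) (by
    rw [hg1, hτ]; field_simp; ring)).div_of (by linarith)
  have b2 : 1 / 2 ≤ τ * gD - g1 * g0 * w⁻¹ := by
    have a1 : |g1 * g0| ≤ 2 / 100 := by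
      rw [abs_mul]
      calc |g1| * |g0| ≤ 2 * (vr * B1) * B2 := mul_le_mul b1 hg0 (abs_nonneg _) (by positivity)
        _ ≤ 2 / 100 := by linarith
    have a2 := le_of_abs_le a1
    have a3 : g1 * g0 * w⁻¹ ≤ 2 / 100 * (100 / 99) := by nlinarith
    nlinarith
  have u2 : Sm B _ ε (1 - γ) :=
    (((((sφ.mul1 u1).mul1' sg0).mul1' sw).add (((E2.mul1' sg0).mul1' sw).add
      (sτ.mul1 (E4.sub E1)))).congr (y := (τ * gD - g1 * g0 * w⁻¹) * (1 - γ)) (by
        rw [hτ]; field_simp; ring)).div_of b2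
  have u3 : Sm B _ ε v :=
    ((E2.add (u2.mul1' hgV)).neg.congr (y := τ * v) (by ring)).div_of (by linarith)
  have u4 : Sm B _ ε (τ - w) :=
    ((E1.add (u2.mul1' sD)).neg.congr (y := τ * (τ - w)) (by ring)).div_of (by linarith)
  exact ⟨by linarith, u2.mono (by omega), ((u3.mul1' sw).neg.congr (by
    rw [hτ]; field_simp; ring)).mono (by omega), u4.mono (by omega)⟩

/-- closing of the second level -/
theorem close2 {τ w g0 t2 tQ qg s x D2 vr ε : ℝ} {a : ℕ} (hw : 1 / 2 ≤ w) (hD : D2 = w ^ 2 + vr)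
    (sτ : Sm B 5 1 τ) (sw : Sm B 5 1 w) (swi : Sm B 5 1 w⁻¹) (sg : Sm B 5 1 g0)
    (st : Sm B 5 1 t2) (sQ : Sm B 5 1 tQ) (sx : Sm B 5 1 x) (sD : Sm B 5 1 D2)
    (d1 : Sm B a ε (τ - w)) (d2 : Sm B a ε (t2 - g0)) (d3 : Sm B a ε (tQ - qg))
    (d4 : Sm B a ε (τ * s - x * D2))
    (F4 : Sm B a ε (τ * qg - x * g0 - τ * s + s * (w - τ + w⁻¹ * g0))) :
    Sm B (a + 30) ε ((D2 - t2 * vr / w ^ 2) * x - τ * tQ) := by
  have hB := d1.1
  have hw0 : w ≠ 0 := by intro h; rw [h] at hw; norm_num at hw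
  have s2 : Sm B 1 1 2 := .of_two hB (by norm_num)
  have r1 := d1.mul1' ((((sw.add sτ).mul1 sQ).sub (sx.mul1 st)).sub (s2.mul1 (sx.mul1 sD)))
  have r2 := d2.mul1' ((sx.mul1 sτ).sub ((sx.mul1 sD).mul1 swi))
  have r3 := d3.mul1' (sτ.mul1 sτ)
  have r4 := d4.mul1' ((sw.sub (s2.mul1 sτ)).add (sg.mul1 swi))
  have u1 : Sm B _ ε (w * tQ - (D2 - t2 * vr / w ^ 2) * x) :=
    ((((((sτ.mul1 F4).sub r1).add r3).sub r2).sub r4).congr
      (y := w * (w * tQ - (D2 - t2 * vr / w ^ 2) * x)) (by rw [hD]; field_simp; ring)).div_of hw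
  exact ((u1.add (d1.mul1' sQ)).neg.congr (by ring)).mono (by omega)

open Vale.Agent.N150.EC (tm dv wb Nm G0 T2 T3 cc c3 Bm Lm Gam Gm res2 k0 eb abs_tm_le dv_pos dv_le)

theorem wb_le (hn : 0 < n) (h : Vec n) : wb h ≤ 1 := by
  have hn' : (0 : ℝ) < n := by exact_mod_cast hn
  rw [wb, div_le_one hn']
  calc ∑ i, dv h i ≤ ∑ _i : Fin n, (1 : ℝ) := Finset.sum_le_sum fun i _ => dv_le h i
    _ = n := by simp

theorem nv_tm_le (h : Vec n) : nv (tm h) ≤ √n := by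
  rw [nv_eq_sqrt]
  refine Real.sqrt_le_sqrt ?_
  calc F.sq (tm h) ≤ ∑ _i : Fin n, (1 : ℝ) := Finset.sum_le_sum fun i _ => by
        have := abs_tm_le h i
        rw [← sq_abs]; nlinarith [abs_nonneg (tm h i)]
    _ = n := by simp

theorem trace_mul_diag (A : Mat n) (u : Vec n) :
    (A * diagonal u).trace = ∑ j, u j * A j j := by
  simp [Matrix.trace, Matrix.mul_diagonal, mul_comm]

theorem abs_avg_le (hn : 0 < n) {u g : Vec n} {b c : ℝ} (hg : ∀ j, |g j| ≤ b)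
    (hu : (∑ j, |u j|) / n ≤ c) : |(∑ j, u j * g j) / n| ≤ c * b := by
  have hn' : (0 : ℝ) < n := by exact_mod_cast hn
  have hb : 0 ≤ b := (abs_nonneg _).trans (hg ⟨0, hn⟩)
  rw [abs_div, abs_of_pos hn']
  calc |∑ j, u j * g j| / n ≤ (∑ j, |u j|) * b / n := by
        refine div_le_div_of_nonneg_right ((Finset.abs_sum_le_sum_abs _ _).trans ?_) hn'.le
        rw [Finset.sum_mul]
        exact Finset.sum_le_sum fun j _ => by
          rw [abs_mul]; exact mul_le_mul_of_nonneg_left (hg j) (abs_nonneg _)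
    _ = (∑ j, |u j|) / n * b := by ring
    _ ≤ c * b := mul_le_mul_of_nonneg_right hu hb

section Inst

variable {B1 B2 : ℝ} {P J Q : Mat n} {h : Vec n} {z : ℝ}

theorem Cs.pj (hc : Cs B B1 B2 P J Q) : Pj B P := ⟨hc.hB, hc.npos, hc.hP, hc.hPP, hc.trP⟩

theorem Pt.wlo (hc : Cs B B1 B2 P J Q) (hp : Pt B B1 B2 J h z) : 99 / 100 ≤ wb h := by
  have := hp.hq
  have h1 := hc.h1
  have h2 := wb_le hc.npos h
  nlinarith

theorem Pt.T2pos (hc : Cs B B1 B2 P J Q) (hp : Pt B B1 B2 J h z) : 0 < T2 J z := by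
  have hn' : (0 : ℝ) < n := by exact_mod_cast hc.npos
  have h1 := hp.bT
  have h2 := hc.hB
  by_contra h3
  nlinarith [not_lt.1 h3]

theorem Pt.swi (hc : Cs B B1 B2 P J Q) (hp : Pt B B1 B2 J h z) : Sm B 1 1 (wb h)⁻¹ := by
  have h1 := hp.wlo hc
  have h0 : 0 < wb h := by linarith
  refine .of_two hc.hB ?_
  rw [abs_of_pos (inv_pos.2 h0), inv_le_comm₀ h0 (by norm_num)]; linarith

theorem Pt.sTi (hc : Cs B B1 B2 P J Q) (hp : Pt B B1 B2 J h z) : Sm B 1 1 (n / T2 J z) := by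
  have h1 := hp.T2pos hc
  refine .of_le hc.hB ?_
  rw [abs_of_nonneg (by positivity), div_le_iff₀ h1]; exact hp.bT

/-- `n c` is bounded -/
theorem Pt.scc (hc : Cs B B1 B2 P J Q) (hp : Pt B B1 B2 J h z) : |n * cc J h z| ≤ B ^ 3 := by
  have hn' : (0 : ℝ) < n := by exact_mod_cast hc.npos
  have h1 := (hp.sTi hc).2.2
  have h2 := hp.wlo hc
  have h3 := hp.T2pos hc
  have hB := hc.hB
  have e : n * cc J h z = 2 * (n / T2 J z) - 2 / wb h ^ 2 := by
    rw [cc]; field_simp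
  have h4 : 2 / wb h ^ 2 ≤ 3 := by rw [div_le_iff₀ (by positivity)]; nlinarith
  have h5 : 0 ≤ 2 / wb h ^ 2 := by positivity
  have h6 : 0 ≤ (n : ℝ) / T2 J z := by positivity
  rw [abs_of_nonneg h6, pow_one, mul_one] at h1
  rw [e, abs_le]
  constructor <;> nlinarith [mul_nonneg (sub_nonneg.2 hB) (sq_nonneg B), sq_nonneg (B - 2)]

theorem mk_Al (hc : Cs B B1 B2 P J Q) (hp : Pt B B1 B2 J h z) (hg : Gd B B1 B2 J h z) :
    Al B P (Gam J h z) (Gm J h z) (am J h z) (cc J h z • vecMulVec (tm h) (tm h)) (Dm h) Q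
      (Nm J z) (G0 J z) (wb h) := by
  have hB := hc.hB
  have hn' : (0 : ℝ) < n := by exact_mod_cast hc.npos
  have oD : Op B 0 (Dm h) := .diag hB (EC.abs_dv_le h)
  have oΓ : Op B 1 (Gam J h z) := .of_le hB hg.bGam
  have oN : Op B 1 (Nm J z) := .of_le hB hp.bN
  have hs : (Gm J h z)ᵀ = Gm J h z := EC.Gm_symm hc.hJ h z
  have hBG : am J h z * Gm J h z = 1 - Gam J h z - (cc J h z • vecMulVec (tm h) (tm h)) * Gm J h z := by
    have h1 : Lm J h z * Gam J h z = 1 := mul_nonsing_inv _ hg.uL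
    rw [Lm, add_mul, one_mul, mul_assoc] at h1
    have h2 : Bm J h z = am J h z + cc J h z • vecMulVec (tm h) (tm h) := rfl
    have h3 : diagonal (dv h) * Gam J h z = Gm J h z := rfl
    rw [h2, h3, add_mul] at h1
    rw [← h1]; abel
  refine ⟨hc.pj, rfl, ?_, hBG, ?_, rfl, nonsing_inv_mul _ hp.uN, oΓ, oD.mul oΓ,
    oN.sub (Op.smul (hp.swi hc) (.one hB)), .of_le hB hc.bQ, oN, .of_le hB hp.bG, oD, ?_, hp.swi hc⟩
  · rw [← hs, Gm, transpose_mul, diagonal_transpose]; rfl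
  · have h1 := congrArg transpose hBG
    have h2 : (am J h z)ᵀ = am J h z := by
      rw [am, transpose_sub, transpose_smul, transpose_one, (EC.Nm_symm hc.hJ z).eq]
    rwa [transpose_mul, transpose_sub, transpose_sub, transpose_mul, hs, h2, transpose_one,
      transpose_smul, transpose_vecMulVec] at h1
  · refine ⟨hB, zero_le_one, ?_⟩
    rw [Haar.fro_smul, fro_vecMulVec, mul_one]
    have h1 := hp.scc hc
    rw [abs_mul, abs_of_pos hn'] at h1
    have h2 : nv (tm h) * nv (tm h) ≤ n := by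
      rw [← sq_sqrt_n (n := n)]
      exact mul_le_mul (nv_tm_le h) (nv_tm_le h) (nv_nonneg _) (Real.sqrt_nonneg _)
    nlinarith [abs_nonneg (cc J h z)]

theorem sum_dv_sq (hn : 0 < n) (h : Vec n) : (∑ i, dv h i ^ 2) / n = wb h ^ 2 + vr h := by
  have hn' : (n : ℝ) ≠ 0 := by exact_mod_cast hn.ne'
  have e : ∑ i, dv h i = n * wb h := by rw [wb]; field_simp
  have e2 : ∑ i, (dv h i - wb h) ^ 2 = ∑ i, dv h i ^ 2 - 2 * wb h * ∑ i, dv h i + n * wb h ^ 2 := by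
    simp only [sub_sq, Finset.sum_add_distrib, Finset.sum_sub_distrib, Finset.mul_sum,
      Finset.sum_const, Finset.card_univ, Fintype.card_fin, nsmul_eq_mul]
    congr 2
    exact Finset.sum_congr rfl fun i _ => by ring
  rw [vr, e2, e]; field_simp; ring

theorem Pt.kz (hc : Cs B B1 B2 P J Q) (hp : Pt B B1 B2 J h z) : 1 / 2 ≤ kz J h z := by
  have hn' : (0 : ℝ) < n := by exact_mod_cast hc.npos
  have h1 := hp.wlo hc
  have h2 : 0 ≤ vr h := by unfold vr; positivity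
  have h3 : T2 J z / n * vr h ≤ 1 / 10 := by
    rw [div_mul_eq_mul_div, div_le_iff₀ hn']; linarith [hp.hT]
  have h4 : T2 J z / n * vr h / wb h ^ 2 ≤ 1 / 5 := by
    rw [div_le_iff₀ (by positivity)]; nlinarith
  rw [KB.kz, sum_dv_sq hc.npos]; nlinarith

theorem algStmt : AlgStmt := by
  refine ⟨300, fun n B B1 B2 P J Q h z β hc hp hg hβ ht => ?_⟩
  have A := mk_Al hc hp hg
  have hB := hc.hB
  have hn := hc.npos
  have hn' : (0 : ℝ) < n := by exact_mod_cast hn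
  have r0 : (0 : ℝ) ≤ n * √n := by positivity
  have sm : ∀ {x : ℝ}, |x| ≤ B * (n * √n) → Sm B 1 (n * √n) x := fun hx =>
    ⟨hB, r0, by rwa [pow_one]⟩
  have sm1 : ∀ {x : ℝ}, |x| ≤ B * n → Sm B 1 (n * 1) x := fun hx =>
    ⟨hB, by positivity, by rwa [pow_one, mul_one]⟩
  have hw := hp.wlo hc
  have hw1 := wb_le hn h
  have hd0 := dv_pos h
  have hd1 := dv_le h
  set Γ := Gam J h z with hΓ
  set G := Gm J h z with hG
  set w := wb h with hwd
  have oV : Op B 0 (Vm h) := .diag hB fun i => abs_le.2 ⟨by linarith [hd0 i], by linarith [hd1 i]⟩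
  have oD := A.oD
  have es : ∑ i, dv h i = n * w := by rw [hwd, wb]; field_simp
  have hGd : ∀ j, G j j = dv h j * Γ j j := fun j => by rw [hG, Gm, diagonal_mul]
  have trG : ∀ u : Vec n, (G * diagonal u).trace = ∑ j, (u j * dv h j) * Γ j j := fun u => by
    rw [trace_mul_diag]; exact Finset.sum_congr rfl fun j _ => by rw [hGd]; ring
  have eVD : Vm h * Dm h = diagonal fun j => (dv h j - w) * dv h j := diagonal_mul_diagonal _ _
  have eDD : Dm h * Dm h = diagonal fun j => dv h j * dv h j := diagonal_mul_diagonal _ _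
  have tΓ : Γ.trace = ∑ j, Γ j j := rfl
  have tG : G.trace = ∑ j, dv h j * Γ j j := Finset.sum_congr rfl fun j _ => hGd j
  have q2 : 2 * (1 - w) * B1 ≤ 1 / 50 := by linarith [hp.hq]
  have s1 : (∑ j, (1 - dv h j)) / n = 1 - w := by
    rw [Finset.sum_sub_distrib, es]; simp; field_simp
  -- first level
  have E1 := (A.I2 oD.fr (sm ht.a1)).nrm hn
  have E2 := (A.I2 oV.fr (sm ht.a2)).nrm hn
  have E3 := (A.I2 (oV.mul oD).fr (sm ht.a3)).nrm hn
  have E4 := A.I3 (A.o0.mono (by norm_num)) (sm ht.c1)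
  have tr0 : nm (G0 J z) = w := by
    have := hp.res
    rw [res2, es] at this
    rw [nm]; field_simp; linarith
  have e4 : nm (G * G0 J z * Nm J z) = nm G := by rw [mul_assoc, A.hN, mul_one]
  rw [tr0, e4] at E4
  obtain ⟨hτ, sφ, sσ, sτ⟩ := close1 (B := B) (τ := nm G) (γ := nm Γ) (w := w)
    (v := (∑ j, (dv h j - w) * Γ j j) / n) (gV := nm (G * Vm h))
    (gV2 := (∑ j, ((dv h j - w) ^ 2 * dv h j) * Γ j j) / n) (gD := nm (G * Dm h))
    (g0 := nm (G * G0 J z)) (vr := vr h) (B1 := B1) (B2 := B2) (ε := ep n) (a := 18)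
    (by
      rw [nm, nm, tG, tΓ]
      simp only [sub_mul, Finset.sum_sub_distrib, ← Finset.mul_sum]
      field_simp; ring)
    (by
      have e : nm Γ - 1 = (Γ.trace - n) / n := by rw [nm]; field_simp
      rw [e, abs_div, abs_of_pos hn', div_le_iff₀ hn']; linarith [hg.tr])
    ((abs_avg_le hn hg.dg (c := 2 * (1 - w)) (by
      rw [← s1, div_le_iff₀ hn']
      have : ∑ j, |dv h j - w| ≤ ∑ j, ((1 - dv h j) + (1 - w)) := Finset.sum_le_sum fun j _ =>
        abs_le.2 ⟨by linarith [hd1 j], by linarith [hd1 j]⟩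
      rw [Finset.sum_add_distrib, Finset.sum_const, Finset.card_univ, Fintype.card_fin,
        nsmul_eq_mul, ← s1] at this
      field_simp at this ⊢
      linarith)).trans q2)
    hw hw1
    (by
      have e : nm Γ - nm (G * Dm h) = (∑ j, (1 - dv h j * dv h j) * Γ j j) / n := by
        rw [nm, nm, Dm, trG, tΓ]
        simp only [sub_mul, Finset.sum_sub_distrib, one_mul]
        ring
      rw [e]
      refine (abs_avg_le hn hg.dg (c := 2 * (1 - w)) ?_).trans q2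
      rw [← s1, ← mul_div_assoc, Finset.mul_sum]
      refine div_le_div_of_nonneg_right (Finset.sum_le_sum fun j _ => ?_) hn'.le
      have a0 := hd0 j
      have a1 := hd1 j
      rw [abs_of_nonneg (by nlinarith)]; nlinarith)
    (abs_avg_le hn hg.dg (by
      rw [vr]
      refine div_le_div_of_nonneg_right (Finset.sum_le_sum fun j _ => ?_) hn'.le
      have a0 := hd0 j
      have a1 := hd1 j
      rw [abs_of_nonneg (by positivity)]; nlinarith [sq_nonneg (dv h j - w)]))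
    (by unfold vr; positivity)
    (by
      rw [nm, trace_mul_comm, abs_div, abs_of_pos hn', div_le_iff₀ hn']; linarith [hg.tg])
    hp.hv hc.h1 hc.h2B ((A.oG.mul oV).nm hn)
    ((E1.congr (by
      have e1 : (Dm h).trace = n * w := by rw [Dm, trace_diagonal, es]
      have e2 : (Γ * Dm h).trace = G.trace := by rw [trace_mul_comm]; rfl
      rw [e1, e2]; simp only [nm]; field_simp)).mono (by norm_num))
    ((E2.congr (by
      have e1 : (Vm h).trace = 0 := by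
        rw [Vm, trace_diagonal, Finset.sum_sub_distrib, es]; simp [hwd]
      have e2 : (Γ * Vm h).trace = ∑ j, (dv h j - w) * Γ j j := trace_mul_diag _ _
      rw [e1, e2]; simp only [nm]; field_simp; ring)).mono (by norm_num))
    ((E3.congr (by
      have e1 : (Vm h * Dm h).trace = n * vr h := by
        have a1 := sum_dv_sq hn h
        rw [div_eq_iff hn'.ne'] at a1
        rw [eVD, trace_diagonal]
        simp only [sub_mul, Finset.sum_sub_distrib, ← Finset.mul_sum, ← pow_two, es, a1]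
        ring
      have e2 : (Γ * (Vm h * Dm h)).trace = (G * Vm h).trace := by
        rw [eVD, Vm, trace_mul_diag, trG]
      have e3 : (G * (Vm h * Dm h)).trace =
          ∑ j, ((dv h j - w) ^ 2 * dv h j) * Γ j j + w * (G * Vm h).trace := by
        rw [eVD, Vm, trG, trG, Finset.mul_sum, ← Finset.sum_add_distrib]
        exact Finset.sum_congr rfl fun j _ => by ring
      rw [e1, e2, e3]; simp only [nm]; field_simp)).mono (by norm_num))
    E4
  -- second level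
  have oΞ := (A.oΓ.mul A.oQ).mul A.oΓ.tr
  have F1 := A.I3 ((A.o0.mul A.o0).mono (by norm_num)) (sm ht.c2)
  have F2 := A.I3 ((A.o0.mul A.oQ).mul A.o0) (sm ht.c3)
  have F3 := (A.I4 (oD.mul oD).fr (by rw [eDD, diagonal_transpose]) sφ hτ (sm ht.a1) (sm ht.a4)
    (sm ht.b2)).nrm hn
  have F4 := A.I5 sσ (sm ht.d1)
  have F5 := A.I4 (W := diagonal β) (e := 1) ⟨hB, zero_le_one, by rw [fro_diagonal]; simpa using hβ⟩
    (diagonal_transpose _) sφ hτ (sm1 ht.a5) (sm1 ht.a6) (sm1 ht.b1)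
  have e5 : G * (G0 J z * G0 J z) * Nm J z = G * G0 J z := by
    rw [mul_assoc, mul_assoc, A.hN, mul_one]
  have e6 : nm (G * (G0 J z * Q * G0 J z) * Nm J z) = nm (Q * (G * G0 J z)) := by
    rw [mul_assoc, mul_assoc, A.hN, mul_one, nm, nm, trace_mul_comm Q, mul_assoc]
  have e7 : (Γ * Q * Γᵀ * (Dm h * Dm h)).trace = (G * Q * G).trace := by
    conv_rhs => rw [← congrArg₂ (fun X Y => (X * Q * Y).trace) A.hGD.symm A.hGT.symm]
    rw [← mul_assoc, trace_mul_comm]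
    simp only [mul_assoc]
  rw [e5] at F1
  rw [e6] at F2
  rw [tr0] at F4
  have d2 : Sm B _ (ep n) (nm (G0 J z * G0 J z) - nm (G * G0 J z)) :=
    ((F1.add (sσ.mul1' ((A.oG.mul (A.o0.mul A.o0)).nm hn))).congr (by ring)).div_of hτ
  have d3 : Sm B _ (ep n) (nm (G0 J z * Q * G0 J z) - nm (Q * (G * G0 J z))) :=
    ((F2.add (sσ.mul1' ((A.oG.mul ((A.o0.mul A.oQ).mul A.o0)).nm hn))).congr (by ring)).div_of hτ
  have eD2 : nm (Dm h * Dm h) = (∑ i, dv h i ^ 2) / n := by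
    rw [nm, eDD, trace_diagonal]; simp only [← pow_two]
  have sw : Sm B 1 1 w := .of_two hB (abs_le.2 ⟨by linarith, by linarith⟩)
  have C2 := close2 (B := B) (a := 70) (ε := ep n) (τ := nm G) (w := w) (g0 := nm (G * G0 J z))
    (t2 := nm (G0 J z * G0 J z)) (tQ := nm (G0 J z * Q * G0 J z)) (qg := nm (Q * (G * G0 J z)))
    (s := nm (G * Q * G)) (x := nm (Dm h * (Γ * Q * Γᵀ))) (D2 := nm (Dm h * Dm h)) (vr := vr h)
    (by linarith) (by rw [eD2, sum_dv_sq hn]) ((A.oG.nm hn).mono (by norm_num))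
    (sw.mono (by norm_num)) (A.sw.mono (by norm_num)) (((A.oG.mul A.o0).nm hn).mono (by norm_num))
    (((A.o0.mul A.o0).nm hn).mono (by norm_num))
    ((((A.o0.mul A.oQ).mul A.o0).nm hn).mono (by norm_num))
    (((oD.mul oΞ).nm hn).mono (by norm_num)) (((oD.mul oD).nm hn).mono (by norm_num))
    (sτ.mono (by norm_num)) (d2.mono (by norm_num)) (d3.mono (by norm_num))
    ((F3.congr (by rw [e7]; simp only [nm]; field_simp)).mono (by norm_num))
    (F4.mono (by norm_num))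
  have hk := hp.kz hc
  have ek : nm (Dm h * Dm h) - nm (G0 J z * G0 J z) * vr h / w ^ 2 = kz J h z := by
    rw [eD2]; rfl
  rw [ek] at C2
  have u1 : Sm B _ (ep n) (nm (Dm h * (Γ * Q * Γᵀ)) - nm G * xis J h z Q) :=
    (C2.congr (by
      have : kz J h z ≠ 0 := by linarith
      rw [xis]; simp only [nm]; field_simp)).div_of hk
  have sβ : Sm B 0 (√n * 1) (diagonal β : Mat n).trace :=
    Fr.tr ⟨hB, zero_le_one, by rw [fro_diagonal]; simpa using hβ⟩
  have u2 : Sm B _ 1 (ip β (dXi J h z Q - fun _ => xis J h z Q)) :=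
    ((F5.add ((u1.mul sβ).eq (ep_mul hn 1))).congr (by
      rw [trace_mul_diag, trace_diagonal]
      simp only [ip, dXi, Pi.sub_apply, mul_sub, Finset.sum_sub_distrib, ← Finset.sum_mul]
      ring)).div_of hτ
  simpa using (u2.mono (q := 300) (by norm_num)).2.2

theorem k0Stmt : K0Stmt := by
  refine ⟨20, fun n B B1 B2 P J Q h z hc hp hg => ?_⟩
  have A := mk_Al hc hp hg
  have hB := hc.hB
  have hn := hc.npos
  have hn' : (0 : ℝ) < n := by exact_mod_cast hn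
  have hn1 : (1 : ℝ) ≤ n := by exact_mod_cast hn
  have hT := hp.T2pos hc
  have hk := hp.kz hc
  have hw := hp.wlo hc
  have hs : (Gm J h z)ᵀ = Gm J h z := EC.Gm_symm hc.hJ h z
  set a : Vec n := dXi J h z Q - fun _ => xis J h z Q with ha
  set S := Gm J h z * Q * (Gm J h z)ᵀ with hS
  have oS : Op B 3 S := (A.oG.mul A.oQ).mul A.oG.tr
  have e1 : S.trace = ip (fun j => dv h j ^ 2) a + xis J h z Q * ∑ j, dv h j ^ 2 := by
    have : S = diagonal (dv h) * (Gam J h z * Q * (Gam J h z)ᵀ) * diagonal (dv h) := by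
      rw [hS, Gm, transpose_mul, diagonal_transpose]; simp only [mul_assoc]
    rw [this, trace_mul_diag, ip, Finset.mul_sum, ← Finset.sum_add_distrib]
    refine Finset.sum_congr rfl fun j _ => ?_
    rw [diagonal_mul, ha]; simp only [dXi, Pi.sub_apply]; ring
  have e2 : xis J h z Q + cc J h z / 2 * (xis J h z Q * ∑ j, dv h j ^ 2) =
      (G0 J z * Q * G0 J z).trace / T2 J z := by
    have a1 := sum_dv_sq hn h
    have a2 : kz J h z = wb h ^ 2 + vr h - T2 J z / n * vr h / wb h ^ 2 := by rw [KB.kz, a1]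
    rw [div_eq_iff hn'.ne'] at a1
    have a3 : (G0 J z * Q * G0 J z).trace = xis J h z Q * kz J h z * n := by
      have : kz J h z ≠ 0 := by linarith
      rw [xis]; field_simp
    have : wb h ≠ 0 := by linarith
    rw [a3, a1, a2, cc]; field_simp; ring
  have e3 : k0 J h z Q = (fun i => tm h i * a i) +
      (cc J h z / 2 * ip (fun j => dv h j ^ 2) a + c3 J h z * qf S (tm h)) • tm h +
      cc J h z • (S *ᵥ tm h) := by
    funext i
    simp only [k0, eb, Pi.sub_apply, Pi.add_apply, Pi.smul_apply, smul_eq_mul, ← hS, e1, ← e2, ha,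
      dXi]
    ring
  have m1 := nv_tm_le h
  have r1 : 1 ≤ √(n : ℝ) := by rw [Real.one_le_sqrt]; exact hn1
  have rr := sq_sqrt_n (n := n)
  have a0 := nv_nonneg a
  have b1 : nv (fun i => tm h i * a i) ≤ nv a := by
    refine nv_le_of_sq_le a0 ?_
    rw [nv_sq]
    refine Finset.sum_le_sum fun i _ => ?_
    have := abs_tm_le h i
    have h2 : tm h i ^ 2 ≤ 1 := by rw [← sq_abs]; nlinarith [abs_nonneg (tm h i)]
    rw [mul_pow]; nlinarith [sq_nonneg (a i)]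
  have b2 : |ip (fun j => dv h j ^ 2) a| ≤ √n * nv a := by
    refine (abs_ip_le _ _).trans (mul_le_mul_of_nonneg_right ?_ a0)
    rw [nv_eq_sqrt]
    refine Real.sqrt_le_sqrt ?_
    calc F.sq (fun j => dv h j ^ 2) ≤ ∑ _i : Fin n, (1 : ℝ) := Finset.sum_le_sum fun i _ =>
          pow_le_one₀ (sq_nonneg _) (pow_le_one₀ (dv_pos h i).le (dv_le h i))
      _ = n := by simp
  have c1 : Sm B 3 n⁻¹ (cc J h z) := by
    have := hp.scc hc
    rw [abs_mul, abs_of_pos hn'] at this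
    exact ⟨hB, by positivity, by rw [← div_eq_mul_inv, le_div_iff₀ hn']; linarith⟩
  have b3 : nv (S *ᵥ tm h) ≤ B ^ 3 * √n :=
    (oS.2.nv_le oS.nn _).trans (mul_le_mul_of_nonneg_left m1 oS.nn)
  have b4 : Sm B 3 n (qf S (tm h)) := ⟨hB, hn'.le, (abs_ip_le _ _).trans (by
    calc nv (tm h) * nv (S *ᵥ tm h) ≤ √n * (B ^ 3 * √n) :=
          mul_le_mul m1 b3 (nv_nonneg _) (Real.sqrt_nonneg _)
      _ = B ^ 3 * (√n * √n) := by ring
      _ = _ := by rw [rr])⟩
  have s2 : Sm B 1 1 2 := .of_two hB (by norm_num)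
  have sT := hp.sTi hc
  have c2 : Sm B _ 1 (n ^ 2 * c3 J h z) :=
    ((s2.mul1 s2).mul1 (((((A.o0.mul A.o0).mul A.o0).nm hn).mul1 (sT.mul1 (sT.mul1 sT))).sub
      (A.sw.mul1 (A.sw.mul1 A.sw)))).congr (by
        have : wb h ≠ 0 := by linarith
        rw [c3, nm, T3]; field_simp; ring)
  have c4 : Sm B 12 n⁻¹ (c3 J h z * qf S (tm h)) :=
    ((((c2.mul1 b4).div (c := (n : ℝ) ^ 2) (by positivity)).congr (by field_simp)).eq
      (by field_simp)).mono (by norm_num)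
  have p3 : 0 ≤ B ^ 3 := oS.nn
  have p12 : 0 ≤ B ^ 12 := by positivity
  have i1 : √(n : ℝ) * (n : ℝ)⁻¹ ≤ 1 := by
    rw [← div_eq_mul_inv, div_le_one hn']; nlinarith
  have i2 : √(n : ℝ) * √n * (n : ℝ)⁻¹ = 1 := by rw [rr]; field_simp
  have d1 : |cc J h z / 2 * ip (fun j => dv h j ^ 2) a| * √n ≤ B ^ 3 * nv a := by
    rw [abs_mul, abs_div, abs_two]
    calc |cc J h z| / 2 * |ip (fun j => dv h j ^ 2) a| * √n
        ≤ (B ^ 3 * (n : ℝ)⁻¹) * (√n * nv a) * √n := by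
          refine mul_le_mul_of_nonneg_right (mul_le_mul ?_ b2 (abs_nonneg _) (by positivity))
            (Real.sqrt_nonneg _)
          linarith [c1.2.2, abs_nonneg (cc J h z)]
      _ = B ^ 3 * nv a * (√n * √n * (n : ℝ)⁻¹) := by ring
      _ = _ := by rw [i2, mul_one]
  have d2 : |c3 J h z * qf S (tm h)| * √n ≤ B ^ 12 := by
    calc |c3 J h z * qf S (tm h)| * √n ≤ B ^ 12 * (n : ℝ)⁻¹ * √n :=
          mul_le_mul_of_nonneg_right c4.2.2 (Real.sqrt_nonneg _)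
      _ = B ^ 12 * (√n * (n : ℝ)⁻¹) := by ring
      _ ≤ B ^ 12 := mul_le_of_le_one_right p12 i1
  have d3 : nv (cc J h z • (S *ᵥ tm h)) ≤ B ^ 6 := by
    rw [nv_smul]
    calc |cc J h z| * nv (S *ᵥ tm h) ≤ (B ^ 3 * (n : ℝ)⁻¹) * (B ^ 3 * √n) :=
          mul_le_mul c1.2.2 b3 (nv_nonneg _) (by positivity)
      _ = B ^ 6 * (√n * (n : ℝ)⁻¹) := by ring
      _ ≤ B ^ 6 := mul_le_of_le_one_right (by positivity) i1
  have d4 : nv ((cc J h z / 2 * ip (fun j => dv h j ^ 2) a + c3 J h z * qf S (tm h)) • tm h) ≤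
      B ^ 3 * nv a + B ^ 12 := by
    rw [nv_smul]
    refine (mul_le_mul (abs_add_le _ _) m1 (nv_nonneg _) (by positivity)).trans ?_
    rw [add_mul]; exact add_le_add d1 d2
  rw [e3]
  refine ((nv_add_le _ _).trans (add_le_add (nv_add_le _ _) d3)).trans ?_
  have q1 : 1 + B ^ 3 ≤ B ^ 20 := by
    have := pw_add hB 0 3
    rw [pow_zero] at this
    exact this.trans (pw_le hB (by norm_num))
  have q2 : B ^ 12 + B ^ 6 ≤ B ^ 20 := (pw_add hB 12 6).trans (pw_le hB (by norm_num))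
  nlinarith [mul_le_mul_of_nonneg_right q1 a0]

end Inst

end Vale.Agent.N150.KB
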