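import Vale.Agent.N150.KBDet1
import Vale.Agent.N150.KBT1Def
import Vale.Agent.N150.Pw

/-! The deterministic input of the source bound, from the outputs of block T1. -/

namespace Vale.Agent.N150.KBD

open Matrix
open Vale.Agent.P150 Vale.Agent.P150.F Vale.Agent.N150.EC Vale.Agent.N150.Sp Vale.Agent.N150.T1
open Vale.Agent.N150.Haar (fro fro_nonneg fro_add_le fro_smul)
open Vale.Agent.N150.KB (vr Pt Gd KBDetStmt)
open Vale.Agent.N150.KB.Ch (opT fro_mul_r op_diagonal)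

variable {n : ℕ} {L t : ℝ} {S : Dat n} {O : OG n} {h : Vec n} {z : ℝ}

theorem pwSm (hs : Sm L t) : Pw.Sm L t :=
  ⟨hs.pos, hs.hL, by simpa using hs.cL (C := 1) (a := 1) (by norm_num) (by norm_num),
    hs.c1 (by norm_num)⟩

theorem strW_of (hs : Sm L t) (hG : Good t S O) : StrW t S O (S.hc t O) := by
  have a0 := (hs.p0 4000).le
  have a1 : t ^ 4000 ≤ t ^ 3900 := hs.pw (by norm_num)
  have b0 := (hs.i0 10).le
  have b1 : t⁻¹ ^ 10 ≤ t⁻¹ ^ 11 := hs.iw (by norm_num)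
  have c1 : t⁻¹ ≤ t⁻¹ ^ 2 := by simpa using hs.iw (a := 1) (b := 2) (by norm_num)
  have k : ∀ (v : Vec n) (m : ℕ) (u : Vec n), Rip.Spread (t⁻¹ * F.sq v) (n * t ^ m) u →
      Rip.Spread (t⁻¹ ^ 2 * F.sq v) (n * t ^ m) u := fun v m u hu =>
    hu.mono (mul_nonneg hs.inv0.le (sqN_nonneg v)) (mul_le_mul_of_nonneg_right c1 (sqN_nonneg v))
      (mul_nonneg (Nat.cast_nonneg n) (hs.p0 m).le) le_rfl
  have g := hG.str
  exact ⟨⟨g.clp, g.nrm, g.e1.monoN a0 a1, g.e3.monoN b0 b1, g.e3'.monoN b0 b1, g.e4.monoN a0 a1,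
    fun A hA => (g.e5 A hA).monoN b0 b1, fun A hA => (g.e6 A hA).monoN a0 a1,
    fun A hA => (g.e7 A hA).monoN a0 a1, fun A hA => (g.e7' A hA).monoN a0 a1⟩,
    ⟨fun v => k v _ _ (hG.spr.s1 v), fun v => k v _ _ (hG.spr.s2 v)⟩⟩

/-- what is known at a point of the ball -/
structure Cx (L t : ℝ) (S : Dat n) (O : OG n) (h : Vec n) (z : ℝ) : Prop where
  sm : Sm L t
  adm : Adm L t S
  w : |wb h - S.w| ≤ t ^ 214900
  dz : |z - S.z0| ≤ t ^ 358800
  m : nv (tm h) ≤ √n * t ^ 71999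
  bmu : nv (mu h h) ≤ √n * t ^ 71999
  cub : nv (h - tm h) ≤ √n * t ^ 214000
  res : res2 (S.J O) h z = 0
  unit : IsUnit (Lm (S.J O) h z).det
  gam : OpLe (S.Nsq O * Gam (S.J O) h z * S.Nsq O) (t⁻¹ ^ 100)
  gm : OpLe (S.Nsq O * Gm (S.J O) h z * S.Nsq O) (t⁻¹ ^ 200)
  row : ∀ i, nv (S.Nis O *ᵥ Pi.single i 1) ≤ t⁻¹ ^ 12
  bX : OpLe (S.Nis O * VW h h * S.Nis O) (t⁻¹ ^ 30)
  mp : Mp (S.J O) h h z z 0 = G0 (S.J O) z * Lm (S.J O) h z

namespace Cx

variable (c : Cx L t S O h z)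
include c

theorem npos : (0 : ℝ) < n := c.adm.npos'

theorem half (a : Fin n) : |z - S.z0| ≤ (S.z0 - S.lam a) / 2 := by
  have h1 := c.sm.cp (C := 2) (by norm_num) (a := 358800) (b := 288001) (by norm_num)
  linarith [c.dz, c.adm.pow_le_gap c.sm a]

theorem gap_lo (a : Fin n) : (S.z0 - S.lam a) / 2 ≤ z - S.lam a := by
  linarith [(abs_le.1 (c.half a)).1]

theorem gap_hi (a : Fin n) : z - S.lam a ≤ 2 * (S.z0 - S.lam a) := by
  linarith [(abs_le.1 (c.half a)).2, c.adm.gap_pos c.sm a]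

theorem lt (a : Fin n) : S.lam a < z := by linarith [c.gap_lo a, c.adm.gap_pos c.sm a]

theorem g_pos (a : Fin n) : 0 < (z - S.lam a)⁻¹ := inv_pos.2 (sub_pos.2 (c.lt a))

theorem g_le (a : Fin n) : (z - S.lam a)⁻¹ ≤ 2 * S.g a := by
  have h0 := c.adm.gap_pos c.sm a
  refine (inv_anti₀ (by positivity) (c.gap_lo a)).trans (le_of_eq ?_)
  unfold Dat.g
  field_simp

theorem le_g (a : Fin n) : S.g a / 2 ≤ (z - S.lam a)⁻¹ := by
  have h0 := c.adm.gap_pos c.sm a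
  refine le_trans (le_of_eq ?_) (inv_anti₀ (sub_pos.2 (c.lt a)) (c.gap_hi a))
  unfold Dat.g
  field_simp

theorem g7 (a : Fin n) : 1 ≤ 7 * S.g a := by
  have h1 := c.adm.g_mul c.sm a
  have h2 := mul_le_mul_of_nonneg_left (c.adm.gap_le c.sm a) (c.adm.g_pos c.sm a).le
  linarith

theorem G_eq : G0 (S.J O) z = JO (fun a => (z - S.lam a)⁻¹) O := G0_JO c.lt O

theorem T2_eq : T2 (S.J O) z = ∑ a, (z - S.lam a)⁻¹ ^ 2 := by
  rw [T2, c.G_eq, JO_mul, trace_JO]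
  simp only [pow_two]

theorem T2_hi : T2 (S.J O) z ≤ 4 * ∑ a, S.g a ^ 2 := by
  rw [c.T2_eq, Finset.mul_sum]
  refine Finset.sum_le_sum fun a _ => ?_
  have := pow_le_pow_left₀ (c.g_pos a).le (c.g_le a) 2
  linarith

theorem T2_lo : ∑ a, S.g a ^ 2 ≤ 4 * T2 (S.J O) z := by
  rw [c.T2_eq, Finset.mul_sum]
  refine Finset.sum_le_sum fun a _ => ?_
  have := pow_le_pow_left₀ (by linarith [c.adm.g_pos c.sm a]) (c.le_g a) 2
  linarith

theorem sum_g2 : ∑ a, S.g a ^ 2 ≤ n * (L * t⁻¹ ^ 144000) := by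
  have h1 := mul_le_mul_of_nonneg_left c.adm.t2hi (c.sm.i0 144000).le
  have h2 := c.sm.ip_eq 144000 0
  rw [add_zero, pow_zero] at h2
  rw [← mul_assoc, h2, one_mul] at h1
  linarith

theorem q_le : 1 - wb h ≤ 2 * t ^ 143999 := by
  have h1 := c.adm.w_ge' c.sm
  have h2 : t ^ 214900 ≤ t ^ 143999 := c.sm.pw (by norm_num)
  linarith [(abs_le.1 c.w).1]

theorem w_half : 1 / 2 ≤ wb h := by
  have h1 := c.sm.cp (C := 4) (by norm_num) (a := 143999) (b := 0) (by norm_num)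
  rw [pow_zero] at h1
  linarith [c.q_le]

theorem sqV : F.sq (fun i => dv h i - wb h) ≤ n * (t ^ 142999) ^ 2 := by
  have h1 := sq_V c.adm.npos h
  have h2 := mul_le_mul c.m c.cub (nv_nonneg _) (mul_nonneg (Real.sqrt_nonneg _) (c.sm.p0 _).le)
  have h3 : √n * t ^ 71999 * (√n * t ^ 214000) = n * t ^ 285999 := by
    rw [mul_mul_mul_comm, Real.mul_self_sqrt (Nat.cast_nonneg n), ← pow_add]
  have h4 := mul_le_mul_of_nonneg_left
    (c.sm.cp (C := 3) (by norm_num) (a := 285999) (b := 285998) (by norm_num)) c.npos.le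
  rw [← pow_mul, show 142999 * 2 = 285998 by norm_num]
  linarith

theorem vr_nonneg : 0 ≤ vr h := by
  have := c.npos
  unfold vr
  positivity

theorem vr_le : vr h ≤ t ^ 285998 := by
  have h1 := c.sqV
  rw [← pow_mul, mul_comm] at h1
  exact (div_le_iff₀ c.npos).2 h1

theorem opG : OpLe (G0 (S.J O) z) (2 * t⁻¹ ^ 288001) := by
  rw [c.G_eq]
  refine opLe_JO (fun a => ?_) O
  rw [abs_of_pos (c.g_pos a)]
  linarith [c.g_le a, c.adm.g_le c.sm a]

theorem n_le_T2 : (n : ℝ) ≤ 4 * L * t ^ 144000 * T2 (S.J O) z := by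
  have := mul_le_mul_of_nonneg_left c.T2_lo (mul_pos c.sm.L0 (c.sm.p0 144000)).le
  linarith [c.adm.t2lo]

theorem T2_pos : 0 < T2 (S.J O) z := by linarith [c.T2_lo, c.adm.T20_pos c.sm]

theorem pt : Pt (t⁻¹ ^ 300000) (t⁻¹ ^ 200) (t⁻¹ ^ 144300) (S.J O) h z := by
  have p := pwSm c.sm
  have hP : (Nm (S.J O) z).PosDef := (posDef_Nm O).2 c.lt
  refine ⟨c.res, hP.det_pos.ne'.isUnit, ?_, ?_, ?_, ?_, ?_, ?_⟩
  · rw [Dat.J, Nm_JO]
    refine opLe_JO (fun a => ?_) O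
    have h1 := c.sm.ci (C := 14) (by norm_num) (a := 0) (b := 300000) (by norm_num)
    rw [pow_zero] at h1
    rw [abs_of_pos (sub_pos.2 (c.lt a))]
    linarith [c.gap_hi a, c.adm.gap_le c.sm a]
  · exact c.opG.monoN (by have := c.sm.i0 288001; positivity)
      (c.sm.ci (by norm_num) (by norm_num))
  · refine c.n_le_T2.trans (mul_le_mul_of_nonneg_right ?_ c.T2_pos.le)
    exact p.le_inv (p.mul (p.cmul 4 (by norm_num) (by norm_num) p.cL) (p.pow 144000)) _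
      (by norm_num)
  · have h1 := p.small (p.mul (p.cmul 2 (by norm_num) (by norm_num) (p.pow 143999)) (p.inv 200))
      (by norm_num)
    have h2 := mul_le_mul_of_nonneg_right c.q_le (c.sm.i0 200).le
    linarith
  · have h1 := p.small (p.mul (p.mul (Pw.Sm.of_le (p.pow 285998) c.vr_nonneg c.vr_le) (p.inv 200))
      (p.inv 144300)) (by norm_num)
    linarith
  · have h1 := p.small (p.mul (p.cmul 4 (by norm_num) (by norm_num) (p.mul p.cL (p.inv 144000)))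
      (Pw.Sm.of_le (p.pow 285998) c.vr_nonneg c.vr_le)) (by norm_num)
    have h2 : T2 (S.J O) z ≤ n * (4 * (L * t⁻¹ ^ 144000)) := by linarith [c.T2_hi, c.sum_g2]
    have h3 := mul_le_mul_of_nonneg_right h2 c.vr_nonneg
    have h4 := mul_le_mul_of_nonneg_left h1 c.npos.le
    rw [mul_assoc] at h3
    linarith [c.npos]

theorem Gam_eq : Gam (S.J O) h z = S.Nis O * (S.Nsq O * Gam (S.J O) h z * S.Nsq O) * S.Nis O :=
  sand_eq (c.adm.Nis_mul_Nsq c.sm O) (c.adm.Nsq_mul_Nis c.sm O) _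

theorem bGam : OpLe (Gam (S.J O) h z) (t⁻¹ ^ 300000) := by
  have hN := c.adm.opLe_Nis c.sm O
  have a := (c.sm.i0 144001).le
  have b := (c.sm.i0 100).le
  rw [c.Gam_eq]
  refine ((hN.mulN c.gam a b).mulN hN (mul_nonneg a b) a).monoN (mul_nonneg (mul_nonneg a b) a) ?_
  rw [← pow_add, ← pow_add]
  exact c.sm.iw (by norm_num)

theorem dg (i : Fin n) : |Gam (S.J O) h z i i| ≤ t⁻¹ ^ 200 := by
  have h1 := abs_ip_sand (S.Nis_tr O) (c.sm.i0 100).le c.gam (Pi.single i 1) (Pi.single i 1)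
  rw [← c.Gam_eq, ip_single] at h1
  have h2 := mul_le_mul (c.row i) (mul_le_mul_of_nonneg_left (c.row i) (c.sm.i0 100).le)
    (mul_nonneg (c.sm.i0 100).le (nv_nonneg _)) (c.sm.i0 12).le
  rw [← pow_add, ← pow_add] at h2
  exact h1.trans (h2.trans (c.sm.iw (by norm_num)))

theorem tg : |(G0 (S.J O) z * Gm (S.J O) h z).trace| ≤ n * t⁻¹ ^ 144300 := by
  have p := pwSm c.sm
  have e0 := sand_eq (c.adm.Nis_mul_Nsq c.sm O) (c.adm.Nsq_mul_Nis c.sm O) (Gm (S.J O) h z)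
  set H := S.Nsq O * Gm (S.J O) h z * S.Nsq O with hH
  have e1 : S.Nis O * (G0 (S.J O) z * S.Nis O) = JO (fun a => (z - S.lam a)⁻¹ * S.g a) O := by
    have e : S.Nis O * G0 (S.J O) z = G0 (S.J O) z * S.Nis O := by
      rw [c.G_eq]; exact JO_comm _ _ _
    rw [← Matrix.mul_assoc, e, Matrix.mul_assoc, c.adm.Nis_mul_Nis c.sm, c.G_eq, JO_mul]
  have e2 : (G0 (S.J O) z * Gm (S.J O) h z).trace =
      (JO (fun a => (z - S.lam a)⁻¹ * S.g a) O * H).trace := by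
    have : G0 (S.J O) z * Gm (S.J O) h z = (G0 (S.J O) z * S.Nis O * H) * S.Nis O := by
      rw [e0]; simp only [Matrix.mul_assoc]
    rw [this, trace_mul_comm, ← Matrix.mul_assoc, e1]
  have b1 : ∑ a, |(z - S.lam a)⁻¹ * S.g a| ≤ 2 * ∑ a, S.g a ^ 2 := by
    rw [Finset.mul_sum]
    refine Finset.sum_le_sum fun a _ => ?_
    have g0 := c.adm.g_pos c.sm a
    rw [abs_of_pos (mul_pos (c.g_pos a) g0)]
    nlinarith [c.g_le a]
  have b2 := p.le_inv (p.mul (p.cmul 2 (by norm_num) (by norm_num) (p.mul p.cL (p.inv 144000)))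
    (p.inv 200)) 144300 (by norm_num)
  rw [e2]
  refine (abs_trace_JO _ O (c.sm.i0 200).le c.gm).trans ?_
  have b3 : ∑ a, |(z - S.lam a)⁻¹ * S.g a| ≤ n * (2 * (L * t⁻¹ ^ 144000)) := by
    linarith [c.sum_g2]
  refine (mul_le_mul_of_nonneg_right b3 (c.sm.i0 200).le).trans ?_
  rw [mul_assoc]
  exact mul_le_mul_of_nonneg_left b2 c.npos.le

theorem winv : (wb h)⁻¹ ≤ 2 := by
  rw [inv_le_comm₀ (by linarith [c.w_half]) two_pos]
  linarith [c.w_half]

theorem kap_le (a : Fin n) : |1 - (wb h)⁻¹ * (z - S.lam a)⁻¹| ≤ 11 * S.g a := by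
  have h0 : 0 < (wb h)⁻¹ := inv_pos.2 (by linarith [c.w_half])
  have h1 := mul_le_mul c.winv (c.g_le a) (c.g_pos a).le zero_le_two
  have h2 := mul_pos h0 (c.g_pos a)
  have h3 := c.g7 a
  have h4 := c.adm.g_pos c.sm a
  rw [abs_le]
  constructor <;> linarith

theorem coef : |2 / (n * wb h)| ≤ 4 / n := by
  have h0 := c.npos
  have h1 := c.w_half
  rw [abs_of_pos (by positivity), div_le_div_iff₀ (by positivity) h0]
  nlinarith

theorem one_le : 1 ≤ √n * t ^ 215999 := by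
  have h1 := c.adm.big
  have e : (n : ℝ) * t ^ 431998 = (√n * t ^ 215999) ^ 2 := by
    rw [mul_pow, Real.sq_sqrt (Nat.cast_nonneg n), ← pow_mul]
  rw [e] at h1
  exact (one_le_sq_iff₀ (mul_nonneg (Real.sqrt_nonneg _) (c.sm.p0 _).le)).1 h1

theorem froV : fro (VW h h * S.Nis O) ≤ √n * t ^ 142980 := by
  have p := pwSm c.sm
  have r0 : (0 : ℝ) ≤ √n := Real.sqrt_nonneg _
  have e : VW h h = diagonal (fun i => dv h i - wb h) +
      (2 / (n * wb h)) • vecMulVec (tm h) (mu h h) := by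
    simp only [VW, Db, ddt, if_true, dv]
  have b1 : fro (diagonal (fun i => dv h i - wb h) * S.Nis O) ≤ √n * t ^ 142999 * t⁻¹ ^ 12 := by
    refine (fro_diag_mul _ (c.sm.i0 12).le fun i => ?_).trans
      (mul_le_mul_of_nonneg_right (nv_le_of_sq (c.sm.p0 _).le c.sqV) (c.sm.i0 12).le)
    refine le_trans (le_of_eq ?_) (sq_le_of_nv_le (c.row i))
    refine Finset.sum_congr rfl fun j _ => ?_
    rw [mulVec_single_one, Matrix.col_apply, ← transpose_apply (S.Nis O) j i, S.Nis_tr]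
  have b2 : fro (vecMulVec (tm h) (mu h h) * S.Nis O) ≤ t⁻¹ ^ 144001 * (n * t ^ 143998) := by
    refine (fro_mul_r (c.sm.i0 _).le (c.adm.opLe_Nis c.sm O) _).trans
      (mul_le_mul_of_nonneg_left ((fro_vv _ _).trans ?_) (c.sm.i0 _).le)
    refine (mul_le_mul c.m c.bmu (nv_nonneg _) (mul_nonneg r0 (c.sm.p0 _).le)).trans (le_of_eq ?_)
    rw [mul_mul_mul_comm, Real.mul_self_sqrt (Nat.cast_nonneg n), ← pow_add]
  have b3 := mul_le_mul c.coef b2 (fro_nonneg _) (by have := c.npos; positivity)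
  have b4 : 4 / n * (t⁻¹ ^ 144001 * (n * t ^ 143998)) = 4 * (t⁻¹ ^ 144001 * t ^ 143998) := by
    have := c.npos
    field_simp
  have q := p.cmul 4 (by norm_num) (by norm_num) (p.mul (p.inv 144001) (p.pow 143998))
  have b5 := mul_le_mul_of_nonneg_left c.one_le q.1
  have b6 := mul_le_mul_of_nonneg_left (p.le_pow (p.add (p.mul (p.pow 142999) (p.inv 12))
    (p.mul q (p.pow 215999))) 142980 (by norm_num)) r0
  rw [e, Matrix.add_mul, Matrix.smul_mul]
  refine (fro_add_le _ _).trans ?_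
  rw [fro_smul]
  linarith

theorem froK : fro (S.Nis O * JO (fun a => (1 - S.ind (t ^ 139200) a) *
    (1 - (wb h)⁻¹ * (z - S.lam a)⁻¹)) O) ≤ √n * t⁻¹ ^ 104401 := by
  have p := pwSm c.sm
  rw [Dat.Nis, JO_mul]
  refine (fro_JO _ O).trans (nv_le_of_sq (c.sm.i0 _).le ?_)
  have b1 : F.sq (fun a => (√(S.z0 - S.lam a))⁻¹ * ((1 - S.ind (t ^ 139200) a) *
      (1 - (wb h)⁻¹ * (z - S.lam a)⁻¹))) ≤
      ∑ a ∈ (S.low (t ^ 139200))ᶜ, 121 * t⁻¹ ^ 139200 * S.g a ^ 2 := by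
    rw [← Finset.univ_inter (S.low (t ^ 139200))ᶜ, ← Finset.sum_ite_mem]
    refine Finset.sum_le_sum fun a _ => ?_
    unfold Dat.ind
    by_cases ha : a ∈ S.low (t ^ 139200)
    · simp [ha]
    · have g0 := c.adm.g_pos c.sm a
      have g1 := c.adm.g_high c.sm (c.sm.p0 139200) ha
      have g2 : (√(S.z0 - S.lam a))⁻¹ ^ 2 = S.g a := by
        rw [inv_pow, Real.sq_sqrt (c.adm.gap_pos c.sm a).le]; rfl
      have g3 := pow_le_pow_left₀ (abs_nonneg _) (c.kap_le a) 2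
      rw [sq_abs] at g3
      beta_reduce
      rw [if_neg ha, if_pos (Finset.mem_compl.2 ha), sub_zero, one_mul, mul_pow, g2, inv_pow]
      have g4 := mul_le_mul g1 g3 (sq_nonneg _) (g0.le.trans g1)
      linarith
  have b2 : ∑ a ∈ (S.low (t ^ 139200))ᶜ, S.g a ^ 2 ≤ n * (L * t⁻¹ ^ 69600) := by
    have h1 := mul_le_mul_of_nonneg_left c.adm.trhi (c.sm.i0 69600).le
    have h2 := c.sm.ip_eq 69600 0
    rw [add_zero, pow_zero] at h2
    rw [← mul_assoc, h2, one_mul] at h1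
    linarith
  rw [← Finset.mul_sum] at b1
  have q := p.cmul 121 (by norm_num) (by norm_num) (p.inv 139200)
  have b3 := mul_le_mul_of_nonneg_left b2 q.1
  have b4 := mul_le_mul_of_nonneg_left
    (p.le_inv (p.mul q (p.mul p.cL (p.inv 69600))) 208802 (by norm_num)) c.npos.le
  rw [← pow_mul, show 104401 * 2 = 208802 by norm_num]
  linarith

theorem sumK : ∑ a, |S.ind (t ^ 139200) a * (1 - (wb h)⁻¹ * (z - S.lam a)⁻¹)| ≤
    n * (11 * (L * t ^ 69600)) := by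
  have b1 : ∑ a, |S.ind (t ^ 139200) a * (1 - (wb h)⁻¹ * (z - S.lam a)⁻¹)| ≤
      ∑ a ∈ S.low (t ^ 139200), 11 * S.g a := by
    rw [← Finset.univ_inter (S.low (t ^ 139200)), ← Finset.sum_ite_mem]
    refine Finset.sum_le_sum fun a _ => ?_
    unfold Dat.ind
    by_cases ha : a ∈ S.low (t ^ 139200)
    · rw [if_pos ha, if_pos ha, one_mul]
      exact c.kap_le a
    · simp [ha]
  rw [← Finset.mul_sum] at b1
  linarith [c.adm.trlo]

theorem nv_a : nv ((2 / T2b (S.J O) z z) • (G0 (S.J O) z *ᵥ (tm h - 0)) - (2 / (n * wb h)) • tm h) ≤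
    t⁻¹ ^ 144010 / n * (√n * t ^ 71999) := by
  have p := pwSm c.sm
  have n0 := c.npos
  have b0 : |2 / T2b (S.J O) z z| ≤ 8 * L * t ^ 144000 / n := by
    have e : T2b (S.J O) z z = T2 (S.J O) z := rfl
    rw [e, abs_of_pos (div_pos two_pos c.T2_pos), div_le_div_iff₀ c.T2_pos n0]
    linarith [c.n_le_T2]
  have i0 : 0 ≤ 2 * t⁻¹ ^ 288001 := by have := c.sm.i0 288001; positivity
  have b1 := (c.opG.nv_le i0 (tm h)).trans (mul_le_mul_of_nonneg_left c.m i0)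
  have q := p.mul (p.cmul 8 (by norm_num) (by norm_num) p.cL) (p.pow 144000)
  have b2 := mul_le_mul b0 b1 (nv_nonneg _) (div_nonneg q.1 n0.le)
  have b3 := mul_le_mul c.coef c.m (nv_nonneg _) (by positivity)
  have b4 := p.le_inv (p.add (p.mul q (p.cmul 2 (by norm_num) (by norm_num) (p.inv 288001)))
    (p.num 4 (by norm_num) (by norm_num))) 144010 (by norm_num)
  have r0 : 0 ≤ √n * t ^ 71999 := mul_nonneg (Real.sqrt_nonneg _) (c.sm.p0 _).le
  have b5 := mul_le_mul_of_nonneg_right (div_le_div_of_nonneg_right b4 n0.le) r0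
  rw [sub_zero]
  refine (nv_sub_le _ _).trans ?_
  rw [nv_smul, nv_smul]
  refine (add_le_add b2 b3).trans (le_trans (le_of_eq ?_) b5)
  ring

theorem tr : |(Gam (S.J O) h z).trace - n| ≤ n / 10 := by
  have p := pwSm c.sm
  have n0 := c.npos
  have r0 : (0 : ℝ) ≤ √n := Real.sqrt_nonneg _
  have rr : √(n : ℝ) * √n = n := Real.mul_self_sqrt n0.le
  have eK : Kt (S.J O) h z =
      JO (fun a => S.ind (t ^ 139200) a * (1 - (wb h)⁻¹ * (z - S.lam a)⁻¹)) O +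
      JO (fun a => (1 - S.ind (t ^ 139200) a) * (1 - (wb h)⁻¹ * (z - S.lam a)⁻¹)) O := by
    rw [Kt, c.G_eq, JO_smul, one_sub_JO, JO_add]
    congr 1
    funext a
    ring
  have eM : Mp (S.J O) h h z z 0 * Gam (S.J O) h z = G0 (S.J O) z := by
    rw [c.mp, Gam, Matrix.mul_assoc, Matrix.mul_nonsing_inv _ c.unit, Matrix.mul_one]
  rw [Mp, eK] at eM
  have b := trace_core eM (c.adm.Nis_mul_Nsq c.sm O) (c.adm.Nsq_mul_Nis c.sm O) (S.Nis_tr O)
    (JO_comm _ _ _) (c.sm.i0 30).le (c.sm.i0 100).le c.bX c.gam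
  rw [T1A.trace_of_res2 c.adm.npos c.res] at b
  have i1 := (c.sm.i0 100).le
  have i2 := (c.sm.i0 144001).le
  have hN := c.adm.opLe_Nis c.sm O
  have a1 := mul_le_mul_of_nonneg_right c.sumK (mul_nonneg (c.sm.i0 30).le i1)
  have a2 := mul_le_mul c.froK (mul_le_mul_of_nonneg_left c.froV i1)
    (mul_nonneg i1 (fro_nonneg _)) (mul_nonneg r0 (c.sm.i0 _).le)
  have a3 := (hN.nv_le i2 _).trans (mul_le_mul_of_nonneg_left c.bmu i2)
  have a4 := (hN.nv_le i2 _).trans (mul_le_mul_of_nonneg_left c.nv_a i2)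
  have a5 := mul_le_mul a3 (mul_le_mul_of_nonneg_left a4 i1) (mul_nonneg i1 (nv_nonneg _))
    (mul_nonneg i2 (mul_nonneg r0 (c.sm.p0 _).le))
  have s1 := mul_le_mul_of_nonneg_left (p.small (p.mul (p.cmul 11 (by norm_num) (by norm_num)
    (p.mul p.cL (p.pow 69600))) (p.mul (p.inv 30) (p.inv 100))) (by norm_num)) n0.le
  have s2 := mul_le_mul_of_nonneg_left (p.small (p.mul (p.inv 104401)
    (p.mul (p.inv 100) (p.pow 142980))) (by norm_num)) n0.le
  have q := p.mul (p.mul (p.inv 144001) (p.pow 71999))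
    (p.mul (p.inv 100) (p.mul (p.inv 144001) (p.mul (p.inv 144010) (p.pow 71999))))
  have s3 := mul_le_mul_of_nonneg_left (p.small (p.mul q (p.pow 431998)) (by norm_num)) n0.le
  have s4 := mul_le_mul_of_nonneg_left c.adm.big q.1
  have e2 : √n * t⁻¹ ^ 104401 * (t⁻¹ ^ 100 * (√n * t ^ 142980)) =
      √n * √n * (t⁻¹ ^ 104401 * (t⁻¹ ^ 100 * t ^ 142980)) := by ac_rfl
  have e3 : t⁻¹ ^ 144001 * (√n * t ^ 71999) *
      (t⁻¹ ^ 100 * (t⁻¹ ^ 144001 * (t⁻¹ ^ 144010 / n * (√n * t ^ 71999)))) =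
      √n * √n * (n : ℝ)⁻¹ * (t⁻¹ ^ 144001 * t ^ 71999 *
        (t⁻¹ ^ 100 * (t⁻¹ ^ 144001 * (t⁻¹ ^ 144010 * t ^ 71999)))) := by
    rw [div_eq_mul_inv]; ac_rfl
  rw [e2, rr] at a2
  rw [e3, rr, mul_inv_cancel₀ n0.ne', one_mul] at a5
  rw [mul_assoc] at a1
  rw [mul_one, mul_left_comm] at s4
  have b1 : |wb h * (Gam (S.J O) h z).trace - n * wb h| ≤ n / 20 := by linarith
  rw [mul_comm (n : ℝ), ← mul_sub, abs_mul, abs_of_pos (by linarith [c.w_half])] at b1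
  nlinarith [c.w_half, abs_nonneg ((Gam (S.J O) h z).trace - n)]

theorem gd : Gd (t⁻¹ ^ 300000) (t⁻¹ ^ 200) (t⁻¹ ^ 144300) (S.J O) h z :=
  ⟨c.unit, c.bGam, c.dg, c.tg, c.tr⟩

theorem lz {h' : Vec n} {z' : ℝ} (c' : Cx L t S O h' z') :
    |z - z'| ≤ t⁻¹ ^ 300000 * |wb h - wb h'| := by
  have n0 := c.npos
  have e1 := T1A.trace_G0_sub c.pt.uN c'.pt.uN
  rw [T1A.trace_of_res2 c.adm.npos c.res, T1A.trace_of_res2 c.adm.npos c'.res] at e1
  have b1 : (n : ℝ) ≤ 196 * T1A.T2b (S.J O) z z' := by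
    rw [T1A.T2b, c.G_eq, c'.G_eq, JO_mul, trace_JO, Finset.mul_sum]
    refine le_trans (by simp) (Finset.sum_le_sum (f := fun _ => (1 : ℝ)) fun a _ => ?_)
    have h1 : 1 / 14 ≤ (z - S.lam a)⁻¹ := by linarith [c.le_g a, c.g7 a]
    have h2 : 1 / 14 ≤ (z' - S.lam a)⁻¹ := by linarith [c'.le_g a, c.g7 a]
    have := mul_le_mul h1 h2 (by norm_num) (c.g_pos a).le
    linarith
  have e2 : n * |wb h - wb h'| = |z - z'| * T1A.T2b (S.J O) z z' := by
    rw [← abs_of_pos n0, ← abs_mul, mul_sub, e1, abs_mul, abs_sub_comm,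
      abs_of_pos (a := T1A.T2b _ _ _) (by linarith)]
  have b2 : |z - z'| ≤ 196 * |wb h - wb h'| := by
    refine le_of_mul_le_mul_left ?_ n0
    nlinarith [abs_nonneg (z - z')]
  have b3 := c.sm.ci (C := 196) (by norm_num) (a := 0) (b := 300000) (by norm_num)
  rw [pow_zero, mul_one] at b3
  exact b2.trans (mul_le_mul_of_nonneg_right b3 (abs_nonneg _))

end Cx

/-- **[KB-det]** from the deterministic statements of T1 -/
theorem kbDet_of (hZ : ZStmt) (h1 : D1Stmt) (h2 : D2Stmt) (h4 : D4Stmt) (h6 : D6Stmt) :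
    KBDetStmt := by
  refine ((((ev_sm.and hZ).and h2).and h4).and h6).mono ?_
  rintro L t - ⟨⟨⟨⟨hs, hZ⟩, h2⟩, h4⟩, h6⟩ n S O hA hG
  have p := pwSm hs
  have r0 : (0 : ℝ) ≤ √n := Real.sqrt_nonneg _
  have out := h6 n S O hA hG
  have hW := strW_of hs hG
  obtain ⟨e2, e5, d4⟩ := h4 n S O _ hA hW
  have c2 : √n * (2 * t ^ 280000) ≤ √n * t ^ 252000 :=
    mul_le_mul_of_nonneg_left (hs.cp (by norm_num) (by norm_num)) r0
  have hI : ∀ A : Finset (Fin n), (A.card : ℝ) ≤ n * t ^ 360000 → OpLe (S.IA O A) (t⁻¹ ^ 12) :=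
    fun A hc => (op_two (hs.p0 _).le (hs.i0 _).le (e5 A hc) (hW.str.e5 A hc)).monoN
      (add_pos (hs.p0 _) (hs.i0 _)).le (p.le_inv (p.add (p.pow 4000) (p.inv 11)) 12 (by norm_num))
  have key : ∀ h : Vec n, nv (h - S.hc t O) ≤ √n * t ^ 252000 / 2 →
      Cx L t S O h (zh (S.J O) h) := by
    intro h hh
    have r1 : 0 ≤ √n * t ^ 252000 := mul_nonneg r0 (hs.p0 _).le
    have hb : Ball t (S.J O) (S.y O) h := by
      have a1 := nv_sub_triangle h (S.hc t O) (S.h O 3)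
      have a2 := hG.base.clp
      rw [nv_sub_comm] at a2
      show nv (h - S.h O 3) ≤ _
      linarith
    have hr := out.reg h hb
    obtain ⟨d1, d2, d3, d4', -⟩ := h2 n S O h h 0 0 hA hr hr le_rfl (by rw [nv_zero, mul_zero])
    obtain ⟨z1, z2, -⟩ := (hZ n S O hA).2.2.2.2.2.2 h (d1.trans (hs.pw (by norm_num)))
    obtain ⟨k1, d, k2, k3, k4⟩ := d4 h h (by linarith) (by linarith)
    have k5 := hI _ (k1.trans (mul_le_mul_of_nonneg_left (hs.pw (by norm_num)) (Nat.cast_nonneg n)))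
    refine ⟨hs, hA, d1, d2, d3, d4', hr.cub, z2, out.unit h hb, out.gam h hb, out.gm h hb,
      fun i => ?_, ?_, (h1 n (S.J O) 0 h h _ _ hA.npos z1 z1 z2 z2).2.2.2.2.2.2⟩
    · have a1 := (hI {i} (by
        rw [Finset.card_singleton, Nat.cast_one]
        exact hA.big.trans (mul_le_mul_of_nonneg_left (hs.pw (by norm_num))
          (Nat.cast_nonneg n)))).nv_le (hs.i0 _).le (Pi.single i 1)
      rwa [Dat.IA, ← mulVec_mulVec, res_single, nv_single, mul_one] at a1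
    · have i12 := (hs.i0 12).le
      have a1 := op_blocks (hs.p0 _).le (hs.i0 _).le (hs.i0 _).le (hs.p0 _).le hW.str.e1 hW.str.e3
        hW.str.e3' e2
      have a2 := (k5.mulN (op_diagonal zero_le_one k2) i12 zero_le_one).mulN (opT i12 k5)
        (by positivity) i12
      have q1 := p.add (p.add (p.add (p.pow 3900) (p.inv 11)) (p.inv 11)) (p.pow 4000)
      have q2 := p.mul (p.mul (p.inv 12) (Pw.Sm.of_le_one zero_le_one le_rfl)) (p.inv 12)
      have a3 := (a1.add a2 q1.1 q2.1).add k4 (add_nonneg q1.1 q2.1) (hs.p0 _).le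
      have q3 := p.add (p.add q1 q2) (p.pow 4000)
      have e : S.Nis O * VW h h * S.Nis O = S.X0 O (S.hc t O) +
          S.IA O (spk (t ^ 71999) h h) * diagonal d * (S.IA O (spk (t ^ 71999) h h))ᵀ +
          S.Nis O * (VW h h - VW (S.hc t O) (S.hc t O) - diagonal d) * S.Nis O := by
        have e' : S.IA O (spk (t ^ 71999) h h) * diagonal d * (S.IA O (spk (t ^ 71999) h h))ᵀ =
            S.Nis O * diagonal d * S.Nis O := by
          conv_rhs => rw [← res_diag k3]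
          rw [Dat.IA_tr, Dat.IA]
          simp only [Matrix.mul_assoc]
        rw [e', Dat.X0]
        noncomm_ring
      rw [e]
      exact a3.monoN q3.1 (p.le_inv q3 30 (by norm_num))
  refine ⟨fun h hh => ⟨(key h hh).pt, (key h hh).gd⟩,
    fun h h' hh hh' => (key h hh).lz (key h' hh'), fun j => ?_⟩
  have a1 := nv_sub_triangle (S.h O (j + 3)) (S.h O 3) (S.hc t O)
  have a2 : √n * (4 * t ^ 260000) ≤ √n * t ^ 252000 :=
    mul_le_mul_of_nonneg_left (hs.cp (by norm_num) (by norm_num)) r0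
  have a3 : √n * t ^ 280000 ≤ √n * t ^ 260000 :=
    mul_le_mul_of_nonneg_left (hs.pw (by norm_num)) r0
  linarith [out.stay j, hG.base.clp]

end Vale.Agent.N150.KBD
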