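import Vale.Agent.N150.KBT1Def
import Vale.Agent.N150.ECAux

set_option linter.all false

/-! The source bound on the fibre of the base program of T1: fibre plumbing. -/

namespace Vale.Agent.N150.KBT

open Matrix MeasureTheory Set Filter Topology
open Vale.Agent.P150 Vale.Agent.P150.F Vale.Agent.P150.F.Ms
open Vale.Agent.N150.EC Vale.Agent.N150.T1 Vale.Agent.N150.Fib Vale.Agent.N150.KB
open Vale.Agent.N150.Sp (JO)
open Vale.Agent.N150.Wd (fr RI)

variable {n : ℕ}

/-! ### invariance under conjugation -/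

theorem Nm_fr (J : Mat n) (U : OG n) (z : ℝ) : Nm (fr J U) z = fr (Nm J z) U := by
  unfold Nm fr
  rw [Matrix.mul_sub, Matrix.sub_mul, Matrix.mul_smul, Matrix.mul_one, Matrix.smul_mul,
    OG.transpose_mul]

theorem inv_fr (A : Mat n) (U : OG n) : (fr A U)⁻¹ = fr A⁻¹ U := by
  unfold fr
  rw [Matrix.mul_inv_rev, Matrix.mul_inv_rev, Matrix.inv_eq_left_inv (OG.transpose_mul U),
    Matrix.inv_eq_left_inv (OG.mul_transpose U), Matrix.mul_assoc]

theorem G0_fr (J : Mat n) (U : OG n) (z : ℝ) : G0 (fr J U) z = fr (G0 J z) U := by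
  unfold G0
  rw [Nm_fr, inv_fr]

theorem trace_fr (A : Mat n) (U : OG n) : (fr A U).trace = A.trace := by
  unfold fr
  rw [trace_mul_comm, ← Matrix.mul_assoc, OG.mul_transpose, Matrix.one_mul]

theorem fr_fr (A : Mat n) (O U : OG n) : fr (fr A O) U = fr A (O * U) := by
  unfold fr
  rw [OG.coe_mul, transpose_mul]
  simp only [Matrix.mul_assoc]

theorem fr_one (A : Mat n) : fr A 1 = A := by
  unfold fr
  simp

theorem posDef_fr {A : Mat n} (h : A.PosDef) (U : OG n) : (fr A U).PosDef := by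
  have h1 := h.conjTranspose_mul_mul_same (B := U.1) (fun a b hab => by
    have h2 := congrArg (fun v => U.1ᵀ *ᵥ v) hab
    simpa only [Matrix.mulVec_mulVec, OG.transpose_mul, Matrix.one_mulVec] using h2)
  rwa [conjTranspose_eq_transpose_of_trivial] at h1

theorem posDef_fr_iff (A : Mat n) (U : OG n) : (fr A U).PosDef ↔ A.PosDef := by
  refine ⟨fun h => ?_, fun h => posDef_fr h U⟩
  have h1 := posDef_fr h U⁻¹
  rwa [fr_fr, mul_inv_cancel, fr_one] at h1

theorem zr_fr (J : Mat n) (U : OG n) (τ : ℝ) : zr (fr J U) τ = zr J τ := by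
  unfold zr
  simp only [Nm_fr, posDef_fr_iff, G0_fr, trace_fr]

theorem zh_fr (J : Mat n) (U : OG n) (h : Vec n) : zh (fr J U) h = zh J h := zr_fr J U _

theorem zs_fr (J : Mat n) (U : OG n) (y : Vec n) : zs (fr J U) (U.1ᵀ *ᵥ y) = zs J y := by
  unfold zs
  have e : ∀ z, F.sq (G0 (fr J U) z *ᵥ (U.1ᵀ *ᵥ y)) = F.sq (G0 J z *ᵥ y) := by
    intro z
    rw [G0_fr]
    unfold fr
    rw [Matrix.mulVec_mulVec, Matrix.mul_assoc, OG.mul_transpose, Matrix.mul_one,
      ← Matrix.mulVec_mulVec]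
    refine sq_mulVec_orth ?_ _
    rw [transpose_transpose, OG.mul_transpose]
  simp only [e]
  simp only [Nm_fr, posDef_fr_iff, G0_fr, trace_fr]

theorem J_eq (S : Dat n) (O : OG n) : S.J O = fr (diagonal S.lam) O := rfl

theorem J_mul (S : Dat n) (O U : OG n) : fr (S.J O) U = S.J (O * U) := fr_fr _ O U

theorem opLe_fr {A : Mat n} {c : ℝ} (h : OpLe A c) (U : OG n) : OpLe (fr A U) c := by
  intro v
  unfold fr
  have e1 : F.sq ((U.1ᵀ * A * U.1) *ᵥ v) = F.sq (A *ᵥ (U.1 *ᵥ v)) := by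
    rw [← Matrix.mulVec_mulVec, ← Matrix.mulVec_mulVec]
    refine sq_mulVec_orth ?_ _
    rw [transpose_transpose, OG.mul_transpose]
  have e2 : F.sq (U.1 *ᵥ v) = F.sq v := sq_mulVec_orth (OG.transpose_mul U) v
  have h1 := h (U.1 *ᵥ v)
  rw [e2] at h1
  exact e1.le.trans h1

theorem fr_symm {A : Mat n} (h : Aᵀ = A) (U : OG n) : (fr A U)ᵀ = fr A U := by
  unfold fr
  rw [transpose_mul, transpose_mul, transpose_transpose, h, Matrix.mul_assoc]

/-! ### measurability in the frame -/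

theorem measurable_zr (J : Mat n) : Measurable (zr J) := by
  rcases Nat.eq_zero_or_pos n with h0 | h0
  · subst h0
    have e : zr J = fun _ => 0 := by
      funext τ
      unfold zr
      by_cases hτ : 0 ≤ τ
      · refine Real.sInf_of_not_bddBelow ?_
        have e2 : {z | (Nm J z).PosDef ∧ (G0 J z).trace ≤ τ} = univ := by
          refine eq_univ_of_forall fun z => ⟨?_, by simpa [Matrix.trace] using hτ⟩
          rw [Subsingleton.elim (Nm J z) 1]
          exact Matrix.PosDef.one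
        rw [e2]
        exact not_bddBelow_univ
      · have e2 : {z | (Nm J z).PosDef ∧ (G0 J z).trace ≤ τ} = ∅ :=
          eq_empty_of_forall_notMem fun z hz => hτ (by simpa [Matrix.trace] using hz.2)
        rw [e2, Real.sInf_empty]
    rw [e]
    exact measurable_const
  have hb : ∀ τ, BddBelow {z | (Nm J z).PosDef ∧ (G0 J z).trace ≤ τ} := by
    intro τ
    refine ⟨J ⟨0, h0⟩ ⟨0, h0⟩, fun z hz => ?_⟩
    have h1 := hz.1.diag_pos (i := ⟨0, h0⟩)
    unfold Nm at h1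
    simp only [Matrix.sub_apply, Matrix.smul_apply, Matrix.one_apply_eq, smul_eq_mul,
      mul_one] at h1
    linarith
  set U : Set ℝ := {τ | {z | (Nm J z).PosDef ∧ (G0 J z).trace ≤ τ}.Nonempty} with hU
  have hUm : MeasurableSet U := by
    refine OrdConnected.measurableSet ⟨fun a ha b _ c hc => ?_⟩
    obtain ⟨z, hz⟩ := ha
    exact ⟨z, hz.1, hz.2.trans hc.1⟩
  refine measurable_of_restrict_of_restrict_compl hUm ?_ ?_
  · refine Antitone.measurable fun a b hab => ?_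
    exact csInf_le_csInf (hb _) a.2 fun z hz => ⟨hz.1, hz.2.trans hab⟩
  · have e : Uᶜ.restrict (zr J) = fun _ => 0 := by
      funext τ
      have h1 : {z | (Nm J z).PosDef ∧ (G0 J z).trace ≤ τ.1} = ∅ := not_nonempty_iff_eq_empty.1 τ.2
      show zr J τ.1 = 0
      unfold zr
      rw [h1, Real.sInf_empty]
    show Measurable (Uᶜ.restrict (zr J))
    rw [e]
    exact measurable_const

theorem mm_fr (A : Mat n) : MMat fun O : OG n => fr A O :=
  mm_mul (mm_mul (mm_transpose mm_val) (MMat.const A)) mm_val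

theorem mm_J (S : Dat n) : MMat S.J := mm_fr _

theorem mv_y (S : Dat n) : MVec S.y := (mm_transpose mm_val).mulVec (MVec.const _)

theorem ms_zh (S : Dat n) {hs : OG n → Vec n} (h : MVec hs) :
    Measurable fun O => zh (S.J O) (hs O) := by
  have e : (fun O => zh (S.J O) (hs O)) = fun O => zr (diagonal S.lam) (∑ i, dv (hs O) i) :=
    funext fun O => zr_fr _ O _
  rw [e]
  exact (measurable_zr _).comp (Finset.measurable_fun_sum _ fun i _ => mv_dv h i)

theorem mv_h (S : Dat n) (j : ℕ) : MVec fun O => S.h O j := by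
  have hz : Measurable fun O => zs (S.J O) (S.y O) := by
    have e : (fun O => zs (S.J O) (S.y O)) = fun _ => zs (diagonal S.lam) S.yt :=
      funext fun O => zs_fr _ O _
    rw [e]
    exact measurable_const
  have hG : MMat fun O => G00 (S.J O) (S.y O) := mm_G0 (mm_J S) hz
  have h0' : MVec fun O => h0 (S.J O) (S.y O) := hG.mulVec (mv_y S)
  have hA : MMat fun O => AA (S.J O) (S.y O) :=
    mm_add (MMat.smul ((mm_trace hG).div_const _) (MMat.const 1))
      (MMat.smul (measurable_const.div (ms_T2 (mm_J S) hz)) (mm_vecMulVec (hG.mulVec h0') h0'))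
  induction j with
  | zero => exact h0'
  | succ j ih =>
    have e : (fun O => S.h O (j + 1)) = fun O => Pic (S.J O) (S.y O) (S.h O j) :=
      funext fun O => Function.iterate_succ_apply' _ _ _
    rw [e]
    have h1 := ms_zh S ih
    exact ih.sub ((mm_inv hA).mulVec ((mm_G0 (mm_J S) h1).mulVec (mv_res1 (mm_J S) (mv_y S) ih h1)))

/-! ### the bound -/

/-- **[KB-sel]** the source at any measurable selection of points near the reference point -/
def KBSelStmt : Prop := ∃ C p : ℕ, Ev fun L t => ∀ (n : ℕ) (S : Dat n) (x xt : Vec n)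
  (μ : Measure (OG n)) (Qt : Mat n) (hs : OG n → Vec n), Adm L t S → AdmX L t S xt →
  FibL μ x xt → Qtᵀ = Qt → OpLe Qt t⁻¹ → Measurable hs →
  (∀ O, Good t S O → nv (hs O - S.hc t O) ≤ √n * t ^ 252000 / 2) →
    μ.real {O | ¬ (Good t S O ∧
      nv (k0 (S.J O) (hs O) (zh (S.J O) (hs O)) (fr Qt O)) ≤ t⁻¹ ^ p)} ≤
      (n : ℝ) ^ C * Real.exp (-(n * t ^ 431998))

theorem one_fibre {p : ℕ}
    (hKB : ∀ (n : ℕ) (B B1 B2 : ℝ) (P J Q : Mat n) (μ : Measure (OG n))
      [IsProbabilityMeasure μ] (G : Set (OG n)) (T : Set (Vec n × ℝ)), Fam B B1 B2 P J Q μ G T →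
      μ.real {O | O ∈ G ∧ ∃ t ∈ T, B ^ p < nv (k0 (fr J O) t.1 t.2 (fr Q O))} ≤ Real.exp (-(n : ℝ)))
    {B B1 B2 ρ : ℝ} (S : Dat n) {P Qt : Mat n} (hP : IsProj P) (hQ : Qtᵀ = Qt) (hQb : OpLe Qt B)
    (hB : 12 ≤ B) (h1 : 1 ≤ B1) (h1B : B1 ≤ B) (h2 : 0 ≤ B2) (h2B : B2 ≤ B) (hn : B ≤ n)
    (h28 : (28 : ℝ) ≤ n) {Bad : Set (OG n)} (hBad : MeasurableSet Bad) (O : OG n)
    (hsm : (haarP P).real {U | O * U ∈ Bad} < ((n : ℝ) ^ 700)⁻¹)
    {c hs : OG n → Vec n} (hc : ∀ U ∈ HG P, c (O * U) = c O)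
    (htr : ∀ U ∈ HG P, O * U ∉ Bad → (n : ℝ) - 12 ≤ P.trace)
    (hd : ∀ O', O' ∉ Bad → (∀ h : Vec n, nv (h - c O') ≤ ρ →
        Pt B B1 B2 (S.J O') h (zh (S.J O') h) ∧ Gd B B1 B2 (S.J O') h (zh (S.J O') h)) ∧
      (∀ h h' : Vec n, nv (h - c O') ≤ ρ → nv (h' - c O') ≤ ρ →
        |zh (S.J O') h - zh (S.J O') h'| ≤ B * |wb h - wb h'|) ∧ nv (hs O' - c O') ≤ ρ) :
    (haarP P).real {U | O * U ∉ Bad ∧ B ^ p <
      nv (k0 (S.J (O * U)) (hs (O * U)) (zh (S.J (O * U)) (hs (O * U))) (fr Qt (O * U)))}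
      ≤ Real.exp (-(n : ℝ)) := by
  have hI := invOn_haarP P
  have := hI.prob
  have hn1 : (1 : ℝ) ≤ n := by linarith
  have hsm1 : ((n : ℝ) ^ 700)⁻¹ ≤ 1 := inv_le_one_of_one_le₀ (one_le_pow₀ hn1)
  -- a good base point
  obtain ⟨U0, hU0, hU0B⟩ : ∃ U0 ∈ SG P, O * U0 ∉ Bad := by
    by_contra hcon
    push Not at hcon
    have h3 : (haarP P).real {U | O * U ∈ Bad} = 1 := by
      have h4 : {U | O * U ∈ Bad} =ᵐ[haarP P] (univ : Set (OG n)) := by
        filter_upwards [hI.ae] with U hU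
        exact propext ⟨fun _ => trivial, fun _ => hcon U hU⟩
      rw [measureReal_congr h4, probReal_univ]
    linarith
  set O' := O * U0 with hO'
  have hcO : ∀ U ∈ HG P, c (O' * U) = c O' := by
    intro U hU
    rw [hO', mul_assoc, hc _ ((HG P).mul_mem (SG_le_HG hU0) hU), hc _ (SG_le_HG hU0)]
  have hsh : ∀ A : Set (OG n), (haarP P).real {U | O' * U ∈ A} = (haarP P).real {U | O * U ∈ A} := by
    intro A
    have h3 := hI.meas_left hU0 {U | O * U ∈ A}
    simp only [measureReal_def]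
    rw [← h3]
    simp only [mem_ofPred_eq, hO', mul_assoc]
  set G : Set (OG n) := {U | U ∈ HG P ∧ O' * U ∉ Bad} with hG
  set T : Set (Vec n × ℝ) := {t | nv (t.1 - c O') ≤ ρ ∧ t.2 = zh (S.J O') t.1} with hT
  have htrP := htr U0 (SG_le_HG hU0) hU0B
  have hae : ∀ᵐ U ∂haarP P, U ∈ HG P := by
    filter_upwards [hI.ae] with U hU using SG_le_HG hU
  have hfam : Fam B B1 B2 P (S.J O') (fr Qt O') (haarP P) G T :=
    { cs :=
        { hB := by linarith, h1 := h1, h1B := h1B, h2 := h2, h2B := h2B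
          npos := by exact_mod_cast (by linarith : (0 : ℝ) < n)
          hP := hP.symm, hPP := hP.idem, trP := by linarith
          hJ := fr_symm (diagonal_transpose _) O', hQ := fr_symm hQ O', bQ := opLe_fr hQb O' }
      hn := hn
      ri := RI.haarP P
      conc := (conc_haarP hP.symm hP.idem (by linarith)).mono (by linarith)
      meas := (isClosed_HG P).measurableSet.inter (measurable_const_mul O' hBad.compl)
      small := by
        have h4 : Gᶜ =ᵐ[haarP P] {U | O' * U ∈ Bad} := by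
          filter_upwards [hae] with U hU
          refine propext ⟨fun h => ?_, fun h h' => h'.2 h⟩
          by_contra h5
          exact h ⟨hU, h5⟩
        exact ((measureReal_congr h4).trans (hsh Bad)).le.trans hsm.le
      pt := by
        rintro ⟨h, z⟩ ⟨ht1, ht2⟩
        simp only at ht1 ht2
        subst ht2
        exact ((hd O' hU0B).1 h ht1).1
      lz := by
        rintro ⟨h, z⟩ ⟨ht1, ht2⟩ ⟨h', z'⟩ ⟨ht3, ht4⟩
        simp only at ht1 ht2 ht3 ht4
        subst ht2 ht4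
        exact (hd O' hU0B).2.1 h h' ht1 ht3
      gd := by
        rintro U ⟨hU, hUB⟩ ⟨h, z⟩ ⟨ht1, ht2⟩
        simp only at ht1 ht2
        subst ht2
        have h5 := ((hd _ hUB).1 h (by rw [hcO U hU]; exact ht1)).2
        rw [← J_mul, zh_fr] at h5
        exact h5 }
  have hmain := hKB n B B1 B2 P (S.J O') (fr Qt O') (haarP P) G T hfam
  have e := hsh {V | V ∉ Bad ∧ B ^ p < nv (k0 (S.J V) (hs V) (zh (S.J V) (hs V)) (fr Qt V))}
  refine le_trans (le_of_eq e.symm) (le_trans ?_ hmain)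
  refine ENNReal.toReal_mono (measure_ne_top _ _) (measure_mono_ae ?_)
  filter_upwards [hae] with U hU hm
  refine ⟨⟨hU, hm.1⟩, (hs (O' * U), zh (S.J O') (hs (O' * U))), ⟨?_, rfl⟩, ?_⟩
  · have h5 := (hd _ hm.1).2.2
    rwa [hcO U hU] at h5
  · have h5 := hm.2
    rw [← J_mul, zh_fr, ← fr_fr] at h5
    exact h5

theorem kbSel_of (hKB : KBStmt) (hD : KBDetStmt) (hX : X3Stmt) (hT : T1Stmt) : KBSelStmt := by
  obtain ⟨p, hKB⟩ := hKB
  obtain ⟨C1, hX⟩ := hX
  obtain ⟨C2, hT⟩ := hT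
  refine ⟨C1 + C2 + 703, 300000 * p, fun L hL => ?_⟩
  have ht2 : ∀ᶠ t in 𝓝[>] (0 : ℝ), t ∈ Ioo (0 : ℝ) (1 / 28) := Ioo_mem_nhdsGT (by norm_num)
  filter_upwards [hD L hL, hX L hL, hT L hL, ht2] with t hD hX hT ht n S x xt μ Qt hs hA hAX hF
    hQ hQb hsm hnear
  have := hF.prob
  obtain ⟨ht0, ht1⟩ := ht
  have hti : 28 ≤ t⁻¹ := by
    rw [le_inv_comm₀ (by norm_num) ht0]
    linarith
  have hti1 : 1 ≤ t⁻¹ := by linarith
  have hpw : ∀ a b : ℕ, a ≤ b → t⁻¹ ^ a ≤ t⁻¹ ^ b := fun a b h => pow_le_pow_right₀ hti1 h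
  have hn : t⁻¹ ^ 431998 ≤ n := by
    have h1 := hA.big
    rw [inv_pow, inv_le_iff_one_le_mul₀ (pow_pos ht0 _)]
    exact h1
  have h28 : ∀ a : ℕ, 1 ≤ a → 28 ≤ t⁻¹ ^ a := fun a h => by
    have h1 := hpw 1 a h
    rw [pow_one] at h1
    linarith
  have hn28 : (28 : ℝ) ≤ n := (h28 _ (by norm_num)).trans hn
  have hn1 : (1 : ℝ) ≤ n := by linarith
  obtain ⟨P, E, F', hE, hX3⟩ := hX n S x xt μ hA hAX hF
  have hT1 := hT n S x xt μ hA hAX hF
  set θ : ℝ := Real.exp (-(n * t ^ 431998)) with hθ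
  have hθ0 : 0 < θ := Real.exp_pos _
  set Bad0 : Set (OG n) := {O | ¬(Base t S O ∧ BS t S O x (E O) (F' O) (S.hc t O))} ∪
    {O | ¬Good t S O} with hBad0
  set Bad := toMeasurable μ Bad0 with hBad
  have hBm : MeasurableSet Bad := measurableSet_toMeasurable μ _
  have hBr : μ.real Bad ≤ ((n : ℝ) ^ C1 + (n : ℝ) ^ C2) * θ := by
    have h1 : μ.real Bad = μ.real Bad0 := by
      simp only [measureReal_def, hBad, measure_toMeasurable]
    rw [h1, add_mul]
    exact (measureReal_union_le _ _).trans (add_le_add hX3 hT1)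
  have hgood : ∀ O, O ∉ Bad → Good t S O ∧ BS t S O x (E O) (F' O) (S.hc t O) := by
    intro O hO
    have h1 : O ∉ Bad0 := fun h => hO (subset_toMeasurable μ _ h)
    rw [hBad0, mem_union, not_or] at h1
    exact ⟨not_not.1 h1.2, (not_not.1 h1.1).2⟩
  have hd0 : (0 : ℝ) < ((n : ℝ) ^ 700)⁻¹ := by positivity
  have hmk := hE.explo.markov_real famP hBm hd0
  set Ev' : Set (OG n) := {O | O ∉ Bad ∧ (t⁻¹ ^ 300000) ^ p <
    nv (k0 (S.J O) (hs O) (zh (S.J O) (hs O)) (fr Qt O))} with hEv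
  have hEm : MeasurableSet Ev' := by
    have h1 := mvec_of hsm
    exact hBm.compl.inter (measurableSet_lt measurable_const
      (mv_k0 (mm_J S) h1 (ms_zh S h1) (mm_fr Qt)).nv)
  have hEr := hE.explo.real_le_add famP
    (A := {O | ((n : ℝ) ^ 700)⁻¹ ≤ (haarP (P O)).real {U | O * U ∈ Bad}}) hEm
    (Real.exp_pos (-(n : ℝ))).le (fun O hO => by
      refine one_fibre hKB (B1 := t⁻¹ ^ 200) (B2 := t⁻¹ ^ 144300) (ρ := √n * t ^ 252000 / 2)
        (c := S.hc t) S (hE.explo.proj O) hQ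
        (hQb.monoN (by positivity) (by simpa using hpw 1 300000 (by norm_num)))
        (by linarith [h28 300000 (by norm_num)]) (one_le_pow₀ hti1) (hpw _ _ (by norm_num))
        (by positivity) (hpw _ _ (by norm_num)) ((hpw _ _ (by norm_num)).trans hn) hn28 hBm O
        (not_le.1 hO) (fun U hU => hE.ah O U hU) (fun U hU hB => ?_) (fun O' hO' => ?_)
      · have h1 := (hgood _ hB).2.tr
        have h2 := congrArg Matrix.trace (hE.sum (O * U))
        rw [trace_add, trace_sub, trace_one, Fintype.card_fin, hE.explo.adapted O U hU] at h2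
        linarith
      · have h1 := hD n S O' hA (hgood _ hO').1
        exact ⟨h1.1, h1.2.1, hnear O' (hgood _ hO').1⟩)
  have hsub : {O | ¬ (Good t S O ∧
      nv (k0 (S.J O) (hs O) (zh (S.J O) (hs O)) (fr Qt O)) ≤ t⁻¹ ^ (300000 * p))} ⊆ Ev' ∪ Bad := by
    intro O hO
    by_cases hB : O ∈ Bad
    · exact Or.inr hB
    · refine Or.inl ⟨hB, ?_⟩
      rw [← pow_mul]
      by_contra h1
      exact hO ⟨(hgood O hB).1, not_lt.1 h1⟩
  have he : Real.exp (-(n : ℝ)) ≤ θ := by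
    refine Real.exp_le_exp.2 (neg_le_neg ?_)
    exact mul_le_of_le_one_right (by positivity) (pow_le_one₀ ht0.le (by linarith))
  have h5 := (measureReal_mono (μ := μ) hsub (measure_ne_top _ _)).trans
    (measureReal_union_le _ _)
  rw [div_inv_eq_mul] at hmk
  have hp1 : ∀ a b : ℕ, a ≤ b → (n : ℝ) ^ a ≤ (n : ℝ) ^ b := fun a b h => pow_le_pow_right₀ hn1 h
  set X : ℝ := (n : ℝ) ^ (C1 + C2) with hX'
  have hX1 : 1 ≤ X := one_le_pow₀ hn1
  have h6 : μ.real Bad ≤ 2 * X * θ := by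
    refine hBr.trans (mul_le_mul_of_nonneg_right ?_ hθ0.le)
    linarith [hp1 C1 (C1 + C2) (by omega), hp1 C2 (C1 + C2) (by omega)]
  set Y : ℝ := (n : ℝ) ^ 700 with hY
  have hY1 : 1 ≤ Y := one_le_pow₀ hn1
  have h7 := mul_le_mul_of_nonneg_right h6 (by linarith : 0 ≤ Y)
  have h8 : (n : ℝ) ^ (C1 + C2 + 703) = X * Y * (n : ℝ) ^ 3 := by
    rw [hX', hY, ← pow_add, ← pow_add]
  have h9 : (5 : ℝ) ≤ (n : ℝ) ^ 3 := by
    have := hp1 1 3 (by norm_num)
    rw [pow_one] at this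
    linarith
  have hXθ : θ ≤ X * θ := le_mul_of_one_le_left hθ0.le hX1
  have hXYθ : X * θ ≤ X * θ * Y := le_mul_of_one_le_right (by positivity) hY1
  have h10 := mul_le_mul_of_nonneg_left h9 (by positivity : 0 ≤ X * θ * Y)
  rw [h8]
  linarith

/-- **[KB-T1]** -/
theorem kbT1_of (hKB : KBStmt) (hD : KBDetStmt) (hX : X3Stmt) (hT : T1Stmt) : KBT1Stmt := by
  obtain ⟨C, p, h⟩ := kbSel_of hKB hD hX hT
  refine ⟨C, p, fun L hL => ?_⟩
  filter_upwards [h L hL, hD L hL] with t h hD n S x xt μ Qt j hA hAX hF hQ hQb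
  have := hF.prob
  have h2 := h n S x xt μ Qt (fun O => S.h O (j + 3)) hA hAX hF hQ hQb
    (mv_h S (j + 3)).measurable fun O hO => (hD n S O hA hO).2.2 j
  refine le_trans (measureReal_mono ?_ (measure_ne_top _ _)) h2
  intro O hO h1
  exact absurd h1.2 (not_le.2 hO)

end Vale.Agent.N150.KBT
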