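import Vale.Agent.N150.Ward

/-! A calculus of matrix families which are bounded in operator norm and Lipschitz in Frobenius
norm on a good set. -/

namespace Vale.Agent.N150.KB.Ch

open Matrix MeasureTheory Set
open Vale.Agent.P150 Vale.Agent.P150.F
open Vale.Agent.N150.Haar (fro fro_nonneg fro_add_le fro_neg fro_smul fro_transpose fro_zero
  fro_sq')
open Vale.Agent.N150.Wd (fr Ga Gm)

variable {n : ℕ}

/-! ### operator norm against Frobenius norm -/

theorem opT {A : Mat n} {C : ℝ} (hC : 0 ≤ C) (h : OpLe A C) : OpLe Aᵀ C := by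
  refine opLe_of_nv fun v => ?_
  have h1 : F.sq (Aᵀ *ᵥ v) = ip v (A *ᵥ (Aᵀ *ᵥ v)) := by
    have e : ip v (A *ᵥ (Aᵀ *ᵥ v)) = v ⬝ᵥ (A *ᵥ (Aᵀ *ᵥ v)) := rfl
    rw [e, Matrix.dotProduct_mulVec, ← Matrix.mulVec_transpose, ← ipN_self]; rfl
  have h2 := (ip_le v (A *ᵥ (Aᵀ *ᵥ v))).trans
    (mul_le_mul_of_nonneg_left (h.nv_le hC _) (nv_nonneg v))
  rw [← h1, ← nv_sq] at h2
  rcases (nv_nonneg (Aᵀ *ᵥ v)).eq_or_lt with h0 | h0
  · rw [← h0]; exact mul_nonneg hC (nv_nonneg v)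
  · exact le_of_mul_le_mul_right (by nlinarith) h0

theorem opNeg {A : Mat n} {C : ℝ} (h : OpLe A C) : OpLe (-A) C := fun v => by
  rw [Matrix.neg_mulVec, ← nv_sq, nv_neg, nv_sq]; exact h v

theorem fro_le_of_sq {X : Mat n} {C : ℝ} (hC : 0 ≤ C) (h : ∑ i, ∑ j, X i j ^ 2 ≤ C ^ 2) :
    fro X ≤ C := Real.sqrt_le_iff.2 ⟨hC, h⟩

theorem fro_mul_l {A : Mat n} {C : ℝ} (hC : 0 ≤ C) (h : OpLe A C) (X : Mat n) :
    fro (A * X) ≤ C * fro X := by
  refine fro_le_of_sq (mul_nonneg hC (fro_nonneg _)) ?_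
  rw [mul_pow, fro_sq', Finset.sum_comm, Finset.sum_comm (f := fun i j => X i j ^ 2),
    Finset.mul_sum]
  exact Finset.sum_le_sum fun j _ => h fun i => X i j

theorem fro_mul_r {A : Mat n} {C : ℝ} (hC : 0 ≤ C) (h : OpLe A C) (X : Mat n) :
    fro (X * A) ≤ C * fro X := by
  rw [← fro_transpose, transpose_mul, ← fro_transpose X]
  exact fro_mul_l hC (opT hC h) _

theorem fro_one : fro (1 : Mat n) = √n := by
  have h := Haar.fro_orth (1 : OG n)
  rwa [OG.coe_one, Fintype.card_fin] at h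

theorem fro_le_op {A : Mat n} {C : ℝ} (hC : 0 ≤ C) (h : OpLe A C) : fro A ≤ C * √n := by
  have := fro_mul_l hC h 1
  rwa [mul_one, fro_one] at this

theorem op_of_fro (A : Mat n) : OpLe A (fro A) := fun v => by
  rw [fro_sq', Finset.sum_mul]
  exact Finset.sum_le_sum fun i _ => Finset.sum_mul_sq_le_sq_mul_sq Finset.univ (A i) v

theorem nv_diag_le (X : Mat n) : nv X.diag ≤ fro X := by
  refine nv_le_of_sq_le (fro_nonneg _) ?_
  rw [fro_sq']
  exact Finset.sum_le_sum fun i _ =>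
    Finset.single_le_sum (f := fun j => X i j ^ 2) (fun _ _ => sq_nonneg _) (Finset.mem_univ i)

theorem abs_sum_le (v : Vec n) : |∑ i, v i| ≤ √n * nv v := by
  have h := abs_ip_le (fun _ => (1 : ℝ)) v
  have h1 : nv (fun _ : Fin n => (1 : ℝ)) ≤ 1 * √n := nv_le_sqrt zero_le_one fun _ => by simp
  simp only [ip, one_mul] at h h1
  exact h.trans (mul_le_mul_of_nonneg_right h1 (nv_nonneg _))

theorem abs_trace_le_diag (X : Mat n) : |X.trace| ≤ √n * nv X.diag := abs_sum_le _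

theorem abs_trace_le_fro (X : Mat n) : |X.trace| ≤ √n * fro X :=
  (abs_trace_le_diag X).trans (mul_le_mul_of_nonneg_left (nv_diag_le X) (Real.sqrt_nonneg _))

theorem abs_entry_op {A : Mat n} {C : ℝ} (hC : 0 ≤ C) (h : OpLe A C) (i j : Fin n) :
    |A i j| ≤ C := by
  have h1 := (abs_le_nv _ i).trans (h.nv_le hC (Pi.single j 1))
  have h2 : nv (Pi.single j (1 : ℝ) : Vec n) = 1 := by
    rw [nv_eq_sqrt, F.sq, Finset.sum_eq_single j] <;> simp +contextual
  rw [h2, mul_one, Matrix.mulVec_single_one] at h1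
  exact h1

theorem abs_trace_op {A : Mat n} {C : ℝ} (hC : 0 ≤ C) (h : OpLe A C) : |A.trace| ≤ n * C := by
  refine (Finset.abs_sum_le_sum_abs _ _).trans ?_
  calc _ ≤ ∑ _i : Fin n, C := Finset.sum_le_sum fun i _ => abs_entry_op hC h i i
    _ = n * C := by simp

theorem op_smul_one {a C : ℝ} (h : |a| ≤ C) : OpLe (a • (1 : Mat n)) C := by
  have := (opLe_one (n := n)).smul zero_le_one a
  rw [mul_one] at this
  exact this.monoN (abs_nonneg _) h

theorem op_diagonal {d : Vec n} {C : ℝ} (hC : 0 ≤ C) (h : ∀ i, |d i| ≤ C) :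
    OpLe (diagonal d) C := by
  refine opLe_of_nv fun v => nv_le_mul hC fun i => ?_
  rw [Matrix.mulVec_diagonal, abs_mul]
  exact mul_le_mul_of_nonneg_right (h i) (abs_nonneg _)

theorem op_orth (O : OG n) : OpLe O.1 1 := fun v => by
  have e : F.sq (O.1 *ᵥ v) = (O.1 *ᵥ v) ⬝ᵥ (O.1 *ᵥ v) := by rw [← ipN_self]; rfl
  rw [e, Matrix.dotProduct_mulVec, ← Matrix.mulVec_transpose, Matrix.mulVec_mulVec,
    Haar.OG.tr_mul, Matrix.one_mulVec, one_pow, one_mul, ← ipN_self]
  exact le_rfl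

theorem op_fr {R : Mat n} {b : ℝ} (hb : 0 ≤ b) (h : OpLe R b) (O : OG n) : OpLe (fr R O) b := by
  have := ((opT zero_le_one (op_orth O)).mulN h zero_le_one hb).mulN (op_orth O)
    (by positivity) zero_le_one
  rwa [one_mul, mul_one] at this

/-! ### one matrix function -/

/-- operator norm at most `a` on `G`, and `a`-Lipschitz in Frobenius norm -/
structure OL (G : Set (OG n)) (a : ℝ) (M : OG n → Mat n) : Prop where
  nn : 0 ≤ a
  op : ∀ U ∈ G, OpLe (M U) a
  lip : ∀ U ∈ G, ∀ V ∈ G, fro (M U - M V) ≤ a * dO U V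

namespace OL

variable {G : Set (OG n)} {a b : ℝ} {M N : OG n → Mat n}

theorem mono (h : OL G a M) (hab : a ≤ b) : OL G b M :=
  ⟨h.nn.trans hab, fun U hU => (h.op U hU).monoN h.nn hab, fun U hU V hV =>
    (h.lip U hU V hV).trans (mul_le_mul_of_nonneg_right hab (dO_nonneg _ _))⟩

theorem congr (h : OL G a M) (e : ∀ U ∈ G, N U = M U) : OL G a N :=
  ⟨h.nn, fun U hU => e U hU ▸ h.op U hU, fun U hU V hV => by
    rw [e U hU, e V hV]; exact h.lip U hU V hV⟩

theorem const (G : Set (OG n)) (ha : 0 ≤ a) {A : Mat n} (h : OpLe A a) : OL G a fun _ => A :=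
  ⟨ha, fun _ _ => h, fun U _ V _ => by
    rw [sub_self, fro_zero]; exact mul_nonneg ha (dO_nonneg _ _)⟩

theorem frame (G : Set (OG n)) (ha : 0 ≤ a) {R : Mat n} (h : OpLe R a) :
    OL G (2 * a) (fr R) := by
  refine ⟨by positivity, fun U _ => (op_fr ha h U).monoN ha (by linarith), fun U _ V _ => ?_⟩
  have e : fr R U - fr R V = (U.1 - V.1)ᵀ * (R * U.1) + V.1ᵀ * R * (U.1 - V.1) := by
    simp only [fr, transpose_sub, sub_mul, mul_sub, mul_assoc]; abel
  have h1 := fro_mul_r (mul_nonneg ha zero_le_one) (h.mulN (op_orth U) ha zero_le_one)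
    (U.1 - V.1)ᵀ
  have h2 := fro_mul_l (mul_nonneg zero_le_one ha)
    ((opT zero_le_one (op_orth V)).mulN h zero_le_one ha) (U.1 - V.1)
  rw [fro_transpose] at h1
  rw [e, dO]
  linarith [fro_add_le ((U.1 - V.1)ᵀ * (R * U.1)) (V.1ᵀ * R * (U.1 - V.1))]

theorem add (h : OL G a M) (h' : OL G b N) : OL G (a + b) fun U => M U + N U := by
  refine ⟨add_nonneg h.nn h'.nn, fun U hU => (h.op U hU).add (h'.op U hU) h.nn h'.nn,
    fun U hU V hV => ?_⟩
  rw [add_sub_add_comm, add_mul]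
  exact (fro_add_le _ _).trans (add_le_add (h.lip U hU V hV) (h'.lip U hU V hV))

theorem neg (h : OL G a M) : OL G a fun U => -M U :=
  ⟨h.nn, fun U hU => opNeg (h.op U hU), fun U hU V hV => by
    rw [← neg_sub', fro_neg]; exact h.lip U hU V hV⟩

theorem sub (h : OL G a M) (h' : OL G b N) : OL G (a + b) fun U => M U - N U :=
  (h.add h'.neg).congr fun _ _ => sub_eq_add_neg _ _

theorem transpose (h : OL G a M) : OL G a fun U => (M U)ᵀ :=
  ⟨h.nn, fun U hU => opT h.nn (h.op U hU), fun U hU V hV => by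
    rw [← transpose_sub, fro_transpose]; exact h.lip U hU V hV⟩

theorem mul (h : OL G a M) (h' : OL G b N) : OL G (2 * a * b) fun U => M U * N U := by
  have ha := h.nn
  have hb := h'.nn
  refine ⟨by positivity, fun U hU => ((h.op U hU).mulN (h'.op U hU) ha hb).monoN (by positivity)
    (by nlinarith [mul_nonneg ha hb]), fun U hU V hV => ?_⟩
  have e : M U * N U - M V * N V = (M U - M V) * N U + M V * (N U - N V) := by
    rw [sub_mul, mul_sub]; abel
  have h1 := (fro_mul_r hb (h'.op U hU) (M U - M V)).trans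
    (mul_le_mul_of_nonneg_left (h.lip U hU V hV) hb)
  have h2 := (fro_mul_l ha (h.op V hV) (N U - N V)).trans
    (mul_le_mul_of_nonneg_left (h'.lip U hU V hV) ha)
  rw [e]
  linarith [fro_add_le ((M U - M V) * N U) (M V * (N U - N V))]

theorem smul (h : OL G a M) {c : ℝ} (hc : |c| ≤ b) : OL G (b * a) fun U => c • M U := by
  have ha := h.nn
  have hb := (abs_nonneg c).trans hc
  refine ⟨by positivity, fun U hU => ((h.op U hU).smul ha c).monoN (by positivity)
    (mul_le_mul_of_nonneg_right hc ha), fun U hU V hV => ?_⟩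
  rw [← smul_sub, fro_smul, mul_assoc]
  exact mul_le_mul hc (h.lip U hU V hV) (fro_nonneg _) hb

theorem inv_sub {A B : Mat n} (hA : IsUnit A.det) (hB : IsUnit B.det) :
    A⁻¹ - B⁻¹ = -(A⁻¹ * (A - B) * B⁻¹) := by
  rw [mul_sub, sub_mul, Matrix.nonsing_inv_mul _ hA, one_mul, mul_assoc,
    Matrix.mul_nonsing_inv _ hB, mul_one, neg_sub]

theorem inv (h : OL G a M) (ha : 1 ≤ a) (hb : 1 ≤ b) (hu : ∀ U ∈ G, IsUnit (M U).det)
    (hi : ∀ U ∈ G, OpLe (M U)⁻¹ b) : OL G (b ^ 2 * a) fun U => (M U)⁻¹ := by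
  have hb0 : 0 ≤ b := by linarith
  refine ⟨by positivity, fun U hU => (hi U hU).monoN hb0 (by nlinarith [mul_le_mul hb ha]),
    fun U hU V hV => ?_⟩
  rw [inv_sub (hu U hU) (hu V hV), fro_neg]
  have h1 := (fro_mul_l hb0 (hi U hU) (M U - M V)).trans
    (mul_le_mul_of_nonneg_left (h.lip U hU V hV) hb0)
  refine (fro_mul_r hb0 (hi V hV) _).trans ((mul_le_mul_of_nonneg_left h1 hb0).trans (le_of_eq ?_))
  ring

theorem trn (h : OL G a M) : OL G a fun U => ((M U).trace / n) • (1 : Mat n) := by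
  rcases Nat.eq_zero_or_pos n with rfl | hn
  · exact h.congr fun _ _ => Subsingleton.elim _ _
  have hn' : (0 : ℝ) < n := by exact_mod_cast hn
  refine ⟨h.nn, fun U hU => op_smul_one ?_, fun U hU V hV => ?_⟩
  · rw [abs_div, abs_of_pos hn', div_le_iff₀' hn']
    exact abs_trace_op h.nn (h.op U hU)
  · rw [← sub_smul, fro_smul, fro_one, ← sub_div, ← trace_sub, abs_div, abs_of_pos hn']
    refine le_trans ?_ (h.lip U hU V hV)
    rw [div_mul_eq_mul_div, div_le_iff₀ hn']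
    have h1 := mul_le_mul_of_nonneg_right (abs_trace_le_fro (M U - M V)) (Real.sqrt_nonneg n)
    have h2 := Real.mul_self_sqrt hn'.le
    refine h1.trans (le_of_eq ?_)
    linear_combination fro (M U - M V) * h2

/-- the diagonal part -/
theorem dgp (h : OL G a M) : OL G a fun U => diagonal (M U).diag := by
  refine ⟨h.nn, fun U hU => op_diagonal h.nn fun i => abs_entry_op h.nn (h.op U hU) i i,
    fun U hU V hV => le_trans ?_ (h.lip U hU V hV)⟩
  refine fro_le_of_sq (fro_nonneg _) ?_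
  rw [fro_sq']
  refine Finset.sum_le_sum fun i _ => Finset.sum_le_sum fun j _ => ?_
  by_cases hij : i = j
  · subst hij; simp
  · simp [hij, sq_nonneg]

end OL

/-! ### families of matrix functions -/

variable {T : Type*}

/-- a family whose increments in the parameter are controlled by `ρ` -/
structure CL (G : Set (OG n)) (ρ : T → T → ℝ) (B : ℝ) (M : T → OG n → Mat n) : Prop where
  one : 1 ≤ B
  pt : ∀ t, OL G B (M t)
  inc : ∀ t s, OL G (B * ρ t s) fun U => M t U - M s U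

namespace CL

variable {G : Set (OG n)} {ρ : T → T → ℝ} {B B' : ℝ} {M N : T → OG n → Mat n}

theorem rho (h : CL G ρ B M) (t s : T) : 0 ≤ ρ t s :=
  nonneg_of_mul_nonneg_right (h.inc t s).nn (zero_lt_one.trans_le h.one)

theorem mono (h : CL G ρ B M) (hB : B ≤ B') : CL G ρ B' M :=
  ⟨h.one.trans hB, fun t => (h.pt t).mono hB, fun t s =>
    (h.inc t s).mono (mul_le_mul_of_nonneg_right hB (h.rho t s))⟩

theorem congr (h : CL G ρ B M) (e : ∀ t, ∀ U ∈ G, N t U = M t U) : CL G ρ B N :=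
  ⟨h.one, fun t => (h.pt t).congr (e t), fun t s =>
    (h.inc t s).congr fun U hU => by rw [e t U hU, e s U hU]⟩

theorem const (G : Set (OG n)) (hρ : ∀ t s, 0 ≤ ρ t s) (hB : 1 ≤ B) {A : T → Mat n}
    (h : ∀ t, OpLe (A t) B) (hd : ∀ t s, OpLe (A t - A s) (B * ρ t s)) :
    CL G ρ B fun t _ => A t :=
  ⟨hB, fun t => .const G (by linarith) (h t), fun t s =>
    .const G (mul_nonneg (by linarith) (hρ t s)) (hd t s)⟩

theorem fix (G : Set (OG n)) (hρ : ∀ t s, 0 ≤ ρ t s) (hB : 1 ≤ B) {A : Mat n} (h : OpLe A B) :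
    CL G ρ B fun _ _ => A :=
  const G hρ hB (fun _ => h) fun t s => by
    rw [sub_self]; exact opLe_zero.monoN le_rfl (mul_nonneg (by linarith) (hρ t s))

theorem diag (G : Set (OG n)) (hρ : ∀ t s, 0 ≤ ρ t s) (hB : 1 ≤ B) {d : T → Vec n}
    (h : ∀ t i, |d t i| ≤ B) (hd : ∀ t s i, |d t i - d s i| ≤ B * ρ t s) :
    CL G ρ B fun t _ => diagonal (d t) :=
  const G hρ hB (fun t => op_diagonal (by linarith) (h t)) fun t s => by
    rw [diagonal_sub]; exact op_diagonal (mul_nonneg (by linarith) (hρ t s)) (hd t s)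

theorem frame (G : Set (OG n)) (hρ : ∀ t s, 0 ≤ ρ t s) (hB : 1 ≤ B) {R : T → Mat n}
    (h : ∀ t, OpLe (R t) B) (hd : ∀ t s, OpLe (R t - R s) (B * ρ t s)) :
    CL G ρ (2 * B) fun t => fr (R t) := by
  refine ⟨by linarith, fun t => .frame G (by linarith) (h t), fun t s => ?_⟩
  rw [mul_assoc]
  exact (OL.frame G (mul_nonneg (by linarith) (hρ t s)) (hd t s)).congr fun U _ => by
    simp only [fr, mul_sub, sub_mul]

theorem frame_fix (G : Set (OG n)) (hρ : ∀ t s, 0 ≤ ρ t s) (hB : 1 ≤ B) {R : Mat n}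
    (h : OpLe R B) : CL G ρ (2 * B) fun _ => fr R :=
  frame G hρ hB (fun _ => h) fun t s => by
    rw [sub_self]; exact opLe_zero.monoN le_rfl (mul_nonneg (by linarith) (hρ t s))

theorem add (h : CL G ρ B M) (h' : CL G ρ B' N) : CL G ρ (B + B') fun t U => M t U + N t U :=
  ⟨by linarith [h.one, h'.one], fun t => (h.pt t).add (h'.pt t), fun t s => by
    rw [add_mul]
    exact ((h.inc t s).add (h'.inc t s)).congr fun _ _ => add_sub_add_comm _ _ _ _⟩

theorem neg (h : CL G ρ B M) : CL G ρ B fun t U => -M t U :=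
  ⟨h.one, fun t => (h.pt t).neg, fun t s => (h.inc t s).neg.congr fun _ _ => (neg_sub' _ _).symm⟩

theorem sub (h : CL G ρ B M) (h' : CL G ρ B' N) : CL G ρ (B + B') fun t U => M t U - N t U :=
  (h.add h'.neg).congr fun _ _ _ => sub_eq_add_neg _ _

theorem transpose (h : CL G ρ B M) : CL G ρ B fun t U => (M t U)ᵀ :=
  ⟨h.one, fun t => (h.pt t).transpose, fun t s =>
    (h.inc t s).transpose.congr fun _ _ => (transpose_sub _ _).symm⟩

theorem mul (h : CL G ρ B M) (h' : CL G ρ B' N) :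
    CL G ρ (4 * B * B') fun t U => M t U * N t U := by
  have h1 := h.one
  have h2 := h'.one
  have h3 : 1 ≤ B * B' := one_le_mul_of_one_le_of_one_le h1 h2
  refine ⟨by linarith, fun t => ((h.pt t).mul (h'.pt t)).mono (by linarith), fun t s => ?_⟩
  refine ((((h.inc t s).mul (h'.pt t)).add ((h.pt s).mul (h'.inc t s))).mono
    (le_of_eq (by ring))).congr fun U _ => ?_
  rw [sub_mul, mul_sub]; abel

theorem smul (h : CL G ρ B M) {c : ℝ} (hB : 1 ≤ B') (hc : |c| ≤ B') :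
    CL G ρ (B' * B) fun t U => c • M t U :=
  ⟨one_le_mul_of_one_le_of_one_le hB h.one, fun t => (h.pt t).smul hc, fun t s => by
    rw [mul_assoc]
    exact ((h.inc t s).smul hc).congr fun _ _ => (smul_sub _ _ _).symm⟩

theorem inv (h : CL G ρ B M) (hb : 1 ≤ B') (hu : ∀ t, ∀ U ∈ G, IsUnit (M t U).det)
    (hi : ∀ t, ∀ U ∈ G, OpLe (M t U)⁻¹ B') :
    CL G ρ (4 * B' ^ 4 * B ^ 3) fun t U => (M t U)⁻¹ := by
  have h1 := h.one
  have hp := fun t => (h.pt t).inv h1 hb (hu t) (hi t)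
  have h2 : 1 ≤ B' ^ 2 * B := one_le_mul_of_one_le_of_one_le (one_le_pow₀ hb) h1
  have h3 : 1 ≤ B' ^ 2 * B * B := one_le_mul_of_one_le_of_one_le h2 h1
  have h4 : B' ^ 2 * B ≤ 4 * B' ^ 4 * B ^ 3 := by nlinarith
  refine ⟨h2.trans h4, fun t => (hp t).mono h4, fun t s => ?_⟩
  refine (((((hp t).mul (h.inc t s)).mul (hp s)).neg).mono (le_of_eq (by ring))).congr
    fun U hU => OL.inv_sub (hu t U hU) (hu s U hU)

theorem trn (h : CL G ρ B M) : CL G ρ B fun t U => ((M t U).trace / n) • (1 : Mat n) :=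
  ⟨h.one, fun t => (h.pt t).trn, fun t s => (h.inc t s).trn.congr fun _ _ => by
    rw [← sub_smul, ← sub_div, trace_sub]⟩

theorem dgp (h : CL G ρ B M) : CL G ρ B fun t U => diagonal (M t U).diag :=
  ⟨h.one, fun t => (h.pt t).dgp, fun t s => (h.inc t s).dgp.congr fun _ _ => by
    rw [diagonal_sub]; rfl⟩

/-- the resolvent `Γ = (1 + (Oᵀ A O + C) D)⁻¹` -/
theorem ga {A C D : T → Mat n} (hA : CL G ρ B fun t => fr (A t)) (hC : CL G ρ B fun t _ => C t)
    (hD : CL G ρ B fun t _ => D t) (hb : 1 ≤ B')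
    (hu : ∀ t, ∀ U ∈ G, IsUnit (1 + (fr (A t) U + C t) * D t).det)
    (hi : ∀ t, ∀ U ∈ G, OpLe (Ga (A t) (C t) (D t) U) B') :
    CL G ρ (2916 * B' ^ 4 * B ^ 6) fun t => Ga (A t) (C t) (D t) := by
  have h1 := hA.one
  have h2 : CL G ρ (9 * B ^ 2) fun t U => 1 + (fr (A t) U + C t) * D t :=
    ((fix G hA.rho le_rfl opLe_one).add ((hA.add hC).mul hD)).mono (by nlinarith)
  exact (h2.inv hb hu hi).mono (le_of_eq (by ring))

end CL

/-- scalar families -/
def SL (G : Set (OG n)) (ρ : T → T → ℝ) (B : ℝ) (a : T → OG n → ℝ) : Prop :=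
  CL G ρ B fun t U => a t U • (1 : Mat n)

namespace SL

variable {G : Set (OG n)} {ρ : T → T → ℝ} {B B' : ℝ} {a b : T → OG n → ℝ}
  {M : T → OG n → Mat n}

theorem mono (h : SL G ρ B a) (hB : B ≤ B') : SL G ρ B' a := CL.mono h hB

theorem congr (h : SL G ρ B a) (e : ∀ t, ∀ U ∈ G, b t U = a t U) : SL G ρ B b :=
  CL.congr h fun t U hU => by rw [e t U hU]

theorem const (G : Set (OG n)) (hρ : ∀ t s, 0 ≤ ρ t s) (hB : 1 ≤ B) {c : T → ℝ}
    (h : ∀ t, |c t| ≤ B) (hd : ∀ t s, |c t - c s| ≤ B * ρ t s) : SL G ρ B fun t _ => c t :=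
  CL.const G hρ hB (fun t => op_smul_one (h t)) fun t s => by
    rw [← sub_smul]; exact op_smul_one (hd t s)

theorem trn (h : CL G ρ B M) : SL G ρ B fun t U => (M t U).trace / n := h.trn

theorem add (h : SL G ρ B a) (h' : SL G ρ B' b) : SL G ρ (B + B') fun t U => a t U + b t U :=
  (CL.add h h').congr fun _ _ _ => add_smul _ _ _

theorem sub (h : SL G ρ B a) (h' : SL G ρ B' b) : SL G ρ (B + B') fun t U => a t U - b t U :=
  (CL.sub h h').congr fun _ _ _ => sub_smul _ _ _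

theorem neg (h : SL G ρ B a) : SL G ρ B fun t U => -a t U :=
  (CL.neg h).congr fun _ _ _ => neg_smul _ _

theorem smul (h : SL G ρ B a) (h' : CL G ρ B' M) :
    CL G ρ (4 * B * B') fun t U => a t U • M t U :=
  (CL.mul h h').congr fun _ _ _ => by rw [smul_mul_assoc, one_mul]

theorem mul (h : SL G ρ B a) (h' : SL G ρ B' b) :
    SL G ρ (4 * B * B') fun t U => a t U * b t U :=
  (h.smul h').congr fun _ _ _ => mul_smul _ _ _

theorem inv (h : SL G ρ B a) (hb : 1 ≤ B') (hi : ∀ t, ∀ U ∈ G, 1 ≤ B' * |a t U|) :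
    SL G ρ (4 * B' ^ 4 * B ^ 3) fun t U => (a t U)⁻¹ := by
  have h0 : ∀ t, ∀ U ∈ G, a t U ≠ 0 := fun t U hU e => by
    have := hi t U hU
    rw [e, abs_zero, mul_zero] at this
    linarith
  have e : ∀ t, ∀ U ∈ G, (a t U)⁻¹ • (1 : Mat n) = (a t U • (1 : Mat n))⁻¹ := fun t U hU =>
    (Matrix.inv_eq_left_inv (by
      rw [smul_mul_smul_comm, inv_mul_cancel₀ (h0 t U hU), one_mul, one_smul])).symm
  refine (CL.inv h hb (fun t U hU => ?_) fun t U hU => ?_).congr e
  · rw [det_smul, det_one, mul_one]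
    exact (pow_ne_zero _ (h0 t U hU)).isUnit
  · rw [← e t U hU]
    refine op_smul_one ?_
    rw [abs_inv, inv_le_iff_one_le_mul₀ (abs_pos.2 (h0 t U hU))]
    exact hi t U hU

theorem abs_le (h : SL G ρ B a) (hn : 0 < n) (t : T) {U : OG n} (hU : U ∈ G) : |a t U| ≤ B := by
  have := abs_entry_op (h.pt t).nn ((h.pt t).op U hU) ⟨0, hn⟩ ⟨0, hn⟩
  simpa using this

end SL

end Vale.Agent.N150.KB.Ch
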