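import Vale.Agent.N150.KBDef
import Vale.Agent.N150.KBCal

/-! The Ward identities hold at typical points of the fibre. -/

namespace Vale.Agent.N150.KB

open Matrix MeasureTheory Set
open Vale.Agent.P150 Vale.Agent.P150.F
open Vale.Agent.N150.EC (tm dv wb Nm G0 T2 cc Lm Gam Gm)
open Vale.Agent.N150.Wd (RI fr cm Ok)
open Vale.Agent.N150.Haar (fro fro_nonneg fro_sq')
open Vale.Agent.N150.KB.Ch

variable {n : ℕ}

namespace Ty

/-! ### scalar functions which are bounded and Lipschitz on the good set -/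

/-- bounded by `a`, Lipschitz with constant `b` -/
structure BL (G : Set (OG n)) (a b : ℝ) (f : OG n → ℝ) : Prop where
  bd : ∀ U ∈ G, |f U| ≤ a
  lip : LipO G b f

namespace BL

variable {G : Set (OG n)} {a b a' b' : ℝ} {f g : OG n → ℝ}

theorem mono (h : BL G a b f) (ha : a ≤ a') (hb : b ≤ b') : BL G a' b' f :=
  ⟨fun U hU => (h.bd U hU).trans ha, fun U hU V hV =>
    (h.lip U hU V hV).trans (mul_le_mul_of_nonneg_right hb (dO_nonneg _ _))⟩

theorem add (h : BL G a b f) (h' : BL G a' b' g) : BL G (a + a') (b + b') fun U => f U + g U :=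
  ⟨fun U hU => (abs_add_le _ _).trans (add_le_add (h.bd U hU) (h'.bd U hU)), fun U hU V hV => by
    rw [add_sub_add_comm, add_mul]
    exact (abs_add_le _ _).trans (add_le_add (h.lip U hU V hV) (h'.lip U hU V hV))⟩

theorem sub (h : BL G a b f) (h' : BL G a' b' g) : BL G (a + a') (b + b') fun U => f U - g U :=
  ⟨fun U hU => (abs_sub _ _).trans (add_le_add (h.bd U hU) (h'.bd U hU)), fun U hU V hV => by
    rw [sub_sub_sub_comm, add_mul]
    exact (abs_sub _ _).trans (add_le_add (h.lip U hU V hV) (h'.lip U hU V hV))⟩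

theorem mul (h : BL G a b f) (h' : BL G a' b' g) (hb : 0 ≤ b) :
    BL G (a * a') (b * a' + a * b') fun U => f U * g U := by
  refine ⟨fun U hU => ?_, fun U hU V hV => ?_⟩
  · rw [abs_mul]
    exact mul_le_mul (h.bd U hU) (h'.bd U hU) (abs_nonneg _) ((abs_nonneg _).trans (h.bd U hU))
  · have e : f U * g U - f V * g V = (f U - f V) * g U + f V * (g U - g V) := by ring
    have h1 := mul_le_mul (h.lip U hU V hV) (h'.bd U hU) (abs_nonneg _)
      (mul_nonneg hb (dO_nonneg _ _))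
    have h2 := mul_le_mul (h.bd V hV) (h'.lip U hU V hV) (abs_nonneg _)
      ((abs_nonneg _).trans (h.bd V hV))
    rw [e]
    refine (abs_add_le _ _).trans ?_
    rw [abs_mul, abs_mul]
    linarith

end BL

theorem abs_trace_mul (X W : Mat n) : |(X * W).trace| ≤ fro X * fro W := by
  have e : (X * W).trace = ∑ p : Fin n × Fin n, X p.1 p.2 * W p.2 p.1 := by
    rw [Fintype.sum_prod_type]
    rfl
  have h := Finset.sum_mul_sq_le_sq_mul_sq Finset.univ (fun p : Fin n × Fin n => X p.1 p.2)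
    fun p => W p.2 p.1
  have e1 : ∑ p : Fin n × Fin n, X p.1 p.2 ^ 2 = fro X ^ 2 := by
    rw [fro_sq', Fintype.sum_prod_type]
  have e2 : ∑ p : Fin n × Fin n, W p.2 p.1 ^ 2 = fro W ^ 2 := by
    rw [fro_sq', Fintype.sum_prod_type, Finset.sum_comm]
  rw [← e, e1, e2, ← mul_pow] at h
  exact abs_le_of_sq_le_sq h (mul_nonneg (fro_nonneg _) (fro_nonneg _))

section Traces

variable {G : Set (OG n)} {a w : ℝ} {M A K : OG n → Mat n} {P W : Mat n}

theorem bl_trW (h : OL G a M) (hW : fro W ≤ w) :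
    BL G (a * √n * w) (a * w) fun U => (M U * W).trace := by
  refine ⟨fun U hU => (abs_trace_mul _ _).trans (mul_le_mul (fro_le_op h.nn (h.op U hU)) hW
    (fro_nonneg _) (mul_nonneg h.nn (Real.sqrt_nonneg _))), fun U hU V hV => ?_⟩
  rw [← trace_sub, ← Matrix.sub_mul]
  refine (abs_trace_mul _ _).trans ((mul_le_mul (h.lip U hU V hV) hW (fro_nonneg _)
    (mul_nonneg h.nn (dO_nonneg _ _))).trans (le_of_eq (by ring)))

theorem bl_tr (h : OL G a M) : BL G (a * n) (a * √n) fun U => (M U).trace := by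
  have h1 := bl_trW h (W := 1) fro_one.le
  simp only [Matrix.mul_one] at h1
  rwa [mul_assoc, Real.mul_self_sqrt (Nat.cast_nonneg n)] at h1

theorem bl_cm (hn : (1 : ℝ) ≤ n) (hP : OpLe P 1) (hA : OL G a A) (hK : OL G a K) (hM : OL G a M)
    (hW : fro W ≤ w) :
    BL G (64 * a ^ 3 * (n * w) * √n) (64 * a ^ 3 * (n * w))
      fun U => cm P (A U) (K U) (M U * W) := by
  have p := OL.const G zero_le_one hP
  have t1 := bl_trW (((p.mul (hA.mul hK).transpose).mul p).mul hM) hW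
  have t2 := (bl_tr (p.mul (hA.mul hK))).mul (bl_trW (p.mul hM) hW)
    (by have := hA.nn; positivity)
  have t3 := bl_trW (((p.mul hA.transpose).mul p).mul (hK.mul hM)) hW
  have t4 := (bl_tr (p.mul hA)).mul (bl_trW (p.mul (hK.mul hM)) hW)
    (by have := hA.nn; positivity)
  have h := ((t1.sub t2).sub t3).add t4
  have a0 := hA.nn
  have w0 : 0 ≤ w := (fro_nonneg _).trans hW
  have s0 := Real.sqrt_nonneg (n : ℝ)
  have s2 : √(n : ℝ) * √n = n := Real.mul_self_sqrt (by linarith)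
  have q1 : a ^ 3 * w ≤ a ^ 3 * w * n := le_mul_of_one_le_right (by positivity) hn
  have q2 := mul_le_mul_of_nonneg_right q1 s0
  have q3 : 0 ≤ a ^ 3 * w * n * √n := by positivity
  have q4 : a ^ 3 * w * (√n * √n) = a ^ 3 * w * n := by rw [s2]
  refine ⟨fun U hU => le_trans (le_of_eq ?_) ((h.bd U hU).trans (by linarith)),
    fun U hU V hV => le_trans (le_of_eq ?_) ((h.lip U hU V hV).trans
      (mul_le_mul_of_nonneg_right (by linarith) (dO_nonneg _ _)))⟩
  · simp only [cm, Matrix.mul_assoc]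
  · simp only [cm, Matrix.mul_assoc]

end Traces

/-! ### bounds by powers of `B` -/

section Pow

variable {G : Set (OG n)} {B : ℝ} {j k : ℕ} {M N : OG n → Mat n}

theorem ol_up (hB : 2 ≤ B) (h : OL G (B ^ j) M) (hj : j ≤ k) : OL G (B ^ k) M :=
  h.mono (pow_le_pow_right₀ (by linarith) hj)

theorem two_mul_le (hB : 2 ≤ B) (k : ℕ) : 2 * B ^ k ≤ B ^ (k + 1) := by
  rw [pow_succ']
  exact mul_le_mul_of_nonneg_right hB (by positivity)

theorem ol_mul (hB : 2 ≤ B) (h : OL G (B ^ j) M) (h' : OL G (B ^ k) N) :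
    OL G (B ^ (j + k + 1)) fun U => M U * N U :=
  (h.mul h').mono (by rw [mul_assoc, ← pow_add]; exact two_mul_le hB _)

theorem ol_add (hB : 2 ≤ B) (h : OL G (B ^ k) M) (h' : OL G (B ^ k) N) :
    OL G (B ^ (k + 1)) fun U => M U + N U :=
  (h.add h').mono (by rw [← two_mul]; exact two_mul_le hB _)

theorem ol_fr (hB : 2 ≤ B) (G : Set (OG n)) {R : Mat n} (h : OpLe R (B ^ k)) :
    OL G (B ^ (k + 1)) (fr R) :=
  (OL.frame G (by positivity) h).mono (two_mul_le hB _)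

end Pow

/-- the abstract setting -/
structure Ctx (B : ℝ) (P A C D : Mat n) (μ : Measure (OG n)) (G : Set (OG n)) : Prop where
  hB : 2 ≤ B
  hn : B ≤ n
  ok : Ok P G ((n : ℝ) ^ 4) A C D
  ri : RI P μ
  conc : Conc μ (n / 256)
  meas : MeasurableSet G
  small : μ.real Gᶜ ≤ ((n : ℝ) ^ 700)⁻¹
  oP : OpLe P 1
  oA : OL G (B ^ 3) (fr A)
  oGa : OL G (B ^ 8) (Wd.Ga A C D)
  oGm : OL G (B ^ 9) (Wd.Gm A C D)

theorem fro_K {B : ℝ} (hB : 2 ≤ B) (hn : B ≤ n) {M : Mat n} {k : ℕ} (h : OpLe M (B ^ k))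
    (hk : k ≤ 3) : fro M ≤ (n : ℝ) ^ 4 := by
  have h1 : (1 : ℝ) ≤ n := by linarith
  have h2 : B ^ k ≤ (n : ℝ) ^ 3 :=
    (pow_le_pow_left₀ (by linarith) hn k).trans (pow_le_pow_right₀ h1 hk)
  have h3 : √(n : ℝ) ≤ n := by
    rw [Real.sqrt_le_left (by linarith)]
    nlinarith
  refine (fro_le_op (by positivity) h).trans ?_
  rw [pow_succ]
  exact mul_le_mul h2 h3 (Real.sqrt_nonneg _) (by positivity)

namespace Ctx

variable {B w : ℝ} {P A C D Q R W : Mat n} {μ : Measure (OG n)} [IsProbabilityMeasure μ]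
  {G : Set (OG n)}

omit [IsProbabilityMeasure μ] in
theorem n2 (h : Ctx B P A C D μ G) : (2 : ℝ) ≤ n := h.hB.trans h.hn

omit [IsProbabilityMeasure μ] in
theorem p0 (h : Ctx B P A C D μ G) : 0 < ((n : ℝ) ^ 700)⁻¹ := by
  have := h.n2
  positivity

omit [IsProbabilityMeasure μ] in
theorem p1 (h : Ctx B P A C D μ G) : ((n : ℝ) ^ 700)⁻¹ ≤ 1 :=
  inv_le_one_of_one_le₀ (one_le_pow₀ (by linarith [h.n2]))

omit [IsProbabilityMeasure μ] in
theorem err (h : Ctx B P A C D μ G) {k : ℕ} (hk : k ≤ 80) :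
    ((n : ℝ) ^ 4) ^ k * √((n : ℝ) ^ 700)⁻¹ ≤ 1 := by
  have h1 : (1 : ℝ) ≤ n := by linarith [h.n2]
  rw [Real.sqrt_inv, show (n : ℝ) ^ 700 = ((n : ℝ) ^ 350) ^ 2 by rw [← pow_mul],
    Real.sqrt_sq (by positivity), ← pow_mul, mul_inv_le_iff₀ (by positivity), one_mul]
  exact pow_le_pow_right₀ h1 (by omega)

omit [IsProbabilityMeasure μ] in
theorem cm (h : Ctx B P A C D μ G) {M₁ M₂ M₃ : OG n → Mat n} {i j k : ℕ}
    (h1 : OL G (B ^ i) M₁) (h2 : OL G (B ^ j) M₂) (h3 : OL G (B ^ k) M₃) (hi : i ≤ 25)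
    (hj : j ≤ 25) (hk : k ≤ 25) (hW : fro W ≤ w) :
    BL G (B ^ 81 * (n * w) * √n) (B ^ 81 * (n * w))
      fun U => cm P (M₁ U) (M₂ U) (M₃ U * W) := by
  have hB := h.hB
  have w0 : 0 ≤ w := (fro_nonneg _).trans hW
  have e : 64 * (B ^ 25) ^ 3 ≤ B ^ 81 := by
    rw [← pow_mul, show B ^ 81 = B ^ 6 * B ^ (25 * 3) by rw [← pow_add]]
    refine mul_le_mul_of_nonneg_right ?_ (by positivity)
    calc (64 : ℝ) = 2 ^ 6 := by norm_num
      _ ≤ B ^ 6 := pow_le_pow_left₀ (by norm_num) hB 6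
  have e1 := mul_le_mul_of_nonneg_right e (show 0 ≤ n * w by positivity)
  exact (bl_cm (by linarith [h.n2]) h.oP (ol_up hB h1 hi) (ol_up hB h2 hj) (ol_up hB h3 hk)
    hW).mono (mul_le_mul_of_nonneg_right e1 (Real.sqrt_nonneg _)) e1

theorem tail (h : Ctx B P A C D μ G) (hw : 1 ≤ w) {f : OG n → ℝ} {a b : ℝ} (hf : BL G a b f)
    (ha : a ≤ 4 * (B ^ 81 * (n * w) * √n)) (hb : b ≤ 4 * (B ^ 81 * (n * w)))
    (hm : |∫ U in G, f U ∂μ| ≤ 1) :
    μ.real {U | U ∈ G ∧ B ^ 90 * (n * w) < |f U|} ≤ 1 / 48 := by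
  have hB := h.hB
  have hn := h.n2
  set s := 4 * (B ^ 81 * (n * w)) with hs
  have s1 : 1 ≤ s := by
    have h1 : 1 ≤ B ^ 81 := one_le_pow₀ (by linarith)
    have h2 : 1 ≤ n * w := one_le_mul_of_one_le_of_one_le (by linarith) hw
    linarith [one_le_mul_of_one_le_of_one_le h1 h2]
  have hf' : BL G (s * √n) s f := hf.mono (by rw [hs]; linarith) hb
  obtain ⟨c, hc, ht⟩ := h.conc.on_good_mean h.meas (by linarith)
    (show 0 ≤ s * √n by positivity) hf'.lip hf'.bd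
  have h1 : s * √n * μ.real Gᶜ ≤ s := by
    rw [mul_assoc]
    refine mul_le_of_le_one_right (by linarith) ?_
    refine (mul_le_mul_of_nonneg_left h.small (Real.sqrt_nonneg _)).trans ?_
    rw [mul_inv_le_iff₀ (by positivity), one_mul, Real.sqrt_le_left (by positivity), ← pow_mul]
    exact le_self_pow₀ (by linarith) (by norm_num)
  have h2 : 34 * s ≤ B ^ 90 * (n * w) := by
    have h3 : (136 : ℝ) ≤ B ^ 9 :=
      le_trans (by norm_num) (pow_le_pow_left₀ (show (0 : ℝ) ≤ 2 by norm_num) hB 9)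
    have h4 := mul_le_mul_of_nonneg_right h3 (show 0 ≤ B ^ 81 * (n * w) by positivity)
    rw [← mul_assoc (B ^ 9), ← pow_add, show 9 + 81 = 90 from rfl] at h4
    rw [hs]
    linarith
  refine le_trans (measureReal_mono fun U hU => ?_) ((ht (32 * s) (by linarith)).trans ?_)
  · refine ⟨hU.1, ?_⟩
    have h3 := hU.2
    have h4 := abs_add_three (f U - c) (c - ∫ U in G, f U ∂μ) (∫ U in G, f U ∂μ)
    rw [sub_add_sub_cancel, sub_add_cancel] at h4
    linarith
  · have e : (n : ℝ) / 256 * (32 * s) ^ 2 / s ^ 2 = 4 * n := by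
      field_simp
      norm_num
    have h3 : (2 : ℝ) ^ 8 ≤ Real.exp (4 * n) := by
      refine le_trans ?_ (Real.exp_le_exp.2 (show ((8 : ℕ) : ℝ) * 1 ≤ 4 * n by
        push_cast; linarith))
      rw [Real.exp_nat_mul]
      exact pow_le_pow_left₀ (by norm_num) (by linarith [Real.add_one_le_exp 1]) 8
    have h4 := inv_anti₀ (by norm_num) h3
    rw [e, Real.exp_neg]
    norm_num at h4 ⊢
    linarith

theorem tW1 (h : Ctx B P A C D μ G) (hw : 1 ≤ w) (hw' : w ≤ (n : ℝ) ^ 4) (hW : fro W ≤ w) :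
    μ.real {U | U ∈ G ∧ B ^ 90 * (n * w) <
      |Wd.cm P (Wd.Gm A C D U) (fr A U) ((Wd.Ga A C D U)ᵀ * W)|} ≤ 1 / 48 := by
  have t := h.cm h.oGm h.oA h.oGa.transpose (by norm_num) (by norm_num) (by norm_num) hW
  have hB := h.hB
  have h0 : 0 ≤ B ^ 81 * (n * w) := by positivity
  have h1 := mul_nonneg h0 (Real.sqrt_nonneg (n : ℝ))
  exact h.tail hw t (by linarith) (by linarith)
    ((h.ok.W1 h.ri h.meas h.small h.p0 h.p1 (hW.trans hw')).trans (h.err (by norm_num)))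

theorem tW2 (h : Ctx B P A C D μ G) (hw : 1 ≤ w) (hw' : w ≤ (n : ℝ) ^ 4) (hW : fro W ≤ w)
    (hQ : OpLe Q (B ^ 1)) :
    μ.real {U | U ∈ G ∧ B ^ 90 * (n * w) <
      |Wd.cm P (Wd.Gm A C D U) (fr Q U) ((Wd.Ga A C D U)ᵀ * W) -
        Wd.cm P (Wd.Gm A C D U) (fr A U) (Wd.Gm A C D U * fr Q U * (Wd.Ga A C D U)ᵀ * W) -
        Wd.cm P (Wd.Gm A C D U * fr Q U * Wd.Gm A C D U) (fr A U)
          ((Wd.Ga A C D U)ᵀ * W)|} ≤ 1 / 48 := by
  have hB := h.hB
  have q := ol_fr hB G hQ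
  have gq := ol_mul hB h.oGm q
  have t1 := h.cm h.oGm q h.oGa.transpose (by norm_num) (by norm_num) (by norm_num) hW
  have t2 := h.cm h.oGm h.oA (ol_mul hB gq h.oGa.transpose) (by norm_num) (by norm_num)
    (by norm_num) hW
  have t3 := h.cm (ol_mul hB gq h.oGm) h.oA h.oGa.transpose (by norm_num) (by norm_num)
    (by norm_num) hW
  have h0 : 0 ≤ B ^ 81 * (n * w) := by positivity
  have h1 := mul_nonneg h0 (Real.sqrt_nonneg (n : ℝ))
  exact h.tail hw ((t1.sub t2).sub t3) (by linarith) (by linarith)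
    ((h.ok.W2 h.ri h.meas h.small h.p0 h.p1 (fro_K hB h.hn hQ (by norm_num))
      (hW.trans hw')).trans (h.err (by norm_num)))

omit [IsProbabilityMeasure μ] in
theorem s1 (h : Ctx B P A C D μ G) : 1 ≤ √(n : ℝ) := Real.one_le_sqrt.2 (by linarith [h.n2])

theorem tV1 (h : Ctx B P A C D μ G) (hR : OpLe R (B ^ 3)) :
    μ.real {U | U ∈ G ∧ B ^ 90 * (n * √n) < |Wd.cm P (Wd.Gm A C D U) (fr R U) 1 -
      Wd.cm P (Wd.Gm A C D U) (fr A U) (Wd.Gm A C D U * fr R U)|} ≤ 1 / 48 := by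
  have hB := h.hB
  have r := ol_fr hB G hR
  have o : OL G (B ^ 0) fun _ => (1 : Mat n) := by
    rw [pow_zero]
    exact OL.const G zero_le_one opLe_one
  have t1 := h.cm h.oGm r o (by norm_num) (by norm_num) (by norm_num) fro_one.le
  have t2 := h.cm h.oGm h.oA (ol_mul hB h.oGm r) (by norm_num) (by norm_num) (by norm_num)
    fro_one.le
  simp only [Matrix.mul_one] at t1 t2
  have h0 : 0 ≤ B ^ 81 * (n * √n) := by positivity
  have h1 := mul_nonneg h0 (Real.sqrt_nonneg (n : ℝ))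
  exact h.tail h.s1 (t1.sub t2) (by linarith) (by linarith)
    ((h.ok.V1 h.ri h.meas h.small h.p0 h.p1 (fro_K hB h.hn hR le_rfl)).trans
      (h.err (by norm_num)))

theorem tV2 (h : Ctx B P A C D μ G) (hQ : OpLe Q (B ^ 1)) (hR : OpLe R (B ^ 1)) :
    μ.real {U | U ∈ G ∧ B ^ 90 * (n * √n) <
      |Wd.cm P (Wd.Gm A C D U) (fr Q U) (Wd.Gm A C D U * fr R U) +
        Wd.cm P (Wd.Gm A C D U * fr Q U * Wd.Gm A C D U) (fr R U) 1 -
        Wd.cm P (Wd.Gm A C D U) (fr A U) (Wd.Gm A C D U * fr Q U * Wd.Gm A C D U * fr R U) -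
        Wd.cm P (Wd.Gm A C D U * fr Q U * Wd.Gm A C D U) (fr A U)
          (Wd.Gm A C D U * fr R U)|} ≤ 1 / 48 := by
  have hB := h.hB
  have q := ol_fr hB G hQ
  have r := ol_fr hB G hR
  have o : OL G (B ^ 0) fun _ => (1 : Mat n) := by
    rw [pow_zero]
    exact OL.const G zero_le_one opLe_one
  have g := ol_mul hB (ol_mul hB h.oGm q) h.oGm
  have gr := ol_mul hB h.oGm r
  have t1 := h.cm h.oGm q gr (by norm_num) (by norm_num) (by norm_num) fro_one.le
  have t2 := h.cm g r o (by norm_num) (by norm_num) (by norm_num) fro_one.le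
  have t3 := h.cm h.oGm h.oA (ol_mul hB g r) (by norm_num) (by norm_num) (by norm_num)
    fro_one.le
  have t4 := h.cm g h.oA gr (by norm_num) (by norm_num) (by norm_num) fro_one.le
  simp only [Matrix.mul_one] at t1 t2 t3 t4
  have h0 : 0 ≤ B ^ 81 * (n * √n) := by positivity
  have h1 := mul_nonneg h0 (Real.sqrt_nonneg (n : ℝ))
  exact h.tail h.s1 (((t1.add t2).sub t3).sub t4) (by linarith) (by linarith)
    ((h.ok.V2 h.ri h.meas h.small h.p0 h.p1 (fro_K hB h.hn hQ (by norm_num))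
      (fro_K hB h.hn hR (by norm_num))).trans (h.err le_rfl))

end Ctx

/-! ### conjugation of `J` -/

section Conj

variable (J : Mat n) (h : Vec n) (z : ℝ) (O : OG n)

theorem fr_sub (R S : Mat n) : fr (R - S) O = fr R O - fr S O := by
  simp only [fr, Matrix.mul_sub, Matrix.sub_mul]

theorem fr_smul_one (c : ℝ) : fr (c • (1 : Mat n)) O = c • (1 : Mat n) := by
  rw [fr, Matrix.mul_smul, Matrix.smul_mul, Matrix.mul_one, OG.transpose_mul]

theorem Nm_fr : Nm (fr J O) z = fr (Nm J z) O := by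
  unfold Nm
  rw [fr_sub, fr_smul_one]

theorem G0_fr : G0 (fr J O) z = fr (G0 J z) O := by
  unfold G0
  rw [Nm_fr, fr, fr, Matrix.mul_inv_rev, Matrix.mul_inv_rev,
    Matrix.inv_eq_left_inv (OG.transpose_mul O), Matrix.inv_eq_left_inv (OG.mul_transpose O),
    Matrix.mul_assoc]

theorem T2_fr : T2 (fr J O) z = T2 J z := by
  unfold T2
  rw [G0_fr, Wd.fr_mul, Wd.trace_fr]

theorem am_fr : am (fr J O) h z = fr (am J h z) O := by
  unfold am
  rw [fr_sub, fr_smul_one, Nm_fr]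

/-- the rank one part of `B` -/
noncomputable def Cm : Mat n := cc J h z • vecMulVec (tm h) (tm h)

theorem Lm_fr : Lm (fr J O) h z = 1 + (fr (am J h z) O + Cm J h z) * Dm h := by
  rw [← am_fr]
  unfold Lm EC.Bm Cm cc
  rw [T2_fr]
  rfl

theorem Gam_fr : Gam (fr J O) h z = Wd.Ga (am J h z) (Cm J h z) (Dm h) O := by
  unfold Gam
  rw [Lm_fr]
  rfl

theorem Gm_fr : Gm (fr J O) h z = Wd.Gm (am J h z) (Cm J h z) (Dm h) O := by
  unfold Gm
  rw [Gam_fr]
  rfl

end Conj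

theorem tm_abs (h : Vec n) (i : Fin n) : |tm h i| ≤ 1 := (Real.abs_tanh_lt_one _).le

theorem dv_mem (h : Vec n) (i : Fin n) : 0 ≤ dv h i ∧ dv h i ≤ 1 := by
  have h1 : Real.tanh (h i) ^ 2 ≤ 1 := (sq_le_one_iff_abs_le_one _).2 (tm_abs h i)
  unfold dv
  constructor <;> linarith [sq_nonneg (Real.tanh (h i))]

theorem wb_le (hn : 0 < n) (h : Vec n) : wb h ≤ 1 := by
  have hn' : (0 : ℝ) < n := by exact_mod_cast hn
  unfold wb
  rw [div_le_one hn']
  calc ∑ i, dv h i ≤ ∑ _i : Fin n, (1 : ℝ) := Finset.sum_le_sum fun i _ => (dv_mem h i).2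
    _ = n := by simp

theorem op_Dm (h : Vec n) : OpLe (Dm h) 1 :=
  op_diagonal zero_le_one fun i => by
    rw [abs_of_nonneg (dv_mem h i).1]
    exact (dv_mem h i).2

theorem op_mul {A B : Mat n} (hA : OpLe A 1) (hB : OpLe B 1) : OpLe (A * B) 1 := by
  simpa using hA.mulN hB zero_le_one zero_le_one

theorem fro_diagonal (β : Vec n) : fro (diagonal β) ≤ nv β := by
  refine fro_le_of_sq (nv_nonneg _) (le_of_eq ?_)
  rw [nv_sq]
  refine Finset.sum_congr rfl fun i _ => ?_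
  rw [Finset.sum_eq_single i (fun j _ hj => by rw [diagonal_apply_ne' _ hj]; ring) (by simp),
    diagonal_apply_eq]

theorem op_proj {P : Mat n} (hP : Pᵀ = P) (hPP : P * P = P) : OpLe P 1 := by
  refine opLe_of_nv fun v => ?_
  have h1 : nv (P *ᵥ v) ^ 2 ≤ nv v * nv (P *ᵥ v) := by
    rw [nv_sq, ← ipN_self, ← ip_mulVec_comm hP, Matrix.mulVec_mulVec, hPP]
    exact ip_le _ _
  rw [one_mul]
  rcases (nv_nonneg (P *ᵥ v)).eq_or_lt with h | h
  · rw [← h]
    exact nv_nonneg v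
  · rw [pow_two] at h1
    exact le_of_mul_le_mul_right h1 h

section Inst

variable {B B1 B2 : ℝ} {P J Q : Mat n} {μ : Measure (OG n)} {G : Set (OG n)}
  {T : Set (Vec n × ℝ)} {h : Vec n} {z : ℝ}

theorem wb_ge (c : Cs B B1 B2 P J Q) (p : Pt B B1 B2 J h z) : 99 / 100 ≤ wb h := by
  have h1 := mul_le_mul_of_nonneg_left c.h1 (sub_nonneg.2 (wb_le c.npos h))
  linarith [p.hq]

theorem op_am (c : Cs B B1 B2 P J Q) (p : Pt B B1 B2 J h z) : OpLe (am J h z) (B ^ 2) := by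
  have hw := wb_ge c p
  have hB := c.hB
  have h1 : |(wb h)⁻¹| ≤ 2 := by
    rw [abs_of_pos (inv_pos.2 (by linarith)), inv_le_comm₀ (by linarith) (by norm_num)]
    linarith
  exact (p.bN.sub (op_smul_one h1) (by linarith) (by norm_num)).monoN (by linarith) (by nlinarith)

theorem op_Cm (c : Cs B B1 B2 P J Q) (p : Pt B B1 B2 J h z) : OpLe (Cm J h z) (B ^ 3) := by
  have hw := wb_ge c p
  have hB := c.hB
  have hn : (0 : ℝ) < n := by exact_mod_cast c.npos
  have hT : 0 < T2 J z := by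
    by_contra hc
    have := mul_nonpos_of_nonneg_of_nonpos (show 0 ≤ B by linarith) (not_lt.1 hc)
    linarith [p.bT]
  have h1 : 2 / T2 J z * n ≤ 2 * B := by
    rw [div_mul_eq_mul_div, div_le_iff₀ hT]
    linarith [p.bT]
  have h2 : 2 / (n * wb h ^ 2) * n ≤ 4 := by
    rw [div_mul_eq_mul_div, div_le_iff₀ (by positivity)]
    have := mul_le_mul_of_nonneg_left (show 1 / 2 ≤ wb h ^ 2 by nlinarith) hn.le
    linarith
  have h3 : |cc J h z| ≤ 2 / T2 J z + 2 / (n * wb h ^ 2) := by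
    refine (abs_sub _ _).trans (le_of_eq ?_)
    rw [abs_of_pos (by positivity), abs_of_pos (by positivity)]
  have h4 : nv (tm h) * nv (tm h) ≤ n := by
    have h5 := nv_le_sqrt_n (tm_abs h)
    exact (mul_le_mul h5 h5 (nv_nonneg _) (Real.sqrt_nonneg _)).trans
      (Real.mul_self_sqrt hn.le).le
  have h0 := mul_nonneg (nv_nonneg (tm h)) (nv_nonneg (tm h))
  refine ((opLe_vecMulVec _ _).smul h0 _).monoN (mul_nonneg (abs_nonneg _) h0) ?_
  have h5 := mul_le_mul h3 h4 h0 (by positivity)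
  have h6 : 4 * B ≤ B ^ 3 := by
    have := mul_le_mul_of_nonneg_right (show 4 ≤ B ^ 2 by nlinarith) (show 0 ≤ B by linarith)
    linarith
  linarith

theorem ctx (f : Fam B B1 B2 P J Q μ G T) {t : Vec n × ℝ} (ht : t ∈ T) :
    Ctx B P (am J t.1 t.2) (Cm J t.1 t.2) (Dm t.1) μ G := by
  have c := f.cs
  have p := f.pt t ht
  have hB := c.hB
  have hn : (2 : ℝ) ≤ n := hB.trans f.hn
  have hD : OpLe (Dm t.1) (B ^ 0) := by
    rw [pow_zero]
    exact op_Dm _
  have u : ∀ O ∈ G, IsUnit (1 + (fr (am J t.1 t.2) O + Cm J t.1 t.2) * Dm t.1).det :=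
    fun O hO => Lm_fr J t.1 t.2 O ▸ (f.gd O hO t ht).uL
  have g : ∀ O ∈ G, OpLe (Wd.Ga (am J t.1 t.2) (Cm J t.1 t.2) (Dm t.1) O) B :=
    fun O hO => Gam_fr J t.1 t.2 O ▸ (f.gd O hO t ht).bGam
  have oA := ol_fr hB G (op_am c p)
  have oD := OL.const G (by positivity) hD
  have o1 : OL G (B ^ 5) fun _ => (1 : Mat n) :=
    OL.const G (by positivity) (opLe_one.monoN zero_le_one (one_le_pow₀ (by linarith)))
  have oL := ol_add hB o1 (ol_mul hB (ol_add hB oA (OL.const G (by positivity) (op_Cm c p))) oD)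
  have oGa : OL G (B ^ 8) (Wd.Ga (am J t.1 t.2) (Cm J t.1 t.2) (Dm t.1)) :=
    (oL.inv (one_le_pow₀ (by linarith)) (show 1 ≤ B by linarith) u g).mono
      (le_of_eq (by rw [← pow_add]))
  refine ⟨hB, f.hn, ⟨c.hP, c.hPP, ?_, ?_, diagonal_transpose _, ?_, ?_,
    fro_K hB f.hn (op_am c p) (by norm_num), fro_K hB f.hn (op_Cm c p) le_rfl,
    fro_K hB f.hn hD (by norm_num), u, fun O hO => fro_K hB f.hn (k := 1)
      (by rw [pow_one]; exact g O hO) (by norm_num)⟩, f.ri, f.conc, f.meas, f.small,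
    op_proj c.hP c.hPP, oA, oGa, ol_mul hB oD oGa⟩
  · unfold am Nm
    rw [transpose_sub, transpose_sub, transpose_smul, transpose_smul, transpose_one, c.hJ]
  · unfold Cm
    rw [transpose_smul, transpose_vecMulVec]
  · exact le_trans (by norm_num) (pow_le_pow_left₀ (show (0 : ℝ) ≤ 2 by norm_num) hn 4)
  · exact le_self_pow₀ (by linarith) (by norm_num)

end Inst

theorem or_le {μ : Measure (OG n)} [IsFiniteMeasure μ] {p q : OG n → Prop} {a b : ℝ}
    (ha : μ.real {U | p U} ≤ a) (hb : μ.real {U | q U} ≤ b) : μ.real {U | p U ∨ q U} ≤ a + b :=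
  (measureReal_union_le {U | p U} {U | q U}).trans (add_le_add ha hb)

end Ty

open Ty

theorem typStmt : TypStmt := by
  refine ⟨90, fun n B B1 B2 P J Q μ _ G T f t ht β hβ => ?_⟩
  have c := ctx f ht
  have p := f.pt t ht
  have hB := c.hB
  have hn := c.n2
  have hw := wb_ge f.cs p
  have hw' := wb_le f.cs.npos t.1
  have D := op_Dm t.1
  have V : OpLe (Vm t.1) 1 := op_diagonal zero_le_one fun i =>
    abs_le.2 ⟨by linarith [(dv_mem t.1 i).1], by linarith [(dv_mem t.1 i).2]⟩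
  have fo : ∀ W : Mat n, OpLe W 1 → fro W ≤ √n := fun W hW => by
    simpa using fro_le_op zero_le_one hW
  have s4 : √(n : ℝ) ≤ (n : ℝ) ^ 4 := by
    rw [Real.sqrt_le_left (by positivity), ← pow_mul]
    exact le_self_pow₀ (by linarith) (by norm_num)
  have o4 : (1 : ℝ) ≤ (n : ℝ) ^ 4 := one_le_pow₀ (by linarith)
  have fβ : fro (diagonal β) ≤ 1 := (fro_diagonal β).trans hβ
  have fβ' : fro (Dm t.1 * diagonal β) ≤ 1 := by
    have := fro_mul_l zero_le_one D (diagonal β)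
    linarith
  have B0 : 0 ≤ B := by linarith
  have q : OpLe Q (B ^ 1) := by
    rw [pow_one]
    exact f.cs.bQ
  have g : OpLe (G0 J t.2) (B ^ 1) := by
    rw [pow_one]
    exact p.bG
  have up : ∀ (R : Mat n) (k : ℕ), OpLe R (B ^ k) → k ≤ 3 → OpLe R (B ^ 3) := fun R k hR hk =>
    hR.monoN (by positivity) (pow_le_pow_right₀ (by linarith) hk)
  have a1 := c.tW1 c.s1 s4 (fo _ (op_mul D D))
  have a2 := c.tW1 c.s1 s4 (fo _ (op_mul D V))
  have a3 := c.tW1 c.s1 s4 (fo _ (op_mul D (op_mul V D)))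
  have a4 := c.tW1 c.s1 s4 (fo _ (op_mul D (op_mul D D)))
  have a5 := c.tW1 le_rfl o4 fβ
  have a6 := c.tW1 le_rfl o4 fβ'
  have b1 := c.tW2 le_rfl o4 fβ q
  have b2 := c.tW2 c.s1 s4 (fo _ (op_mul D D)) q
  have c1 := c.tV1 (up _ 1 g (by norm_num))
  have c2 := c.tV1 (up (G0 J t.2 * G0 J t.2) 2
    (by rw [pow_two]; exact p.bG.mulN p.bG B0 B0) (by norm_num))
  have c3 := c.tV1 (R := G0 J t.2 * Q * G0 J t.2) (by
    rw [pow_succ, pow_two]
    exact (p.bG.mulN f.cs.bQ B0 B0).mulN p.bG (by positivity) B0)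
  have d1 := c.tV2 q g
  refine le_trans (measureReal_mono fun O hO => ?_) ((or_le a1 (or_le a2 (or_le a3 (or_le a4
    (or_le a5 (or_le a6 (or_le b1 (or_le b2 (or_le c1 (or_le c2 (or_le c3 d1))))))))))).trans
    (by norm_num))
  by_contra hc
  simp only [mem_ofPred_eq, not_or, not_and, not_lt, mul_one] at hc
  obtain ⟨a1, a2, a3, a4, a5, a6, b1, b2, c1, c2, c3, d1⟩ := hc
  have hG := hO.1
  refine hO.2 ⟨?_, ?_, ?_, ?_, ?_, ?_, ?_, ?_, ?_, ?_, ?_, ?_⟩ <;>
    simp only [w1, w2, v1, v2, Gm_fr, Gam_fr, am_fr, G0_fr, Wd.fr_mul]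
  exacts [a1 hG, a2 hG, a3 hG, a4 hG, a5 hG, a6 hG, b1 hG, b2 hG, c1 hG, c2 hG, c3 hG, d1 hG]

end Vale.Agent.N150.KB
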