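import Vale.Agent.N150.KBMain
import Vale.Agent.N150.KBTyp
import Vale.Agent.N150.KBDet
import Vale.Agent.N150.KBT1
import Vale.Agent.N150.BrKB
import Vale.Agent.N150.D6c
import Vale.Agent.N150.T1Meas
import Vale.Agent.N150.X4
import Vale.Agent.N150.X3Main

/-! The source bound: assembly. -/

namespace Vale.Agent.N150.KBT

open Vale.Agent.N150.T1 Vale.Agent.N150.KB

theorem kbStmt : KBStmt := kb_of typStmt

theorem kbDetStmt : KBDetStmt := KBD.kbDet_of T1.zStmt T1A.d1Stmt T1A.d2Stmt d4Stmt D6.d6Stmt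

theorem t1_X3 (h : X3Stmt) : T1Stmt := t1_of h X4.x4Stmt sprStmt

theorem kbSel_X3 (h : X3Stmt) : KBSelStmt := kbSel_of kbStmt kbDetStmt h (t1_X3 h)

theorem kbT1_X3 (h : X3Stmt) : KBT1Stmt := kbT1_of kbStmt kbDetStmt h (t1_X3 h)

theorem kbb_X3 (h : X3Stmt) : Br.KBB := Br.kbb_of (kbT1_X3 h)

theorem t1Stmt : T1Stmt := t1_X3 X3P.x3Stmt

theorem kbSelStmt : KBSelStmt := kbSel_X3 X3P.x3Stmt

theorem kbT1Stmt : KBT1Stmt := kbT1_X3 X3P.x3Stmt

theorem kbb : Br.KBB := kbb_X3 X3P.x3Stmt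

end Vale.Agent.N150.KBT
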