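import Vale.Agent.N150.Ward
import Vale.Agent.N150.ECDef

/-! Uniform bound on the source `k0` of the EC tracking on a fibre, for a general precision `Q`:
definitions and statements. -/

namespace Vale.Agent.N150.KB

open Matrix MeasureTheory Set
open Vale.Agent.P150 Vale.Agent.P150.F
open Vale.Agent.N150.EC (tm dv wb Nm G0 T2 T3 cc c3 Bm Lm Gam Gm res2 k0)
open Vale.Agent.N150.Wd (RI fr cm)

variable {n : ℕ}

/-- variance of `d` -/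
noncomputable def vr (h : Vec n) : ℝ := (∑ i, (dv h i - wb h) ^ 2) / n

/-- `χ T2 / n` -/
noncomputable def kz (J : Mat n) (h : Vec n) (z : ℝ) : ℝ :=
  (∑ i, dv h i ^ 2) / n - T2 J z / n * vr h / wb h ^ 2

/-- the value of the diagonal entries of `Γ Q Γᵀ` -/
noncomputable def xis (J : Mat n) (h : Vec n) (z : ℝ) (Q : Mat n) : ℝ :=
  (G0 J z * Q * G0 J z).trace / n / kz J h z

/-- the diagonal of `Γ Q Γᵀ` -/
noncomputable def dXi (J : Mat n) (h : Vec n) (z : ℝ) (Q : Mat n) : Vec n :=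
  fun i => (Gam J h z * Q * (Gam J h z)ᵀ) i i

/-- conditions on the spectrum and on the point (invariant under conjugation of `J`) -/
structure Pt (B B1 B2 : ℝ) (J : Mat n) (h : Vec n) (z : ℝ) : Prop where
  res : res2 J h z = 0
  uN : IsUnit (Nm J z).det
  bN : OpLe (Nm J z) B
  bG : OpLe (G0 J z) B
  bT : (n : ℝ) ≤ B * T2 J z
  hq : (1 - wb h) * B1 ≤ 1 / 100
  hv : vr h * B1 * B2 ≤ 1 / 100
  hT : T2 J z * vr h ≤ n / 10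

/-- conditions at a good rotation -/
structure Gd (B B1 B2 : ℝ) (J : Mat n) (h : Vec n) (z : ℝ) : Prop where
  uL : IsUnit (Lm J h z).det
  bGam : OpLe (Gam J h z) B
  dg : ∀ i, |Gam J h z i i| ≤ B1
  tg : |(G0 J z * Gm J h z).trace| ≤ n * B2
  tr : |(Gam J h z).trace - n| ≤ n / 10

/-- constants, projection of small corank, symmetric matrices -/
structure Cs (B B1 B2 : ℝ) (P J Q : Mat n) : Prop where
  hB : 2 ≤ B
  h1 : 1 ≤ B1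
  h1B : B1 ≤ B
  h2 : 0 ≤ B2
  h2B : B2 ≤ B
  npos : 0 < n
  hP : Pᵀ = P
  hPP : P * P = P
  trP : (n : ℝ) - B ≤ P.trace
  hJ : Jᵀ = J
  hQ : Qᵀ = Q
  bQ : OpLe Q B

/-- a fibre with its good set and a family of points -/
structure Fam (B B1 B2 : ℝ) (P J Q : Mat n) (μ : Measure (OG n)) (G : Set (OG n))
    (T : Set (Vec n × ℝ)) : Prop where
  cs : Cs B B1 B2 P J Q
  hn : B ≤ n
  ri : RI P μ
  conc : Conc μ (n / 256)
  meas : MeasurableSet G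
  small : μ.real Gᶜ ≤ ((n : ℝ) ^ 700)⁻¹
  pt : ∀ t ∈ T, Pt B B1 B2 J t.1 t.2
  lz : ∀ t ∈ T, ∀ t' ∈ T, |t.2 - t'.2| ≤ B * |wb t.1 - wb t'.1|
  gd : ∀ O ∈ G, ∀ t ∈ T, Gd B B1 B2 (fr J O) t.1 t.2

/-- **[KB]** the source is bounded, uniformly over the family -/
def KBStmt : Prop := ∃ p : ℕ, ∀ (n : ℕ) (B B1 B2 : ℝ) (P J Q : Mat n) (μ : Measure (OG n))
  [IsProbabilityMeasure μ] (G : Set (OG n)) (T : Set (Vec n × ℝ)), Fam B B1 B2 P J Q μ G T →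
  μ.real {O | O ∈ G ∧ ∃ t ∈ T, B ^ p < nv (k0 (fr J O) t.1 t.2 (fr Q O))} ≤ Real.exp (-(n : ℝ))

/-- **[CH]** chaining in the sup norm of `m` -/
def ChainStmt : Prop := ∃ C : ℝ, ∀ (n : ℕ) (μ : Measure (OG n)) [IsProbabilityMeasure μ]
  (G : Set (OG n)) (ι : Type) (T : Set ι) (m c : ι → Vec n) (a : ι → OG n → Vec n) (Λ : ℝ),
  0 < n → 0 < Λ → Conc μ (n / 256) → MeasurableSet G → μ.real Gᶜ ≤ (n : ℝ)⁻¹ →
  (∀ t ∈ T, ∀ i, |m t i| ≤ 1) →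
  (∀ t ∈ T, ∀ U ∈ G, nv (a t U) ≤ Λ * √n) →
  (∀ t ∈ T, ∀ U ∈ G, ∀ V ∈ G, nv (a t U - a t V) ≤ Λ * dO U V) →
  (∀ t ∈ T, ∀ t' ∈ T, ∀ δ : ℝ, 0 < δ → (∀ i, |m t i - m t' i| ≤ δ) → ∀ U ∈ G,
    nv (a t U - a t' U) ≤ Λ * δ * √n ∧
    ∀ V ∈ G, nv ((a t U - a t' U) - (a t V - a t' V)) ≤ Λ * δ * dO U V) →
  (∀ t ∈ T, nv ((fun i => ∫ U in G, a t U i ∂μ) - c t) ≤ Λ) →
  μ.real {U | U ∈ G ∧ ∃ t ∈ T, C * Λ < nv (a t U - c t)} ≤ Real.exp (-(n : ℝ))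

/-- **[LIP]** the Lipschitz bounds needed for the chaining -/
def LipStmt : Prop := ∃ p : ℕ, ∀ (n : ℕ) (B B1 B2 : ℝ) (P J Q : Mat n) (μ : Measure (OG n))
  (G : Set (OG n)) (T : Set (Vec n × ℝ)), Fam B B1 B2 P J Q μ G T →
  (∀ t ∈ T, ∀ U ∈ G, nv (dXi (fr J U) t.1 t.2 (fr Q U)) ≤ B ^ p * √n) ∧
  (∀ t ∈ T, ∀ U ∈ G, ∀ V ∈ G,
    nv (dXi (fr J U) t.1 t.2 (fr Q U) - dXi (fr J V) t.1 t.2 (fr Q V)) ≤ B ^ p * dO U V) ∧
  (∀ t ∈ T, ∀ t' ∈ T, ∀ δ : ℝ, 0 < δ → (∀ i, |tm t.1 i - tm t'.1 i| ≤ δ) → ∀ U ∈ G,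
    nv (dXi (fr J U) t.1 t.2 (fr Q U) - dXi (fr J U) t'.1 t'.2 (fr Q U)) ≤ B ^ p * δ * √n ∧
    ∀ V ∈ G, nv ((dXi (fr J U) t.1 t.2 (fr Q U) - dXi (fr J U) t'.1 t'.2 (fr Q U)) -
      (dXi (fr J V) t.1 t.2 (fr Q V) - dXi (fr J V) t'.1 t'.2 (fr Q V))) ≤ B ^ p * δ * dO U V)

/-- `a = N - 1 / w`, the rotating part of `B` -/
noncomputable def am (J : Mat n) (h : Vec n) (z : ℝ) : Mat n := Nm J z - (wb h)⁻¹ • (1 : Mat n)

/-- `D` -/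
noncomputable def Dm (h : Vec n) : Mat n := diagonal (dv h)

/-- `V = D - w` -/
noncomputable def Vm (h : Vec n) : Mat n := diagonal fun i => dv h i - wb h

/-- integrand of `Wd.Ok.W1` -/
noncomputable def w1 (P J : Mat n) (h : Vec n) (z : ℝ) (W : Mat n) : ℝ :=
  cm P (Gm J h z) (am J h z) ((Gam J h z)ᵀ * W)

/-- integrand of `Wd.Ok.W2` -/
noncomputable def w2 (P J : Mat n) (h : Vec n) (z : ℝ) (Q W : Mat n) : ℝ :=
  cm P (Gm J h z) Q ((Gam J h z)ᵀ * W) -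
    cm P (Gm J h z) (am J h z) (Gm J h z * Q * (Gam J h z)ᵀ * W) -
    cm P (Gm J h z * Q * Gm J h z) (am J h z) ((Gam J h z)ᵀ * W)

/-- integrand of `Wd.Ok.V1` -/
noncomputable def v1 (P J : Mat n) (h : Vec n) (z : ℝ) (R : Mat n) : ℝ :=
  cm P (Gm J h z) R 1 - cm P (Gm J h z) (am J h z) (Gm J h z * R)

/-- integrand of `Wd.Ok.V2` -/
noncomputable def v2 (P J : Mat n) (h : Vec n) (z : ℝ) (Q R : Mat n) : ℝ :=
  cm P (Gm J h z) Q (Gm J h z * R) + cm P (Gm J h z * Q * Gm J h z) R 1 -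
    cm P (Gm J h z) (am J h z) (Gm J h z * Q * Gm J h z * R) -
    cm P (Gm J h z * Q * Gm J h z) (am J h z) (Gm J h z * R)

/-- the Ward identities hold at the point, up to the precision `n^(-1/2)` -/
structure Typ (B : ℝ) (P J : Mat n) (h : Vec n) (z : ℝ) (Q : Mat n) (β : Vec n) : Prop where
  a1 : |w1 P J h z (Dm h * Dm h)| ≤ B * (n * √n)
  a2 : |w1 P J h z (Dm h * Vm h)| ≤ B * (n * √n)
  a3 : |w1 P J h z (Dm h * (Vm h * Dm h))| ≤ B * (n * √n)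
  a4 : |w1 P J h z (Dm h * (Dm h * Dm h))| ≤ B * (n * √n)
  a5 : |w1 P J h z (diagonal β)| ≤ B * n
  a6 : |w1 P J h z (Dm h * diagonal β)| ≤ B * n
  b1 : |w2 P J h z Q (diagonal β)| ≤ B * n
  b2 : |w2 P J h z Q (Dm h * Dm h)| ≤ B * (n * √n)
  c1 : |v1 P J h z (G0 J z)| ≤ B * (n * √n)
  c2 : |v1 P J h z (G0 J z * G0 J z)| ≤ B * (n * √n)
  c3 : |v1 P J h z (G0 J z * Q * G0 J z)| ≤ B * (n * √n)
  d1 : |v2 P J h z Q (G0 J z)| ≤ B * (n * √n)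

/-- **[ALG]** closing of the Ward system at a typical point -/
def AlgStmt : Prop := ∃ p : ℕ, ∀ (n : ℕ) (B B1 B2 : ℝ) (P J Q : Mat n) (h : Vec n) (z : ℝ)
  (β : Vec n), Cs B B1 B2 P J Q → Pt B B1 B2 J h z → Gd B B1 B2 J h z → nv β ≤ 1 →
  Typ B P J h z Q β → |ip β (dXi J h z Q - fun _ => xis J h z Q)| ≤ B ^ p

/-- **[TYP]** typical points have large probability -/
def TypStmt : Prop := ∃ p : ℕ, ∀ (n : ℕ) (B B1 B2 : ℝ) (P J Q : Mat n) (μ : Measure (OG n))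
  [IsProbabilityMeasure μ] (G : Set (OG n)) (T : Set (Vec n × ℝ)), Fam B B1 B2 P J Q μ G T →
  ∀ t ∈ T, ∀ β : Vec n, nv β ≤ 1 →
    μ.real {O | O ∈ G ∧ ¬ Typ (B ^ p) P (fr J O) t.1 t.2 (fr Q O) β} ≤ 1 / 4

/-- **[K0]** the source in terms of the centred diagonal -/
def K0Stmt : Prop := ∃ p : ℕ, ∀ (n : ℕ) (B B1 B2 : ℝ) (P J Q : Mat n) (h : Vec n) (z : ℝ),
  Cs B B1 B2 P J Q → Pt B B1 B2 J h z → Gd B B1 B2 J h z →
  nv (k0 J h z Q) ≤ B ^ p * (nv (dXi J h z Q - fun _ => xis J h z Q) + 1)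

end Vale.Agent.N150.KB
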