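import Vale.Agent.N150.HaarF
import Vale.Agent.N150.KBCal
import Vale.Agent.N150.KBDef

/-! Uniform concentration over a family indexed by points of a cube (chaining). -/

namespace Vale.Agent.N150.KB.Ch

open Matrix MeasureTheory Set
open Vale.Agent.P150 Vale.Agent.P150.F
open Vale.Agent.N150.Haar (fro)
open Vale.Agent.N150.Wd (fr fr_mul fr_one trace_fr)
open Vale.Agent.N150.EC (tm dv wb Nm G0 T2 cc Lm Gam Gm)

variable {n k : ℕ} {T : Type*}

/-! ### concentration of one vector valued function -/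

/-- mean over the good set -/
noncomputable def mG (μ : Measure (OG n)) (G : Set (OG n)) (f : OG n → Vec k) : Vec k :=
  fun i => ∫ U in G, f U i ∂μ

/-- bounded coordinates, Lipschitz in the Euclidean norm -/
structure VO (G : Set (OG n)) (κ L : ℝ) (f : OG n → Vec k) : Prop where
  nn : 0 ≤ L
  kn : 0 ≤ κ
  bd : ∀ U ∈ G, ∀ i, |f U i| ≤ κ * L
  lip : ∀ U ∈ G, ∀ V ∈ G, nv (f U - f V) ≤ L * dO U V

theorem OL.vo {G : Set (OG n)} {a : ℝ} {M : OG n → Mat n} (h : OL G a M) :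
    VO G 1 a fun U => (M U).diag :=
  ⟨h.nn, zero_le_one, fun U hU i => (abs_entry_op h.nn (h.op U hU) i i).trans (one_mul a).ge,
    fun U hU V hV => (nv_diag_le (M U - M V)).trans (h.lip U hU V hV)⟩

section One

variable {μ : Measure (OG n)} [IsProbabilityMeasure μ] {G : Set (OG n)} {c p L L' κ κ' : ℝ}
  {f g : OG n → Vec k}

theorem VO.mono (h : VO G κ L f) (hL : L ≤ L') : VO G κ L' f :=
  ⟨h.nn.trans hL, h.kn, fun U hU i => (h.bd U hU i).trans (mul_le_mul_of_nonneg_left hL h.kn),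
    fun U hU V hV => (h.lip U hU V hV).trans (mul_le_mul_of_nonneg_right hL (dO_nonneg _ _))⟩

theorem VO.lipO (h : VO G κ L f) (i : Fin k) : LipO G L fun U => f U i := fun U hU V hV =>
  (abs_le_nv (f U - f V) i).trans (h.lip U hU V hV)

theorem _root_.Vale.Agent.N150.LipO.integrableOn {F : OG n → ℝ} (h : LipO G L F) (hL : 0 ≤ L)
    (hG : MeasurableSet G) : IntegrableOn F G μ := by
  obtain ⟨g, hg, he⟩ := h.extend hL
  exact (integrable_of_continuous hg.continuous μ).integrableOn.congr_fun he hG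

theorem VO.integrableOn (h : VO G κ L f) (hG : MeasurableSet G) (i : Fin k) :
    IntegrableOn (fun U => f U i) G μ := (h.lipO i).integrableOn h.nn hG

theorem mG_sub (h : VO G κ L f) (h' : VO G κ' L' g) (hG : MeasurableSet G) :
    mG μ G (fun U => f U - g U) = mG μ G f - mG μ G g :=
  funext fun i => integral_sub (h.integrableOn hG i) (h'.integrableOn hG i)

theorem VO.abs_mG_le (h : VO G κ L f) (i : Fin k) : |mG μ G f i| ≤ κ * L := by
  have h1 := norm_setIntegral_le_of_norm_le_const (μ := μ) (s := G) (f := fun U => f U i)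
    (C := κ * L) (measure_lt_top _ _) fun U hU => h.bd U hU i
  exact h1.trans (mul_le_of_le_one_right (mul_nonneg h.kn h.nn) measureReal_le_one)

theorem VO.tail (h : VO G κ L f) (hL : 0 < L) (hμ : Conc μ c) (hc : 0 < c) (hG : MeasurableSet G)
    (hp : μ.real Gᶜ ≤ p) (hp2 : p ≤ 1 / 2) {t : ℝ} (ht : 0 ≤ t) :
    μ.real {U | U ∈ G ∧ L * (3 * √(k / c) + √(3 / c) + t + √k * (κ * p)) < nv (f U - mG μ G f)} ≤
      2 * Real.exp (-(c * t ^ 2)) := by
  obtain ⟨m, h1, -, -, h4⟩ := hμ.vec_mean hc (Finset.univ : Finset (Fin k)) hG (L := fun _ => L)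
    (B := fun _ => κ * L) (f := fun i U => f U i) (fun _ _ => hL)
    (fun _ _ => mul_nonneg h.kn hL.le)
    (fun i _ => h.lipO i) fun i _ U hU => h.bd U hU i
  have e : ∀ U, √(∑ a, (f U a - m a) ^ 2) = nv (f U - m) := fun U => (nv_eq_sqrt _).symm
  have hq : (1 / 2 : ℝ) ≤ μ.real G := by
    have := probReal_add_probReal_compl (μ := μ) hG
    linarith
  have hr : 4 * Real.exp (-(c * √(3 / c) ^ 2)) < 1 / 2 := by
    rw [Real.sq_sqrt (by positivity), mul_div_cancel₀ _ hc.ne', Real.exp_neg]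
    have h8 : (8 : ℝ) < Real.exp 3 := by
      have h2 := Real.add_one_lt_exp (x := 1) one_ne_zero
      have e3 : Real.exp 3 = Real.exp 1 ^ 3 := by rw [← Real.exp_nat_mul]; norm_num
      rw [e3]
      calc (8 : ℝ) = (1 + 1) ^ 3 := by norm_num
        _ < _ := pow_lt_pow_left₀ h2 (by norm_num) (by norm_num)
    rw [← div_eq_mul_inv, div_lt_iff₀ (Real.exp_pos _)]
    linarith
  refine le_trans (measureReal_mono fun U hU => ?_) (h4 L (1 / 2) _ t hL.le
    (fun U hU V hV => ?_) hq (Real.sqrt_nonneg _) hr ht)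
  · refine ⟨hU.1, ?_⟩
    have h0 := mul_nonneg h.kn hL.le
    have h5 : nv (m - mG μ G f) ≤ κ * L * p * √k :=
      nv_le_sqrt (mul_nonneg h0 (measureReal_nonneg.trans hp)) fun i =>
        (h1 i (Finset.mem_univ i)).trans (mul_le_mul_of_nonneg_left hp h0)
    have h6 := nv_sub_triangle (f U) m (mG μ G f)
    have h7 : 2 * √((∑ _a : Fin k, L ^ 2) / (c * (1 / 2))) ≤ L * (3 * √(k / c)) := by
      refine le_of_sq_le_sq ?_ (by positivity)
      rw [mul_pow, Real.sq_sqrt (by positivity), mul_pow, mul_pow, Real.sq_sqrt (by positivity)]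
      simp only [Finset.sum_const, Finset.card_univ, Fintype.card_fin, nsmul_eq_mul]
      have : 0 ≤ L ^ 2 * (k / c) := by positivity
      have e2 : (k : ℝ) * L ^ 2 / (c * (1 / 2)) = 2 * (L ^ 2 * (k / c)) := by field_simp
      rw [e2]
      linarith
    have h8 := hU.2
    rw [e]
    linarith
  · simp only [e]
    refine le_trans ?_ (h.lip U hU V hV)
    have h5 := nv_sub_triangle (f U) (f V) m
    have h6 := nv_sub_triangle (f V) (f U) m
    rw [nv_sub_comm (f V) (f U)] at h6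
    exact abs_le.2 ⟨by linarith, by linarith⟩

/-- second moment around the mean over the good set -/
theorem VO.var (h : VO G κ L f) (hL : 0 < L) (hμ : Conc μ c) (hc : 0 < c) (hG : MeasurableSet G)
    (hp : μ.real Gᶜ ≤ p) (i : Fin k) :
    ∫ U in G, (f U i - mG μ G f i) ^ 2 ∂μ ≤ L ^ 2 * (4 / c + 2 * (κ * p) ^ 2) := by
  obtain ⟨m, h1, h2, -, -⟩ := hμ.vec_mean hc (Finset.univ : Finset (Fin k)) hG (L := fun _ => L)
    (B := fun _ => κ * L) (f := fun i U => f U i) (fun _ _ => hL)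
    (fun _ _ => mul_nonneg h.kn hL.le)
    (fun i _ => h.lipO i) fun i _ U hU => h.bd U hU i
  have h3 := (h1 i (Finset.mem_univ i)).trans
    (mul_le_mul_of_nonneg_left hp (mul_nonneg h.kn hL.le))
  have h4 := h2 i (Finset.mem_univ i)
  obtain ⟨g, hg, he⟩ := (h.lipO i).extend hL.le
  have hgc := hg.continuous
  have hi : ∀ a : ℝ, IntegrableOn (fun U => (f U i - a) ^ 2) G μ := fun a =>
    (integrable_of_continuous (f := fun U => (g U - a) ^ 2) (by fun_prop) μ).integrableOn.congr_fun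
      (fun U hU => by simp only [he U hU]) hG
  have h5 : (m i - mG μ G f i) ^ 2 ≤ (κ * L * p) ^ 2 := by
    rw [← sq_abs]; exact pow_le_pow_left₀ (abs_nonneg _) h3 2
  have h6 : ∫ U in G, (f U i - mG μ G f i) ^ 2 ∂μ ≤
      ∫ U in G, (2 * (f U i - m i) ^ 2 + 2 * (κ * L * p) ^ 2) ∂μ :=
    integral_mono (hi _) (((hi _).const_mul 2).add (integrable_const _)) fun U => by
      simp only
      nlinarith [sq_nonneg (f U i - m i - (m i - mG μ G f i))]
  rw [integral_add ((hi _).const_mul 2) (integrable_const _), integral_const_mul,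
    setIntegral_const, smul_eq_mul] at h6
  have h7 : μ.real G * (2 * (κ * L * p) ^ 2) ≤ 2 * (κ * L * p) ^ 2 :=
    mul_le_of_le_one_left (by positivity) measureReal_le_one
  have e : L ^ 2 * (4 / c + 2 * (κ * p) ^ 2) = 2 * (2 * L ^ 2 / c) + 2 * (κ * L * p) ^ 2 := by
    ring
  rw [e]
  linarith

end One

/-! ### chaining -/

section Cells

variable {ι : Type*} [Fintype ι] [DecidableEq ι]

/-- dyadic cell -/
noncomputable def cell (ph : T → ι → ℝ) (l : ℕ) (t : T) : ι → ℤ := fun i => ⌊2 ^ l * ph t i⌋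

/-- all cells -/
noncomputable def box (ι : Type*) [Fintype ι] [DecidableEq ι] (l : ℕ) : Finset (ι → ℤ) :=
  Fintype.piFinset fun _ => Finset.Icc (-(2 ^ l)) (2 ^ l)

open Classical in
/-- a representative of a cell -/
noncomputable def rep [Nonempty T] (ph : T → ι → ℝ) (l : ℕ) (a : ι → ℤ) : T :=
  if h : ∃ t, cell ph l t = a then h.choose else Classical.arbitrary T

theorem cell_mem {ph : T → ι → ℝ} (h : ∀ t i, |ph t i| ≤ 1) (l : ℕ) (t : T) :
    cell ph l t ∈ box ι l := by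
  refine Fintype.mem_piFinset.2 fun i => Finset.mem_Icc.2 ⟨?_, ?_⟩
  · refine Int.le_floor.2 ?_
    have := (abs_le.1 (h t i)).1
    have h2 : (0 : ℝ) < 2 ^ l := by positivity
    push_cast
    nlinarith
  · have := (abs_le.1 (h t i)).2
    have h2 : (0 : ℝ) < 2 ^ l := by positivity
    have h3 : ((⌊2 ^ l * ph t i⌋ : ℤ) : ℝ) ≤ ((2 ^ l : ℤ) : ℝ) := by
      refine (Int.floor_le _).trans ?_
      push_cast
      nlinarith
    exact Int.cast_le.1 h3

theorem card_box (l : ℕ) : ((box ι l).card : ℝ) ≤ Real.exp ((l + 2) * Fintype.card ι) := by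
  rw [box, Fintype.card_piFinset, Finset.prod_const, Finset.card_univ, Int.card_Icc, mul_comm,
    Real.exp_nat_mul]
  push_cast
  refine pow_le_pow_left₀ (Nat.cast_nonneg _) ?_ _
  have h1 : ((2 : ℤ) ^ l + 1 - -2 ^ l).toNat ≤ 2 ^ (l + 2) := by
    rw [Int.toNat_le]
    have : (1 : ℤ) ≤ 2 ^ l := one_le_pow₀ (by norm_num)
    push_cast
    rw [pow_add]
    linarith
  have h2 : (2 : ℝ) ^ (l + 2) ≤ Real.exp (l + 2) := by
    have h3 := Real.add_one_le_exp 1
    have e : Real.exp (l + 2) = Real.exp 1 ^ (l + 2) := by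
      rw [← Real.exp_nat_mul]; push_cast; ring_nf
    rw [e]
    exact pow_le_pow_left₀ (by norm_num) (by linarith) _
  refine le_trans ?_ h2
  exact_mod_cast h1

omit [Fintype ι] [DecidableEq ι] in
theorem near_rep [Nonempty T] (ph : T → ι → ℝ) (l : ℕ) (t : T) (i : ι) :
    |ph t i - ph (rep ph l (cell ph l t)) i| ≤ 1 / 2 ^ l := by
  have h : ∃ s, cell ph l s = cell ph l t := ⟨t, rfl⟩
  have h1 : cell ph l (rep ph l (cell ph l t)) = cell ph l t := by
    rw [rep, dif_pos h]; exact h.choose_spec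
  have h2 := Int.abs_sub_lt_one_of_floor_eq_floor (congrFun h1 i).symm
  have h3 : (0 : ℝ) < 2 ^ l := by positivity
  rw [← mul_sub, abs_mul, abs_of_pos h3] at h2
  rw [le_div_iff₀' h3]
  exact h2.le

theorem exp_neg_le (j : ℕ) : Real.exp (-(j : ℝ)) ≤ 1 / 2 ^ j := by
  have h3 := Real.add_one_le_exp 1
  have e : Real.exp j = Real.exp 1 ^ j := by rw [← Real.exp_nat_mul, mul_one]
  rw [Real.exp_neg, e, one_div]
  exact inv_anti₀ (by positivity) (pow_le_pow_left₀ (by norm_num) (by linarith) _)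

variable {μ : Measure (OG n)} [IsProbabilityMeasure μ] {G : Set (OG n)} {c p L x κ : ℝ}
  {ρ : T → T → ℝ}

/-- **chaining** -/
theorem chain {F : T → OG n → Vec k} (hμ : Conc μ c) (hc : 0 < c)
    (hG : MeasurableSet G) (hp : μ.real Gᶜ ≤ p) (hp2 : p ≤ 1 / 2) (ph : T → ι → ℝ)
    (hph : ∀ t i, |ph t i| ≤ 1) (hL : 0 < L) (hκ : 0 ≤ κ) (hpt : ∀ t, VO G κ L (F t))
    (hinc : ∀ t s e, 0 < e → (∀ i, |ph t i - ph s i| ≤ e) →
      VO G κ (L * e) fun U => F t U - F s U) (hx : 0 ≤ x) :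
    μ.real {U | U ∈ G ∧ ∃ t, L * (39 * √((k + Fintype.card ι + x + 3) / c) + 5 * (√k * (κ * p))
      + 2) < nv (F t U - mG μ G (F t))} ≤ Real.exp (-x) := by
  rcases isEmpty_or_nonempty T with hT | hT
  · simp [(Real.exp_pos _).le]
  obtain ⟨K, hK⟩ := pow_unbounded_of_one_lt (√k * κ) (one_lt_two (α := ℝ))
  have hp0 : 0 ≤ p := measureReal_nonneg.trans hp
  set N : ℝ := (Fintype.card ι : ℝ) with hN
  have hN0 : 0 ≤ N := Nat.cast_nonneg _
  set s := √((k + N + x + 3) / c) with hs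
  set q := √k * (κ * p) with hq
  have hq0 : 0 ≤ q := by positivity
  have hs0 : 0 ≤ s := Real.sqrt_nonneg _
  have hk0 : (0 : ℝ) ≤ k := Nat.cast_nonneg _
  have s1 : √(k / c) ≤ s := Real.sqrt_le_sqrt (by gcongr; linarith)
  have s2 : √(3 / c) ≤ s := Real.sqrt_le_sqrt (by gcongr; linarith)
  have s3 : c * s ^ 2 = k + N + x + 3 := by
    rw [hs, Real.sq_sqrt (by positivity), mul_div_cancel₀ _ hc.ne']
  have one : ∀ (f : OG n → Vec k) (a j b : ℝ), 0 < a → VO G κ a f → 0 ≤ j →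
      b ≤ j ^ 2 * (N + x + 1) → μ.real {U | U ∈ G ∧ a * ((j + 4) * s + q) < nv (f U - mG μ G f)}
        ≤ 2 * Real.exp (-b) := by
    intro f a j b ha hf hj hb
    refine le_trans (measureReal_mono fun U hU => ?_)
      ((hf.tail ha hμ hc hG hp hp2 (t := j * s) (by positivity)).trans ?_)
    · exact ⟨hU.1, lt_of_le_of_lt (mul_le_mul_of_nonneg_left (by linarith) ha.le) hU.2⟩
    · have : b ≤ c * (j * s) ^ 2 := by
        rw [mul_pow, mul_left_comm, s3]
        exact hb.trans (mul_le_mul_of_nonneg_left (by linarith) (sq_nonneg _))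
      gcongr
  set E0 : Set (OG n) := ⋃ a ∈ box ι 0, {U | U ∈ G ∧ L * ((3 + 4) * s + q) <
    nv (F (rep ph 0 a) U - mG μ G (F (rep ph 0 a)))} with hE0
  set E : ℕ → Set (OG n) := fun l => ⋃ a ∈ box ι (l + 1) ×ˢ box ι l,
    {U | (∀ i, |ph (rep ph (l + 1) a.1) i - ph (rep ph l a.2) i| ≤ 2 / 2 ^ l) ∧ U ∈ G ∧
      L * (2 / 2 ^ l) * ((l + 3 + 4) * s + q) < nv (F (rep ph (l + 1) a.1) U - F (rep ph l a.2) U
        - mG μ G fun U => F (rep ph (l + 1) a.1) U - F (rep ph l a.2) U)} with hE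
  have p0 : μ.real E0 ≤ Real.exp (-x) / 2 := by
    refine (measureReal_biUnion_finset_le _ _).trans ?_
    refine (Finset.sum_le_card_nsmul _ _ (2 * Real.exp (-(2 * N + x + 2))) fun a _ =>
      one _ L 3 _ hL (hpt _) (by norm_num) (by linarith)).trans ?_
    rw [nsmul_eq_mul]
    refine (mul_le_mul_of_nonneg_right (card_box 0) (by positivity)).trans ?_
    have h1 := exp_neg_le 2
    have e : Real.exp (((0 : ℕ) + 2) * N) * (2 * Real.exp (-(2 * N + x + 2)))
        = 2 * (Real.exp (-x) * Real.exp (-((2 : ℕ) : ℝ))) := by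
      rw [mul_left_comm, ← Real.exp_add, ← Real.exp_add]; push_cast; ring_nf
    rw [e]
    nlinarith [Real.exp_pos (-x)]
  have pl : ∀ l, μ.real (E l) ≤ Real.exp (-x) / 4 * (1 / 2) ^ l := by
    intro l
    have hl : (0 : ℝ) ≤ l := Nat.cast_nonneg _
    refine (measureReal_biUnion_finset_le _ _).trans ?_
    refine (Finset.sum_le_card_nsmul _ _ (2 * Real.exp (-((2 * l + 5) * N + x + (l + 3))))
      fun a _ => ?_).trans ?_
    · by_cases hr : ∀ i, |ph (rep ph (l + 1) a.1) i - ph (rep ph l a.2) i| ≤ 2 / 2 ^ l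
      · simp only [hr, implies_true, true_and]
        refine one _ _ (l + 3) _ (by positivity) (hinc _ _ _ (by positivity) hr) (by positivity) ?_
        nlinarith [mul_nonneg hl hN0, mul_nonneg hl hx, mul_nonneg (mul_nonneg hl hl) hN0,
          mul_nonneg (mul_nonneg hl hl) hx, mul_nonneg hl hl]
      · simp only [hr, false_and, ofPred_false, measureReal_empty]
        positivity
    · rw [nsmul_eq_mul, Finset.card_product, Nat.cast_mul]
      refine (mul_le_mul_of_nonneg_right (mul_le_mul (card_box (l + 1)) (card_box l)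
        (Nat.cast_nonneg _) (Real.exp_pos _).le) (by positivity)).trans ?_
      have h1 := exp_neg_le (l + 3)
      have e : Real.exp (((l + 1 : ℕ) + 2) * N) * Real.exp ((l + 2) * N) *
          (2 * Real.exp (-((2 * l + 5) * N + x + (l + 3))))
          = 2 * (Real.exp (-x) * Real.exp (-((l + 3 : ℕ) : ℝ))) := by
        rw [mul_left_comm, ← Real.exp_add, ← Real.exp_add, ← Real.exp_add]; push_cast; ring_nf
      have e2 : Real.exp (-x) / 4 * (1 / 2) ^ l = 2 * (Real.exp (-x) * (1 / 2 ^ (l + 3))) := by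
        rw [pow_add, _root_.one_div_pow]; field_simp; norm_num
      rw [e, e2]
      gcongr
  have hsub : {U | U ∈ G ∧ ∃ t, L * (39 * s + 5 * q + 2) < nv (F t U - mG μ G (F t))} ⊆
      E0 ∪ ⋃ l ∈ Finset.range K, E l := by
    rintro U ⟨hU, t, ht⟩
    by_contra hn
    simp only [mem_union, not_or, mem_iUnion, not_exists, hE0, hE, mem_ofPred_eq, not_and,
      not_lt, Finset.mem_range] at hn
    obtain ⟨h0, hl⟩ := hn
    have ind : ∀ l ≤ K, nv (F (rep ph l (cell ph l t)) U - mG μ G (F (rep ph l (cell ph l t))))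
        ≤ L * ((39 - (4 * l + 32) / 2 ^ l) * s + (5 - 4 / 2 ^ l) * q) := by
      intro l
      induction l with
      | zero =>
        intro _
        refine (h0 _ (cell_mem hph 0 t) hU).trans (le_of_eq ?_)
        norm_num
      | succ l ih =>
        intro hlk
        have h1 := ih (by omega)
        have h2 : (0 : ℝ) < 2 ^ l := by positivity
        have h3 := hl l (by omega) (cell ph (l + 1) t, cell ph l t)
          (Finset.mem_product.2 ⟨cell_mem hph _ t, cell_mem hph _ t⟩)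
          (fun i => by
            have a1 := near_rep ph (l + 1) t i
            have a2 := near_rep ph l t i
            have a3 : (1 : ℝ) / 2 ^ (l + 1) ≤ 1 / 2 ^ l := by
              rw [pow_succ]; exact one_div_le_one_div_of_le h2 (by linarith)
            have a4 : (2 : ℝ) / 2 ^ l = 1 / 2 ^ l + 1 / 2 ^ l := by ring
            rw [abs_sub_comm] at a1
            exact (abs_sub_le _ (ph t i) _).trans (by linarith)) hU
        simp only at h3
        rw [mG_sub (hpt _) (hpt _) hG, sub_sub_sub_comm] at h3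
        have h4 := nv_add_le
          (F (rep ph (l + 1) (cell ph (l + 1) t)) U - mG μ G (F (rep ph (l + 1) (cell ph (l + 1) t)))
            - (F (rep ph l (cell ph l t)) U - mG μ G (F (rep ph l (cell ph l t)))))
          (F (rep ph l (cell ph l t)) U - mG μ G (F (rep ph l (cell ph l t))))
        rw [sub_add_cancel] at h4
        refine h4.trans ((add_le_add h3 h1).trans (le_of_eq ?_))
        rw [pow_succ]
        push_cast
        field_simp
        ring
    have h1 := ind K le_rfl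
    have h2 : (0 : ℝ) < 2 ^ K := by positivity
    set r := rep ph K (cell ph K t) with hr
    have h3 := hinc t r _ (by positivity) (near_rep ph K t)
    have h4 : nv (F t U - F r U - mG μ G fun U => F t U - F r U) ≤
        2 * (κ * (L * (1 / 2 ^ K))) * √k :=
      nv_le_sqrt (by positivity) fun i => by
        have a1 := h3.bd U hU i
        have a2 := h3.abs_mG_le (μ := μ) i
        exact (abs_sub _ _).trans (by linarith)
    rw [mG_sub (hpt _) (hpt _) hG, sub_sub_sub_comm] at h4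
    have h5 := nv_add_le (F t U - mG μ G (F t) - (F r U - mG μ G (F r))) (F r U - mG μ G (F r))
    rw [sub_add_cancel] at h5
    have h7 : 2 * (κ * (L * (1 / 2 ^ K))) * √k ≤ L * 2 := by
      have e : 2 * (κ * (L * (1 / 2 ^ K))) * √k = L * 2 * (√k * κ / 2 ^ K) := by ring
      rw [e]
      exact mul_le_of_le_one_right (by positivity) ((div_le_one h2).2 hK.le)
    have h8 : 0 ≤ L * ((4 * K + 32) / 2 ^ K * s + 4 / 2 ^ K * q) := by positivity
    linarith
  refine (measureReal_mono hsub).trans ((measureReal_union_le _ _).trans ?_)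
  have h1 := (measureReal_biUnion_finset_le (μ := μ) (Finset.range K) E).trans
    (Finset.sum_le_sum fun l _ => pl l)
  rw [← Finset.mul_sum] at h1
  have h2 := mul_le_mul_of_nonneg_left (sum_geometric_two_le K)
    (show 0 ≤ Real.exp (-x) / 4 by positivity)
  linarith

/-- chaining for diagonals of matrix families, parameters in the cube `[-1,1]^n`, rate `n / 256` -/
theorem CL.chain {B : ℝ} {M : T → OG n → Mat n} (h : CL G ρ B M) (hn : 0 < n)
    (hμ : Conc μ (n / 256)) (hG : MeasurableSet G) (hp : μ.real Gᶜ ≤ p) (hp2 : n * p ≤ 1 / 2)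
    (ph : T → Vec n) (hph : ∀ t i, |ph t i| ≤ 1)
    (hρ : ∀ t s e, 0 ≤ e → (∀ i, |ph t i - ph s i| ≤ e) → ρ t s ≤ e) :
    μ.real {U | U ∈ G ∧ ∃ t, 2000 * B < nv ((M t U).diag - mG μ G fun V => (M t V).diag)} ≤
      Real.exp (-(2 * n)) := by
  have hn1 : (1 : ℝ) ≤ n := by exact_mod_cast hn
  have hp0 : 0 ≤ p := measureReal_nonneg.trans hp
  have hB := h.one
  refine le_trans (measureReal_mono fun U hU => ?_)
    (Ch.chain hμ (by positivity) hG hp (by nlinarith) ph hph (by linarith) zero_le_one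
      (fun t => (h.pt t).vo) (fun t s e he hts => ((h.inc t s).mono
        (mul_le_mul_of_nonneg_left (hρ t s e he.le hts) (by linarith))).vo) (x := 2 * n)
      (by positivity))
  refine ⟨hU.1, hU.2.imp fun t ht => lt_of_le_of_lt ?_ ht⟩
  have h1 : √((n + Fintype.card (Fin n) + 2 * n + 3) / (n / 256) : ℝ) ≤ 43 := by
    refine Real.sqrt_le_iff.2 ⟨by norm_num, ?_⟩
    rw [Fintype.card_fin, div_le_iff₀ (by positivity)]
    linarith
  have h2 : √n * (1 * p) ≤ 1 / 2 := by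
    rw [one_mul]
    refine le_trans (mul_le_mul_of_nonneg_right ?_ hp0) hp2
    exact Real.sqrt_le_iff.2 ⟨by positivity, by nlinarith⟩
  nlinarith

end Cells

theorem chainStmt : ChainStmt := by
  refine ⟨2000, fun n μ _ G ι T m c a Λ hn hΛ hμ hG hp hm hb hl hi hc => ?_⟩
  have hn1 : (1 : ℝ) ≤ n := by exact_mod_cast hn
  have hs : 0 ≤ √(n : ℝ) := Real.sqrt_nonneg _
  have hpt : ∀ t : T, VO G (√n) Λ (a t) := fun t => ⟨hΛ.le, hs, fun U hU i =>
    (abs_le_nv _ i).trans ((hb t t.2 U hU).trans (mul_comm _ _).le), hl t t.2⟩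
  have tri : ∀ t : T, ∀ U, nv (a t U - c t) ≤ nv (a t U - mG μ G (a t)) + Λ := fun t U =>
    (nv_sub_triangle _ (mG μ G (a t)) _).trans (add_le_add le_rfl (hc t t.2))
  rcases Nat.lt_or_ge n 2 with h2 | h2
  · obtain rfl : n = 1 := by omega
    refine le_trans (le_of_eq ?_) (Real.exp_pos _).le
    rw [← measureReal_empty (μ := μ)]
    congr 1
    refine eq_empty_of_forall_notMem fun U ⟨hU, t, ht, hlt⟩ => ?_
    have h1 := tri ⟨t, ht⟩ U
    have h3 := nv_sub_le (a t U) (mG μ G (a t))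
    have h4 := hb t ht U hU
    have h5 := nv_le_sqrt (by positivity) ((hpt ⟨t, ht⟩).abs_mG_le (μ := μ))
    simp only [Nat.cast_one, Real.sqrt_one] at h1 h4 h5
    linarith
  have hn2 : (2 : ℝ) ≤ n := by exact_mod_cast h2
  refine le_trans (measureReal_mono fun U hU => ?_)
    (chain (T := T) (F := fun t => a t) hμ (by positivity) hG hp
      (by rw [← one_div]; exact one_div_le_one_div_of_le two_pos hn2) (fun t => m t)
      (fun t => hm t t.2) hΛ hs hpt (fun t s e he hts => ⟨by positivity, hs, fun U hU i =>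
        (abs_le_nv _ i).trans ((hi t t.2 s s.2 e he hts U hU).1.trans (mul_comm _ _).le),
        fun U hU => (hi t t.2 s s.2 e he hts U hU).2⟩) (x := n) (by positivity))
  obtain ⟨hU, t, ht, hlt⟩ := hU
  refine ⟨hU, ⟨t, ht⟩, ?_⟩
  have h1 : √((n + Fintype.card (Fin n) + n + 3) / (n / 256) : ℝ) ≤ 43 := by
    refine Real.sqrt_le_iff.2 ⟨by norm_num, ?_⟩
    rw [Fintype.card_fin, div_le_iff₀ (by positivity)]
    linarith
  have h3 : √n * (√n * (n : ℝ)⁻¹) = 1 := by
    rw [← mul_assoc, Real.mul_self_sqrt (by positivity), mul_inv_cancel₀ (by positivity)]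
  have h4 := tri ⟨t, ht⟩ U
  rw [h3]
  nlinarith

/-! ### constants as powers of `B` -/

section Pow

variable {G : Set (OG n)} {ρ : T → T → ℝ} {B : ℝ} {a b : ℕ} {M N : T → OG n → Mat n}
  {u v : T → OG n → ℝ}

theorem four_le (hB : 2 ≤ B) : 4 ≤ B ^ 2 := by nlinarith

theorem CL.pmono (h : CL G ρ (B ^ a) M) (hB : 2 ≤ B) (hab : a ≤ b) : CL G ρ (B ^ b) M :=
  h.mono (pow_le_pow_right₀ (by linarith) hab)

theorem CL.padd (h : CL G ρ (B ^ a) M) (hB : 2 ≤ B) (h' : CL G ρ (B ^ b) N) :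
    CL G ρ (B ^ (max a b + 1)) fun t U => M t U + N t U := by
  refine ((h.pmono hB (le_max_left a b)).add (h'.pmono hB (le_max_right a b))).mono ?_
  have : 0 ≤ B ^ max a b := by positivity
  rw [pow_succ]
  nlinarith

theorem CL.psub (h : CL G ρ (B ^ a) M) (hB : 2 ≤ B) (h' : CL G ρ (B ^ b) N) :
    CL G ρ (B ^ (max a b + 1)) fun t U => M t U - N t U :=
  (h.padd hB h'.neg).congr fun _ _ _ => sub_eq_add_neg _ _

theorem CL.pmul (h : CL G ρ (B ^ a) M) (hB : 2 ≤ B) (h' : CL G ρ (B ^ b) N) :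
    CL G ρ (B ^ (a + b + 2)) fun t U => M t U * N t U := by
  refine (h.mul h').mono ?_
  have h0 : 0 ≤ B ^ a * B ^ b := by positivity
  rw [pow_add, pow_add]
  nlinarith [four_le hB]

theorem CL.pinv (h : CL G ρ (B ^ a) M) (hB : 2 ≤ B) (hu : ∀ t, ∀ U ∈ G, IsUnit (M t U).det)
    (hi : ∀ t, ∀ U ∈ G, OpLe (M t U)⁻¹ B) : CL G ρ (B ^ (3 * a + 6)) fun t U => (M t U)⁻¹ := by
  refine (h.inv (by linarith) hu hi).mono ?_
  have h0 : 0 ≤ B ^ 4 * (B ^ a) ^ 3 := by positivity
  have e : B ^ (3 * a + 6) = B ^ 2 * (B ^ 4 * (B ^ a) ^ 3) := by ring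
  rw [e]
  nlinarith [four_le hB]

theorem SL.psub (h : SL G ρ (B ^ a) u) (hB : 2 ≤ B) (h' : SL G ρ (B ^ b) v) :
    SL G ρ (B ^ (max a b + 1)) fun t U => u t U - v t U :=
  (CL.psub h hB h').congr fun _ _ _ => sub_smul _ _ _

theorem SL.padd (h : SL G ρ (B ^ a) u) (hB : 2 ≤ B) (h' : SL G ρ (B ^ b) v) :
    SL G ρ (B ^ (max a b + 1)) fun t U => u t U + v t U :=
  (CL.padd h hB h').congr fun _ _ _ => add_smul _ _ _

theorem SL.psmul (h : SL G ρ (B ^ a) u) (hB : 2 ≤ B) (h' : CL G ρ (B ^ b) M) :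
    CL G ρ (B ^ (a + b + 2)) fun t U => u t U • M t U :=
  (CL.pmul h hB h').congr fun _ _ _ => by rw [smul_mul_assoc, one_mul]

theorem SL.pmul (h : SL G ρ (B ^ a) u) (hB : 2 ≤ B) (h' : SL G ρ (B ^ b) v) :
    SL G ρ (B ^ (a + b + 2)) fun t U => u t U * v t U :=
  (h.psmul hB h').congr fun _ _ _ => mul_smul _ _ _

theorem SL.pinv (h : SL G ρ (B ^ a) u) (hB : 2 ≤ B) (hi : ∀ t, ∀ U ∈ G, 1 ≤ B * |u t U|) :
    SL G ρ (B ^ (3 * a + 6)) fun t U => (u t U)⁻¹ := by
  refine (h.inv (by linarith) hi).mono ?_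
  have h0 : 0 ≤ B ^ 4 * (B ^ a) ^ 3 := by positivity
  have e : B ^ (3 * a + 6) = B ^ 2 * (B ^ 4 * (B ^ a) ^ 3) := by ring
  rw [e]
  nlinarith [four_le hB]

end Pow

/-! ### the EC objects on a fibre -/

theorem fr_sub (R S : Mat n) (O : OG n) : fr (R - S) O = fr R O - fr S O := by
  simp only [fr, mul_sub, sub_mul]

theorem fr_smul (c : ℝ) (R : Mat n) (O : OG n) : fr (c • R) O = c • fr R O := by
  simp only [fr, mul_smul_comm, smul_mul_assoc]

theorem Nm_fr (J : Mat n) (z : ℝ) (O : OG n) : Nm (fr J O) z = fr (Nm J z) O := by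
  rw [Nm, Nm, fr_sub, fr_smul, fr_one]

theorem fr_inv {A : Mat n} (hA : IsUnit A.det) (O : OG n) : (fr A O)⁻¹ = fr A⁻¹ O :=
  Matrix.inv_eq_left_inv (by rw [fr_mul, Matrix.nonsing_inv_mul _ hA, fr_one])

theorem unit_fr {A : Mat n} (hA : IsUnit A.det) (O : OG n) : IsUnit (fr A O).det :=
  Matrix.isUnit_det_of_left_inverse (B := fr A⁻¹ O)
    (by rw [fr_mul, Matrix.nonsing_inv_mul _ hA, fr_one])

theorem G0_fr {J : Mat n} {z : ℝ} (h : IsUnit (Nm J z).det) (O : OG n) :
    G0 (fr J O) z = fr (G0 J z) O := by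
  rw [G0, Nm_fr, fr_inv h, G0]

theorem T2_fr {J : Mat n} {z : ℝ} (h : IsUnit (Nm J z).det) (O : OG n) :
    T2 (fr J O) z = T2 J z := by
  rw [T2, G0_fr h, fr_mul, trace_fr, T2]

theorem cc_fr {J : Mat n} {z : ℝ} (h : IsUnit (Nm J z).det) (x : Vec n) (O : OG n) :
    cc (fr J O) x z = cc J x z := by
  rw [cc, T2_fr h, cc]

theorem abs_tm_le (x : Vec n) (i : Fin n) : |tm x i| ≤ 1 := (Real.abs_tanh_lt_one _).le

theorem dv_mem (x : Vec n) (i : Fin n) : 0 ≤ dv x i ∧ dv x i ≤ 1 := by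
  have h := abs_le.1 (abs_tm_le x i)
  have e : dv x i = 1 - tm x i ^ 2 := rfl
  rw [e]
  constructor <;> nlinarith

theorem abs_dv_sub {x y : Vec n} {e : ℝ} {i : Fin n} (h : |tm x i - tm y i| ≤ e) :
    |dv x i - dv y i| ≤ 2 * e := by
  have e1 : dv x i - dv y i = -(tm x i + tm y i) * (tm x i - tm y i) := by
    simp only [dv, tm]; ring
  rw [e1, abs_mul, abs_neg]
  exact mul_le_mul ((abs_add_le _ _).trans (by linarith [abs_tm_le x i, abs_tm_le y i])) h
    (abs_nonneg _) zero_le_two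

theorem abs_avg_le {v : Vec n} {C : ℝ} (hC : 0 ≤ C) (h : ∀ i, |v i| ≤ C) :
    |(∑ i, v i) / n| ≤ C := by
  rcases Nat.eq_zero_or_pos n with rfl | hn
  · simpa using hC
  have hn' : (0 : ℝ) < n := by exact_mod_cast hn
  rw [abs_div, abs_of_pos hn', div_le_iff₀' hn']
  refine (Finset.abs_sum_le_sum_abs _ _).trans ?_
  calc _ ≤ ∑ _i : Fin n, C := Finset.sum_le_sum fun i _ => h i
    _ = n * C := by simp

theorem abs_wb_le (x : Vec n) : |wb x| ≤ 1 :=
  abs_avg_le zero_le_one fun i => abs_le.2 ⟨by linarith [(dv_mem x i).1], (dv_mem x i).2⟩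

theorem abs_wb_sub {x y : Vec n} {e : ℝ} (he : 0 ≤ e) (h : ∀ i, |tm x i - tm y i| ≤ e) :
    |wb x - wb y| ≤ 2 * e := by
  rw [wb, wb, ← sub_div, ← Finset.sum_sub_distrib]
  exact abs_avg_le (by positivity) fun i => abs_dv_sub (h i)

/-- sup distance of the magnetisations -/
noncomputable def rh (T : Set (Vec n × ℝ)) (t s : T) : ℝ := dist (tm t.1.1) (tm s.1.1)

theorem rh_nonneg {T : Set (Vec n × ℝ)} (t s : T) : 0 ≤ rh T t s := dist_nonneg

theorem le_rh {T : Set (Vec n × ℝ)} (t s : T) (i : Fin n) :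
    |tm t.1.1 i - tm s.1.1 i| ≤ rh T t s := dist_le_pi_dist (tm t.1.1) (tm s.1.1) i

theorem rh_le {T : Set (Vec n × ℝ)} (t s : T) (e : ℝ) (he : 0 ≤ e)
    (h : ∀ i, |tm t.1.1 i - tm s.1.1 i| ≤ e) : rh T t s ≤ e := (dist_pi_le_iff he).2 h

section Fam

variable {B B1 B2 : ℝ} {P J Q : Mat n} {μ : Measure (OG n)} {G : Set (OG n)}
  {T : Set (Vec n × ℝ)} (h : Fam B B1 B2 P J Q μ G T)
include h

theorem wb_ge (t : T) : 99 / 100 ≤ wb t.1.1 := by
  have h1 := (h.pt t t.2).hq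
  have h2 := (abs_le.1 (abs_wb_le t.1.1)).2
  nlinarith [h.cs.h1]

omit h in
theorem cl_one : CL G (rh T) (B ^ 0) fun _ _ => (1 : Mat n) :=
  .fix G rh_nonneg (by simp) (by simpa using opLe_one)

theorem cl_fix {A : Mat n} (hA : OpLe A B) : CL G (rh T) (B ^ 1) fun _ _ => A :=
  .fix G rh_nonneg (by linarith [h.cs.hB]) (by simpa using hA)

theorem cl_fr {A : Mat n} (hA : OpLe A B) : CL G (rh T) (B ^ 2) fun _ => fr A :=
  (CL.frame_fix G rh_nonneg (by linarith [h.cs.hB]) hA).mono (by nlinarith [h.cs.hB])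

theorem cl_Q : CL G (rh T) (B ^ 2) fun _ => fr Q := cl_fr h h.cs.bQ

theorem cl_D : CL G (rh T) (B ^ 1) fun t _ => Dm t.1.1 := by
  have hB := h.cs.hB
  refine CL.diag G rh_nonneg (by linarith) (fun t i => ?_) fun t s i => ?_
  · exact abs_le.2 ⟨by linarith [(dv_mem t.1.1 i).1], by linarith [(dv_mem t.1.1 i).2]⟩
  · exact (abs_dv_sub (le_rh t s i)).trans
      (mul_le_mul_of_nonneg_right (by linarith) (rh_nonneg t s))

theorem sl_w : SL G (rh T) (B ^ 1) fun t _ => wb t.1.1 := by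
  have hB := h.cs.hB
  exact SL.const G rh_nonneg (by linarith) (fun t => (abs_wb_le _).trans (by linarith))
    fun t s => (abs_wb_sub (rh_nonneg t s) (le_rh t s)).trans
      (mul_le_mul_of_nonneg_right (by linarith) (rh_nonneg t s))

theorem sl_wi : SL G (rh T) (B ^ 9) fun t _ => (wb t.1.1)⁻¹ :=
  (sl_w h).pinv h.cs.hB fun t _ _ => by
    have := (wb_ge h t).trans (le_abs_self _)
    nlinarith [h.cs.hB]

theorem cl_V : CL G (rh T) (B ^ 2) fun t _ => Vm t.1.1 :=
  ((cl_D h).psub h.cs.hB (sl_w h)).congr fun t _ _ => by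
    rw [Dm, smul_one_eq_diagonal, diagonal_sub]; rfl

theorem op_N (t s : T) : OpLe (Nm J t.1.2 - Nm J s.1.2) (2 * B * rh T t s) := by
  have hB := h.cs.hB
  rw [Nm, Nm, sub_sub_sub_cancel_right, ← sub_smul]
  refine op_smul_one ((h.lz t t.2 s s.2).trans ((mul_le_mul_of_nonneg_left
    (abs_wb_sub (rh_nonneg t s) (le_rh t s)) (by linarith)).trans (le_of_eq (by ring))))

theorem cl_N : CL G (rh T) (B ^ 3) fun t U => Nm (fr J U) t.1.2 := by
  have hB := h.cs.hB
  refine ((CL.frame G rh_nonneg (B := 2 * B) (R := fun t : T => Nm J t.1.2) (by linarith)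
    (fun t => (h.pt t t.2).bN.monoN (by linarith) (by linarith)) (op_N h)).mono ?_).congr
    fun t U _ => Nm_fr _ _ _
  nlinarith [four_le hB]

theorem cl_G0 : CL G (rh T) (B ^ 15) fun t U => G0 (fr J U) t.1.2 :=
  (cl_N h).pinv h.cs.hB (fun t U _ => by rw [Nm_fr]; exact unit_fr (h.pt t t.2).uN U)
    fun t U _ => by
      have := op_fr (by linarith [h.cs.hB]) (h.pt t t.2).bG U
      rwa [← G0_fr (h.pt t t.2).uN] at this

theorem sl_T2 : SL G (rh T) (B ^ 26) fun t _ => T2 J t.1.2 / n := by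
  have hB := h.cs.hB
  have h1 : CL G (rh T) (B ^ 2) fun t _ => Nm J t.1.2 :=
    (CL.const G rh_nonneg (B := 2 * B) (A := fun t : T => Nm J t.1.2) (by linarith)
      (fun t => (h.pt t t.2).bN.monoN (by linarith) (by linarith)) (op_N h)).mono (by nlinarith)
  have h2 : CL G (rh T) (B ^ 12) fun t _ => G0 J t.1.2 :=
    h1.pinv hB (fun t _ _ => (h.pt t t.2).uN) fun t _ _ => (h.pt t t.2).bG
  have h3 : CL G (rh T) (B ^ 26) fun t _ => G0 J t.1.2 * G0 J t.1.2 := h2.pmul hB h2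
  simp only [T2]
  exact SL.trn h3

theorem sl_cc : SL G (rh T) (B ^ 88) fun t _ => n * cc J t.1.1 t.1.2 := by
  have hB := h.cs.hB
  have hn : (0 : ℝ) < n := by exact_mod_cast h.cs.npos
  have h1 := (sl_T2 h).pinv hB fun t _ _ => by
    have h2 := (h.pt t t.2).bT
    refine le_trans ?_ (mul_le_mul_of_nonneg_left (le_abs_self _) (by linarith))
    rw [← mul_div_assoc, le_div_iff₀ hn]
    linarith
  have h2 : SL G (rh T) (B ^ 1) fun _ _ => 2 :=
    SL.const G rh_nonneg (by linarith) (fun _ => by rw [abs_two]; linarith) fun t s => by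
      rw [sub_self, abs_zero]; exact mul_nonneg (by linarith) (rh_nonneg t s)
  refine (h2.pmul hB (h1.psub hB ((sl_wi h).pmul hB (sl_wi h)))).congr fun t _ _ => ?_
  have h3 := wb_ge h t
  rw [cc]
  field_simp

theorem cl_mm : CL G (rh T) (B ^ 1) fun t _ => (n : ℝ)⁻¹ • vecMulVec (tm t.1.1) (tm t.1.1) := by
  have hB := h.cs.hB
  have hn : (0 : ℝ) < n := by exact_mod_cast h.cs.npos
  have key : ∀ (u v : Vec n) (a b : ℝ), 0 ≤ a → 0 ≤ b → (∀ i, |u i| ≤ a) → (∀ i, |v i| ≤ b) →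
      OpLe ((n : ℝ)⁻¹ • vecMulVec u v) (a * b) := by
    intro u v a b ha hb hu hv
    have h0 := mul_nonneg (nv_nonneg u) (nv_nonneg v)
    refine ((opLe_vecMulVec u v).smul h0 _).monoN (by positivity) ?_
    have h1 := mul_le_mul (nv_le_sqrt ha hu) (nv_le_sqrt hb hv) (nv_nonneg _) (by positivity)
    have h2 := Real.mul_self_sqrt hn.le
    rw [abs_of_pos (inv_pos.2 hn), inv_mul_le_iff₀ hn]
    refine h1.trans (le_of_eq ?_)
    linear_combination a * b * h2
  refine CL.const G rh_nonneg (by linarith) (fun t => (key _ _ 1 1 zero_le_one zero_le_one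
    (abs_tm_le _) (abs_tm_le _)).monoN (by norm_num) (by linarith)) fun t s => ?_
  have h0 := rh_nonneg t s
  have e : (n : ℝ)⁻¹ • vecMulVec (tm t.1.1) (tm t.1.1) - (n : ℝ)⁻¹ • vecMulVec (tm s.1.1) (tm s.1.1)
      = (n : ℝ)⁻¹ • vecMulVec (tm t.1.1 - tm s.1.1) (tm t.1.1)
        + (n : ℝ)⁻¹ • vecMulVec (tm s.1.1) (tm t.1.1 - tm s.1.1) := by
    ext i j; simp only [Matrix.sub_apply, Matrix.add_apply, Matrix.smul_apply, vecMulVec_apply,
      Pi.sub_apply, smul_eq_mul]; ring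
  rw [e]
  exact ((key _ _ _ 1 h0 zero_le_one (le_rh t s) (abs_tm_le _)).add
    (key _ _ 1 _ zero_le_one h0 (abs_tm_le _) (le_rh t s)) (by positivity) (by positivity)).monoN
    (by positivity) (by nlinarith)

theorem cl_C : CL G (rh T) (B ^ 91) fun t _ =>
    cc J t.1.1 t.1.2 • vecMulVec (tm t.1.1) (tm t.1.1) := by
  have hn : (n : ℝ) ≠ 0 := by exact_mod_cast h.cs.npos.ne'
  refine ((sl_cc h).psmul h.cs.hB (cl_mm h)).congr fun t _ _ => ?_
  rw [smul_smul, mul_comm (n : ℝ), mul_assoc, mul_inv_cancel₀ hn, mul_one]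

theorem cl_am : CL G (rh T) (B ^ 10) fun t U => am (fr J U) t.1.1 t.1.2 :=
  (cl_N h).psub h.cs.hB (sl_wi h)

theorem cl_Gam : CL G (rh T) (B ^ 294) fun t U => Gam (fr J U) t.1.1 t.1.2 := by
  have hB := h.cs.hB
  have h1 : CL G (rh T) (B ^ 96) fun t U => Lm (fr J U) t.1.1 t.1.2 :=
    (cl_one.padd hB (((cl_am h).padd hB (cl_C h)).pmul hB (cl_D h))).congr fun t U _ => by
      rw [Lm, EC.Bm, cc_fr (h.pt t t.2).uN]; rfl
  exact h1.pinv hB (fun t U hU => (h.gd U hU t t.2).uL) fun t U hU => (h.gd U hU t t.2).bGam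

theorem cl_Gm : CL G (rh T) (B ^ 297) fun t U => Gm (fr J U) t.1.1 t.1.2 :=
  (cl_D h).pmul h.cs.hB (cl_Gam h)

theorem cl_Xi : CL G (rh T) (B ^ 594) fun t U =>
    Gam (fr J U) t.1.1 t.1.2 * fr Q U * (Gam (fr J U) t.1.1 t.1.2)ᵀ :=
  ((cl_Gam h).pmul h.cs.hB (cl_Q h)).pmul h.cs.hB (cl_Gam h).transpose

end Fam

theorem lipStmt : LipStmt := by
  refine ⟨594, fun n B B1 B2 P J Q μ G T h => ?_⟩
  have h1 := cl_Xi h
  have h0 : 0 ≤ B ^ 594 := zero_le_one.trans h1.one
  refine ⟨fun t ht U hU => nv_le_sqrt h0 fun i => ?_, fun t ht => (h1.pt ⟨t, ht⟩).vo.lip,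
    fun t ht s hs δ hδ hd U hU => ?_⟩
  · exact abs_entry_op h0 ((h1.pt ⟨t, ht⟩).op U hU) i i
  · have h2 := (h1.inc ⟨t, ht⟩ ⟨s, hs⟩).mono
      (mul_le_mul_of_nonneg_left (rh_le ⟨t, ht⟩ ⟨s, hs⟩ δ hδ.le hd) h0)
    exact ⟨nv_le_sqrt h2.nn fun i => abs_entry_op h2.nn (h2.op U hU) i i, h2.vo.lip U hU⟩

end Vale.Agent.N150.KB.Ch
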