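import Vale.Agent.N150.ECAux

/-! T1, block D1: exact increments of the EC equations between two points `(h, z)`, `(h', z')`. -/

open Matrix Finset

namespace Vale.Agent.N150.T1A

open Vale.Agent.P150 Vale.Agent.P150.F Vale.Agent.N150.EC

variable {n : ℕ}

/-- divided difference of `tanh` -/
noncomputable def dd1 (a b : ℝ) : ℝ :=
  if a = b then 1 - Real.tanh a ^ 2 else (Real.tanh a - Real.tanh b) / (a - b)
/-- divided differences, site by site -/
noncomputable def db (h h' : Vec n) : Vec n := fun i => dd1 (h i) (h' i)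
/-- `mu = (m + m') db / 2` -/
noncomputable def mu (h h' : Vec n) : Vec n := fun i => (tm h i + tm h' i) * db h h' i / 2
/-- `tr G0 G0'` -/
noncomputable def T2b (J : Mat n) (z z' : ℝ) : ℝ := (G0 J z * G0 J z').trace
/-- `1 - G0 / w` -/
noncomputable def Kw (J : Mat n) (z w : ℝ) : Mat n := 1 - w⁻¹ • G0 J z
/-- `VW = (db - w) + (2 / (n w')) m' muᵀ` -/
noncomputable def VW (h h' : Vec n) : Mat n :=
  diagonal (db h h') - wb h • (1 : Mat n) + (2 / (n * wb h')) • vecMulVec (tm h') (mu h h')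
/-- `Psi = G0 res1` -/
noncomputable def Psi (J : Mat n) (y h : Vec n) (z : ℝ) : Vec n := G0 J z *ᵥ res1 J y h z
/-- `chi = m / w - h` -/
noncomputable def chi (h : Vec n) : Vec n := (wb h)⁻¹ • tm h - h
/-- the vector in front of `muᵀ` -/
noncomputable def rv (J : Mat n) (h' : Vec n) (z z' : ℝ) (p : Vec n) : Vec n :=
  (2 / T2b J z z') • (G0 J z *ᵥ (tm h' - p)) - (2 / (n * wb h')) • tm h'
/-- the increment matrix with a free vector `p` -/
noncomputable def Mp (J : Mat n) (h h' : Vec n) (z z' : ℝ) (p : Vec n) : Mat n :=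
  wb h • (1 : Mat n) + Kw J z (wb h) * VW h h' + vecMulVec (rv J h' z z' p) (mu h h')
/-- `w0 = tr G0 / n` -/
noncomputable def w0 (J : Mat n) (z0 : ℝ) : ℝ := (G0 J z0).trace / n
/-- `h0 = G0 y` -/
noncomputable def h0 (J : Mat n) (y : Vec n) (z0 : ℝ) : Vec n := G0 J z0 *ᵥ y
/-- the preconditioner -/
noncomputable def AA (J : Mat n) (y : Vec n) (z0 : ℝ) : Mat n :=
  w0 J z0 • (1 : Mat n) + (2 / T2 J z0) • vecMulVec (G0 J z0 *ᵥ h0 J y z0) (h0 J y z0)
/-- one Picard step from `(h, z)` -/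
noncomputable def Pic (J : Mat n) (y : Vec n) (z0 : ℝ) (h : Vec n) (z : ℝ) : Vec n :=
  h - (AA J y z0)⁻¹ *ᵥ Psi J y h z
/-- the small part of `Mp - AA` -/
noncomputable def Em (J : Mat n) (y : Vec n) (z0 : ℝ) (h h' : Vec n) (z z' : ℝ) (p : Vec n) :
    Mat n :=
  (wb h - w0 J z0) • (1 : Mat n) + vecMulVec (rv J h' z z' p) (mu h h')
    - (2 / T2 J z0) • vecMulVec (G0 J z0 *ᵥ h0 J y z0) (h0 J y z0)

/-! ### scalar facts -/

theorem hasDerivAt_tanh' (x : ℝ) : HasDerivAt Real.tanh (1 - Real.tanh x ^ 2) x := by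
  have hc := Real.cosh_pos x
  have h := (Real.hasDerivAt_sinh x).div (Real.hasDerivAt_cosh x) hc.ne'
  have e : Real.tanh = Real.sinh / Real.cosh := by
    funext x; exact Real.tanh_eq_sinh_div_cosh x
  have h' : HasDerivAt Real.tanh _ x := e ▸ h
  refine h'.congr_deriv ?_
  rw [Real.tanh_eq_sinh_div_cosh]
  field_simp

theorem dd1_self (a : ℝ) : dd1 a a = 1 - Real.tanh a ^ 2 := by simp [dd1]

theorem dd1_comm (a b : ℝ) : dd1 a b = dd1 b a := by
  unfold dd1
  by_cases h : a = b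
  · subst h; rfl
  · rw [if_neg h, if_neg (Ne.symm h), ← neg_sub (Real.tanh b), ← neg_sub b, neg_div_neg_eq]

theorem dd1_mul (a b : ℝ) : dd1 a b * (a - b) = Real.tanh a - Real.tanh b := by
  unfold dd1
  by_cases h : a = b
  · subst h; simp
  · rw [if_neg h, div_mul_cancel₀ _ (sub_ne_zero.2 h)]

theorem dd1_mvt_lt {a b : ℝ} (h : a < b) :
    ∃ x, a ≤ x ∧ x ≤ b ∧ dd1 a b = 1 - Real.tanh x ^ 2 := by
  obtain ⟨x, hx, e⟩ := exists_hasDerivAt_eq_slope Real.tanh (fun x => 1 - Real.tanh x ^ 2) h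
    (fun x _ => (hasDerivAt_tanh' x).continuousAt.continuousWithinAt)
    (fun x _ => hasDerivAt_tanh' x)
  refine ⟨x, hx.1.le, hx.2.le, ?_⟩
  rw [e, dd1_comm, dd1, if_neg h.ne']

/-- mean value form -/
theorem dd1_mvt (a b : ℝ) : ∃ x, min a b ≤ x ∧ x ≤ max a b ∧ dd1 a b = 1 - Real.tanh x ^ 2 := by
  rcases lt_trichotomy a b with h | h | h
  · obtain ⟨x, h1, h2, e⟩ := dd1_mvt_lt h
    exact ⟨x, (min_le_left _ _).trans h1, h2.trans (le_max_right _ _), e⟩
  · subst h
    exact ⟨a, by simp, by simp, dd1_self a⟩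
  · obtain ⟨x, h1, h2, e⟩ := dd1_mvt_lt h
    exact ⟨x, (min_le_right _ _).trans h1, h2.trans (le_max_left _ _), by rw [dd1_comm, e]⟩

theorem tanh_sq_lt (x : ℝ) : Real.tanh x ^ 2 < 1 := by
  have h1 := Real.tanh_lt_one x
  have h2 := Real.neg_one_lt_tanh x
  nlinarith

theorem dd1_pos (a b : ℝ) : 0 < dd1 a b := by
  obtain ⟨x, -, -, e⟩ := dd1_mvt a b
  rw [e]; linarith [tanh_sq_lt x]

theorem dd1_le (a b : ℝ) : dd1 a b ≤ 1 := by
  obtain ⟨x, -, -, e⟩ := dd1_mvt a b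
  rw [e]; nlinarith [sq_nonneg (Real.tanh x)]

theorem tanh_mono {a b : ℝ} (h : a ≤ b) : Real.tanh a ≤ Real.tanh b := by
  have h1 := dd1_mul a b
  have h2 := dd1_pos a b
  nlinarith

theorem abs_tanh_sub_le (a b : ℝ) : |Real.tanh a - Real.tanh b| ≤ |a - b| := by
  rw [← dd1_mul, abs_mul, abs_of_pos (dd1_pos a b)]
  exact mul_le_of_le_one_left (abs_nonneg _) (dd1_le a b)

/-- `1 - dd1 ≤ max (tanh a ^ 2) (tanh b ^ 2)` -/
theorem one_sub_dd1_le (a b : ℝ) : 1 - dd1 a b ≤ max (Real.tanh a ^ 2) (Real.tanh b ^ 2) := by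
  obtain ⟨x, h1, h2, e⟩ := dd1_mvt a b
  rw [e, sub_sub_cancel]
  have l1 : Real.tanh (min a b) ≤ Real.tanh x := tanh_mono h1
  have l2 : Real.tanh x ≤ Real.tanh (max a b) := tanh_mono h2
  have k1 : Real.tanh (min a b) ^ 2 ≤ max (Real.tanh a ^ 2) (Real.tanh b ^ 2) := by
    rcases min_choice a b with h | h <;> rw [h] <;> simp
  have k2 : Real.tanh (max a b) ^ 2 ≤ max (Real.tanh a ^ 2) (Real.tanh b ^ 2) := by
    rcases max_choice a b with h | h <;> rw [h] <;> simp
  rcases le_total 0 (Real.tanh x) with h | h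
  · nlinarith
  · nlinarith

/-- `|tanh x| ^ 3 ≤ 3 |x - tanh x|` -/
theorem abs_tanh_cube_le (x : ℝ) : |Real.tanh x| ^ 3 ≤ 3 * |x - Real.tanh x| := by
  have key : ∀ x : ℝ, 0 ≤ x → Real.tanh x ^ 3 ≤ 3 * (x - Real.tanh x) := by
    intro x hx
    have hd : ∀ t : ℝ, HasDerivAt (fun t => 3 * (t - Real.tanh t) - Real.tanh t ^ 3)
        (3 * Real.tanh t ^ 4) t := fun t => by
      have h1 := (((hasDerivAt_id t).sub (hasDerivAt_tanh' t)).const_mul 3).sub
        ((hasDerivAt_tanh' t).pow 3)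
      exact HasDerivAt.congr_deriv h1 (by norm_num; ring)
    have hm : Monotone (fun t => 3 * (t - Real.tanh t) - Real.tanh t ^ 3) :=
      monotone_of_deriv_nonneg (fun t => (hd t).differentiableAt) fun t => by
        rw [(hd t).deriv]; positivity
    have := hm hx
    simp only [Real.tanh_zero] at this
    linarith
  rcases le_total 0 x with h | h
  · have h1 := key x h
    have h2 : 0 ≤ Real.tanh x := by simpa using tanh_mono h
    rw [abs_of_nonneg h2]
    exact h1.trans (by linarith [le_abs_self (x - Real.tanh x)])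
  · have h1 := key (-x) (by linarith)
    have h2 : Real.tanh x ≤ 0 := by simpa using tanh_mono h
    rw [Real.tanh_neg] at h1
    rw [abs_of_nonpos h2]
    exact h1.trans (by linarith [neg_abs_le (x - Real.tanh x)])

/-! ### vector facts -/

theorem db_self (h : Vec n) : db h h = dv h := funext fun i => dd1_self (h i)

theorem db_pos (h h' : Vec n) (i : Fin n) : 0 < db h h' i := dd1_pos _ _

theorem db_le (h h' : Vec n) (i : Fin n) : db h h' i ≤ 1 := dd1_le _ _

theorem mu_self (h : Vec n) : mu h h = fun i => tm h i * dv h i := by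
  funext i; simp only [mu, db_self]; ring

theorem tm_sub (h h' : Vec n) : tm h - tm h' = diagonal (db h h') *ᵥ (h - h') := by
  funext i
  rw [mulVec_diagonal]
  exact (dd1_mul _ _).symm

theorem nv_tm_sub (h h' : Vec n) : nv (tm h - tm h') ≤ nv (h - h') :=
  nv_mono fun _ => abs_tanh_sub_le _ _

theorem nv_tm_le (h : Vec n) : nv (tm h) ≤ nv h :=
  nv_mono fun i => by simpa [tm] using abs_tanh_sub_le (h i) 0

theorem wb_eq (hn : 0 < n) (h : Vec n) : wb h = 1 - F.sq (tm h) / n := by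
  have hn' : (n : ℝ) ≠ 0 := Nat.cast_ne_zero.2 hn.ne'
  unfold wb F.sq
  simp only [dv_eq, Finset.sum_sub_distrib, Finset.sum_const, Finset.card_univ, Fintype.card_fin,
    nsmul_eq_mul, mul_one]
  field_simp

theorem wb_pos (hn : 0 < n) (h : Vec n) : 0 < wb h := by
  have : Nonempty (Fin n) := ⟨⟨0, hn⟩⟩
  exact div_pos (Finset.sum_pos (fun i _ => dv_pos h i) Finset.univ_nonempty) (Nat.cast_pos.2 hn)

theorem wb_le (hn : 0 < n) (h : Vec n) : wb h ≤ 1 := by
  rw [wb_eq hn]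
  have := sqN_nonneg (tm h)
  have : 0 ≤ F.sq (tm h) / n := by positivity
  linarith

theorem sq_tm_sub (h h' : Vec n) : F.sq (tm h) - F.sq (tm h') = 2 * ip (mu h h') (h - h') := by
  unfold F.sq ip
  rw [← Finset.sum_sub_distrib, Finset.mul_sum]
  refine Finset.sum_congr rfl fun i _ => ?_
  have e := dd1_mul (h i) (h' i)
  simp only [mu, db, tm, Pi.sub_apply]
  linear_combination (-(Real.tanh (h i) + Real.tanh (h' i))) * e

/-- D1: increment of `w` -/
theorem wb_sub (hn : 0 < n) (h h' : Vec n) : wb h' - wb h = 2 / n * ip (mu h h') (h - h') := by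
  rw [wb_eq hn, wb_eq hn]
  have := sq_tm_sub h h'
  have hn' : (n : ℝ) ≠ 0 := Nat.cast_ne_zero.2 hn.ne'
  field_simp
  linarith

theorem VW_mulVec (h h' v : Vec n) : VW h h' *ᵥ v = diagonal (db h h') *ᵥ v - wb h • v
    + (2 / (n * wb h') * ip (mu h h') v) • tm h' := by
  simp only [VW, add_mulVec, sub_mulVec, smul_mulVec, one_mulVec, F.vecMulVec_mulVec, smul_smul]

/-- D1, `chi` form -/
theorem chi_sub (hn : 0 < n) (h h' : Vec n) :
    chi h - chi h' = (wb h)⁻¹ • (VW h h' *ᵥ (h - h')) := by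
  have hw := (wb_pos hn h).ne'
  have hw' := (wb_pos hn h').ne'
  have hn' : (n : ℝ) ≠ 0 := Nat.cast_ne_zero.2 hn.ne'
  have e := wb_sub hn h h'
  rw [VW_mulVec, ← tm_sub]
  have e2 : 2 / (n * wb h') * ip (mu h h') (h - h') = (wb h' - wb h) / wb h' := by
    rw [e]; field_simp
  rw [e2]
  funext i
  simp only [chi, Pi.sub_apply, Pi.smul_apply, Pi.add_apply, smul_eq_mul]
  field_simp
  ring

theorem tm_eq (hn : 0 < n) (h : Vec n) : tm h = wb h • (h + chi h) := by
  have hw := (wb_pos hn h).ne'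
  funext i
  simp only [chi, Pi.sub_apply, Pi.smul_apply, Pi.add_apply, smul_eq_mul]
  field_simp
  ring

/-! ### resolvents -/

theorem G0_mul {J : Mat n} {z : ℝ} (hu : IsUnit (Nm J z).det) : G0 J z * Nm J z = 1 :=
  Matrix.nonsing_inv_mul _ hu

theorem mul_G0 {J : Mat n} {z : ℝ} (hu : IsUnit (Nm J z).det) : Nm J z * G0 J z = 1 :=
  Matrix.mul_nonsing_inv _ hu

theorem Nm_sub (J J' : Mat n) (z z' : ℝ) :
    Nm J' z' = Nm J z + ((z' - z) • (1 : Mat n) - (J' - J)) := by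
  simp only [Nm, sub_smul]; abel

/-- resolvent identity, two matrices -/
theorem G0_sub' {J J' : Mat n} {z z' : ℝ} (hu : IsUnit (Nm J z).det)
    (hu' : IsUnit (Nm J' z').det) :
    G0 J z - G0 J' z' = G0 J z * ((z' - z) • (1 : Mat n) - (J' - J)) * G0 J' z' := by
  have e : (z' - z) • (1 : Mat n) - (J' - J) = Nm J' z' - Nm J z := by
    rw [Nm_sub J J' z z']; abel
  rw [e, mul_sub, sub_mul, mul_assoc, mul_G0 hu', G0_mul hu, mul_one, one_mul]

/-- resolvent identity -/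
theorem G0_sub {J : Mat n} {z z' : ℝ} (hu : IsUnit (Nm J z).det) (hu' : IsUnit (Nm J z').det) :
    G0 J z - G0 J z' = (z' - z) • (G0 J z * G0 J z') := by
  rw [G0_sub' hu hu', sub_self, sub_zero, mul_smul_comm, mul_one, smul_mul_assoc]

theorem T2b_self (J : Mat n) (z : ℝ) : T2b J z z = T2 J z := rfl

theorem T2b_comm (J : Mat n) (z z' : ℝ) : T2b J z z' = T2b J z' z := trace_mul_comm _ _

theorem trace_G0_sub {J : Mat n} {z z' : ℝ} (hu : IsUnit (Nm J z).det)
    (hu' : IsUnit (Nm J z').det) :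
    (G0 J z).trace - (G0 J z').trace = (z' - z) * T2b J z z' := by
  rw [← trace_sub, G0_sub hu hu', trace_smul, smul_eq_mul, T2b]

theorem trace_of_res2 (hn : 0 < n) {J : Mat n} {h : Vec n} {z : ℝ} (r : res2 J h z = 0) :
    (G0 J z).trace = n * wb h := by
  have hn' : (n : ℝ) ≠ 0 := Nat.cast_ne_zero.2 hn.ne'
  unfold res2 at r
  unfold wb
  field_simp
  linarith

/-- D1: increment of `z` -/
theorem z_sub (hn : 0 < n) {J : Mat n} {h h' : Vec n} {z z' : ℝ} (hu : IsUnit (Nm J z).det)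
    (hu' : IsUnit (Nm J z').det) (r : res2 J h z = 0) (r' : res2 J h' z' = 0) :
    (z - z') * T2b J z z' = 2 * ip (mu h h') (h - h') := by
  have hn' : (n : ℝ) ≠ 0 := Nat.cast_ne_zero.2 hn.ne'
  have e := trace_G0_sub hu hu'
  rw [trace_of_res2 hn r, trace_of_res2 hn r'] at e
  have e2 := wb_sub hn h h'
  have e3 : (n : ℝ) * (wb h' - wb h) = 2 * ip (mu h h') (h - h') := by
    rw [e2]; field_simp
  linarith

theorem res1_eq (J : Mat n) (y h : Vec n) (z : ℝ) :
    res1 J y h z = Nm J z *ᵥ tm h - (chi h + y) := by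
  simp only [res1, chi, sub_mulVec, smul_mulVec, one_mulVec]; abel

/-- `Psi = m - G0 (chi + y)` -/
theorem Psi_eq {J : Mat n} {z : ℝ} (hu : IsUnit (Nm J z).det) (y h : Vec n) :
    Psi J y h z = tm h - G0 J z *ᵥ (chi h + y) := by
  rw [Psi, res1_eq, mulVec_sub, mulVec_mulVec, G0_mul hu, one_mulVec]

theorem res1_of_Psi {J : Mat n} {z : ℝ} (hu : IsUnit (Nm J z).det) (y h : Vec n) :
    res1 J y h z = Nm J z *ᵥ Psi J y h z := by
  rw [Psi, mulVec_mulVec, mul_G0 hu, one_mulVec]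

theorem Mp_mulVec (J : Mat n) (h h' : Vec n) (z z' : ℝ) (p v : Vec n) :
    Mp J h h' z z' p *ᵥ v = diagonal (db h h') *ᵥ v - (wb h)⁻¹ • (G0 J z *ᵥ (VW h h' *ᵥ v))
      + (2 / T2b J z z' * ip (mu h h') v) • (G0 J z *ᵥ (tm h' - p)) := by
  simp only [Mp, Kw, add_mulVec, smul_mulVec, one_mulVec, F.vecMulVec_mulVec, ← mulVec_mulVec,
    sub_mulVec, rv, smul_sub, smul_smul]
  rw [VW_mulVec]
  module

/-- D1: exact increment of `Psi` -/
theorem Psi_sub (hn : 0 < n) {J : Mat n} {h h' : Vec n} {z z' : ℝ} (hu : IsUnit (Nm J z).det)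
    (hu' : IsUnit (Nm J z').det) (r : res2 J h z = 0) (r' : res2 J h' z' = 0)
    (hT : T2b J z z' ≠ 0) (y : Vec n) :
    Psi J y h z - Psi J y h' z' = Mp J h h' z z' (Psi J y h' z') *ᵥ (h - h') := by
  have ez : 2 / T2b J z z' * ip (mu h h') (h - h') = z - z' := by
    have := z_sub hn hu hu' r r'
    field_simp
    linarith
  have e1 : tm h' - Psi J y h' z' = G0 J z' *ᵥ (chi h' + y) := by rw [Psi_eq hu']; abel
  rw [Mp_mulVec, ez, ← tm_sub, ← mulVec_smul, ← chi_sub hn, e1, mulVec_mulVec, ← smul_mulVec,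
    ← neg_sub z' z, neg_smul, ← G0_sub hu hu', Psi_eq hu, Psi_eq hu']
  simp only [neg_mulVec, sub_mulVec, mulVec_add, mulVec_sub]
  abel

/-- D1: exact increment of the residual, seen through `G0 J z` -/
theorem res1_sub (hn : 0 < n) {J : Mat n} {h h' : Vec n} {z z' : ℝ} (hu : IsUnit (Nm J z).det)
    (hu' : IsUnit (Nm J z').det) (r : res2 J h z = 0) (r' : res2 J h' z' = 0)
    (hT : T2b J z z' ≠ 0) (y : Vec n) :
    G0 J z *ᵥ (res1 J y h z - res1 J y h' z') = Mp J h h' z z' 0 *ᵥ (h - h') := by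
  have ez : 2 / T2b J z z' * ip (mu h h') (h - h') = z - z' := by
    have := z_sub hn hu hu' r r'
    field_simp
    linarith
  have e1 := Psi_sub hn hu hu' r r' hT y
  rw [Mp_mulVec, ez] at e1
  have e2 : G0 J z *ᵥ res1 J y h' z' = Psi J y h' z' - (z - z') • (G0 J z *ᵥ Psi J y h' z') := by
    have e3 : G0 J z = G0 J z' + (z' - z) • (G0 J z * G0 J z') := by
      rw [← G0_sub hu hu']; abel
    conv_lhs => rw [e3]
    simp only [add_mulVec, smul_mulVec, ← mulVec_mulVec, Psi]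
    module
  rw [Mp_mulVec, ez, mulVec_sub, e2, sub_zero]
  have e4 : G0 J z *ᵥ res1 J y h z = Psi J y h z := rfl
  rw [e4]
  rw [mulVec_sub (G0 J z) (tm h'), smul_sub] at e1
  linear_combination (exp := 1) e1

/-- at equal points `Mp` with `p = 0` is `G0 Lm` -/
theorem Mp_self (hn : 0 < n) {J : Mat n} {z : ℝ} (hu : IsUnit (Nm J z).det) (h : Vec n) :
    Mp J h h z z 0 = G0 J z * Lm J h z := by
  have hw := (wb_pos hn h).ne'
  have hn' : (n : ℝ) ≠ 0 := Nat.cast_ne_zero.2 hn.ne'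
  refine Matrix.ext_of_mulVec_single fun j => ?_
  generalize (Pi.single j 1 : Vec n) = v
  have e0 : ip (tm h) (diagonal (dv h) *ᵥ v) = ip (mu h h) v := by
    rw [mu_self]
    unfold ip
    refine Finset.sum_congr rfl fun i _ => ?_
    rw [mulVec_diagonal]; ring
  rw [Mp_mulVec, VW_mulVec, db_self, T2b_self, sub_zero, ← mulVec_mulVec]
  simp only [Lm, EC.Bm, add_mulVec, one_mulVec, ← mulVec_mulVec, sub_mulVec, smul_mulVec,
    F.vecMulVec_mulVec, e0, mulVec_add, mulVec_sub, mulVec_smul, cc]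
  rw [mulVec_mulVec _ (G0 J z) (Nm J z), G0_mul hu, one_mulVec]
  have e1 : (wb h)⁻¹ * (2 / (n * wb h) * ip (mu h h) v) = 2 / (n * wb h ^ 2) * ip (mu h h) v := by
    field_simp
  simp only [smul_add, smul_sub, smul_smul, inv_mul_cancel₀ hw, one_smul, e1]
  module

/-- D2: the decomposition of `Mp - AA` -/
theorem Mp_sub_AA (J : Mat n) (y : Vec n) (z0 : ℝ) (h h' : Vec n) (z z' : ℝ) (p : Vec n) :
    Mp J h h' z z' p - AA J y z0 = Kw J z0 (w0 J z0) * VW h h'
      + (Kw J z (wb h) - Kw J z0 (w0 J z0)) * VW h h' + Em J y z0 h h' z z' p := by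
  simp only [Mp, AA, Em, sub_mul, sub_smul]; abel

/-- D2: increments of the Picard map -/
theorem Pic_sub (hn : 0 < n) {J : Mat n} {h h' : Vec n} {z z' z0 : ℝ} {y : Vec n}
    (hu : IsUnit (Nm J z).det) (hu' : IsUnit (Nm J z').det) (r : res2 J h z = 0)
    (r' : res2 J h' z' = 0) (hT : T2b J z z' ≠ 0) (hA : IsUnit (AA J y z0).det) :
    Pic J y z0 h z - Pic J y z0 h' z'
      = (-((AA J y z0)⁻¹ * (Mp J h h' z z' (Psi J y h' z') - AA J y z0))) *ᵥ (h - h') := by
  rw [mul_sub, Matrix.nonsing_inv_mul _ hA, neg_mulVec, sub_mulVec, one_mulVec, ← mulVec_mulVec,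
    ← Psi_sub hn hu hu' r r' hT y, mulVec_sub, Pic, Pic]
  abel

theorem trace_Kw (hn : 0 < n) {J : Mat n} {z w : ℝ} (hw : w ≠ 0) (ht : (G0 J z).trace = n * w) :
    (Kw J z w).trace = 0 := by
  have _ := hn
  rw [Kw, trace_sub, trace_smul, ht, trace_one, Fintype.card_fin, smul_eq_mul]
  field_simp
  ring

end Vale.Agent.N150.T1A
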