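import Vale.Agent.N150.T1Kit
import Vale.Agent.N150.KBCal
import Vale.Agent.N150.T1Alg0

/-! Trace and Frobenius estimates for the deterministic input of the source bound. -/

namespace Vale.Agent.N150.KBD

open Matrix
open Vale.Agent.P150 Vale.Agent.P150.F Vale.Agent.N150.EC Vale.Agent.N150.Sp Vale.Agent.N150.T1
open Vale.Agent.N150.Haar (fro fro_nonneg fro_add_le fro_smul fro_transpose fro_sq')
open Vale.Agent.N150.KB.Ch (opT fro_mul_l fro_mul_r abs_entry_op op_orth op_diagonal fro_le_of_sq)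

variable {n : ℕ}

theorem abs_trace_mul (A B : Mat n) : |(A * B).trace| ≤ fro A * fro B := by
  have e : (A * B).trace = Haar.ip Aᵀ B := by rw [Haar.ip_eq_trace, transpose_transpose]
  have h := Finset.sum_mul_sq_le_sq_mul_sq Finset.univ (fun p : Fin n × Fin n => Aᵀ p.1 p.2)
    (fun p => B p.1 p.2)
  simp only [Fintype.sum_prod_type] at h
  rw [← fro_sq', ← fro_sq', ← mul_pow, fro_transpose] at h
  rw [e]
  exact abs_le_of_sq_le_sq h (mul_nonneg (fro_nonneg _) (fro_nonneg _))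

theorem abs_trace_JO (f : Vec n) (O : OG n) {M : Mat n} {c : ℝ} (hc : 0 ≤ c) (hM : OpLe M c) :
    |(JO f O * M).trace| ≤ (∑ a, |f a|) * c := by
  have e : (JO f O * M).trace = ∑ a, f a * (O.1 * M * O.1ᵀ) a a := by
    have e1 : JO f O * M = O.1ᵀ * (diagonal f * (O.1 * M)) := by
      unfold JO; simp only [Matrix.mul_assoc]
    rw [e1, trace_mul_comm, Matrix.mul_assoc, trace]
    exact Finset.sum_congr rfl fun a _ => by rw [diag_apply, diagonal_mul]
  have h1 : OpLe (O.1 * M * O.1ᵀ) c := by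
    have := ((op_orth O).mulN hM zero_le_one hc).mulN (opT zero_le_one (op_orth O))
      (by positivity) zero_le_one
    rwa [one_mul, mul_one] at this
  rw [e, Finset.sum_mul]
  refine (Finset.abs_sum_le_sum_abs _ _).trans (Finset.sum_le_sum fun a _ => ?_)
  rw [abs_mul]
  exact mul_le_mul_of_nonneg_left (abs_entry_op hc h1 a a) (abs_nonneg _)

theorem fro_diag_mul (v : Vec n) {M : Mat n} {c : ℝ} (hc : 0 ≤ c)
    (h : ∀ i, ∑ j, M i j ^ 2 ≤ c ^ 2) : fro (diagonal v * M) ≤ nv v * c := by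
  refine fro_le_of_sq (mul_nonneg (nv_nonneg _) hc) ?_
  rw [mul_pow, nv_sq, F.sq, Finset.sum_mul]
  refine Finset.sum_le_sum fun i _ => ?_
  simp only [diagonal_mul, mul_pow]
  rw [← Finset.mul_sum]
  exact mul_le_mul_of_nonneg_left (h i) (sq_nonneg _)

theorem fro_JO (f : Vec n) (O : OG n) : fro (JO f O) ≤ nv f := by
  have e : fro (JO f O) = fro (diagonal f) := Wd.fro_fr (diagonal f) O
  have h := fro_diag_mul f (M := 1) zero_le_one fun i => by
    rw [Finset.sum_eq_single i] <;> simp +contextual [eq_comm]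
  rwa [Matrix.mul_one, mul_one, ← e] at h

theorem fro_vv (u v : Vec n) : fro (vecMulVec u v) ≤ nv u * nv v := by
  refine fro_le_of_sq (mul_nonneg (nv_nonneg _) (nv_nonneg _)) (le_of_eq ?_)
  rw [mul_pow, nv_sq, nv_sq, F.sq, F.sq, Finset.sum_mul_sum]
  simp only [vecMulVec_apply, mul_pow]

theorem trace_vv_mul (a b : Vec n) (M : Mat n) : (vecMulVec a b * M).trace = ip b (M *ᵥ a) := by
  simp only [trace, diag_apply, mul_apply, vecMulVec_apply, ip, mulVec, dotProduct, Finset.mul_sum]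
  rw [Finset.sum_comm]
  exact Finset.sum_congr rfl fun i _ => Finset.sum_congr rfl fun j _ => by ring

theorem nv_single (i : Fin n) : nv (Pi.single i (1 : ℝ) : Vec n) = 1 := by
  rw [nv_eq_sqrt, F.sq, Finset.sum_eq_single i] <;> simp +contextual

theorem ip_single (M : Mat n) (i : Fin n) : ip (Pi.single i 1) (M *ᵥ Pi.single i 1) = M i i := by
  rw [ip, Finset.sum_eq_single i] <;> simp +contextual

theorem nv_abs (v : Vec n) : nv (fun i => |v i|) = nv v :=
  le_antisymm (nv_mono fun i => by rw [abs_abs]) (nv_mono fun i => by rw [abs_abs])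

/-- a bilinear form of a sandwiched matrix -/
theorem abs_ip_sand {N M : Mat n} (hN : Nᵀ = N) {c : ℝ} (hc : 0 ≤ c) (hM : OpLe M c)
    (u v : Vec n) : |ip u ((N * M * N) *ᵥ v)| ≤ nv (N *ᵥ u) * (c * nv (N *ᵥ v)) := by
  rw [← mulVec_mulVec, ← mulVec_mulVec, ip_mulVec_comm hN]
  exact (abs_ip_le _ _).trans (mul_le_mul_of_nonneg_left (hM.nv_le hc _) (nv_nonneg _))

theorem sand_eq {Ns Ni : Mat n} (h1 : Ni * Ns = 1) (h2 : Ns * Ni = 1) (G : Mat n) :
    G = Ni * (Ns * G * Ns) * Ni := by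
  have e : Ni * (Ns * G * Ns) * Ni = (Ni * Ns) * G * (Ns * Ni) := by simp only [Matrix.mul_assoc]
  rw [e, h1, h2, Matrix.one_mul, Matrix.mul_one]

/-- the variance of `d` is bounded by the fourth moment of `m` -/
theorem sq_V (hn : 0 < n) (h : Vec n) :
    F.sq (fun i => dv h i - wb h) ≤ 3 * (nv (tm h) * nv (h - tm h)) := by
  have hn' : (n : ℝ) ≠ 0 := by positivity
  have e0 : ∑ i, (dv h i - wb h) = 0 := by
    rw [Finset.sum_sub_distrib, Finset.sum_const, Finset.card_univ, Fintype.card_fin, nsmul_eq_mul,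
      wb, mul_div_cancel₀ _ hn', sub_self]
  have e1 : F.sq (fun i => dv h i - wb h) ≤ ∑ i, (dv h i - 1) ^ 2 := by
    have e : ∑ i, (dv h i - 1) ^ 2 = ∑ i, (dv h i - wb h) ^ 2 +
        2 * (wb h - 1) * ∑ i, (dv h i - wb h) + ∑ _i : Fin n, (wb h - 1) ^ 2 := by
      rw [Finset.mul_sum, ← Finset.sum_add_distrib, ← Finset.sum_add_distrib]
      exact Finset.sum_congr rfl fun i _ => by ring
    have h0 : 0 ≤ ∑ _i : Fin n, (wb h - 1) ^ 2 := Finset.sum_nonneg fun _ _ => sq_nonneg _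
    rw [e, e0]
    unfold F.sq
    linarith
  have e2 : ∑ i, (dv h i - 1) ^ 2 ≤ 3 * ip (fun i => |tm h i|) fun i => |(h - tm h) i| := by
    rw [ip, Finset.mul_sum]
    refine Finset.sum_le_sum fun i _ => ?_
    have h1 := T1A.abs_tanh_cube_le (h i)
    have h2 : (dv h i - 1) ^ 2 = |Real.tanh (h i)| * |Real.tanh (h i)| ^ 3 := by
      rw [← pow_succ', show (3 + 1 : ℕ) = 2 * 2 by norm_num, pow_mul, sq_abs]
      unfold dv
      ring
    rw [h2]
    have h3 := mul_le_mul_of_nonneg_left h1 (abs_nonneg (Real.tanh (h i)))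
    exact h3.trans (le_of_eq (by simp only [tm, Pi.sub_apply]; ring))
  have e3 := ip_le (fun i => |tm h i|) fun i => |(h - tm h) i|
  rw [nv_abs, nv_abs] at e3
  linarith

/-- the trace of the response, from `M Γ = G0` -/
theorem trace_core {Γ G V Ns Ni : Mat n} {O : OG n} {κ₁ κ₂ a μ : Vec n} {w cX cG : ℝ}
    (hM : (w • (1 : Mat n) + (JO κ₁ O + JO κ₂ O) * V + vecMulVec a μ) * Γ = G)
    (h1 : Ni * Ns = 1) (h2 : Ns * Ni = 1) (hN : Niᵀ = Ni) (hc : Ni * JO κ₁ O = JO κ₁ O * Ni)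
    (hX0 : 0 ≤ cX) (hG0 : 0 ≤ cG) (hX : OpLe (Ni * V * Ni) cX) (hG : OpLe (Ns * Γ * Ns) cG) :
    |w * Γ.trace - G.trace| ≤ (∑ i, |κ₁ i|) * (cX * cG) +
      fro (Ni * JO κ₂ O) * (cG * fro (V * Ni)) + nv (Ni *ᵥ μ) * (cG * nv (Ni *ᵥ a)) := by
  set H := Ns * Γ * Ns with hH
  have e0 : Γ = Ni * H * Ni := sand_eq h1 h2 Γ
  have e1 : (JO κ₁ O * V * Γ).trace = (JO κ₁ O * (Ni * V * Ni * H)).trace := by
    have : JO κ₁ O * V * Γ = (JO κ₁ O * V * Ni * H) * Ni := by
      rw [e0]; simp only [Matrix.mul_assoc]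
    rw [this, trace_mul_comm]
    congr 1
    simp only [← Matrix.mul_assoc, hc]
  have e2 : (JO κ₂ O * V * Γ).trace = ((Ni * JO κ₂ O) * (V * Ni * H)).trace := by
    have : JO κ₂ O * V * Γ = (JO κ₂ O * V * Ni * H) * Ni := by
      rw [e0]; simp only [Matrix.mul_assoc]
    rw [this, trace_mul_comm]
    simp only [Matrix.mul_assoc]
  have e3 : w * Γ.trace - G.trace =
      -((JO κ₁ O * V * Γ).trace + (JO κ₂ O * V * Γ).trace + ip μ (Γ *ᵥ a)) := by
    rw [← hM, Matrix.add_mul, Matrix.add_mul, Matrix.add_mul, Matrix.add_mul, trace_add, trace_add,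
      trace_add, trace_vv_mul, Matrix.smul_mul, Matrix.one_mul, trace_smul, smul_eq_mul]
    ring
  have b1 := abs_trace_JO κ₁ O (mul_nonneg hX0 hG0) (hX.mulN hG hX0 hG0)
  have b2 := (abs_trace_mul (Ni * JO κ₂ O) (V * Ni * H)).trans
    (mul_le_mul_of_nonneg_left (fro_mul_r hG0 hG (V * Ni)) (fro_nonneg _))
  have b3 := abs_ip_sand hN hG0 hG μ a
  rw [← e0] at b3
  rw [e3, abs_neg, e1, e2]
  exact (abs_add_three _ _ _).trans (add_le_add (add_le_add b1 b2) b3)

/-- four blocks -/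
theorem op_blocks {X P : Mat n} {a b c d : ℝ} (ha : 0 ≤ a) (hb : 0 ≤ b) (hc : 0 ≤ c) (hd : 0 ≤ d)
    (h1 : OpLe (P * X * P) a) (h2 : OpLe (P * X * (1 - P)) b) (h3 : OpLe ((1 - P) * X * P) c)
    (h4 : OpLe ((1 - P) * X * (1 - P)) d) : OpLe X (a + b + c + d) := by
  have e : X = P * X * P + P * X * (1 - P) + (1 - P) * X * P + (1 - P) * X * (1 - P) := by
    noncomm_ring
  rw [e]
  exact ((h1.add h2 ha hb).add h3 (by positivity) hc).add h4 (by positivity) hd

theorem op_two {X P : Mat n} {a b : ℝ} (ha : 0 ≤ a) (hb : 0 ≤ b)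
    (h1 : OpLe (P * X) a) (h2 : OpLe ((1 - P) * X) b) : OpLe X (a + b) := by
  have e : X = P * X + (1 - P) * X := by noncomm_ring
  rw [e]
  exact h1.add h2 ha hb

theorem res_diag {A : Finset (Fin n)} {d : Vec n} (hd : ∀ i ∉ A, d i = 0) :
    Rip.res A * diagonal d * Rip.res A = diagonal d := by
  unfold Rip.res
  rw [diagonal_mul_diagonal, diagonal_mul_diagonal]
  congr 1
  funext i
  by_cases hi : i ∈ A
  · simp [hi]
  · simp [hi, hd i hi]

theorem res_single (i : Fin n) : Rip.res {i} *ᵥ (Pi.single i 1 : Vec n) = Pi.single i 1 := by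
  funext j
  rw [Rip.res_mulVec]
  by_cases h : j = i
  · simp [h]
  · simp [h]

end Vale.Agent.N150.KBD
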