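import Vale.Agent.N150.KBMain
import Vale.Agent.N150.KBTyp
import Vale.Agent.N150.KBT1
import Vale.Agent.N150.KBDet
import Vale.Agent.N150.BrKB
import Vale.Agent.N150.T1D4
import Vale.Agent.N150.T1Meas
import Vale.Agent.N150.T1Alg2
import Vale.Agent.N150.D6b
import Vale.Agent.N150.X4

/-! The source bound on a fibre, and everything of T1 and KB that follows from `X3Stmt`. -/

namespace Vale.Agent.N150.KB

/-- **[KB]** -/
theorem kbStmt : KBStmt := kb_of typStmt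

theorem d6Stmt : T1.D6Stmt := D6.d6Stmt_of T1A.d2Stmt T1.d4Stmt

theorem kbDetStmt : KBDetStmt :=
  KBD.kbDet_of T1A.zStmt T1A.d1Stmt T1A.d2Stmt T1.d4Stmt d6Stmt

theorem t1_of_x3 (h : T1.X3Stmt) : T1.T1Stmt := T1.t1_of h X4.x4Stmt T1.sprStmt

theorem kbSel_of_x3 (h : T1.X3Stmt) : KBT.KBSelStmt :=
  KBT.kbSel_of kbStmt kbDetStmt h (t1_of_x3 h)

theorem kbT1_of_x3 (h : T1.X3Stmt) : KBT1Stmt :=
  KBT.kbT1_of kbStmt kbDetStmt h (t1_of_x3 h)

theorem kbb_of_x3 (h : T1.X3Stmt) : Br.KBB := Br.kbb_of (kbT1_of_x3 h)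

end Vale.Agent.N150.KB
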