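import Vale.Agent.N150.KBAlg
import Vale.Agent.N150.KBCh

/-! The uniform source bound from typicality, closing, Lipschitz bounds and chaining. -/

namespace Vale.Agent.N150.KB

open Matrix MeasureTheory Set
open Vale.Agent.P150 Vale.Agent.P150.F
open Vale.Agent.N150.EC (tm dv wb Nm G0 T2 res2 k0)
open Vale.Agent.N150.Wd (fr fr_mul trace_fr fr_transpose)

variable {n : ℕ} {B B' B1 B2 : ℝ} {P J Q : Mat n} {h : Vec n} {z : ℝ}

theorem Cs.mono (hc : Cs B B1 B2 P J Q) (hB : B ≤ B') : Cs B' B1 B2 P J Q :=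
  ⟨hc.hB.trans hB, hc.h1, hc.h1B.trans hB, hc.h2, hc.h2B.trans hB, hc.npos, hc.hP, hc.hPP,
    by linarith [hc.trP], hc.hJ, hc.hQ, hc.bQ.monoN (by linarith [hc.hB]) hB⟩

theorem Pt.mono (hc : Cs B B1 B2 P J Q) (hp : Pt B B1 B2 J h z) (hB : B ≤ B') :
    Pt B' B1 B2 J h z :=
  ⟨hp.res, hp.uN, hp.bN.monoN (by linarith [hc.hB]) hB, hp.bG.monoN (by linarith [hc.hB]) hB,
    hp.bT.trans (mul_le_mul_of_nonneg_right hB (hp.T2pos hc).le), hp.hq, hp.hv, hp.hT⟩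

theorem Gd.mono (hg : Gd B B1 B2 J h z) (h0 : 0 ≤ B) (hB : B ≤ B') : Gd B' B1 B2 J h z :=
  ⟨hg.uL, hg.bGam.monoN h0 hB, hg.dg, hg.tg, hg.tr⟩

theorem Cs.rot (hc : Cs B B1 B2 P J Q) (O : OG n) : Cs B B1 B2 P (fr J O) (fr Q O) :=
  ⟨hc.hB, hc.h1, hc.h1B, hc.h2, hc.h2B, hc.npos, hc.hP, hc.hPP, hc.trP,
    by rw [fr_transpose, hc.hJ], by rw [fr_transpose, hc.hQ],
    Ch.op_fr (by linarith [hc.hB]) hc.bQ O⟩

theorem Pt.rot (hc : Cs B B1 B2 P J Q) (hp : Pt B B1 B2 J h z) (O : OG n) :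
    Pt B B1 B2 (fr J O) h z := by
  have h0 : 0 ≤ B := by linarith [hc.hB]
  refine ⟨?_, ?_, ?_, ?_, ?_, hp.hq, hp.hv, ?_⟩
  · rw [res2, Ch.G0_fr hp.uN, trace_fr]; exact hp.res
  · rw [Ch.Nm_fr]; exact Ch.unit_fr hp.uN O
  · rw [Ch.Nm_fr]; exact Ch.op_fr h0 hp.bN O
  · rw [Ch.G0_fr hp.uN]; exact Ch.op_fr h0 hp.bG O
  · rw [Ch.T2_fr hp.uN]; exact hp.bT
  · rw [Ch.T2_fr hp.uN]; exact hp.hT

theorem xis_rot (hp : Pt B B1 B2 J h z) (O : OG n) :
    xis (fr J O) h z (fr Q O) = xis J h z Q := by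
  rw [xis, xis, kz, kz, Ch.G0_fr hp.uN, Ch.T2_fr hp.uN, fr_mul, fr_mul, trace_fr]

/-- the mean on the good set of a Lipschitz vector which is typically close to `c` in every
direction -/
theorem mean_le {μ : Measure (OG n)} [IsProbabilityMeasure μ] {G : Set (OG n)} {a : OG n → Vec n}
    {c : Vec n} {L M : ℝ} (hn : 2 ≤ n) (hL : 0 < L) (hM : 0 ≤ M) (hc : Conc μ (n / 256))
    (hG : MeasurableSet G) (hs : μ.real Gᶜ ≤ ((n : ℝ) ^ 700)⁻¹)
    (h0 : ∀ U ∈ G, nv (a U) ≤ L * √n) (h1 : ∀ U ∈ G, ∀ V ∈ G, nv (a U - a V) ≤ L * dO U V)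
    (h2 : ∀ β : Vec n, nv β ≤ 1 → μ.real {U | U ∈ G ∧ ¬ |ip β (a U - c)| ≤ M} ≤ 1 / 4) :
    nv ((fun i => ∫ U in G, a U i ∂μ) - c) ≤ 33 * L + M := by
  set v : Vec n := (fun i => ∫ U in G, a U i ∂μ) - c with hv
  rcases (nv_nonneg v).eq_or_lt with h3 | h3
  · rw [← h3]; positivity
  have hn2 : (2 : ℝ) ≤ n := by exact_mod_cast hn
  set β : Vec n := (nv v)⁻¹ • v with hβ
  have hβ1 : nv β = 1 := by rw [hβ, nv_smul, abs_of_pos (inv_pos.2 h3), inv_mul_cancel₀ h3.ne']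
  have e0 : ip β v = nv v := by
    have : ip β v = (nv v)⁻¹ * F.sq v := by
      simp only [hβ, ip, F.sq, Pi.smul_apply, smul_eq_mul, Finset.mul_sum]
      exact Finset.sum_congr rfl fun i _ => by ring
    rw [this, ← nv_sq]; field_simp
  have sub : ∀ u u' : Vec n, ip β (u - u') = ip β u - ip β u' := fun u u' => by
    simp only [ip, Pi.sub_apply, mul_sub, Finset.sum_sub_distrib]
  have hf : LipO G L fun U => ip β (a U) := fun U hU V hV => by
    rw [← sub]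
    refine (abs_ip_le _ _).trans ?_
    rw [hβ1, one_mul]; exact h1 U hU V hV
  have hb : ∀ U ∈ G, |ip β (a U)| ≤ L * √n := fun U hU => by
    refine (abs_ip_le _ _).trans ?_
    rw [hβ1, one_mul]; exact h0 U hU
  obtain ⟨a0, ha0, ht⟩ := hc.on_good_mean hG hL (by positivity) hf hb
  have hi : ∀ i, IntegrableOn (fun U => a U i) G μ := fun i => by
    refine LipO.integrableOn (L := L) (fun U hU V hV => le_trans ?_ (h1 U hU V hV)) hL.le hG
    rw [nv_eq_sqrt]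
    refine Real.abs_le_sqrt ?_
    exact Finset.single_le_sum (f := fun i => (a U - a V) i ^ 2) (fun _ _ => sq_nonneg _)
      (Finset.mem_univ i)
  have e1 : ∫ U in G, ip β (a U) ∂μ = ip β fun i => ∫ U in G, a U i ∂μ := by
    unfold ip
    rw [integral_finsetSum _ fun i _ => (hi i).const_mul _]
    exact Finset.sum_congr rfl fun i _ => integral_const_mul _ _
  have s1 : ((n : ℝ) ^ 700)⁻¹ ≤ ((n : ℝ) ^ 2)⁻¹ :=
    inv_anti₀ (by positivity) (pow_le_pow_right₀ (by linarith) (by norm_num))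
  have s2 : ((n : ℝ) ^ 2)⁻¹ ≤ 1 / 4 := by
    rw [inv_le_comm₀ (by positivity) (by norm_num)]; nlinarith
  have s3 : √(n : ℝ) * ((n : ℝ) ^ 2)⁻¹ ≤ 1 := by
    rw [← div_eq_mul_inv, div_le_one (by positivity), Real.sqrt_le_left (by positivity)]
    nlinarith [sq_nonneg ((n : ℝ) ^ 2 - 1), sq_nonneg ((n : ℝ) - 1)]
  have b1 : |a0 - ∫ U in G, ip β (a U) ∂μ| ≤ L := by
    refine ha0.trans ?_
    rw [mul_assoc]
    exact mul_le_of_le_one_right hL.le
      ((mul_le_mul_of_nonneg_left (hs.trans s1) (Real.sqrt_nonneg _)).trans s3)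
  have b2 := ht (32 * L) (by positivity)
  have b3 : 2 * Real.exp (-(n / 256 * (32 * L) ^ 2 / L ^ 2)) ≤ 1 / 4 := by
    have e : (n : ℝ) / 256 * (32 * L) ^ 2 / L ^ 2 = 4 * n := by field_simp; ring
    rw [e, Real.exp_neg]
    have := Real.add_one_le_exp (4 * (n : ℝ))
    have h5 : (Real.exp (4 * n))⁻¹ ≤ (8 : ℝ)⁻¹ := inv_anti₀ (by norm_num) (by linarith)
    linarith
  have hex : ∃ U ∈ G, |ip β (a U - c)| ≤ M ∧ |ip β (a U) - a0| < 32 * L := by
    by_contra hne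
    have hsub : (univ : Set (OG n)) ⊆ Gᶜ ∪ ({U | U ∈ G ∧ ¬ |ip β (a U - c)| ≤ M} ∪
        {U | U ∈ G ∧ 32 * L ≤ |ip β (a U) - a0|}) := fun U _ => by
      by_cases hU : U ∈ G
      · by_cases h4 : |ip β (a U - c)| ≤ M
        · exact Or.inr (Or.inr ⟨hU, not_lt.1 fun h5 => hne ⟨U, hU, h4, h5⟩⟩)
        · exact Or.inr (Or.inl ⟨hU, h4⟩)
      · exact Or.inl hU
    have h5 := (measureReal_mono (μ := μ) hsub).trans ((measureReal_union_le _ _).trans
      (add_le_add le_rfl (measureReal_union_le _ _)))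
    rw [probReal_univ] at h5
    linarith [h2 β hβ1.le]
  obtain ⟨U, -, b4, b5⟩ := hex
  rw [← e0, hv, sub, ← e1]
  rw [sub] at b4
  linarith [le_of_abs_le b4, (abs_le.1 b1).1, (abs_lt.1 b5).1]

/-- **[KB]** -/
theorem kb_of (hT : TypStmt) : KBStmt := by
  obtain ⟨pT, hT⟩ := hT
  obtain ⟨pA, hA⟩ := algStmt
  obtain ⟨pK, hK⟩ := k0Stmt
  obtain ⟨pL, hL⟩ := Ch.lipStmt
  obtain ⟨C, hC⟩ := Ch.chainStmt
  obtain ⟨j, hj⟩ := pow_unbounded_of_one_lt C (one_lt_two (α := ℝ))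
  set q := max (pL + 6) ((pT + 1) * pA) + 1 with hq
  refine ⟨pK + (max (j + q) 0 + 1), fun n B B1 B2 P J Q μ _ G T F => ?_⟩
  have hB := F.cs.hB
  have h0 : (0 : ℝ) < B := by linarith
  have hn2 : (2 : ℝ) ≤ n := hB.trans F.hn
  have hn : 2 ≤ n := by exact_mod_cast hn2
  obtain ⟨l0, l1, l2⟩ := hL n B B1 B2 P J Q μ G T F
  have hLq : B ^ pL ≤ B ^ q := pw_le hB (by omega)
  have hBT : B ≤ B ^ (pT + 1) := by simpa using pw_le hB (show 1 ≤ pT + 1 by omega)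
  have hmean : ∀ t ∈ T, nv ((fun i => ∫ U in G, dXi (fr J U) t.1 t.2 (fr Q U) i ∂μ) -
      fun _ => xis J t.1 t.2 Q) ≤ B ^ q := fun t ht => by
    refine (mean_le (a := fun U => dXi (fr J U) t.1 t.2 (fr Q U)) (M := B ^ ((pT + 1) * pA)) hn
      (pow_pos h0 pL) (by positivity) F.conc F.meas F.small (l0 t ht) (l1 t ht) fun β hβ => ?_).trans ?_
    · refine le_trans (measureReal_mono fun U hU => ?_) (hT n B B1 B2 P J Q μ G T F t ht β hβ)
      refine ⟨hU.1, fun hty => hU.2 ?_⟩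
      have hle : B ^ pT ≤ B ^ (pT + 1) := pw_le hB (by omega)
      have r0 : (0 : ℝ) ≤ n * √n := by positivity
      have r1 : (0 : ℝ) ≤ n := by positivity
      have m0 : ∀ {x : ℝ}, x ≤ B ^ pT * (n * √n) → x ≤ B ^ (pT + 1) * (n * √n) := fun hx =>
        hx.trans (mul_le_mul_of_nonneg_right hle r0)
      have m1 : ∀ {x : ℝ}, x ≤ B ^ pT * n → x ≤ B ^ (pT + 1) * n := fun hx =>
        hx.trans (mul_le_mul_of_nonneg_right hle r1)
      have := hA n (B ^ (pT + 1)) B1 B2 P (fr J U) (fr Q U) t.1 t.2 β ((F.cs.rot U).mono hBT)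
        (((F.pt t ht).rot F.cs U).mono (F.cs.rot U) hBT) ((F.gd U hU.1 t ht).mono h0.le hBT) hβ
        ⟨m0 hty.a1, m0 hty.a2, m0 hty.a3, m0 hty.a4, m1 hty.a5, m1 hty.a6, m1 hty.b1, m0 hty.b2,
          m0 hty.c1, m0 hty.c2, m0 hty.c3, m0 hty.d1⟩
      rwa [xis_rot (F.pt t ht), ← pow_mul] at this
    · have a1 : (33 : ℝ) ≤ B ^ 6 := le_trans (by norm_num) (pow_le_pow_left₀ (by norm_num) hB 6)
      have a2 : 33 * B ^ pL ≤ B ^ (pL + 6) := by
        rw [pow_add, mul_comm]; exact mul_le_mul_of_nonneg_left a1 (by positivity)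
      exact (add_le_add a2 le_rfl).trans (pw_add hB _ _)
  have key := hC n μ G (Vec n × ℝ) T (fun t => tm t.1) (fun t _ => xis J t.1 t.2 Q)
    (fun t U => dXi (fr J U) t.1 t.2 (fr Q U)) (B ^ q) (by omega) (pow_pos h0 q) F.conc F.meas
    (F.small.trans (inv_anti₀ (by linarith) (le_self_pow₀ (by linarith) (by norm_num))))
    (fun t _ i => EC.abs_tm_le _ i)
    (fun t ht U hU => (l0 t ht U hU).trans (mul_le_mul_of_nonneg_right hLq (Real.sqrt_nonneg _)))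
    (fun t ht U hU V hV => (l1 t ht U hU V hV).trans
      (mul_le_mul_of_nonneg_right hLq (dO_nonneg _ _)))
    (fun t ht t' ht' δ hδ hd U hU =>
      ⟨(l2 t ht t' ht' δ hδ hd U hU).1.trans (mul_le_mul_of_nonneg_right
        (mul_le_mul_of_nonneg_right hLq hδ.le) (Real.sqrt_nonneg _)), fun V hV =>
        ((l2 t ht t' ht' δ hδ hd U hU).2 V hV).trans (mul_le_mul_of_nonneg_right
          (mul_le_mul_of_nonneg_right hLq hδ.le) (dO_nonneg _ _))⟩)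
    hmean
  refine le_trans (measureReal_mono ?_) key
  rintro U ⟨hU, t, ht, hlt⟩
  refine ⟨hU, t, ht, not_le.1 fun hle => not_le.2 hlt ?_⟩
  have b1 := hK n B B1 B2 P (fr J U) (fr Q U) t.1 t.2 (F.cs.rot U) ((F.pt t ht).rot F.cs U)
    (F.gd U hU t ht)
  rw [xis_rot (F.pt t ht)] at b1
  have b2 : C * B ^ q ≤ B ^ (j + q) := by
    rw [pow_add B j q]
    exact mul_le_mul_of_nonneg_right (hj.le.trans (pow_le_pow_left₀ (by norm_num) hB j))
      (pow_pos h0 q).le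
  have b3 := pw_add hB (j + q) 0
  rw [pow_zero] at b3
  rw [pow_add B pK]
  exact b1.trans (mul_le_mul_of_nonneg_left (by linarith) (pow_pos h0 pK).le)

end Vale.Agent.N150.KB
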