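import Vale.Agent.N150.KBDef
import Vale.Agent.N150.ECAux

/-! A calculus of polynomial bounds `B ^ p`: scalars, operator norms, Frobenius norms. -/

namespace Vale.Agent.N150.KB

open Matrix
open Vale.Agent.P150 Vale.Agent.P150.F
open Vale.Agent.N150.Wd (cm)
open Vale.Agent.N150.Haar (fro fro_nonneg fro_add_le fro_sub_le fro_neg fro_smul fro_transpose)

variable {n : ℕ} {B : ℝ}

theorem fro_hsq (A : Mat n) : fro A = √(hsq A) := rfl

theorem fro_op_mul {A : Mat n} {c : ℝ} (hA : OpLe A c) (hc : 0 ≤ c) (M : Mat n) :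
    fro (A * M) ≤ c * fro M := by
  have h (X : Mat n) : hsq X = ∑ j, F.sq (fun i => X i j) := by
    unfold hsq F.sq
    rw [Finset.sum_comm]
  have h1 : hsq (A * M) ≤ c ^ 2 * hsq M := by
    rw [h, h, Finset.mul_sum]
    refine Finset.sum_le_sum fun j _ => ?_
    have e : (fun i => (A * M) i j) = A *ᵥ fun i => M i j := by
      funext i; simp [Matrix.mul_apply, Matrix.mulVec, dotProduct]
    rw [e]; exact hA _
  rw [fro_hsq, fro_hsq]
  calc √(hsq (A * M)) ≤ √(c ^ 2 * hsq M) := Real.sqrt_le_sqrt h1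
    _ = c * √(hsq M) := by rw [Real.sqrt_mul (sq_nonneg c), Real.sqrt_sq hc]

theorem fro_mul_op {A : Mat n} {c : ℝ} (hA : OpLe A c) (hc : 0 ≤ c) (M : Mat n) :
    fro (M * A) ≤ c * fro M := by
  rw [← fro_transpose, transpose_mul, ← fro_transpose M]
  exact fro_op_mul (DB.opLe_transpose hA hc) hc _

theorem abs_trace_mul (A M : Mat n) : |(A * M).trace| ≤ fro A * fro M := by
  have h1 : (A * M).trace = ∑ p : Fin n × Fin n, A p.1 p.2 * M p.2 p.1 := by
    rw [Fintype.sum_prod_type]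
    simp [Matrix.trace, Matrix.mul_apply]
  have h2 : fro A ^ 2 = ∑ p : Fin n × Fin n, A p.1 p.2 ^ 2 := by
    rw [Haar.fro_sq', Fintype.sum_prod_type]
  have h3 : fro M ^ 2 = ∑ p : Fin n × Fin n, M p.2 p.1 ^ 2 := by
    rw [Haar.fro_sq', Fintype.sum_prod_type, Finset.sum_comm]
  refine abs_le_of_sq_le_sq ?_ (mul_nonneg (fro_nonneg _) (fro_nonneg _))
  rw [mul_pow, h1, h2, h3]
  exact Finset.sum_mul_sq_le_sq_mul_sq _ _ _

theorem fro_one : fro (1 : Mat n) = √n := by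
  have h := Haar.fro_orth (1 : OG n)
  rwa [OG.coe_one, Fintype.card_fin] at h

theorem fro_diagonal (u : Vec n) : fro (diagonal u : Mat n) = nv u := by
  rw [nv_eq_sqrt, fro_hsq]
  congr 1
  unfold hsq F.sq
  refine Finset.sum_congr rfl fun i _ => ?_
  rw [Finset.sum_eq_single i]
  · simp
  · intro j _ hj; simp [Matrix.diagonal_apply_ne _ hj.symm]
  · simp

theorem fro_vecMulVec (u v : Vec n) : fro (vecMulVec u v : Mat n) = nv u * nv v := by
  rw [nv_eq_sqrt, nv_eq_sqrt, fro_hsq, ← Real.sqrt_mul (sqN_nonneg u)]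
  congr 1
  unfold hsq F.sq
  rw [Finset.sum_mul_sum]
  refine Finset.sum_congr rfl fun i _ => Finset.sum_congr rfl fun j _ => ?_
  rw [vecMulVec_apply]; ring

theorem opLe_of_proj {P : Mat n} (hP : Pᵀ = P) (hPP : P * P = P) : OpLe P 1 := by
  refine opLe_of_nv fun v => ?_
  have h1 : nv (P *ᵥ v) ^ 2 = ip v (P *ᵥ v) := by
    rw [nv_sq]
    have e : F.sq (P *ᵥ v) = (P *ᵥ v) ⬝ᵥ (P *ᵥ v) := by
      unfold F.sq dotProduct; exact Finset.sum_congr rfl fun i _ => by ring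
    rw [e, Matrix.dotProduct_mulVec, ← Matrix.mulVec_transpose, hP, Matrix.mulVec_mulVec, hPP,
      dotProduct_comm]
    rfl
  have h2 := (le_abs_self _).trans (abs_ip_le v (P *ᵥ v))
  rw [← h1] at h2
  have h0 := nv_nonneg (P *ᵥ v)
  have h3 := nv_nonneg v
  rcases h0.eq_or_lt with h4 | h4
  · rw [← h4]; positivity
  · nlinarith

/-- `|x| ≤ B ^ p e` -/
def Sm (B : ℝ) (p : ℕ) (e x : ℝ) : Prop := 2 ≤ B ∧ 0 ≤ e ∧ |x| ≤ B ^ p * e
/-- operator norm at most `B ^ p` -/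
def Op (B : ℝ) (p : ℕ) (A : Mat n) : Prop := 2 ≤ B ∧ OpLe A (B ^ p)
/-- Frobenius norm at most `B ^ p e` -/
def Fr (B : ℝ) (p : ℕ) (e : ℝ) (A : Mat n) : Prop := 2 ≤ B ∧ 0 ≤ e ∧ fro A ≤ B ^ p * e

theorem pw_le (hB : 2 ≤ B) {p q : ℕ} (h : p ≤ q) : B ^ p ≤ B ^ q :=
  pow_le_pow_right₀ (by linarith) h

theorem pw_add (hB : 2 ≤ B) (p q : ℕ) : B ^ p + B ^ q ≤ B ^ (max p q + 1) := by
  have h1 := pw_le hB (le_max_left p q)
  have h2 := pw_le hB (le_max_right p q)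
  have h3 : 0 ≤ B ^ max p q := pow_nonneg (by linarith) _
  rw [pow_succ]; nlinarith

variable {p q : ℕ} {e e' x y : ℝ} {A M : Mat n}

namespace Sm

theorem mono (h : Sm B p e x) (hpq : p ≤ q) : Sm B q e x :=
  ⟨h.1, h.2.1, h.2.2.trans (mul_le_mul_of_nonneg_right (pw_le h.1 hpq) h.2.1)⟩

theorem le (h : Sm B p e x) (he : e ≤ e') : Sm B p e' x :=
  ⟨h.1, h.2.1.trans he, h.2.2.trans
    (mul_le_mul_of_nonneg_left he (pow_nonneg (by linarith [h.1]) _))⟩

theorem eq (h : Sm B p e x) (he : e = e') : Sm B p e' x := he ▸ h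

theorem congr (h : Sm B p e x) (hx : x = y) : Sm B p e y := hx ▸ h

theorem neg (h : Sm B p e x) : Sm B p e (-x) := ⟨h.1, h.2.1, by rw [abs_neg]; exact h.2.2⟩

theorem add (h : Sm B p e x) (h' : Sm B q e y) : Sm B (max p q + 1) e (x + y) := by
  refine ⟨h.1, h.2.1, (abs_add_le _ _).trans ?_⟩
  have := mul_le_mul_of_nonneg_right (pw_add h.1 p q) h.2.1
  linarith [h.2.2, h'.2.2]

theorem sub (h : Sm B p e x) (h' : Sm B q e y) : Sm B (max p q + 1) e (x - y) := by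
  rw [sub_eq_add_neg]; exact h.add h'.neg

theorem mul (h : Sm B p e x) (h' : Sm B q e' y) : Sm B (p + q) (e * e') (x * y) := by
  refine ⟨h.1, mul_nonneg h.2.1 h'.2.1, ?_⟩
  rw [abs_mul, pow_add]
  have h0 : 0 ≤ B ^ p * e := mul_nonneg (pow_nonneg (by linarith [h.1]) _) h.2.1
  calc |x| * |y| ≤ (B ^ p * e) * (B ^ q * e') := mul_le_mul h.2.2 h'.2.2 (abs_nonneg _) h0
    _ = _ := by ring

theorem mul1 (h : Sm B p 1 x) (h' : Sm B q e y) : Sm B (p + q) e (x * y) :=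
  (h.mul h').eq (one_mul _)

theorem mul1' (h : Sm B p e x) (h' : Sm B q 1 y) : Sm B (p + q) e (x * y) :=
  (h.mul h').eq (mul_one _)

theorem of_le (hB : 2 ≤ B) (h : |x| ≤ B) : Sm B 1 1 x := ⟨hB, zero_le_one, by simpa using h⟩

theorem of_two (hB : 2 ≤ B) (h : |x| ≤ 2) : Sm B 1 1 x := of_le hB (h.trans hB)

theorem div_of {b : ℝ} (h : Sm B p e (b * x)) (hb : 1 / 2 ≤ b) : Sm B (p + 1) e x := by
  refine ⟨h.1, h.2.1, ?_⟩
  have h1 := h.2.2
  rw [abs_mul, abs_of_pos (show 0 < b by linarith)] at h1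
  have h0 : 0 ≤ B ^ p * e := mul_nonneg (pow_nonneg (by linarith [h.1]) _) h.2.1
  have h2 := abs_nonneg x
  have h3 := h.1
  rw [pow_succ]; nlinarith

theorem div (h : Sm B p e x) {c : ℝ} (hc : 0 < c) : Sm B p (e / c) (x / c) := by
  refine ⟨h.1, div_nonneg h.2.1 hc.le, ?_⟩
  rw [abs_div, abs_of_pos hc, ← mul_div_assoc]
  exact div_le_div_of_nonneg_right h.2.2 hc.le

end Sm

namespace Op

theorem nn (h : Op B p A) : 0 ≤ B ^ p := pow_nonneg (by linarith [h.1]) _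

theorem mono (h : Op B p A) (hpq : p ≤ q) : Op B q A := ⟨h.1, h.2.monoN h.nn (pw_le h.1 hpq)⟩

theorem of_le (hB : 2 ≤ B) (h : OpLe A B) : Op B 1 A := ⟨hB, by rwa [pow_one]⟩

theorem of_one (hB : 2 ≤ B) (h : OpLe A 1) : Op B 0 A := ⟨hB, by rwa [pow_zero]⟩

theorem one (hB : 2 ≤ B) : Op B 0 (1 : Mat n) := of_one hB opLe_one

theorem mul (h : Op B p A) (h' : Op B q M) : Op B (p + q) (A * M) :=
  ⟨h.1, by rw [pow_add]; exact h.2.mulN h'.2 h.nn h'.nn⟩

theorem tr (h : Op B p A) : Op B p Aᵀ := ⟨h.1, DB.opLe_transpose h.2 h.nn⟩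

theorem add (h : Op B p A) (h' : Op B q M) : Op B (max p q + 1) (A + M) :=
  ⟨h.1, (h.2.add h'.2 h.nn h'.nn).monoN (add_nonneg h.nn h'.nn) (pw_add h.1 p q)⟩

theorem sub (h : Op B p A) (h' : Op B q M) : Op B (max p q + 1) (A - M) :=
  ⟨h.1, (h.2.sub h'.2 h.nn h'.nn).monoN (add_nonneg h.nn h'.nn) (pw_add h.1 p q)⟩

theorem smul (h' : Sm B q 1 x) (h : Op B p A) : Op B (q + p) (x • A) := by
  refine ⟨h.1, (h.2.smul h.nn x).monoN (mul_nonneg (abs_nonneg _) h.nn) ?_⟩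
  rw [pow_add]
  exact mul_le_mul_of_nonneg_right (by simpa using h'.2.2) h.nn

theorem diag (hB : 2 ≤ B) {u : Vec n} (h : ∀ i, |u i| ≤ 1) : Op B 0 (diagonal u : Mat n) :=
  of_one hB (DB.opLe_dg zero_le_one h)

theorem fr (h : Op B p A) : Fr B p √n A := by
  refine ⟨h.1, Real.sqrt_nonneg _, ?_⟩
  have := fro_op_mul h.2 h.nn 1
  rwa [mul_one, fro_one] at this

end Op

namespace Fr

theorem nn (h : Fr B p e A) : 0 ≤ B ^ p := pow_nonneg (by linarith [h.1]) _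

theorem mono (h : Fr B p e A) (hpq : p ≤ q) : Fr B q e A :=
  ⟨h.1, h.2.1, h.2.2.trans (mul_le_mul_of_nonneg_right (pw_le h.1 hpq) h.2.1)⟩

theorem opl (h : Op B p A) (h' : Fr B q e M) : Fr B (p + q) e (A * M) := by
  refine ⟨h.1, h'.2.1, (fro_op_mul h.2 h.nn M).trans ?_⟩
  rw [pow_add, mul_assoc]
  exact mul_le_mul_of_nonneg_left h'.2.2 h.nn

theorem opr (h' : Fr B q e M) (h : Op B p A) : Fr B (q + p) e (M * A) := by
  refine ⟨h.1, h'.2.1, (fro_mul_op h.2 h.nn M).trans ?_⟩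
  rw [add_comm, pow_add, mul_assoc]
  exact mul_le_mul_of_nonneg_left h'.2.2 h.nn

theorem trm (h : Fr B p e A) (h' : Fr B q e' M) : Sm B (p + q) (e * e') (A * M).trace := by
  refine ⟨h.1, mul_nonneg h.2.1 h'.2.1, (abs_trace_mul A M).trans ?_⟩
  rw [pow_add]
  calc fro A * fro M ≤ (B ^ p * e) * (B ^ q * e') :=
        mul_le_mul h.2.2 h'.2.2 (fro_nonneg _) (mul_nonneg h.nn h.2.1)
    _ = _ := by ring

theorem tr (h : Fr B p e A) : Sm B p (√n * e) A.trace := by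
  have := (Op.one (n := n) h.1).fr.trm h
  rwa [one_mul, zero_add] at this

end Fr

/-- normalised trace -/
noncomputable def nm (A : Mat n) : ℝ := A.trace / n

theorem sq_sqrt_n : √(n : ℝ) * √n = n := Real.mul_self_sqrt (Nat.cast_nonneg n)

theorem Op.nm (hn : 0 < n) (h : Op B p A) : Sm B p 1 (nm A) := by
  have hn' : (0 : ℝ) < n := by exact_mod_cast hn
  exact (h.fr.tr.div hn').eq (by rw [sq_sqrt_n, div_self hn'.ne'])

/-- a projection of corank at most `B` -/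
structure Pj (B : ℝ) (P : Mat n) : Prop where
  hB : 2 ≤ B
  npos : 0 < n
  hP : Pᵀ = P
  hPP : P * P = P
  trP : (n : ℝ) - B ≤ P.trace

namespace Pj

variable {P : Mat n} (hp : Pj B P)
include hp

theorem op : Op B 0 P := Op.of_one hp.hB (opLe_of_proj hp.hP hp.hPP)

theorem frE : Fr B 1 1 (1 - P) := by
  refine ⟨hp.hB, zero_le_one, ?_⟩
  have h1 : fro (1 - P) ^ 2 = n - P.trace := by
    rw [Haar.fro_sq, Haar.ip_eq_trace, transpose_sub, transpose_one, hp.hP, sub_mul, mul_sub, mul_sub,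
      hp.hPP]
    simp
  have h2 := hp.trP
  have h3 := hp.hB
  have h4 := fro_nonneg (1 - P)
  rw [pow_one, mul_one]
  nlinarith

theorem trE (h : Fr B p e M) : Sm B (1 + p) e ((P * M).trace - M.trace) := by
  have := (hp.frE.trm h).neg
  rw [one_mul, sub_mul, one_mul, trace_sub, neg_sub] at this
  exact this

/-- the main terms of the contraction -/
theorem cm_main {a k c : ℕ} {K : Mat n} (hA : Op B a A) (hK : Op B k K) (hM : Fr B c e M) :
    Sm B (a + k + c + 6) e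
      (cm P A K M / n - (nm A * (K * M).trace - nm (A * K) * M.trace)) := by
  have hn' : (0 : ℝ) < n := by exact_mod_cast hp.npos
  have hr : √(n : ℝ) ≤ n := by
    have h1 : (1 : ℝ) ≤ n := by exact_mod_cast hp.npos
    rw [Real.sqrt_le_left hn'.le]; nlinarith
  have he := hM.2.1
  have le1 : √(n : ℝ) * e ≤ n * e := mul_le_mul_of_nonneg_right hr he
  have hKM := Fr.opl hK hM
  have t1 := ((((hp.op.mul (hA.mul hK).tr).mul hp.op).fr.trm hM).le le1)
  have t3 := ((((hp.op.mul hA.tr).mul hp.op).fr.trm hKM).le le1)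
  have e1 : √(n : ℝ) * (√n * e) = n * e := by rw [← mul_assoc, sq_sqrt_n]
  have e2 : √(n : ℝ) * √n * e = n * e := by rw [sq_sqrt_n]
  have t2a := ((hp.trE (hA.mul hK).fr).mul (Fr.opl hp.op hM).tr).eq e1
  have t2b := ((hA.mul hK).fr.tr.mul (hp.trE hM)).eq e2
  have t4a := ((hp.trE hA.fr).mul (Fr.opl hp.op hKM).tr).eq e1
  have t4b := (hA.fr.tr.mul (hp.trE hKM)).eq e2
  have := ((((t1.sub (t2a.add t2b)).sub t3).add (t4a.add t4b)).div hn').eq
    (mul_div_cancel_left₀ e hn'.ne')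
  refine (this.congr ?_).mono (by omega)
  unfold cm nm
  field_simp
  ring

end Pj

end Vale.Agent.N150.KB
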