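import Vale.Agent.N150.ECDef
import Vale.Agent.N150.SphAnn

/-! Uniform bound on the source of the tracked mean for a Haar rotated pair of matrices:
definitions and statements. The bound is uniform over all points of a class of fields. -/

open MeasureTheory Matrix

namespace Vale.Agent.N150.Kb

open Vale.Agent.P150 Vale.Agent.P150.F Vale.Agent.N150.EC

variable {n : ℕ}

/-- mean of a vector -/
noncomputable def mn (d : Vec n) : ℝ := (∑ i, d i) / n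

/-- the class of diagonals: close to one in mean square, small excess above the level `θ` -/
structure Cl (v θ e : ℝ) (d : Vec n) : Prop where
  pos : ∀ i, 0 < d i
  le : ∀ i, d i ≤ 1
  half : 1 / 2 ≤ mn d
  var : ∑ i, (1 - d i) ^ 2 ≤ n * v
  exc : ∑ i, max (1 - d i - θ) 0 ≤ n * e

/-- the form of `D⁻¹ + N - 1 / w`, in terms of the frame coordinates -/
noncomputable def Hf (lam d : Vec n) (z : ℝ) (O : OG n) (u : Vec n) : ℝ :=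
  ∑ i, u i ^ 2 / d i + ∑ a, (z - lam a - (mn d)⁻¹) * (O.1 *ᵥ u) a ^ 2

/-- the form of `N = z - J` -/
noncomputable def Nf (lam : Vec n) (z : ℝ) (O : OG n) (u : Vec n) : ℝ :=
  ∑ a, (z - lam a) * (O.1 *ᵥ u) a ^ 2

/-- positivity for every fixed diagonal of the class, with failure probability `p` -/
def PD (lam : Vec n) (zl zh C v θ e p : ℝ) : Prop :=
  ∀ (d : Vec n) (z : ℝ), zl ≤ z → z ≤ zh → Cl v θ e d → ∑ a, (z - lam a)⁻¹ = ∑ i, d i →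
    (haar n).real {O | ¬ ∀ u, Nf lam z O u ≤ C * Hf lam d z O u} ≤ p

/-- coercivity of the Hessian `D⁻¹ + B` -/
def Co (B : ℝ) (J : Mat n) (h : Vec n) (z : ℝ) : Prop :=
  ∀ u, F.sq u ≤ B * (∑ i, u i ^ 2 / dv h i + qf (Bm J h z) u)

/-- the bad event: some coercive point of the class has a large source -/
def Bad (lam : Vec n) (Q : Mat n) (zl zh B v θ e κ : ℝ) : Set (OG n) :=
  {O | ∃ (h : Vec n) (z : ℝ), zl ≤ z ∧ z ≤ zh ∧ res2 (Sp.JO lam O) h z = 0 ∧ Cl v θ e (dv h) ∧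
    Co B (Sp.JO lam O) h z ∧ κ < F.sq (k0 (Sp.JO lam O) h z (O.1ᵀ * Q * O.1))}

/-- crude spectral data on the interval `[zl, zh]` -/
structure Spec (lam : Vec n) (Q : Mat n) (zl zh B C v : ℝ) : Prop where
  hn : 4 ≤ n
  hB : 2 ≤ B
  hC : 8 ≤ C
  hCB : C ≤ B
  symm : Qᵀ = Q
  op : OpLe Q B
  low : ∀ a, B⁻¹ ≤ zl - lam a
  up : ∀ a, zh - lam a ≤ 8
  small : 1000 * C ^ 4 * (∑ a, ((zl - lam a) ^ 2)⁻¹) * v ≤ n

/-- **uniform bound on the source**; `M` is the coarse grid -/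
def KbStmt : Prop := ∃ q : ℕ, ∀ (n : ℕ) (lam : Vec n) (Q : Mat n) (zl zh ρ B C v θ e p : ℝ) (M : ℕ),
  Spec lam Q (zl - ρ) zh B C v → PD lam (zl - ρ) zh C v θ e p → 0 < p →
  (n * B) ^ q * √p ≤ 1 → B ^ q ≤ M → B ^ q ≤ ρ * M → (M : ℝ) ≤ √n →
  (haar n).real (Bad lam Q zl zh B v θ e
    (B ^ q * (1 + Real.log M + Real.log n / (M : ℝ) ^ 2))) ≤ Real.exp (-n)

/-- **positivity at a fixed diagonal**, from two scales `T₁ ⊆ T₂` of low modes -/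
def PDStmt : Prop := ∀ (n : ℕ) (lam : Vec n) (zl zh C v θ e δ σ₁ σ₂ ζ x₁ x₂ : ℝ)
  (T₁ T₂ : Finset (Fin n)), 4 ≤ n → T₁ ⊆ T₂ → 0 < δ → δ ≤ σ₁ → 0 < σ₂ → σ₂ ≤ 1 →
  (∀ a, δ ≤ zl - lam a) → (∀ a, zh - lam a ≤ 8) →
  (∀ a, a ∉ T₁ → σ₁ ≤ zl - lam a) → (∀ a, a ∉ T₂ → σ₂ ≤ zl - lam a) →
  1 ≤ x₁ → x₁ ≤ n → 1 ≤ x₂ → x₂ ≤ n → 0 < ζ → ζ ≤ 1 / 1000 →
  x₂ ≤ ζ ^ 2 * σ₂ * n → (T₂.card : ℝ) ≤ ζ * n → ∑ a ∈ T₂, (zl - lam a)⁻¹ ≤ ζ * n →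
  x₂ * (n + ∑ a ∈ T₂ᶜ, ((zl - lam a) ^ 2)⁻¹) ≤ ζ ^ 2 * n ^ 2 →
  4 ≤ C → 0 < θ → 100 * θ ≤ σ₂ → 0 ≤ v → v ≤ θ ^ 2 → 0 ≤ e →
  10 ^ 11 * (e + θ * √(x₁ / n) + θ ^ 2 * ζ + v / C + v * θ / σ₂) ≤ δ →
  10 ^ 11 * (θ ^ 2 * (x₂ / n)) ≤ δ * σ₁ →
  PD lam zl zh C v θ e
    (20 * Real.exp (4 * T₁.card - x₁) + 400 * Real.exp (4 * T₂.card - x₂))

end Vale.Agent.N150.Kb
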