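import Vale.Agent.P146.H22.ParE

/-!
# P150, low temperature: the first block of the Parisi minimiser with a small field (helper98)

For the minimiser with a Gaussian field of small variance `W` on a fine grid, the first block is
short, the replicon is marginal at its end and the overlap map stays above the diagonal before it.
-/

open MeasureTheory ProbabilityTheory Filter Topology Set

namespace Vale.Agent.N150.Kkt

open Vale.Agent.P157.Par
open Vale.Agent.P146.Gap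
open Vale.Agent.P146.Pw2
open Vale.Agent.P367.Cl
open Vale.Agent.P146.Lb
open Vale.Agent.P146.H22.Par

/-! ### Real analysis -/

lemma mono_le {s : ℝ} {f f' : ℝ → ℝ} (hc : ContinuousOn f (Icc 0 s))
    (hd : ∀ τ ∈ Ioo 0 s, HasDerivAt f (f' τ) τ) (h0 : ∀ τ ∈ Ioo 0 s, 0 ≤ f' τ) {t u : ℝ}
    (ht : t ∈ Icc 0 s) (hu : u ∈ Icc 0 s) (htu : t ≤ u) : f t ≤ f u := by
  have hm : MonotoneOn f (Icc 0 s) := by
    refine monotoneOn_of_deriv_nonneg (convex_Icc 0 s) hc ?_ ?_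
    · rw [interior_Icc]
      exact fun τ hτ => (hd τ hτ).differentiableAt.differentiableWithinAt
    · rw [interior_Icc]
      intro τ hτ
      rw [(hd τ hτ).deriv]
      exact h0 τ hτ
  exact hm ht hu htu

lemma real_end {s h : ℝ} {f k : ℝ → ℝ} (hs : 0 < s) (hf : ContinuousOn f (Icc 0 s))
    (hk : ContinuousOn k (Icc 0 s)) (hd : ∀ τ ∈ Ioo 0 s, HasDerivAt f (k τ) τ) (h0 : f s = 0)
    (hle : ∀ t ∈ Icc 0 s, -(h * (s - t) ^ 2) ≤ ∫ u in t..s, f u) : k s ≤ 2 * h := by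
  have hmap : MapsTo (fun τ : ℝ => s - τ) (Icc 0 s) (Icc 0 s) := fun τ hτ =>
    ⟨by linarith [hτ.2], by linarith [hτ.1]⟩
  have hsub : ContinuousOn (fun τ : ℝ => s - τ) (Icc 0 s) := by fun_prop
  have key := split_real (V := s) (a := 2 * h) (R := fun τ => -f (s - τ)) (M := fun τ => k (s - τ))
    hs (hf.comp hsub hmap).neg (hk.comp hsub hmap) ?_ (by simp only [sub_zero, h0, neg_zero]) ?_
  · simpa only [sub_zero] using key
  · intro τ hτ
    have h1 := hd (s - τ) ⟨by linarith [hτ.2], by linarith [hτ.1]⟩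
    have h2 : HasDerivAt (fun τ : ℝ => s - τ) (-1) τ := by
      simpa using (hasDerivAt_id τ).const_sub s
    have h3 := (h1.comp τ h2).neg
    have e : -(k (s - τ) * -1) = k (s - τ) := by ring
    rw [e] at h3
    exact h3
  · intro t ht
    have h1 := hle (s - t) ⟨by linarith [ht.2], by linarith [ht.1]⟩
    rw [intervalIntegral.integral_neg, intervalIntegral.integral_comp_sub_left (fun u => f u) s]
    simp only [sub_zero]
    have e : s - (s - t) = t := by ring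
    rw [e] at h1
    linarith

lemma real_grow {s a g h : ℝ} {f k k1 : ℝ → ℝ} (ha : 0 ≤ a) (hg : 0 ≤ g)
    (hf : ContinuousOn f (Icc 0 s)) (hk : ContinuousOn k (Icc 0 s))
    (hd : ∀ τ ∈ Ioo 0 s, HasDerivAt f (k τ) τ) (hd1 : ∀ τ ∈ Ioo 0 s, HasDerivAt k (k1 τ) τ)
    (h1 : ∀ τ ∈ Ioo 0 s, a * τ - 2 * g ≤ k1 τ) (h0 : f s = 0) (hks : k s ≤ h) {t : ℝ}
    (ht : t ∈ Icc 0 s) : a / 6 * (s - t) ^ 3 - (h + 2 * g * s) * (s - t) ≤ f t := by
  have hs : s ∈ Icc 0 s := ⟨ht.1.trans ht.2, le_rfl⟩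
  have hA : ∀ u ∈ Icc 0 s, k u + a / 2 * (s - u) ^ 2 ≤ h + 2 * g * s := by
    intro u hu
    have h2 := mono_le (f := fun τ => k τ - a / 2 * τ ^ 2 + 2 * g * τ)
      (f' := fun τ => k1 τ - a / 2 * (2 * τ) + 2 * g) ((hk.sub (by fun_prop)).add (by fun_prop))
      (fun τ hτ => by
        have e1 : HasDerivAt (fun τ : ℝ => τ ^ 2) (2 * τ) τ := by
          simpa using hasDerivAt_pow 2 τ
        have e2 : HasDerivAt (fun τ : ℝ => 2 * g * τ) (2 * g) τ := by
          simpa using (hasDerivAt_id τ).const_mul (2 * g)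
        exact ((hd1 τ hτ).sub (e1.const_mul (a / 2))).add e2)
      (fun τ hτ => by linarith [h1 τ hτ]) hu hs hu.2
    have h3 : (s - u) ^ 2 ≤ s ^ 2 - u ^ 2 := by nlinarith [hu.1, hu.2]
    have h4 := mul_le_mul_of_nonneg_left h3 (show 0 ≤ a / 2 by positivity)
    have h5 : 0 ≤ 2 * g * u := by have := hu.1; positivity
    linarith
  have h6 := mono_le (f := fun τ => -f τ + a / 6 * (s - τ) ^ 3 - (h + 2 * g * s) * (s - τ))
    (f' := fun τ => -k τ + a / 6 * (3 * (s - τ) ^ 2 * -1) - (h + 2 * g * s) * -1)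
    ((hf.neg.add (by fun_prop)).sub (by fun_prop))
    (fun τ hτ => by
      have e1 : HasDerivAt (fun τ : ℝ => s - τ) (-1) τ := by
        simpa using (hasDerivAt_id τ).const_sub s
      have e2 : HasDerivAt (fun τ : ℝ => (s - τ) ^ 3) (3 * (s - τ) ^ 2 * -1) τ := by
        have e3 := e1.fun_pow 3
        simpa using e3
      exact ((hd τ hτ).neg.add (e2.const_mul (a / 6))).sub (e1.const_mul _))
    (fun τ hτ => by linarith [hA τ ⟨hτ.1.le, hτ.2.le⟩]) ht hs ht.2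
  simp only [h0, sub_self] at h6
  linarith

/-! ### The first block -/

variable {n : ℕ} {m r : ℕ → ℝ} {b W : ℝ}

lemma gb_first (h0 : r 0 = 0) (t : ℝ) :
    Gb n m r 0 t = gstep (m 1) (r 1 - t) (Fl n m r 1) := by
  unfold Gb
  rw [h0, sub_zero]

lemma bt_first (h0 : r 0 = 0) (t : ℝ) (ψ : ℝ → ℝ) :
    Bt n m r 0 t ψ = tlt (m 1) t (gstep (m 1) (r 1 - t) (Fl n m r 1)) ψ 0 := by
  unfold Bt
  rw [ee_zero h0, gb_first h0]

lemma m1b_first (h0 : r 0 = 0) (t : ℝ) :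
    M1b n m r 0 t = M1f (m 1) (r 1) (Fl n m r 1) t := by
  unfold M1b M1f
  rw [bt_first h0, gb_first h0]

lemma bet_fl (hm : Exponents n m) (hr : Path n r) (hn : 1 ≤ n) (x : ℝ) :
    0 ≤ bet (Real.exp (-(2 * (r n - r 1)))) (Fl n m r 1) x := by
  have hlt : ∀ l, 1 ≤ l → l ≤ n → 0 < m l ∧ m l ≤ 1 := fun l h1 h2 => by
    have h3 := sp7_exp_of hm (l - 1) (by omega)
    have e1 : l - 1 + 1 = l := by omega
    rw [e1] at h3
    exact h3
  have hb := inv_cascade (n := n - 1) (m := fun i => m (1 + i)) (r := fun i => r (1 + i)) (c := 1)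
    good_lc le_rfl zero_lt_one le_rfl inv_lc
    (fun l h1 h2 => (hlt (1 + l) (by omega) (by omega)).1)
    (fun l _ h2 => (hm.2.2 (1 + l) (by omega)).le)
    (fun l h1 h2 => (hlt (1 + l) (by omega) (by omega)).2)
    (fun l hl => hr.2 (1 + l) (by omega)) x
  have e : 1 + (n - 1) = n := by omega
  simp only [one_mul, e, add_zero] at hb
  exact hb

/-- growth of the derivative of the replicon along the first block -/
lemma m1b_low (B : ℝ) : ∃ a : ℝ, 0 < a ∧ ∀ (n : ℕ) (m r : ℕ → ℝ), Exponents n m → BPath B n r →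
    1 ≤ n → 0 < r 1 → ∀ τ ∈ Ioo 0 (r 1), a * τ - 2 * m 1 ≤ M1b n m r 0 τ := by
  obtain ⟨a, ha, h⟩ := sx_M1f (S := B ^ 2) (sq_nonneg B)
  refine ⟨a, ha, fun n m r hm hr hn h1 τ hτ => ?_⟩
  obtain ⟨C, hC⟩ := fl_good hm hr.2.1 hn
  have g0 := (sp7_exp_of hm 0 (by omega)).1
  have g2 : m (1 + 1) ≤ 1 := gapn_exp_le_one hm (by omega)
  rw [m1b_first hr.1]
  exact h (m 1) (m (1 + 1)) C (r n - r 1) (r 1) _ hC (fl_aks hm hr.2.1 hn)
    (sub_nonneg.2 (gapn_path_le hr.2.1 hn le_rfl)) g0 (hm.2.2 1 hn).le g2 h1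
    (by linarith [hr.2.2]) (bet_fl hm hr.2.1 hn) τ hτ

lemma ml_flat (hm : Exponents n m) (hr : Path n r) {l : ℕ} (h1 : 1 ≤ l) (hl : l ≤ n)
    (h : r l = r 1) : Ml n m r l = Ml n m r 1 := by
  induction l, h1 using Nat.le_induction with
  | base => rfl
  | succ l h1 ih =>
    have a1 : r 1 ≤ r l := gapn_path_le hr h1 (by omega)
    have a2 : r l ≤ r (l + 1) := hr.2 l (by omega)
    have a3 : r l = r 1 := by linarith
    have a4 := Mb_last hm hr (show l < n by omega)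
    have a5 := Mb_zero hm hr (show l < n by omega)
    rw [show r (l + 1) - r l = 0 by linarith] at a4
    rw [← a4, a5]
    exact ih (by omega) a3

lemma exists_jump (hr : Path n r) (hn : 1 ≤ n) (h : r 1 < r n) :
    ∃ l, 1 ≤ l ∧ l < n ∧ r l = r 1 ∧ r l < r (l + 1) := by
  classical
  have hex : ∃ j, 1 ≤ j ∧ j ≤ n ∧ r 1 < r j := ⟨n, hn, le_rfl, h⟩
  obtain ⟨a1, a2, a3⟩ := Nat.find_spec hex
  obtain ⟨j, hj⟩ : ∃ j, j = Nat.find hex := ⟨_, rfl⟩
  rw [← hj] at a1 a2 a3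
  have a4 : j ≠ 1 := by
    intro e
    rw [e] at a3
    exact lt_irrefl _ a3
  have a5 : ¬ (1 ≤ j - 1 ∧ j - 1 ≤ n ∧ r 1 < r (j - 1)) :=
    Nat.find_min hex (by rw [← hj]; omega)
  have a6 : r (j - 1) ≤ r 1 := by
    by_contra a7
    exact a5 ⟨by omega, by omega, not_le.1 a7⟩
  have a8 : r 1 ≤ r (j - 1) := gapn_path_le hr (by omega) (by omega)
  refine ⟨j - 1, by omega, by omega, le_antisymm a6 a8, ?_⟩
  rw [show j - 1 + 1 = j by omega]
  linarith

lemma gm_one (n : ℕ) : gm n 1 = 1 / ((n : ℝ) + 1) := by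
  unfold gm
  simp

/-- **The first block of the minimiser with a small field.** -/
theorem first (hb : 1 < b) : ∃ a C W0 : ℝ, 0 < a ∧ 1 ≤ C ∧ 0 < W0 ∧ W0 ≤ 1 ∧
    ∀ W, 0 < W → W ≤ W0 → ∀ η > 0, ∃ n0 : ℕ, 1 ≤ n0 ∧ ∀ n ≥ n0, ∀ r, IsMinW b W n 1 r →
      r 1 ^ 3 ≤ C * W ∧ ∀ t ∈ Icc 0 (r 1),
        a * (r 1 - t) ^ 3 - η ≤ Rb n (gm n) r 0 t - (t - W) / b ^ 2 ∧
        |Mb n (gm n) r 0 t - 1 / b ^ 2| ≤ C * (r 1 - t) + η := by
  have hb0 : 0 < b := by linarith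
  have hb2 : 1 < b ^ 2 := by nlinarith
  obtain ⟨a, ha, hlow⟩ := m1b_low (√(b ^ 2 + 1))
  obtain ⟨C1, hC1, hbd⟩ := M1b_bd (√(b ^ 2 + 1))
  obtain ⟨C2, hC2, hdn⟩ := var_downW hb0
  obtain ⟨C3, hC3, hun⟩ := unifW hb0
  obtain ⟨c, hc, hlast⟩ := lastW hb
  refine ⟨a / 6, C1 + 12 / a, min 1 (c ^ 3 * a / 24), by positivity,
    by have : 0 ≤ 12 / a := by positivity
       linarith, by positivity, min_le_left _ _, fun W hW hW0 η hη => ?_⟩
  have hW1 : W ≤ 1 := hW0.trans (min_le_left _ _)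
  have hWc : W ≤ c ^ 3 * a / 24 := hW0.trans (min_le_right _ _)
  obtain ⟨S, hS⟩ : ∃ S : ℝ, S = b ^ 2 + 1 := ⟨_, rfl⟩
  have hS1 : 1 ≤ S := by rw [hS]; linarith
  obtain ⟨e, he⟩ : ∃ e : ℝ, e = η / C3 := ⟨_, rfl⟩
  have he0 : 0 < e := by rw [he]; positivity
  have hCe : C3 * e = η := by rw [he]; field_simp
  obtain ⟨y, hy⟩ : ∃ y : ℝ, y = min η W / ((2 * C2 + 2 * S) * S) := ⟨_, rfl⟩
  have hy0 : 0 < y := by rw [hy]; positivity
  obtain ⟨n0, hn0⟩ := exists_nat_ge (1 / e ^ 4 + 1 / c + 1 / y)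
  refine ⟨n0 + 1, by omega, fun n hn r hr => ?_⟩
  have hn1 : 1 ≤ n := by omega
  have hnr : 1 / e ^ 4 + 1 / c + 1 / y ≤ (n : ℝ) + 1 := by
    have : (n0 : ℝ) ≤ n := by exact_mod_cast (show n0 ≤ n by omega)
    linarith
  have hN : (0 : ℝ) < (n : ℝ) + 1 := by positivity
  have p1 : 0 < 1 / e ^ 4 := by positivity
  have p2 : 0 < 1 / c := by positivity
  have p3 : 0 < 1 / y := by positivity
  have q1 : 1 ≤ e ^ 4 * ((n : ℝ) + 1) := by
    rw [← div_le_iff₀' (by positivity)]; linarith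
  have q2 : 1 ≤ c * ((n : ℝ) + 1) := by
    rw [← div_le_iff₀' hc]; linarith
  have q3 : 1 / ((n : ℝ) + 1) ≤ y := by
    rw [div_le_iff₀ hN, ← div_le_iff₀' hy0]; linarith
  have hm := gm_exponents n
  have hBP := hr.1
  have hp := hBP.2.1
  have hr0 := hBP.1
  have hfix := statW hb0 hW.le hW1 le_rfl hr 1 hn1 le_rfl
  have hs0 : 0 < r 1 := by
    have := mul_nonneg (sq_nonneg b) (spR_nonneg hm hp hn1)
    linarith
  have hsS : r 1 ≤ S := by
    have := (gapn_path_le hp hn1 le_rfl).trans hBP.2.2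
    rwa [sq_B, ← hS] at this
  have hl : 0 < n := hn1
  have hRc := Rb_cont hm hp hl
  have hMc := Mb_cont hm hp hl
  have hrd := fun t ht => Rb_deriv (t := t) hm hp hl ht
  have hmd := fun t ht => Mb_deriv (t := t) hm hp hl ht
  have hd := hdn n 1 r 0 W hr hl le_rfl
  have hb1 := hbd n (gm n) r hm hBP 0 hl
  have hlip := fun s t hs ht hst => luni_lip (s := s) (t := t) hm hp hl hb1 hs ht hst
  have hRl := Rb_last hm hp hl
  have hMl := Mb_last hm hp hl
  simp only [zero_add, hr0, sub_zero] at hRc hMc hrd hmd hd hlip hRl hMl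
  have hfc : ContinuousOn (fun t => Rb n (gm n) r 0 t - (t - W) / b ^ 2) (Icc 0 (r 1)) :=
    hRc.sub (by fun_prop)
  have hkc : ContinuousOn (fun t => Mb n (gm n) r 0 t - 1 / b ^ 2) (Icc 0 (r 1)) :=
    hMc.sub continuousOn_const
  have hfd : ∀ t ∈ Ioo 0 (r 1), HasDerivAt (fun t => Rb n (gm n) r 0 t - (t - W) / b ^ 2)
      (Mb n (gm n) r 0 t - 1 / b ^ 2) t := fun t ht =>
    (hrd t ht).sub (((hasDerivAt_id t).sub_const W).div_const _)
  have hkd : ∀ t ∈ Ioo 0 (r 1), HasDerivAt (fun t => Mb n (gm n) r 0 t - 1 / b ^ 2)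
      (M1b n (gm n) r 0 t) t := fun t ht => (hmd t ht).sub_const _
  have hf1 : Rb n (gm n) r 0 (r 1) - (r 1 - W) / b ^ 2 = 0 := by
    rw [hRl, sub_eq_zero, eq_div_iff (by positivity)]
    linarith
  have hend := real_end (h := C2 / ((n : ℝ) + 1)) hs0 hfc hkc hfd hf1 hd
  have hg0 : 0 ≤ gm n 1 := by rw [gm_one]; positivity
  have hgrow := fun t (ht : t ∈ Icc 0 (r 1)) => real_grow ha.le hg0 hfc hkc hfd hkd
    (hlow n (gm n) r hm hBP hn1 hs0) hf1 hend ht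
  have herr : ∀ t ∈ Icc 0 (r 1),
      (2 * (C2 / ((n : ℝ) + 1)) + 2 * gm n 1 * r 1) * (r 1 - t) ≤ min η W := by
    intro t ht
    have a1 : 2 * (C2 / ((n : ℝ) + 1)) + 2 * gm n 1 * r 1 ≤ (2 * C2 + 2 * S) * y := by
      rw [gm_one]
      have b1 : C2 / ((n : ℝ) + 1) ≤ C2 * y := by
        rw [div_eq_mul_one_div]
        exact mul_le_mul_of_nonneg_left q3 (by linarith)
      have b2 : 1 / ((n : ℝ) + 1) * r 1 ≤ y * S := mul_le_mul q3 hsS hs0.le hy0.le
      linarith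
    have a2 : r 1 - t ≤ S := by linarith [ht.1]
    have a3 := mul_le_mul a1 a2 (by linarith [ht.2]) (by positivity)
    refine a3.trans (le_of_eq ?_)
    rw [hy]
    field_simp
  have hcube : r 1 ^ 3 ≤ 12 / a * W := by
    have a1 := hgrow 0 ⟨le_rfl, hs0.le⟩
    have a2 := (herr 0 ⟨le_rfl, hs0.le⟩).trans (min_le_right _ _)
    have a3 : Rb n (gm n) r 0 0 = 0 := by
      rw [Rb_zero hm hp hl]
      exact Vale.Agent.P146.Gap.spR_zero hm hp hr0
    have a4 : W / b ^ 2 ≤ W := div_le_self hW.le hb2.le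
    rw [a3, sub_zero] at a1
    rw [sub_zero] at a2
    have a5 : 0 - (0 - W) / b ^ 2 = W / b ^ 2 := by ring
    rw [a5] at a1
    rw [div_mul_eq_mul_div, le_div_iff₀ ha]
    linarith
  have hlt : r 1 < r n := by
    have a1 := hlast n 1 r W hW.le hW1 le_rfl hn1 hr q2
    have a2 : r 1 ^ 3 < c ^ 3 := by
      have b1 : 12 / a * W ≤ 12 / a * (c ^ 3 * a / 24) :=
        mul_le_mul_of_nonneg_left hWc (by positivity)
      have b2 : 12 / a * (c ^ 3 * a / 24) = c ^ 3 / 2 := by field_simp; ring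
      have b3 : 0 < c ^ 3 := by positivity
      linarith
    exact (lt_of_pow_lt_pow_left₀ 3 hc.le a2).trans_le a1
  obtain ⟨l, l1, l2, l3, l4⟩ := exists_jump hp hn1 hlt
  have hmarg := hun n 1 r l e W hW.le hW1 le_rfl hr l1 l2 l4 he0 q1 0 ⟨le_rfl, by linarith⟩
  rw [Mb_zero hm hp l2, ml_flat hm hp l1 l2.le l3, ← hMl, hCe] at hmarg
  refine ⟨hcube.trans (mul_le_mul_of_nonneg_right (by linarith) hW.le), fun t ht => ⟨?_, ?_⟩⟩
  · have a1 := hgrow t ht
    have a2 := (herr t ht).trans (min_le_left _ _)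
    linarith
  · have a1 := hlip t (r 1) ht ⟨hs0.le, le_rfl⟩ ht.2
    have a2 : C1 * (r 1 - t) ≤ (C1 + 12 / a) * (r 1 - t) :=
      mul_le_mul_of_nonneg_right (by have : 0 ≤ 12 / a := by positivity
                                     linarith) (by linarith [ht.2])
    have a3 := abs_le.1 a1
    have a4 := abs_le.1 hmarg
    rw [abs_le]
    constructor <;> linarith [a3.1, a3.2, a4.1, a4.2]

end Vale.Agent.N150.Kkt
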