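import Vale.Agent.N150.KktA
import Vale.Agent.N150.KktDef
import Vale.Agent.N150.BcSDef

/-!
# P150, low temperature: the reference order parameter exists (helper98)
-/

open MeasureTheory ProbabilityTheory Filter Topology Set

namespace Vale.Agent.N150.Kkt

open Vale.Agent.P157.Par
open Vale.Agent.P146.Gap
open Vale.Agent.P146.Pw2
open Vale.Agent.P367.Cl
open Vale.Agent.P146.Lb
open Vale.Agent.P146.H22.Par

/-! ### Removing a small tilt -/

lemma tlt_zero_exp (v : ℝ) (F ψ : ℝ → ℝ) (x : ℝ) :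
    tlt 0 v F ψ x = ∫ z, ψ (x + √v * z) ∂(gaussianReal 0 1) := by
  unfold tlt
  simp

lemma U_tlt (v : ℝ) (F : ℝ → ℝ) (j : ℕ) : U F j v = tlt 0 v F (iteratedDeriv j F) := by
  funext x
  rw [tlt_zero_exp]
  rfl

lemma lip_d {f f' : ℝ → ℝ} {L : ℝ} (hd : ∀ x, HasDerivAt f (f' x) x) (hb : ∀ x, |f' x| ≤ L)
    (x y : ℝ) : |f x - f y| ≤ L * |x - y| := by
  have := convex_univ.norm_image_sub_le_of_norm_hasDerivWithin_le (f := f) (f' := f')
    (s := Set.univ) (fun x _ => (hd x).hasDerivWithinAt) (fun x _ => hb x)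
    (mem_univ y) (mem_univ x)
  simpa only [Real.norm_eq_abs] using this

variable {K C g v : ℝ} {F : ℝ → ℝ}

lemma abs_d1 (h : Adm C F) (x : ℝ) : |iteratedDeriv 1 F x| ≤ 1 := (adm_ec h).abs_M x

lemma abs_d2 (h : Adm C F) (x : ℝ) : |iteratedDeriv 2 F x| ≤ 1 := by
  have := vari_d2_01 h x
  rw [abs_of_pos this.1]
  exact this.2

lemma abs_d3 (h : Adm K F) (hK : 0 ≤ K) (x : ℝ) : |iteratedDeriv 3 F x| ≤ K :=
  (h.r3 x).trans (mul_le_of_le_one_right hK (vari_d2_01 h x).2)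

lemma lip_d1 (h : Adm C F) (x y : ℝ) :
    |iteratedDeriv 1 F x - iteratedDeriv 1 F y| ≤ 1 * |x - y| :=
  lip_d (adm_hasD h.smb.smooth 1) (abs_d2 h) x y

lemma lip_d2 (h : Adm K F) (hK : 0 ≤ K) (x y : ℝ) :
    |iteratedDeriv 2 F x - iteratedDeriv 2 F y| ≤ K * |x - y| :=
  lip_d (adm_hasD h.smb.smooth 2) (abs_d3 h hK) x y

lemma inner_close {S : ℝ} (hS : 0 ≤ S) : ∃ D : ℝ, 0 ≤ D ∧ ∀ {K g v : ℝ} {F : ℝ → ℝ}, Adm K F →
    1 ≤ K → 0 < g → g ≤ 1 → 0 ≤ v → v ≤ S → ∀ x,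
      |iteratedDeriv 1 (gstep g v F) x - U F 1 v x| ≤ D * K * g ∧
      |iteratedDeriv 2 (gstep g v F) x - U F 2 v x| ≤ D * K * g := by
  obtain ⟨D, hD, h⟩ := tlt_exp_lip S
  refine ⟨D * S + 1, by positivity, fun {K g v F} hF hK hg hg1 hv hvS x => ?_⟩
  have hE := adm_ec hF
  have hs := hE.sm
  have c1 := adm_cont hF.smb.smooth 1
  have c2 := adm_cont hF.smb.smooth 2
  have a1 := h hE le_rfl zero_le_one hg.le hg1 hv hvS zero_le_one (nest_cb1 hF) (lip_d1 hF) x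
  have a2 := h hE le_rfl zero_le_one hg.le hg1 hv hvS (by linarith : 0 ≤ K) (nest_cb2 hF)
    (lip_d2 hF (by linarith)) x
  rw [sub_zero, abs_of_pos hg] at a1 a2
  have b1 : D * 1 * g * v ≤ D * S * K * g := by
    have e : D * 1 * g * v = D * v * 1 * g := by ring
    rw [e]
    gcongr
  have b2 : D * K * g * v ≤ D * S * K * g := by
    have e : D * K * g * v = D * v * K * g := by ring
    rw [e]
    gcongr
  have b3 : g ≤ K * g := le_mul_of_one_le_left hg.le hK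
  rw [U_tlt, U_tlt]
  constructor
  · have e : iteratedDeriv 1 (gstep g v F) x = _ := adm_fj1 hF hg hg1 v x
    rw [e]
    linarith
  · have e : iteratedDeriv 2 (gstep g v F) x = _ := adm_fj2 hF hg hg1 v x
    have hsq : ∀ y, |iteratedDeriv 1 F y ^ 2| ≤ 1 := fun y => by
      rw [abs_pow]
      exact pow_le_one₀ (abs_nonneg _) (abs_d1 hF y)
    have hsq' : ∀ y, |g * iteratedDeriv 1 F y ^ 2| ≤ g := fun y => by
      rw [abs_mul, abs_of_pos hg]
      exact mul_le_of_le_one_right hg.le (hsq y)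
    rw [e, hs.tlt_add (g' := fun y => g * iteratedDeriv 1 F y ^ 2) c2 (abs_d2 hF)
      (continuous_const.mul (c1.pow 2)) hsq', tlt_const_mul]
    have d1 := hs.tlt_sq_le c1 (abs_d1 hF) g v x
    have d2 := (le_abs_self _).trans (hs.abs_tlt_le (g := fun y => iteratedDeriv 1 F y ^ 2)
      (c1.pow 2) hsq g v x)
    have d3 := sq_nonneg (tlt g v F (iteratedDeriv 1 F) x)
    have d4 := mul_le_mul_of_nonneg_left d1 hg.le
    have d5 := mul_le_mul_of_nonneg_left d2 hg.le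
    have d6 := mul_nonneg hg.le d3
    have d7 := abs_le.1 a2
    rw [abs_le]
    constructor <;> linarith [d7.1, d7.2]

lemma outer_close {S : ℝ} (hS : 0 ≤ S) : ∃ D : ℝ, 0 ≤ D ∧ ∀ {g t L ε : ℝ} {G M N φ φ0 : ℝ → ℝ},
    Ec G M N → 0 ≤ g → g ≤ 1 → 0 ≤ t → t ≤ S → 0 ≤ L → Continuous φ → Continuous φ0 →
    (∀ x, |φ x| ≤ 1) → (∀ x, |φ0 x| ≤ 1) → (∀ x, |φ x - φ0 x| ≤ ε) →
    (∀ x y, |φ x - φ y| ≤ L * |x - y|) →
      |tlt g t G (fun x => φ x ^ 2) 0 - ∫ z, φ0 (√t * z) ^ 2 ∂(gaussianReal 0 1)| ≤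
        D * L * g + 2 * ε := by
  obtain ⟨D, hD, h⟩ := tlt_exp_lip S
  refine ⟨2 * D * S, by positivity, fun {g t L ε G M N φ φ0} hE hg hg1 ht htS hL c1 c0 b1 b0 hε
    hlip => ?_⟩
  have hsq : ∀ a c : ℝ, |a| ≤ 1 → |c| ≤ 1 → |a ^ 2 - c ^ 2| ≤ 2 * |a - c| := by
    intro a c ha hc
    have e : a ^ 2 - c ^ 2 = (a + c) * (a - c) := by ring
    rw [e, abs_mul]
    exact mul_le_mul_of_nonneg_right ((abs_add_le a c).trans (by linarith)) (abs_nonneg _)
  have s1 : ∀ y, |φ y ^ 2| ≤ 1 := fun y => by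
    rw [abs_pow]
    exact pow_le_one₀ (abs_nonneg _) (b1 y)
  have s0 : ∀ y, |φ0 y ^ 2| ≤ 1 := fun y => by
    rw [abs_pow]
    exact pow_le_one₀ (abs_nonneg _) (b0 y)
  have a1 := h (ψ := fun x => φ x ^ 2) (L := 2 * L) hE le_rfl zero_le_one hg hg1 ht htS
    (by positivity) ⟨c1.pow 2, 1, s1⟩ (fun x y => (hsq _ _ (b1 x) (b1 y)).trans (by
      have := hlip x y
      linarith)) 0
  rw [sub_zero, abs_of_nonneg hg] at a1
  have a2 : D * (2 * L) * g * t ≤ 2 * D * S * L * g := by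
    have e : D * (2 * L) * g * t = 2 * D * t * L * g := by ring
    rw [e]
    gcongr
  have e0 : ∫ z, φ0 (√t * z) ^ 2 ∂(gaussianReal 0 1) = tlt 0 t G (fun x => φ0 x ^ 2) 0 := by
    rw [tlt_zero_exp]
    simp only [zero_add]
  have hs := hE.sm
  have k : ∀ y, |2 * ε| ≤ |2 * ε| := fun _ : ℝ => le_rfl
  have s1' : ∀ y, |φ y ^ 2 + 2 * ε| ≤ 1 + |2 * ε| := fun y =>
    (abs_add_le _ _).trans (by linarith [s1 y])
  have s0' : ∀ y, |φ0 y ^ 2 + 2 * ε| ≤ 1 + |2 * ε| := fun y =>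
    (abs_add_le _ _).trans (by linarith [s0 y])
  have hd : ∀ y, |φ y ^ 2 - φ0 y ^ 2| ≤ 2 * ε := fun y =>
    (hsq _ _ (b1 y) (b0 y)).trans (by linarith [hε y])
  have a3 := hs.tlt_mono (c1.pow 2) s1 ((c0.pow 2).add continuous_const) s0'
    (fun y => by have := (abs_le.1 (hd y)).2
                 simp only [Pi.pow_apply, Pi.add_apply]
                 linarith) 0 t 0
  have a4 := hs.tlt_mono (c0.pow 2) s0 ((c1.pow 2).add continuous_const) s1'
    (fun y => by have := (abs_le.1 (hd y)).1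
                 simp only [Pi.pow_apply, Pi.add_apply]
                 linarith) 0 t 0
  have a5 := hs.tlt_add (g := fun x => φ0 x ^ 2) (g' := fun _ => 2 * ε) (c0.pow 2) s0
    continuous_const k 0 t 0
  have a6 := hs.tlt_add (g := fun x => φ x ^ 2) (g' := fun _ => 2 * ε) (c1.pow 2) s1
    continuous_const k 0 t 0
  rw [hs.tlt_const] at a5 a6
  have a3' : tlt 0 t G (fun x => φ x ^ 2) 0 ≤ tlt 0 t G (fun x => φ0 x ^ 2 + 2 * ε) 0 := a3
  have a4' : tlt 0 t G (fun x => φ0 x ^ 2) 0 ≤ tlt 0 t G (fun x => φ x ^ 2 + 2 * ε) 0 := a4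
  have a7 := abs_le.1 a1
  rw [e0, abs_le]
  constructor <;> linarith [a7.1, a7.2]

/-- the second moment without tilt -/
noncomputable def Em (F : ℝ → ℝ) (s : ℝ) (j : ℕ) (t : ℝ) : ℝ :=
  ∫ z, U F j (s - t) (√t * z) ^ 2 ∂(gaussianReal 0 1)

theorem untilt (B : ℝ) : ∃ D : ℝ, 0 ≤ D ∧ ∀ (n : ℕ) (m r : ℕ → ℝ), Exponents n m → BPath B n r →
    1 ≤ n → ∀ t ∈ Icc 0 (r 1), |Rb n m r 0 t - Em (Fl n m r 1) (r 1) 1 t| ≤ D * m 1 ∧
      |Mb n m r 0 t - Em (Fl n m r 1) (r 1) 2 t| ≤ D * m 1 := by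
  obtain ⟨K, hK, hcl⟩ := fl_bk B
  obtain ⟨D1, hD1, h1⟩ := inner_close (sq_nonneg B)
  obtain ⟨D2, hD2, h2⟩ := outer_close (sq_nonneg B)
  refine ⟨D2 * K + 2 * (D1 * K), by positivity, fun n m r hm hr hn t ht => ?_⟩
  obtain ⟨hA, hB⟩ := hcl n m r hm hr
  obtain ⟨g0, g1⟩ := sp7_exp_of hm 0 hn
  simp only [zero_add] at g0 g1
  have hF := (hA 1 hn).adm
  have hsB : r 1 ≤ B ^ 2 := (gapn_path_le hr.2.1 hn le_rfl).trans hr.2.2
  have hG : Adm K (gstep (m 1) (r 1 - t) (Fl n m r 1)) := by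
    have := hB 0 hn (r 1 - t) ⟨by linarith [ht.2], by
      simp only [zero_add, hr.1, sub_zero]
      linarith [ht.1]⟩
    exact this.adm
  have hin := h1 hF hK g0 g1 (show 0 ≤ r 1 - t by linarith [ht.2]) (by linarith [ht.1])
  have hs := (adm_ec hF).sm
  have c1 := adm_cont hF.smb.smooth 1
  have c2 := adm_cont hF.smb.smooth 2
  have u1 : Continuous (U (Fl n m r 1) 1 (r 1 - t)) := by
    rw [U_tlt]; exact hs.tlt_cont c1 (abs_d1 hF) _ _
  have u2 : Continuous (U (Fl n m r 1) 2 (r 1 - t)) := by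
    rw [U_tlt]; exact hs.tlt_cont c2 (abs_d2 hF) _ _
  have w1 : ∀ x, |U (Fl n m r 1) 1 (r 1 - t) x| ≤ 1 := fun x => by
    rw [U_tlt]; exact hs.abs_tlt_le c1 (abs_d1 hF) _ _ _
  have w2 : ∀ x, |U (Fl n m r 1) 2 (r 1 - t) x| ≤ 1 := fun x => by
    rw [U_tlt]; exact hs.abs_tlt_le c2 (abs_d2 hF) _ _ _
  have a1 := h2 (adm_ec hG) g0.le g1 ht.1 (ht.2.trans hsB) zero_le_one
    (adm_cont hG.smb.smooth 1) u1 (abs_d1 hG) w1 (fun x => (hin x).1) (lip_d1 hG)
  have a2 := h2 (adm_ec hG) g0.le g1 ht.1 (ht.2.trans hsB) (by linarith : 0 ≤ K)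
    (adm_cont hG.smb.smooth 2) u2 (abs_d2 hG) w2 (fun x => (hin x).2)
    (lip_d2 hG (by linarith))
  have a3 : D2 * 1 * m 1 ≤ D2 * K * m 1 := by gcongr
  unfold Rb Mb Em
  rw [bt_first hr.1, bt_first hr.1, gb_first hr.1]
  constructor <;> linarith

lemma mean_le_gstep (h : Adm C F) (hg : 0 < g) (v x : ℝ) :
    ∫ z, F (x + √v * z) ∂(gaussianReal 0 1) ≤ gstep g v F x := by
  have hs := (adm_ec h).sm
  have i1 := hs.lip1.integrable x (√v)
  have i2 := hs.integrable_exp g v x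
  obtain ⟨μ, hμ⟩ : ∃ μ, μ = ∫ z, F (x + √v * z) ∂(gaussianReal 0 1) := ⟨_, rfl⟩
  rw [← hμ]
  have h1 : ∀ z, Real.exp (g * μ) * (1 + g * (F (x + √v * z) - μ)) ≤
      Real.exp (g * F (x + √v * z)) := by
    intro z
    have e : g * F (x + √v * z) = g * μ + g * (F (x + √v * z) - μ) := by ring
    rw [e, Real.exp_add]
    exact mul_le_mul_of_nonneg_left (by linarith [Real.add_one_le_exp (g * (F (x + √v * z) - μ))])
      (Real.exp_pos _).le
  have i3 : Integrable (fun z => g * (F (x + √v * z) - μ)) (gaussianReal 0 1) :=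
    (i1.sub (integrable_const μ)).const_mul g
  have h2 := integral_mono (((integrable_const (1 : ℝ)).add i3).const_mul (Real.exp (g * μ))) i2 h1
  rw [integral_const_mul] at h2
  have h3 : ∫ z, ((1 : ℝ) + g * (F (x + √v * z) - μ)) ∂(gaussianReal 0 1) = 1 := by
    rw [integral_add (integrable_const _) i3, integral_const_mul,
      integral_sub i1 (integrable_const _), ← hμ]
    simp
  simp only [Pi.add_apply] at h2
  rw [h3, mul_one] at h2
  have h4 := Real.log_le_log (Real.exp_pos _) h2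
  rw [Real.log_exp] at h4
  unfold gstep
  rw [one_div, le_inv_mul_iff₀ hg]
  exact h4

/-! ### The shifted data -/

/-- the exponents above the first level -/
noncomputable def mS (n l : ℕ) : ℝ := if l = 0 then 0 else gm n (l + 1)

/-- the overlaps above the first level, shifted by `δ` -/
noncomputable def qS (b W δ : ℝ) (r : ℕ → ℝ) (l : ℕ) : ℝ := (r (l + 1) - W) / b ^ 2 + δ

lemma gm_sub (n l : ℕ) : gm n (l + 1) - gm n l = 1 / ((n : ℝ) + 1) := by
  unfold gm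
  push_cast
  ring

lemma mS_exp (k : ℕ) : Exponents k (mS (k + 1)) := by
  have hm := gm_exponents (k + 1)
  refine ⟨by simp [mS], ?_, fun l hl => ?_⟩
  · unfold mS
    rw [if_neg (by omega)]
    exact hm.2.1
  · unfold mS
    rw [if_neg (Nat.succ_ne_zero l)]
    split_ifs with h
    · exact gapn_exp_pos hm (by omega) (by omega)
    · exact hm.2.2 (l + 1) (by omega)

lemma mS_ge (n l : ℕ) : 1 / ((n : ℝ) + 1) ≤ mS n (l + 1) - mS n l := by
  unfold mS
  rw [if_neg (Nat.succ_ne_zero l)]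
  have h1 := gm_sub n (l + 1)
  split_ifs with h
  · have h2 : 0 ≤ gm n (l + 1) := by unfold gm; positivity
    linarith
  · linarith

lemma phi_eq {b : ℝ} (hb : 0 < b) (k : ℕ) (W δ : ℝ) (r : ℕ → ℝ) :
    Bc.Phi b k (mS (k + 1)) (qS b W δ r) = Fl (k + 1) (gm (k + 1)) r 1 := by
  unfold Bc.Phi Fl
  rw [Nat.add_sub_cancel, Bc.cascade_incr (q' := fun i => r (1 + i)) k _ (fun j _ => by
    unfold qS
    rw [show 1 + (j + 1) = j + 1 + 1 by omega, show 1 + j = j + 1 by omega]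
    field_simp
    ring)]
  exact minb_congr (fun l h1 _ => by
    unfold mS
    rw [if_neg (by omega), add_comm l 1]) (fun l _ => rfl) lc

lemma value_le {b W δ : ℝ} (hb : 0 < b) (hW : 0 ≤ W) (hW1 : W ≤ 1) {k : ℕ} {r : ℕ → ℝ}
    (hr : IsMinW b W (k + 1) 1 r) (hδ : |δ| ≤ 1) {V : ℝ} (hV : 0 ≤ V) (h0 : 0 ≤ qS b W δ r 0)
    (hs : V + b ^ 2 * qS b W δ r 0 = r 1) :
    (∫ z, Bc.Ph b k (mS (k + 1)) (qS b W δ r) 0 (√V * z) ∂(gaussianReal 0 1)) +
      Bc.I0 b k (mS (k + 1)) (qS b W δ r) ≤ Real.log 2 + GW b W (k + 1) 1 r +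
        b ^ 2 * (1 / (((k + 1 : ℕ) : ℝ) + 1) + 2 * |δ|) := by
  have hm := gm_exponents (k + 1)
  have hp := hr.1.2.1
  have hr0 := hr.1.1
  have hb2 : 0 < b ^ 2 := by positivity
  obtain ⟨C, hC⟩ := fl_good hm hp (show 1 ≤ k + 1 by omega)
  have hF := hC.adm
  have hsm := (adm_ec hF).sm
  obtain ⟨p, hpd⟩ : ∃ p : ℝ, p = 1 / (((k + 1 : ℕ) : ℝ) + 1) := ⟨_, rfl⟩
  have hp0 : 0 < p := by rw [hpd]; positivity
  have e1 : ∫ z, Bc.Ph b k (mS (k + 1)) (qS b W δ r) 0 (√V * z) ∂(gaussianReal 0 1) =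
      ∫ z, Fl (k + 1) (gm (k + 1)) r 1 (0 + √(r 1) * z) ∂(gaussianReal 0 1) := by
    unfold Bc.Ph
    rw [phi_eq hb, sub_zero, comp_conv hsm.cont.measurable hV (by positivity) (by
      have := hsm.lip1.integrable 0 (√(V + b ^ 2 * qS b W δ r 0))
      simpa only [zero_add] using this), hs]
    simp only [zero_add]
  have e2 := mean_le_gstep hF (sp7_exp_of hm 0 (by omega)).1 (r 1) 0
  obtain ⟨u, hu⟩ : ∃ u : ℕ → ℝ, u = fun l => if l < 1 then 0 else (r l - W) / b ^ 2 := ⟨_, rfl⟩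
  have hu0 : ∀ l < 1, u l = 0 := fun l hl => by rw [hu]; exact if_pos hl
  have hu1 : ∀ l, u (l + 1) = (r (l + 1) - W) / b ^ 2 := fun l => by
    rw [hu]; exact if_neg (by omega)
  have e3 : (fun l => if l < 1 then 0 else b ^ 2 * u l + W) = r := by
    funext l
    rcases l with _ | l
    · rw [if_pos (by omega), hr0]
    · rw [if_neg (by omega), hu1]
      field_simp
      ring
  have e4 := GW_q (V := W) hb (show 1 ≤ k + 1 by omega) hu0
  rw [e3] at e4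
  have hfix := statW hb hW hW1 le_rfl hr
  have hu2 : ∀ l ≤ k, 0 ≤ u (l + 1) ∧ u (l + 1) ≤ 1 := by
    intro l hl
    have a1 := hfix (l + 1) (by omega) (by omega)
    have a2 : u (l + 1) = spR (k + 1) (gm (k + 1)) r (l + 1) := by
      rw [hu1, div_eq_iff hb2.ne']
      linarith
    rw [a2]
    exact ⟨spR_nonneg hm hp (by omega), (spR_lt_one hm hp (by omega)).le⟩
  have hsum : ∑ l ∈ Finset.range (k + 1), (mS (k + 1) (l + 1) - mS (k + 1) l) *
      qS b W δ r l ^ 2 ≤ ∑ l ∈ Finset.range (k + 1 + 1),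
        (gm (k + 1) (l + 1) - gm (k + 1) l) * u l ^ 2 + p + 3 * |δ| := by
    rw [Finset.sum_range_succ' _ (k + 1), hu0 0 (by omega)]
    have t1 : ∀ l ∈ Finset.range (k + 1), (mS (k + 1) (l + 1) - mS (k + 1) l) *
        qS b W δ r l ^ 2 ≤ (gm (k + 1) (l + 1 + 1) - gm (k + 1) (l + 1)) * u (l + 1) ^ 2 +
          ((1 + 3 * |δ|) * (mS (k + 1) (l + 1) - mS (k + 1) l) - p) := by
      intro l hl
      obtain ⟨a1, a2⟩ := hu2 l (Nat.lt_succ_iff.1 (Finset.mem_range.1 hl))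
      have a3 := mS_ge (k + 1) l
      rw [gm_sub, ← hpd]
      rw [← hpd] at a3
      have a4 : qS b W δ r l = u (l + 1) + δ := by rw [hu1]; rfl
      have a5 : (u (l + 1) + δ) ^ 2 ≤ u (l + 1) ^ 2 + 3 * |δ| := by
        have b1 : u (l + 1) * δ ≤ |δ| :=
          (mul_le_mul_of_nonneg_left (le_abs_self δ) a1).trans
            (mul_le_of_le_one_left (abs_nonneg δ) a2)
        have b2 : δ ^ 2 ≤ |δ| := by
          rw [← sq_abs, sq]
          exact mul_le_of_le_one_left (abs_nonneg δ) hδ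
        nlinarith
      have a6 : u (l + 1) ^ 2 ≤ 1 := pow_le_one₀ a1 a2
      have a7 := mul_le_mul_of_nonneg_left a5 (hp0.le.trans a3)
      have a8 := mul_le_mul_of_nonneg_left a6 (sub_nonneg.2 a3)
      rw [a4]
      linarith
    have t2 := Finset.sum_le_sum t1
    rw [Finset.sum_add_distrib, Finset.sum_sub_distrib, ← Finset.mul_sum, Finset.sum_range_sub,
      (mS_exp k).2.1, (mS_exp k).1, Finset.sum_const, Finset.card_range, nsmul_eq_mul] at t2
    have t3 : ((k + 1 : ℕ) : ℝ) * p = 1 - p := by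
      rw [hpd]
      field_simp
      ring
    linarith
  have e5 : spinPart (k + 1) (gm (k + 1)) r =
      gstep (gm (k + 1) (0 + 1)) (r 1) (Fl (k + 1) (gm (k + 1)) r 1) 0 - r (k + 1) / 2 := by
    rw [minb_spin hr0, ← fl_zero, fl_succ (show 0 < k + 1 by omega), hr0, sub_zero]
  have e6 : b ^ 2 * qS b W δ r k = r (k + 1) - W + b ^ 2 * δ := by
    unfold qS
    field_simp
  have e7 : -(b ^ 2 * δ) ≤ b ^ 2 * |δ| := by
    have := mul_le_mul_of_nonneg_left (neg_le_abs δ) hb2.le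
    linarith
  have e8 := mul_le_mul_of_nonneg_left hsum (show 0 ≤ b ^ 2 / 4 by positivity)
  have e9 : 0 ≤ b ^ 2 * p := by positivity
  have e10 : 0 ≤ b ^ 2 * |δ| := by positivity
  rw [e4, e1, ← hpd]
  unfold Vq Bc.I0
  rw [e3, e5, e6]
  linarith

/-- **The reference order parameter.** -/
theorem ref_of (hst : Bc.StartStmt) : RefStmt := by
  intro b hb
  have hb0 : 0 < b := by linarith
  have hb2 : 1 < b ^ 2 := by nlinarith
  obtain ⟨a, C, W0, ha, hC, hW0, hW01, hfirst⟩ := first hb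
  obtain ⟨D, hD, hun⟩ := untilt (√(b ^ 2 + 1))
  have hb4 : 1 ≤ b ^ 4 := one_le_pow₀ hb.le
  refine ⟨a, b ^ 4 * C, W0, ha, one_le_mul_of_one_le_of_one_le hb4 hC, hW0, hW01,
    fun W hW hWW η hη => ?_⟩
  have hW1 : W ≤ 1 := hWW.trans hW01
  obtain ⟨y, hy⟩ : ∃ y : ℝ, y = min η W / (4 * b ^ 2) := ⟨_, rfl⟩
  have hy0 : 0 < y := by rw [hy]; positivity
  have hy1 : 4 * (b ^ 2 * y) ≤ η := by
    rw [hy]
    exact le_trans (le_of_eq (by field_simp)) (min_le_left η W)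
  have hy2 : 4 * (b ^ 2 * y) ≤ W := by
    rw [hy]
    exact le_trans (le_of_eq (by field_simp)) (min_le_right η W)
  have hy3 : y ≤ b ^ 2 * y := le_mul_of_one_le_left hy0.le hb2.le
  obtain ⟨n0, hn0, h1⟩ := hfirst W hW hWW y hy0
  obtain ⟨K0, h2⟩ := hst b hb0 (η / 4) (by positivity)
  obtain ⟨n1, hn1⟩ := exists_nat_ge ((2 * D + 1) / y)
  obtain ⟨k, hk⟩ : ∃ k : ℕ, k = n0 + K0 + n1 := ⟨_, rfl⟩
  obtain ⟨r, hr⟩ := exists_minW (b := b) (W := W) (show 1 ≤ k + 1 by omega)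
  obtain ⟨hcube, hblk⟩ := h1 (k + 1) (by omega) r hr
  have hm := gm_exponents (k + 1)
  have hp := hr.1.2.1
  have hU := hun (k + 1) (gm (k + 1)) r hm hr.1 (by omega)
  obtain ⟨p, hpd⟩ : ∃ p : ℝ, p = 1 / (((k + 1 : ℕ) : ℝ) + 1) := ⟨_, rfl⟩
  have hp0 : 0 < p := by rw [hpd]; positivity
  have hpy : (2 * D + 1) * p ≤ y := by
    rw [hpd, mul_one_div, div_le_iff₀ (by positivity), ← div_le_iff₀' hy0]
    refine hn1.trans ?_
    have : (n1 : ℝ) ≤ ((k + 1 : ℕ) : ℝ) := by exact_mod_cast (show n1 ≤ k + 1 by omega)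
    linarith
  have hDp : 0 ≤ D * p := by positivity
  rw [gm_one, ← hpd] at hU
  have hfix := statW hb0 hW.le hW1 le_rfl hr 1 (by omega) le_rfl
  have hsW : W ≤ r 1 := by
    have := mul_nonneg (sq_nonneg b) (spR_nonneg hm hp (show 1 ≤ k + 1 by omega))
    linarith
  obtain ⟨F, hF⟩ : ∃ F, F = Fl (k + 1) (gm (k + 1)) r 1 := ⟨_, rfl⟩
  rw [← hF] at hU
  obtain ⟨δ, hδ⟩ : ∃ δ : ℝ, δ = Em F (r 1) 1 (r 1) - (r 1 - W) / b ^ 2 := ⟨_, rfl⟩
  have hδD : |δ| ≤ D * p := by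
    have a1 := (hU (r 1) ⟨by linarith, le_rfl⟩).1
    have a2 := Rb_last hm hp (show 0 < k + 1 by omega)
    simp only [zero_add, hr.1.1, sub_zero] at a2
    have a3 : (r 1 - W) / b ^ 2 = spR (k + 1) (gm (k + 1)) r 1 := by
      rw [div_eq_iff (by positivity)]
      linarith
    rw [hδ, a3, ← a2, abs_sub_comm]
    exact a1
  have hδy : 2 * |δ| + p ≤ y := by linarith
  have hq0 : qS b W δ r 0 = Em F (r 1) 1 (r 1) := by
    unfold qS
    rw [hδ]
    ring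
  have hq00 : 0 ≤ qS b W δ r 0 := by
    rw [hq0]
    exact integral_nonneg fun z => sq_nonneg _
  obtain ⟨V, hV⟩ : ∃ V : ℝ, V = W - b ^ 2 * δ := ⟨_, rfl⟩
  have hs : V + b ^ 2 * qS b W δ r 0 = r 1 := by
    unfold qS
    rw [hV]
    field_simp
    ring
  have hbδ : |b ^ 2 * δ| ≤ b ^ 2 * y := by
    rw [abs_mul, abs_of_pos (by positivity : 0 < b ^ 2)]
    exact mul_le_mul_of_nonneg_left (by linarith [abs_nonneg δ]) (by positivity)
  have hbδ' := abs_le.1 hbδ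
  have hV0 : W / 2 ≤ V := by linarith [hbδ'.2]
  have hmom : ∀ j x, mom b k (mS (k + 1)) (qS b W δ r) V j x = Em F (r 1) j (V + b ^ 2 * x) := by
    intro j x
    unfold mom dPh Em U
    rw [phi_eq hb0, ← hF, show b ^ 2 * (qS b W δ r 0 - x) = r 1 - (V + b ^ 2 * x) by
      rw [← hs]; ring]
  have hmem : ∀ x ∈ Icc 0 (qS b W δ r 0), V + b ^ 2 * x ∈ Icc 0 (r 1) := by
    intro x hx
    have a1 := mul_nonneg (sq_nonneg b) hx.1
    have a2 := mul_le_mul_of_nonneg_left hx.2 (sq_nonneg b)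
    constructor <;> linarith
  have hrem : ∀ x, r 1 - (V + b ^ 2 * x) = b ^ 2 * (qS b W δ r 0 - x) := fun x => by
    rw [← hs]; ring
  refine ⟨k, mS (k + 1), qS b W δ r, V, mS_exp k, ⟨hq00, fun l hl => ?_⟩, ?_, ?_, hV0,
    by linarith [hbδ'.1], ?_, ?_, fun x hx => ?_, fun x hx => ?_, ?_⟩
  · unfold qS
    have := div_le_div_of_nonneg_right
      (sub_le_sub_right (hp.2 (l + 1) (by omega)) W) (sq_nonneg b)
    linarith
  · rw [hq0]
    obtain ⟨C', hC'⟩ := fl_good hm hp (show 1 ≤ k + 1 by omega)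
    rw [← hF] at hC'
    have a1 : ∀ z, U F 1 (r 1 - r 1) (√(r 1) * z) ^ 2 ≤ 1 := fun z => by
      rw [sub_self, U_zero, ← sq_abs]
      exact pow_le_one₀ (abs_nonneg _) (abs_d1 hC'.adm _)
    have a2 := integral_mono_of_nonneg (μ := gaussianReal 0 1)
      (Eventually.of_forall fun z => sq_nonneg (U F 1 (r 1 - r 1) (√(r 1) * z)))
      (integrable_const (1 : ℝ)) (Eventually.of_forall a1)
    rw [integral_const, probReal_univ, one_smul] at a2
    exact a2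
  · have a1 := hr.1.2.2
    rw [sq_B] at a1
    have e : b ^ 2 * qS b W δ r k - b ^ 2 * qS b W δ r 0 = r (k + 1) - r 1 := by
      unfold qS
      field_simp
      ring
    rw [e]
    linarith
  · rw [hs]
    refine hcube.trans (mul_le_mul_of_nonneg_right ?_ hW.le)
    exact le_mul_of_one_le_left (by linarith) hb4
  · rw [hmom, hs, hq0]
  · have a1 := (hblk _ (hmem x hx)).1
    have a2 := abs_le.1 (hU _ (hmem x hx)).1
    have a3 : (V + b ^ 2 * x - W) / b ^ 2 = x - δ := by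
      rw [hV]
      field_simp
      ring
    have a4 : qS b W δ r 0 - x ≤ b ^ 2 * (qS b W δ r 0 - x) :=
      le_mul_of_one_le_left (by linarith [hx.2]) hb2.le
    have a5 := mul_le_mul_of_nonneg_left (pow_le_pow_left₀ (by linarith [hx.2]) a4 3) ha.le
    rw [a3, hrem] at a1
    rw [hmom]
    linarith [a2.1, a2.2, le_abs_self δ]
  · have a1 := abs_le.1 (hblk _ (hmem x hx)).2
    have a2 := abs_le.1 (hU _ (hmem x hx)).2
    rw [hrem] at a1
    rw [hmom]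
    have a3 : |Em F (r 1) 2 (V + b ^ 2 * x) - 1 / b ^ 2| ≤
        C * (b ^ 2 * (qS b W δ r 0 - x)) + 2 * y := by
      rw [abs_le]
      constructor <;> linarith [a1.1, a1.2, a2.1, a2.2]
    have e : b ^ 2 * Em F (r 1) 2 (V + b ^ 2 * x) - 1 =
        b ^ 2 * (Em F (r 1) 2 (V + b ^ 2 * x) - 1 / b ^ 2) := by
      field_simp
    rw [e, abs_mul, abs_of_pos (by positivity : 0 < b ^ 2)]
    have a4 := mul_le_mul_of_nonneg_left a3 (sq_nonneg b)
    have e2 : b ^ 2 * (C * (b ^ 2 * (qS b W δ r 0 - x)) + 2 * y) =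
        b ^ 4 * C * (qS b W δ r 0 - x) + 2 * (b ^ 2 * y) := by ring
    rw [e2] at a4
    linarith
  · have a1 := h2 (k + 1) (by omega) W V (GW b W (k + 1) 1 r) hW.le hW1 (by linarith)
      (by rw [hV, abs_le]; constructor <;> linarith [hbδ'.1, hbδ'.2]) (fun q hq hq1 hq0 => by
        have a2 := GW_le_Vq hb0 hW.le hW1 le_rfl (show 1 ≤ k + 1 by omega) hr hq hq0 hq1.le
        unfold Vale.Agent.P146.Ub.Ld.F4.PSV
        rw [Vale.Agent.P146.Ld.cor_me]
        exact a2)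
    have a3 := value_le hb0 hW.le hW1 hr (δ := δ) (by linarith [abs_nonneg δ]) (V := V)
      (by linarith) hq00 hs
    rw [← hpd] at a3
    have a4 : b ^ 2 * (p + 2 * |δ|) ≤ b ^ 2 * y :=
      mul_le_mul_of_nonneg_left (by linarith) (sq_nonneg b)
    filter_upwards [a1] with n hn ι _ A hA
    refine le_trans (mul_le_mul_of_nonneg_left ?_ (Nat.cast_nonneg n)) (hn ι A hA)
    linarith

end Vale.Agent.N150.Kkt
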