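import Vale.Agent.N150.KktB
import Vale.Agent.N150.BcS

/-!
# P150, low temperature: the reference order parameter, unconditional form (helper98)
-/

namespace Vale.Agent.N150.Kkt

theorem ref : RefStmt := ref_of Bc.start

end Vale.Agent.N150.Kkt
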