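import Vale.Agent.N150.Adm3

/-! P150, milestone M0: admissible data along the cap flow, at an arbitrary rate. -/

open Matrix MeasureTheory

namespace Vale.Agent.N150.M0.AdmA

open Vale.Agent.P150 Vale.Agent.P150.F Vale.Agent.N150.Adm Vale.Agent.N150.Cap
open Vale.Agent.N150.Plant

variable {n : ℕ} {w s : ℝ} {lam : Vec n}

/-- the saddle of the clipped spectrum, for a field of any relative size `B` -/
theorem raw_gen {B : ℝ} {yt xt : Vec n} (H : Std n w s lam) (hB : 1 ≤ B) (hBs : B * s ≤ 1 / 4)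
    (hy : F.sq yt ≤ B * (s * (n * (s * √s)))) (hx : F.sq xt = n)
    (hm : ∑ a, xt a ^ 2 / max (2 - lam a) s ≤ B * (n / √s)) :
    ∃ z0, Raw (4 * B) s (lamC lam s) yt xt z0 := by
  have h0 := H.pos
  have hn : (0 : ℝ) ≤ n := Nat.cast_nonneg n
  have hsq := Real.sqrt_pos.2 h0
  have hS : Sand s 2 lam (lamC lam s) := sand_clip H
  have hd : ∀ (j : ℕ) (z : ℝ), 2 - s / 2 ≤ z →
      ∑ a, yt a ^ 2 / (z - lamC lam s a) ^ j ≤ F.sq yt / (z - (2 - s)) ^ j := fun j z hz => by
    unfold F.sq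
    rw [Finset.sum_div]
    exact Finset.sum_le_sum fun a _ => div_le_div_of_nonneg_left (sq_nonneg _)
      (pow_pos (by linarith) _) (pow_le_pow_left₀ (by linarith) (by linarith [hS.le_top a]) j)
  have hu : 0 < n * √s := mul_pos (by exact_mod_cast H.hn) hsq
  have hs1 : s ≤ B * s := le_mul_of_one_le_left h0.le hB
  obtain ⟨z, a1, a2, a3⟩ := exists_root (mu := lamC lam s) (yt := yt) H.hn
    (z1 := 2 - s / 2) (z2 := 2 + 2 * (B * s)) (fun a => by linarith [hS.le_top a])
    (by
      rw [sadF_eq]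
      have b1 : n + 1 / 50 * (n * √s) ≤ tr 1 (lamC lam s) (2 - s / 2) := H.clip_half
      have b2 : 0 ≤ ∑ a, yt a ^ 2 / (2 - s / 2 - lamC lam s a) ^ 2 :=
        Finset.sum_nonneg fun a _ => by positivity
      linarith)
    (by
      rw [sadF_eq]
      have b1 := hS.tr_one_le H (r := B * s) hs1 hBs
      have b0 := mul_le_mul_of_nonneg_left (Real.sqrt_le_sqrt hs1) hn
      have b2 := hd 2 (2 + 2 * (B * s)) (by linarith)
      have b3 : F.sq yt / (2 + 2 * (B * s) - (2 - s)) ^ 2 ≤ 1 / 8 * (n * √s) := by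
        rw [div_le_iff₀ (pow_pos (by linarith) _)]
        linarith [mul_nonneg (mul_pos hu (mul_pos h0 h0)).le (sq_nonneg (2 * B - 1))]
      linarith)
  have hg : ∀ a, 0 < z - lamC lam s a := fun a => by linarith [hS.le_top a]
  have hB0 : 0 < B := by linarith
  have y1 : ∑ a, yt a ^ 2 / (z - lamC lam s a) ≤ 2 * B * (n * (s * √s)) := by
    have b := hd 1 z a1
    simp only [pow_one] at b
    refine b.trans ?_
    rw [div_le_iff₀ (by linarith)]
    have b1 : 0 ≤ 2 * B * (n * (s * √s)) := by positivity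
    linarith [mul_le_mul_of_nonneg_left (by linarith : s / 2 ≤ z - (2 - s)) b1]
  have x1 : ∑ a, xt a ^ 2 / (z - lamC lam s a) ≤ 2 * B * (n / √s) := by
    refine le_trans ?_ (by linarith : 2 * ∑ a, xt a ^ 2 / max (2 - lam a) s ≤ _)
    rw [Finset.mul_sum]
    refine Finset.sum_le_sum fun a _ => ?_
    have b1 := two_sub_lamC lam s a
    have b2 := le_max_right (2 - lam a) s
    rw [← mul_div_assoc, div_le_div_iff₀ (hg a) (by linarith)]
    nlinarith [sq_nonneg (xt a)]
  refine ⟨z, a1, by linarith, a3, (hd 2 z a1).trans ?_, y1.trans ?_, hx, x1.trans ?_,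
    (abs_sum_div_le _ _ _ hg).trans ?_⟩
  · rw [div_le_iff₀ (pow_pos (by linarith) _)]
    have b : (s / 2) ^ 2 ≤ (z - (2 - s)) ^ 2 := pow_le_pow_left₀ (by linarith) (by linarith) 2
    have b1 : 0 ≤ 4 * B * (n * √s) := by positivity
    linarith [mul_le_mul_of_nonneg_left b b1]
  · have b1 : 0 ≤ B * (n * s) := by positivity
    linarith [mul_le_mul_of_nonneg_left H.sqrt_le b1]
  · have : 0 ≤ B * (n / √s) := by positivity
    linarith
  · rw [Real.sqrt_le_left (by positivity)]
    refine (mul_le_mul x1 y1 (Finset.sum_nonneg fun a _ => div_nonneg (sq_nonneg _) (hg a).le)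
      (by positivity)).trans ?_
    have e : 2 * B * (n / √s) * (2 * B * (n * (s * √s))) = 4 * (B ^ 2 * (n ^ 2 * s)) := by
      field_simp
      ring
    rw [e, mul_pow, mul_pow, mul_pow, Real.sq_sqrt h0.le]
    have : 0 ≤ B ^ 2 * (n ^ 2 * s) := by positivity
    linarith

open Classical in
/-- from the soft mass of the spins and the size of the noise to the saddle bounds -/
theorem det {A η τ z : ℝ} {x b : Vec n} (H : Std n w s lam) (hA : 1 ≤ A)
    (hAs : 320 * A * s ≤ 1 / 4) (hη : η ≤ τ) (hτ : Edge.sc0 n w ≤ τ) (hτs : τ ≤ s)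
    (hT : (s + τ) ^ 2 * Path.T2s (Path.gp lam (2 + η)) (s + τ) ≤ 2 * Path.uu n (s + τ))
    (hz : z ≤ A * Path.uu n (s + τ)) (hz0 : 0 ≤ z) (hx : F.sq x = n)
    (hb : ∀ a, pr lam s a = 0 → b a = 0)
    (h1 : Path.Tm (Path.gp lam (2 + η)) (s + τ) x ≤ (6 + 6 * A) * (n * √(s + τ)))
    (h2 : ∑ a ∈ Finset.univ.filter fun a => 2 - lam a ≤ s, b a ^ 2 ≤
      (s + τ) * (2 * (Finset.univ.filter fun a => 2 - lam a ≤ s).card + 4 * z)) :
    ∃ z0, Raw (4 * (320 * A)) s (lamC lam s) (fun a => pr lam s a * x a + b a) x z0 := by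
  have h0 := H.pos
  have hn : (0 : ℝ) ≤ n := Nat.cast_nonneg n
  have τ0 : 0 ≤ τ := (Edge.sc0_pos H.hn H.hw).le.trans hτ
  have p0 : 0 < s + τ := by linarith
  have q0 := Real.sqrt_pos.2 h0
  have q1 : √(s + τ) ≤ 2 * √s := by
    rw [Real.sqrt_le_left (by positivity), mul_pow, Real.sq_sqrt h0.le]
    linarith
  have hS : ∀ a ∈ Finset.univ.filter fun a => 2 - lam a ≤ s,
      Path.gp lam (2 + η) a ≤ s + τ := fun a ha => by
    have := (Finset.mem_filter.1 ha).2
    unfold Path.gp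
    linarith
  have m1 : Path.Tm (Path.gp lam (2 + η)) (s + τ) x ≤ 24 * A * (n * √s) :=
    h1.trans ((mul_le_mul (by linarith : 6 + 6 * A ≤ 12 * A)
      (mul_le_mul_of_nonneg_left q1 hn) (by positivity) (by positivity)).trans_eq (by ring))
  have m2 := (Path.mass_le_Tm _ p0 x _ hS).trans m1
  have m3 := (Path.card_le_T2s _ p0 _ hS).trans hT
  have u1 : Path.uu n (s + τ) ≤ 4 * (n * (s * √s)) := by
    unfold Path.uu
    have := mul_le_mul_of_nonneg_left
      (mul_le_mul (by linarith : s + τ ≤ 2 * s) q1 (by positivity) (by positivity)) hn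
    linarith
  have u0 : 0 ≤ n * (s * √s) := by positivity
  have u2 := mul_le_mul_of_nonneg_left u1 (by linarith : 0 ≤ A)
  have u3 := mul_le_mul_of_nonneg_right hA u0
  refine raw_gen H (by linarith) hAs ?_ hx ?_
  · have a1 : F.sq (fun a => pr lam s a * x a + b a) ≤
        8 * s ^ 2 * ∑ a ∈ Finset.univ.filter fun a => 2 - lam a ≤ s, x a ^ 2 +
          2 * ∑ a ∈ Finset.univ.filter fun a => 2 - lam a ≤ s, b a ^ 2 := by
      rw [Finset.mul_sum, Finset.mul_sum, ← Finset.sum_add_distrib, Finset.sum_filter]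
      refine Finset.sum_le_sum fun a _ => ?_
      split_ifs with ha
      · have c1 : pr lam s a ≤ 2 * s := max_le (by linarith [H.rig.le_eps a]) (by linarith)
        have c2 := mul_le_mul_of_nonneg_right
          (pow_le_pow_left₀ (pr_nonneg lam s a) c1 2) (sq_nonneg (x a))
        nlinarith [sq_nonneg (pr lam s a * x a - b a)]
      · have c1 : pr lam s a = 0 := max_eq_right (by linarith [not_le.1 ha])
        simp only [c1, hb a c1]
        norm_num
    have a2 := mul_le_mul_of_nonneg_left m2 (by positivity : 0 ≤ 8 * s ^ 2)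
    have a3 : (s + τ) * (2 * ((Finset.univ.filter fun a => 2 - lam a ≤ s).card : ℝ) + 4 * z) ≤
        2 * s * (32 * A * (n * (s * √s))) :=
      mul_le_mul (by linarith) (by linarith) (by positivity) (by positivity)
    linarith
  · have a1 : s * ∑ a, x a ^ 2 / max (2 - lam a) s ≤ Path.Tm (Path.gp lam (2 + η)) (s + τ) x := by
      rw [Finset.mul_sum]
      refine Finset.sum_le_sum fun a _ => ?_
      rw [mul_div_assoc', mul_div_right_comm]
      refine mul_le_mul_of_nonneg_right ?_ (sq_nonneg _)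
      have b1 : s ≤ max (2 - lam a) s := le_max_right _ _
      have b2 : max (Path.gp lam (2 + η) a) (s + τ) ≤ max (2 - lam a) s + τ :=
        max_le (by unfold Path.gp; linarith [le_max_left (2 - lam a) s]) (by linarith)
      rw [div_le_div_iff₀ (by linarith) (lt_max_of_lt_right p0)]
      nlinarith [mul_le_mul_of_nonneg_left b2 h0.le, mul_le_mul_of_nonneg_left b1 τ0]
    have a2 : s * (320 * A * (n / √s)) = 320 * A * (n * √s) := by
      rw [Path.div_sqrt_eq _ h0]; field_simp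
    have a3 : 0 ≤ A * (n * √s) := by positivity
    exact le_of_mul_le_mul_left (by linarith) h0

open Classical in
/-- one time -/
theorem one_time {A η τ z C d : ℝ} {t : ℕ → ℝ} {k : ℕ} (hG : Grid lam t d)
    (H : Std n w (t k) lam) (hA : 1 ≤ A) (hAs : 320 * A * t k ≤ 1 / 4) (hη : η ≤ τ)
    (hτ : Edge.sc0 n w ≤ τ) (hτs : τ ≤ t k) (hs : Path.Sad lam (2 + η) C)
    (hT : Path.Spec (Path.gp lam (2 + η)) 1 (t k + τ)) (hz : z ≤ A * Path.uu n (t k + τ))
    (hz0 : 0 ≤ z) :
    (spN n (diagonal lam) 0).real {q | ¬∃ z0, Raw (4 * (320 * A)) (t k) (lamC lam (t k))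
      (yF lam t q.1 q.2 k) q.1 z0} ≤ 2 * (C * Real.exp (-z)) + Real.exp (-z) := by
  have p0 : 0 < t k + τ := by linarith [H.pos, Edge.sc0_pos H.hn H.hw]
  have a0 : (spN n (diagonal lam) 0).real {q | F.sq q.1 ≠ n} = 0 := by
    refine (Path.fst_real_le (Path.sG lam) (PN n) fun x => F.sq x ≠ n).trans ?_
    rw [measureReal_def, ae_iff.1 (Path.ae_spM H.hn _ _), ENNReal.toReal_zero]
  have a1 := (Path.fst_real_le (Path.sG lam) (PN n) _).trans_le (hs.tail_mass p0 hT hz0 hz)
  have a2 := (Path.snd_real_le (Path.sG lam) (PN n) _).trans_le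
    (Path.tail_set (Path.rC lam t) k (Finset.univ.filter fun a => 2 - lam a ≤ t k) z p0.le
      fun a => by
        rw [Path.An_rC hG]
        exact max_le (by linarith [H.rig.le_eps a]) p0.le)
  refine (Tail.real_or_le _ (q := fun x => _) (r := fun x => _ ∨ _) fun q hq => ?_).trans
    ((add_le_add a0.le ((Tail.real_or_le _ (q := fun x => _) (r := fun x => _)
      fun x hx => hx).trans (add_le_add a1 a2))).trans (by linarith))
  by_contra hc
  push Not at hc
  refine hq ?_
  have e : yF lam t q.1 q.2 k =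
      fun a => pr lam (t k) a * q.1 a + Path.Bn (Path.rC lam t) k q.2 a := by
    rw [← Path.yp_rC hG, ← Path.An_rC hG]
    rfl
  rw [e]
  exact det H hA hAs hη hτ hτs hT.t hz hz0 hc.1
    (fun a ha => Path.Bn_zero (by rw [Path.An_rC hG]; exact ha) _) hc.2.1 hc.2.2

/-- all times -/
theorem all_times {A z d : ℝ} {t : ℕ → ℝ} {k0 N : ℕ} (hA : 1 ≤ A) (h : Edge.Rigid w lam)
    (hn : 0 < n) (hw : 0 < w) (hk : Edge.kap w ≤ 1 / 1000) (hG : Grid lam t d)
    (h0 : 20 * Edge.sc0 n w ≤ t k0) (hN : t N ≤ 1 / (1280 * A)) (hz0 : 0 ≤ z)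
    (hz : z ≤ A * Path.uu n (t k0)) :
    (spN n (diagonal lam) 0).real {q | ¬∀ k, k0 ≤ k → k ≤ N →
      ∃ z0, Raw (4 * (320 * A)) (t k) (lamC lam (t k)) (yF lam t q.1 q.2 k) q.1 z0}
        ≤ 4000 * n ^ 8 * (N + 1) * Real.exp (-z) := by
  have s0 := Edge.sc0_pos hn hw
  rcases lt_or_ge N k0 with hlt | hle
  · refine (Tail.real_imp_le _ (q := fun _ => False) fun q hq => hq fun k _ _ => by omega).trans ?_
    rw [Set.ofPred_false, measureReal_empty]
    positivity
  rw [le_div_iff₀ (by positivity)] at hN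
  have t0 : 0 < t k0 := by linarith
  have tN := hG.mono hle
  have t1 : t N ≤ 1 / 1280 := by nlinarith
  obtain ⟨η, h1, h2, h3⟩ := Path.exists_sad h hn hw (by linarith) (by linarith)
  have a1 := Tail.real_exists_le (spN n (diagonal lam) 0) (Finset.Icc k0 N) _
    (fun _ => 2 * (1500 * n ^ 8 * Real.exp (-z)) + Real.exp (-z)) fun k hk' => by
      have k1 := hG.mono (Finset.mem_Icc.1 hk').1
      have k2 := hG.mono (Finset.mem_Icc.1 hk').2
      have k3 : Edge.sc0 n w / (t k + 2 * Edge.sc0 n w) ≤ 1 / 20 := by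
        rw [div_le_iff₀ (by linarith)]; linarith
      exact one_time (τ := 2 * Edge.sc0 n w) hG ⟨h, hn, hw, hk, by linarith, by linarith⟩ hA
        (by nlinarith) (abs_le.1 h1).2 (by linarith) (by linarith) h2
        ((h3 _ (by linarith) (by linarith)).mono (by linarith))
        (hz.trans (mul_le_mul_of_nonneg_left (Path.uu_mono n t0.le (by linarith)) (by linarith)))
        hz0
  rw [Finset.sum_const, nsmul_eq_mul] at a1
  have hcard : ((Finset.Icc k0 N).card : ℝ) ≤ N + 1 := by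
    rw [Nat.card_Icc]
    exact_mod_cast Nat.sub_le _ _
  have n1 : (1 : ℝ) ≤ n ^ 8 := one_le_pow₀ (by exact_mod_cast hn)
  have x0 := Real.exp_pos (-z)
  have a2 := mul_le_mul hcard (by nlinarith : 2 * (1500 * n ^ 8 * Real.exp (-z)) + Real.exp (-z) ≤
    4000 * n ^ 8 * Real.exp (-z)) (by positivity) (by positivity)
  refine (Tail.real_imp_le _ fun q hq => ?_).trans (a1.trans (a2.trans_eq (by ring)))
  by_contra hc
  exact hq fun k k1 k2 => by
    by_contra h4
    exact hc ⟨k, Finset.mem_Icc.2 ⟨k1, k2⟩, h4⟩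

end Vale.Agent.N150.M0.AdmA
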