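import Vale.Agent.N150.M0Def
import Vale.Agent.N150.M0AdmC

/-! P150, milestone M0: the statement (ADM). -/

namespace Vale.Agent.N150.M0

theorem admM : AdmM := fun A hA =>
  ⟨4 * (320 * A), by linarith, 1 / (1280 * A), one_div_pos.2 (by linarith),
    fun _ _ _ _ _ _ _ _ h hn hw hk hG h0 hN hz0 hz =>
      AdmA.all_times hA h hn hw hk hG h0 hN hz0 hz⟩

end Vale.Agent.N150.M0
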