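import Vale.Agent.N150.M0Path

/-! P150, milestone M0: arithmetic of one level. -/

namespace Vale.Agent.N150.M0

open Vale.Agent.N150.Cap

variable {n N : ℕ} {D X K s : ℝ}

theorem pw (hD : 100 ≤ D) {a b c : ℕ} (h : a + c + 1 ≤ b) {x : ℝ} (hx : x ≤ 100) :
    x * D ^ a * D⁻¹ ^ b ≤ D⁻¹ ^ c := by
  have D0 : 0 < D := by linarith
  have a1 : D⁻¹ ^ b ≤ D⁻¹ ^ (a + c + 1) :=
    pow_le_pow_of_le_one (by positivity) (inv_le_one_of_one_le₀ (by linarith)) h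
  have a2 : D ^ a * D⁻¹ ^ (a + c + 1) = D⁻¹ * D⁻¹ ^ c := by
    rw [pow_succ, pow_add, ← mul_assoc, ← mul_assoc, ← mul_pow, mul_inv_cancel₀ D0.ne', one_pow,
      one_mul, mul_comm]
  have a3 : 100 * D⁻¹ ≤ 1 := by rw [← div_eq_mul_inv, div_le_one D0]; exact hD
  calc x * D ^ a * D⁻¹ ^ b ≤ 100 * D ^ a * D⁻¹ ^ (a + c + 1) := by gcongr
    _ = 100 * D⁻¹ * D⁻¹ ^ c := by rw [mul_assoc, a2, mul_assoc]
    _ ≤ D⁻¹ ^ c := mul_le_of_le_one_left (by positivity) a3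

theorem pw' (hD : 100 ≤ D) {a b : ℕ} (h : a + 1 ≤ b) {x : ℝ} (hx : x ≤ 100) :
    x * D ^ a ≤ D ^ b := by
  have D0 : 0 < D := by linarith
  calc x * D ^ a ≤ D * D ^ a := by gcongr; linarith
    _ = D ^ (a + 1) := by ring
    _ ≤ D ^ b := pow_le_pow_right₀ (by linarith) h

theorem sqrt_dl (hD : 100 ≤ D) : √(D⁻¹ ^ 100) = D⁻¹ ^ 50 := by
  have D0 : 0 < D := by linarith
  rw [show D⁻¹ ^ 100 = (D⁻¹ ^ 50) ^ 2 by rw [← pow_mul], Real.sqrt_sq (by positivity)]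

theorem sqrt_n_le (hn : (n : ℝ) ≤ D) : √(n : ℝ) ≤ D := by
  refine le_trans (Real.sqrt_le_iff.2 ⟨Nat.cast_nonneg n, ?_⟩) hn
  exact_mod_cast Nat.le_self_pow two_ne_zero n

theorem exp_half (hD : 100 ≤ D) (h : D ^ 500 ≤ Real.exp (K / 2)) :
    Real.exp (-(K / 2)) ≤ D⁻¹ ^ 500 := by
  have D0 : 0 < D := by linarith
  rw [Real.exp_neg, inv_pow]
  exact inv_anti₀ (by positivity) h

theorem n_d (hD : 100 ≤ D) (hX0 : 0 ≤ X) (hX : X ≤ D) : X ^ 8 * D⁻¹ ^ 100 ≤ 1 := by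
  have D0 : 0 < D := by linarith
  calc X ^ 8 * D⁻¹ ^ 100 ≤ 1 * D ^ 8 * D⁻¹ ^ 100 := by rw [one_mul]; gcongr
    _ ≤ D⁻¹ ^ 0 := pw hD (by norm_num) (by norm_num)
    _ = 1 := pow_zero _

theorem n_err (hD : 100 ≤ D) (hn : (n : ℝ) ≤ D) (h12 : (12 : ℝ) ≤ n) (hX : X ≤ D)
    (h : D ^ 500 ≤ Real.exp (K / 2)) (hK : K ≤ n) :
    (X * √(D⁻¹ ^ 100) + 8 * X * Real.exp (n / 2 - (n : ℝ) ^ 2 / 8)) * √n ≤ 1 := by
  have D0 : 0 < D := by linarith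
  have a1 : Real.exp (n / 2 - (n : ℝ) ^ 2 / 8) ≤ D⁻¹ ^ 50 :=
    ((Real.exp_le_exp.2 (by nlinarith)).trans (exp_half hD h)).trans
      (pow_le_pow_of_le_one (by positivity) (inv_le_one_of_one_le₀ (by linarith)) (by norm_num))
  have a2 := sqrt_n_le hn
  rw [sqrt_dl hD]
  calc (X * D⁻¹ ^ 50 + 8 * X * Real.exp (n / 2 - (n : ℝ) ^ 2 / 8)) * √n
      ≤ (D * D⁻¹ ^ 50 + 8 * D * D⁻¹ ^ 50) * D := by gcongr
    _ = 9 * D ^ 2 * D⁻¹ ^ 50 := by ring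
    _ ≤ D⁻¹ ^ 0 := pw hD (by norm_num) (by norm_num)
    _ = 1 := pow_zero _

theorem n_mm {B X0 : ℝ} (hD : 100 ≤ D) (hB : B ^ 2 ≤ D) (hX : X0 ≤ 42 * D) :
    D⁻¹ ^ 100 * (3 * (B ^ 2 + X0 + 1)) ≤ 1 / 6 := by
  have D0 : 0 < D := by linarith
  have a1 := pw hD (a := 2) (b := 100) (c := 0) (by norm_num) (x := 12) (by norm_num)
  have a2 : 3 * (B ^ 2 + X0 + 1) ≤ 2 * D ^ 2 := by nlinarith
  have a3 := mul_le_mul_of_nonneg_left a2 (show 0 ≤ D⁻¹ ^ 100 by positivity)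
  rw [pow_zero] at a1
  linarith

theorem n_h1 {θ : ℝ} (hD : 100 ≤ D) (hK0 : 0 ≤ K) (hK : K ≤ D) (h : D ^ 500 ≤ Real.exp (K / 2))
    (hθ0 : 0 ≤ θ) (hθ : θ ≤ Real.exp (-(4 * K))) :
    K * (Real.exp (2 * K) * θ + θ) ≤ D⁻¹ ^ 40 / 3 := by
  have D0 : 0 < D := by linarith
  have a0 := exp_half hD h
  have a1 : Real.exp (2 * K) * θ ≤ D⁻¹ ^ 500 := by
    refine (mul_le_mul_of_nonneg_left hθ (Real.exp_pos _).le).trans (le_trans ?_ a0)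
    rw [← Real.exp_add]
    exact Real.exp_le_exp.2 (by linarith)
  have a2 : θ ≤ D⁻¹ ^ 500 := hθ.trans ((Real.exp_le_exp.2 (by linarith)).trans a0)
  have a3 := pw hD (a := 1) (b := 500) (c := 40) (by norm_num) (x := 6) (by norm_num)
  have a4 : K * (Real.exp (2 * K) * θ + θ) ≤ D * (D⁻¹ ^ 500 + D⁻¹ ^ 500) := by gcongr
  rw [pow_one] at a3
  linarith

theorem n_cB (hD : 100 ≤ D) (hn : (n : ℝ) ≤ D) (hX0 : 0 ≤ X) (hX : X ≤ D) (hN : (N : ℝ) ≤ D ^ 101)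
    (hs : 12 / s ≤ K / 2) : cB n N X s (n : ℝ)⁻¹ ≤ Real.exp (K / 2) * D ^ 213 := by
  have D0 : 0 < D := by linarith
  have a2 := sqrt_n_le hn
  have a1 : Ref.rho n X n (n : ℝ)⁻¹ ≤ D ^ 4 := by
    unfold Ref.rho
    rw [inv_inv]
    calc (2 * X + n * (1 + X) + 2 * (1 + n + (n : ℝ) ^ 2)) * √n
        ≤ (2 * D + D * (1 + D) + 2 * (1 + D + D ^ 2)) * D := by gcongr
      _ ≤ (10 * D ^ 2) * D := by gcongr; nlinarith
      _ = 10 * D ^ 3 := by ring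
      _ ≤ D ^ 4 := pw' hD le_rfl (by norm_num)
  have a0 : 0 ≤ Ref.rho n X n (n : ℝ)⁻¹ := by unfold Ref.rho; positivity
  have a3 : (1 + X) * √n + N * Ref.rho n X n (n : ℝ)⁻¹ ≤ D ^ 106 := by
    have b1 : (1 + X) * √n ≤ D ^ 105 := by
      calc (1 + X) * √n ≤ (D + D) * D := by gcongr; linarith
        _ = 2 * D ^ 2 := by ring
        _ ≤ D ^ 105 := pw' hD (by norm_num) (by norm_num)
    have b2 : N * Ref.rho n X n (n : ℝ)⁻¹ ≤ D ^ 101 * D ^ 4 := by gcongr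
    have b3 := pw' hD (a := 105) (b := 106) le_rfl (x := 2) (by norm_num)
    rw [← pow_add] at b2
    linarith
  have a4 : 1 + ((1 + X) * √n + N * Ref.rho n X n (n : ℝ)⁻¹) ^ 2 ≤ D ^ 213 := by
    have b1 := pow_le_pow_left₀ (by positivity) a3 2
    have b2 := pw' hD (a := 212) (b := 213) le_rfl (x := 2) (by norm_num)
    have b3 : 1 ≤ D ^ 212 := one_le_pow₀ (by linarith)
    rw [← pow_mul] at b1
    linarith
  have a5 : Real.exp (6 / s) ^ 2 ≤ Real.exp (K / 2) := by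
    rw [← Real.exp_nat_mul]
    refine Real.exp_le_exp.2 (le_trans (le_of_eq ?_) hs)
    push_cast
    ring
  unfold cB
  rw [one_mul]
  gcongr

theorem n_h2 {B p : ℝ} (hD : 100 ≤ D) (hn : (n : ℝ) ≤ D) (hN : (N : ℝ) ≤ D ^ 101)
    (h : D ^ 500 ≤ Real.exp (K / 2)) (hB0 : 0 ≤ B) (hB : B ≤ Real.exp (K / 2) * D ^ 213)
    (hp0 : 0 ≤ p) (hp : p ≤ 2 * Real.exp (-(2 * K))) :
    6 * (n + 1) * B * Real.exp K * (N * p) ≤ D⁻¹ ^ 40 / 3 := by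
  have D0 : 0 < D := by linarith
  have a0 := exp_half hD h
  have a1 : Real.exp (K / 2) * Real.exp K * Real.exp (-(2 * K)) = Real.exp (-(K / 2)) := by
    rw [← Real.exp_add, ← Real.exp_add]; congr 1; ring
  have a2 := pw hD (a := 315) (b := 500) (c := 40) (by norm_num) (x := 72) (by norm_num)
  calc 6 * (n + 1) * B * Real.exp K * (N * p)
      ≤ 6 * (D + D) * (Real.exp (K / 2) * D ^ 213) * Real.exp K
        * (D ^ 101 * (2 * Real.exp (-(2 * K)))) := by gcongr; linarith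
    _ = 24 * D ^ 315 * (Real.exp (K / 2) * Real.exp K * Real.exp (-(2 * K))) := by ring
    _ ≤ 24 * D ^ 315 * D⁻¹ ^ 500 := by rw [a1]; gcongr
    _ ≤ D⁻¹ ^ 40 / 3 := by linarith

theorem n_h3 {c : ℝ} (hD : 100 ≤ D) (hn : (n : ℝ) ≤ D) (hN : (N : ℝ) ≤ D ^ 101) (hc0 : 0 ≤ c)
    (hc : c ≤ D) : N * (c * ((n : ℝ) ^ 2) ^ 3 * (D⁻¹ ^ 100 * √(D⁻¹ ^ 100))) ≤ D⁻¹ ^ 40 / 3 := by
  have D0 : 0 < D := by linarith
  have a2 := pw hD (a := 108) (b := 150) (c := 40) (by norm_num) (x := 3) (by norm_num)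
  rw [sqrt_dl hD]
  calc N * (c * ((n : ℝ) ^ 2) ^ 3 * (D⁻¹ ^ 100 * D⁻¹ ^ 50))
      ≤ D ^ 101 * (D * (D ^ 2) ^ 3 * (D⁻¹ ^ 100 * D⁻¹ ^ 50)) := by gcongr
    _ = D ^ 108 * D⁻¹ ^ 150 := by ring
    _ ≤ D⁻¹ ^ 40 / 3 := by linarith

theorem n_pl {c z : ℝ} (hD : 100 ≤ D) (hn : (n : ℝ) ≤ D) (hN : (N : ℝ) ≤ D ^ 101) (hc0 : 0 ≤ c)
    (hc : c ≤ D) (hz : z ≤ n) :
    4000 * n ^ 8 * (N + 1) * Real.exp (-z) + (3000 * n ^ 8 * Real.exp (-z) + N * Real.exp (-n))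
      + 2 * N * (c * Real.exp (-z)) ≤ D ^ 112 * Real.exp (-z) := by
  have D0 : 0 < D := by linarith
  have b0 : 1 ≤ D ^ 101 := one_le_pow₀ (by linarith)
  have b1 : (1 : ℝ) ≤ D ^ 8 := one_le_pow₀ (by linarith)
  have b2 : c ≤ D ^ 8 := hc.trans (le_self_pow₀ (by linarith) (by norm_num))
  have b3 : Real.exp (-(n : ℝ)) ≤ D ^ 8 * Real.exp (-z) :=
    (Real.exp_le_exp.2 (neg_le_neg hz)).trans (le_mul_of_one_le_left (Real.exp_pos _).le b1)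
  have b4 : 20000 * D ^ 109 ≤ D ^ 112 := by
    calc 20000 * D ^ 109 = 2 * (100 * (100 * D ^ 109)) := by ring
      _ ≤ 2 * (100 * D ^ 110) := by gcongr; exact pw' hD le_rfl le_rfl
      _ ≤ 2 * D ^ 111 := by gcongr; exact pw' hD le_rfl le_rfl
      _ ≤ D ^ 112 := pw' hD le_rfl (by norm_num)
  have b5 : (n : ℝ) ^ 8 ≤ D ^ 8 * D ^ 101 :=
    (pow_le_pow_left₀ (Nat.cast_nonneg n) hn 8).trans (le_mul_of_one_le_right (by positivity) b0)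
  calc 4000 * n ^ 8 * (N + 1) * Real.exp (-z) + (3000 * n ^ 8 * Real.exp (-z) + N * Real.exp (-n))
      + 2 * N * (c * Real.exp (-z))
      ≤ 4000 * D ^ 8 * (D ^ 101 + D ^ 101) * Real.exp (-z)
        + (3000 * (D ^ 8 * D ^ 101) * Real.exp (-z) + D ^ 101 * (D ^ 8 * Real.exp (-z)))
        + 2 * D ^ 101 * (D ^ 8 * Real.exp (-z)) := by gcongr
    _ = 11003 * D ^ 109 * Real.exp (-z) := by ring
    _ ≤ D ^ 112 * Real.exp (-z) := by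
      have : 0 ≤ D ^ 109 := by positivity
      gcongr
      linarith

/-- consequences of the key inequality -/
theorem n_key {c : ℝ} {p : ℕ} (hs : 0 < s) (hs1 : s ≤ 1 / 100) (hc : 0 ≤ c)
    (h : 2000 * (s⁻¹ ^ (p + 6) * (c + 2)) ^ 2 ≤ K) :
    bW s (s⁻¹ ^ (p + 2)) c ^ 2 ≤ K / 2000 ∧ s⁻¹ ^ 8 ≤ K / 8000 ∧ s⁻¹ ≤ K / 8000 ∧ 8000 ≤ K := by
  have a0 : 1 ≤ s⁻¹ := (one_le_inv₀ hs).2 (by linarith)
  have a1 : 1 ≤ s⁻¹ ^ (p + 2) := one_le_pow₀ a0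
  have a2 : bW s (s⁻¹ ^ (p + 2)) c ≤ s⁻¹ ^ (p + 6) * (c + 2) := by
    unfold bW
    rw [show p + 6 = 4 + (p + 2) by omega, pow_add s⁻¹ 4, mul_assoc]
    gcongr
    nlinarith
  have a3 : 0 ≤ bW s (s⁻¹ ^ (p + 2)) c := by unfold bW; positivity
  have a4 := pow_le_pow_left₀ a3 a2 2
  have a5 : s⁻¹ ^ 4 * 2 ≤ s⁻¹ ^ (p + 6) * (c + 2) :=
    mul_le_mul (pow_le_pow_right₀ a0 (by omega)) (by linarith) zero_le_two (by positivity)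
  have a6 := pow_le_pow_left₀ (by positivity) a5 2
  rw [show (s⁻¹ ^ 4 * 2) ^ 2 = 4 * s⁻¹ ^ 8 by ring] at a6
  have a7 : s⁻¹ ≤ s⁻¹ ^ 8 := le_self_pow₀ a0 (by norm_num)
  exact ⟨by linarith, by linarith, by linarith, by linarith⟩

end Vale.Agent.N150.M0
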