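import Vale.Agent.N150.M0Fib
import Vale.Agent.N150.M0Num

/-! P150, milestone M0: the cap part. -/

open Matrix MeasureTheory Finset Filter Topology

namespace Vale.Agent.N150.M0

open Vale.Agent.P150 Vale.Agent.P150.F Vale.Agent.P150.F.Ms Vale.Agent.N150.EC
  Vale.Agent.N150.T1 Vale.Agent.N150.Rec Vale.Agent.N150.Asm Vale.Agent.N150.Cap
  Vale.Agent.N150.Plant Vale.Agent.N150.Sp

variable {n : ℕ} {lam : Vec n} {t : ℕ → ℝ} {dl : ℝ}

theorem PathG.mono {hG : Grid lam t dl} {h : St n → Vec n} {z : St n → ℝ} {K₀ K₁ κ X0 : ℝ}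
    {k0 N : ℕ} {q : (OG n × Cfg n) × (ℕ → Vec n)} (hq : PathG hG h z K₀ κ X0 k0 N q)
    (hK : K₀ ≤ K₁) : PathG hG h z K₁ κ X0 k0 N q := by
  refine ⟨fun k h1 h2 => ?_, hq.frm, hq.ka, hq.box, hq.hx⟩
  have s := hq.st k h1 h2
  have e : K₀ ^ 4 * √(t (k + 1) - t k) ≤ K₁ ^ 4 * √(t (k + 1) - t k) :=
    mul_le_mul_of_nonneg_right (pow_le_pow_left₀ (by linarith [s.loc.hK]) hK 4) (Real.sqrt_nonneg _)
  exact ⟨s.loc.mono hK, s.loc'.mono hK, fun i => (s.dh i).trans e, s.dz.trans e, s.r1, s.r2, s.r1',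
    s.r2'⟩

theorem rate {L r : ℝ} (h : Sm L (un r)) (hr : 0 < r) :
    10 ^ 13 * Path.uu n r ≤ n * un r ^ 431998 := by
  have e : un r ^ 288000 = r := by
    unfold un
    exact_mod_cast Real.rpow_inv_natCast_pow hr.le (show (288000 : ℕ) ≠ 0 by norm_num)
  have e2 : r * √r = un r ^ 432000 := by
    conv_lhs => rw [← e, show (288000 : ℕ) = 2 * 144000 from rfl, h.sqrt_p, ← pow_add]
  unfold Path.uu
  rw [e2, mul_left_comm]
  exact mul_le_mul_of_nonneg_left (h.cp (by norm_num) (by norm_num)) (Nat.cast_nonneg n)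

/-- the polynomial quantities are bounded by `D` -/
structure Big (n : ℕ) (D X c CT : ℝ) : Prop where
  hD : 100 ≤ D
  hn : (n : ℝ) ≤ D
  h12 : 12 ≤ n
  hX : X ≤ D
  hc : c ≤ D
  hCT : CT ≤ D
  hK0 : A1.K0 ≤ D

/-- **one level** -/
theorem level : ∃ p0 : ℕ, ∀ (hs : HS) (a C p : ℕ) (L Cr T CT c : ℝ) (n : ℕ) (w : ℝ) (lam : Vec n)
    (t : ℕ → ℝ) (D : ℝ) (hG : Grid lam t (D⁻¹ ^ 100)) (N : ℕ) (K : ℝ), MeasM hs → 2 ≤ Cr →
    12 * (1 + Cr) ^ 2 ≤ L → (∀ r, 0 < r → r ≤ 2 * T → Un hs a C p L (un r)) →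
    (∀ (k0 : ℕ) (z : ℝ), 20 * Edge.sc0 n w ≤ t k0 → 0 ≤ z → z ≤ 10 ^ 13 * Path.uu n (t k0) →
      (spN n (diagonal lam) 0).real {q | ¬∀ k, k0 ≤ k → k ≤ N →
        ∃ z0, Adm.Raw Cr (t k) (lamC lam (t k)) (yF lam t q.1 q.2 k) q.1 z0}
          ≤ 4000 * n ^ 8 * (N + 1) * Real.exp (-z)) →
    Edge.Rigid w lam → 0 < w → Edge.kap w ≤ 1 / 1000 → t 0 = -Edge.sc0 n w → T ≤ t N →
    t N ≤ 2 * T → T ≤ 1 / 200 → (N : ℝ) ≤ D ^ 101 → 0 < CT →
    Big n D (((n : ℝ) ^ (a + 1)) ^ p0) ((n : ℝ) ^ C) CT → D ^ 500 ≤ Real.exp (K / 2) →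
    5 * K ≤ n → 4 * K ≤ c * n → sL n K ≤ T → 20 * Edge.sc0 n w ≤ sL n K / 10 ^ 6 →
    2000 * ((sL n K / 10 ^ 6)⁻¹ ^ (p + 6) * (√CT + 2)) ^ 2 ≤ K →
    LevQ lam (Br.TA hG N (selOf hs n 0) CT CT (Real.exp (-(c * n)))) (D ^ 112) K
      fun O => A1.PathAt (gM (JO lam O) 0) K (D ^ 50) (K / 400) (D⁻¹ ^ 40) := by
  obtain ⟨p0, hp0, H⟩ := bnd_of
  refine ⟨p0, fun hs a C p L Cr T CT c n w lam t D hG N K hM hCr hL hU hA hR hw hk h0 hT1 hT2 hT hN
    hCT hB hE hK5 hKc hsT hsc key => ?_⟩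
  have hD := hB.hD
  have D0 : 0 < D := by linarith
  have h12 : (12 : ℝ) ≤ n := by exact_mod_cast hB.h12
  have n0 : 0 < n := by have := hB.h12; omega
  have c0 := Edge.sc0_pos n0 hw
  set s := sL n K / 10 ^ 6 with hsd
  have s0 : 0 < s := by linarith
  have hsL : sL n K = 10 ^ 6 * s := by rw [hsd]; ring
  have s1 : s ≤ 1 / 100 := by linarith
  obtain ⟨k1, k2, k3, k4⟩ := n_key s0 s1 (Real.sqrt_nonneg CT) key
  have K0' : 0 < K := by linarith
  have hKD : K ≤ D := by linarith [hB.hn]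
  have hmesh : 12 * D⁻¹ ^ 100 ≤ s := by
    have a1 := pw hD (a := 0) (b := 100) (c := 1) (by norm_num) (x := 12) (by norm_num)
    rw [pow_zero, mul_one, pow_one] at a1
    exact a1.trans (inv_le_of_inv_le₀ s0 (by linarith))
  have hdl := hG.dl_pos
  obtain ⟨k0, g1, g2, g3, -⟩ := hG.exists_first (r := s) (by linarith) (show s ≤ t N by linarith)
  have hLv : Lv t (D⁻¹ ^ 100) s k0 N :=
    ⟨s0, Nat.pos_of_ne_zero fun e => by rw [e] at g2; linarith, g1, g2, hmesh, by linarith,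
      by linarith, by linarith⟩
  set K₁ := (n : ℝ) ^ (a + 1) with hK₁
  set X := K₁ ^ p0 with hXd
  have n1 : (n : ℝ) ≤ K₁ := le_self_pow₀ (by linarith) (by omega)
  have n2 : (n : ℝ) ^ a ≤ K₁ := pow_le_pow_right₀ (by linarith) (by omega)
  have n3 : K₁ ≤ X := le_self_pow₀ (by linarith) (by omega)
  have hd := n_d hD (by linarith : 0 ≤ X) hB.hX
  have hh : MVec (hS hs : St n → Vec n) := (hM n _ _ _ mm_sJ mv_sy).1
  have hz : Measurable (zS hs : St n → ℝ) := (hM n _ _ _ mm_sJ mv_sy).2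
  have hO := rM_ok hG hh hz s k0 (show 2 ≤ X by linarith) (show (n : ℝ) ≤ X by linarith) hd
  have τ0 : 0 < (n : ℝ)⁻¹ := inv_pos.2 (by linarith)
  have τ1 : (n : ℝ)⁻¹ ≤ 1 := inv_le_one_of_one_le₀ (by linarith)
  have τ2 : (n : ℝ)⁻¹ * √n ≤ 1 := by
    rw [inv_mul_le_iff₀ (by linarith), mul_one]
    exact sqrt_n_le le_rfl
  set X0 := 42 * (n * √(sL n K)) with hX0
  have X00 : 0 ≤ X0 := by positivity
  set B := bW s (s⁻¹ ^ (p + 2)) √CT with hBd
  set r := rM hG (hS hs) (zS hs) X s k0 with hr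
  have hu : n * (sL n K * √(sL n K)) = K := uu_sL n0 K0'
  have hu1 : 5 * K ≤ 10 ^ 13 * Path.uu n s := by
    have := le_uu_small n0 K0' (a := 1 / 10 ^ 6) (s := s) (by norm_num) (by norm_num)
      (le_of_eq (by rw [hsd]; ring))
    linarith
  have hu2 : ∀ k, k0 ≤ k → 5 * K ≤ 10 ^ 13 * Path.uu n (t k) := fun k h1 => by
    have := Path.uu_mono n s0.le (g2.trans (hG.mono h1))
    linarith
  have hU' : ∀ k, k0 ≤ k → k < N → Un hs a C p L (un (t k)) := fun k h1 h2 =>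
    hU _ (s0.trans_le (g2.trans (hG.mono h1))) ((hG.mono h2.le).trans hT2)
  refine ⟨{q | (∃ k, k < N ∧ ¬Bnd r (up n hG.steps) X (n : ℝ)⁻¹ (N - k) (lC t s k)
    (mC t B X0 k0 k) (trC hG q k) q.1.2 (shS k q.2)) ∧
      F.sq (Br.eS (selOf hs n 0) (trC hG q N)) ≤ CT}, ?_, fun O hQ hp => ?_⟩
  · refine (plant_any n0 _ {r | ¬FE lam t Cr X0 k0 N r} ?_
      (p := 2 * N * ((n : ℝ) ^ C * Real.exp (-(5 * K)))) (by positivity) fun x b hb hq => ?_).trans
      ((add_le_add (fe_tail hR (by have := hB.h12; omega) hw (by linarith) (by linarith)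
        (by linarith) (z := 5 * K) (by linarith) (by linarith) (by linarith)
        (hA k0 (5 * K) (by linarith) (by linarith) (hu2 k0 le_rfl))) le_rfl).trans
        (n_pl hD hB.hn hN (by positivity) hB.hc hK5))
    · refine MeasurableSet.inter ?_ (measurableSet_le (f := fun q =>
        F.sq (Br.eS (selOf hs n 0) (trC hG q N))) (g := fun _ => CT) ?_ measurable_const)
      · refine measurableSet_setOfPred.2 (Measurable.exists fun k => measurable_const.and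
          (measurableSet_setOfPred.1 (ms_BndQ hG hO τ0 τ1 _ k _ _)).not)
      · have a1 : MVec (Br.eS (selOf hs n 0) : St n → Vec n) :=
          MVec.sub (fun i => (A1.bm_meanlaw (up n hG.steps) i).1) (mv_tm hh)
        exact a1.sq.comp (meas_trC hG N)
    · refine le_trans (Tail.real_imp_le _ fun O hO' hc => ?_)
        (fib_bound hM hG hLv ⟨hR, n0, hw, hk, by linarith, s1⟩ (by linarith) hCr hL hU'
          (z := 5 * K) (by linarith) (fun k h1 h2 => (hu2 k h1).trans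
            (rate (hU' k h1 h2).sm (s0.trans_le (g2.trans (hG.mono h1)))))
          ((mul_le_mul_of_nonneg_right (pow_le_pow_left₀ (by positivity) (n2.trans n3) 8)
            hdl.le).trans hd) x (not_not.1 hb) hq)
      obtain ⟨⟨k, b1, b2⟩, b3⟩ := hO'
      exact b2 (H n lam t _ hG _ _ K₁ _ X0 √CT s _ k0 N _ hh hz hLv (by linarith) n1 hd
        (n_err hD hB.hn h12 hB.hX hE (by linarith)) (by positivity) τ0 τ1 τ2 (hc.mono n2)
        (nv_le_of_sq_le (Real.sqrt_nonneg _) (by rw [Real.sq_sqrt hCT.le]; exact b3)) k b1)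
  · have θ0 := (Real.exp_pos (-(c * n))).le
    have θ1 : Real.exp (-(c * n)) ≤ Real.exp (-(4 * K)) := Real.exp_le_exp.2 (by linarith)
    have θ2 : Real.exp (-(4 * K)) ≤ Real.exp (-(2 * K)) := Real.exp_le_exp.2 (by linarith)
    have hT := track_of hG hh hz hLv n0 (show 2 ≤ X by linarith) (show (n : ℝ) ≤ X by linarith) hd
      τ0 τ1 (lC_nonneg hG s) (mC_nonneg hG B X00 k0) O
      (p := Real.exp (-(2 * K)) + Real.exp (-(c * n)))
      ((PE_mono (fun x => (gM_pos _ _ x).le) fun x ω hb => (le_or_gt _ CT).imp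
        (fun h => (⟨hb, h⟩ : _ ∧ _)) id).trans
        ((PE_or_le (fun x => (gM_pos _ _ x).le) _ _).trans (add_le_add hp hQ.2)))
    have a1 : X0 ≤ 42 * D := by
      have b1 : √(sL n K) ≤ 1 := Real.sqrt_le_one.2 (by linarith)
      have b2 := mul_le_of_le_one_right (Nat.cast_nonneg (α := ℝ) n) b1
      linarith [hB.hn]
    have a2 : s * X0 = 42 / 10 ^ 6 * K := by rw [← hu, hX0, hsd]; ring
    have a3 : s * (B ^ 2 + 1) ≤ 1 / 100 * (B ^ 2 + 1) :=
      mul_le_mul_of_nonneg_right s1 (by positivity)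
    have a4 : K * CT ≤ D ^ 50 := by
      calc K * CT ≤ D * D := mul_le_mul hKD hB.hCT hCT.le D0.le
        _ = 1 * D ^ 2 := by ring
        _ ≤ D ^ 50 := pw' hD (by norm_num) (by norm_num)
    show A1.PathAt (gM (JO lam O) 0) _ _ _ _
    rw [← hG.law_cap O]
    refine pathAt_of hT hQ.1 hCT.le θ0 (fun k _ => (mC_le hG B X00 k0 k).trans
      (n_mm hD (by linarith) a1)) (Λ := K) (by linarith [sum_lC hLv]) a4
      (by linarith [sum_mC hLv B X00]) (n_h1 hD K0'.le hKD hE θ0 θ1)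
      (n_h2 hD hB.hn hN hE hT.hB (n_cB hD hB.hn (by linarith) hB.hX hN ?_) (by positivity)
        (by linarith)) (n_h3 hD hB.hn hN A1.K0_nonneg hB.hK0)
    rw [div_eq_mul_inv]
    linarith

theorem haar_eps (lam : Vec n) {Q : OG n → Prop} {ok : ℕ → Prop} {Pr : ℕ → OG n → Prop}
    {M x ε : ℝ} (hM : 0 ≤ M) (hx : 0 ≤ x) (hε : 0 < ε)
    (hok : ∀ j, ok j → j < n ∧ Real.exp (-(3 * (2 : ℝ) ^ j)) ≤ x)
    (h : ∀ j, ok j → LevQ lam Q M (2 ^ j) (Pr j)) :
    (haar n).real {O | ε ≤ LR (diagonal lam) 0 O ∧ Q O ∧ ¬∀ j, ok j → Pr j O} ≤ n * M * x / ε := by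
  classical
  choose! Bad h1 h2 using h
  have h3 := Tail.real_exists_le (haar n) ((range n).filter ok) (fun j O =>
    ε ≤ LR (diagonal lam) 0 O ∧ Real.exp (-(2 * 2 ^ j)) ≤
      PE (gM (Jr O (diagonal lam)) (O.1ᵀ *ᵥ 0)) fun x ω => ((O, x), ω) ∈ Bad j)
    (fun _ => M * x / ε) fun j hj => by
      have hj' := (Finset.mem_filter.1 hj).2
      refine (quenched_le _ _ _ hε (Real.exp_pos _)).trans ?_
      rw [mul_comm ε, ← div_div]
      refine div_le_div_of_nonneg_right ?_ hε.le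
      rw [div_le_iff₀ (Real.exp_pos _), mul_assoc]
      refine (h1 j hj').trans (mul_le_mul_of_nonneg_left (le_trans (le_of_eq ?_)
        (mul_le_mul_of_nonneg_right (hok j hj').2 (Real.exp_pos _).le)) hM)
      rw [← Real.exp_add]
      congr 1
      ring
  rw [Finset.sum_const, nsmul_eq_mul] at h3
  have h6 : (((range n).filter ok).card : ℝ) ≤ n := by
    exact_mod_cast (Finset.card_filter_le _ _).trans (Finset.card_range n).le
  refine (Tail.real_imp_le _ fun O hO => ?_).trans (h3.trans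
    ((mul_le_mul_of_nonneg_right h6 (by positivity)).trans (le_of_eq (by ring))))
  obtain ⟨j, hj⟩ := not_forall.1 hO.2.2
  obtain ⟨hj1, hj2⟩ := Classical.not_imp.1 hj
  refine ⟨j, Finset.mem_filter.2 ⟨Finset.mem_range.2 (hok j hj1).1, hj1⟩, hO.1, ?_⟩
  rw [Matrix.mulVec_zero]
  exact (not_le.1 fun hc => hj2 (h2 j hj1 O hO.2.1 hc)).le

theorem ev_unit {p : ℝ → ℝ → Prop} (h : Ev p) {L : ℝ} (hL : 2 ≤ L) :
    ∃ r0 > (0 : ℝ), ∀ r, 0 < r → r ≤ r0 → p L (un r) := by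
  obtain ⟨u0, h0, h1⟩ := (mem_nhdsGT_iff_exists_Ioc_subset).1 (h L hL)
  have h0' : (0 : ℝ) < u0 := h0
  exact ⟨u0 ^ (288000 : ℝ), Real.rpow_pos_of_pos h0' _, fun r a b => h1 ⟨Real.rpow_pos_of_pos a _,
    (Real.rpow_inv_le_iff_of_pos a.le h0'.le (by norm_num)).2 b⟩⟩

/-- the scale of a level above `n / m` -/
theorem key_le {m K c : ℝ} {q : ℕ} (hn : 0 < n) (hq : 1 ≤ q) (hm : 1 ≤ m) (e : m ^ (8 * q) = n)
    (h1 : n / m ≤ K) (h2 : K ≤ n) (hc : 2000 * (10 ^ 6) ^ (2 * q) * c ^ 2 ≤ m) :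
    m⁻¹ ≤ sL n K ∧ 2000 * ((sL n K / 10 ^ 6)⁻¹ ^ q * c) ^ 2 ≤ K := by
  have n0 : (0 : ℝ) < n := by exact_mod_cast hn
  have m0 : 0 < m := by linarith
  have K0' : 0 < K := (div_pos n0 m0).trans_le h1
  have a1 : m⁻¹ ≤ sL n K := by
    have b1 : m⁻¹ ≤ K / n := by
      rw [le_div_iff₀ n0, mul_comm, ← div_eq_mul_inv]; exact h1
    refine b1.trans ?_
    conv_lhs => rw [← Real.rpow_one (K / n)]
    exact Real.rpow_le_rpow_of_exponent_ge (by positivity) ((div_le_one n0).2 h2) (by norm_num)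
  refine ⟨a1, le_trans ?_ h1⟩
  have a0 := sL_pos hn K0'
  have a2 : (sL n K / 10 ^ 6)⁻¹ ≤ 10 ^ 6 * m := by
    rw [inv_div, div_eq_mul_inv]
    exact mul_le_mul_of_nonneg_left (inv_le_of_inv_le₀ m0 a1) (by norm_num)
  rw [le_div_iff₀ m0, ← e]
  calc 2000 * ((sL n K / 10 ^ 6)⁻¹ ^ q * c) ^ 2 * m
      = 2000 * ((sL n K / 10 ^ 6)⁻¹ ^ (2 * q) * c ^ 2) * m := by ring
    _ ≤ 2000 * ((10 ^ 6 * m) ^ (2 * q) * c ^ 2) * m := by gcongr
    _ = 2000 * (10 ^ 6) ^ (2 * q) * c ^ 2 * (m ^ (2 * q) * m) := by rw [mul_pow]; ring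
    _ ≤ m * (m ^ (2 * q) * m) := by gcongr
    _ = m ^ (2 * q + 2) := by ring
    _ ≤ m ^ (8 * q) := pow_le_pow_right₀ hm (by omega)

/-- **M0, cap part** -/
theorem capM_of {hs : HS} (h1 : KBT.KBSelStmt) (h2 : D6Stmt) (hM : MeasM hs) (h3 : NearM hs)
    (h4 : DetM hs) (h5 : AdmM) : CapM (selOf hs) := by
  obtain ⟨a, C, p, hU⟩ := ev_un h1 h2 h3 h4
  obtain ⟨Cr, hCr, s0, hs0, hA⟩ := h5 (10 ^ 13) (by norm_num)
  obtain ⟨r0, hr0, hU⟩ := ev_unit hU (L := 12 * (1 + Cr) ^ 2) (by nlinarith)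
  obtain ⟨p0, H⟩ := level
  set e : ℝ := ((8 * (p + 6) : ℕ) : ℝ)⁻¹ with he
  have q0 : (48 : ℝ) ≤ ((8 * (p + 6) : ℕ) : ℝ) := by exact_mod_cast (by omega : 48 ≤ 8 * (p + 6))
  have e0 : 0 < e := inv_pos.2 (by linarith)
  have e1 : e ≤ 1 / 48 := by rw [he, one_div]; exact inv_anti₀ (by norm_num) q0
  have γ0 : 0 < 1 - e := by linarith
  refine ⟨1 - e, γ0, by linarith, min (r0 / 2) (min (s0 / 2) (1 / 200)), by positivity,
    fun T hT hT0 CT c hCT hc => ⟨min (T ^ 2) (min (1 / 5) (c / 4)), by positivity, ?_⟩⟩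
  have t1 : T ≤ r0 / 2 := hT0.trans (min_le_left _ _)
  have t2 : T ≤ s0 / 2 := hT0.trans ((min_le_right _ _).trans (min_le_left _ _))
  have t3 : T ≤ 1 / 200 := hT0.trans ((min_le_right _ _).trans (min_le_right _ _))
  filter_upwards [eventually_ge_atTop 100, ev_rpow_ge e0 (2 * 10 ^ 7),
    ev_rpow_ge e0 (2000 * (10 ^ 6) ^ (2 * (p + 6)) * (√CT + 2) ^ 2),
    ev_log_le γ0 (show (0 : ℝ) < 1000 * ((a + 1) * p0 + C + 1 : ℕ) by positivity),
    tendsto_natCast_atTop_atTop.eventually_ge_atTop CT,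
    tendsto_natCast_atTop_atTop.eventually_ge_atTop A1.K0,
    tendsto_natCast_atTop_atTop.eventually_ge_atTop T⁻¹] with n v1 v2 v3 v4 v5 v6 v7 w lam hR hw hk
    hw7
  have n0 : 0 < n := by omega
  have n1 : (100 : ℝ) ≤ n := by exact_mod_cast v1
  have n2 : (0 : ℝ) < n := by linarith
  set m := (n : ℝ) ^ e with hm
  set K₀ := (n : ℝ) ^ (1 - e) with hK₀
  set D := Real.exp (K₀ / 1000) with hDd
  have m1 : 1 ≤ m := by linarith
  have m2 : m ^ (8 * (p + 6)) = n := Real.rpow_inv_natCast_pow n2.le (by omega)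
  have m3 : K₀ = n / m := by rw [hK₀, Real.rpow_sub n2, Real.rpow_one]
  have b0 : (n : ℝ) ^ ((a + 1) * p0 + C + 1) ≤ D := by
    rw [← Real.exp_log (show 0 < (n : ℝ) ^ ((a + 1) * p0 + C + 1) by positivity), Real.log_pow]
    exact Real.exp_le_exp.2 (by linarith)
  have b1 : ∀ j, j ≤ (a + 1) * p0 + C + 1 → (n : ℝ) ^ j ≤ D := fun j hj =>
    (pow_le_pow_right₀ (by linarith) hj).trans b0
  have b2 : (n : ℝ) ≤ D := by simpa using b1 1 (by omega)
  have hD : 100 ≤ D := by linarith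
  have D0 : 0 < D := by linarith
  have hB : Big n D (((n : ℝ) ^ (a + 1)) ^ p0) ((n : ℝ) ^ C) CT :=
    ⟨hD, b2, by omega, by rw [← pow_mul]; exact b1 _ (by omega), b1 _ (by omega), v5.trans b2,
      v6.trans b2⟩
  have c0 := Edge.sc0_pos n0 (show 0 < w by linarith)
  have c1 : Edge.sc0 n w ≤ m⁻¹ * m⁻¹ := by
    unfold Edge.sc0
    rw [hm, ← Real.rpow_neg n2.le, ← Real.rpow_add n2]
    refine (mul_le_mul_of_nonneg_right hw7 (Real.rpow_nonneg n2.le _)).trans ?_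
    rw [← Real.rpow_add n2]
    exact Real.rpow_le_rpow_of_exponent_le (by linarith) (by linarith)
  have c2 : m⁻¹ ≤ (2 * 10 ^ 7)⁻¹ := inv_anti₀ (by norm_num) v2
  have c3 : 0 < m⁻¹ := inv_pos.2 (by linarith)
  have c4 : 2 * 10 ^ 7 * Edge.sc0 n w ≤ m⁻¹ := by nlinarith
  have d1 : D⁻¹ ^ 100 ≤ D⁻¹ := pow_le_of_le_one (by positivity)
    (inv_le_one_of_one_le₀ (by linarith)) (by norm_num)
  have d2 : D⁻¹ ≤ T := inv_le_of_inv_le₀ hT (by linarith)
  obtain ⟨t, N, hG, g0, g1, g2, -, g3⟩ := exists_grid lam (dl := D⁻¹ ^ 100) (s0 := -Edge.sc0 n w)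
    (T := T) (by positivity) (by linarith) hR.le_eps (by linarith)
  have hN : (N : ℝ) ≤ D ^ 101 := by
    have f1 : (T - -Edge.sc0 n w) / D⁻¹ ^ 100 ≤ D ^ 100 := by
      rw [inv_pow, div_inv_eq_mul]
      exact mul_le_of_le_one_left (by positivity) (by linarith)
    have f2 : D ≤ D ^ 100 := le_self_pow₀ (by linarith) (by norm_num)
    linarith [pw' hD (a := 100) (b := 101) le_rfl (x := 3) (by norm_num)]
  have x1 : ∀ j : ℕ, D ^ j = Real.exp (j * (K₀ / 1000)) := fun j => (Real.exp_nat_mul _ j).symm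
  have x2 : ∀ j : ℕ, D⁻¹ ^ j = Real.exp (-(j * (K₀ / 1000))) := fun j => by
    rw [inv_pow, x1, Real.exp_neg]
  refine ⟨t, _, hG, N, g1, by linarith, fun ε hε => ?_⟩
  refine le_trans (Tail.real_imp_le _ fun O hO => ?_)
    ((haar_eps lam (Q := Br.TA hG N (selOf hs n 0) CT CT (Real.exp (-(c * n))))
      (ok := fun j => K₀ ≤ 2 ^ j ∧ (2 : ℝ) ^ j ≤ min (T ^ 2) (min (1 / 5) (c / 4)) * n)
      (Pr := fun j O => A1.PathAt (gM (JO lam O) 0) (2 ^ j) (D ^ 50) (2 ^ j / 400) (D⁻¹ ^ 40))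
      (M := D ^ 112) (x := D⁻¹ ^ 3000) (by positivity) (by positivity) hε (fun j hj => ?_)
      fun j hj => ?_).trans (div_le_div_of_nonneg_right ?_ hε.le))
  · refine ⟨hO.1, hO.2.1, fun hc => hO.2.2 fun j j1 j2 => ?_⟩
    have := hc j ⟨j1, j2⟩
    rwa [x1, x2, show ((50 : ℕ) : ℝ) * (K₀ / 1000) = K₀ / 20 by push_cast; ring,
      show ((40 : ℕ) : ℝ) * (K₀ / 1000) = K₀ / 25 by push_cast; ring] at this
  · have f1 := mul_le_mul_of_nonneg_right ((min_le_right (T ^ 2) _).trans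
      (min_le_left (1 / 5) (c / 4))) n2.le
    refine ⟨lt_of_pow_le (by linarith [hj.2]), ?_⟩
    rw [x2]
    exact Real.exp_le_exp.2 (by push_cast; linarith [hj.1])
  · have f0 := mul_le_mul_of_nonneg_right (min_le_left (T ^ 2) (min (1 / 5) (c / 4))) n2.le
    have f1 := mul_le_mul_of_nonneg_right ((min_le_right (T ^ 2) _).trans
      (min_le_left (1 / 5) (c / 4))) n2.le
    have f2 := mul_le_mul_of_nonneg_right ((min_le_right (T ^ 2) _).trans
      (min_le_right (1 / 5) (c / 4))) n2.le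
    obtain ⟨k1, k2⟩ := key_le n0 (by omega : 1 ≤ p + 6) m1 m2 (m3 ▸ hj.1) (by linarith [hj.2]) v3
    refine H hs a C p _ Cr T CT c n w lam t D hG N (2 ^ j) hM hCr le_rfl
      (fun r r1 r2 => hU r r1 (by linarith))
      (fun k0 z z1 z2 z3 => hA n w lam t _ k0 N z hR n0 (by linarith) hk hG z1 (by linarith) z2 z3)
      hR (by linarith) hk g0 g1 (by linarith) t3 hN hCT hB ?_ (by linarith [hj.2])
      (by linarith [hj.2]) ?_ (by linarith) k2
    · rw [x1]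
      exact Real.exp_le_exp.2 (by push_cast; linarith [hj.1])
    · have f3 : (2 : ℝ) ^ j / n ≤ T ^ 2 := (div_le_iff₀ n2).2 (by linarith [hj.2])
      refine (Real.rpow_le_rpow (by positivity) f3 (by norm_num)).trans ?_
      rw [← Real.rpow_natCast, ← Real.rpow_mul hT.le]
      conv_rhs => rw [← Real.rpow_one T]
      exact Real.rpow_le_rpow_of_exponent_ge hT (by linarith) (by norm_num)
  · have f1 := pw hD (a := 113) (b := 3000) (c := 1000) (by norm_num) (x := 1) (by norm_num)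
    rw [x2 1000, show ((1000 : ℕ) : ℝ) * (K₀ / 1000) = K₀ by push_cast; ring] at f1
    refine le_trans ?_ f1
    rw [one_mul, pow_succ' D 112]
    gcongr

end Vale.Agent.N150.M0
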