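import Vale.Agent.N150.M0Path
import Vale.Agent.N150.M0Def
import Vale.Agent.N150.BrFib
import Vale.Agent.N150.AsmEv
import Vale.Agent.N150.KBT1

/-! P150, milestone M0: the good paths have large planted probability. -/

open Matrix MeasureTheory Finset Filter Topology

namespace Vale.Agent.N150.M0

open Vale.Agent.P150 Vale.Agent.P150.F Vale.Agent.P150.F.Ms Vale.Agent.N150.EC
  Vale.Agent.N150.T1 Vale.Agent.N150.Rec Vale.Agent.N150.Asm Vale.Agent.N150.Cap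
  Vale.Agent.N150.Plant Vale.Agent.N150.Sp

variable {n : ℕ}

/-! ### one time -/

theorem JO_cap {lam f : Vec n} {s c : ℝ} (hf : ∀ a, 2 - lam a ≤ s → f a = c) (O : OG n)
    {u : Vec n} (hu : PC lam O s *ᵥ u = u) : JO f O *ᵥ u = c • u := by
  have e : JO f O * PC lam O s = c • PC lam O s := by
    unfold PC
    rw [T1.JO_mul, T1.JO_smul]
    congr 1
    funext a
    unfold dI
    split_ifs with h
    · rw [hf a h]
    · rw [mul_zero, mul_zero]
  conv_lhs => rw [← hu, Matrix.mulVec_mulVec, e, Matrix.smul_mulVec, hu]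

theorem frm_of {L u s z0 : ℝ} {lam yt h : Vec n} {O : OG n} (hs : Sm L u) (hs0 : 0 < s)
    (hz : 2 - s / 2 ≤ z0) (A : Adm L u (Adm.dat s z0 (lamC lam s) yt))
    (o : Out u (Adm.dat s z0 (lamC lam s) yt) O)
    (hb : Ball u ((Adm.dat s z0 (lamC lam s) yt).J O) ((Adm.dat s z0 (lamC lam s) yt).y O) h) :
    Frm s 3 (PC lam O s) (Gm ((Adm.dat s z0 (lamC lam s) yt).J O) h
      (zh ((Adm.dat s z0 (lamC lam s) yt).J O) h)) := by
  intro v hv
  set S := Adm.dat s z0 (lamC lam s) yt with hS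
  have hl : ∀ a, 2 - lam a ≤ s → S.lam a = 2 - s := fun a ha => min_eq_right (by linarith)
  have g0 : s / 2 ≤ z0 - (2 - s) := by linarith
  have g1 : 0 < z0 - (2 - s) := by linarith
  have e1 : S.Nsq O *ᵥ v = √(z0 - (2 - s)) • v := JO_cap (fun a ha => by rw [hl a ha]; rfl) O hv
  have e2 : S.P (u ^ 139200) O *ᵥ v = v := by
    rw [S.P_eq, JO_cap (f := S.ind (u ^ 139200)) (c := 1) (fun a ha => if_pos (S.mem_low.2 (by
      rw [hl a ha, show S.gam = 2 - s from rfl, sub_self]; exact (hs.p0 _).le))) O hv, one_smul]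
  have e3 : G00 (S.J O) (S.y O) *ᵥ v = (z0 - (2 - s))⁻¹ • v := by
    rw [A.G00_eq hs]
    exact JO_cap (fun a ha => by unfold Dat.g; rw [hl a ha]; rfl) O hv
  set G := Gm (S.J O) h (zh (S.J O) h) with hG
  have a1 := (ip_le v _).trans (mul_le_mul_of_nonneg_left
    ((o.gmP h hb).nv_le (hs.p0 _).le v) (nv_nonneg v))
  rw [← hG, ← Matrix.mulVec_mulVec, ← Matrix.mulVec_mulVec, ← Matrix.mulVec_mulVec,
    ← Matrix.mulVec_mulVec, e2, e1, ip_mulVec_comm (S.isProj_P O _).symm, e2,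
    ip_mulVec_comm (S.Nsq_tr O), e1, Matrix.mulVec_smul, ip_smul_left, ip_smul_right,
    ← mul_assoc, Real.mul_self_sqrt g1.le, Matrix.sub_mulVec, ip_sub_right] at a1
  have a2 : ip v (Gs (S.J O) (S.y O) *ᵥ v) ≤ (z0 - (2 - s))⁻¹ * F.sq v := by
    unfold Gs
    rw [Matrix.sub_mulVec, ip_sub_right, e3, ip_smul_right, ipN_self, Matrix.smul_mulVec,
      ip_smul_right, F.vecMulVec_mulVec, ip_smul_right, ipN_comm v]
    have b1 : 0 ≤ T20 (S.J O) (S.y O) := by rw [A.T20_eq hs]; exact (A.T20_pos hs).le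
    have b2 : 0 ≤ ip (h0 (S.J O) (S.y O)) (G00 (S.J O) (S.y O) *ᵥ h0 (S.J O) (S.y O)) := by
      rw [A.G00_eq hs]
      exact (Adm.qf_frame O.1 S.g _).ge.trans' (Finset.sum_nonneg fun a _ =>
        mul_nonneg (A.g_pos hs a).le (sq_nonneg _))
    exact sub_le_self _ (mul_nonneg (div_nonneg zero_le_two (by linarith)) (mul_self_nonneg _))
  have a3 : u ^ 3000 ≤ 1 / 2 := by
    have := hs.cp (C := 2) (by norm_num) (show 0 < 3000 by norm_num)
    rw [pow_zero] at this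
    linarith
  have a4 := mul_le_mul_of_nonneg_left a2 g1.le
  rw [← mul_assoc, mul_inv_cancel₀ g1.ne', one_mul] at a4
  have a5 : nv v * (u ^ 3000 * nv v) ≤ 1 / 2 * F.sq v := by
    rw [mul_left_comm, ← pow_two, nv_sq]
    exact mul_le_mul_of_nonneg_right a3 (sqN_nonneg v)
  have a6 := sqN_nonneg v
  rcases le_total (ip v (G *ᵥ v)) 0 with b | b
  · exact (mul_nonpos_of_nonneg_of_nonpos hs0.le b).trans (by linarith)
  · have := mul_le_mul_of_nonneg_right g0 b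
    rw [mul_sub] at a1
    linarith

theorem op_Gm {L u : ℝ} {S : Dat n} {h : Vec n} {O : OG n} (hs : Sm L u) (A : Adm L u S)
    (o : Out u S O) (hb : Ball u (S.J O) (S.y O) h) :
    OpLe (Gm (S.J O) h (zh (S.J O) h)) (u⁻¹ ^ 288202) := by
  have h1 := ((A.opLe_Nis hs O).mulN (o.gm h hb) (hs.i0 _).le (hs.i0 _).le).mulN
    (A.opLe_Nis hs O) (mul_nonneg (hs.i0 _).le (hs.i0 _).le) (hs.i0 _).le
  rw [← Matrix.mul_assoc, ← Matrix.mul_assoc, A.Nis_mul_Nsq hs, Matrix.one_mul, Matrix.mul_assoc,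
    A.Nsq_mul_Nis hs, Matrix.mul_one, ← pow_add, ← pow_add] at h1
  exact h1

/-- all the inputs at the unit `u` -/
structure Un (hs : HS) (a C p : ℕ) (L u : ℝ) : Prop where
  sm : Sm L u
  kb : ∀ (n : ℕ) (S : Dat n) (x xt : Vec n) (μ : Measure (OG n)) (Qt : Mat n) (h : OG n → Vec n),
    Adm L u S → AdmX L u S xt → FibL μ x xt → Qtᵀ = Qt → OpLe Qt u⁻¹ → Measurable h →
    (∀ O, Good u S O → nv (h O - S.hc u O) ≤ √n * u ^ 252000 / 2) →
    μ.real {O | ¬(Good u S O ∧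
      nv (k0 (S.J O) (h O) (zh (S.J O) (h O)) (Wd.fr Qt O)) ≤ u⁻¹ ^ p)} ≤
      (n : ℝ) ^ C * Real.exp (-(n * u ^ 431998))
  out : ∀ (n : ℕ) (S : Dat n) (O : OG n), Adm L u S → Good u S O → Out u S O
  near : ∀ (n : ℕ) (S : Dat n) (O : OG n), Adm L u S → Good u S O →
    Ball u (S.J O) (S.y O) (hs n (S.J O) (S.y O)) ∧
      nv (hs n (S.J O) (S.y O) - S.hc u O) ≤ √n * u ^ 252000 / 2
  det : ∀ (n : ℕ) (S S' : Dat n) (O O' : OG n) (R : Mat n) (x ξ : Vec n) (δ : ℝ),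
    Adm L u S → Good u S O → Adm L u S' → Good u S' O' → Rᵀ = R → OpLe R 1 →
    (∀ i, |x i| ≤ 1) → nv ξ ≤ n → 0 < δ → ((n : ℝ) ^ a) ^ 8 * δ ≤ 1 →
    S'.J O' = S.J O - δ • (R * Rᵀ) → S'.y O' = S.y O + δ • ((R * Rᵀ) *ᵥ x) + √δ • (R *ᵥ ξ) →
    TapSt ((n : ℝ) ^ a) δ (S.J O) (S.y O) (hs n (S.J O) (S.y O))
      (zh (S.J O) (hs n (S.J O) (S.y O))) (S'.J O') (S'.y O') (hs n (S'.J O') (S'.y O'))
      (zh (S'.J O') (hs n (S'.J O') (S'.y O')))

theorem ev_un {hs : HS} (h1 : KBT.KBSelStmt) (h2 : D6Stmt) (h3 : NearM hs) (h4 : DetM hs) :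
    ∃ a C p : ℕ, Ev (Un hs a C p) := by
  obtain ⟨C, p, h1⟩ := h1
  obtain ⟨a, h4⟩ := h4
  exact ⟨a, C, p, (ev_sm.and (h1.and (Ev.and h2 (Ev.and h3 h4)))).mono fun L u _ h =>
    ⟨h.1, h.2.1, h.2.2.1, h.2.2.2.1, h.2.2.2.2⟩⟩

/-! ### one fibre -/

/-- the unit of a scale -/
noncomputable def un (s : ℝ) : ℝ := s ^ (288000 : ℝ)⁻¹

/-- the selected point of a state -/
noncomputable def hS (hs : HS) (a : St n) : Vec n := hs n (sJ a) (sy a)

/-- its spectral parameter -/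
noncomputable def zS (hs : HS) (a : St n) : ℝ := zh (sJ a) (hs n (sJ a) (sy a))

variable {lam : Vec n} {t : ℕ → ℝ} {dl : ℝ}

/-- the good frame data -/
structure FE (lam : Vec n) (t : ℕ → ℝ) (Cr X0 : ℝ) (k0 N : ℕ) (r : Vec n × (ℕ → Vec n)) :
    Prop where
  raw : ∀ k, k0 ≤ k → k ≤ N →
    ∃ z0, Adm.Raw Cr (t k) (lamC lam (t k)) (yF lam t r.1 r.2 k) r.1 z0
  mass : ∑ a ∈ Finset.univ.filter fun a => 2 - lam a ≤ t k0, r.1 a ^ 2 ≤ X0
  nz : ∀ k, k < N → nv (r.2 k) ≤ n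

theorem rotN_inv' (O : OG n) (ω : ℕ → Vec n) : rotN O (rotN O⁻¹ ω) = ω := by
  have := rotN_inv O⁻¹ ω
  rwa [inv_inv] at this

theorem pow_un {L s s' : ℝ} (h : Sm L (un s')) (hs : 0 < s) (hs' : s ≤ s')
    (e : un s' ^ 288000 = s') (p : ℕ) : (un s')⁻¹ ^ 288202 * (un s')⁻¹ ^ p ≤ s⁻¹ ^ (p + 2) := by
  rw [← pow_add]
  refine (h.iw (show 288202 + p ≤ 288000 * (p + 2) by omega)).trans ?_
  rw [pow_mul, inv_pow (un s'), e]
  exact pow_le_pow_left₀ (inv_nonneg.2 (by linarith)) (inv_anti₀ hs hs') _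

theorem fib_bound {hs : HS} (hM : MeasM hs) {a C p : ℕ} {L Cr w s z X0 : ℝ} {k0 N : ℕ}
    (hG : Grid lam t dl) (hL : Lv t dl s k0 N) (H : Adm.Std n w s lam) (hN : t N ≤ 1 / 100)
    (hC : 2 ≤ Cr) (hLC : 12 * (1 + Cr) ^ 2 ≤ L)
    (hU : ∀ k, k0 ≤ k → k < N → Un hs a C p L (un (t k))) (hz : 1 ≤ z)
    (hr : ∀ k, k0 ≤ k → k < N → z ≤ n * un (t k) ^ 431998) (hd : ((n : ℝ) ^ a) ^ 8 * dl ≤ 1)
    (x : Cfg n) {r : Vec n × (ℕ → Vec n)} (hE : FE lam t Cr X0 k0 N r) (hq : F.sq r.1 = n) :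
    (fibM (sv x) r.1).real {O | ¬PathG hG (hS hs) (zS hs) ((n : ℝ) ^ a) (s⁻¹ ^ (p + 2)) X0 k0 N
      ((O, x), rotN O⁻¹ r.2)} ≤ 2 * N * ((n : ℝ) ^ C * Real.exp (-z)) := by
  have hF := Br.fibL x hq
  choose! z0 hz0 using hE.raw
  set S : ℕ → Dat n := fun k => Adm.dat (t k) (z0 k) (lamC lam (t k)) (yF lam t r.1 r.2 k) with hSd
  have s0 := hL.pos
  have ht : ∀ j, k0 ≤ j → s ≤ t j := fun j hj => hL.lo.trans (hG.mono hj)
  have hH : ∀ j, k0 ≤ j → j ≤ N → Adm.Std n w (t j) lam := fun j h1 h2 =>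
    H.mono (ht j h1) ((hG.mono h2).trans hN)
  have hf : ∀ k, k0 ≤ k → k < N → Adm.Fit n (t k) (un (t k)) ∧ un (t k) ^ 288000 = t k :=
    fun k h1 h2 => Adm.fit_rpow (s0.trans_le (ht k h1))
      (by have := (hU k h1 h2).sm.c1 (C := 2) (by norm_num); unfold un at this; linarith)
      (hz.trans (hr k h1 h2))
  have hA : ∀ k j, k0 ≤ k → k < N → (j = k ∨ j = k + 1) →
      Adm L (un (t k)) (S j) ∧ AdmX L (un (t k)) (S j) r.1 := fun k j h1 h2 hj => by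
    have b1 : k0 ≤ j := by omega
    have b2 : j ≤ N := by omega
    refine (hz0 j b1 b2).adm (Adm.sand_clip (hH j b1 b2)) (hH j b1 b2) zero_le_two hC
      (by linarith [(hH j b1 b2).hi]) (by linarith) hLC ?_
    obtain ⟨f, e⟩ := hf k h1 h2
    rcases hj with rfl | rfl
    · exact f
    · refine ⟨f.pos, f.half, ?_, ?_, f.big⟩ <;> rw [e]
      · linarith [hG.lt k, ht k h1]
      · linarith [hG.le k, hL.mesh, ht k h1]
  have hB : ∀ k j, k0 ≤ k → k < N → (j = k ∨ j = k + 1) → (fibM (sv x) r.1).real {O |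
      ¬(Good (un (t k)) (S j) O ∧ nv (EC.k0 ((S j).J O) (hs n ((S j).J O) ((S j).y O))
        (zh ((S j).J O) (hs n ((S j).J O) ((S j).y O))) (PC lam O (t j))) ≤ (un (t k))⁻¹ ^ p)}
      ≤ (n : ℝ) ^ C * Real.exp (-z) := fun k j h1 h2 hj => by
    have U := hU k h1 h2
    obtain ⟨A, AX⟩ := hA k j h1 h2 hj
    refine (U.kb n (S j) (sv x) r.1 _ (diagonal (dI lam (t j)))
      (fun O => hs n ((S j).J O) ((S j).y O)) A AX hF (diagonal_transpose _) ?_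
      (hM n _ _ _ (KBT.mm_J _) (KBT.mv_y _)).1.measurable
      fun O g => (U.near n _ O A g).2).trans (mul_le_mul_of_nonneg_left
        (Real.exp_le_exp.2 (neg_le_neg (hr k h1 h2))) (by positivity))
    rw [← T1.JO_id]
    refine opLe_JO (fun b => ?_) 1
    rw [abs_of_nonneg (dI_nonneg _ _ b)]
    exact (dI_le_one _ _ b).trans U.sm.inv1
  have h1 := Tail.real_exists_le (fibM (sv x) r.1) (Ico k0 N) (fun k O =>
    ¬(Good (un (t k)) (S k) O ∧ nv (EC.k0 ((S k).J O) (hs n ((S k).J O) ((S k).y O))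
      (zh ((S k).J O) (hs n ((S k).J O) ((S k).y O))) (PC lam O (t k))) ≤ (un (t k))⁻¹ ^ p) ∨
    ¬(Good (un (t k)) (S (k + 1)) O ∧ nv (EC.k0 ((S (k + 1)).J O)
      (hs n ((S (k + 1)).J O) ((S (k + 1)).y O)) (zh ((S (k + 1)).J O)
        (hs n ((S (k + 1)).J O) ((S (k + 1)).y O))) (PC lam O (t (k + 1)))) ≤ (un (t k))⁻¹ ^ p))
    (fun _ => 2 * ((n : ℝ) ^ C * Real.exp (-z))) fun k hk => by
      obtain ⟨b1, b2⟩ := Finset.mem_Ico.1 hk
      refine (Tail.real_or_le _ fun O hO => hO).trans ?_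
      linarith [hB k k b1 b2 (Or.inl rfl), hB k (k + 1) b1 b2 (Or.inr rfl)]
  rw [Finset.sum_const, Nat.card_Ico, nsmul_eq_mul] at h1
  have h2 : ((N - k0 : ℕ) : ℝ) ≤ N := by exact_mod_cast Nat.sub_le N k0
  have h3 := mul_le_mul_of_nonneg_right h2
    (show 0 ≤ 2 * ((n : ℝ) ^ C * Real.exp (-z)) by positivity)
  refine le_trans (ENNReal.toReal_mono (measure_ne_top _ _) (measure_mono_ae ?_))
    (h1.trans (h3.trans (le_of_eq (by ring))))
  filter_upwards [hF.ae] with O hO hb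
  by_contra hc
  refine hb ?_
  have hg : ∀ k, k0 ≤ k → k < N → (Good (un (t k)) (S k) O ∧ nv (EC.k0 ((S k).J O)
      (hs n ((S k).J O) ((S k).y O)) (zh ((S k).J O) (hs n ((S k).J O) ((S k).y O)))
      (PC lam O (t k))) ≤ (un (t k))⁻¹ ^ p) ∧ Good (un (t k)) (S (k + 1)) O := fun k b1 b2 => by
    have := not_or.1 fun h => hc ⟨k, Finset.mem_Ico.2 ⟨b1, b2⟩, h⟩
    exact ⟨not_not.1 this.1, (not_not.1 this.2).1⟩
  set q : (OG n × Cfg n) × (ℕ → Vec n) := ((O, x), rotN O⁻¹ r.2) with hqd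
  have e0 : ∀ k, trC hG q k = capS lam t O k ((S k).y O) := fun k => by
    refine (hG.traj_cap O x _ k).trans ?_
    rw [rotN_inv', show xt O x = r.1 from hO]
    rfl
  have eJ : ∀ k, sJ (trC hG q k) = (S k).J O := fun k => by rw [e0]; rfl
  have ey : ∀ k, sy (trC hG q k) = (S k).y O := fun k => by rw [e0]; rfl
  have hn : ∀ k, k < N → nv (q.2 k) ≤ n := fun k hk => (nv_act O⁻¹ _).le.trans (hE.nz k hk)
  have hP := flag_capP hG O
  refine ⟨fun k b1 b2 => ?_, fun k b1 b2 => ?_, fun k b1 b2 => ?_,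
    fun k _ b2 j => (abs_le_nv _ j).trans (hn k b2), (sq_PC O _ (sv x)).le.trans ?_⟩
  · have e1 : trC hG q (k + 1) = (up n hG.steps).nx (trC hG q k) x (q.2 k) :=
      (up n hG.steps).traj_succ _ _ _ _
    have e2 := M_nx (up n hG.steps) (trC hG q k) x (q.2 k)
    have e3 := y_nx (up n hG.steps) (trC hG q k) x (q.2 k)
    rw [← e1, δ_tr, R_tr] at e2 e3
    unfold hS zS
    rw [eJ, eJ, ey, ey]
    exact (hU k b1 b2).det n _ _ O O (capP lam t O k) (sv x) (q.2 k) _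
      (hA k k b1 b2 (Or.inl rfl)).1 (hg k b1 b2).1.1 (hA k (k + 1) b1 b2 (Or.inr rfl)).1
      (hg k b1 b2).2 (hP.symm k) (opLe_of_nv fun v => by rw [one_mul]; exact hP.nv_le k v)
      (fun i => by rcases hF.sgn i with e | e <;> rw [e] <;> norm_num) (hn k b2) (hG.step_pos k)
      ((mul_le_mul_of_nonneg_left (hG.le k) (by positivity)).trans hd)
      (by rw [← eJ, ← eJ]; exact e2) (by rw [← ey, ← ey]; exact e3)
  · have U := hU k b1 b2
    have A := (hA k k b1 b2 (Or.inl rfl)).1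
    unfold hS zS
    rw [eJ, ey]
    exact frm_of U.sm (s0.trans_le (ht k b1)) (hz0 k b1 b2.le).lo A (U.out n _ O A (hg k b1 b2).1.1)
      (U.near n _ O A (hg k b1 b2).1.1).1
  · have U := hU k b1 b2
    have A := (hA k k b1 b2 (Or.inl rfl)).1
    unfold hS zS EC.ka
    rw [eJ, ey, nv_neg]
    exact ((op_Gm U.sm A (U.out n _ O A (hg k b1 b2).1.1)
      (U.near n _ O A (hg k b1 b2).1.1).1).nv_le (U.sm.i0 _).le _).trans
      ((mul_le_mul_of_nonneg_left (hg k b1 b2).1.2 (U.sm.i0 _).le).trans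
        (pow_un U.sm s0 (ht k b1) (hf k b1 b2).2 p))
  · rw [hO]
    exact hE.mass

/-! ### the planted law -/

theorem plant_any (hn : 0 < n) (M : Mat n) (A : Set (Vec n × (ℕ → Vec n)))
    {B : Set ((OG n × Cfg n) × (ℕ → Vec n))} (hB : MeasurableSet B) {p : ℝ} (hp0 : 0 ≤ p)
    (hp : ∀ x : Cfg n, ∀ r ∉ A, F.sq r.1 = n →
      (fibM (sv x) r.1).real {O | ((O, x), rotN O⁻¹ r.2) ∈ B} ≤ p) :
    (plN n M 0).real B ≤ (spN n M 0).real A + p := by
  have h1 := Cap.plN_rot_le M 0 {q | (q.1, rotN q.1.1⁻¹ q.2) ∈ B}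
  have h2 := fib_le hn M 0 (measurableSet_toMeasurable (spN n M 0) A).compl
    (Bad := fun x => {b | ((b.2, x), rotN b.2⁻¹ b.1.2) ∈ B}) (fun x => by
      have a1 : Measurable fun b : (Vec n × (ℕ → Vec n)) × OG n => (b.2⁻¹, b.1.2) :=
        measurable_snd.inv.prodMk (measurable_snd.comp measurable_fst)
      have a3 : Measurable fun b : (Vec n × (ℕ → Vec n)) × OG n => (b.2, x) :=
        measurable_snd.prodMk measurable_const
      have a2 := a3.prodMk (measurable_rotN2.comp a1)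
      exact a2 hB) (p := ENNReal.ofReal p) fun x r hr hs =>
      (ENNReal.le_ofReal_iff_toReal_le (measure_ne_top _ _) hp0).2
        (hp x r (fun h => hr (subset_toMeasurable _ _ h)) hs)
  have h3 := Plant.plN_frame_le M 0 (toMeasurable (spN n M 0) A)
  rw [measure_toMeasurable] at h3
  refine (ENNReal.toReal_mono (measure_ne_top _ _) ((measure_mono fun q hq => ?_).trans h1)).trans
    ((Tail.real_or_le (plN n M 0)
    (q := fun q => (xt q.1.1 q.1.2, q.2) ∈ toMeasurable (spN n M 0) A)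
    (r := fun q => (xt q.1.1 q.1.2, q.2) ∈ (toMeasurable (spN n M 0) A)ᶜ ∧
      (q.1, rotN q.1.1⁻¹ q.2) ∈ B) fun q hq => (em _).imp id fun h => ⟨h, hq⟩).trans (add_le_add
      (ENNReal.toReal_mono (measure_ne_top _ _) h3) (ENNReal.toReal_le_of_le_ofReal hp0 h2)))
  show (q.1, rotN q.1.1⁻¹ (rotN q.1.1 q.2)) ∈ B
  rw [rotN_inv]
  exact hq

theorem fe_tail {w Cr s z pA : ℝ} {k0 N : ℕ} (h : Edge.Rigid w lam) (hn : 6 ≤ n) (hw : 0 < w)
    (hk : Edge.kap w ≤ 1 / 100) (hs : 20 * Edge.sc0 n w ≤ s) (hs1 : s ≤ 1 / 16) (hz : 0 ≤ z)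
    (hζ : z ≤ 6 * (n * (s * √s))) (ht : t k0 ≤ s - 2 * Edge.sc0 n w)
    (hA : (spN n (diagonal lam) 0).real {q | ¬∀ k, k0 ≤ k → k ≤ N →
      ∃ z0, Adm.Raw Cr (t k) (lamC lam (t k)) (yF lam t q.1 q.2 k) q.1 z0} ≤ pA) :
    (spN n (diagonal lam) 0).real {r | ¬FE lam t Cr (42 * (n * √s)) k0 N r}
      ≤ pA + (3000 * n ^ 8 * Real.exp (-z) + N * Real.exp (-n)) := by
  have h6 : (6 : ℝ) ≤ n := by exact_mod_cast hn
  have h2 := Path.fst_real_le (spM (diagonal lam) 0) (PN n) (fun x => 42 * (n * √s) <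
    ∑ a ∈ Finset.univ.filter fun a => 2 - lam a ≤ t k0, x a ^ 2)
  have h3 := Path.early_mass h (by omega) hw hk hs hs1 hz hζ
    (Finset.univ.filter fun a => 2 - lam a ≤ t k0) fun a ha => (Finset.mem_filter.1 ha).2.trans ht
  have h4 := Path.snd_real_le (spM (diagonal lam) 0) (PN n)
    (fun ω => ∃ k ∈ Finset.range N, 2 * (n : ℝ) + 4 * n ≤ F.sq (ω k))
  refine (Tail.real_or_le _ fun r hr => ?_).trans (add_le_add hA ((Tail.real_or_le _
    fun r hr => hr).trans (add_le_add (h2.le.trans h3) (h4.le.trans (Path.tail_noise N n)))))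
  by_contra hc
  obtain ⟨c1, c2⟩ := not_or.1 hc
  obtain ⟨c2, c3⟩ := not_or.1 c2
  refine hr ⟨not_not.1 c1, not_lt.1 c2, fun k hk => nv_le_of_sq_le (by linarith) ?_⟩
  have := not_le.1 fun h => c3 ⟨k, Finset.mem_range.2 hk, h⟩
  nlinarith

end Vale.Agent.N150.M0
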