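import Vale.Agent.N150.AsmDef
import Vale.Agent.N150.M0Def

/-! P150: the inputs of the mean field tier of the cap flow, for an abstract selection `hp` of the
solution of the mean field equations. -/

open Matrix MeasureTheory Filter Topology

namespace Vale.Agent.N150.TapQ

open Vale.Agent.P150 Vale.Agent.P150.F Vale.Agent.P150.F.Ms Vale.Agent.N150.EC
open Vale.Agent.N150.T1 Vale.Agent.N150.Cap Vale.Agent.N150.Sp

/-- [T2] on one fibre, at one time `s` of the cap flow, for the levels `K ≥ lo n` -/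
def T2Q (lo : ℕ → ℝ) (hp : M0.HS) : Prop :=
  ∃ (C : ℕ) (e t₀ : ℝ), 0 < e ∧ 0 < t₀ ∧ ∀ᶠ n : ℕ in atTop,
    ∀ (lam yt x xt : Vec n) (s t z0 K : ℝ) (μ : Measure (OG n)), Edge.Rigid (Asm.wn n) lam →
    Adm.Std n (Asm.wn n) s lam → 0 < t → t ≤ t₀ → t ^ 288000 = s → lo n ≤ K → Real.log n ≤ K →
    (K / n) ^ (51 / 100 : ℝ) ≤ s → (∀ a, dI lam s a * yt a = yt a) →
    Adm.Raw 8 s (lamC lam s) yt xt z0 → Adm 1000 t (Adm.dat s z0 (lamC lam s) yt) →
    AdmX 1000 t (Adm.dat s z0 (lamC lam s) yt) xt → FibL μ x xt →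
    μ.real {O | Good t (Adm.dat s z0 (lamC lam s) yt) O ∧ s ^ e * √K < s * √s *
      nv (PC lam O s *ᵥ ka (JC lam O s) (hp n (JC lam O s) (O.1ᵀ *ᵥ yt))
        (zh (JC lam O s) (hp n (JC lam O s) (O.1ᵀ *ᵥ yt))) (PC lam O s))} ≤
      (n : ℝ) ^ C * Real.exp (-(5 * K))

end Vale.Agent.N150.TapQ
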