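import Vale.Agent.N150.KBT1
import Vale.Agent.N150.D6a
import Vale.Agent.N150.TapQ0

/-! P150 at the critical point: the polynomial bound of the drift at any measurable selection near
the third Picard iterate, and its use above the level `n ^ γ`. -/

open Matrix MeasureTheory Filter Topology

namespace Vale.Agent.N150.M0G

open Vale.Agent.P150 Vale.Agent.P150.F Vale.Agent.N150.EC Vale.Agent.N150.Sp Vale.Agent.N150.T1
open Vale.Agent.N150.Wd (fr)

variable {n : ℕ}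

theorem opLe_Gm {L t : ℝ} {S : Dat n} (hs : D6.Sm L t) (ha : Adm L t S) {O : OG n}
    (hO : Out t S O) {h : Vec n} (hb : Ball t (S.J O) (S.y O) h) :
    OpLe (Gm (S.J O) h (zh (S.J O) h)) (t⁻¹ ^ 288202) := by
  have ht : 0 ≤ t⁻¹ := inv_nonneg.2 hs.pos.le
  have e : Gm (S.J O) h (zh (S.J O) h) = S.Nis O *
      (S.Nsq O * Gm (S.J O) h (zh (S.J O) h) * S.Nsq O) * S.Nis O := by
    calc _ = (S.Nis O * S.Nsq O) * Gm (S.J O) h (zh (S.J O) h) * (S.Nsq O * S.Nis O) := by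
          rw [D6.Nis_Nsq hs ha, D6.Nsq_Nis hs ha, Matrix.one_mul, Matrix.mul_one]
      _ = _ := by simp only [Matrix.mul_assoc]
  rw [e]
  have h1 := ((D6.opLe_Nis hs ha O).mul (hO.gm h hb)).mul (D6.opLe_Nis hs ha O)
  rwa [← pow_add, ← pow_add] at h1

/-- the drift at a measurable selection is polynomially bounded on the good set -/
def KaSel : Prop := ∃ C q : ℕ, Ev fun L t => ∀ (n : ℕ) (S : Dat n) (x xt : Vec n)
  (μ : Measure (OG n)) (Qt : Mat n) (hs : OG n → Vec n), Adm L t S → AdmX L t S xt →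
  FibL μ x xt → Qtᵀ = Qt → OpLe Qt 1 → Measurable hs →
  (∀ O, Good t S O → Ball t (S.J O) (S.y O) (hs O) ∧
    nv (hs O - S.hc t O) ≤ √n * t ^ 252000 / 2) →
    μ.real {O | ¬(Good t S O ∧
      nv (ka (S.J O) (hs O) (zh (S.J O) (hs O)) (fr Qt O)) ≤ t⁻¹ ^ q)} ≤
      (n : ℝ) ^ C * Real.exp (-(n * t ^ 431998))

theorem kaSel_of (hK : KBT.KBSelStmt) (hD : D6Stmt) : KaSel := by
  obtain ⟨C, p, hK⟩ := hK
  refine ⟨C, 288202 + p, fun L hL => ?_⟩
  filter_upwards [hK L hL, hD L hL, D6.ev_sm hL] with t hK hD hs n S x xt μ Qt h hA hX hF hQ hQ1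
    hm hnear
  have := hF.prob
  have ht1 : 1 ≤ t⁻¹ := by linarith [hs.big]
  refine le_trans (measureReal_mono ?_)
    (hK n S x xt μ Qt h hA hX hF hQ (hQ1.monoN zero_le_one ht1) hm fun O hO => (hnear O hO).2)
  intro O hO hO'
  refine hO ⟨hO'.1, ?_⟩
  have hb := (hnear O hO'.1).1
  have h1 := (opLe_Gm hs hA (hD n S O hA hO'.1) hb).nv_le (by positivity)
    (k0 (S.J O) (h O) (zh (S.J O) (h O)) (fr Qt O))
  unfold ka
  rw [nv_neg, pow_add]
  exact h1.trans (mul_le_mul_of_nonneg_left hO'.2 (by positivity))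

/-- arithmetic of the threshold: above `n ^ γ` every power `q` of `t⁻¹` is below `s √K` -/
theorem pow_le_level {q : ℕ} {γ t s K : ℝ} (hγ : (2 * q + 2 : ℝ) / (2 * q + 3) ≤ γ) (hn : 0 < n)
    (ht : 0 < t) (ht1 : t ≤ 1) (hs : t ^ 288000 = s) (hK : (n : ℝ) ^ γ ≤ K)
    (hKs : (K / n) ^ (51 / 100 : ℝ) ≤ s) : t⁻¹ ^ q ≤ s * √K := by
  have hn0 : (0 : ℝ) < n := by exact_mod_cast hn
  have hn1 : (1 : ℝ) ≤ n := by exact_mod_cast hn
  have hK0 : 0 < K := (Real.rpow_pos_of_pos hn0 γ).trans_le hK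
  have hs0 : 0 < s := hs ▸ pow_pos ht _
  have hst : s ≤ t := hs ▸ pow_le_of_le_one ht.le ht1 (by norm_num)
  set u := K / n with hu
  have hu0 : 0 < u := div_pos hK0 hn0
  have hu1 : u ≤ 1 := by
    by_contra hc
    have h1 := Real.one_lt_rpow (not_le.1 hc) (show (0 : ℝ) < 51 / 100 by norm_num)
    linarith
  have hus : u ≤ s := by
    have h1 := Real.rpow_le_rpow_of_exponent_ge hu0 hu1 (show (51 / 100 : ℝ) ≤ 1 by norm_num)
    rw [Real.rpow_one] at h1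
    linarith
  have hq : (0 : ℝ) < 2 * q + 3 := by positivity
  have h1 : (n : ℝ) ^ (2 * q + 2) ≤ K ^ (2 * q + 3) := by
    have h2 : (n : ℝ) ^ (2 * q + 2) = ((n : ℝ) ^ ((2 * q + 2 : ℝ) / (2 * q + 3))) ^ (2 * q + 3) := by
      rw [← Real.rpow_natCast, ← Real.rpow_natCast, ← Real.rpow_mul hn0.le]
      congr 1
      push_cast
      field_simp
    rw [h2]
    exact pow_le_pow_left₀ (by positivity)
      ((Real.rpow_le_rpow_of_exponent_le hn1 hγ).trans hK) _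
  have h2 : 1 ≤ u ^ (2 * q + 2) * K := by
    rw [hu, div_pow, div_mul_eq_mul_div, ← pow_succ, one_le_div (by positivity)]
    exact h1
  have h3 : 1 ≤ u ^ (q + 1) * √K := by
    have e : u ^ (2 * q + 2) * K = (u ^ (q + 1) * √K) ^ 2 := by
      rw [mul_pow, Real.sq_sqrt hK0.le, ← pow_mul]
      congr 2
      ring
    rw [e] at h2
    exact (one_le_sq_iff₀ (by positivity)).1 h2
  have h4 : u ^ (q + 1) ≤ t ^ q * s := by
    rw [pow_succ]
    exact mul_le_mul (pow_le_pow_left₀ hu0.le (hus.trans hst) q) hus hu0.le (by positivity)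
  rw [inv_pow, inv_le_iff_one_le_mul₀ (pow_pos ht q)]
  calc 1 ≤ u ^ (q + 1) * √K := h3
    _ ≤ t ^ q * s * √K := mul_le_mul_of_nonneg_right h4 (Real.sqrt_nonneg _)
    _ = _ := by ring

/-- the rate of T1 dominates the level -/
theorem five_le_rate {t s K : ℝ} (hn : 0 < n) (ht : 0 < t) (ht5 : 5 ≤ t⁻¹) (hs : t ^ 288000 = s)
    (hK0 : 0 ≤ K) (hKs : (K / n) ^ (51 / 100 : ℝ) ≤ s) : 5 * K ≤ n * t ^ 431998 := by
  have hn0 : (0 : ℝ) < n := by exact_mod_cast hn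
  have ht1 : t ≤ 1 / 5 := by
    rw [le_inv_comm₀ (by norm_num) ht] at ht5
    linarith
  have hs0 : 0 < s := hs ▸ pow_pos ht _
  have hs1 : s ≤ 1 := hs ▸ pow_le_one₀ ht.le (by linarith)
  set u := K / n with hu
  have hu0 : 0 ≤ u := div_nonneg hK0 hn0.le
  have h1 : u ≤ s ^ (100 / 51 : ℝ) := by
    have h2 := Real.rpow_le_rpow (Real.rpow_nonneg hu0 _) hKs (show (0 : ℝ) ≤ 100 / 51 by norm_num)
    rwa [← Real.rpow_mul hu0, show (51 / 100 * (100 / 51) : ℝ) = 1 by norm_num,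
      Real.rpow_one] at h2
  have h2 : s ^ (100 / 51 : ℝ) ≤ t ^ 432000 := by
    refine (Real.rpow_le_rpow_of_exponent_ge hs0 hs1
      (show (3 / 2 : ℝ) ≤ 100 / 51 by norm_num)).trans (le_of_eq ?_)
    rw [← hs, ← Real.rpow_natCast, ← Real.rpow_mul ht.le, ← Real.rpow_natCast]
    norm_num
  have h3 : t ^ 432000 ≤ t ^ 431998 / 5 := by
    have e : t ^ 432000 = t ^ 431998 * t ^ 2 := by rw [← pow_add]
    have h4 : t ^ 2 ≤ 1 / 5 := by nlinarith
    have h5 := mul_le_mul_of_nonneg_left h4 (pow_pos ht 431998).le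
    linarith
  have h4 := h1.trans (h2.trans h3)
  rw [hu, div_le_iff₀ hn0] at h4
  linarith

theorem opLe_dI (lam : Vec n) (s : ℝ) (O : OG n) : OpLe (Cap.PC lam O s) 1 :=
  D6.opLe_JO zero_le_one (fun a => by
    rw [abs_of_nonneg (Cap.dI_nonneg lam s a)]; exact Cap.dI_le_one lam s a) O

theorem opLe_diag_dI (lam : Vec n) (s : ℝ) : OpLe (diagonal (Cap.dI lam s)) 1 := by
  have h := opLe_dI lam s 1
  have e : Cap.PC lam 1 s = diagonal (Cap.dI lam s) := by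
    unfold Cap.PC JO
    rw [OG.coe_one, Matrix.transpose_one, Matrix.one_mul, Matrix.mul_one]
  rwa [e] at h

/-- **T2 above the level `n ^ γ`** from the polynomial source bound -/
theorem t2Q_lite {hs : M0.HS} (hK : KaSel) (hM : M0.MeasM hs) (hN : M0.NearM hs) :
    ∃ γ₀ : ℝ, 0 < γ₀ ∧ γ₀ < 1 ∧ ∀ γ, γ₀ ≤ γ → TapQ.T2Q (fun n => (n : ℝ) ^ γ) hs := by
  obtain ⟨C, q, hK⟩ := hK
  refine ⟨(2 * q + 2 : ℝ) / (2 * q + 3), by positivity,
    (div_lt_one (by positivity)).2 (by linarith), fun γ hγ => ?_⟩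
  have h1 := ((hK 1000 (by norm_num)).and (hN 1000 (by norm_num))).and
    (D6.ev_sm (L := 1000) (by norm_num))
  obtain ⟨u, hu, h2⟩ := (mem_nhdsGT_iff_exists_Ioc_subset).1 h1
  refine ⟨C, 1, u, one_pos, hu, ?_⟩
  filter_upwards [eventually_gt_atTop 0] with n hn lam yt x xt s t z0 K μ _ _ ht htu hts hlo hl
    hKs _ _ hA hX hF
  obtain ⟨⟨a1, a2⟩, a3⟩ := h2 ⟨ht, htu⟩
  have := hF.prob
  set S := Adm.dat s z0 (Cap.lamC lam s) yt with hS
  have hm : Measurable fun O : OG n => hs n (S.J O) (S.y O) :=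
    (hM n (OG n) (fun O => S.J O) (fun O => S.y O) (KBT.mm_J S) (KBT.mv_y S)).1.measurable
  have h3 := a1 n S x xt μ (diagonal (Cap.dI lam s)) (fun O => hs n (S.J O) (S.y O)) hA hX hF
    (diagonal_transpose _) (opLe_diag_dI lam s) hm fun O hO => a2 n S O hA hO
  have hK0 : 0 ≤ K := (Real.log_natCast_nonneg n).trans hl
  have h4 := five_le_rate hn ht (by linarith [a3.big]) hts hK0 hKs
  have h5 := pow_le_level hγ hn ht a3.le_one hts hlo hKs
  refine le_trans (measureReal_mono ?_) (h3.trans (mul_le_mul_of_nonneg_left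
    (Real.exp_le_exp.2 (by linarith)) (by positivity)))
  intro O hO hO'
  have h6 := (opLe_dI lam s O).nv_le zero_le_one
    (ka (S.J O) (hs n (S.J O) (S.y O)) (zh (S.J O) (hs n (S.J O) (S.y O))) (Cap.PC lam O s))
  have h7 : nv (ka (S.J O) (hs n (S.J O) (S.y O)) (zh (S.J O) (hs n (S.J O) (S.y O)))
      (Cap.PC lam O s)) ≤ t⁻¹ ^ q := hO'.2
  have h8 : s ^ (1 : ℝ) * √K < s * √s * nv (Cap.PC lam O s *ᵥ
      ka (S.J O) (hs n (S.J O) (S.y O)) (zh (S.J O) (hs n (S.J O) (S.y O))) (Cap.PC lam O s)) :=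
    hO.2
  have hs0 : 0 < s := hts ▸ pow_pos ht _
  have hs1 : s ≤ 1 := hts ▸ pow_le_one₀ ht.le a3.le_one
  have h9 : s * √s ≤ 1 := mul_le_one₀ hs1 (Real.sqrt_nonneg _) (Real.sqrt_le_one.2 hs1)
  have h10 := mul_le_of_le_one_left (nv_nonneg (Cap.PC lam O s *ᵥ
    ka (S.J O) (hs n (S.J O) (S.y O)) (zh (S.J O) (hs n (S.J O) (S.y O))) (Cap.PC lam O s))) h9
  rw [Real.rpow_one] at h8
  linarith

end Vale.Agent.N150.M0G
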