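import Vale.Agent.N150.CapGlue
import Vale.Agent.N150.AsmQ

/-! P150, milestone M0: the crude recursion along one path of the cap flow. -/

open Matrix MeasureTheory Finset

namespace Vale.Agent.N150.M0

open Vale.Agent.P150 Vale.Agent.P150.F Vale.Agent.P150.F.Ms Vale.Agent.N150.A1
  Vale.Agent.N150.Rec Vale.Agent.N150.Asm Vale.Agent.N150.Cap Vale.Agent.N150.Plant
  Vale.Agent.N150.Sp

variable {n : ℕ}

/-- numerical hypotheses on the schedule of one level -/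
structure Lv (t : ℕ → ℝ) (dl s : ℝ) (k0 N : ℕ) : Prop where
  pos : 0 < s
  k0p : 0 < k0
  le : k0 ≤ N
  lo : s ≤ t k0
  mesh : 12 * dl ≤ s
  top : t N ≤ 1
  len : t N - t 0 ≤ 1
  early : t k0 - t 0 ≤ 3 * s

/-- crude backward bound -/
theorem num_W {P G : ℕ → Mat n} {W src : ℕ → Vec n} {t : ℕ → ℝ} {k0 N : ℕ} {s κ : ℝ}
    (hP : Flag P) (hs : 0 < s) (hmono : ∀ k, t k ≤ t (k + 1)) (h0 : s ≤ t k0) (hN : t N ≤ 1)
    (hκ : 0 ≤ κ) (hx : ∀ k, 12 * (t (k + 1) - t k) ≤ s)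
    (hrec : ∀ k, k0 ≤ k → k < N →
      W k - (t (k + 1) - t k) • (G k *ᵥ (P k *ᵥ W k)) = W (k + 1) + src k)
    (hG : ∀ k, k0 ≤ k → k < N → ∀ u, P k *ᵥ u = u → t k * ip u (G k *ᵥ u) ≤ 3 * F.sq u)
    (hsrc : ∀ k, k0 ≤ k → k < N → nv (src k) ≤ κ * (t (k + 1) - t k))
    {k : ℕ} (h1 : k0 ≤ k) (h2 : k ≤ N) : nv (P k *ᵥ W k) ≤ s⁻¹ ^ 4 * (nv (W N) + κ) := by
  have ht : ∀ j, k0 ≤ j → s ≤ t j := fun j hj => h0.trans (mono_le hmono hj)
  have h := crude hP (t := t) (G := G) (W := W) (src := src) h2 (L := 4) (Lam := 3) (by norm_num)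
    (fun j hj => hs.trans_le (ht j (by omega))) hmono
    (fun j hj _ => by linarith [hx j, ht j (by omega)])
    (fun j hj hj' => hrec j (by omega) hj') (fun j hj hj' => hG j (by omega) hj')
  have r1 : ∀ j, k0 ≤ j → j ≤ N → t j ^ (4 : ℝ) ≤ 1 := fun j hj hj' =>
    Real.rpow_le_one (hs.trans_le (ht j hj)).le ((mono_le hmono hj').trans hN) (by norm_num)
  have a1 : t N ^ (4 : ℝ) * nv (P N *ᵥ W N) ≤ nv (W N) :=
    (mul_le_of_le_one_left (nv_nonneg _) (r1 N (by omega) le_rfl)).trans (hP.nv_le N _)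
  have a2 : ∑ j ∈ Ico k N, t (j + 1) ^ (4 : ℝ) * nv (P j *ᵥ src j)
      ≤ ∑ j ∈ Ico k N, κ * (t (j + 1) - t j) := Finset.sum_le_sum fun j hj => by
    obtain ⟨b1, b2⟩ := Finset.mem_Ico.1 hj
    exact (mul_le_of_le_one_left (nv_nonneg _) (r1 (j + 1) (by omega) b2)).trans
      ((hP.nv_le j _).trans (hsrc j (by omega) b2))
  rw [← Finset.mul_sum, sum_Ico_tele t h2] at a2
  have a3 : κ * (t N - t k) ≤ κ := mul_le_of_le_one_right hκ (by linarith [ht k h1])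
  have a4 : s ^ 4 ≤ t k ^ (4 : ℝ) := by
    rw [show (4 : ℝ) = ((4 : ℕ) : ℝ) by norm_num, Real.rpow_natCast]
    exact pow_le_pow_left₀ hs.le (ht k h1) 4
  have a5 := mul_le_mul_of_nonneg_right a4 (nv_nonneg (P k *ᵥ W k))
  rw [inv_pow, ← div_eq_inv_mul, le_div_iff₀ (by positivity)]
  linarith

variable {lam : Vec n} {t : ℕ → ℝ} {dl : ℝ}

/-- the facts along one path -/
structure PathG (hG : Grid lam t dl) (h : St n → Vec n) (z : St n → ℝ) (K₀ κ X0 : ℝ) (k0 N : ℕ)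
    (q : (OG n × Cfg n) × (ℕ → Vec n)) : Prop where
  st : ∀ k, k0 ≤ k → k < N → TapSt K₀ (t (k + 1) - t k) (sJ (trC hG q k)) (sy (trC hG q k))
    (h (trC hG q k)) (z (trC hG q k)) (sJ (trC hG q (k + 1))) (sy (trC hG q (k + 1)))
    (h (trC hG q (k + 1))) (z (trC hG q (k + 1)))
  frm : ∀ k, k0 ≤ k → k < N → Frm (t k) 3 (capP lam t q.1.1 k)
    (EC.Gm (sJ (trC hG q k)) (h (trC hG q k)) (z (trC hG q k)))
  ka : ∀ k, k0 ≤ k → k < N → nv (EC.ka (sJ (trC hG q k)) (h (trC hG q k)) (z (trC hG q k))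
    (capP lam t q.1.1 k)) ≤ κ
  box : ∀ k, k0 ≤ k → k < N → q.2 k ∈ Box n n
  hx : F.sq (capP lam t q.1.1 k0 *ᵥ sv q.1.2) ≤ X0

/-- the tracker -/
noncomputable def rM (hG : Grid lam t dl) (h : St n → Vec n) (z : St n → ℝ) (X s : ℝ) (k0 : ℕ) :
    Ref n n (St n) :=
  (tapRef (up n hG.steps) h z).can (up n hG.steps) X dl {a | sk a < k0} {a | sk a + 1 = k0}
    ((tapRef (up n hG.steps) h z).FormP (up n hG.steps) fun _ => 3 / s)

theorem rM_ok (hG : Grid lam t dl) {h : St n → Vec n} {z : St n → ℝ} (hh : MVec h)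
    (hz : Measurable z) {X : ℝ} (s : ℝ) (k0 : ℕ) (hX : 2 ≤ X) (hn : (n : ℝ) ≤ X)
    (hd : X ^ 8 * dl ≤ 1) : (rM hG h z X s k0).OK (up n hG.steps) X dl :=
  (tap_pre _ hh hz).can_OK _ hX hn hn hd (meas_sk (measurableSet_Iio (a := k0)))
    (meas_sk (show MeasurableSet {k : ℕ | k + 1 = k0} from trivial))
    ((tap_pre _ hh hz).ms_FormP _ measurable_const) fun a ha => by
      have h1 : sk a + 1 = k0 := ha
      show sk a < k0
      omega

/-- the two bounds of the tracking lemma at one time -/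
def Bnd (r : Ref n n (St n)) (P : Proc n n (St n)) (X τ : ℝ) (j : ℕ) (l mm : ℝ) (a : St n)
    (x : Cfg n) (ω : ℕ → Vec n) : Prop :=
  (∀ v, P.δ a * qf (P.Q a) (r.Ph P τ j a x ω *ᵥ v) ≤ l * F.sq v) ∧
    P.δ a * qf (P.Q a) (r.W P X n τ j a x ω) ≤ mm

/-- bound of the tracking functional -/
noncomputable def bW (s κ M0 : ℝ) : ℝ := s⁻¹ ^ 4 * (M0 + (κ + 1))

/-- linear costs -/
noncomputable def lC (t : ℕ → ℝ) (s : ℝ) (k : ℕ) : ℝ := (t (k + 1) - t k) * s⁻¹ ^ 8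

/-- quadratic costs -/
noncomputable def mC (t : ℕ → ℝ) (B X0 : ℝ) (k0 k : ℕ) : ℝ :=
  (t (k + 1) - t k) * if k < k0 then 3 * (B ^ 2 + X0 + 1) else B ^ 2

theorem sk_tr (hG : Grid lam t dl) (q : (OG n × Cfg n) × (ℕ → Vec n)) (k : ℕ) :
    sk (trC hG q k) = k := by
  unfold Rec.trC
  rw [hG.traj_cap]
  rfl

theorem R_tr (hG : Grid lam t dl) (q : (OG n × Cfg n) × (ℕ → Vec n)) (k : ℕ) :
    (up n hG.steps).R (trC hG q k) = capP lam t q.1.1 k := by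
  unfold Rec.trC
  rw [hG.traj_cap]
  rfl

theorem Q_tr (hG : Grid lam t dl) (q : (OG n × Cfg n) × (ℕ → Vec n)) (k : ℕ) :
    (up n hG.steps).Q (trC hG q k) = capP lam t q.1.1 k := by
  unfold Rec.trC
  rw [hG.traj_cap]
  exact hG.Q_cap _ _ _

theorem δ_tr (hG : Grid lam t dl) (q : (OG n × Cfg n) × (ℕ → Vec n)) (k : ℕ) :
    (up n hG.steps).δ (trC hG q k) = t (k + 1) - t k := by
  show t (sk (trC hG q k) + 1) - t (sk (trC hG q k)) = _
  rw [sk_tr]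

theorem qf_flag {P : ℕ → Mat n} (hP : Flag P) (k : ℕ) (v : Vec n) :
    qf (P k) v = nv (P k *ᵥ v) ^ 2 := by
  rw [nv_sq, ← ipN_self, hP.ip_proj (hP.mem_proj k v), ipN_comm]
  rfl

theorem sch (hG : Grid lam t dl) (h : St n → Vec n) (z : St n → ℝ) (X s : ℝ) (k0 N : ℕ)
    (q : (OG n × Cfg n) × (ℕ → Vec n)) :
    (rM hG h z X s k0).Sch (up n hG.steps) (trC hG q) t (capP lam t q.1.1) k0 N where
  hδ k _ := δ_tr hG q k
  hQ k _ := Q_tr hG q k
  e0 k hk := Ref.can_mh _ _ _ _ _ _ (show sk (trC hG q k) < k0 by rw [sk_tr]; exact hk)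
  e1 k hk hc := hc.1 (show sk (trC hG q k) < k0 by rw [sk_tr]; exact hk)
  hl k := by
    show sk (trC hG q k) + 1 = k0 ↔ _
    rw [sk_tr]

theorem mh_tr (hG : Grid lam t dl) (h : St n → Vec n) (z : St n → ℝ) (X s : ℝ) {k0 k : ℕ}
    (hk : k0 ≤ k) (q : (OG n × Cfg n) × (ℕ → Vec n)) :
    (rM hG h z X s k0).mh (trC hG q k) = EC.tm (h (trC hG q k)) :=
  Ref.can_mh' _ _ _ _ _ _ (show ¬sk (trC hG q k) < k0 by rw [sk_tr]; omega)

/-- **pathwise bounds** -/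
theorem bnd_of : ∃ p : ℕ, 1 ≤ p ∧ ∀ (n : ℕ) (lam : Vec n) (t : ℕ → ℝ) (dl : ℝ) (hG : Grid lam t dl)
    (h : St n → Vec n) (z : St n → ℝ) (K₀ κ X0 M0 s τ : ℝ) (k0 N : ℕ)
    (q : (OG n × Cfg n) × (ℕ → Vec n)), MVec h → Measurable z → Lv t dl s k0 N → 2 ≤ K₀ →
    (n : ℝ) ≤ K₀ → (K₀ ^ p) ^ 8 * dl ≤ 1 →
    (K₀ ^ p * √dl + 8 * K₀ ^ p * Real.exp (n / 2 - (n : ℝ) ^ 2 / 8)) * √n ≤ 1 → 0 ≤ κ → 0 < τ →
    τ ≤ 1 → τ * √n ≤ 1 → PathG hG h z K₀ κ X0 k0 N q →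
    nv (mean (gM (sJ (trC hG q N)) (sy (trC hG q N))) - EC.tm (h (trC hG q N))) ≤ M0 →
    ∀ k, k < N → Bnd (rM hG h z (K₀ ^ p) s k0) (up n hG.steps) (K₀ ^ p) τ (N - k) (lC t s k)
      (mC t (bW s κ M0) X0 k0 k) (trC hG q k) q.1.2 (shS k q.2) := by
  obtain ⟨p1, H1⟩ := tap_bd
  obtain ⟨p2, H2⟩ := tap_stp
  refine ⟨p1 + p2 + 1, by omega, fun n lam t dl hG h z K₀ κ X0 M0 s τ k0 N q hh hz hL hK hn hd he
    hκ hτ hτ1 hτn hq hM => ?_⟩
  set X := K₀ ^ (p1 + p2 + 1) with hX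
  have K1 : 1 ≤ K₀ := by linarith
  have hKX : K₀ ≤ X := le_self_pow₀ K1 (by omega)
  have X1 : K₀ ^ p1 ≤ X := pow_le_pow_right₀ K1 (by omega)
  have X2 : K₀ ^ p2 ≤ X := pow_le_pow_right₀ K1 (by omega)
  have hO := rM_ok hG hh hz s k0 (hK.trans hKX) (hn.trans hKX) hd
  have hS := sch hG h z X s k0 N q
  have hP := flag_capP hG q.1.1
  set P := up n hG.steps with hPd
  set r := rM hG h z X s k0 with hr
  have s0 := hL.pos
  have ht : ∀ j, k0 ≤ j → s ≤ t j := fun j hj => hL.lo.trans (hG.mono hj)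
  have hRb : ∀ k i j, |P.R (trC hG q k) i j| ≤ K₀ := fun k i j => by
    rw [R_tr]; exact (abs_PC_le _ _ _ i j).trans K1
  have hδ : ∀ k, P.δ (trC hG q k) ≤ dl := fun k => by rw [δ_tr]; exact hG.le k
  have hok : ∀ k, k0 ≤ k → k < N → trC hG q k ∈ r.ok := fun k h1 h2 => by
    refine ⟨show ¬sk (trC hG q k) < k0 by rw [sk_tr]; omega,
      (H1 n n _ P h z K₀ dl _ (hq.st k h1 h2).loc hn (hRb k) (hδ k)).mono X1,
      Ref.mem_FormP (by rw [Q_tr]; exact hP.idem k) fun u hu => ?_⟩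
    rw [Q_tr] at hu
    have a1 := hq.frm k h1 h2 u hu
    have a2 := ht k h1
    have a3 := sqN_nonneg u
    show ip u (EC.Gm (sJ (trC hG q k)) (h (trC hG q k)) (z (trC hG q k)) *ᵥ u) ≤ 3 / s * F.sq u
    rcases le_total (ip u (EC.Gm (sJ (trC hG q k)) (h (trC hG q k)) (z (trC hG q k)) *ᵥ u)) 0
      with b | b
    · exact b.trans (by positivity)
    · rw [div_mul_eq_mul_div, le_div_iff₀ s0]
      nlinarith
  have hbd : ∀ k, k0 ≤ k → ∀ i, |r.mh (trC hG q k) i| ≤ 1 := fun k h1 i => by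
    rw [mh_tr hG h z X s h1]; exact abs_tm_le _ i
  have hX1 : 1 ≤ X := K1.trans hKX
  have hsrc : ∀ k, k0 ≤ k → k < N →
      nv (r.Sp P X n τ (capS lam t q.1.1 0 0) q.1.2 q.2 k) ≤ (κ + 1) * (t (k + 1) - t k) := by
    intro k h1 h2
    have e1 : P.nx (trC hG q k) q.1.2 (q.2 k) = trC hG q (k + 1) := (P.traj_succ _ _ _ _).symm
    have a0 := hG.step_pos k
    have a1 := H2 n n _ P h z K₀ (trC hG q k) q.1.2 (q.2 k) (h (trC hG q (k + 1)))
      (z (trC hG q (k + 1))) (by rw [e1, δ_tr]; exact hq.st k h1 h2)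
      ((mul_le_mul (pow_le_pow_left₀ (by linarith) hKX 8) (hδ k) (P.hδ _).le
        (by positivity)).trans hd) hn (hRb k) fun j => (hq.box k h1 h2 j).trans hn
    have a2 : r.Stp P (trC hG q k) q.1.2 (q.2 k) (EC.tm (h (trC hG q (k + 1))))
        (K₀ ^ p2 * (P.δ (trC hG q k) * √(P.δ (trC hG q k)))) :=
      a1.congr (mh_tr hG h z X s h1 q) rfl rfl rfl
    have a3 := hO.nv_src (Nat.cast_nonneg n) τ (hok k h1 h2) (hq.box k h1 h2)
      (fun i => (hbd k h1 i).trans hX1)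
      (fun i => by rw [e1]; exact (hbd (k + 1) (by omega) i).trans hX1) a2
    rw [e1, mh_tr hG h z X s (show k0 ≤ k + 1 by omega), sub_self, sub_zero, δ_tr,
      abs_of_nonneg (by positivity)] at a3
    have a4 : nv (r.ka (trC hG q k)) ≤ κ := by
      have := hq.ka k h1 h2
      rw [← Q_tr hG q k] at this
      exact this
    set δ := t (k + 1) - t k with hδd
    have a5 := nv_add_le (r.rem P X n τ (trC hG q k) q.1.2 (q.2 k) - δ • r.ka (trC hG q k))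
      (δ • r.ka (trC hG q k))
    rw [sub_add_cancel, nv_smul, abs_of_pos a0] at a5
    have a6 : K₀ ^ p2 * √δ ≤ X * √dl :=
      mul_le_mul X2 (Real.sqrt_le_sqrt (hG.le k)) (Real.sqrt_nonneg _) (by linarith)
    have a7 : (K₀ ^ p2 * (δ * √δ) + 8 * (δ * X) * Real.exp (n / 2 - (n : ℝ) ^ 2 / 8)) * √n
        ≤ δ * ((X * √dl + 8 * X * Real.exp (n / 2 - (n : ℝ) ^ 2 / 8)) * √n) := by
      rw [← mul_assoc δ]
      refine mul_le_mul_of_nonneg_right ?_ (Real.sqrt_nonneg _)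
      nlinarith
    have a8 := mul_le_mul_of_nonneg_left he a0.le
    have a9 := mul_le_mul_of_nonneg_left a4 a0.le
    show nv (r.rem P X n τ (trC hG q k) q.1.2 (q.2 k)) ≤ _
    linarith
  have hmesh : ∀ k, 12 * (t (k + 1) - t k) ≤ s := fun k => by linarith [hG.le k, hL.mesh]
  have hfrm : ∀ k, k0 ≤ k → k < N → ∀ u, capP lam t q.1.1 k *ᵥ u = u →
      t k * ip u (r.Gp P (capS lam t q.1.1 0 0) q.1.2 q.2 k *ᵥ u) ≤ 3 * F.sq u :=
    fun k h1 h2 u hu => by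
      change t k * ip u (r.Gt (trC hG q k) *ᵥ u) ≤ _
      rw [r.Gt_ok (hok k h1 h2)]
      exact hq.frm k h1 h2 u hu
  have hmono : ∀ k, t k ≤ t (k + 1) := fun k => (hG.lt k).le
  have hW : ∀ k, k0 ≤ k → k ≤ N → nv (capP lam t q.1.1 k *ᵥ
      r.Wp P X n τ N (capS lam t q.1.1 0 0) q.1.2 q.2 k) ≤ bW s κ M0 := fun k h1 h2 => by
    refine (num_W hP s0 hmono hL.lo hL.top (κ := κ + 1) (by linarith) hmesh
      (fun j b1 b2 => hO.rcW hτ.ne' n hS le_rfl b1 b2) hfrm hsrc h1 h2).trans ?_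
    refine mul_le_mul_of_nonneg_left (add_le_add (le_trans (le_of_eq ?_) hM) le_rfl)
      (by positivity)
    show nv (r.W P X n τ (N - N) (trC hG q N) q.1.2 (shS N q.2)) = _
    rw [Nat.sub_self]
    show nv (mean (gM (sJ (trC hG q N)) (sy (trC hG q N))) - r.mT X (trC hG q N)) = _
    rw [r.mT_eq fun i => (hbd N hL.le i).trans hX1, mh_tr hG h z X s hL.le]
  have hV : ∀ v k, k0 ≤ k → k ≤ N → nv (capP lam t q.1.1 k *ᵥ
      r.Vp P τ N (capS lam t q.1.1 0 0) q.1.2 q.2 v k) ≤ s⁻¹ ^ 4 * nv v := fun v k h1 h2 => by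
    refine (num_W hP s0 hmono hL.lo hL.top (κ := 0) (src := fun _ => 0) le_rfl hmesh
      (fun j b1 b2 => by rw [add_zero]; exact hO.rcV hτ.ne' hS le_rfl v b1 b2) hfrm
      (fun j _ _ => by rw [nv_zero, zero_mul]) h1 h2).trans (le_of_eq ?_)
    show s⁻¹ ^ 4 * (nv (r.Ph P τ (N - N) (trC hG q N) q.1.2 (shS N q.2) *ᵥ v) + 0) = _
    rw [Nat.sub_self, add_zero]
    show s⁻¹ ^ 4 * nv ((1 : Mat n) *ᵥ v) = _
    rw [Matrix.one_mulVec]
  have hV' : ∀ v k, k ≤ N → nv (capP lam t q.1.1 k *ᵥ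
      r.Vp P τ N (capS lam t q.1.1 0 0) q.1.2 q.2 v k) ≤ s⁻¹ ^ 4 * nv v := fun v k h2 => by
    rcases lt_or_ge k k0 with h1 | h1
    · rw [const_down (W := r.Vp P τ N (capS lam t q.1.1 0 0) q.1.2 q.2 v)
        (fun j hj => Ref.OK.e1V hS hL.le v hj) h1, Ref.OK.e2V hτ.ne' hS hL.le hL.k0p v]
      refine (flag_nv_le hP h1.le _).trans ?_
      rw [Matrix.mulVec_smul, nv_smul, abs_of_pos hτ]
      exact (mul_le_of_le_one_left (nv_nonneg _) hτ1).trans (hV v k0 le_rfl hL.le)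
    · exact hV v k h1 h2
  intro k hk
  have a0 := hG.step_pos k
  refine ⟨fun v => ?_, ?_⟩
  · rw [δ_tr, Q_tr, qf_flag hP, lC, mul_assoc]
    refine mul_le_mul_of_nonneg_left ?_ a0.le
    refine (pow_le_pow_left₀ (nv_nonneg _) (hV' v k hk.le) 2).trans (le_of_eq ?_)
    rw [mul_pow, nv_sq, ← pow_mul]
  · rw [δ_tr, Q_tr, qf_flag hP, mC]
    refine mul_le_mul_of_nonneg_left ?_ a0.le
    split_ifs with h1
    · have b0 := hW k0 le_rfl hL.le
      have b1 : r.W P X n τ (N - k) (trC hG q k) q.1.2 (shS k q.2)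
          = r.Wp P X n τ N (capS lam t q.1.1 0 0) q.1.2 q.2 k := rfl
      rw [b1, const_down (W := r.Wp P X n τ N (capS lam t q.1.1 0 0) q.1.2 q.2)
        (fun j hj => Ref.OK.e1W X n hS hL.le hj) h1, hO.e2W hτ.ne' n hS hL.le hL.k0p]
      refine (pow_le_pow_left₀ (nv_nonneg _) (flag_nv_le hP h1.le _) 2).trans ?_
      rw [Matrix.mulVec_add, Matrix.mulVec_add, Matrix.mulVec_smul, Matrix.mulVec_smul,
        Matrix.mulVec_smul]
      set a := capP lam t q.1.1 k0 *ᵥ r.Wp P X n τ N (capS lam t q.1.1 0 0) q.1.2 q.2 k0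
      set b := capP lam t q.1.1 k0 *ᵥ sv q.1.2 with hb
      set c := capP lam t q.1.1 k0 *ᵥ r.mT X (P.traj (capS lam t q.1.1 0 0) q.1.2 q.2 k0) with hc
      have c1 : nv c ≤ √n := by
        refine (hP.nv_le k0 _).trans (nv_le_sqrt_n fun i => ?_)
        rw [r.mT_eq fun i => (hbd k0 le_rfl i).trans hX1]
        exact hbd k0 le_rfl i
      have c2 := nv_add_le (τ • a + (1 - τ) • b) (τ • c)
      have c3 := nv_add_le (τ • a) ((1 - τ) • b)
      rw [nv_smul, abs_of_pos hτ] at c2 c3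
      rw [nv_smul, abs_of_nonneg (by linarith)] at c3
      have c4 : τ * nv a ≤ bW s κ M0 := (mul_le_of_le_one_left (nv_nonneg _) hτ1).trans b0
      have c5 : (1 - τ) * nv b ≤ nv b := mul_le_of_le_one_left (nv_nonneg _) (by linarith)
      have c6 : τ * nv c ≤ 1 := (mul_le_mul_of_nonneg_left c1 hτ.le).trans hτn
      have c7 : nv b ^ 2 ≤ X0 := by rw [nv_sq]; exact hq.hx
      have c8 : nv (τ • a + (1 - τ) • b + τ • c) ≤ bW s κ M0 + nv b + 1 := by linarith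
      refine (pow_le_pow_left₀ (nv_nonneg _) c8 2).trans ?_
      nlinarith [sq_nonneg (bW s κ M0 - nv b), sq_nonneg (bW s κ M0 - 1), sq_nonneg (nv b - 1)]
    · exact pow_le_pow_left₀ (nv_nonneg _) (hW k (by omega) hk.le) 2

theorem lC_nonneg (hG : Grid lam t dl) (s : ℝ) (k : ℕ) : 0 ≤ lC t s k :=
  mul_nonneg (hG.step_pos k).le (by positivity)

theorem mC_nonneg (hG : Grid lam t dl) (B : ℝ) {X0 : ℝ} (h : 0 ≤ X0) (k0 k : ℕ) :
    0 ≤ mC t B X0 k0 k :=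
  mul_nonneg (hG.step_pos k).le (by split_ifs <;> positivity)

theorem mC_le (hG : Grid lam t dl) (B : ℝ) {X0 : ℝ} (h : 0 ≤ X0) (k0 k : ℕ) :
    mC t B X0 k0 k ≤ dl * (3 * (B ^ 2 + X0 + 1)) :=
  mul_le_mul (hG.le k) (by split_ifs <;> nlinarith [sq_nonneg B]) (by split_ifs <;> positivity)
    hG.dl_pos.le

theorem sum_lC {s : ℝ} {k0 N : ℕ} (hL : Lv t dl s k0 N) : ∑ k ∈ Ico 0 N, lC t s k ≤ s⁻¹ ^ 8 := by
  unfold lC
  rw [← Finset.sum_mul, sum_Ico_tele t (Nat.zero_le N)]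
  exact mul_le_of_le_one_left (by positivity) hL.len

theorem sum_mC {s : ℝ} {k0 N : ℕ} (hL : Lv t dl s k0 N) (B : ℝ) {X0 : ℝ} (h : 0 ≤ X0) :
    ∑ k ∈ Ico 0 N, mC t B X0 k0 k ≤ 9 * s * (B ^ 2 + X0 + 1) + B ^ 2 := by
  rw [← Finset.sum_Ico_consecutive _ (Nat.zero_le k0) hL.le]
  have a1 : ∑ k ∈ Ico 0 k0, mC t B X0 k0 k = (t k0 - t 0) * (3 * (B ^ 2 + X0 + 1)) := by
    rw [← sum_Ico_tele t (Nat.zero_le k0), Finset.sum_mul]
    exact Finset.sum_congr rfl fun k hk => by rw [mC, if_pos (Finset.mem_Ico.1 hk).2]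
  have a2 : ∑ k ∈ Ico k0 N, mC t B X0 k0 k = (t N - t k0) * B ^ 2 := by
    rw [← sum_Ico_tele t hL.le, Finset.sum_mul]
    exact Finset.sum_congr rfl fun k hk => by
      rw [mC, if_neg (not_lt.2 (Finset.mem_Ico.1 hk).1)]
  have a3 := mul_le_mul_of_nonneg_right hL.early (show 0 ≤ 3 * (B ^ 2 + X0 + 1) by positivity)
  have a4 : (t N - t k0) * B ^ 2 ≤ B ^ 2 :=
    mul_le_of_le_one_left (sq_nonneg B) (by linarith [hL.top, hL.lo, hL.pos])
  rw [a1, a2]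
  linarith

/-- the crude constant of the tracking lemma -/
noncomputable def cB (n N : ℕ) (X s τ : ℝ) : ℝ :=
  1 * Real.exp (6 / s) ^ 2 * (1 + ((1 + X) * √n + N * Ref.rho n X n τ) ^ 2)

/-- the tracking hypotheses from the probability of the bad event -/
theorem track_of (hG : Grid lam t dl) {h : St n → Vec n} {z : St n → ℝ} (hh : MVec h)
    (hz : Measurable z) {X s τ p : ℝ} {k0 N : ℕ} (hL : Lv t dl s k0 N) (hn0 : 0 < n) (hX : 2 ≤ X)
    (hn : (n : ℝ) ≤ X) (hd : X ^ 8 * dl ≤ 1) (hτ : 0 < τ) (hτ1 : τ ≤ 1) {l mm : ℕ → ℝ}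
    (hl : ∀ k, 0 ≤ l k) (hm : ∀ k, 0 ≤ mm k) (O : OG n)
    (hp : PE (gM (JO lam O) 0) (fun x ω => ∃ k, k < N ∧ ¬Bnd (rM hG h z X s k0) (up n hG.steps)
      X τ (N - k) (l k) (mm k) (trC hG ((O, x), ω) k) x (shS k ω)) ≤ p) :
    Track (up n hG.steps) ((rM hG h z X s k0).A (up n hG.steps) τ) ((rM hG h z X s k0).mT X)
      ((rM hG h z X s k0).rem (up n hG.steps) X n τ) (LayS (capJ lam t O) (capP lam t O))
      (capS lam t O 0 0) 0 N 1 ((n : ℝ) ^ 2) dl (cB n N X s τ) l mm fun _ => p := by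
  have hO := rM_ok hG hh hz s k0 hX hn hd
  have hP := flag_capP hG O
  have s0 := hL.pos
  have n0 : (0 : ℝ) < n := by exact_mod_cast hn0
  have hc : ∀ j, (t (j + 1) - t j) * (3 / s) ≤ 1 / 2 := fun j => by
    rw [← mul_div_assoc, div_le_iff₀ s0]
    linarith [hG.le j, hL.mesh]
  have hc0 : ∀ j, 0 ≤ (t (j + 1) - t j) * (3 / s) := fun j =>
    mul_nonneg (hG.step_pos j).le (by positivity)
  have hQ : ∀ j y, (up n hG.steps).Q (stS (capJ lam t O) (capP lam t O) j y) = capP lam t O j :=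
    fun j y => hG.Q_cap O j y
  refine hO.track (Nat.cast_nonneg n) hτ hτ1 (fun k a w ha => (hG.sched O).lay hG.steps k a w ha)
    (T := (up n hG.steps).Q) (al := fun j => (1 - (t (j + 1) - t j) * (3 / s))⁻¹) (Nat.zero_le N)
    (fun j => (one_le_inv₀ (by linarith [hc j])).2 (by linarith [hc0 j])) ?_ ?_ ?_ zero_le_one ?_
    (stS_mem _ _ _ _) zero_le_one (by positivity) (le_of_eq (by ring)) ?_ ?_ hl hm ?_
  · rintro j - - a ⟨y, rfl⟩ w v
    rw [(hG.sched O).nxt hG.steps, hQ (j + 1)]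
    refine hO.step_proj hτ hτ1 (s := stS (capJ lam t O) (capP lam t O) j y) (c := 3 / s)
      (by rw [hQ]; exact hP.symm j) (by rw [hQ]; exact hP.idem j)
      (fun u => by rw [hQ]; exact hP.nv_le_succ j u)
      (by positivity) (show (t (j + 1) - t j) * (3 / s) < 1 by linarith [hc j])
      (fun ho u hu => Ref.FormP.le ho.2.2 u hu) v
  · rintro j a ⟨y, rfl⟩ v
    rw [hQ]
    exact hP.nv_le j v
  · refine (prod_inv_le (fun j _ => hc0 j) fun j _ => hc j).trans (Real.exp_le_exp.2 ?_)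
    rw [← Finset.sum_mul, sum_Ico_tele t (Nat.zero_le N)]
    have := mul_le_of_le_one_left (show 0 ≤ 3 / s by positivity) hL.len
    have e : 6 / s = 2 * (3 / s) := by ring
    linarith
  · rintro j - - a ⟨y, rfl⟩ v
    rw [hQ, qf_flag hP, one_mul]
  · have a1 : ((n : ℝ) ^ 2) ^ 2 ≤ X ^ 8 := by
      rw [← pow_mul]
      exact (pow_le_pow_left₀ n0.le hn 4).trans (pow_le_pow_right₀ (by linarith) (by norm_num))
    exact (mul_le_mul_of_nonneg_right a1 hG.dl_pos.le).trans hd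
  · rintro j - - a ⟨y, rfl⟩
    exact ⟨fun i l => abs_PC_le lam O _ i l, hG.le j⟩
  · intro k _ hk
    refine le_trans ?_ hp
    rw [show (up n hG.steps).law (stS (capJ lam t O) (capP lam t O) 0 0) = gM (JO lam O) 0 from
      hG.law_cap O]
    exact PE_mono (fun x => (gM_pos _ _ x).le) fun x ω hb => ⟨k, hk, hb⟩

/-! ### measurability -/

theorem meas_trC (hG : Grid lam t dl) (k : ℕ) : Measurable fun q => trC hG q k := by
  have e : (fun q => trC hG q k) = fun q : (OG n × Cfg n) × (ℕ → Vec n) => capS lam t q.1.1 k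
      (q.1.1.1ᵀ *ᵥ yF lam t (xt q.1.1 q.1.2) (rotN q.1.1 q.2) k) :=
    funext fun q => hG.traj_cap _ _ _ _
  have hO : Measurable fun q : (OG n × Cfg n) × (ℕ → Vec n) => q.1.1 :=
    measurable_fst.comp measurable_fst
  have h1 := measurable_rotN2.comp (hO.prodMk measurable_snd)
  have h2 := measurable_yF lam t (u := fun q : (OG n × Cfg n) × (ℕ → Vec n) => xt q.1.1 q.1.2)
    (ω := fun q => rotN q.1.1 q.2) (measurable_xt.comp measurable_fst) h1 k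
  rw [e]
  exact meas_capS lam t k hO ((Fib.MM.val hO).transpose.mulVec h2)

theorem ms_Bnd {r : Ref n n (St n)} {P : Proc n n (St n)} {X d τ : ℝ} (hr : r.OK P X d)
    (hτ : 0 < τ) (hτ1 : τ ≤ 1) (j : ℕ) (l mm : ℝ) (x : Cfg n) :
    MeasurableSet {p : St n × (ℕ → Vec n) | Bnd r P X τ j l mm p.1 x p.2} := by
  refine MeasurableSet.inter (ms_all (f := fun (p : St n × (ℕ → Vec n)) v =>
    P.δ p.1 * qf (P.Q p.1) (r.Ph P τ j p.1 x p.2 *ᵥ v)) (g := fun _ v => l * F.sq v)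
    (fun v => meas_dqf P ?_) (fun _ => measurable_const) (fun p => ?_)
    fun _ => continuous_const.mul (cont_sq continuous_id))
    (measurableSet_le (meas_dqf P fun i => (hr.bm_W (Nat.cast_nonneg n) hτ hτ1 j x i).1)
      measurable_const)
  · exact MMat.mulVec (fun a b => (hr.bm_Ph hτ hτ1 j x a b).1) (MVec.const v)
  · exact continuous_const.mul (cont_ip (cont_mv _ continuous_id)
      (cont_mv _ (cont_mv _ continuous_id)))

theorem ms_BndQ (hG : Grid lam t dl) {r : Ref n n (St n)} {X d τ : ℝ}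
    (hr : r.OK (up n hG.steps) X d) (hτ : 0 < τ) (hτ1 : τ ≤ 1) (j k : ℕ) (l mm : ℝ) :
    MeasurableSet {q : (OG n × Cfg n) × (ℕ → Vec n) |
      Bnd r (up n hG.steps) X τ j l mm (trC hG q k) q.1.2 (shS k q.2)} := by
  have h0 : Measurable fun p : (St n × (ℕ → Vec n)) × Cfg n =>
      Bnd r (up n hG.steps) X τ j l mm p.1.1 p.2 p.1.2 :=
    measurable_from_prod_countable_left fun x =>
      measurableSet_setOfPred.1 (ms_Bnd hr hτ hτ1 j l mm x)
  have h1 := ((meas_trC hG k).prodMk ((measurable_shS k).comp measurable_snd)).prodMk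
    (measurable_snd.comp (measurable_fst (α := OG n × Cfg n) (β := ℕ → Vec n)))
  have h2 := h0.comp h1
  exact measurableSet_setOfPred.2 h2

end Vale.Agent.N150.M0
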