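import Vale.Agent.N150.TapQ2
import Vale.Agent.N150.AsmT

set_option linter.all false

/-! P150: the mean field tier of the cap flow under the planted law. -/

open Matrix MeasureTheory Filter Topology

namespace Vale.Agent.N150.TapQ

open Vale.Agent.P150 Vale.Agent.P150.F Vale.Agent.P150.F.Ms Vale.Agent.N150.EC
open Vale.Agent.N150.T1 Vale.Agent.N150.Cap Vale.Agent.N150.Sp Vale.Agent.N150.Plant

variable {n : ℕ} {lam : Vec n} {t : ℕ → ℝ} {dl : ℝ}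

/-- the facts at the index `k` of the cap flow with frame field `Y` -/
def At (hs : M0.HS) (lam : Vec n) (t : ℕ → ℝ) (K₀ η e K : ℝ) (N : ℕ) (Y : ℕ → Vec n) (O : OG n)
    (k : ℕ) : Prop :=
  One hs K₀ η e K (t k) (t (k + 1) - t k) (k < N) (JC lam O (t k)) (JC lam O (t (k + 1)))
    (PC lam O (t k)) (O.1ᵀ *ᵥ Y k) (O.1ᵀ *ᵥ Y (k + 1))

theorem tapPath_of (hG : Grid lam t dl) {hs : M0.HS} {K₀ η e K : ℝ} {c N : ℕ} (hc : c ≤ N)
    {q : (OG n × Cfg n) × (ℕ → Vec n)} (h : ∀ k, c ≤ k → k ≤ N →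
      At hs lam t K₀ η e K N (yF lam t (xt q.1.1 q.1.2) (rotN q.1.1 q.2)) q.1.1 k) :
    Asm.TapPath hG (fun s => hs n (sJ s) (sy s)) (fun s => zh (sJ s) (hs n (sJ s) (sy s)))
      (fun J y => tm (hs n J y)) K₀ η e K c N q := by
  have e : ∀ k, Rec.trC hG q k = capS lam t q.1.1 k
      (q.1.1.1ᵀ *ᵥ yF lam t (xt q.1.1 q.1.2) (rotN q.1.1 q.2) k) := fun k => hG.traj_cap _ _ _ k
  refine ⟨fun k h1 h2 => ?_, fun k h1 h2 => ?_, fun k h1 h2 => ?_, ?_, ?_⟩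
  · rw [e, e]; exact (h k h1 h2.le).st h2
  · rw [e]; exact (h k h1 h2.le).t1
  · rw [e]; exact (h k h1 h2.le).ka
  · rw [e]; exact (h c le_rfl hc).jump
  · rw [sub_self, nv_zero]; exact zero_le_one

theorem ms_At {hs : M0.HS} (hm : M0.MeasM hs) (hn : 0 < n) (K₀ η e K : ℝ) (c N : ℕ) :
    MeasurableSet {p : (Vec n × (ℕ → Vec n)) × OG n | ¬∀ k, c ≤ k → k ≤ N →
      At hs lam t K₀ η e K N (yF lam t p.1.1 p.1.2) p.2 k} := by
  refine MeasurableSet.compl (s := {p : (Vec n × (ℕ → Vec n)) × OG n | ∀ k, c ≤ k → k ≤ N →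
      At hs lam t K₀ η e K N (yF lam t p.1.1 p.1.2) p.2 k}) ?_
  simp only [Set.setOf_forall]
  refine MeasurableSet.iInter fun k => MeasurableSet.iInter fun _ =>
    MeasurableSet.iInter fun _ => ?_
  have hJ : ∀ u : Vec n, MMat fun p : (Vec n × (ℕ → Vec n)) × OG n => JO u p.2 :=
    fun u i j => (Cap.mm_JO u i j).comp measurable_snd
  have hy : ∀ k, MVec fun p : (Vec n × (ℕ → Vec n)) × OG n =>
      p.2.1ᵀ *ᵥ yF lam t p.1.1 p.1.2 k := fun k => mvec_of (measurable_tr_mulVec measurable_snd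
    (Rec.measurable_yF lam t (measurable_fst.comp measurable_fst)
      (measurable_snd.comp measurable_fst) k))
  exact ms_One hm hn _ _ _ _ _ _ _ (hJ _) (hJ _) (hJ _) (fun p => PC_mul_self lam p.2 _) (hy k)
    (hy (k + 1))

theorem y_succ (O : OG n) {x u : Vec n} (hx : O.1 *ᵥ x = u) (ω : ℕ → Vec n) (k : ℕ) :
    O.1ᵀ *ᵥ yF lam t u ω (k + 1) = O.1ᵀ *ᵥ yF lam t u ω k
      + (t (k + 1) - t k) • ((PC lam O (t k) * (PC lam O (t k))ᵀ) *ᵥ x)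
      + √(t (k + 1) - t k) • (PC lam O (t k) *ᵥ (O.1ᵀ *ᵥ ω k)) := by
  rw [PC_mul_tr]
  unfold PC
  rw [Cap.JO_mulVec, Cap.JO_mulVec, hx, OG.mulVec_tr_mulVec, ← Matrix.mulVec_smul,
    ← Matrix.mulVec_smul, ← Matrix.mulVec_add, ← Matrix.mulVec_add]
  congr 1
  funext a
  simp only [yF, Pi.add_apply, Pi.smul_apply, smul_eq_mul]
  ring

/-- the deterministic facts at the unit `τ` -/
structure Det (hs : M0.HS) (a : ℕ) (τ : ℝ) : Prop where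
  out : ∀ (n : ℕ) (S : Dat n) (O : OG n), Adm 1000 τ S → Good τ S O → Out τ S O
  near : ∀ (n : ℕ) (S : Dat n) (O : OG n), Adm 1000 τ S → Good τ S O →
    Ball τ (S.J O) (S.y O) (hs n (S.J O) (S.y O))
  det : ∀ (n : ℕ) (S S' : Dat n) (O O' : OG n) (R : Mat n) (x ξ : Vec n) (δ : ℝ),
    Adm 1000 τ S → Good τ S O → Adm 1000 τ S' → Good τ S' O' → Rᵀ = R → OpLe R 1 →
    (∀ i, |x i| ≤ 1) → nv ξ ≤ n → 0 < δ → ((n : ℝ) ^ a) ^ 8 * δ ≤ 1 →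
    S'.J O' = S.J O - δ • (R * Rᵀ) → S'.y O' = S.y O + δ • ((R * Rᵀ) *ᵥ x) + √δ • (R *ᵥ ξ) →
    TapSt ((n : ℝ) ^ a) δ (S.J O) (S.y O) (hs n (S.J O) (S.y O))
      (zh (S.J O) (hs n (S.J O) (S.y O))) (S'.J O') (S'.y O') (hs n (S'.J O') (S'.y O'))
      (zh (S'.J O') (hs n (S'.J O') (S'.y O')))

theorem dat_J (s z : ℝ) (y : Vec n) (O : OG n) :
    (Adm.dat s z (lamC lam s) y).J O = JC lam O s := rfl

theorem dat_y (s z : ℝ) (mu y : Vec n) (O : OG n) : (Adm.dat s z mu y).y O = O.1ᵀ *ᵥ y := rfl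

theorem at_of (hG : Grid lam t dl) {hs : M0.HS} {a : ℕ} {τ : ℝ} (D : Det hs a τ) {w : ℝ} {k N : ℕ}
    (H : Adm.Std n w (t k) lam) (h0 : 0 < τ) (h1 : τ ≤ 1 / 2) (hτ : τ ^ 288000 = t k)
    {K₀ η e K θ z z' : ℝ} (hK : (n : ℝ) ^ a ≤ K₀) (hd : K₀ ^ 8 * dl ≤ 1) (hθ : 0 ≤ θ)
    (hE : θ + √(t k) + 20 * Edge.kap w ≤ 1 / 20)
    (hη : 8 * (θ + √(t k) + 20 * Edge.kap w) + 2 * τ ^ 3000 ≤ η) {x u : Vec n} {ω : ℕ → Vec n}
    (hx : ∀ i, |x i| ≤ 1) (hz : 2 - t k / 2 ≤ z)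
    (hR : |F.sq (yF lam t u ω k) - 2 * Edge.c0 * (t k * (n * (t k * √(t k))))|
      ≤ θ * (t k * (n * (t k * √(t k)))))
    (A : Adm 1000 τ (Adm.dat (t k) z (lamC lam (t k)) (yF lam t u ω k)))
    (A' : k < N → Adm 1000 τ (Adm.dat (t (k + 1)) z' (lamC lam (t (k + 1))) (yF lam t u ω (k + 1)))
      ∧ nv (ω k) ≤ n) {O : OG n} (hO : O.1 *ᵥ x = u)
    (G : Good τ (Adm.dat (t k) z (lamC lam (t k)) (yF lam t u ω k)) O)
    (G' : k < N → Good τ (Adm.dat (t (k + 1)) z' (lamC lam (t (k + 1))) (yF lam t u ω (k + 1))) O)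
    (T : ¬t k ^ e * √K < t k * √(t k) * nv (PC lam O (t k) *ᵥ ka (JC lam O (t k))
      (hs n (JC lam O (t k)) (O.1ᵀ *ᵥ yF lam t u ω k))
      (zh (JC lam O (t k)) (hs n (JC lam O (t k)) (O.1ᵀ *ᵥ yF lam t u ω k))) (PC lam O (t k)))) :
    At hs lam t K₀ η e K N (yF lam t u ω) O k := by
  have hO1 := D.out n _ O A G
  have hb := D.near n _ O A G
  have hr := hO1.reg _ hb
  simp only [dat_J, dat_y] at hb hr
  refine ⟨fun hk => ?_, fun v v' hv hv' => ?_, not_lt.1 T,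
    jump_sq H.hn h0 h1 (Rad.JO_symm _ _) hr hτ⟩
  · have p0 : (0 : ℝ) ≤ (n : ℝ) ^ a := by positivity
    have h2 : ((n : ℝ) ^ a) ^ 8 * (t (k + 1) - t k) ≤ 1 :=
      (mul_le_mul (pow_le_pow_left₀ p0 hK 8) (hG.le k) (hG.step_pos k).le
        (pow_nonneg (p0.trans hK) 8)).trans hd
    have h3 : OpLe (PC lam O (t k)) 1 := T1.opLe_JO (fun a => by
      rw [abs_of_nonneg (dI_nonneg _ _ a)]; exact dI_le_one _ _ a) O
    have h4 : nv (O.1ᵀ *ᵥ ω k) ≤ n := by rw [T1.nv_tr]; exact (A' hk).2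
    have h5 := D.det n _ _ O O (PC lam O (t k)) x (O.1ᵀ *ᵥ ω k) _ A G (A' hk).1 (G' hk)
      (PC_transpose _ _ _) h3 hx h4 (hG.step_pos k) h2
    simp only [dat_J, dat_y] at h5
    exact TapSt.mono' (h5 (by rw [PC_mul_tr]; exact hG.JC_succ O k) (y_succ O hO ω k)) hK
  · refine (gm_sharp H h0 hz hO1 hb (hG.dI_mul_yF u ω k) hθ hE hR hv hv').trans ?_
    exact mul_le_mul_of_nonneg_right (mul_le_mul_of_nonneg_right hη (nv_nonneg _)) (nv_nonneg _)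

theorem ev_Ioo {p : ℝ → Prop} (h : ∀ᶠ t in 𝓝[>] (0 : ℝ), p t) :
    ∃ u, 0 < u ∧ ∀ τ, 0 < τ → τ ≤ u → p τ := by
  obtain ⟨u, hu, h1⟩ := (nhdsGT_basis (0 : ℝ)).eventually_iff.1 h
  exact ⟨u / 2, by linarith, fun τ a b => h1 ⟨a, by linarith⟩⟩

theorem rate_le {K s A : ℝ} (hn : 0 < n) (hK : 0 ≤ K) (hA : 0 ≤ A) (hs0 : 0 < s) (hs1 : s ≤ 1)
    (h : (K / n) ^ (51 / 100 : ℝ) ≤ s) (h2 : A ^ 4 * s ≤ 1) : A * K ≤ n * (s * √s) := by
  have hn' : (0 : ℝ) < n := by exact_mod_cast hn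
  have h1 : K / n ≤ s ^ (100 / 51 : ℝ) := by
    have := Real.rpow_le_rpow (by positivity) h (by norm_num : (0 : ℝ) ≤ 100 / 51)
    rwa [← Real.rpow_mul (by positivity), show (51 / 100 : ℝ) * (100 / 51) = 1 by norm_num,
      Real.rpow_one] at this
  have h3 : s ^ (100 / 51 : ℝ) ≤ s ^ (7 / 4 : ℝ) :=
    Real.rpow_le_rpow_of_exponent_ge hs0 hs1 (by norm_num)
  have h4 : s ^ (7 / 4 : ℝ) = s * √s * s ^ (1 / 4 : ℝ) := by
    rw [Real.sqrt_eq_rpow, show (7 / 4 : ℝ) = 1 + 1 / 2 + 1 / 4 by norm_num, Real.rpow_add hs0,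
      Real.rpow_add hs0, Real.rpow_one]
  have h5 : A * s ^ (1 / 4 : ℝ) ≤ 1 := by
    refine (pow_le_one_iff_of_nonneg (by positivity) (by norm_num : (4 : ℕ) ≠ 0)).1 ?_
    rw [mul_pow, ← Real.rpow_natCast (s ^ (1 / 4 : ℝ)), ← Real.rpow_mul hs0.le]
    norm_num
    exact h2
  rw [div_le_iff₀ hn'] at h1
  have h6 : 0 ≤ n * (s * √s) := by positivity
  calc A * K ≤ A * (s * √s * s ^ (1 / 4 : ℝ) * n) :=
        mul_le_mul_of_nonneg_left (h1.trans (mul_le_mul_of_nonneg_right (h3.trans h4.le) hn'.le)) hA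
    _ = A * s ^ (1 / 4 : ℝ) * (n * (s * √s)) := by ring
    _ ≤ 1 * (n * (s * √s)) := mul_le_mul_of_nonneg_right h5 h6
    _ = _ := one_mul _

theorem unit_rate {s τ : ℝ} (h0 : 0 < τ) (h1 : τ ≤ 1) (hτ : τ ^ 288000 = s) :
    n * (s * √s) ≤ n * τ ^ 431998 := by
  refine mul_le_mul_of_nonneg_left ?_ (Nat.cast_nonneg n)
  rw [← hτ, Adm.sqrt_pow_even h0 144000, ← pow_add]
  exact pow_le_pow_of_le_one h0.le h1 (by norm_num)

theorem exists_unit {s u : ℝ} (hs : 0 < s) (hu : 0 < u) (h : s ≤ u ^ 288000) :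
    ∃ τ, 0 < τ ∧ τ ≤ u ∧ τ ^ 288000 = s := by
  have e : (s ^ (288000 : ℝ)⁻¹) ^ 288000 = s := by
    have := Real.rpow_inv_natCast_pow hs.le (n := 288000) (by norm_num)
    simpa using this
  refine ⟨s ^ (288000 : ℝ)⁻¹, Real.rpow_pos_of_pos hs _, ?_, e⟩
  rw [← e] at h
  exact le_of_pow_le_pow_left₀ (by norm_num) hu.le h

theorem real_or3 {Ω : Type*} [MeasurableSpace Ω] (μ : Measure Ω) [IsFiniteMeasure μ]
    {p a b c d : Ω → Prop} (h0 : ∀ᵐ x ∂μ, d x) (h : ∀ x, d x → ¬a x → ¬b x → ¬c x → p x) :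
    μ.real {x | ¬p x} ≤ μ.real {x | a x} + μ.real {x | b x} + μ.real {x | c x} := by
  have h1 : {x | ¬p x} ≤ᵐ[μ] ({x | a x} ∪ {x | b x} ∪ {x | c x} : Set Ω) := by
    filter_upwards [h0] with x hx hp
    by_contra hc
    exact hp (h x hx (fun h => hc (Or.inl (Or.inl h))) (fun h => hc (Or.inl (Or.inr h)))
      fun h => hc (Or.inr h))
  exact (ENNReal.toReal_mono (measure_ne_top _ _) (measure_mono_ae h1)).trans
    ((measureReal_union_le _ _).trans (add_le_add (measureReal_union_le _ _) le_rfl))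

/-- the probabilistic facts at the unit `τ` -/
def T1At (C : ℕ) (τ : ℝ) : Prop := ∀ (n : ℕ) (S : Dat n) (x xt : Vec n) (μ : Measure (OG n)),
  Adm 1000 τ S → AdmX 1000 τ S xt → FibL μ x xt →
    μ.real {O | ¬Good τ S O} ≤ (n : ℝ) ^ C * Real.exp (-(n * τ ^ 431998))

/-- the statement `T2Q` at one size, one spectrum and one level -/
def T2At (hp : M0.HS) (C : ℕ) (e t₀ : ℝ) (lam : Vec n) (K : ℝ) : Prop :=
  ∀ (yt x xt : Vec n) (s t z0 : ℝ) (μ : Measure (OG n)),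
    Adm.Std n (Asm.wn n) s lam → 0 < t → t ≤ t₀ → t ^ 288000 = s →
    (K / n) ^ (51 / 100 : ℝ) ≤ s → (∀ a, dI lam s a * yt a = yt a) →
    Adm.Raw 8 s (lamC lam s) yt xt z0 → Adm 1000 t (Adm.dat s z0 (lamC lam s) yt) →
    AdmX 1000 t (Adm.dat s z0 (lamC lam s) yt) xt → FibL μ x xt →
    μ.real {O | Good t (Adm.dat s z0 (lamC lam s) yt) O ∧ s ^ e * √K < s * √s *
      nv (PC lam O s *ᵥ ka (JC lam O s) (hp n (JC lam O s) (O.1ᵀ *ᵥ yt))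
        (zh (JC lam O s) (hp n (JC lam O s) (O.1ᵀ *ᵥ yt))) (PC lam O s))} ≤
      (n : ℝ) ^ C * Real.exp (-(5 * K))

/-- numerical facts on the index range -/
structure Num (lam : Vec n) (t : ℕ → ℝ) (dl ε v K : ℝ) (c N : ℕ) : Prop where
  K1 : 1 ≤ K
  Kn : K ≤ n
  pos : 0 < t c
  s30 : 30 * Edge.sc0 n (Asm.wn n) ≤ ε * t c
  std : ∀ k, c ≤ k → k ≤ N → Adm.Std n (Asm.wn n) (t k) lam
  rate : 5 * K ≤ ε ^ 2 * Path.uu n (t c)
  rate' : ∀ k, c ≤ k → 5 * K ≤ n * (t k * √(t k))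
  dlc : dl ≤ t c
  tv : t N ≤ v ^ 288000
  tε : t N ≤ ε ^ 2

theorem num_of (hG : Grid lam t dl) {ε v T K : ℝ} {c N p : ℕ} (ε0 : 0 < ε) (ε1 : ε ≤ 1 / 1000)
    (T1 : T ≤ v ^ 288000) (T2 : T ≤ ε ^ 2) (T3 : (5 / ε ^ 2) ^ 4 * T ≤ 1) (hn : 40000 ≤ n)
    (hw1 : 1 ≤ Asm.wn n) (hw : Edge.kap (Asm.wn n) ≤ ε / 20)
    (hsc : Edge.sc0 n (Asm.wn n) ≤ ε / 30 * (K / n) ^ (2 / 3 : ℝ)) (hR : Edge.Rigid (Asm.wn n) lam)
    (hp : 1 ≤ p) (hdl : ((n : ℝ) ^ p) ^ 8 * dl ≤ 1) (hlog : Real.log n ≤ K)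
    (hc : (K / n) ^ (51 / 100 : ℝ) ≤ t c) (hcN : c ≤ N) (hN : t N ≤ T) :
    Num lam t dl ε v K c N := by
  have tv := hN.trans T1
  clear T1
  have n0 : 0 < n := by omega
  have n1 : (40000 : ℝ) ≤ n := by exact_mod_cast hn
  have K1 : 1 ≤ K := by
    refine le_trans ?_ hlog
    rw [Real.le_log_iff_exp_le (by linarith only [n1])]
    linarith only [Real.exp_one_lt_d9, n1]
  have εε : ε ^ 2 ≤ ε := by nlinarith only [ε0, ε1]
  have x0 : 0 < K / n := by positivity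
  have tc0 : 0 < t c := (Real.rpow_pos_of_pos x0 _).trans_le hc
  have tcN : ∀ k, c ≤ k → k ≤ N → t c ≤ t k ∧ t k ≤ T := fun k a b =>
    ⟨hG.mono a, (hG.mono b).trans hN⟩
  have tc1 : t c ≤ 1 := by linarith only [(tcN c le_rfl hcN).2, T2, εε, ε1]
  have x1 : K / n ≤ 1 := by
    by_contra hcon
    have := Real.one_lt_rpow (not_le.1 hcon) (by norm_num : (0 : ℝ) < 51 / 100)
    linarith only [this, hc, tc1]
  have Kn : K ≤ n := by rwa [div_le_one (by linarith only [n1])] at x1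
  have w0 : 0 < Asm.wn n := by linarith only [hw1]
  have s30 : 30 * Edge.sc0 n (Asm.wn n) ≤ ε * t c := by
    have a2 : (K / n) ^ (2 / 3 : ℝ) ≤ t c :=
      (Real.rpow_le_rpow_of_exponent_ge x0 x1 (by norm_num)).trans hc
    have a3 := mul_le_mul_of_nonneg_left a2 ε0.le
    linarith only [a3, hsc]
  have s0 := Edge.sc0_pos n0 w0
  have s1 : Edge.sc0 n (Asm.wn n) ≤ t c := by
    have := mul_le_mul_of_nonneg_right ε1 tc0.le
    linarith only [this, s30, s0, tc0]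
  have rate : 5 * K ≤ ε ^ 2 * Path.uu n (t c) := by
    have a1 := rate_le n0 (by linarith only [K1]) (by positivity : 0 ≤ 5 / ε ^ 2) tc0 tc1 hc
      ((mul_le_mul_of_nonneg_left (tcN c le_rfl hcN).2 (by positivity)).trans T3)
    rw [div_mul_eq_mul_div, div_le_iff₀ (by positivity)] at a1
    unfold Path.uu
    linarith only [a1]
  refine ⟨K1, Kn, tc0, s30, fun k a b => ⟨hR, n0, w0, by linarith only [hw, ε1, ε0],
    s1.trans (tcN k a b).1, by linarith only [(tcN k a b).2, T2, εε, ε1]⟩, rate, fun k a => ?_, ?_,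
    tv, hN.trans T2⟩
  · have a1 := Path.uu_mono n tc0.le (hG.mono a)
    have a2 : 0 ≤ Path.uu n (t c) := by unfold Path.uu; positivity
    have a3 := mul_le_mul_of_nonneg_right (by linarith only [εε, ε1] : ε ^ 2 ≤ 1) a2
    unfold Path.uu at a1 a2 a3 rate
    linarith only [a1, a3, rate]
  · have a1 : (n : ℝ) ≤ ((n : ℝ) ^ p) ^ 8 := by
      rw [← pow_mul]
      exact (pow_one _).ge.trans (pow_le_pow_right₀ (by linarith only [n1]) (by omega))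
    have a2 := mul_le_mul_of_nonneg_right a1 hG.dl_pos.le
    have a3 : dl ≤ K / n := by
      rw [le_div_iff₀ (by linarith only [n1])]; linarith only [a2, hdl, K1]
    have a4 := Real.rpow_le_rpow_of_exponent_ge x0 x1 (by norm_num : (51 / 100 : ℝ) ≤ 1)
    rw [Real.rpow_one] at a4
    linarith only [a3, a4, hc]

theorem fib_one (hG : Grid lam t dl) {hs : M0.HS} {a C1 C2 c N k : ℕ} {ε v t₀ η e K K₀ : ℝ}
    (hu : ∀ τ, 0 < τ → τ ≤ v → T1At C1 τ ∧ Det hs a τ) (h2 : T2At hs C2 e t₀ lam K)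
    (H : Num lam t dl ε v K c N) (ε0 : 0 < ε) (ε1 : ε ≤ 1 / 1000) (εη : ε ≤ η / 1000) (v0 : 0 < v)
    (v2 : v ≤ t₀) (v3 : v ≤ ε) (hn : 40000 ≤ n) (hw : Edge.kap (Asm.wn n) ≤ ε / 20)
    (hK : (n : ℝ) ^ a ≤ K₀) (hdl : K₀ ^ 8 * dl ≤ 1) (hc : (K / n) ^ (51 / 100 : ℝ) ≤ t c)
    {x u : Vec n} {ω : ℕ → Vec n} {μ : Measure (OG n)} (fl : FibL μ x u)
    (hcg : Path.CapGood lam ε t c N u (yF lam t u ω))
    (hno : ¬∃ k ∈ Finset.range N, 2 * n + 4 * (5 * K) ≤ F.sq (ω k)) (kc : c ≤ k) (kN : k ≤ N) :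
    μ.real {O | ¬At hs lam t K₀ η e K N (yF lam t u ω) O k} ≤
      ((n : ℝ) ^ C1 + (n : ℝ) ^ C1 + (n : ℝ) ^ C2) * Real.exp (-(5 * K)) := by
  have := fl.prob
  have n1 : (40000 : ℝ) ≤ n := by exact_mod_cast hn
  have tk1 : t c ≤ t k := hG.mono kc
  have tk2 : t k ≤ t N := hG.mono kN
  have tk0 : 0 < t k := H.pos.trans_le tk1
  have sk : √(t k) ≤ ε := by
    rw [Real.sqrt_le_left ε0.le]; exact tk2.trans H.tε
  have i1 : t k ≤ 2 * t k := by linarith only [tk0]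
  have i2 : t k ≤ 2 * t (k + 1) := by linarith only [tk0, hG.lt k]
  have i3 : t (k + 1) ≤ 2 * t k := by linarith only [hG.le k, tk1, H.dlc]
  have i4 : 1 ≤ 5 * K := by linarith only [H.K1]
  have i5 : 21 * ε + √(t k) + 20 * Edge.kap (Asm.wn n) ≤ 1 / 20 := by
    linarith only [sk, hw, ε1]
  have i6 : 8 * (21 * ε + √(t k) + 20 * Edge.kap (Asm.wn n)) + 2 * ε ≤ η := by
    linarith only [sk, hw, εη, ε0]
  have i7 : k < N → nv (ω k) ≤ n := fun kl => by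
    refine nv_le_of_sq_le (Nat.cast_nonneg n) ?_
    have a1 : F.sq (ω k) < 2 * n + 4 * (5 * K) :=
      not_le.1 fun h => hno ⟨k, Finset.mem_range.2 kl, h⟩
    have a2 := mul_le_mul_of_nonneg_right n1 (Nat.cast_nonneg (α := ℝ) n)
    linarith only [a1, a2, H.Kn, n1]
  have i8 : ∀ i, |x i| ≤ 1 := fun i => by rcases fl.sgn i with h | h <;> rw [h] <;> norm_num
  have p1 : (0 : ℝ) ≤ (n : ℝ) ^ C1 := pow_nonneg (Nat.cast_nonneg n) _
  obtain ⟨τ, τ0, τv, hτ⟩ := exists_unit tk0 v0 (tk2.trans H.tv)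
  have τh : τ ≤ 1 / 2 := by linarith only [τv, v3, ε1]
  have τ1 : τ ≤ 1 := by linarith only [τh]
  obtain ⟨g1, D⟩ := hu τ τ0 τv
  have r1 := (H.rate' k kc).trans (unit_rate τ0 τ1 hτ)
  have ex := Real.exp_le_exp.2 (neg_le_neg r1)
  have big := i4.trans r1
  obtain ⟨z, zr, zA, zX⟩ := Adm.adm_cap hcg ε1 kc kN (H.std k kc kN)
    ⟨τ0, τh, hτ.le.trans i1, i1.trans (by rw [hτ]), big⟩ (le_refl 1000)
  obtain ⟨z', hz'⟩ : ∃ z', k < N →
      Adm 1000 τ (Adm.dat (t (k + 1)) z' (lamC lam (t (k + 1))) (yF lam t u ω (k + 1))) ∧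
      AdmX 1000 τ (Adm.dat (t (k + 1)) z' (lamC lam (t (k + 1))) (yF lam t u ω (k + 1))) u := by
    by_cases kl : k < N
    · obtain ⟨z', -, b, b'⟩ := Adm.adm_cap hcg ε1 (by omega : c ≤ k + 1) kl
        (H.std (k + 1) (by omega) kl)
        ⟨τ0, τh, hτ.le.trans i2, i3.trans (by rw [hτ]), big⟩ (le_refl 1000)
      exact ⟨z', fun _ => ⟨b, b'⟩⟩
    · exact ⟨0, fun h => absurd h kl⟩
  have τ3 : τ ^ 3000 ≤ ε := (pow_le_of_le_one τ0.le τ1 (by norm_num)).trans (τv.trans v3)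
  have f1 := (g1 n _ _ _ _ zA zX fl).trans (mul_le_mul_of_nonneg_left ex p1)
  have f2 : μ.real {O | k < N ∧ ¬Good τ (Adm.dat (t (k + 1)) z'
      (lamC lam (t (k + 1))) (yF lam t u ω (k + 1))) O} ≤ (n : ℝ) ^ C1 * Real.exp (-(5 * K)) := by
    by_cases kl : k < N
    · exact (measureReal_mono fun O h => h.2).trans
        ((g1 n _ _ _ _ (hz' kl).1 (hz' kl).2 fl).trans (mul_le_mul_of_nonneg_left ex p1))
    · refine (measureReal_mono (s₂ := ∅) fun O h => kl h.1).trans ?_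
      rw [measureReal_empty]
      exact mul_nonneg p1 (Real.exp_pos _).le
  have f3 := h2 (yF lam t u ω k) x u (t k) τ z _ (H.std k kc kN) τ0
    (τv.trans v2) hτ (hc.trans tk1) (hG.dI_mul_yF _ _ k) zr zA zX fl
  refine (real_or3 _ fl.ae fun O hO b1 b2 b3 => ?_).trans
    ((add_le_add (add_le_add f1 f2) f3).trans (le_of_eq (by rw [add_mul, add_mul])))
  have G := not_not.1 b1
  exact at_of hG D (H.std k kc kN) τ0 τh hτ hK hdl (θ := 21 * ε) (mul_pos (by norm_num) ε0).le i5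
    (le_trans (add_le_add le_rfl (mul_le_mul_of_nonneg_left τ3 zero_le_two)) i6) i8
    zr.lo (hcg.sq k kc kN) zA (fun kl => ⟨(hz' kl).1, i7 kl⟩) hO
    G (fun kl => not_not.1 fun h => b2 ⟨kl, h⟩) fun h => b3 ⟨G, h⟩

theorem sum_le {C1 C2 a N : ℕ} {X : ℝ} (hn : 40000 ≤ n) (X0 : 0 ≤ X) :
    31500 * (n : ℝ) ^ 8 * ((N : ℝ) + 1) ^ 2 * X + N * X
      + ((N : ℝ) + 1) * (((n : ℝ) ^ C1 + (n : ℝ) ^ C1 + (n : ℝ) ^ C2) * X)
      ≤ (n : ℝ) ^ (C1 + C2 + a + 9) * ((N : ℝ) + 1) ^ 2 * X := by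
  have n1 : (40000 : ℝ) ≤ n := by exact_mod_cast hn
  have pw : ∀ {i j : ℕ}, i ≤ j → (n : ℝ) ^ i ≤ (n : ℝ) ^ j := fun h =>
    pow_le_pow_right₀ (by linarith) h
  have N0 : (0 : ℝ) ≤ N := Nat.cast_nonneg N
  have y1 : (n : ℝ) ^ 8 ≤ (n : ℝ) ^ (C1 + C2 + a + 8) := pw (by omega)
  have y2 : (n : ℝ) ^ C1 ≤ (n : ℝ) ^ (C1 + C2 + a + 8) := pw (by omega)
  have y3 : (n : ℝ) ^ C2 ≤ (n : ℝ) ^ (C1 + C2 + a + 8) := pw (by omega)
  have y4 : 1 ≤ (n : ℝ) ^ (C1 + C2 + a + 8) := one_le_pow₀ (by linarith)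
  have y5 : (n : ℝ) ^ (C1 + C2 + a + 9) = (n : ℝ) ^ (C1 + C2 + a + 8) * n := pow_succ _ _
  have z1 : (N : ℝ) + 1 ≤ ((N : ℝ) + 1) ^ 2 := by nlinarith
  have p1 : 0 ≤ (n : ℝ) ^ C1 + (n : ℝ) ^ C1 + (n : ℝ) ^ C2 := by positivity
  have p2 : (n : ℝ) ^ C1 + (n : ℝ) ^ C1 + (n : ℝ) ^ C2 ≤ 3 * (n : ℝ) ^ (C1 + C2 + a + 8) := by
    linarith
  rw [y5]
  generalize (n : ℝ) ^ C1 + (n : ℝ) ^ C1 + (n : ℝ) ^ C2 = W at *
  generalize (n : ℝ) ^ (C1 + C2 + a + 8) = Y at *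
  generalize (n : ℝ) ^ 8 = V at *
  generalize ((N : ℝ) + 1) ^ 2 = Z at *
  have q0 : 0 ≤ Z * X := mul_nonneg (by linarith) X0
  have c1 := mul_le_mul_of_nonneg_right y1 q0
  have c2 := mul_le_mul_of_nonneg_right (by linarith : (N : ℝ) ≤ Z) X0
  have c3 := mul_le_mul_of_nonneg_right y4 q0
  have c4 := mul_le_mul z1 (mul_le_mul_of_nonneg_right p2 X0) (mul_nonneg p1 X0) (by linarith)
  have c5 : 0 ≤ Y * (Z * X) := mul_nonneg (by linarith) q0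
  have c6 := mul_le_mul_of_nonneg_right n1 c5
  linarith

/-- **[TAPQ]** -/
theorem tapQ_of {lo : ℕ → ℝ} {hs : M0.HS} (h1 : T1Stmt) (h6 : D6Stmt) (hm : M0.MeasM hs)
    (hb : M0.NearM hs) (hd : M0.DetM hs) (h2 : T2Q lo hs) :
    Asm.TapQ lo fun n J y => tm (hs n J y) := by
  obtain ⟨C1, h1⟩ := h1
  obtain ⟨a, hd⟩ := hd
  obtain ⟨C2, e, t₀, he, ht₀, h2⟩ := h2
  obtain ⟨u, u0, hu⟩ : ∃ u, 0 < u ∧ ∀ τ, 0 < τ → τ ≤ u → T1At C1 τ ∧ Det hs a τ := by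
    refine ev_Ioo ?_
    filter_upwards [h1 1000 (by norm_num), h6 1000 (by norm_num), hb 1000 (by norm_num),
      hd 1000 (by norm_num)] with τ g1 g6 gb gd
    exact ⟨g1, g6, fun n S O a b => (gb n S O a b).1, gd⟩
  refine ⟨C1 + C2 + a + 9, fun η hη => ?_⟩
  obtain ⟨ε, ε0, ε1, εη⟩ : ∃ ε : ℝ, 0 < ε ∧ ε ≤ 1 / 1000 ∧ ε ≤ η / 1000 :=
    ⟨min (1 / 1000) (η / 1000), by positivity, min_le_left _ _, min_le_right _ _⟩
  obtain ⟨v, v0, v1, v2, v3⟩ : ∃ v : ℝ, 0 < v ∧ v ≤ u ∧ v ≤ t₀ ∧ v ≤ ε :=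
    ⟨min u (min t₀ ε), by positivity, min_le_left _ _,
      (min_le_right _ _).trans (min_le_left _ _), (min_le_right _ _).trans (min_le_right _ _)⟩
  obtain ⟨T, T0, T1, T2, T3⟩ : ∃ T : ℝ, 0 < T ∧ T ≤ v ^ 288000 ∧ T ≤ ε ^ 2 ∧
      (5 / ε ^ 2) ^ 4 * T ≤ 1 := by
    have p : 0 < (5 / ε ^ 2) ^ 4 := by positivity
    refine ⟨min (v ^ 288000) (min (ε ^ 2) ((5 / ε ^ 2) ^ 4)⁻¹),
      lt_min (pow_pos v0 _) (lt_min (pow_pos ε0 _) (inv_pos.2 p)), min_le_left _ _,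
      (min_le_right _ _).trans (min_le_left _ _), ?_⟩
    exact (mul_le_mul_of_nonneg_left ((min_le_right _ _).trans (min_le_right _ _)) p.le).trans
      (mul_inv_cancel₀ p.ne').le
  refine ⟨e, T, he, T0, ?_⟩
  filter_upwards [h2, Asm.ev_wn (c := ε / 20) (div_pos ε0 (by norm_num)), Asm.ev_sc0 (c := ε / 30)
    (div_pos ε0 (by norm_num)), eventually_ge_atTop 40000] with n h2 hw hsc hn
  intro lam hR t dl hG hdl K hlo hlog c N hc hcN hN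
  have H := num_of hG ε0 ε1 T1 T2 T3 hn hw.1 hw.2.1 (hsc K hlog) hR (by omega) hdl hlog hc hcN hN
  have h2' : T2At hs C2 e t₀ lam K := fun yt x xt s t z0 μ a1 a2 a3 a4 a5 =>
    h2 lam yt x xt s t z0 K μ hR a1 a2 a3 a4 hlo hlog a5
  clear h1 h6 hb hd h2 T1
  have n0 : 0 < n := by omega
  have n1 : (1 : ℝ) ≤ n := by exact_mod_cast n0
  obtain ⟨m1, m2⟩ := hm n (St n) sJ sy mm_sJ mv_sy
  refine ⟨_, _, m1.measurable, m2, ?_⟩
  have X0 := (Real.exp_pos (-(5 * K))).le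
  have key := fib_split n0 (diagonal lam)
    (fun r => Path.CapGood lam ε t c N r.1 (yF lam t r.1 r.2) ∧
      ¬∃ k ∈ Finset.range N, 2 * n + 4 * (5 * K) ≤ F.sq (r.2 k))
    (ms_At (lam := lam) (t := t) hm n0 ((n : ℝ) ^ (C1 + C2 + a + 9)) η e K c N)
    (p := ((N : ℝ) + 1) * (((n : ℝ) ^ C1 + (n : ℝ) ^ C1 + (n : ℝ) ^ C2) * Real.exp (-(5 * K))))
    (by positivity) ?_
  · refine le_trans (measureReal_mono (fun q hq h => hq (tapPath_of hG hcN h))) (key.trans ?_)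
    have b1 := Path.cap_tail hR n0 (H.std c le_rfl hcN).hw hG ε1 (by linarith only [hw.2.1]) H.s30
      (H.tε.trans (by nlinarith only [ε0, ε1])) (by linarith only [H.K1]) H.rate
    have b2 := (Path.snd_real_le (spM (diagonal lam) 0) (PN n) _).trans_le
      (Path.tail_noise N (5 * K))
    have b3 := (Tail.real_or_le (spN n (diagonal lam) 0)
      (p := fun r => ¬(Path.CapGood lam ε t c N r.1 (yF lam t r.1 r.2) ∧
        ¬∃ k ∈ Finset.range N, 2 * n + 4 * (5 * K) ≤ F.sq (r.2 k)))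
      (q := fun r => ¬Path.CapGood lam ε t c N r.1 (yF lam t r.1 r.2))
      (r := fun r => ∃ k ∈ Finset.range N, 2 * n + 4 * (5 * K) ≤ F.sq (r.2 k))
      fun r hr => (not_and_or.1 hr).imp id not_not.1).trans (add_le_add b1 b2)
    exact (add_le_add b3 le_rfl).trans (sum_le hn X0)
  · rintro x r ⟨hcg, hno⟩ hsq
    have e1 : {O | (r, O) ∈ {p : (Vec n × (ℕ → Vec n)) × OG n | ¬∀ k, c ≤ k → k ≤ N →
        At hs lam t ((n : ℝ) ^ (C1 + C2 + a + 9)) η e K N (yF lam t p.1.1 p.1.2) p.2 k}}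
        ⊆ {O | ∃ k ∈ Finset.Icc c N,
          ¬At hs lam t ((n : ℝ) ^ (C1 + C2 + a + 9)) η e K N (yF lam t r.1 r.2) O k} := by
      intro O hO
      by_contra hcon
      refine hO fun k k1 k2 => ?_
      by_contra h3
      exact hcon ⟨k, Finset.mem_Icc.2 ⟨k1, k2⟩, h3⟩
    refine (measureReal_mono e1).trans ((Tail.real_exists_le _ _ _ _ fun k hk =>
      fib_one hG (fun τ a b => hu τ a (b.trans v1)) h2' H ε0 ε1 εη v0 v2 v3 hn hw.2.1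
        (pow_le_pow_right₀ n1 (by omega)) hdl hc (fibL_fibM x hsq) hcg hno (Finset.mem_Icc.1 hk).1
        (Finset.mem_Icc.1 hk).2).trans ?_)
    rw [Finset.sum_const, Nat.card_Icc, nsmul_eq_mul]
    refine mul_le_mul_of_nonneg_right ?_ (by positivity)
    exact_mod_cast Nat.sub_le _ _

end Vale.Agent.N150.TapQ
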