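import Vale.Agent.N150.Plan
import Vale.Agent.N150.TapQ

/-! P150 at the critical point: the upper bound on the mixing time. -/

namespace Vale.Agent.N150

theorem Plan.closed : Plan.Open :=
  ⟨fun _ h => TapQ.tapQ_of Plan.t1 D6.d6Stmt Tap.measM Tap.nearM Tap.detM h⟩

theorem upFull : UpFull := Plan.upFull_of Plan.closed

theorem upStmt : UpStmt := Plan.upStmt_of Plan.closed

end Vale.Agent.N150
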