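import Vale.Agent.P150.Bdl.B29
import Vale.Agent.P150.Bdl.B38
import Vale.Agent.N150.PathQ

/-! The noise of a diagonal observation path: laws and tails. -/

open MeasureTheory ProbabilityTheory Matrix Real
open scoped ENNReal

namespace Vale.Agent.N150.Path

open Vale.Agent.P150 Vale.Agent.P150.F Vale.Agent.N150.Plant

variable {n : ℕ}

/-- accumulated precision -/
def An (r : ℕ → Vec n) (k : ℕ) : Vec n := fun a => ∑ i ∈ Finset.range k, r i a ^ 2

/-- accumulated noise -/
def Bn (r : ℕ → Vec n) (k : ℕ) (ω : ℕ → Vec n) : Vec n :=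
  fun a => ∑ i ∈ Finset.range k, r i a * ω i a

/-- the observation path in the frame -/
def yp (r : ℕ → Vec n) (x : Vec n) (ω : ℕ → Vec n) (k : ℕ) : Vec n :=
  fun a => An r k a * x a + Bn r k ω a

theorem An_nonneg (r : ℕ → Vec n) (k : ℕ) (a : Fin n) : 0 ≤ An r k a :=
  Finset.sum_nonneg fun _ _ => sq_nonneg _

theorem An_mono (r : ℕ → Vec n) {j k : ℕ} (h : j ≤ k) (a : Fin n) : An r j a ≤ An r k a :=
  Finset.sum_le_sum_of_subset_of_nonneg (Finset.range_mono h) fun _ _ _ => sq_nonneg _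

theorem Bn_zero {r : ℕ → Vec n} {k : ℕ} {a : Fin n} (h : An r k a = 0) (ω : ℕ → Vec n) :
    Bn r k ω a = 0 := by
  refine Finset.sum_eq_zero fun i hi => ?_
  have h1 := (Finset.sum_eq_zero_iff_of_nonneg fun _ _ => sq_nonneg _).1 h i hi
  rw [pow_eq_zero_iff two_ne_zero] at h1
  rw [h1, zero_mul]

theorem yp_zero (r : ℕ → Vec n) (x : Vec n) (ω : ℕ → Vec n) : yp r x ω 0 = 0 := by
  funext a
  simp [yp, An, Bn]

theorem yp_succ (r : ℕ → Vec n) (x : Vec n) (ω : ℕ → Vec n) (k : ℕ) (a : Fin n) :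
    yp r x ω (k + 1) a = yp r x ω k a + (r k a ^ 2 * x a + r k a * ω k a) := by
  simp only [yp, An, Bn, Finset.sum_range_succ]
  ring

@[fun_prop] theorem measurable_Bn (r : ℕ → Vec n) (k : ℕ) : Measurable (Bn r k) := by
  unfold Bn
  fun_prop

theorem gs_two' (a b : Vec n) :
    ((gpi (Fin n)).prod (gpi (Fin n))).map
        (fun p : Vec n × Vec n => fun i => a i * p.1 i + b i * p.2 i)
      = (gpi (Fin n)).map (fun z i => √(a i ^ 2 + b i ^ 2) * z i) := by
  have h1 := (MeasureTheory.measurePreserving_arrowProdEquivProdArrow ℝ ℝ (Fin n)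
    (fun _ => gaussianReal 0 1) (fun _ => gaussianReal 0 1))
  rw [show (gpi (Fin n)).prod (gpi (Fin n)) = _ from h1.map_eq.symm]
  rw [Measure.map_map (by fun_prop) (MeasurableEquiv.measurable _)]
  have h2 : ((fun p : Vec n × Vec n => fun i => a i * p.1 i + b i * p.2 i) ∘
      (MeasurableEquiv.arrowProdEquivProdArrow ℝ ℝ (Fin n)))
      = fun f : Fin n → ℝ × ℝ => fun i => (fun p : ℝ × ℝ => a i * p.1 + b i * p.2) (f i) := by
    funext f i
    rfl
  rw [h2, Measure.pi_map_pi (μ := fun _ : Fin n => (gaussianReal 0 1).prod (gaussianReal 0 1))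
    (f := fun i (p : ℝ × ℝ) => a i * p.1 + b i * p.2) (fun _ => by fun_prop)]
  simp only [gs_real_two]
  rw [← Measure.pi_map_pi (μ := fun _ : Fin n => gaussianReal 0 1)
    (f := fun i (z : ℝ) => √(a i ^ 2 + b i ^ 2) * z) (fun _ => by fun_prop)]

/-- the law of the accumulated noise -/
theorem map_Bn (k : ℕ) (r : ℕ → Vec n) :
    (PN n).map (Bn r k) = (gpi (Fin n)).map (fun z a => √(An r k a) * z a) := by
  induction k generalizing r with
  | zero =>
    have e1 : Bn r 0 = fun _ => 0 := by funext ω a; simp [Bn]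
    have e2 : (fun (z : Vec n) a => √(An r 0 a) * z a) = fun _ => 0 := by funext z a; simp [An]
    rw [e1, e2, Measure.map_const, Measure.map_const, measure_univ, measure_univ]
  | succ k ih =>
    conv_lhs => rw [← mp_consS.map_eq, Measure.map_map (measurable_Bn _ _) measurable_consS]
    have e1 : (Bn r (k + 1) ∘ fun p : Vec n × (ℕ → Vec n) => consS p.1 p.2)
        = (fun q : Vec n × Vec n => fun a => r 0 a * q.1 a + q.2 a) ∘
          (Prod.map id (Bn (fun i => r (i + 1)) k)) := by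
      funext p a
      simp only [Function.comp_apply, Bn, Prod.map_fst, Prod.map_snd, id]
      rw [Finset.sum_range_succ', add_comm]
      simp only [consS_zero, consS_succ]
    have h3 := Measure.map_prod_map (gpi (Fin n)) (PN n) (f := id)
      (g := Bn (fun i => r (i + 1)) k) measurable_id (measurable_Bn _ _)
    have h4 := Measure.map_prod_map (gpi (Fin n)) (gpi (Fin n)) (f := id)
      (g := fun (z : Vec n) a => √(An (fun i => r (i + 1)) k a) * z a) measurable_id (by fun_prop)
    rw [ih] at h3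
    rw [e1, ← Measure.map_map (by fun_prop) (measurable_id.prodMap (measurable_Bn _ _)), ← h3, h4,
      Measure.map_map (by fun_prop) (measurable_id.prodMap (by fun_prop))]
    have e3 := gs_two' (n := n) (r 0) (fun a => √(An (fun i => r (i + 1)) k a))
    simp only [sq_sqrt (An_nonneg _ _ _)] at e3
    have e4 : ∀ a, An r (k + 1) a = r 0 a ^ 2 + An (fun i => r (i + 1)) k a := by
      intro a
      unfold An
      rw [Finset.sum_range_succ', add_comm]
    simp only [e4]
    exact e3

theorem real_Bn (r : ℕ → Vec n) (k : ℕ) {S : Set (Vec n)} (hS : MeasurableSet S) :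
    (PN n).real {ω | Bn r k ω ∈ S} =
      (gpi (Fin n)).real {z | (fun a => √(An r k a) * z a) ∈ S} := by
  have h1 := congrArg (fun μ : Measure (Vec n) => (μ S).toReal) (map_Bn k r)
  rw [Measure.map_apply (measurable_Bn _ _) hS, Measure.map_apply (by fun_prop) hS] at h1
  exact h1

theorem prod_real_le {α β : Type*} [MeasurableSpace α] [MeasurableSpace β] (μ : Measure α)
    (ν : Measure β) [IsProbabilityMeasure μ] [IsProbabilityMeasure ν] {E : Set (α × β)}
    (hE : MeasurableSet E) {θ : ℝ} (h : ∀ x, ν.real {ω | (x, ω) ∈ E} ≤ θ) :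
    (μ.prod ν).real E ≤ θ := by
  have : Nonempty α := μ.nonempty_of_neZero
  have h0 : 0 ≤ θ := measureReal_nonneg.trans (h (Classical.arbitrary α))
  refine ENNReal.toReal_le_of_le_ofReal h0 ?_
  rw [Measure.prod_apply hE]
  calc _ ≤ ∫⁻ _, ENNReal.ofReal θ ∂μ := by
        refine lintegral_mono fun x => ?_
        rw [← ofReal_measureReal (measure_ne_top _ _)]
        exact ENNReal.ofReal_le_ofReal (h x)
    _ = _ := by simp

theorem fst_real_le {α β : Type*} [MeasurableSpace α] [MeasurableSpace β] (μ : Measure α)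
    (ν : Measure β) [IsProbabilityMeasure μ] [IsProbabilityMeasure ν] (p : α → Prop) :
    (μ.prod ν).real {q | p q.1} = μ.real {x | p x} := by
  have e : {q : α × β | p q.1} = {x | p x} ×ˢ Set.univ := by ext q; simp
  rw [e, measureReal_prod_prod, probReal_univ, mul_one]

theorem snd_real_le {α β : Type*} [MeasurableSpace α] [MeasurableSpace β] (μ : Measure α)
    (ν : Measure β) [IsProbabilityMeasure μ] [IsProbabilityMeasure ν] (p : β → Prop) :
    (μ.prod ν).real {q | p q.2} = ν.real {x | p x} := by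
  have e : {q : α × β | p q.2} = Set.univ ×ˢ {x | p x} := by ext q; simp
  rw [e, measureReal_prod_prod, probReal_univ, one_mul]

/-- past of the first sequence, future of the second one -/
def spl (j : ℕ) (ω ω' : ℕ → Vec n) : ℕ → Vec n := fun i => if i < j then ω i else ω' i

theorem measurable_spl (j : ℕ) :
    Measurable fun p : (ℕ → Vec n) × (ℕ → Vec n) => spl j p.1 p.2 := by
  refine measurable_pi_lambda _ fun i => ?_
  unfold spl
  split_ifs <;> fun_prop

theorem mp_spl (j : ℕ) : MeasurePreserving (fun p : (ℕ → Vec n) × (ℕ → Vec n) => spl j p.1 p.2)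
    ((PN n).prod (PN n)) (PN n) := by
  refine ⟨measurable_spl j, ?_⟩
  refine Measure.eq_infinitePi _ fun s t ht => ?_
  rw [Measure.map_apply (measurable_spl j) (MeasurableSet.pi s.countable_toSet fun i _ => ht i)]
  have hpre : (fun p : (ℕ → Vec n) × (ℕ → Vec n) => spl j p.1 p.2) ⁻¹' (Set.pi s t)
      = (Set.pi (s.filter fun i => i < j) t) ×ˢ (Set.pi (s.filter fun i => ¬ i < j) t) := by
    ext ⟨ω, ω'⟩
    simp only [Set.mem_preimage, Set.mem_pi, Set.mem_prod, Finset.mem_coe, Finset.mem_filter, spl]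
    constructor
    · intro h
      exact ⟨fun i hi => by simpa only [if_pos hi.2] using h i hi.1,
        fun i hi => by simpa only [if_neg hi.2] using h i hi.1⟩
    · rintro ⟨h1, h2⟩ i hi
      split_ifs with h
      · exact h1 i ⟨hi, h⟩
      · exact h2 i ⟨hi, h⟩
  rw [hpre, Measure.prod_prod, PN, Measure.infinitePi_pi _ (fun i _ => ht i),
    Measure.infinitePi_pi _ (fun i _ => ht i), Finset.prod_filter_mul_prod_filter_not]

theorem real_spl_le (j : ℕ) {E : Set (ℕ → Vec n)} (hE : MeasurableSet E) {θ : ℝ}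
    (h : ∀ ω, (PN n).real {ω' | spl j ω ω' ∈ E} ≤ θ) : (PN n).real E ≤ θ := by
  rw [← (mp_spl j).measureReal_preimage hE.nullMeasurableSet]
  exact prod_real_le _ _ (measurable_spl j hE) h

theorem Bn_spl (r : ℕ → Vec n) (j : ℕ) (ω ω' : ℕ → Vec n) : Bn r j (spl j ω ω') = Bn r j ω := by
  funext a
  refine Finset.sum_congr rfl fun i hi => ?_
  rw [spl, if_pos (Finset.mem_range.1 hi)]

/-- the coefficients after time `j` -/
def lat (j : ℕ) (r : ℕ → Vec n) : ℕ → Vec n := fun i => if i < j then 0 else r i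

theorem Bn_sub (r : ℕ → Vec n) {j k : ℕ} (h : j ≤ k) (ω ω' : ℕ → Vec n) :
    Bn r k (spl j ω ω') - Bn r j ω = Bn (lat j r) k ω' := by
  funext a
  have e : Bn r j ω a = ∑ i ∈ Finset.range k, if i < j then r i a * ω i a else 0 := by
    rw [← Finset.sum_filter]
    refine Finset.sum_congr ?_ fun _ _ => rfl
    ext i
    simp only [Finset.mem_range, Finset.mem_filter]
    omega
  rw [Pi.sub_apply, e]
  unfold Bn
  rw [← Finset.sum_sub_distrib]
  refine Finset.sum_congr rfl fun i _ => ?_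
  unfold spl lat
  split_ifs <;> simp

theorem An_lat_le (r : ℕ → Vec n) (j k : ℕ) (a : Fin n) : An (lat j r) k a ≤ An r k a := by
  refine Finset.sum_le_sum fun i _ => ?_
  unfold lat
  split_ifs
  · simpa using sq_nonneg (r i a)
  · exact le_rfl

/-! ### tails -/

theorem lin_tail {ι : Type*} [Fintype ι] (c : ι → ℝ) {V z : ℝ} (hz : 0 ≤ z)
    (h : ∑ i, c i ^ 2 ≤ V) :
    (gpi ι).real {g | √(2 * z * V) < ∑ i, c i * g i} ≤ exp (-z) := by
  have h0 : 0 ≤ ∑ i, c i ^ 2 := Finset.sum_nonneg fun _ _ => sq_nonneg _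
  rcases (h0.trans h).eq_or_lt with hV | hV
  · have h1 : ∀ i, c i = 0 := fun i => pow_eq_zero_iff (two_ne_zero) |>.1
      ((Finset.sum_eq_zero_iff_of_nonneg fun _ _ => sq_nonneg _).1 (by linarith) i
        (Finset.mem_univ i))
    simp only [h1, ← hV, mul_zero, sqrt_zero, zero_mul, Finset.sum_const_zero, lt_self_iff_false,
      Set.ofPred_false, measureReal_empty]
    exact (exp_pos _).le
  have key := Tail.subgamma (gpi ι) (Y := fun g => ∑ i, c i * g i) (V := V / 2) (M := 0)
    (by positivity) le_rfl hz fun l _ _ => by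
      have h2 := integral_exp_lin fun i => l * c i
      simp only [Finset.mul_sum, ← mul_assoc]
      refine ⟨h2.1, h2.2.le.trans (exp_le_exp.2 ?_)⟩
      simp only [mul_pow, ← Finset.mul_sum]
      have := mul_le_mul_of_nonneg_left h (sq_nonneg l)
      linarith
  refine (Tail.real_imp_le _ fun g hg => ?_).trans key
  have e : 2 * √(V / 2 * z) = √(2 * z * V) := by
    rw [show 2 * z * V = 2 ^ 2 * (V / 2 * z) by ring, sqrt_mul (sq_nonneg (2 : ℝ)),
      sqrt_sq (by norm_num : (0 : ℝ) ≤ 2)]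
  rw [e]
  linarith

theorem lin_tail_abs {ι : Type*} [Fintype ι] (c : ι → ℝ) {V z : ℝ} (hz : 0 ≤ z)
    (h : ∑ i, c i ^ 2 ≤ V) :
    (gpi ι).real {g | √(2 * z * V) < |∑ i, c i * g i|} ≤ 2 * exp (-z) := by
  have h1 := lin_tail c hz h
  have h2 := lin_tail (fun i => -c i) hz (by simpa only [neg_sq] using h)
  refine (Tail.real_or_le _ (q := fun u => _) (r := fun u => _) fun u hu => ?_).trans
    ((add_le_add h1 h2).trans (le_of_eq (by ring)))
  rcases lt_abs.1 hu with h5 | h5
  · exact Or.inl h5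
  · right
    simpa only [neg_mul, Finset.sum_neg_distrib] using h5

theorem tail_ip (r : ℕ → Vec n) (k : ℕ) (v : Vec n) {V z : ℝ} (hz : 0 ≤ z)
    (h : ∑ a, An r k a * v a ^ 2 ≤ V) :
    (PN n).real {ω | √(2 * z * V) < |ip v (Bn r k ω)|} ≤ 2 * exp (-z) := by
  have h1 := real_Bn r k (S := {b | √(2 * z * V) < |ip v b|})
    (measurableSet_lt measurable_const (by unfold ip; fun_prop))
  have h2 := lin_tail_abs (fun a => v a * √(An r k a)) (V := V) hz (by
    simp only [mul_pow, sq_sqrt (An_nonneg _ _ _)]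
    simpa only [mul_comm] using h)
  refine (le_of_eq h1).trans (le_trans (le_of_eq ?_) h2)
  simp only [Set.mem_ofPred_eq, ip, mul_assoc]

theorem tail_sq (r : ℕ → Vec n) (k : ℕ) {s U z : ℝ} (hs : 0 < s) (hU : 0 < U) (hz : 0 ≤ z)
    (h1 : ∀ a, An r k a ≤ s) (h2 : ∑ a, An r k a ^ 2 ≤ s ^ 2 * U) :
    (PN n).real {ω | s * Dv U z ≤ |F.sq (Bn r k ω) - ∑ a, An r k a|} ≤ 2 * exp (-z) := by
  have h3 := real_Bn r k (S := {b | s * Dv U z ≤ |F.sq b - ∑ a, An r k a|})
    (measurableSet_le measurable_const (by fun_prop))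
  have h4 := Tail.chi_tail (An r k) (V := s ^ 2 * U) (by positivity) hs.le hz h2 h1
  have h5 := Tail.chi_tail_low (An r k) (V := s ^ 2 * U) (by positivity) hs.le hz h2
    fun a => by linarith [An_nonneg r k a]
  refine (le_of_eq h3).trans ((Tail.real_or_le _ (q := fun u => _) (r := fun u => _)
    fun u hu => ?_).trans ((add_le_add h4 h5).trans (le_of_eq (by ring))))
  simp only [Set.mem_ofPred_eq, F.sq, mul_pow, sq_sqrt (An_nonneg _ _ _)] at hu
  rw [← Dv_scale hs.le] at hu
  rcases le_abs.1 hu with h6 | h6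
  · left; linarith
  · right; linarith

theorem tail_set (r : ℕ → Vec n) (k : ℕ) (S : Finset (Fin n)) {s : ℝ} (z : ℝ) (hs : 0 ≤ s)
    (h1 : ∀ a, An r k a ≤ s) :
    (PN n).real {ω | s * (2 * S.card + 4 * z) < ∑ a ∈ S, Bn r k ω a ^ 2} ≤ exp (-z) := by
  have h3 := real_Bn r k (S := {b | s * (2 * S.card + 4 * z) < ∑ a ∈ S, b a ^ 2})
    (measurableSet_lt measurable_const (by fun_prop))
  refine (le_of_eq h3).trans ((Tail.real_imp_le _ fun u hu => ?_).trans
    (Tail.chi_set_lin S (x := z)))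
  simp only [Set.mem_ofPred_eq, mul_pow, sq_sqrt (An_nonneg _ _ _)] at hu
  have h4 : ∑ a ∈ S, An r k a * u a ^ 2 ≤ s * ∑ a ∈ S, u a ^ 2 := by
    rw [Finset.mul_sum]
    exact Finset.sum_le_sum fun a _ => mul_le_mul_of_nonneg_right (h1 a) (sq_nonneg _)
  exact (lt_of_mul_lt_mul_left (hu.trans_le h4) hs).le

theorem tail_incr (r : ℕ → Vec n) (x : Vec n) {j k : ℕ} (hjk : j ≤ k) {s z : ℝ} (hz : 0 ≤ z)
    (h1 : ∀ a, An r k a ≤ s) :
    (PN n).real {ω | √(2 * z * (s * F.sq (yp r x ω j))) <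
      |ip (yp r x ω j) (Bn r k ω - Bn r j ω)|} ≤ 2 * exp (-z) := by
  refine real_spl_le j (measurableSet_lt (by unfold yp Bn; fun_prop)
    (by unfold ip yp Bn; fun_prop)) fun ω => ?_
  have e : ∀ ω', yp r x (spl j ω ω') j = yp r x ω j := fun ω' => by
    unfold yp; rw [Bn_spl]
  simp only [Set.mem_ofPred_eq, e, Bn_spl, Bn_sub r hjk]
  refine tail_ip _ _ _ hz ?_
  rw [F.sq, Finset.mul_sum]
  exact Finset.sum_le_sum fun a _ =>
    mul_le_mul_of_nonneg_right ((An_lat_le r j k a).trans (h1 a)) (sq_nonneg _)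

/-- all noise vectors are bounded -/
theorem tail_noise (N : ℕ) (z : ℝ) :
    (PN n).real {ω | ∃ k ∈ Finset.range N, 2 * n + 4 * z ≤ F.sq (ω k)} ≤ N * exp (-z) := by
  refine (Tail.real_exists_le _ _ _ (fun _ => exp (-z)) fun k _ => ?_).trans (by simp)
  have h1 : MeasurePreserving (fun ω : ℕ → Vec n => ω k) (PN n) (gpi (Fin n)) :=
    measurePreserving_eval_infinitePi _ k
  have h2 := h1.measureReal_preimage (s := {g | 2 * n + 4 * z ≤ F.sq g})
    (measurableSet_le measurable_const measurable_sq).nullMeasurableSet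
  have h3 := Tail.chi_set_lin (Finset.univ : Finset (Fin n)) (x := z)
  rw [Finset.card_univ, Fintype.card_fin] at h3
  exact (le_of_eq h2).trans h3

/-- frame spins and frame noise under the planted law -/
theorem mp_xt_rot (M : Mat n) (y : Vec n) :
    MeasurePreserving (fun q : (OG n × Cfg n) × (ℕ → Vec n) => (xt q.1.1 q.1.2, rotN q.1.1 q.2))
      (plN n M y) (spN n M y) := by
  have h1 : MeasurePreserving (fun q : (OG n × Cfg n) × (ℕ → Vec n) => (q.1, rotN q.1.1 q.2))
      (plN n M y) (plN n M y) :=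
    MeasurePreserving.skew_product (f := id) (g := fun (p : OG n × Cfg n) (ω : ℕ → Vec n) => rotN p.1 ω)
      (MeasurePreserving.id _)
      (measurable_rotN2.comp ((measurable_fst.comp measurable_fst).prodMk measurable_snd))
      (ae_of_all _ fun p => (mp_rotN p.1).map_eq)
  exact (mp_xtN M y).comp h1

theorem plN_rot_le (M : Mat n) (y : Vec n) (E : Set (Vec n × (ℕ → Vec n))) :
    (plN n M y).real {q | (xt q.1.1 q.1.2, rotN q.1.1 q.2) ∈ E} ≤ (spN n M y).real E := by
  have h := Measure.le_map_apply (μ := plN n M y) (mp_xt_rot M y).measurable.aemeasurable E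
  rw [(mp_xt_rot M y).map_eq] at h
  exact ENNReal.toReal_mono (measure_ne_top _ _) h

end Vale.Agent.N150.Path
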