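import Vale.Agent.N150.PinDef

/-! Sequential pinning: one dimensional calculus and elementary probability. -/

open MeasureTheory ProbabilityTheory Filter Matrix
open scoped ENNReal

namespace Vale.Agent.N150.Pin

open Vale.Agent.N150.Bc Vale.Agent.N150.Edge
open Vale.Agent.P150 (Cfg gpi)
open Vale.Agent.P150.F (sv ip Vec Mat Lip ed)

/-- functions with a bounded derivative and a quadratic Taylor remainder -/
structure Sm (F D : ℝ → ℝ) : Prop where
  bd : ∀ x, |D x| ≤ 1
  cont : Continuous D
  quad : ∀ y t, |F (y + t) - F y - t * D y| ≤ t ^ 2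

variable {F D : ℝ → ℝ} {n : ℕ}

theorem Sm.der (h : Sm F D) (y : ℝ) : HasDerivAt F (D y) y := by
  rw [hasDerivAt_iff_isLittleO_nhds_zero]
  refine Asymptotics.IsBigO.trans_isLittleO (g := fun t : ℝ => t ^ 2)
    (Asymptotics.IsBigO.of_bound' (Eventually.of_forall fun t => ?_))
    (Asymptotics.isLittleO_pow_id one_lt_two)
  rw [Real.norm_eq_abs, Real.norm_eq_abs, smul_eq_mul, abs_of_nonneg (sq_nonneg t)]
  exact h.quad y t

theorem Sm.contF (h : Sm F D) : Continuous F :=
  continuous_iff_continuousAt.2 fun y => (h.der y).continuousAt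

theorem Sm.deriv_eq (h : Sm F D) : deriv F = D := funext fun y => (h.der y).deriv

theorem Sm.int (h : Sm F D) (y a : ℝ) :
    Integrable (fun z => F (y + a * z)) (gaussianReal 0 1) := by
  have h1 : Integrable (fun z : ℝ => z ^ 2) (gaussianReal 0 1) :=
    (memLp_id_gaussianReal (μ := 0) (v := 1) 2).integrable_sq
  refine ((integrable_const (|F y| + 1)).add (h1.const_mul (2 * a ^ 2))).mono'
    (h.contF.comp (by fun_prop)).aestronglyMeasurable (ae_of_all _ fun z => ?_)
  have h2 := abs_le.1 (h.quad y (a * z))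
  have h3 : |a * z * D y| ≤ |a * z| := by
    rw [abs_mul (a * z)]
    exact mul_le_of_le_one_right (abs_nonneg _) (h.bd y)
  have h4 : |a * z| ≤ 1 + (a * z) ^ 2 := by
    rw [← sq_abs (a * z)]
    nlinarith [sq_nonneg (|a * z| - 1), abs_nonneg (a * z)]
  have h5 := abs_le.1 (h3.trans h4)
  show |F (y + a * z)| ≤ |F y| + 1 + 2 * a ^ 2 * z ^ 2
  rw [abs_le]
  constructor <;> nlinarith [le_abs_self (F y), neg_abs_le (F y)]

theorem Sm.intD (h : Sm F D) (y a : ℝ) :
    Integrable (fun z => D (y + a * z)) (gaussianReal 0 1) :=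
  Integrable.of_bound (h.cont.comp (by fun_prop)).aestronglyMeasurable 1
    (ae_of_all _ fun _ => h.bd _)

theorem Sm.intD2 (h : Sm F D) (y a : ℝ) :
    Integrable (fun z => D (y + a * z) ^ 2) (gaussianReal 0 1) :=
  Integrable.of_bound ((h.cont.comp (by fun_prop)).pow 2).aestronglyMeasurable 1
    (ae_of_all _ fun _ => by
      rw [Real.norm_eq_abs, abs_pow]
      exact pow_le_one₀ (abs_nonneg _) (h.bd _))

/-- Gaussian smoothing -/
noncomputable def sm (F : ℝ → ℝ) (v y : ℝ) : ℝ := ∫ z, F (y + √v * z) ∂(gaussianReal 0 1)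

theorem Sm.sm (h : Sm F D) (v : ℝ) : Sm (sm F v) (sm D v) where
  bd := fun x => by
    have := norm_integral_le_of_norm_le_const (μ := gaussianReal 0 1) (C := 1)
      (f := fun z => D (x + √v * z)) (ae_of_all _ fun z => h.bd _)
    simpa [Pin.sm] using this
  cont := continuous_of_dominated (bound := fun _ => 1)
    (fun x => (h.intD x _).aestronglyMeasurable) (fun x => ae_of_all _ fun z => h.bd _)
    (integrable_const _) (ae_of_all _ fun z => h.cont.comp (by fun_prop))
  quad := fun y t => by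
    have := norm_integral_le_of_norm_le_const (μ := gaussianReal 0 1) (C := t ^ 2)
      (f := fun z => F (y + t + √v * z) - F (y + √v * z) - t * D (y + √v * z))
      (ae_of_all _ fun z => by
        rw [add_right_comm]
        exact h.quad _ _)
    have i1 : Integrable (fun z => F (y + t + √v * z) - F (y + √v * z)) (gaussianReal 0 1) :=
      (h.int _ _).sub (h.int _ _)
    rw [integral_sub i1 ((h.intD _ _).const_mul t),
      integral_sub (h.int _ _) (h.int _ _), integral_const_mul] at this
    simpa [Pin.sm] using this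

theorem sm_sm {H : ℝ → ℝ} (hH : Continuous H)
    (hi : ∀ y a, Integrable (fun z => H (y + a * z)) (gaussianReal 0 1)) {a v : ℝ} (ha : 0 ≤ a)
    (hv : 0 ≤ v) (y : ℝ) : sm H (a + v) y = ∫ z, sm H v (y + √a * z) ∂(gaussianReal 0 1) := by
  have h := P146.Gap.comp_conv (h := fun x => H (y + x)) (hH.comp (by fun_prop)).measurable ha hv
    (hi y _)
  unfold sm
  rw [← h]
  simp only [add_assoc]

theorem sq_int_le {f : ℝ → ℝ} (hf : Continuous f) (hb : ∀ x, |f x| ≤ 1) :
    (∫ z, f z ∂(gaussianReal 0 1)) ^ 2 ≤ ∫ z, f z ^ 2 ∂(gaussianReal 0 1) := by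
  have h1 : MemLp f 2 (gaussianReal 0 1) :=
    MemLp.of_bound hf.aestronglyMeasurable 1 (ae_of_all _ hb)
  have h2 := variance_nonneg f (gaussianReal 0 1)
  rw [variance_eq_sub h1] at h2
  exact sub_nonneg.1 h2

/-- the second moment of the derivative increases along the heat flow -/
theorem Sm.mono (h : Sm F D) {a v : ℝ} (ha : 0 ≤ a) (hv : 0 ≤ v) :
    ∫ z, Pin.sm D v (√a * z) ^ 2 ∂(gaussianReal 0 1) ≤
      ∫ z, D (√(a + v) * z) ^ 2 ∂(gaussianReal 0 1) := by
  have h1 := sm_sm (H := fun x => D x ^ 2) (h.cont.pow 2) h.intD2 ha hv 0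
  have h2 := (h.sm v).intD2 0 √a
  have h3 : Continuous (Pin.sm (fun x => D x ^ 2) v) := continuous_of_dominated
    (bound := fun _ => 1) (fun x => (h.intD2 x _).aestronglyMeasurable)
    (fun x => ae_of_all _ fun z => by
      rw [Real.norm_eq_abs, abs_pow]
      exact pow_le_one₀ (abs_nonneg _) (h.bd _))
    (integrable_const _) (ae_of_all _ fun z => (h.cont.comp (by fun_prop)).pow 2)
  have h4 : Integrable (fun z => Pin.sm (fun x => D x ^ 2) v (√a * z)) (gaussianReal 0 1) :=
    Integrable.of_bound (h3.comp (by fun_prop)).aestronglyMeasurable 1 (ae_of_all _ fun z => by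
      have := norm_integral_le_of_norm_le_const (μ := gaussianReal 0 1) (C := 1)
        (f := fun w => D (√a * z + √v * w) ^ 2) (ae_of_all _ fun w => by
          rw [Real.norm_eq_abs, abs_pow]
          exact pow_le_one₀ (abs_nonneg _) (h.bd _))
      simpa [Pin.sm] using this)
  simp only [zero_add] at h1 h2
  have h5 : Pin.sm (fun x => D x ^ 2) (a + v) 0 =
      ∫ z, D (√(a + v) * z) ^ 2 ∂(gaussianReal 0 1) := by
    simp only [Pin.sm, zero_add]
  rw [← h5, h1]
  exact integral_mono h2 h4 fun z =>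
    sq_int_le (f := fun w => D (√a * z + √v * w)) (h.cont.comp (by fun_prop)) fun w => h.bd _

theorem sm_of_deriv {D2 : ℝ → ℝ} (h1 : ∀ x, HasDerivAt F (D x) x) (h2 : ∀ x, HasDerivAt D (D2 x) x)
    (hb : ∀ x, |D x| ≤ 1) (hb2 : ∀ x, |D2 x| ≤ 1) : Sm F D where
  bd := hb
  cont := continuous_iff_continuousAt.2 fun y => (h2 y).continuousAt
  quad := fun y t => by
    have k1 : ∀ x x', |D x - D x'| ≤ |x - x'| := fun x x' => by
      have := convex_univ.norm_image_sub_le_of_norm_hasDerivWithin_le (f := D) (f' := D2) (C := 1)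
        (fun x _ => (h2 x).hasDerivWithinAt) (fun x _ => hb2 x) (Set.mem_univ x') (Set.mem_univ x)
      simpa using this
    have k2 := (convex_closedBall y |t|).norm_image_sub_le_of_norm_hasDerivWithin_le
      (f := fun x => F x - x * D y) (f' := fun x => D x - D y) (C := |t|)
      (fun x _ => by
        have := (h1 x).sub ((hasDerivAt_id x).mul_const (D y))
        rw [one_mul] at this
        exact this.hasDerivWithinAt)
      (fun x hx => (k1 x y).trans (by simpa [Real.dist_eq] using hx))
      (Metric.mem_closedBall_self (abs_nonneg t)) (y := y + t) (by simp)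
    rw [Real.norm_eq_abs, Real.norm_eq_abs, add_sub_cancel_left, abs_mul_abs_self] at k2
    rw [pow_two]
    refine le_trans (le_of_eq ?_) k2
    congr 1
    ring

/-! ### probability -/

theorem markov {Ω : Type*} [MeasurableSpace Ω] {μ : Measure Ω} [IsProbabilityMeasure μ]
    {f g : Ω → ℝ} (hf : Integrable f μ) (hg : Integrable g μ) {a c t : ℝ} (ha : 0 ≤ a) (ht : 0 < t)
    (h1 : ∀ z, f z ≤ g z + a) (h2 : ∫ z, g z ∂μ - c ≤ ∫ z, f z ∂μ) :
    μ.real {z | f z ≤ g z - t} ≤ (a + c) / t := by
  have h3 := mul_meas_ge_le_integral_of_nonneg (μ := μ) (f := fun z => g z + a - f z)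
    (ae_of_all _ fun z => sub_nonneg.2 (h1 z)) ((hg.add (integrable_const a)).sub hf) t
  have i1 : Integrable (fun z => g z + a) μ := hg.add (integrable_const a)
  rw [integral_sub i1 hf, integral_add hg (integrable_const a)] at h3
  simp only [integral_const, probReal_univ, smul_eq_mul, one_mul] at h3
  have h4 : μ.real {z | f z ≤ g z - t} ≤ μ.real {z | t ≤ g z + a - f z} :=
    measureReal_mono fun z (hz : f z ≤ g z - t) => show t ≤ g z + a - f z by linarith
  rw [le_div_iff₀ ht]
  nlinarith

theorem int_sum {f : Fin n → ℝ → ℝ} (hf : ∀ i, Integrable (f i) (gaussianReal 0 1)) :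
    Integrable (fun z : Vec n => ∑ i, f i (z i)) (gpi (Fin n)) ∧
      ∫ z : Vec n, ∑ i, f i (z i) ∂gpi (Fin n) = ∑ i, ∫ z, f i z ∂(gaussianReal 0 1) := by
  have h : ∀ i, Integrable (fun z : Vec n => f i (z i)) (gpi (Fin n)) := fun i =>
    integrable_comp_eval (μ := fun _ : Fin n => gaussianReal 0 1) (hf i)
  refine ⟨integrable_finsetSum _ fun i _ => h i, ?_⟩
  rw [integral_finsetSum _ fun i _ => h i]
  exact Finset.sum_congr rfl fun i _ =>
    integral_comp_eval (μ := fun _ : Fin n => gaussianReal 0 1) (hf i).aestronglyMeasurable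

theorem cheb (hn : 0 < n) {f : ℝ → ℝ} (hf : Continuous f) (hb : ∀ x, |f x| ≤ 1) {δ : ℝ}
    (hδ : 0 < δ) : (gpi (Fin n)).real {z | δ * n ≤ |∑ i, f (z i) -
      n * ∫ z, f z ∂(gaussianReal 0 1)|} ≤ 1 / (δ ^ 2 * n) := by
  have hn' : (0 : ℝ) < n := Nat.cast_pos.2 hn
  have h1 : MemLp f 2 (gaussianReal 0 1) :=
    MemLp.of_bound hf.aestronglyMeasurable 1 (ae_of_all _ hb)
  have h2 := variance_sum_pi (μ := fun _ : Fin n => gaussianReal 0 1) (X := fun _ => f) fun _ => h1
  have h4 : (∑ i, fun g : Vec n => f (g i)) = fun g : Vec n => ∑ i, f (g i) := by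
    funext g
    simp
  have h5 : Var[f; gaussianReal 0 1] ≤ 1 := by
    refine (variance_le_expectation_sq h1.1).trans ?_
    have := norm_integral_le_of_norm_le_const (μ := gaussianReal 0 1) (C := 1) (f := f ^ 2)
      (ae_of_all _ fun w => by
        rw [Real.norm_eq_abs, Pi.pow_apply, abs_pow]
        exact pow_le_one₀ (abs_nonneg _) (hb _))
    simp only [probReal_univ, mul_one] at this
    exact (le_abs_self _).trans this
  rw [h4] at h2
  have h6 : MemLp (fun g : Vec n => ∑ i, f (g i)) 2 (gpi (Fin n)) :=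
    memLp_finsetSum _ fun i _ => h1.comp_measurePreserving (measurePreserving_eval _ i)
  have h7 := meas_ge_le_variance_div_sq h6 (c := δ * n) (by positivity)
  rw [(int_sum fun _ => h1.integrable (by norm_num)).2] at h7
  simp only [Finset.sum_const, Finset.card_univ, Fintype.card_fin, nsmul_eq_mul] at h7 h2
  refine (ENNReal.toReal_le_of_le_ofReal (div_nonneg (variance_nonneg _ _) (sq_nonneg _))
    h7).trans ?_
  unfold gpi
  rw [h2, div_le_div_iff₀ (by positivity) (by positivity)]
  have h8 : 0 ≤ δ ^ 2 * n * n := by positivity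
  nlinarith

theorem conv_le {U : Set (Vec n)} (hU : MeasurableSet U) (B : Set (Vec n)) {a v p : ℝ} (ha : 0 ≤ a)
    (hv : 0 ≤ v) (hp : 0 ≤ p) (h : ∀ z ∉ B,
      (gpi (Fin n)).real {g | (fun i => √a * z i + √v * g i) ∈ U} ≤ p) :
    (gpi (Fin n)).real {z | (fun i => √(a + v) * z i) ∈ U} ≤ p + (gpi (Fin n)).real B := by
  have e : ∀ (c : ℝ) (z : Vec n), (c • (1 : Mat n)).mulVec z = fun i => c * z i := fun c z => by
    rw [Matrix.smul_mulVec, Matrix.one_mulVec]
    rfl
  have e2 : ∀ c : ℝ, 0 ≤ c → (√c • (1 : Mat n)) * (√c • (1 : Mat n))ᵀ = c • (1 : Mat n) :=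
    fun c hc => by
      rw [Matrix.transpose_smul, Matrix.transpose_one, Matrix.smul_mul, Matrix.one_mul, smul_smul,
        Real.mul_self_sqrt hc]
  have h1 := Law.lintegral_mulVec_add (A := √(a + v) • (1 : Mat n)) (A₁ := √v • (1 : Mat n))
    (A₂ := √a • (1 : Mat n)) (by rw [e2 _ (add_nonneg ha hv), e2 _ ha, e2 _ hv, add_comm, add_smul])
    (F := U.indicator 1) (measurable_one.indicator hU)
  simp only [e] at h1
  have h2 : gpi (Fin n) {z | (fun i => √(a + v) * z i) ∈ U} ≤
      ENNReal.ofReal p + gpi (Fin n) B := by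
    have m1 : MeasurableSet {z : Vec n | (fun i => √(a + v) * z i) ∈ U} :=
      (by fun_prop : Measurable fun (z : Vec n) i => √(a + v) * z i) hU
    refine ((lintegral_indicator_one m1).symm.trans h1).trans_le ?_
    refine (lintegral_mono (g := fun z => ENNReal.ofReal p + B.indicator 1 z) fun z => ?_).trans ?_
    · have m2 : MeasurableSet {g : Vec n | (fun i => √a * z i + √v * g i) ∈ U} :=
        (by fun_prop : Measurable fun (g : Vec n) i => √a * z i + √v * g i) hU
      have e3 : ∫⁻ g, U.indicator 1 ((fun i => √v * g i) + fun i => √a * z i) ∂gpi (Fin n) =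
          gpi (Fin n) {g | (fun i => √a * z i + √v * g i) ∈ U} := by
        rw [← lintegral_indicator_one m2]
        refine lintegral_congr fun g => ?_
        rw [add_comm]
        rfl
      show _ ≤ ENNReal.ofReal p + B.indicator 1 z
      rw [e3]
      by_cases hz : z ∈ B
      · rw [Set.indicator_of_mem hz]
        exact prob_le_one.trans le_add_self
      · exact ((ENNReal.le_ofReal_iff_toReal_le (measure_ne_top _ _) hp).2 (h z hz)).trans
          le_self_add
    · rw [lintegral_add_left measurable_const, lintegral_const, measure_univ, mul_one]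
      exact add_le_add_right (lintegral_indicator_one_le B) _
  have h3 := ENNReal.toReal_mono (ENNReal.add_ne_top.2 ⟨ENNReal.ofReal_ne_top, measure_ne_top _ _⟩)
    h2
  rwa [ENNReal.toReal_add ENNReal.ofReal_ne_top (measure_ne_top _ _), ENNReal.toReal_ofReal hp]
    at h3

end Vale.Agent.N150.Pin
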