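import Vale.Agent.N150.Pin1

/-! Sequential pinning: the deterministic steps. -/

open MeasureTheory ProbabilityTheory Filter Matrix

namespace Vale.Agent.N150.Pin

open Vale.Agent.N150.Bc Vale.Agent.N150.Edge
open Vale.Agent.P150 (Cfg gpi)
open Vale.Agent.P150.F (sv ip Vec Mat Lip ed)

section gen

variable {ι X : Type} [Fintype ι]

theorem cs_ed (c w w' : ι → ℝ) {L : ℝ} (hL : 0 ≤ L) (h : ∑ i, c i * c i ≤ L ^ 2) :
    ∑ i, c i * w i ≤ ∑ i, c i * w' i + L * ed w w' := by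
  have h1 := Finset.sum_mul_sq_le_sq_mul_sq Finset.univ c fun i => w i - w' i
  have h2 : ∑ i, c i * (w i - w' i) ≤ L * ed w w' := by
    refine (le_abs_self _).trans (abs_le_of_sq_le_sq ?_ (mul_nonneg hL (P150.F.ed_nonneg _ _)))
    rw [mul_pow, P150.F.ed_sq]
    refine h1.trans (mul_le_mul_of_nonneg_right ?_ (Finset.sum_nonneg fun _ _ => sq_nonneg _))
    simpa only [pow_two] using h
  simp only [mul_sub, Finset.sum_sub_distrib] at h2
  linarith

theorem ed_comm (w w' : ι → ℝ) : ed w w' = ed w' w := by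
  unfold ed
  congr 1
  exact Finset.sum_congr rfl fun i _ => by ring

theorem log_sum_le {S : Finset X} {f g : X → ℝ} {t : ℝ} (ht : 0 ≤ t)
    (h : ∀ x ∈ S, f x ≤ g x + t) :
    Real.log (∑ x ∈ S, Real.exp (f x)) ≤ Real.log (∑ x ∈ S, Real.exp (g x)) + t := by
  rcases S.eq_empty_or_nonempty with rfl | hS
  · simpa using ht
  have h1 : ∑ x ∈ S, Real.exp (f x) ≤ (∑ x ∈ S, Real.exp (g x)) * Real.exp t := by
    rw [Finset.sum_mul]
    exact Finset.sum_le_sum fun x hx => by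
      rw [← Real.exp_add]
      exact Real.exp_le_exp.2 (h x hx)
  have h2 := Real.log_le_log (Finset.sum_pos (fun _ _ => Real.exp_pos _) hS) h1
  rwa [Real.log_mul (Finset.sum_pos (fun _ _ => Real.exp_pos _) hS).ne' (Real.exp_pos _).ne',
    Real.log_exp] at h2

theorem lip_LZ {S : Finset X} (a : X → ι → ℝ) (c : X → ℝ) {L : ℝ} (hL : 0 ≤ L)
    (h : ∀ x ∈ S, cov a x x ≤ L ^ 2) : Lip L (LZ S a c) := by
  have key : ∀ w w', LZ S a c w ≤ LZ S a c w' + L * ed w w' := fun w w' =>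
    log_sum_le (mul_nonneg hL (P150.F.ed_nonneg _ _)) fun x hx => by
      linarith [cs_ed (a x) w w' hL (h x hx)]
  intro w w'
  have h1 := key w' w
  rw [ed_comm] at h1
  exact abs_le.2 ⟨by linarith, by linarith [key w w']⟩

/-- a part with a small free energy can be removed -/
theorem split {S S1 S2 : Finset X} (a : X → ι → ℝ) (c : X → ℝ) {L : ℝ} (hL : 0 < L)
    (h : ∀ x ∈ S, cov a x x ≤ L ^ 2) (hS : S.Nonempty) (h1 : S1 ⊆ S) (h2 : S2 ⊆ S)
    (h12 : ∀ x ∈ S, x ∈ S1 ∨ x ∈ S2) (hs : S2.Nonempty → FE S2 a c + 8 * L + 1 ≤ FE S a c) :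
    S1.Nonempty ∧ FE S a c - (8 * L + 1) ≤ FE S1 a c := by
  classical
  have l0 := lip_LZ a c hL.le h
  have l1 := lip_LZ a c hL.le fun x hx => h x (h1 hx)
  have l2 := lip_LZ a c hL.le fun x hx => h x (h2 hx)
  have i : ∀ {T : Finset X}, Lip L (LZ T a c) →
      Integrable (fun z => (LZ T a c z - FE T a c) ^ 2) (gpi ι) := fun {T} l =>
    (l.add_const (-FE T a c)).integrable_sq
  have i01 : Integrable (fun z => (LZ S a c z - FE S a c) ^ 2 + (LZ S1 a c z - FE S1 a c) ^ 2)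
    (gpi ι) := (i l0).add (i l1)
  obtain ⟨z, hz⟩ := exists_le_integral (μ := gpi ι) (f := fun z => (LZ S a c z - FE S a c) ^ 2 +
    (LZ S1 a c z - FE S1 a c) ^ 2 + (LZ S2 a c z - FE S2 a c) ^ 2) (i01.add (i l2))
  rw [integral_add i01 (i l2), integral_add (i l0) (i l1)] at hz
  have v0 : ∫ z, (LZ S a c z - FE S a c) ^ 2 ∂gpi ι ≤ 4 * L ^ 2 := l0.var_le hL
  have v1 : ∫ z, (LZ S1 a c z - FE S1 a c) ^ 2 ∂gpi ι ≤ 4 * L ^ 2 := l1.var_le hL
  have v2 : ∫ z, (LZ S2 a c z - FE S2 a c) ^ 2 ∂gpi ι ≤ 4 * L ^ 2 := l2.var_le hL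
  have s0 := sq_nonneg (LZ S a c z - FE S a c)
  have s1 := sq_nonneg (LZ S1 a c z - FE S1 a c)
  have s2 := sq_nonneg (LZ S2 a c z - FE S2 a c)
  have sL := sq_nonneg L
  have d0 := abs_le.1 (abs_le_of_sq_le_sq (a := LZ S a c z - FE S a c) (b := 4 * L)
    (by linarith) (by positivity))
  have d1 := abs_le.1 (abs_le_of_sq_le_sq (a := LZ S1 a c z - FE S1 a c) (b := 4 * L)
    (by linarith) (by positivity))
  have d2 := abs_le.1 (abs_le_of_sq_le_sq (a := LZ S2 a c z - FE S2 a c) (b := 4 * L)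
    (by linarith) (by positivity))
  obtain ⟨H, hH⟩ : ∃ H : X → ℝ, H = fun x => Real.exp (∑ e, a x e * z e + c x) := ⟨_, rfl⟩
  have e : ∀ T, LZ T a c z = Real.log (∑ x ∈ T, H x) := fun T => by
    rw [hH]
    rfl
  have Hp : ∀ x, 0 < H x := fun x => by
    rw [hH]
    exact Real.exp_pos _
  have p0 : 0 < ∑ x ∈ S, H x := Finset.sum_pos (fun x _ => Hp x) hS
  have k1 : ∑ x ∈ S, H x ≤ ∑ x ∈ S1, H x + ∑ x ∈ S2, H x := by
    rw [← Finset.sum_union_inter]
    refine le_trans (Finset.sum_le_sum_of_subset_of_nonneg (t := S1 ∪ S2)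
      (fun x hx => Finset.mem_union.2 (h12 x hx)) fun x _ _ => (Hp x).le) ?_
    exact le_add_of_nonneg_right (Finset.sum_nonneg fun x _ => (Hp x).le)
  have e1 : (2 : ℝ) ≤ Real.exp 1 := by linarith [Real.add_one_le_exp 1]
  have k2 : 2 * ∑ x ∈ S2, H x ≤ ∑ x ∈ S, H x := by
    rcases S2.eq_empty_or_nonempty with rfl | hS2
    · simpa using p0.le
    have p2 : 0 < ∑ x ∈ S2, H x := Finset.sum_pos (fun x _ => Hp x) hS2
    have k3 : LZ S2 a c z + 1 ≤ LZ S a c z := by linarith [hs hS2]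
    have k4 := Real.exp_le_exp.2 k3
    rw [e, e, Real.exp_add, Real.exp_log p2, Real.exp_log p0] at k4
    nlinarith
  have p1 : 0 < ∑ x ∈ S1, H x := by linarith
  refine ⟨Finset.nonempty_of_sum_ne_zero p1.ne', ?_⟩
  have k5 : ∑ x ∈ S, H x ≤ (∑ x ∈ S1, H x) * Real.exp 1 := by nlinarith
  have k6 := Real.log_le_log p0 k5
  rw [Real.log_mul p1.ne' (Real.exp_pos _).ne', Real.log_exp, ← e, ← e] at k6
  linarith

/-- midpoint convexity in the deterministic energies -/
theorem FE_mid {S : Finset X} (hS : S.Nonempty) (a : X → ι → ℝ) {c c1 c2 : X → ℝ}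
    (h : ∀ x, 2 * c x = c1 x + c2 x) : 2 * FE S a c ≤ FE S a c1 + FE S a c2 := by
  have key : ∀ z, 2 * LZ S a c z ≤ LZ S a c1 z + LZ S a c2 z := fun z => by
    have p : ∀ c : X → ℝ, 0 < ∑ x ∈ S, Real.exp (∑ e, a x e * z e + c x) := fun c =>
      Finset.sum_pos (fun _ _ => Real.exp_pos _) hS
    have h1 := Finset.sum_mul_sq_le_sq_mul_sq S
      (fun x => Real.exp ((∑ e, a x e * z e + c1 x) / 2))
      fun x => Real.exp ((∑ e, a x e * z e + c2 x) / 2)
    have e1 : ∀ t : ℝ, Real.exp (t / 2) ^ 2 = Real.exp t := fun t => by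
      rw [pow_two, ← Real.exp_add, add_halves]
    have e2 : ∀ x, Real.exp ((∑ e, a x e * z e + c1 x) / 2) *
        Real.exp ((∑ e, a x e * z e + c2 x) / 2) = Real.exp (∑ e, a x e * z e + c x) := fun x => by
      rw [← Real.exp_add]
      congr 1
      linarith [h x]
    simp only [e1, e2] at h1
    have h2 := Real.log_le_log (pow_pos (p c) 2) h1
    rw [Real.log_pow, Real.log_mul (p c1).ne' (p c2).ne'] at h2
    exact_mod_cast h2
  have h1 := integral_mono ((integrable_LZ hS a c).const_mul 2)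
    ((integrable_LZ hS a c1).add (integrable_LZ hS a c2)) key
  rw [integral_const_mul, integral_add' (integrable_LZ hS a c1) (integrable_LZ hS a c2)] at h1
  exact h1

theorem FE_sum {κ : Type} [Fintype κ] {S : Finset X} (hS : S.Nonempty) (a : X → ι → ℝ)
    (a' : X → κ → ℝ) (c : X → ℝ) :
    Integrable (fun g => FE S a fun x => c x + ∑ i, a' x i * g i) (gpi κ) ∧
      FE S (fun x => Sum.elim (a x) (a' x)) c =
        ∫ g, FE S a (fun x => c x + ∑ i, a' x i * g i) ∂gpi κ := by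
  have hp := measurePreserving_sumPiEquivProdPi_symm (X := fun _ : ι ⊕ κ => ℝ)
    (fun _ => gaussianReal 0 1)
  have hi := integrable_LZ hS (fun x => Sum.elim (a x) (a' x)) c
  have e : ∀ p : (ι → ℝ) × (κ → ℝ), LZ S (fun x => Sum.elim (a x) (a' x)) c
      ((MeasurableEquiv.sumPiEquivProdPi fun _ : ι ⊕ κ => ℝ).symm p) =
      LZ S a (fun x => c x + ∑ i, a' x i * p.2 i) p.1 := fun p => by
    unfold LZ
    congr 1
    refine Finset.sum_congr rfl fun x _ => ?_
    rw [Fintype.sum_sum_type, add_assoc, add_comm _ (c x)]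
    rfl
  have h1 : Integrable (fun p : (ι → ℝ) × (κ → ℝ) =>
      LZ S a (fun x => c x + ∑ i, a' x i * p.2 i) p.1) ((gpi ι).prod (gpi κ)) := by
    have := hp.integrable_comp_of_integrable hi
    simpa only [Function.comp_def, e] using this
  refine ⟨h1.integral_prod_right, ?_⟩
  have h2 := hp.integral_comp' (LZ S (fun x => Sum.elim (a x) (a' x)) c)
  simp only [e] at h2
  exact h2.symm.trans (integral_prod_symm _ h1)

end gen

variable {n : ℕ} {ι : Type} [Fintype ι] {A : ι → Mat n}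

/-- the band free energy -/
noncomputable def fb (A : ι → Mat n) (b : ℝ) (S : Finset (Cfg n)) (w u : Vec n) : ℝ :=
  FE S (ga A b w) fun x => ip u (sv x)

/-- `S` lies in a band around `w` -/
structure Adm (S : Finset (Cfg n)) (w : Vec n) (r e : ℝ) : Prop where
  ne : S.Nonempty
  sq : |P150.F.sq w - n * r| ≤ e * n
  ip : ∀ x ∈ S, |ip w (sv x) - n * r| ≤ e * n

theorem continuous_fb {S : Finset (Cfg n)} (hS : S.Nonempty) (b : ℝ) (w : Vec n) :
    Continuous (fb A b S w) := by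
  have key : ∀ u u', fb A b S w u ≤ fb A b S w u' + √n * ed u u' := fun u u' =>
    FE_mono hS (fun _ h => h) _ fun x _ => by
      have := cs_ed (sv x) u u' (Real.sqrt_nonneg n)
        (by rw [Real.sq_sqrt (Nat.cast_nonneg n)]; exact (ip_sv_self x).le)
      rw [ip_symm u, ip_symm u']
      exact this
  refine Lip.continuous (L := √n) fun u u' => ?_
  have h1 := key u' u
  rw [ed_comm] at h1
  exact abs_le.2 ⟨by linarith, by linarith [key u u']⟩

/-- moving the centre, at the price of a Gaussian field -/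
theorem move (hA : GoeFam A) (hn : 0 < n) (b : ℝ) {S : Finset (Cfg n)} {w w' : Vec n}
    {r r' e e' : ℝ} (h : Adm S w r e) (h' : Adm S w' r' e') (hr : 0 ≤ r) (hrr : r ≤ r')
    (hr' : r' ≤ 1) (he : e ≤ 1) (he' : e' ≤ 1) (u : Vec n) :
    Integrable (fun g : Vec n => fb A b S w' fun i => u i + √(b ^ 2 * (r' - r)) * g i)
      (gpi (Fin n)) ∧ fb A b S w u ≤
      ∫ g : Vec n, fb A b S w' (fun i => u i + √(b ^ 2 * (r' - r)) * g i) ∂gpi (Fin n) +
        11 * b ^ 2 * (e + e') * n := by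
  have hn' : (0 : ℝ) < n := Nat.cast_pos.2 hn
  obtain ⟨s, hs⟩ : ∃ s, s = √(b ^ 2 * (r' - r)) := ⟨_, rfl⟩
  have hs2 : s * s = b ^ 2 * (r' - r) := by
    rw [hs]
    exact Real.mul_self_sqrt (mul_nonneg (sq_nonneg b) (sub_nonneg.2 hrr))
  rw [← hs]
  have h1 := FE_sum h.ne (ga A b w') (fun x i => s * sv x i) fun x => ip u (sv x)
  have e1 : ∀ (g : Vec n) (x : Cfg n), ip u (sv x) + ∑ i, s * sv x i * g i =
      ip (fun i => u i + s * g i) (sv x) := fun g x => by
    unfold ip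
    rw [← Finset.sum_add_distrib]
    exact Finset.sum_congr rfl fun i _ => by ring
  simp only [e1] at h1
  refine ⟨h1.1, ?_⟩
  unfold fb
  rw [← h1.2]
  refine cmp_abs h.ne _ _ _ (C := n * b ^ 2 / 2 * (r ^ 2 - r' ^ 2)) fun x hx y hy => ?_
  have k1 := abs_le.1 (cov_band hA hn b hr (hrr.trans hr') he h.sq (h.ip x hx) (h.ip y hy))
  have k2 := abs_le.1 (cov_band hA hn b (hr.trans hrr) hr' he' h'.sq (h'.ip x hx) (h'.ip y hy))
  have e2 : cov (fun x => Sum.elim (ga A b w' x) fun i => s * sv x i) x y =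
      cov (ga A b w') x y + b ^ 2 * (r' - r) * ip (sv x) (sv y) := by
    unfold cov ip
    rw [Fintype.sum_sum_type, ← hs2, Finset.mul_sum]
    congr 1
    exact Finset.sum_congr rfl fun i _ => by
      simp only [Sum.elim_inr]
      ring
  have e3 : n * b ^ 2 / 2 * (ip (sv x) (sv y) / n - r) ^ 2 -
      n * b ^ 2 / 2 * (ip (sv x) (sv y) / n - r') ^ 2 =
      b ^ 2 * (r' - r) * ip (sv x) (sv y) + n * b ^ 2 / 2 * (r ^ 2 - r' ^ 2) := by
    field_simp
    ring
  rw [e2, abs_le]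
  constructor <;> linarith

/-- the Guerra bound at the level `r` -/
def Gu (A : ι → Mat n) (b r I : ℝ) (F : ℝ → ℝ) : Prop :=
  ∀ (S : Finset (Cfg n)) (w u : Vec n) (e : ℝ), Adm S w r e → e ≤ 1 →
    fb A b S w u ≤ ∑ i, F (u i) + n * I + 11 * b ^ 2 * e * n

theorem tilt {b r I : ℝ} {F D : ℝ → ℝ} (hG : Gu A b r I F) (hF : Sm F D) {S : Finset (Cfg n)}
    {w : Vec n} {η : ℝ} (h : Adm S w r η) (hη : η ≤ 1) (u : Vec n) (l t : ℝ)
    (ht : ∀ x ∈ S, t ≤ l * (ip (fun i => D (u i)) (sv x) - P150.F.sq fun i => D (u i))) :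
    fb A b S w u ≤ ∑ i, F (u i) + n * I + 11 * b ^ 2 * η * n + l ^ 2 * n - t := by
  have h1 := hG S w (fun i => u i + l * D (u i)) η h hη
  have h2 : fb A b S w u ≤ fb A b S w (fun i => u i + l * D (u i)) +
      (-t - l * P150.F.sq fun i => D (u i)) := FE_mono h.ne (fun _ h => h) _ fun x hx => by
    have e : ip (fun i => u i + l * D (u i)) (sv x) =
        ip u (sv x) + l * ip (fun i => D (u i)) (sv x) := by
      unfold ip
      rw [Finset.mul_sum, ← Finset.sum_add_distrib]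
      exact Finset.sum_congr rfl fun i _ => by ring
    rw [e]
    linarith [ht x hx]
  have h3 : ∑ i, F (u i + l * D (u i)) ≤ ∑ i, (F (u i) + l * D (u i) ^ 2 + l ^ 2) :=
    Finset.sum_le_sum fun i _ => by
      have k1 := (abs_le.1 (hF.quad (u i) (l * D (u i)))).2
      have k2 : D (u i) ^ 2 ≤ 1 := by
        rw [← sq_abs]
        exact pow_le_one₀ (abs_nonneg _) (hF.bd _)
      nlinarith [mul_le_mul_of_nonneg_left k2 (sq_nonneg l)]
  rw [Finset.sum_add_distrib, Finset.sum_add_distrib, ← Finset.mul_sum] at h3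
  simp only [Finset.sum_const, Finset.card_univ, Fintype.card_fin, nsmul_eq_mul] at h3
  unfold P150.F.sq at h2
  linarith

/-- the size condition on `n` -/
def Big (b η : ℝ) (n : ℕ) : Prop := ∃ L : ℝ, 0 < L ∧ 12 * b ^ 2 * n ≤ L ^ 2 ∧ 8 * L + 1 ≤ η * n

/-- **pinning**: the free energy is carried by a thin band around the magnetisation -/
theorem pin (hA : GoeFam A) (hn : 0 < n) {b r I : ℝ} {F D : ℝ → ℝ} (hG : Gu A b r I F)
    (hF : Sm F D) (hr : 0 ≤ r) (hr1 : r ≤ 1) {S : Finset (Cfg n)} {w u : Vec n} {η ε ρ : ℝ}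
    (h : Adm S w r η) (hη : η ≤ 1) (hB : Big b η n) (hε : 0 ≤ ε)
    (hηε : 8 * ((11 * b ^ 2 + 3) * η) ≤ ε ^ 2)
    (hu : ∑ i, F (u i) + n * I - η * n < fb A b S w u)
    (hρ : |(P150.F.sq fun i => D (u i)) - n * ρ| ≤ ε / 4 * n) :
    ∃ S' ⊆ S, Adm S' (fun i => D (u i)) ρ ε ∧
      ∑ i, F (u i) + n * I - 3 * η * n ≤ fb A b S' w u := by
  obtain ⟨L, hL, hL1, hL2⟩ := hB
  have hn' : (0 : ℝ) < n := Nat.cast_pos.2 hn
  have hc : ∀ x ∈ S, cov (ga A b w) x x ≤ L ^ 2 := fun x hx => by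
    have k1 := (abs_le.1 (cov_band hA hn b hr hr1 hη h.sq (h.ip x hx) (h.ip x hx))).2
    rw [ip_sv_self, div_self hn'.ne'] at k1
    have k2 : (1 - r) ^ 2 ≤ 1 := by nlinarith
    have k3 : 0 ≤ b ^ 2 * n := by positivity
    nlinarith [mul_le_mul_of_nonneg_left k2 k3, mul_le_mul_of_nonneg_left hη k3]
  have hρ' := abs_le.1 hρ
  have hεn : 0 ≤ ε * n := by positivity
  have hq := mul_le_mul_of_nonneg_right hηε hn'.le
  obtain ⟨p, hp⟩ : ∃ p : Cfg n → ℝ, p = fun x => ip (fun i => D (u i)) (sv x) - n * ρ := ⟨_, rfl⟩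
  have hp' : ∀ x, ip (fun i => D (u i)) (sv x) = p x + n * ρ := fun x => by
    rw [hp]
    ring
  have side : ∀ (T : Finset (Cfg n)) (l : ℝ), T ⊆ S → T.Nonempty → |l| = ε / 2 →
      (∀ x ∈ T, ε / 2 * (ε * n) ≤ l * p x) →
      fb A b T w u + 8 * L + 1 ≤ fb A b S w u - (8 * L + 1) := fun T l hT hne hl hx => by
    have k := tilt hG hF (S := T) ⟨hne, h.sq, fun x hx => h.ip x (hT hx)⟩ hη u l
      (ε / 2 * (ε * n) - ε / 2 * (ε / 4 * n)) fun x hx' => by
        have k1 : |l * ((P150.F.sq fun i => D (u i)) - n * ρ)| ≤ ε / 2 * (ε / 4 * n) := by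
          rw [abs_mul, hl]
          exact mul_le_mul_of_nonneg_left hρ (by positivity)
        rw [hp']
        linarith [hx x hx', (abs_le.1 k1).2]
    rw [← sq_abs l, hl] at k
    linarith
  have s1 := split (S := S) (S1 := S.filter fun x => p x ≤ ε * n)
    (S2 := S.filter fun x => ε * n ≤ p x) (ga A b w) (fun x => ip u (sv x)) hL hc h.ne
    (Finset.filter_subset _ _) (Finset.filter_subset _ _)
    (fun x hx => by simpa [hx] using le_total _ _) fun hne => by
      have := side _ (ε / 2) (Finset.filter_subset _ _) hne (abs_of_nonneg (by positivity))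
        fun x hx => mul_le_mul_of_nonneg_left (Finset.mem_filter.1 hx).2 (by positivity)
      unfold fb at this
      linarith
  have s2 := split (S := S.filter fun x => p x ≤ ε * n)
    (S1 := S.filter fun x => |p x| ≤ ε * n) (S2 := S.filter fun x => p x ≤ -(ε * n) ∧ p x ≤ ε * n)
    (ga A b w) (fun x => ip u (sv x)) hL (fun x hx => hc x (Finset.mem_filter.1 hx).1) s1.1
    (Finset.monotone_filter_right _ fun x _ hx => (abs_le.1 hx).2)
    (Finset.monotone_filter_right _ fun x _ hx => hx.2)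
    (fun x hx => by
      obtain ⟨k1, k2⟩ := Finset.mem_filter.1 hx
      rcases le_total (p x) (-(ε * n)) with k | k
      · exact Or.inr (Finset.mem_filter.2 ⟨k1, k, k2⟩)
      · exact Or.inl (Finset.mem_filter.2 ⟨k1, abs_le.2 ⟨k, k2⟩⟩)) fun hne => by
      have := side _ (-(ε / 2)) (Finset.filter_subset _ _) hne
        (by rw [abs_neg, abs_of_nonneg (by positivity)]) fun x hx => by
          have := mul_le_mul_of_nonneg_left (Finset.mem_filter.1 hx).2.1
            (by positivity : 0 ≤ ε / 2)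
          linarith
      unfold fb at this
      linarith [s1.2]
  refine ⟨_, Finset.filter_subset _ _, ⟨s2.1, hρ.trans (by linarith), fun x hx => ?_⟩, ?_⟩
  · rw [hp', add_sub_cancel_right]
    exact (Finset.mem_filter.1 hx).2
  · unfold fb at hu ⊢
    linarith [s1.2, s2.2]

end Vale.Agent.N150.Pin
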