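import Vale.Agent.N150.Pin2
import Vale.Agent.P146.Bdl.B22

/-! Sequential pinning: the iteration. -/

open MeasureTheory ProbabilityTheory Filter Matrix

namespace Vale.Agent.N150.Pin

open Vale.Agent.N150.Bc Vale.Agent.N150.Edge
open Vale.Agent.P150 (Cfg gpi)
open Vale.Agent.P150.F (sv ip Vec Mat Lip ed)

variable {n : ℕ} {ι : Type} [Fintype ι] {A : ι → Mat n}

theorem Adm.mono {S : Finset (Cfg n)} {w : Vec n} {r e e' : ℝ} (h : Adm S w r e) (he : e ≤ e') :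
    Adm S w r e' :=
  ⟨h.ne, h.sq.trans (mul_le_mul_of_nonneg_right he (Nat.cast_nonneg n)), fun x hx =>
    (h.ip x hx).trans (mul_le_mul_of_nonneg_right he (Nat.cast_nonneg n))⟩

theorem Adm.sub {S T : Finset (Cfg n)} {w : Vec n} {r e : ℝ} (h : Adm S w r e) (hT : T ⊆ S)
    (hne : T.Nonempty) : Adm T w r e := ⟨hne, h.sq, fun x hx => h.ip x (hT hx)⟩

/-- the good fields -/
def GS (A : ι → Mat n) (b r I η : ℝ) (P : ℝ → ℝ) : Set (Vec n) :=
  {u | ∃ S w, Adm S w r η ∧ ∑ i, P (u i) + n * I - η * n < fb A b S w u}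

theorem isOpen_GS (b r I η : ℝ) {P : ℝ → ℝ} (hP : Continuous P) : IsOpen (GS A b r I η P) := by
  refine isOpen_iff_forall_mem_open.2 fun u ⟨S, w, h, hu⟩ =>
    ⟨{u | ∑ i, P (u i) + n * I - η * n < fb A b S w u}, fun u hu => ⟨S, w, h, hu⟩, ?_, hu⟩
  exact isOpen_lt (by fun_prop) (continuous_fb h.ne b w)

theorem ev_big (b : ℝ) {η : ℝ} (hη : 0 < η) : ∀ᶠ n : ℕ in atTop, Big b η n := by
  filter_upwards [tendsto_natCast_atTop_atTop.eventually_ge_atTop (2 / η),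
    tendsto_natCast_atTop_atTop.eventually_ge_atTop (3072 * b ^ 2 / η ^ 2)] with n h1 h2
  rw [div_le_iff₀ hη] at h1
  rw [div_le_iff₀ (by positivity)] at h2
  refine ⟨η * n / 16, by linarith, ?_, by linarith⟩
  nlinarith [mul_le_mul_of_nonneg_right h2 (Nat.cast_nonneg (α := ℝ) n)]

theorem ev_cheb {δ p : ℝ} (hδ : 0 < δ) (hp : 0 < p) :
    ∀ᶠ n : ℕ in atTop, 1 / (δ ^ 2 * n) ≤ p := by
  filter_upwards [tendsto_natCast_atTop_atTop.eventually_ge_atTop (1 / (δ ^ 2 * p)),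
    eventually_gt_atTop 0] with n h1 hn
  have hn' : (0 : ℝ) < n := Nat.cast_pos.2 hn
  rw [div_le_iff₀ (by positivity)] at h1 ⊢
  linarith

/-- the data of the iteration -/
structure Dat (b q I V : ℝ) (F D : ℝ → ℝ) : Prop where
  q0 : 0 ≤ q
  q1 : q ≤ 1
  V0 : 0 ≤ V
  sm : Sm F D
  gu : ∀ (n : ℕ) (ι : Type) [Fintype ι] (A : ι → Mat n), GoeFam A → 0 < n → ∀ r, 0 ≤ r → r ≤ q →
    Gu A b r I (Pin.sm F (b ^ 2 * (q - r)))

/-- the overlap map -/
noncomputable def ps (b q V : ℝ) (D : ℝ → ℝ) (r : ℝ) : ℝ :=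
  ∫ z, sm D (b ^ 2 * (q - r)) (√(V + b ^ 2 * r) * z) ^ 2 ∂(gaussianReal 0 1)

/-- the field of the level `r` is good with probability `1 - η` -/
def Good (b q I V : ℝ) (F : ℝ → ℝ) (r η : ℝ) : Prop :=
  ∀ᶠ n : ℕ in atTop, ∀ (ι : Type) [Fintype ι] (A : ι → Mat n), GoeFam A → (gpi (Fin n)).real
    {z | (fun i => √(V + b ^ 2 * r) * z i) ∈ (GS A b r I η (sm F (b ^ 2 * (q - r))))ᶜ} ≤ η

variable {b q I V r : ℝ} {F D : ℝ → ℝ}

theorem Good.mono {η η' : ℝ} (h : Good b q I V F r η) (hη : η ≤ η') : Good b q I V F r η' := by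
  filter_upwards [h] with n h ι _ A hA
  refine le_trans (measureReal_mono fun z hz => ?_) ((h ι A hA).trans hη)
  rintro ⟨S, w, h1, h2⟩
  refine hz ⟨S, w, h1.mono hη, ?_⟩
  linarith [mul_le_mul_of_nonneg_right hη (Nat.cast_nonneg (α := ℝ) n)]

theorem tower {H : ℝ → ℝ} (hH : Continuous H)
    (hi : ∀ y a, Integrable (fun z => H (y + a * z)) (gaussianReal 0 1)) {r' : ℝ} (h1 : r ≤ r')
    (h2 : r' ≤ q) : sm H (b ^ 2 * (q - r)) = sm (sm H (b ^ 2 * (q - r'))) (b ^ 2 * (r' - r)) := by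
  funext y
  rw [show b ^ 2 * (q - r) = b ^ 2 * (r' - r) + b ^ 2 * (q - r') by ring]
  exact sm_sm hH hi (mul_nonneg (sq_nonneg b) (sub_nonneg.2 h1))
    (mul_nonneg (sq_nonneg b) (sub_nonneg.2 h2)) y

theorem ps_mono (h : Dat b q I V F D) {r' : ℝ} (h0 : 0 ≤ r) (h1 : r ≤ r') (h2 : r' ≤ q) :
    ps b q V D r ≤ ps b q V D r' := by
  have k := (h.sm.sm (b ^ 2 * (q - r'))).mono (a := V + b ^ 2 * r) (v := b ^ 2 * (r' - r))
    (add_nonneg h.V0 (by positivity)) (mul_nonneg (sq_nonneg b) (sub_nonneg.2 h1))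
  rw [show V + b ^ 2 * r + b ^ 2 * (r' - r) = V + b ^ 2 * r' by ring] at k
  unfold ps
  rw [tower h.sm.cont h.sm.intD h1 h2]
  exact k

/-- the exceptional set of one step -/
def Bad (A : ι → Mat n) (b q I V : ℝ) (F D : ℝ → ℝ) (r η ε : ℝ) : Set (Vec n) :=
  {z | (fun i => √(V + b ^ 2 * r) * z i) ∈ (GS A b r I η (sm F (b ^ 2 * (q - r))))ᶜ} ∪
    {z | ε / 4 * n ≤ |∑ i, sm D (b ^ 2 * (q - r)) (√(V + b ^ 2 * r) * z i) ^ 2 - n * ps b q V D r|}

theorem ev_bad (h : Dat b q I V F D) {η ε p : ℝ} (hε : 0 < ε) (hp : 0 < p)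
    (hG : Good b q I V F r η) : ∀ᶠ n : ℕ in atTop, ∀ (ι : Type) [Fintype ι] (A : ι → Mat n),
      GoeFam A → (gpi (Fin n)).real (Bad A b q I V F D r η ε) ≤ η + p := by
  filter_upwards [hG, ev_cheb (δ := ε / 4) (by positivity) hp, eventually_gt_atTop 0]
    with n h1 h2 hn ι _ A hA
  refine (measureReal_union_le _ _).trans (add_le_add (h1 ι A hA) (le_trans ?_ h2))
  exact cheb hn (f := fun z => sm D (b ^ 2 * (q - r)) (√(V + b ^ 2 * r) * z) ^ 2)
    (((h.sm.sm _).cont.comp (by fun_prop)).pow 2) (fun x => by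
      rw [abs_pow]
      exact pow_le_one₀ (abs_nonneg _) ((h.sm.sm _).bd _)) (by positivity)

theorem pin_bad (h : Dat b q I V F D) (hA : GoeFam A) (hn : 0 < n) (hr : 0 ≤ r) (hq : r ≤ q)
    {η ε : ℝ} (hη : η ≤ 1) (hB : Big b η n) (hε : 0 ≤ ε) (hηε : 8 * ((11 * b ^ 2 + 3) * η) ≤ ε ^ 2)
    {z u : Vec n} (hu : u = fun i => √(V + b ^ 2 * r) * z i) (hz : z ∉ Bad A b q I V F D r η ε) :
    ∃ S w, Adm S w r η ∧ Adm S (fun i => sm D (b ^ 2 * (q - r)) (u i)) (ps b q V D r) ε ∧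
      ∑ i, sm F (b ^ 2 * (q - r)) (u i) + n * I - 3 * η * n ≤ fb A b S w u := by
  subst hu
  obtain ⟨h1, h2⟩ := not_or.1 hz
  obtain ⟨S, w, h3, h4⟩ := not_not.1 h1
  obtain ⟨S', k1, k2, k3⟩ := pin hA hn (h.gu n ι A hA hn r hr hq) (h.sm.sm _) hr (hq.trans h.q1)
    h3 hη hB hε hηε h4 (not_le.1 h2).le
  exact ⟨S', w, h3.sub k1 k2.ne, k2, k3⟩

theorem small (b : ℝ) {ε p : ℝ} (hε : 0 < ε) (hε1 : ε ≤ 1) (hp : 0 < p) :
    ∃ η : ℝ, 0 < η ∧ η ≤ 1 ∧ η ≤ p ∧ 8 * ((11 * b ^ 2 + 3) * η) ≤ ε ^ 2 := by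
  have h1 : 8 * ((11 * b ^ 2 + 3) * min (ε ^ 2 / (8 * (11 * b ^ 2 + 3))) p) ≤ ε ^ 2 := by
    have := min_le_left (ε ^ 2 / (8 * (11 * b ^ 2 + 3))) p
    rw [le_div_iff₀ (by positivity)] at this
    linarith
  have h2 : 0 < min (ε ^ 2 / (8 * (11 * b ^ 2 + 3))) p := by positivity
  refine ⟨_, h2, ?_, min_le_right _ _, h1⟩
  nlinarith [mul_nonneg (sq_nonneg b) h2.le]

theorem step (b : ℝ) {t : ℝ} (ht : 0 < t) : ∃ η : ℝ, 0 < η ∧ η ≤ t ∧
    ∀ (q I V : ℝ) (F D : ℝ → ℝ) (r : ℝ), Dat b q I V F D → 0 ≤ r → r ≤ ps b q V D r →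
      ps b q V D r ≤ q → Good b q I V F r η → Good b q I V F (ps b q V D r) t := by
  obtain ⟨ε, hε, hε1, hεt, hε2⟩ : ∃ ε : ℝ, 0 < ε ∧ ε ≤ 1 ∧ ε ≤ t ∧
      ε * (3 * (22 * b ^ 2 + 1)) ≤ t ^ 2 :=
    ⟨min 1 (min t (t ^ 2 / (3 * (22 * b ^ 2 + 1)))), by positivity, min_le_left _ _,
      (min_le_right _ _).trans (min_le_left _ _),
      (le_div_iff₀ (by positivity)).1 ((min_le_right _ _).trans (min_le_right _ _))⟩
  obtain ⟨η, hη, hη1, hηt, hηε⟩ := small b hε hε1 (p := t / 3) (by positivity)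
  refine ⟨η, hη, by linarith, fun q I V F D r h hr h1 h2 hG => ?_⟩
  filter_upwards [ev_bad h hε (p := t / 3) (by positivity) hG, ev_big b hη, eventually_gt_atTop 0]
    with n hb hB hn ι _ A hA
  have hn' : (0 : ℝ) < n := Nat.cast_pos.2 hn
  obtain ⟨ρ, hρ⟩ : ∃ ρ, ρ = ps b q V D r := ⟨_, rfl⟩
  rw [← hρ] at h1 h2 ⊢
  have hS := h.sm.sm (b ^ 2 * (q - ρ))
  have k := conv_le (isOpen_GS (A := A) b ρ I t hS.contF).measurableSet.compl
    (Bad A b q I V F D r η ε) (a := V + b ^ 2 * r) (v := b ^ 2 * (ρ - r)) (p := t / 3)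
    (add_nonneg h.V0 (by positivity)) (mul_nonneg (sq_nonneg b) (sub_nonneg.2 h1))
    (by positivity) fun z hz => by
      obtain ⟨u, hu⟩ : ∃ u : Vec n, u = fun i => √(V + b ^ 2 * r) * z i := ⟨_, rfl⟩
      obtain ⟨S, w, k1, k2, k3⟩ := pin_bad h hA hn hr (h1.trans h2) hη1 hB hε.le hηε hu hz
      rw [← hρ] at k2
      obtain ⟨k4, k5⟩ := move hA hn b k1 k2 hr h1 (h2.trans h.q1) hη1 hε1 u
      obtain ⟨k6, k7⟩ := int_sum (n := n)
        (f := fun i g => sm F (b ^ 2 * (q - ρ)) (u i + √(b ^ 2 * (ρ - r)) * g)) fun i => hS.int _ _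
      have k8 := markov k4 (g := fun g : Vec n =>
        ∑ i, sm F (b ^ 2 * (q - ρ)) (u i + √(b ^ 2 * (ρ - r)) * g i) + n * I)
        (k6.add (integrable_const _)) (a := 11 * b ^ 2 * ε * n)
        (c := 3 * η * n + 11 * b ^ 2 * (η + ε) * n) (t := t * n) (by positivity) (by positivity)
        (fun g => h.gu n ι A hA hn ρ (hr.trans h1) h2 S _ _ ε k2 hε1) (by
          rw [integral_add k6 (integrable_const _), k7]
          rw [tower h.sm.contF h.sm.int h1 h2] at k3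
          simp only [integral_const, probReal_univ, smul_eq_mul, one_mul]
          have k9 : ∑ i, sm (sm F (b ^ 2 * (q - ρ))) (b ^ 2 * (ρ - r)) (u i) = ∑ i,
            ∫ g, sm F (b ^ 2 * (q - ρ)) (u i + √(b ^ 2 * (ρ - r)) * g) ∂(gaussianReal 0 1) := rfl
          linarith)
      refine le_trans (measureReal_mono fun g hg => ?_) (k8.trans ?_)
      · subst hu
        exact not_lt.1 fun hc => hg ⟨S, _, k2.mono hεt, hc⟩
      · rw [div_le_iff₀ (by positivity)]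
        have : 11 * b ^ 2 * ε + (3 * η + 11 * b ^ 2 * (η + ε)) ≤ t / 3 * t := by nlinarith
        nlinarith [mul_le_mul_of_nonneg_right this hn'.le]
  rw [show V + b ^ 2 * r + b ^ 2 * (ρ - r) = V + b ^ 2 * ρ by ring] at k
  linarith [hb ι A hA]

theorem seq (h : Dat b q I V F D) (hq : ps b q V D q ≤ q) (j : ℕ) :
    0 ≤ (ps b q V D)^[j] 0 ∧ (ps b q V D)^[j] 0 ≤ ps b q V D ((ps b q V D)^[j] 0) ∧
      ps b q V D ((ps b q V D)^[j] 0) ≤ q := by
  induction j with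
  | zero => exact ⟨le_rfl, integral_nonneg fun _ => sq_nonneg _,
      (ps_mono h le_rfl h.q0 le_rfl).trans hq⟩
  | succ j ih =>
    obtain ⟨h1, h2, h3⟩ := ih
    rw [Function.iterate_succ_apply']
    exact ⟨h1.trans h2, ps_mono h h1 h2 h3, (ps_mono h (h1.trans h2) h3 le_rfl).trans hq⟩

theorem iter (b : ℝ) (k : ℕ) : ∀ t : ℝ, 0 < t → ∃ η : ℝ, 0 < η ∧
    ∀ (q I V : ℝ) (F D : ℝ → ℝ), Dat b q I V F D → ps b q V D q ≤ q → Good b q I V F 0 η →
      ∀ j ≤ k, Good b q I V F ((ps b q V D)^[j] 0) t := by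
  induction k with
  | zero =>
    refine fun t ht => ⟨t, ht, fun q I V F D _ _ hG j hj => ?_⟩
    rw [Nat.le_zero.1 hj]
    exact hG
  | succ k ih =>
    intro t ht
    obtain ⟨s, hs, hst, h1⟩ := step b ht
    obtain ⟨η, hη, h2⟩ := ih s hs
    refine ⟨η, hη, fun q I V F D h hq hG j hj => ?_⟩
    rcases Nat.of_le_succ hj with hj | rfl
    · exact (h2 q I V F D h hq hG j hj).mono hst
    · obtain ⟨k1, k2, k3⟩ := seq h hq k
      rw [Function.iterate_succ_apply']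
      exact h1 q I V F D _ h k1 k2 k3 (h2 q I V F D h hq hG k le_rfl)

theorem pigeon (h : Dat b q I V F D) (hq : ps b q V D q ≤ q) {ε : ℝ} {k : ℕ} (hk : 1 < ε * k) :
    ∃ j ≤ k, ps b q V D ((ps b q V D)^[j] 0) ≤ (ps b q V D)^[j] 0 + ε := by
  by_contra hc
  push Not at hc
  have key : ∀ j ≤ k, ε * j ≤ (ps b q V D)^[j] 0 := fun j => by
    induction j with
    | zero => simp
    | succ j ih =>
      intro hj
      rw [Function.iterate_succ_apply', Nat.cast_succ]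
      linarith [ih (by omega), hc j (by omega)]
  obtain ⟨_, k2, k3⟩ := seq h hq k
  linarith [key k le_rfl, h.q1]

theorem base (h : Dat b q I V F D) {t : ℝ} (ht : 0 < t)
    (hS : ∀ᶠ n : ℕ in atTop, ∀ (ι : Type) [Fintype ι] (A : ι → Mat n), GoeFam A →
      n * (∫ z, sm F (b ^ 2 * (q - 0)) (√V * z) ∂(gaussianReal 0 1) + I - t ^ 2) ≤
        ∫ z, fb A b Finset.univ 0 (fun i => √V * z i) ∂(gpi (Fin n))) : Good b q I V F 0 t := by
  filter_upwards [hS, eventually_gt_atTop 0] with n h1 hn ι _ A hA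
  have hn' : (0 : ℝ) < n := Nat.cast_pos.2 hn
  have k1 : Adm (Finset.univ : Finset (Cfg n)) 0 0 0 :=
    ⟨Finset.univ_nonempty, by simp [P150.F.sq], fun x _ => by simp [ip]⟩
  have k4 := (FE_sum k1.ne (ga A b 0) (fun x i => √V * sv x i) fun _ => 0).1
  have e1 : ∀ (g : Vec n) (x : Cfg n), 0 + ∑ i, √V * sv x i * g i =
      ip (fun i => √V * g i) (sv x) := fun g x => by
    unfold ip
    rw [zero_add]
    exact Finset.sum_congr rfl fun i _ => by ring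
  simp only [e1] at k4
  obtain ⟨k6, k7⟩ := int_sum (n := n) (f := fun _ g => sm F (b ^ 2 * (q - 0)) (√V * g))
    fun i => by simpa only [zero_add] using (h.sm.sm (b ^ 2 * (q - 0))).int 0 √V
  have k8 := markov (f := fun g => fb A b Finset.univ 0 fun i => √V * g i) k4
    (g := fun g : Vec n => ∑ i, sm F (b ^ 2 * (q - 0)) (√V * g i) + n * I)
    (k6.add (integrable_const _)) (a := 11 * b ^ 2 * 0 * n) (c := t ^ 2 * n) (t := t * n)
    (by positivity) (by positivity)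
    (fun g => h.gu n ι A hA hn 0 le_rfl h.q0 _ _ _ 0 k1 zero_le_one) (by
      rw [integral_add k6 (integrable_const _), k7]
      simp only [integral_const, probReal_univ, smul_eq_mul, one_mul, Finset.sum_const,
        Finset.card_univ, Fintype.card_fin, nsmul_eq_mul]
      linarith [h1 ι A hA])
  rw [mul_zero, add_zero]
  refine le_trans (measureReal_mono fun g hg => ?_) (k8.trans (le_of_eq ?_))
  · exact not_lt.1 fun hc => hg ⟨_, _, k1.mono ht.le, hc⟩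
  · field_simp
    ring

theorem final (b : ℝ) {e : ℝ} (he : 0 < e) : ∃ ε η : ℝ, 0 < ε ∧ ε ≤ e ∧ 0 < η ∧
    ∀ (q I V : ℝ) (F D : ℝ → ℝ) (r : ℝ), Dat b q I V F D → 0 ≤ r → r ≤ q → r ≤ ps b q V D r →
      ps b q V D r ≤ r + ε → Good b q I V F r η →
      Band b (sm F (b ^ 2 * (q - r))) I √(V + b ^ 2 * r) r e := by
  obtain ⟨ε, hε, hε1, hε2⟩ : ∃ ε : ℝ, 0 < ε ∧ ε ≤ 1 / 2 ∧ ε * (66 * b ^ 2 + 2) ≤ e :=
    ⟨min (1 / 2) (e / (66 * b ^ 2 + 2)), by positivity, min_le_left _ _,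
      (le_div_iff₀ (by positivity)).1 (min_le_right _ _)⟩
  have hε3 : 0 ≤ ε * b ^ 2 := by positivity
  obtain ⟨η, hη, hη1, hηt, hηε⟩ := small b hε (by linarith) (p := 1 / 16) (by positivity)
  refine ⟨ε, η, hε, by linarith, hη, fun q I V F D r h hr hq h1 h2 hG => ?_⟩
  filter_upwards [ev_bad h hε (p := 1 / 16) (by positivity) hG, ev_big b hη, eventually_gt_atTop 0]
    with n hb hB hn ι _ A hA
  have hn' : (0 : ℝ) < n := Nat.cast_pos.2 hn
  rw [(h.sm.sm _).deriv_eq]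
  have k0 := measureReal_union_le (μ := gpi (Fin n)) (Bad A b q I V F D r η ε)ᶜ
    (Bad A b q I V F D r η ε)
  rw [Set.compl_union_self, probReal_univ] at k0
  refine le_trans (by linarith [hb ι A hA]) (measureReal_mono
    (s₁ := (Bad A b q I V F D r η ε)ᶜ) fun z hz => ?_)
  obtain ⟨S, w, k1, k2, k3⟩ := pin_bad h hA hn hr hq hη1 hB hε.le hηε rfl hz
  have tr : ∀ y : ℝ, |y - n * ps b q V D r| ≤ ε * n → |y - n * r| ≤ 2 * ε * n := fun y hy => by
    have := abs_le.1 hy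
    have k4 := mul_le_mul_of_nonneg_left h1 hn'.le
    have k5 := mul_le_mul_of_nonneg_left h2 hn'.le
    exact abs_le.2 ⟨by linarith, by linarith⟩
  have k4 : Adm S _ r (2 * ε) := ⟨k2.ne, tr _ k2.sq, fun x hx => tr _ (k2.ip x hx)⟩
  have k5 := (move hA hn b k1 k4 hr le_rfl (hq.trans h.q1) hη1 (by linarith)
    fun i => √(V + b ^ 2 * r) * z i).2
  simp only [sub_self, mul_zero, Real.sqrt_zero, zero_mul, add_zero, integral_const, probReal_univ,
    smul_eq_mul, one_mul] at k5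
  have k6 : S ⊆ band (fun i => sm D (b ^ 2 * (q - r)) (√(V + b ^ 2 * r) * z i)) (n * r) (e * n) :=
    fun x hx => Finset.mem_filter.2 ⟨Finset.mem_univ _,
      (k4.mono (by linarith : 2 * ε ≤ e)).ip x hx⟩
  refine ⟨k4.ne.mono k6, fun u => ?_⟩
  have k7 := FE_mono k4.ne k6 (ga A b fun i => sm D (b ^ 2 * (q - r)) (√(V + b ^ 2 * r) * z i))
    (c := fun x => ip u (sv x)) (c' := fun x => ip u (sv x)) (t := 0) fun x _ => by simp
  have k8 := FE_mid k4.ne (ga A b fun i => sm D (b ^ 2 * (q - r)) (√(V + b ^ 2 * r) * z i))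
    (c := fun x => ip (fun i => √(V + b ^ 2 * r) * z i) (sv x)) (c1 := fun x => ip u (sv x))
    (c2 := fun x => ip (fun i => 2 * (√(V + b ^ 2 * r) * z i) - u i) (sv x)) fun x => by
      unfold ip
      rw [Finset.mul_sum, ← Finset.sum_add_distrib]
      exact Finset.sum_congr rfl fun i _ => by ring
  have k9 := h.gu n ι A hA hn r hr hq S _ (fun i => 2 * (√(V + b ^ 2 * r) * z i) - u i) _ k4
    (by linarith)
  have k10 : 2 * (3 * η + 11 * b ^ 2 * (η + 2 * ε)) + 11 * b ^ 2 * (2 * ε) ≤ e := by nlinarith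
  have k11 := mul_le_mul_of_nonneg_right k10 hn'.le
  unfold fb at k3 k5 k9
  simp only [Finset.sum_sub_distrib, Finset.sum_add_distrib, ← Finset.mul_sum, Finset.sum_const,
    Finset.card_univ, Fintype.card_fin, nsmul_eq_mul]
  linarith

theorem sm_Phi (b : ℝ) {K : ℕ} {m q : ℕ → ℝ} (hm : P157.Par.Exponents K m)
    (hq : P157.Par.Path K q) : ∃ D, Sm (Phi b K m q) D := by
  have h := P146.Pw2.fl_ec (r := fun l => b ^ 2 * q l) hm
    ⟨mul_nonneg (sq_nonneg b) hq.1, fun l hl => mul_le_mul_of_nonneg_left (hq.2 l hl) (sq_nonneg b)⟩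
    (Nat.zero_le K)
  rw [P146.Pw2.fl_zero] at h
  refine ⟨_, sm_of_deriv h.d1 h.d2 (fun x => ?_) fun x => ?_⟩
  · exact abs_le_one_iff_mul_self_le_one.2 (by linarith [h.D0 x, h.D1 x])
  · rw [abs_of_nonneg (h.D0 x)]
    linarith [h.D1 x, sq_nonneg (iteratedDeriv 1
      (P157.Par.cascade m (fun l => b ^ 2 * q l) K P146.Gap.lc) x)]

/-- **sequential pinning** -/
theorem pinStmt : PinStmt := by
  intro b e he
  obtain ⟨ε, t, hε, hεe, ht, h1⟩ := final b he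
  obtain ⟨k, hk⟩ := exists_nat_gt (1 / ε)
  rw [div_lt_iff₀' hε] at hk
  obtain ⟨η, hη, h2⟩ := iter b k t ht
  refine ⟨η ^ 2, by positivity, fun K m q V hm hq hq1 hV hp hS => ?_⟩
  obtain ⟨D, hD⟩ := sm_Phi b hm hq
  have h : Dat b (q 0) (I0 b K m q) V (Phi b K m q) D :=
    ⟨hq.1, hq1, hV, hD, fun n ι _ A hA hn r hr hr' S w u e h he =>
      guerra_band hA hn h.ne (WM.of_exp hm) hq.2 hr' hr (hr'.trans hq1) he b h.sq h.ip u⟩
  have e1 : psi b K m q V = ps b (q 0) V D := funext fun r => by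
    unfold psi ps
    rw [← (hD.sm (b ^ 2 * (q 0 - r))).deriv_eq]
    rfl
  rw [e1] at hp ⊢
  obtain ⟨j, hj, h3⟩ := pigeon h hp hk
  obtain ⟨k1, k2, k3⟩ := seq h hp j
  exact ⟨_, k1, k2.trans k3, k2, h3.trans (by linarith),
    h1 _ _ _ _ _ _ h k1 (k2.trans k3) k2 h3 (h2 _ _ _ _ _ h hp (base h hη hS) j hj)⟩

/-- the blunt form of the site function -/
theorem Sm.refl_le (h : Sm F D) (y u : ℝ) : F u - 2 * (u - y) ^ 2 ≤ 2 * F y - F (2 * y - u) := by
  have h1 := (abs_le.1 (h.quad y (u - y))).2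
  have h2 := (abs_le.1 (h.quad y (y - u))).2
  rw [add_sub_cancel] at h1
  rw [show y + (y - u) = 2 * y - u by ring] at h2
  nlinarith

end Vale.Agent.N150.Pin
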