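import Vale.Agent.N150.T1Alg0

/-! Block T2, part A (notes/P150/T2_helper24.md): the rank one part of the Hessian is moved into
`Th = (D⁻¹ + c m mᵀ)⁻¹`; exact identities A1, A2, A3. -/

open Matrix Finset

namespace Vale.Agent.N150.T2A

open Vale.Agent.P150 Vale.Agent.P150.F Vale.Agent.N150.EC

variable {n : ℕ}

/-- `p = D m` -/
noncomputable def pv (h : Vec n) : Vec n := fun i => dv h i * tm h i
/-- `D v` -/
noncomputable def Dv (h v : Vec n) : Vec n := fun i => dv h i * v i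
/-- `cT = c / (1 + c m.p)` -/
noncomputable def cT (c : ℝ) (h : Vec n) : ℝ := c / (1 + c * ip (tm h) (pv h))
/-- `F = (1 + c m pᵀ)⁻¹` -/
noncomputable def Fm (c : ℝ) (h : Vec n) : Mat n := 1 - cT c h • vecMulVec (tm h) (pv h)
/-- `Th = D F` -/
noncomputable def Th (c : ℝ) (h : Vec n) : Mat n :=
  diagonal (dv h) - cT c h • vecMulVec (pv h) (pv h)
/-- `Vt = Th - w` -/
noncomputable def Vt (c : ℝ) (h : Vec n) : Mat n := Th c h - wb h • (1 : Mat n)
/-- `A = N - 1 / w` -/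
noncomputable def Am (J : Mat n) (h : Vec n) (z : ℝ) : Mat n := Nm J z - (wb h)⁻¹ • (1 : Mat n)
/-- `(1 + A T)⁻¹` -/
noncomputable def Ga (A T : Mat n) : Mat n := (1 + A * T)⁻¹
/-- `Q = - Ga A` -/
noncomputable def Qm (A T : Mat n) : Mat n := -(Ga A T * A)
/-- `Xi = Ga P Gaᵀ` -/
noncomputable def Xi (A T P : Mat n) : Mat n := Ga A T * P * (Ga A T)ᵀ
/-- diagonal part of the weight -/
noncomputable def be (c : ℝ) (h v : Vec n) : Vec n := fun i =>
  tm h i * v i + c / 2 * ip (tm h) v * dv h i ^ 2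
/-- finite rank part of the weight before conjugation by `F` -/
noncomputable def Rk (c e : ℝ) (h v : Vec n) : Mat n :=
  (c / 2) • (vecMulVec (Dv h v) (pv h) + vecMulVec (pv h) (Dv h v)) +
    (e * ip (tm h) v) • vecMulVec (pv h) (pv h)
/-- the weight: `v.eb = tr (Xi Bh)` -/
noncomputable def Bh (c e : ℝ) (h v : Vec n) : Mat n :=
  (Fm c h)ᵀ * (diagonal (be c h v) + Rk c e h v) * Fm c h
/-- `Bh = diag be + R3` -/
noncomputable def R3 (c e : ℝ) (h v : Vec n) : Mat n := Bh c e h v - diagonal (be c h v)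
/-- the vector with `R3 = p rᵀ + r pᵀ` -/
noncomputable def rv (c e : ℝ) (h v : Vec n) : Vec n :=
  (c / 2 * (1 - cT c h * ip (tm h) (pv h))) • Dv h v - cT c h • (fun i => be c h v i * tm h i) +
    ((cT c h ^ 2 * (∑ i, be c h v i * tm h i ^ 2)
      - c * cT c h * (1 - cT c h * ip (tm h) (pv h)) * ip (tm h) (Dv h v)
      + e * ip (tm h) v * (1 - cT c h * ip (tm h) (pv h)) ^ 2) / 2) • pv h
/-- `n w ^ 2 - tr Kt ^ 2 * τ / n` with `tr Kt ^ 2 = T / w ^ 2 - n` -/
noncomputable def Del (T τ : ℝ) (h : Vec n) : ℝ := n * wb h ^ 2 - (T / wb h ^ 2 - n) * τ / n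

/-! ### rank one calculus -/

theorem vv_mul_vv (a b c d : Vec n) :
    vecMulVec a b * vecMulVec c d = ip b c • vecMulVec a d := by
  ext i j
  simp only [mul_apply, vecMulVec_apply, Matrix.smul_apply, smul_eq_mul, ip, Finset.sum_mul]
  exact Finset.sum_congr rfl fun k _ => by ring

theorem mul_vv (A : Mat n) (a b : Vec n) : A * vecMulVec a b = vecMulVec (A *ᵥ a) b := by
  ext i j
  simp only [mul_apply, vecMulVec_apply, mulVec, dotProduct, Finset.sum_mul]
  exact Finset.sum_congr rfl fun k _ => by ring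

theorem vv_mul (A : Mat n) (a b : Vec n) : vecMulVec a b * A = vecMulVec a (Aᵀ *ᵥ b) := by
  ext i j
  simp only [mul_apply, vecMulVec_apply, mulVec, dotProduct, Finset.mul_sum, transpose_apply]
  exact Finset.sum_congr rfl fun k _ => by ring

theorem trace_vv (a b : Vec n) : (vecMulVec a b).trace = ip a b := rfl

theorem trace_mul_vv (A : Mat n) (a b : Vec n) : (A * vecMulVec a b).trace = ip b (A *ᵥ a) := by
  rw [mul_vv, trace_vv, ipN_comm]

theorem trace_mul_diag (A : Mat n) (d : Vec n) : (A * diagonal d).trace = ∑ i, A i i * d i := by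
  simp only [trace, diag_apply, mul_diagonal]

theorem ip_tr (A : Mat n) (u v : Vec n) : ip u (A *ᵥ v) = ip (Aᵀ *ᵥ u) v := by
  have h1 : ip u (A *ᵥ v) = u ⬝ᵥ A *ᵥ v := rfl
  have h2 : ip (Aᵀ *ᵥ u) v = (Aᵀ *ᵥ u) ⬝ᵥ v := rfl
  rw [h1, h2, Matrix.dotProduct_mulVec, Matrix.mulVec_transpose]

theorem D_mulVec (h v : Vec n) : diagonal (dv h) *ᵥ v = Dv h v := by
  funext i
  rw [mulVec_diagonal]
  rfl

theorem D_tm (h : Vec n) : diagonal (dv h) *ᵥ tm h = pv h := D_mulVec h _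

/-! ### `F` and `Th` -/

section FT

variable (c : ℝ) (h : Vec n)

theorem D_mul_Fm : diagonal (dv h) * Fm c h = Th c h := by
  rw [Fm, Th, mul_sub, mul_one, Matrix.mul_smul, mul_vv, D_tm]

theorem Th_tr : (Th c h)ᵀ = Th c h := by
  rw [Th, transpose_sub, transpose_smul, transpose_vecMulVec, diagonal_transpose]

theorem Vt_tr : (Vt c h)ᵀ = Vt c h := by
  rw [Vt, transpose_sub, Th_tr, transpose_smul, transpose_one]

theorem Fm_tr : (Fm c h)ᵀ = 1 - cT c h • vecMulVec (pv h) (tm h) := by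
  rw [Fm, transpose_sub, transpose_one, transpose_smul, transpose_vecMulVec]

theorem Fm_tr_mul_D : (Fm c h)ᵀ * diagonal (dv h) = Th c h := by
  rw [← Th_tr, ← D_mul_Fm, transpose_mul, diagonal_transpose]

theorem Th_eq : Th c h = Vt c h + wb h • (1 : Mat n) := by rw [Vt, sub_add_cancel]

theorem Vt_eq : Vt c h = diagonal (fun i => dv h i - wb h) - cT c h • vecMulVec (pv h) (pv h) := by
  rw [Vt, Th, ← diagonal_sub, ← diagonal_one, ← diagonal_smul]
  have e : (wb h • fun _ : Fin n => (1 : ℝ)) = fun _ => wb h := by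
    funext i
    simp
  rw [e]
  abel

theorem Fm_tr_mulVec (u : Vec n) : (Fm c h)ᵀ *ᵥ u = u - (cT c h * ip (tm h) u) • pv h := by
  rw [Fm_tr, sub_mulVec, one_mulVec, smul_mulVec, F.vecMulVec_mulVec, smul_smul]

theorem Fm_mulVec (u : Vec n) : Fm c h *ᵥ u = u - (cT c h * ip (pv h) u) • tm h := by
  rw [Fm, sub_mulVec, one_mulVec, smul_mulVec, F.vecMulVec_mulVec, smul_smul]

variable {c h}

theorem cT_mul (hc : 1 + c * ip (tm h) (pv h) ≠ 0) :
    cT c h * (1 + c * ip (tm h) (pv h)) = c := div_mul_cancel₀ _ hc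

theorem one_sub_cT (hc : 1 + c * ip (tm h) (pv h) ≠ 0) :
    (1 - cT c h * ip (tm h) (pv h)) * (1 + c * ip (tm h) (pv h)) = 1 := by
  linear_combination (-ip (tm h) (pv h)) * cT_mul hc

theorem Fi_mul_Fm (hc : 1 + c * ip (tm h) (pv h) ≠ 0) :
    (1 + c • vecMulVec (tm h) (pv h)) * Fm c h = 1 := by
  have e := cT_mul hc
  rw [Fm, add_mul, one_mul, mul_sub, mul_one, Matrix.smul_mul, Matrix.mul_smul, vv_mul_vv,
    smul_smul, smul_smul, ipN_comm (pv h)]
  have e2 : c * cT c h * ip (tm h) (pv h) = c - cT c h := by linear_combination e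
  rw [e2, sub_smul]
  abel

theorem Fm_mul_Fi (hc : 1 + c * ip (tm h) (pv h) ≠ 0) :
    Fm c h * (1 + c • vecMulVec (tm h) (pv h)) = 1 := mul_eq_one_comm.1 (Fi_mul_Fm hc)

end FT

/-! ### link with the EC response -/

section Link

variable {J : Mat n} {h : Vec n} {z : ℝ}

theorem Am_tr (hJ : Jᵀ = J) : (Am J h z)ᵀ = Am J h z := by
  rw [Am, transpose_sub, (Nm_symm hJ z).eq, transpose_smul, transpose_one]

theorem Lm_eq : Lm J h z =
    Am J h z * diagonal (dv h) + (1 + cc J h z • vecMulVec (tm h) (pv h)) := by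
  rw [Lm, EC.Bm, add_mul, Matrix.smul_mul, vv_mul, diagonal_transpose, D_tm, Am]
  abel

theorem Lm_mul_Fm (hc : 1 + cc J h z * ip (tm h) (pv h) ≠ 0) :
    Lm J h z * Fm (cc J h z) h = 1 + Am J h z * Th (cc J h z) h := by
  rw [Lm_eq, add_mul, Fi_mul_Fm hc, mul_assoc, D_mul_Fm, add_comm]

theorem unit_Ga (hc : 1 + cc J h z * ip (tm h) (pv h) ≠ 0) (hL : IsUnit (Lm J h z).det) :
    IsUnit (1 + Am J h z * Th (cc J h z) h).det := by
  rw [← Lm_mul_Fm hc, det_mul]
  exact hL.mul (isUnit_det_of_left_inverse (Fi_mul_Fm hc))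

/-- `Ga = F⁻¹ Γ` -/
theorem Ga_eq (hc : 1 + cc J h z * ip (tm h) (pv h) ≠ 0) :
    Ga (Am J h z) (Th (cc J h z) h) = (1 + cc J h z • vecMulVec (tm h) (pv h)) * Gam J h z := by
  rw [Ga, ← Lm_mul_Fm hc, Matrix.mul_inv_rev, inv_eq_left_inv (Fi_mul_Fm hc), Gam]

/-- `Γ = F Ga` -/
theorem Gam_eq (hc : 1 + cc J h z * ip (tm h) (pv h) ≠ 0) :
    Gam J h z = Fm (cc J h z) h * Ga (Am J h z) (Th (cc J h z) h) := by
  rw [Ga_eq hc, ← mul_assoc, Fm_mul_Fi hc, one_mul]

/-- `G = Th Ga` -/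
theorem Gm_eq (hc : 1 + cc J h z * ip (tm h) (pv h) ≠ 0) :
    Gm J h z = Th (cc J h z) h * Ga (Am J h z) (Th (cc J h z) h) := by
  rw [Gm, Gam_eq hc, ← mul_assoc, D_mul_Fm]

theorem G0_mul_Am (hu : IsUnit (Nm J z).det) :
    G0 J z * Am J h z = 1 - (wb h)⁻¹ • G0 J z := by
  rw [Am, mul_sub, T1A.G0_mul hu, Matrix.mul_smul, mul_one]

theorem Am_mul_G0 (hu : IsUnit (Nm J z).det) :
    Am J h z * G0 J z = 1 - (wb h)⁻¹ • G0 J z := by
  rw [Am, sub_mul, T1A.mul_G0 hu, Matrix.smul_mul, one_mul]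

end Link

/-! ### A1 for abstract symmetric `A`, `T` -/

section A1

variable {A T : Mat n} (hu : IsUnit (1 + A * T).det)
include hu

theorem Ga_mul : Ga A T * (1 + A * T) = 1 := nonsing_inv_mul _ hu

theorem mul_Ga : (1 + A * T) * Ga A T = 1 := mul_nonsing_inv _ hu

theorem Ga_eq_Q : Ga A T = 1 + Qm A T * T := by
  have e := Ga_mul hu
  rw [mul_add, mul_one, ← mul_assoc] at e
  rw [Qm, neg_mul, ← e]
  abel

theorem A_mul_G : A * (T * Ga A T) = 1 - Ga A T := by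
  have e := mul_Ga hu
  rw [add_mul, one_mul, mul_assoc] at e
  rw [← e]
  abel

variable (hA : Aᵀ = A) (hT : Tᵀ = T)
include hA hT

theorem GaT_mul : (Ga A T)ᵀ * (1 + T * A) = 1 := by
  have e := congrArg transpose (mul_Ga hu)
  rwa [transpose_mul, transpose_add, transpose_mul, hA, hT, transpose_one] at e

theorem mul_GaT : (1 + T * A) * (Ga A T)ᵀ = 1 := mul_eq_one_comm.1 (GaT_mul hu hA hT)

theorem Ga_A : Ga A T * A = A * (Ga A T)ᵀ := by
  calc Ga A T * A = Ga A T * A * ((1 + T * A) * (Ga A T)ᵀ) := by rw [mul_GaT hu hA hT, mul_one]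
    _ = Ga A T * (1 + A * T) * (A * (Ga A T)ᵀ) := by noncomm_ring
    _ = _ := by rw [Ga_mul hu, one_mul]

theorem Qm_eq : Qm A T = -(A * (Ga A T)ᵀ) := by rw [Qm, Ga_A hu hA hT]

theorem Qm_tr : (Qm A T)ᵀ = Qm A T := by
  conv_rhs => rw [Qm_eq hu hA hT]
  rw [Qm, transpose_neg, transpose_mul, hA]

theorem G_eq : T * Ga A T = (Ga A T)ᵀ * T := by
  calc T * Ga A T = (Ga A T)ᵀ * (1 + T * A) * (T * Ga A T) := by rw [GaT_mul hu hA hT, one_mul]
    _ = (Ga A T)ᵀ * T * ((1 + A * T) * Ga A T) := by noncomm_ring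
    _ = _ := by rw [mul_Ga hu, mul_one]

theorem G_mul_A : T * Ga A T * A = 1 - (Ga A T)ᵀ := by
  have e := GaT_mul hu hA hT
  rw [mul_add, mul_one, ← mul_assoc] at e
  rw [G_eq hu hA hT, ← e]
  abel

variable {G V K : Mat n} {w : ℝ} (hV : T = V + w • (1 : Mat n)) (hK : A * G = K)
  (hw : w • K = w • (1 : Mat n) - G)
include hV hK hw

/-- `Gaᵀ Vt Kt = G0 - w Gaᵀ` -/
theorem GaT_V_K : (Ga A T)ᵀ * V * K = G - w • (Ga A T)ᵀ := by
  have e1 : (1 + T * A) * G = V * K + w • (1 : Mat n) := by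
    rw [add_mul, one_mul, mul_assoc, hK, hV, add_mul, Matrix.smul_mul, one_mul, hw]
    abel
  have e2 : (Ga A T)ᵀ * ((1 + T * A) * G) = G := by rw [← mul_assoc, GaT_mul hu hA hT, one_mul]
  rw [e1, mul_add, Matrix.mul_smul, mul_one, ← mul_assoc] at e2
  rw [← e2]
  abel

/-- `w Q = - Kt - Q Vt Kt` -/
theorem w_Qm : w • Qm A T = -K - Qm A T * V * K := by
  rw [Qm_eq hu hA hT, neg_mul, neg_mul, mul_assoc A, mul_assoc A, GaT_V_K hu hA hT hV hK hw,
    mul_sub, hK, Matrix.mul_smul, smul_neg]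
  abel

/-- `Xi Vt Kt = Ga P G0 - w Xi` -/
theorem Xi_V_K (P : Mat n) : Xi A T P * V * K = Ga A T * P * G - w • Xi A T P := by
  rw [Xi, mul_assoc (Ga A T * P), mul_assoc (Ga A T * P), GaT_V_K hu hA hT hV hK hw, mul_sub,
    Matrix.mul_smul]

end A1

theorem Xi_tr {A T P : Mat n} (hP : Pᵀ = P) : (Xi A T P)ᵀ = Xi A T P := by
  rw [Xi, transpose_mul, transpose_mul, transpose_transpose, hP, mul_assoc]

/-- `w δ tr (P Ga) = tr P + tr (P Q Vt)` when `N = δ` on the range of `P` -/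
theorem trace_P_Ga {A T V P : Mat n} {w δ : ℝ} (hu : IsUnit (1 + A * T).det)
    (hV : T = V + w • (1 : Mat n)) (hw : w ≠ 0) (hP : A * P = (δ - w⁻¹) • P) :
    w * δ * (P * Ga A T).trace = P.trace + (P * Qm A T * V).trace := by
  have e1 : (P * Qm A T).trace = -((δ - w⁻¹) * (P * Ga A T).trace) := by
    rw [trace_mul_comm, Qm, neg_mul, mul_assoc, hP, trace_neg, Matrix.mul_smul, trace_smul,
      trace_mul_comm, smul_eq_mul]
  have e2 : P * Ga A T = P + P * Qm A T * V + w • (P * Qm A T) := by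
    conv_lhs => rw [Ga_eq_Q hu]
    rw [mul_add, mul_one, ← mul_assoc]
    nth_rewrite 2 [hV]
    rw [mul_add, Matrix.mul_smul, mul_one, add_assoc]
  have e3 := congrArg trace e2
  rw [trace_add, trace_add, trace_smul, e1, smul_eq_mul] at e3
  have e4 : w * w⁻¹ = 1 := mul_inv_cancel₀ hw
  linear_combination e3 + (P * Ga A T).trace * e4

/-! ### A2 -/

theorem Rk_tr (c e : ℝ) (h v : Vec n) : (Rk c e h v)ᵀ = Rk c e h v := by
  rw [Rk, transpose_add, transpose_smul, transpose_smul, transpose_add, transpose_vecMulVec,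
    transpose_vecMulVec, transpose_vecMulVec, add_comm (vecMulVec (pv h) (Dv h v))]

theorem Bh_tr (c e : ℝ) (h v : Vec n) : (Bh c e h v)ᵀ = Bh c e h v := by
  rw [Bh, transpose_mul, transpose_mul, transpose_transpose, transpose_add, diagonal_transpose,
    Rk_tr, mul_assoc]

theorem ip_eb {J : Mat n} {h : Vec n} {z : ℝ} {P : Mat n} (hP : Pᵀ = P) (v : Vec n) :
    ip v (eb J h z P) = (Gam J h z * P * (Gam J h z)ᵀ *
      (diagonal (be (cc J h z) h v) + Rk (cc J h z) (c3 J h z) h v)).trace := by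
  set M := Gam J h z * P * (Gam J h z)ᵀ with hM
  have hMt : Mᵀ = M := by
    rw [hM, transpose_mul, transpose_mul, transpose_transpose, hP, mul_assoc]
  have e1 : Gm J h z * P * (Gm J h z)ᵀ = diagonal (dv h) * M * diagonal (dv h) := by
    rw [Gm, transpose_mul, diagonal_transpose, hM]
    simp only [mul_assoc]
  have e2 : (diagonal (dv h) * M * diagonal (dv h)).trace = ∑ i, M i i * dv h i ^ 2 := by
    rw [trace_mul_diag]
    exact Finset.sum_congr rfl fun i _ => by rw [diagonal_mul]; ring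
  have e3 : ∀ u, ip u ((diagonal (dv h) * M * diagonal (dv h)) *ᵥ tm h) =
      ip (Dv h u) (M *ᵥ pv h) := fun u => by
    rw [← mulVec_mulVec, ← mulVec_mulVec, D_tm, ip_tr, diagonal_transpose, D_mulVec]
  have e4 : ip (pv h) (M *ᵥ Dv h v) = ip (Dv h v) (M *ᵥ pv h) := by
    rw [ip_tr, hMt, ipN_comm]
  have e5 : ip v (eb J h z P) = ∑ i, v i * (tm h i * M i i) +
      (cc J h z / 2 * (∑ i, M i i * dv h i ^ 2) + c3 J h z * ip (pv h) (M *ᵥ pv h)) * ip v (tm h) +
      cc J h z * ip (Dv h v) (M *ᵥ pv h) := by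
    rw [← e3 v, ← e2]
    have e6 : ip (pv h) (M *ᵥ pv h) = qf (diagonal (dv h) * M * diagonal (dv h)) (tm h) :=
      (e3 (tm h)).symm
    rw [e6, ← e1]
    unfold ip eb
    rw [Finset.mul_sum, Finset.mul_sum, ← Finset.sum_add_distrib, ← Finset.sum_add_distrib]
    exact Finset.sum_congr rfl fun i _ => by ring
  rw [e5, mul_add, trace_add, trace_mul_diag, Rk, mul_add, trace_add, Matrix.mul_smul,
    Matrix.mul_smul, trace_smul, trace_smul, mul_add, trace_add, trace_mul_vv, trace_mul_vv,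
    trace_mul_vv, e4, ipN_comm v, smul_eq_mul, smul_eq_mul]
  have e7 : ∑ i, M i i * be (cc J h z) h v i = ∑ i, v i * (tm h i * M i i) +
      cc J h z / 2 * ip (tm h) v * ∑ i, M i i * dv h i ^ 2 := by
    rw [Finset.mul_sum, ← Finset.sum_add_distrib]
    exact Finset.sum_congr rfl fun i _ => by unfold be; ring
  rw [e7]
  ring

/-- **A2** -/
theorem ip_k0 {J : Mat n} {h : Vec n} {z : ℝ} {P : Mat n} (hP : Pᵀ = P)
    (hc : 1 + cc J h z * ip (tm h) (pv h) ≠ 0) (v : Vec n) :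
    ip v (k0 J h z P) =
      (Xi (Am J h z) (Th (cc J h z) h) P * Bh (cc J h z) (c3 J h z) h v).trace -
        ip (tm h) v * (G0 J z * P * G0 J z).trace / T2 J z := by
  rw [k0, ip_sub_right, ip_smul_right, ip_eb hP, Gam_eq hc, ipN_comm v, Xi, Bh, transpose_mul]
  congr 1
  · rw [← mul_assoc _ _ (Fm (cc J h z) h), trace_mul_comm _ (Fm (cc J h z) h)]
    simp only [mul_assoc]
  · ring

/-! ### A3 -/

theorem Bh_eq (c e : ℝ) (h v : Vec n) : Bh c e h v = diagonal (be c h v) + R3 c e h v := by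
  rw [R3, add_sub_cancel]

/-- `R3` has rank at most two -/
theorem R3_eq (c e : ℝ) (h v : Vec n) :
    R3 c e h v = vecMulVec (pv h) (rv c e h v) + vecMulVec (rv c e h v) (pv h) := by
  have d1 : diagonal (be c h v) *ᵥ tm h = fun i => be c h v i * tm h i := by
    funext i
    rw [mulVec_diagonal]
  have d2 : ip (tm h) (fun i => be c h v i * tm h i) = ∑ i, be c h v i * tm h i ^ 2 :=
    Finset.sum_congr rfl fun i _ => by ring
  have e1 : (Fm c h)ᵀ * diagonal (be c h v) * Fm c h = diagonal (be c h v) -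
      cT c h • vecMulVec (fun i => be c h v i * tm h i) (pv h) -
      cT c h • vecMulVec (pv h) (fun i => be c h v i * tm h i) +
      (cT c h ^ 2 * ∑ i, be c h v i * tm h i ^ 2) • vecMulVec (pv h) (pv h) := by
    rw [Fm_tr, Fm, sub_mul, one_mul, Matrix.smul_mul, vv_mul, diagonal_transpose, d1, mul_sub,
      mul_one, Matrix.mul_smul, sub_mul, mul_vv, d1, Matrix.smul_mul, vv_mul_vv,
      ipN_comm _ (tm h), d2, smul_sub, smul_smul, smul_smul, pow_two]
    abel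
  have e2 : ∀ a b, (Fm c h)ᵀ * vecMulVec a b * Fm c h =
      vecMulVec ((Fm c h)ᵀ *ᵥ a) ((Fm c h)ᵀ *ᵥ b) := fun a b => by rw [mul_vv, vv_mul]
  rw [R3, Bh, mul_add, add_mul, e1, Rk, mul_add, add_mul, Matrix.mul_smul, Matrix.mul_smul,
    Matrix.smul_mul, Matrix.smul_mul, mul_add, add_mul, e2, e2, e2, Fm_tr_mulVec, Fm_tr_mulVec]
  ext i j
  simp only [rv, Matrix.add_apply, Matrix.sub_apply, Matrix.smul_apply, vecMulVec_apply,
    Pi.add_apply, Pi.sub_apply, Pi.smul_apply, smul_eq_mul]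
  ring

theorem R3_tr (c e : ℝ) (h v : Vec n) : (R3 c e h v)ᵀ = R3 c e h v := by
  rw [R3, transpose_sub, Bh_tr, diagonal_transpose]

theorem trace_R3 (c e : ℝ) (h v : Vec n) : (R3 c e h v).trace = 2 * ip (pv h) (rv c e h v) := by
  rw [R3_eq, trace_add, trace_vv, trace_vv, ipN_comm (rv c e h v)]
  ring

theorem opLe_R3 (c e : ℝ) (h v : Vec n) :
    OpLe (R3 c e h v) (2 * (nv (pv h) * nv (rv c e h v))) := by
  have p1 := nv_nonneg (pv h)
  have p2 := nv_nonneg (rv c e h v)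
  rw [R3_eq]
  refine ((opLe_vecMulVec _ _).add (opLe_vecMulVec _ _) (by positivity) (by positivity)).monoN
    (by positivity) (le_of_eq (by ring))

theorem sum_dv (hn : 0 < n) (h : Vec n) : ∑ i, dv h i = n * wb h := by
  rw [wb, mul_div_cancel₀ _ (Nat.cast_ne_zero.2 hn.ne')]

theorem sum_dv_sq (hn : 0 < n) (h : Vec n) :
    ∑ i, dv h i ^ 2 = n * wb h ^ 2 + ∑ i, (dv h i - wb h) ^ 2 := by
  have e : ∀ i, (dv h i - wb h) ^ 2 = dv h i ^ 2 - 2 * wb h * dv h i + wb h ^ 2 := fun i => by ring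
  simp only [e, Finset.sum_add_distrib, Finset.sum_sub_distrib, ← Finset.mul_sum, sum_dv hn,
    Finset.sum_const, Finset.card_univ, Fintype.card_fin, nsmul_eq_mul]
  ring

/-- trace of the diagonal part of the weight -/
theorem sum_be (hn : 0 < n) {T : ℝ} (hT : T ≠ 0) (h v : Vec n) :
    ∑ i, be (2 / T - 2 / (n * wb h ^ 2)) h v i =
      ip (tm h) v * Del T (∑ i, (dv h i - wb h) ^ 2) h / T := by
  have hn' : (n : ℝ) ≠ 0 := Nat.cast_ne_zero.2 hn.ne'
  have hw := (T1A.wb_pos hn h).ne'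
  unfold be
  rw [Finset.sum_add_distrib, ← Finset.mul_sum, sum_dv_sq hn, Del]
  change ip (tm h) v + _ = _
  field_simp
  ring

theorem trace_Vt (hn : 0 < n) (c : ℝ) (h : Vec n) : (Vt c h).trace = -(cT c h * F.sq (pv h)) := by
  rw [Vt, Th, trace_sub, trace_sub, trace_diagonal, sum_dv hn, trace_smul, trace_smul, trace_vv,
    ipN_self, trace_one, Fintype.card_fin, smul_eq_mul, smul_eq_mul]
  ring

theorem trace_Vt_sq (c : ℝ) (h : Vec n) : (Vt c h * Vt c h).trace = ∑ i, (dv h i - wb h) ^ 2 -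
    2 * cT c h * (∑ i, (dv h i - wb h) * pv h i ^ 2) + cT c h ^ 2 * F.sq (pv h) ^ 2 := by
  have d1 : (diagonal (fun i => dv h i - wb h) * vecMulVec (pv h) (pv h)).trace =
      ∑ i, (dv h i - wb h) * pv h i ^ 2 := by
    rw [trace_mul_vv]
    exact Finset.sum_congr rfl fun i _ => by rw [mulVec_diagonal]; ring
  rw [Vt_eq, mul_sub, sub_mul, sub_mul, Matrix.mul_smul, Matrix.mul_smul, Matrix.smul_mul,
    Matrix.smul_mul, trace_sub, trace_sub, trace_sub, trace_smul, trace_smul, trace_smul,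
    trace_smul, trace_mul_comm (vecMulVec _ _) (diagonal _), d1, vv_mul_vv, trace_smul, trace_vv,
    ipN_self, diagonal_mul_diagonal, trace_diagonal]
  simp only [smul_eq_mul, ← pow_two]
  ring

/-- `tr Kt ^ 2 = T2 / w ^ 2 - n` -/
theorem trace_K_sq (hn : 0 < n) {J : Mat n} {h : Vec n} {z : ℝ} (r : res2 J h z = 0) :
    ((1 - (wb h)⁻¹ • G0 J z) * (1 - (wb h)⁻¹ • G0 J z)).trace = T2 J z / wb h ^ 2 - n := by
  have hw := (T1A.wb_pos hn h).ne'
  rw [mul_sub, sub_mul, sub_mul, mul_one, mul_one, one_mul, Matrix.smul_mul, Matrix.mul_smul,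
    trace_sub, trace_sub, trace_sub, trace_smul, trace_smul, trace_smul, T1A.trace_of_res2 hn r,
    trace_one, Fintype.card_fin, T2]
  simp only [smul_eq_mul]
  field_simp
  ring

theorem trace_K (hn : 0 < n) {J : Mat n} {h : Vec n} {z : ℝ} (r : res2 J h z = 0) :
    (1 - (wb h)⁻¹ • G0 J z).trace = 0 := by
  have hw := (T1A.wb_pos hn h).ne'
  rw [trace_sub, trace_smul, T1A.trace_of_res2 hn r, trace_one, Fintype.card_fin, smul_eq_mul]
  field_simp
  ring

/-- **A3**, exact form -/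
theorem trace_Bh (hn : 0 < n) {T : ℝ} (hT : T ≠ 0) {c : ℝ} {h : Vec n}
    (hc : c = 2 / T - 2 / (n * wb h ^ 2)) (e : ℝ) (v : Vec n) :
    (Bh c e h v).trace = ip (tm h) v * Del T (Vt c h * Vt c h).trace h / T +
      (ip (tm h) v * ((T / wb h ^ 2 - n) / (n * T)) *
        (cT c h ^ 2 * F.sq (pv h) ^ 2 - 2 * cT c h * ∑ i, (dv h i - wb h) * pv h i ^ 2) +
      2 * ip (pv h) (rv c e h v)) := by
  have hn' : (n : ℝ) ≠ 0 := Nat.cast_ne_zero.2 hn.ne'
  have e1 := sum_be hn hT h v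
  rw [← hc] at e1
  rw [Bh_eq, trace_add, trace_diagonal, e1, trace_R3, trace_Vt_sq, Del, Del]
  field_simp
  ring

end Vale.Agent.N150.T2A
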