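import Vale.Agent.N150.T1Alg2
import Vale.Agent.N150.T2A1
import Vale.Agent.N150.D6b

/-! T2, block A4 (I7): rows of `Kt V N ^ (-1/2)` and of the responses on sparse sets of sites. -/

open Matrix

namespace Vale.Agent.N150.T2A7

open Vale.Agent.P150 Vale.Agent.P150.F Vale.Agent.N150.EC Vale.Agent.N150.Sp Vale.Agent.N150.Fib
open Vale.Agent.N150.T1

variable {n : ℕ}

/-! ### abstract core -/

/-- operator bound with a nonnegative constant -/
structure OB (A : Mat n) (c : ℝ) : Prop where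
  op : OpLe A c
  nn : 0 ≤ c

theorem OB.mul {A B : Mat n} {a b : ℝ} (h : OB A a) (k : OB B b) : OB (A * B) (a * b) :=
  ⟨h.op.mulN k.op h.nn k.nn, mul_nonneg h.nn k.nn⟩

theorem OB.add {A B : Mat n} {a b : ℝ} (h : OB A a) (k : OB B b) : OB (A + B) (a + b) :=
  ⟨h.op.add k.op h.nn k.nn, add_nonneg h.nn k.nn⟩

theorem OB.tr {A : Mat n} {a : ℝ} (h : OB A a) : OB Aᵀ a := ⟨Cube.opLe_tr h.nn h.op, h.nn⟩

theorem OB.mono {A : Mat n} {a b : ℝ} (h : OB A a) (hab : a ≤ b) : OB A b :=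
  ⟨h.op.monoN h.nn hab, h.nn.trans hab⟩

theorem ring_id {R : Type*} [Ring R] (T Y P X0 I D Δ : R) (h1 : P * Y = Y * P)
    (h2 : P * P = P) :
    T * Y * (X0 + I * D * T + Δ) = T * P * Y * (X0 + I * D * T + Δ) + T * Y * (1 - P) * X0 * P +
      T * (1 - P) * Y * ((1 - P) * X0 * (1 - P)) + T * Y * (1 - P) * I * D * T +
      T * (1 - P) * Y * Δ := by
  have e1 : (1 - P) * Y = Y * (1 - P) := by rw [sub_mul, mul_sub, h1, one_mul, mul_one]
  have e2 : (1 - P) * (1 - P) = 1 - P := by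
    rw [sub_mul, mul_sub, mul_sub, h2]
    noncomm_ring
  have e3 : T * (1 - P) * Y * ((1 - P) * X0 * (1 - P)) = T * Y * (1 - P) * X0 * (1 - P) := by
    calc T * (1 - P) * Y * ((1 - P) * X0 * (1 - P))
        = T * ((1 - P) * Y) * (1 - P) * X0 * (1 - P) := by noncomm_ring
      _ = T * Y * ((1 - P) * (1 - P)) * X0 * (1 - P) := by rw [e1]; noncomm_ring
      _ = _ := by rw [e2]
  rw [e3, mul_assoc T P Y, h1, mul_assoc T (1 - P) Y, e1]
  noncomm_ring

theorem core {P Y X0 I D Δ : Mat n} {η B : ℝ} (h0 : 0 ≤ η) (h1 : η ≤ 1) (hB : 1 ≤ B)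
    (hP : IsProj P) (hPY : P * Y = Y * P) (hY : OpLe Y 8) (hD : OpLe D 1) (hΔ : OpLe Δ η)
    (e1 : OpLe (P * X0 * P) η) (e2 : OpLe ((1 - P) * X0 * (1 - P)) η)
    (e3 : OpLe (P * X0 * (1 - P)) B) (e3' : OpLe ((1 - P) * X0 * P) B)
    (iP : OpLe (P * I) η) (iQ : OpLe ((1 - P) * I) B)
    (e6 : OpLe (Iᵀ * Y * (1 - P) * I) η) (e7 : OpLe (Iᵀ * Y * (1 - P) * X0 * P) η) :
    OpLe I (2 * B) ∧ OpLe (X0 + I * D * Iᵀ + Δ) (9 * B ^ 2) ∧
      OpLe (Iᵀ * Y * (X0 + I * D * Iᵀ + Δ)) (91 * B ^ 2 * η) := by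
  have B0 : 0 ≤ B := by linarith
  have kI : OB I (2 * B) := by
    have e : I = P * I + (1 - P) * I := by noncomm_ring
    rw [e]
    exact ((OB.mk iP h0).add ⟨iQ, B0⟩).mono (by linarith)
  have k0 : OB X0 (η + η + B + B) := by
    have e : X0 = P * X0 * P + (1 - P) * X0 * (1 - P) + P * X0 * (1 - P) + (1 - P) * X0 * P := by
      noncomm_ring
    rw [e]
    exact (((OB.mk e1 h0).add ⟨e2, h0⟩).add ⟨e3, B0⟩).add ⟨e3', B0⟩
  have kX : OB (X0 + I * D * Iᵀ + Δ) (9 * B ^ 2) :=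
    ((k0.add ((kI.mul ⟨hD, zero_le_one⟩).mul kI.tr)).add ⟨hΔ, h0⟩).mono (by nlinarith)
  have tP : OB (Iᵀ * P) η := by
    have := (OB.mk iP h0).tr
    rwa [transpose_mul, hP.symm] at this
  have tQ : OB (Iᵀ * (1 - P)) B := by
    have := (OB.mk iQ B0).tr
    rwa [transpose_mul, transpose_sub, transpose_one, hP.symm] at this
  have kY : OB Y 8 := ⟨hY, by norm_num⟩
  refine ⟨kI.op, kX.op, ?_⟩
  rw [ring_id _ Y P X0 I D Δ hPY hP.idem]
  refine (((((((tP.mul kY).mul kX).add ⟨e7, h0⟩).add ((tQ.mul kY).mul ⟨e2, h0⟩)).add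
    (((OB.mk e6 h0).mul ⟨hD, zero_le_one⟩).mul kI.tr)).add ((tQ.mul kY).mul ⟨hΔ, h0⟩)).mono
    ?_).op
  have a1 : η ≤ B ^ 2 * η := le_mul_of_one_le_left h0 (by nlinarith)
  have a2 : B * η ≤ B ^ 2 * η := mul_le_mul_of_nonneg_right (by nlinarith) h0
  nlinarith

/-! ### integer exponents -/

/-- `‖A‖ ≤ t ^ k` -/
def OE (t : ℝ) (k : ℤ) (A : Mat n) : Prop := OpLe A (T1A.E t k)
/-- `|v| ≤ √n t ^ k` -/
def NV (t : ℝ) (k : ℤ) (v : Vec n) : Prop := nv v ≤ √n * T1A.E t k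

section Cal

variable {L t : ℝ} (s : T1A.Sm L t)
include s

theorem OE.mono {a b : ℤ} {A : Mat n} (h : OE t a A) (hab : b ≤ a) : OE t b A :=
  OpLe.monoN h (s.nn a) (s.mono hab)

theorem OE.mul {a b c : ℤ} {A B : Mat n} (h : OE t a A) (k : OE t b B) (hc : c ≤ a + b) :
    OE t c (A * B) :=
  (OpLe.mulN h k (s.nn a) (s.nn b)).monoN (mul_nonneg (s.nn a) (s.nn b)) (s.mul_le hc)

theorem OE.add {a b c : ℤ} {A B : Mat n} (h : OE t a A) (k : OE t b B) (ha : c < a)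
    (hb : c < b) : OE t c (A + B) :=
  (OpLe.add h k (s.nn a) (s.nn b)).monoN (add_nonneg (s.nn a) (s.nn b)) (s.add ha hb)

theorem OE.sub {a b c : ℤ} {A B : Mat n} (h : OE t a A) (k : OE t b B) (ha : c < a)
    (hb : c < b) : OE t c (A - B) :=
  (OpLe.sub h k (s.nn a) (s.nn b)).monoN (add_nonneg (s.nn a) (s.nn b)) (s.add ha hb)

theorem OE.tr {a : ℤ} {A : Mat n} (h : OE t a A) : OE t a Aᵀ := Cube.opLe_tr (s.nn a) h

theorem OE.smul {a c : ℤ} {A : Mat n} (h : OE t a A) {r : ℝ} (hr : |r| ≤ 32) (hc : c < a) :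
    OE t c (r • A) :=
  (OpLe.smul h (s.nn a) r).monoN (mul_nonneg (abs_nonneg r) (s.nn a)) (s.num hr hc)

theorem oe_num {A : Mat n} {C : ℝ} (h : OpLe A C) (h0 : 0 ≤ C) (hC : C ≤ 32) : OE t (-1) A := by
  refine h.monoN h0 ?_
  have := s.num hC (a := 0) (b := -1) (by norm_num)
  rwa [T1A.E_zero, mul_one] at this

omit s in
theorem oe_one {A : Mat n} (h : OpLe A 1) : OE t 0 A := by
  unfold OE
  rwa [T1A.E_zero]

theorem NV.mono {a b : ℤ} {v : Vec n} (h : NV t a v) (hab : b ≤ a) : NV t b v :=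
  le_trans h (mul_le_mul_of_nonneg_left (s.mono hab) (Real.sqrt_nonneg _))

theorem OE.app {a b c : ℤ} {A : Mat n} {v : Vec n} (h : OE t a A) (k : NV t b v)
    (hc : c ≤ a + b) : NV t c (A *ᵥ v) := by
  refine (OpLe.nv_le h (s.nn a) v).trans ?_
  calc T1A.E t a * nv v ≤ T1A.E t a * (√n * T1A.E t b) := mul_le_mul_of_nonneg_left k (s.nn a)
    _ = √n * (T1A.E t a * T1A.E t b) := by ring
    _ ≤ _ := mul_le_mul_of_nonneg_left (s.mul_le hc) (Real.sqrt_nonneg _)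

theorem NV.add {a b c : ℤ} {u v : Vec n} (h : NV t a u) (k : NV t b v) (ha : c < a)
    (hb : c < b) : NV t c (u + v) := by
  refine (nv_add_le u v).trans ((add_le_add h k).trans ?_)
  rw [← mul_add]
  exact mul_le_mul_of_nonneg_left (s.add ha hb) (Real.sqrt_nonneg _)

theorem oe_vv {a b k c : ℤ} {u v : Vec n} {r : ℝ} (hr : |r| * n ≤ T1A.E t k) (h : NV t a u)
    (h' : NV t b v) (hc : c ≤ k + (a + b)) : OE t c (r • vecMulVec u v) := by
  have e := (opLe_vecMulVec u v).smul (mul_nonneg (nv_nonneg u) (nv_nonneg v)) r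
  refine e.monoN (mul_nonneg (abs_nonneg r) (mul_nonneg (nv_nonneg u) (nv_nonneg v))) ?_
  have e1 : nv u * nv v ≤ n * T1A.E t (a + b) := by
    refine (mul_le_mul h h' (nv_nonneg v) (mul_nonneg (Real.sqrt_nonneg _) (s.nn a))).trans ?_
    rw [← s.mul, mul_mul_mul_comm, Real.mul_self_sqrt (Nat.cast_nonneg n)]
  calc |r| * (nv u * nv v) ≤ |r| * (n * T1A.E t (a + b)) :=
        mul_le_mul_of_nonneg_left e1 (abs_nonneg r)
    _ = |r| * n * T1A.E t (a + b) := by ring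
    _ ≤ T1A.E t k * T1A.E t (a + b) := mul_le_mul_of_nonneg_right hr (s.nn _)
    _ ≤ _ := s.mul_le hc

end Cal

theorem oe_nat {t : ℝ} {A : Mat n} (m : ℕ) (k : ℤ) (hk : k = m) : OE t k A ↔ OpLe A (t ^ m) := by
  rw [OE, T1A.E_nat t k m hk]

theorem oe_neg {t : ℝ} {A : Mat n} (m : ℕ) (k : ℤ) (hk : k = -m) :
    OE t k A ↔ OpLe A (t⁻¹ ^ m) := by
  rw [OE, T1A.E_neg t k m hk]

theorem nv_nat {t : ℝ} {v : Vec n} (m : ℕ) (k : ℤ) (hk : k = m) :
    NV t k v ↔ nv v ≤ √n * t ^ m := by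
  rw [NV, T1A.E_nat t k m hk]

/-! ### restrictions -/

theorem res_tr (A : Finset (Fin n)) : (Rip.res A : Mat n)ᵀ = Rip.res A := diagonal_transpose _

theorem opLe_res (A : Finset (Fin n)) : OpLe (Rip.res A : Mat n) 1 :=
  Cube.opLe_diag zero_le_one fun i => by split_ifs <;> simp

theorem res_mul_res {A U : Finset (Fin n)} (h : A ⊆ U) :
    (Rip.res A : Mat n) * Rip.res U = Rip.res A := by
  unfold Rip.res
  rw [diagonal_mul_diagonal]
  congr 1
  funext i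
  by_cases hi : i ∈ A
  · simp [hi, h hi]
  · simp [hi]

theorem res_diag {U : Finset (Fin n)} {d : Vec n} (h : ∀ i ∉ U, d i = 0) :
    (Rip.res U : Mat n) * diagonal d * Rip.res U = diagonal d := by
  unfold Rip.res
  rw [diagonal_mul_diagonal, diagonal_mul_diagonal]
  congr 1
  funext i
  by_cases hi : i ∈ U
  · simp [hi]
  · simp [hi, h i hi]

theorem res_comm (A : Finset (Fin n)) (d : Vec n) :
    (Rip.res A : Mat n) * diagonal d = diagonal d * Rip.res A := by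
  unfold Rip.res
  rw [diagonal_mul_diagonal, diagonal_mul_diagonal]
  congr 1
  funext i
  exact mul_comm _ _

/-! ### the reference kernel `K0` -/

section Ref

variable {L t : ℝ} {S : Dat n} {O : OG n}

theorem strA_mono {η η' B B' : ℝ} {hc : Vec n} (h : StrA t η B S O hc) (h0 : 0 ≤ η) (h1 : η ≤ η')
    (h2 : 0 ≤ B) (h3 : B ≤ B') : StrA t η' B' S O hc :=
  ⟨h.clp, h.nrm, h.e1.monoN h0 h1, h.e3.monoN h2 h3, h.e3'.monoN h2 h3, h.e4.monoN h0 h1,
    fun A hA => (h.e5 A hA).monoN h2 h3, fun A hA => (h.e6 A hA).monoN h0 h1,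
    fun A hA => (h.e7 A hA).monoN h0 h1, fun A hA => (h.e7' A hA).monoN h0 h1⟩

theorem strW_of (hs : Sm L t) (g : Good t S O) : StrW t S O (S.hc t O) := by
  have e : t⁻¹ ≤ t⁻¹ ^ 2 := by simpa using hs.iw (a := 1) (b := 2) (by norm_num)
  have k : ∀ (K : ℝ) (v u : Vec n), 0 ≤ K → Rip.Spread (t⁻¹ * F.sq v) K u →
      Rip.Spread (t⁻¹ ^ 2 * F.sq v) K u := fun K v u hK hu =>
    hu.mono (mul_nonneg hs.inv0.le (sqN_nonneg v))
      (mul_le_mul_of_nonneg_right e (sqN_nonneg v)) hK le_rfl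
  exact ⟨strA_mono g.str (hs.p0 _).le (hs.pw (by norm_num)) (hs.i0 _).le (hs.iw (by norm_num)),
    fun v => k _ v _ (mul_nonneg (Nat.cast_nonneg n) (hs.p0 _).le) (g.spr.s1 v),
    fun v => k _ v _ (mul_nonneg (Nat.cast_nonneg n) (hs.p0 _).le) (g.spr.s2 v)⟩

theorem near_hc (hs : Sm L t) (g : Good t S O) {h : Vec n} (hb : Ball t (S.J O) (S.y O) h) :
    nv (h - S.hc t O) ≤ 2 * (√n * t ^ 252000) := by
  have e1 := nv_sub_triangle h (S.h O 3) (S.hc t O)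
  have e2 : √n * t ^ 280000 ≤ √n * t ^ 252000 :=
    mul_le_mul_of_nonneg_left (hs.pw (by norm_num)) (Real.sqrt_nonneg _)
  have e3 : nv (h - S.h O 3) ≤ √n * t ^ 252000 := hb
  linarith [g.base.clp]

/-- the conclusion of `D4Stmt` at one point -/
def D4At (t : ℝ) (S : Dat n) (O : OG n) (hc : Vec n) : Prop :=
  OpLe ((1 - S.P (t ^ 139200) O) * S.X0 O hc * (1 - S.P (t ^ 139200) O)) (t ^ 4000) ∧
  (∀ A : Finset (Fin n), (A.card : ℝ) ≤ n * t ^ 360000 →
    OpLe (S.P (t ^ 139200) O * S.IA O A) (t ^ 4000)) ∧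
  ∀ h h' : Vec n, nv (h - hc) ≤ 2 * (√n * t ^ 252000) → nv (h' - hc) ≤ 2 * (√n * t ^ 252000) →
    ((spk (t ^ 71999) h h').card : ℝ) ≤ n * t ^ 360001 ∧
    ∃ d : Vec n, (∀ i, |d i| ≤ 1) ∧ (∀ i ∉ spk (t ^ 71999) h h', d i = 0) ∧
      OpLe (S.Nis O * (VW h h' - VW hc hc - diagonal d) * S.Nis O) (t ^ 4000)

theorem card_mono (hs : Sm L t) {A : Finset (Fin n)} (h : (A.card : ℝ) ≤ n * t ^ 360001) :
    (A.card : ℝ) ≤ n * t ^ 360000 :=
  h.trans (mul_le_mul_of_nonneg_left (hs.pw (by norm_num)) (Nat.cast_nonneg n))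

/-- `‖1_A N ^ (-1/2)‖`, `‖N ^ (-1/2) V N ^ (-1/2)‖` and `‖1_A K0 V N ^ (-1/2)‖` -/
theorem ref (hs : Sm L t) (ad : Adm L t S) {hc : Vec n}
    (g : StrA t (t ^ 4000) (t⁻¹ ^ 10) S O hc) (d4 : D4At t S O hc) {h h' : Vec n}
    (hh : nv (h - hc) ≤ 2 * (√n * t ^ 252000)) (hh' : nv (h' - hc) ≤ 2 * (√n * t ^ 252000))
    {A : Finset (Fin n)} (hA : (A.card : ℝ) ≤ n * t ^ 360001) :
    OE t (-11) (Rip.res A * S.Nis O) ∧ OE t (-21) (S.Nis O * VW h h' * S.Nis O) ∧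
      OE t 3979 (Rip.res A * S.K0 O * VW h h' * S.Nis O) := by
  obtain ⟨e2, iP, hd⟩ := d4
  obtain ⟨hk, d, d1, d0, hΔ⟩ := hd h h' hh hh'
  obtain ⟨U, hU⟩ : ∃ U, U = A ∪ spk (t ^ 71999) h h' := ⟨_, rfl⟩
  have cU : (U.card : ℝ) ≤ n * t ^ 360000 := by
    have e1 : (U.card : ℝ) ≤ A.card + (spk (t ^ 71999) h h').card := by
      rw [hU]
      exact_mod_cast Finset.card_union_le _ _
    have e3 := mul_le_mul_of_nonneg_left
      (hs.cp (C := 2) (by norm_num) (a := 360001) (b := 360000) (by norm_num)) (Nat.cast_nonneg n)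
    linarith
  have aU : A ⊆ U := hU ▸ Finset.subset_union_left
  have dU : ∀ i ∉ U, d i = 0 := fun i hi => d0 i fun hi' => hi (hU ▸ Finset.mem_union_right _ hi')
  obtain ⟨k1, k2, k3⟩ := core (Y := S.Y O) (hs.p0 4000).le (hs.p1 4000) (hs.i1 10) (S.isProj_P O _)
    (S.P_comm O _ _) (ad.opLe_Y hs O) (Cube.opLe_diag zero_le_one d1) hΔ g.e1 e2 g.e3 g.e3'
    (iP U cU) (g.e5 U cU) (g.e6 U cU) (g.e7' U cU)
  have eX : S.X0 O hc + S.IA O U * diagonal d * (S.IA O U)ᵀ +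
      S.Nis O * (VW h h' - VW hc hc - diagonal d) * S.Nis O = S.Nis O * VW h h' * S.Nis O := by
    have e : S.IA O U * diagonal d * (S.IA O U)ᵀ = S.Nis O * diagonal d * S.Nis O := by
      rw [S.IA_tr, Dat.IA]
      calc S.Nis O * Rip.res U * diagonal d * (Rip.res U * S.Nis O)
          = S.Nis O * (Rip.res U * diagonal d * Rip.res U) * S.Nis O := by noncomm_ring
        _ = _ := by rw [res_diag dU]
    rw [e, Dat.X0]
    noncomm_ring
  rw [eX] at k2 k3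
  have r1 : OB (Rip.res A : Mat n) 1 := ⟨opLe_res A, zero_le_one⟩
  have B0 := (hs.i0 10).le
  have eA : Rip.res A * (S.IA O U)ᵀ = Rip.res A * S.Nis O := by
    rw [S.IA_tr, ← Matrix.mul_assoc, res_mul_res aU]
  refine ⟨(oe_neg 11 _ rfl).2 ?_, (oe_neg 21 _ rfl).2 ?_, (oe_nat 3979 _ rfl).2 ?_⟩
  · have := (r1.mul (OB.mk k1 (mul_nonneg zero_le_two B0)).tr).mono
      (b := t⁻¹ ^ 11) (by rw [one_mul]; exact hs.ci (by norm_num) (by norm_num))
    rw [eA] at this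
    exact this.op
  · refine k2.monoN (mul_nonneg (by norm_num) (sq_nonneg _)) ?_
    rw [← pow_mul]
    exact hs.ci (by norm_num) (by norm_num)
  · have p0 : 0 ≤ 91 * (t⁻¹ ^ 10) ^ 2 * t ^ 4000 :=
      mul_nonneg (mul_nonneg (by norm_num) (sq_nonneg _)) (hs.p0 _).le
    have := (r1.mul (OB.mk k3 p0)).mono (b := t ^ 3979) (by
      rw [one_mul, ← pow_mul, mul_assoc]
      exact (mul_le_mul_of_nonneg_left (hs.ip (c := 3980) (by norm_num)) (by norm_num)).trans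
        (hs.cp (by norm_num) (by norm_num)))
    have e : Rip.res A * ((S.IA O U)ᵀ * S.Y O * (S.Nis O * VW h h' * S.Nis O)) =
        Rip.res A * S.K0 O * VW h h' * S.Nis O := by
      rw [← ad.Nis_Y_Nis hs O]
      calc Rip.res A * ((S.IA O U)ᵀ * S.Y O * (S.Nis O * VW h h' * S.Nis O))
          = Rip.res A * (S.IA O U)ᵀ * S.Y O * (S.Nis O * VW h h' * S.Nis O) := by noncomm_ring
        _ = _ := by rw [eA]; noncomm_ring
    rw [e] at this
    exact this.op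

end Ref

/-! ### the kernel at the point `h`, rank one corrections, responses -/

/-- abstract data: `R` a restriction, `Ni = N ^ (-1/2)`, `Nh = N ^ (1/2)`, `P` the low modes -/
structure Ctx (t : ℝ) (R Ni Nh Y P K G V : Mat n) (m p : Vec n) : Prop where
  i1 : Ni * Nh = 1
  i2 : Nh * Ni = 1
  sy : Niᵀ = Ni
  pP : IsProj P
  cY : P * Y = Y * P
  cN : P * Ni = Ni * P
  oY : OE t (-1) Y
  oN : OE t (-144001) Ni
  oQ : OE t (-69600) ((1 - P) * Ni)
  oT : OE t (-11) (R * Ni)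
  oTP : OE t 4000 (R * Ni * P)
  oX : OE t (-21) (Ni * V * Ni)
  th : OE t 3979 (R * (Ni * Y * Ni) * V * Ni)
  eK : OE t 70000 (Nh * (K - Ni * Y * Ni) * Nh)
  eG : OE t 70000 (Nh * G * Nh - 1)
  nm : NV t 71999 m
  np : NV t 71999 p
  nh : NV t 142900 (Nh *ᵥ m)

theorem vv_mul {Ni : Mat n} (h : Niᵀ = Ni) (u p : Vec n) :
    vecMulVec u p * Ni = vecMulVec u (Ni *ᵥ p) := by
  rw [vecMulVec_mul, ← mulVec_transpose, h]

namespace Ctx

variable {L t : ℝ} {R Ni Nh Y P K G V : Mat n} {m p : Vec n}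
  (c : Ctx t R Ni Nh Y P K G V m p) (s : T1A.Sm L t)
include c

theorem sand (M : Mat n) : M = Ni * (Nh * M * Nh) * Ni := by
  calc M = Ni * Nh * M * (Nh * Ni) := by rw [c.i1, c.i2, Matrix.one_mul, Matrix.mul_one]
    _ = _ := by noncomm_ring

theorem K_eq : R * K = R * Ni * Y * Ni + R * Ni * (Nh * (K - Ni * Y * Ni) * Nh) * Ni := by
  have e := c.sand (K - Ni * Y * Ni)
  calc R * K = R * (Ni * Y * Ni) + R * (K - Ni * Y * Ni) := by noncomm_ring
    _ = _ := by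
      conv_lhs => rw [e]
      noncomm_ring

theorem G_eq : R * G = R * Ni * 1 * Ni + R * Ni * (Nh * G * Nh - 1) * Ni := by
  conv_lhs => rw [c.sand G]
  noncomm_ring

theorem oP : OE t 0 P := oe_one (Cube.opLe_proj c.pP.symm c.pP.idem)

include s

theorem nim : NV t (-72002) (Ni *ᵥ m) := c.oN.app s c.nm (by norm_num)

theorem nip : NV t (-72002) (Ni *ᵥ p) := c.oN.app s c.np (by norm_num)

theorem th1 : OE t 3978 (R * K * V * Ni) := by
  have e : R * K * V * Ni = R * (Ni * Y * Ni) * V * Ni +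
      R * Ni * (Nh * (K - Ni * Y * Ni) * Nh) * (Ni * V * Ni) := by
    rw [c.K_eq]
    noncomm_ring
  rw [e]
  exact c.th.add s (((c.oT.mul s c.eK le_rfl).mul s c.oX le_rfl)) (by norm_num) (by norm_num)

theorem high : NV t 3700 (((1 - P) * Ni) *ᵥ m) := by
  have e1 : (1 - P) * Ni = Ni * (1 - P) := by
    rw [Matrix.sub_mul, Matrix.mul_sub, c.cN, Matrix.one_mul, Matrix.mul_one]
  have e2 : (1 - P) * (1 - P) = 1 - P := by
    rw [Matrix.sub_mul, Matrix.mul_sub, Matrix.mul_sub, c.pP.idem]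
    noncomm_ring
  have e : (1 - P) * Ni = (1 - P) * Ni * ((1 - P) * Ni) * Nh := by
    calc (1 - P) * Ni = (1 - P) * (1 - P) * Ni * (Ni * Nh) := by rw [e2, c.i1, Matrix.mul_one]
      _ = (1 - P) * ((1 - P) * Ni) * Ni * Nh := by noncomm_ring
      _ = (1 - P) * (Ni * (1 - P)) * Ni * Nh := by rw [e1]
      _ = _ := by noncomm_ring
  rw [e, ← mulVec_mulVec]
  exact (c.oQ.mul s c.oQ le_rfl).app s c.nh (by norm_num)

theorem row {W : Mat n} (hW : P * W = W * P) (oW : OE t (-1) W) :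
    NV t (-68004) ((R * Ni * W * Ni) *ᵥ m) := by
  have e : R * Ni * W * Ni = R * Ni * P * W * Ni + R * Ni * W * ((1 - P) * Ni) := by
    rw [Matrix.mul_assoc (R * Ni) P W, hW]
    noncomm_ring
  rw [e, add_mulVec, ← mulVec_mulVec m _ Ni, ← mulVec_mulVec m _ ((1 - P) * Ni)]
  exact ((c.oTP.mul s oW le_rfl).app s (c.nim s) le_rfl).add s
    ((c.oT.mul s oW le_rfl).app s (c.high s) le_rfl) (by norm_num) (by norm_num)

theorem km : NV t (-68005) ((R * K) *ᵥ m) := by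
  rw [c.K_eq, add_mulVec, ← mulVec_mulVec m (R * Ni * (Nh * (K - Ni * Y * Ni) * Nh)) Ni]
  exact (c.row s c.cY c.oY).add s ((c.oT.mul s c.eK le_rfl).app s (c.nim s) le_rfl)
    (by norm_num) (by norm_num)

theorem gm : NV t (-68005) ((R * G) *ᵥ m) := by
  rw [c.G_eq, add_mulVec, ← mulVec_mulVec m (R * Ni * (Nh * G * Nh - 1)) Ni]
  exact (c.row s (by rw [Matrix.mul_one, Matrix.one_mul])
    ((oe_one opLe_one).mono s (by norm_num))).add s
    ((c.oT.mul s c.eG le_rfl).app s (c.nim s) le_rfl) (by norm_num) (by norm_num)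

theorem rm : NV t 142889 (R *ᵥ m) := by
  have e : R = R * Ni * Nh := by rw [Matrix.mul_assoc, c.i1, Matrix.mul_one]
  rw [e, ← mulVec_mulVec]
  exact c.oT.app s c.nh (by norm_num)

/-- (I7) with the two rank one corrections -/
theorem theta {a b : ℝ} (ha : |a| * n ≤ T1A.E t (-1)) (hb : |b| * n ≤ T1A.E t 143998) :
    OE t 3977 (R * K * (V * (1 - a • vecMulVec m p) - b • vecMulVec m p) * Ni) := by
  have e1 : R * K * V * vecMulVec m p * Ni =
      vecMulVec ((R * K * V * Ni) *ᵥ (Nh *ᵥ m)) (Ni *ᵥ p) := by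
    rw [mulVec_mulVec, Matrix.mul_assoc _ Ni Nh, c.i1, Matrix.mul_one, mul_vecMulVec, vv_mul c.sy]
  have e2 : R * K * vecMulVec m p * Ni = vecMulVec ((R * K) *ᵥ m) (Ni *ᵥ p) := by
    rw [mul_vecMulVec, vv_mul c.sy]
  have e : R * K * (V * (1 - a • vecMulVec m p) - b • vecMulVec m p) * Ni = R * K * V * Ni -
      (a • (R * K * V * vecMulVec m p * Ni) + b • (R * K * vecMulVec m p * Ni)) := by
    simp only [Matrix.mul_sub, Matrix.sub_mul, Matrix.mul_smul, Matrix.smul_mul, Matrix.mul_one,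
      Matrix.mul_assoc]
    abel
  rw [e, e1, e2]
  exact (c.th1 s).sub s (c := 3977) ((oe_vv s ha ((c.th1 s).app s c.nh le_rfl) (c.nip s)
    le_rfl).add s (c := 3990) (oe_vv s hb (c.km s) (c.nip s) le_rfl) (by norm_num)
    (by norm_num)) (by norm_num) (by norm_num)

theorem gP : OE t 3999 (R * G * Nh * P) := by
  have e : R * G * Nh * P = R * Ni * P + R * Ni * (Nh * G * Nh - 1) * P := by
    rw [c.G_eq]
    calc (R * Ni * 1 * Ni + R * Ni * (Nh * G * Nh - 1) * Ni) * Nh * P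
        = (R * Ni * (Ni * Nh) + R * Ni * (Nh * G * Nh - 1) * (Ni * Nh)) * P := by noncomm_ring
      _ = _ := by rw [c.i1]; noncomm_ring
  rw [e]
  exact c.oTP.add s ((c.oT.mul s c.eG le_rfl).mul s c.oP le_rfl) (by norm_num) (by norm_num)

theorem vvP {M : Mat n} (oM : OE t (-100) (Nh * M * Nh)) {u : Vec n} {r : ℝ} {k a : ℤ}
    (hr : |r| * n ≤ T1A.E t k) (hu : NV t a u) :
    OE t (k + a - 72102) (r • vecMulVec u p * M * Nh * P) := by
  have e : r • vecMulVec u p * M * Nh * P = r • vecMulVec u (Ni *ᵥ p) * (Nh * M * Nh) * P := by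
    rw [← vv_mul c.sy, ← Matrix.smul_mul]
    calc r • vecMulVec u p * M * Nh * P = r • vecMulVec u p * (Ni * Nh) * M * Nh * P := by
          rw [c.i1, Matrix.mul_one]
      _ = _ := by noncomm_ring
  rw [e]
  exact ((oe_vv s hr hu (c.nip s) le_rfl).mul s oM le_rfl).mul s c.oP (by omega)

/-- rows of the response on the low modes -/
theorem vp {M : Mat n} {w β γ : ℝ} (hw : 1 / 2 ≤ w) (hβ : |β| * n ≤ T1A.E t 143998)
    (hγ : |γ| * n ≤ T1A.E t (-1)) (oM : OE t (-100) (Nh * M * Nh))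
    (hG : (w • (1 : Mat n) + K * V + vecMulVec (β • (G *ᵥ m) - γ • m) p) * M = G) :
    OE t 3876 (R * M * Nh * P) := by
  have w0 : 0 < w := by linarith
  have e0 : R * vecMulVec (β • (G *ᵥ m) - γ • m) p =
      β • vecMulVec ((R * G) *ᵥ m) p - γ • vecMulVec (R *ᵥ m) p := by
    rw [mul_vecMulVec, mulVec_sub, mulVec_smul, mulVec_smul, mulVec_mulVec, sub_vecMulVec,
      smul_vecMulVec, smul_vecMulVec]
  have e1 : R * K * V * M * Nh * P = R * K * V * Ni * (Nh * M * Nh) * P := by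
    calc R * K * V * M * Nh * P = R * K * V * (Ni * Nh) * M * Nh * P := by
          rw [c.i1, Matrix.mul_one]
      _ = _ := by noncomm_ring
  have e2 : w • (R * M * Nh * P) = R * G * Nh * P + γ • vecMulVec (R *ᵥ m) p * M * Nh * P -
      β • vecMulVec ((R * G) *ᵥ m) p * M * Nh * P - R * K * V * M * Nh * P := by
    have e3 : R * G = w • (R * M) + R * K * V * M + (β • vecMulVec ((R * G) *ᵥ m) p -
        γ • vecMulVec (R *ᵥ m) p) * M := by
      rw [← e0]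
      conv_lhs => rw [← hG]
      simp only [Matrix.add_mul, Matrix.mul_add, Matrix.smul_mul, Matrix.mul_smul, Matrix.one_mul,
        Matrix.mul_assoc]
    obtain ⟨A1, h1⟩ : ∃ A1, A1 = β • vecMulVec ((R * G) *ᵥ m) p := ⟨_, rfl⟩
    obtain ⟨A2, h2⟩ : ∃ A2, A2 = γ • vecMulVec (R *ᵥ m) p := ⟨_, rfl⟩
    rw [← h1, ← h2] at e3 ⊢
    rw [e3]
    simp only [Matrix.add_mul, Matrix.sub_mul, Matrix.smul_mul]
    abel
  have e : R * M * Nh * P = w⁻¹ • (w • (R * M * Nh * P)) := by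
    rw [smul_smul, inv_mul_cancel₀ w0.ne', one_smul]
  have hw' : |w⁻¹| ≤ 32 := by
    rw [abs_of_pos (inv_pos.2 w0), inv_le_comm₀ w0 (by norm_num)]
    linarith
  rw [e, e2, e1]
  refine OE.smul s (a := 3877) ?_ hw' (by norm_num)
  exact ((((c.gP s).add s (c := 3998) (c.vvP s oM hγ (c.rm s)) (by norm_num) (by norm_num)).sub s
    (c := 3890) (c.vvP s oM hβ (c.gm s)) (by norm_num) (by norm_num)).sub s
    (((c.th1 s).mul s oM le_rfl).mul s c.oP le_rfl) (by norm_num) (by norm_num))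

theorem vp' {M : Mat n} {a : ℝ} (ha : |a| * n ≤ T1A.E t (-1)) (oM : OE t (-100) (Nh * M * Nh))
    (h : OE t 3876 (R * M * Nh * P)) : OE t 3875 (R * ((1 + a • vecMulVec m p) * M) * Nh * P) := by
  have e : R * ((1 + a • vecMulVec m p) * M) * Nh * P =
      R * M * Nh * P + a • vecMulVec (R *ᵥ m) p * M * Nh * P := by
    rw [← mul_vecMulVec]
    simp only [Matrix.add_mul, Matrix.mul_add, Matrix.smul_mul, Matrix.mul_smul, Matrix.one_mul,
      Matrix.mul_assoc]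
  rw [e]
  exact h.add s (c.vvP s oM ha (c.rm s)) (by norm_num) (by norm_num)

theorem low {M Q : Mat n} {k : ℤ} (h : OE t k (R * M * Nh * P)) (hQ : P * Q = Q)
    (oQ : OpLe Q 1) : OE t (k - 144001) (R * M * Q) := by
  have e : R * M * Q = R * M * Nh * P * (Ni * Q) := by
    calc R * M * Q = R * M * (Nh * Ni) * (P * Q) := by rw [c.i2, Matrix.mul_one, hQ]
      _ = R * M * Nh * (Ni * P) * Q := by noncomm_ring
      _ = _ := by rw [← c.cN]; noncomm_ring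
  rw [e]
  exact h.mul s (c.oN.mul s (oe_one oQ) le_rfl) (by omega)

end Ctx

/-! ### the instance -/

theorem mu_self (h : Vec n) : mu h h = T2A.pv h := by
  rw [T1A.mu_eq, T1A.mu_self]
  funext i
  exact mul_comm _ _

/-- the coefficient of the second rank one correction -/
noncomputable def al (c : ℝ) (h : Vec n) : ℝ :=
  T2A.cT c h * wb h + 2 / (n * wb h) * (1 - T2A.cT c h * ip (tm h) (T2A.pv h))

theorem Vt_eq (c : ℝ) (h : Vec n) : T2A.Vt c h =
    VW h h * (1 - T2A.cT c h • vecMulVec (tm h) (T2A.pv h)) -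
      al c h • vecMulVec (tm h) (T2A.pv h) := by
  have e1 : Db h h = dv h := T1A.db_self h
  have e2 : diagonal (fun i => dv h i - wb h) *ᵥ tm h = T2A.pv h - wb h • tm h := by
    funext i
    rw [mulVec_diagonal]
    simp only [T2A.pv, Pi.sub_apply, Pi.smul_apply, smul_eq_mul]
    ring
  rw [T2A.Vt_eq, VW, mu_self, e1, al]
  rw [Matrix.add_mul, Matrix.smul_mul, Matrix.mul_sub, Matrix.mul_sub, Matrix.mul_one,
    Matrix.mul_one, Matrix.mul_smul, Matrix.mul_smul, T2A.vv_mul_vv, T2A.mul_vv, e2,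
    sub_vecMulVec, smul_vecMulVec, ipN_comm (T2A.pv h)]
  module

section Inst

variable {L t : ℝ} {S : Dat n} {O : OG n} {h : Vec n}

theorem wb_ge (hs : Sm L t) (ad : Adm L t S) (R : Reg t (S.J O) (S.y O) h) : 3 / 4 ≤ wb h := by
  have s := T1A.sm_of hs
  have h1 := (abs_le.1 (T1A.reg_w hs ad R)).1
  have h2 := s.small (a := 214998) (by norm_num)
  have h3 := s.small (a := 143999) (by norm_num)
  rw [T1A.E_nat t 143999 143999 rfl] at h3
  linarith [ad.w_ge' hs]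

theorem e_neg (s : T1A.Sm L t) {C : ℝ} (hC : C ≤ 32) : C ≤ T1A.E t (-1) := by
  have := s.num hC (a := 0) (b := -1) (by norm_num)
  rwa [T1A.E_zero, mul_one] at this

/-- the scalar coefficients at a point of the region -/
structure Sca (t : ℝ) (J : Mat n) (h : Vec n) (z : ℝ) : Prop where
  w : 3 / 4 ≤ wb h
  b : |2 / T2 J z| * n ≤ T1A.E t 143999 / 4
  g : |2 / (n * wb h)| * n ≤ 3
  c : |cc J h z| * n ≤ 4
  den : 1 / 2 ≤ 1 + cc J h z * ip (tm h) (T2A.pv h)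
  cT : |T2A.cT (cc J h z) h| * n ≤ 8
  al : |al (cc J h z) h| * n ≤ T1A.E t 143999

theorem sca (hs : Sm L t) (ad : Adm L t S) (R : Reg t (S.J O) (S.y O) h) :
    Sca t (S.J O) h (zh (S.J O) h) := by
  have s := T1A.sm_of hs
  have hn := ad.npos'
  have hw := wb_ge hs ad R
  have w0 : 0 < wb h := by linarith
  have w1 := T1A.wb_le ad.npos h
  have hb : |2 / T2 (S.J O) (zh (S.J O) h)| * n ≤ T1A.E t 143999 / 4 := (T1A.reg_c hs ad R R).1
  have sm := s.small (a := 143999) (by norm_num)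
  have hp : |ip (tm h) (T2A.pv h)| ≤ n * T1A.E t 143998 := by
    have h1 : nv (tm h) ≤ √n * T1A.E t 71999 := T1A.reg_tm' hs ad R
    have h2 : nv (mu h h) ≤ √n * T1A.E t 71999 := T1A.reg_mu hs ad R R
    rw [mu_self] at h2
    refine (abs_ip_le _ _).trans ((mul_le_mul h1 h2 (nv_nonneg _)
      (mul_nonneg (Real.sqrt_nonneg _) (s.nn _))).trans_eq ?_)
    rw [mul_mul_mul_comm, T1A.sqrt_mul_sqrt, s.mul]
    norm_num
  obtain ⟨β, hβ⟩ : ∃ β, β = 2 / T2 (S.J O) (zh (S.J O) h) := ⟨_, rfl⟩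
  obtain ⟨π, hπ⟩ : ∃ π, π = ip (tm h) (T2A.pv h) := ⟨_, rfl⟩
  obtain ⟨w, hw'⟩ : ∃ w, w = wb h := ⟨_, rfl⟩
  have hc : |β - 2 / (n * w ^ 2)| * (n : ℝ) ≤ 4 := by
    rw [hβ, hw']
    have e1 : |2 / (n * wb h ^ 2)| * n = 2 / wb h ^ 2 := by
      rw [abs_of_pos (by positivity)]
      field_simp
    have e2 : 2 / wb h ^ 2 ≤ 32 / 9 := by
      rw [div_le_div_iff₀ (by positivity) (by norm_num)]
      nlinarith
    have e3 := mul_le_mul_of_nonneg_right
      (abs_sub (2 / T2 (S.J O) (zh (S.J O) h)) (2 / (n * wb h ^ 2))) hn.le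
    rw [add_mul, e1] at e3
    linarith
  have hd : 1 / 2 ≤ 1 + (β - 2 / (n * w ^ 2)) * π := by
    have e1 : |(β - 2 / (n * w ^ 2)) * π| ≤ 4 * T1A.E t 143998 := by
      rw [abs_mul, hπ]
      refine (mul_le_mul_of_nonneg_left hp (abs_nonneg _)).trans ?_
      rw [← mul_assoc]
      exact mul_le_mul_of_nonneg_right hc (s.nn _)
    linarith [(abs_le.1 e1).1, s.small (a := 143998) (by norm_num)]
  have d0 : 0 < 1 + (β - 2 / (n * w ^ 2)) * π := by linarith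
  have dv2 : ∀ x y : ℝ, |x| * n ≤ y → |x / (1 + (β - 2 / (n * w ^ 2)) * π)| * n ≤ 2 * y := by
    intro x y hx
    have y0 : 0 ≤ y := (mul_nonneg (abs_nonneg x) hn.le).trans hx
    rw [abs_div, abs_of_pos d0, div_mul_eq_mul_div, div_le_iff₀ d0]
    nlinarith
  refine ⟨hw, hb, ?_, ?_, ?_, ?_, ?_⟩
  · have e1 : |2 / (n * wb h)| * n = 2 / wb h := by
      rw [abs_of_pos (by positivity)]
      field_simp
    rw [e1, div_le_iff₀ w0]
    linarith
  · unfold cc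
    rwa [← hβ, ← hw']
  · unfold cc
    rwa [← hβ, ← hw', ← hπ]
  · unfold cc T2A.cT
    rw [← hβ, ← hw', ← hπ]
    linarith [dv2 _ _ hc]
  · unfold cc al T2A.cT
    rw [← hβ, ← hw', ← hπ]
    rw [← hw'] at w0 w1
    rw [← hβ] at hb
    have e : (β - 2 / (n * w ^ 2)) / (1 + (β - 2 / (n * w ^ 2)) * π) * w +
        2 / (n * w) * (1 - (β - 2 / (n * w ^ 2)) / (1 + (β - 2 / (n * w ^ 2)) * π) * π) =
        w * β / (1 + (β - 2 / (n * w ^ 2)) * π) := by
      obtain ⟨d, hd'⟩ : ∃ d, d = 1 + (β - 2 / (n * w ^ 2)) * π := ⟨_, rfl⟩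
      have e1 : 1 - (β - 2 / (n * w ^ 2)) / d * π = 1 / d := by
        rw [← hd'] at d0
        rw [div_mul_eq_mul_div, eq_div_iff d0.ne', sub_mul, div_mul_cancel₀ _ d0.ne', hd']
        ring
      rw [← hd', e1]
      rw [← hd'] at d0
      field_simp
      ring
    have e2 : |w * β| * n ≤ T1A.E t 143999 / 4 := by
      rw [abs_mul, abs_of_pos w0, mul_assoc]
      exact (mul_le_of_le_one_left (mul_nonneg (abs_nonneg _) hn.le) w1).trans hb
    rw [e]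
    linarith [dv2 _ _ e2, s.nn 143999]

theorem ctx (hs : Sm L t) (ad : Adm L t S) {hc : Vec n}
    (g : StrA t (t ^ 4000) (t⁻¹ ^ 10) S O hc) (d4 : D4At t S O hc)
    (hh : nv (h - hc) ≤ 2 * (√n * t ^ 252000)) (R : Reg t (S.J O) (S.y O) h)
    {A : Finset (Fin n)} (hA : (A.card : ℝ) ≤ n * t ^ 360001) :
    Ctx t (Rip.res A) (S.Nis O) (S.Nsq O) (S.Y O) (S.P (t ^ 139200) O)
      (Kt (S.J O) h (zh (S.J O) h)) (G0 (S.J O) (zh (S.J O) h)) (VW h h) (tm h) (T2A.pv h) := by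
  have s := T1A.sm_of hs
  obtain ⟨k1, k2, k3⟩ := ref hs ad g d4 hh hh hA
  refine ⟨ad.Nis_mul_Nsq hs O, ad.Nsq_mul_Nis hs O, S.Nis_tr O, S.isProj_P O _, S.P_comm O _ _,
    S.P_comm O _ _, oe_num s (ad.opLe_Y hs O) (by norm_num) (by norm_num),
    (oe_neg 144001 _ rfl).2 (ad.opLe_Nis hs O), (oe_neg 69600 _ rfl).2 (ad.opLe_Ph_Nis hs O 69600),
    k1, ?_, k2, ?_, ?_, ?_, T1A.reg_tm' hs ad R, ?_,
    NV.mono s (T1A.reg_Nsq_tm hs ad R) (by norm_num)⟩
  · have e := Cube.opLe_tr (hs.p0 4000).le (d4.2.1 A (card_mono hs hA))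
    rw [transpose_mul, S.IA_tr, (S.isProj_P O _).symm] at e
    exact (oe_nat 4000 _ rfl).2 e
  · rwa [ad.Nis_Y_Nis hs O]
  · rw [ad.Nis_Y_Nis hs O]
    exact OE.mono s (T1A.reg_K hs ad R) (by norm_num)
  · rw [T1A.Nsq_G0 hs ad O (T1A.zh_lt ad O h), add_sub_cancel_left]
    exact OE.mono s (T1A.reg_F hs ad R) (by norm_num)
  · rw [← mu_self]
    exact T1A.reg_mu hs ad R R

theorem resp (ad : Adm L t S) (hu : IsUnit (Lm (S.J O) h (zh (S.J O) h)).det) :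
    (wb h • (1 : Mat n) + Kt (S.J O) h (zh (S.J O) h) * VW h h +
      vecMulVec ((2 / T2 (S.J O) (zh (S.J O) h)) • (G0 (S.J O) (zh (S.J O) h) *ᵥ tm h) -
        (2 / (n * wb h)) • tm h) (T2A.pv h)) * Gam (S.J O) h (zh (S.J O) h) =
      G0 (S.J O) (zh (S.J O) h) := by
  have e := T1A.MM_self ad.npos (T1A.J_symm S O) h
  unfold T1.MM Mp at e
  rw [sub_zero, mu_self] at e
  have e2 : T2b (S.J O) (zh (S.J O) h) (zh (S.J O) h) = T2 (S.J O) (zh (S.J O) h) := rfl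
  rw [e2] at e
  rw [e, Gam, Matrix.mul_assoc, mul_nonsing_inv _ hu, Matrix.mul_one]

end Inst

/-- (I7) and the rows of the responses at `h`, `z = z(h)`, for all sets of at most
`n t ^ 360001` sites -/
structure I7 (t : ℝ) (S : Dat n) (O : OG n) (h : Vec n) : Prop where
  sca : Sca t (S.J O) h (zh (S.J O) h)
  vw : OpLe (S.Nis O * VW h h * S.Nis O) (t⁻¹ ^ 21)
  nis : ∀ A : Finset (Fin n), (A.card : ℝ) ≤ n * t ^ 360001 →
    OpLe (Rip.res A * S.Nis O) (t⁻¹ ^ 11)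
  thW : ∀ A : Finset (Fin n), (A.card : ℝ) ≤ n * t ^ 360001 →
    OpLe (Rip.res A * Kt (S.J O) h (zh (S.J O) h) * VW h h * S.Nis O) (t ^ 3978)
  th : ∀ A : Finset (Fin n), (A.card : ℝ) ≤ n * t ^ 360001 →
    OpLe (Rip.res A * Kt (S.J O) h (zh (S.J O) h) * T2A.Vt (cc (S.J O) h (zh (S.J O) h)) h *
      S.Nis O) (t ^ 3977)
  col : ∀ i, nv ((S.Nis O * T2A.Vt (cc (S.J O) h (zh (S.J O) h)) h *
    Kt (S.J O) h (zh (S.J O) h)) *ᵥ Pi.single i 1) ≤ t ^ 3977
  gam : ∀ A : Finset (Fin n), (A.card : ℝ) ≤ n * t ^ 360001 →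
    OpLe (Rip.res A * Gam (S.J O) h (zh (S.J O) h) * S.Nsq O * S.P (t ^ 139200) O) (t ^ 3876)
  gm : ∀ A : Finset (Fin n), (A.card : ℝ) ≤ n * t ^ 360001 →
    OpLe (Rip.res A * Gm (S.J O) h (zh (S.J O) h) * S.Nsq O * S.P (t ^ 139200) O) (t ^ 3876)
  ga : ∀ A : Finset (Fin n), (A.card : ℝ) ≤ n * t ^ 360001 →
    OpLe (Rip.res A * T2A.Ga (T2A.Am (S.J O) h (zh (S.J O) h))
      (T2A.Th (cc (S.J O) h (zh (S.J O) h)) h) * S.Nsq O * S.P (t ^ 139200) O) (t ^ 3875)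
  vpGam : ∀ (A : Finset (Fin n)) (Q : Mat n), (A.card : ℝ) ≤ n * t ^ 360001 →
    S.P (t ^ 139200) O * Q = Q → OpLe Q 1 →
    OpLe (Rip.res A * Gam (S.J O) h (zh (S.J O) h) * Q) (t⁻¹ ^ 140125)
  vpGm : ∀ (A : Finset (Fin n)) (Q : Mat n), (A.card : ℝ) ≤ n * t ^ 360001 →
    S.P (t ^ 139200) O * Q = Q → OpLe Q 1 →
    OpLe (Rip.res A * Gm (S.J O) h (zh (S.J O) h) * Q) (t⁻¹ ^ 140125)
  vpGa : ∀ (A : Finset (Fin n)) (Q : Mat n), (A.card : ℝ) ≤ n * t ^ 360001 →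
    S.P (t ^ 139200) O * Q = Q → OpLe Q 1 →
    OpLe (Rip.res A * T2A.Ga (T2A.Am (S.J O) h (zh (S.J O) h))
      (T2A.Th (cc (S.J O) h (zh (S.J O) h)) h) * Q) (t⁻¹ ^ 140126)

theorem Kt_tr {J : Mat n} (hJ : Jᵀ = J) (h : Vec n) (z : ℝ) : (Kt J h z)ᵀ = Kt J h z := by
  rw [Kt, transpose_sub, transpose_one, transpose_smul, G0, transpose_nonsing_inv,
    (Nm_symm hJ z).eq]

theorem res_single (i : Fin n) :
    (Rip.res {i} : Mat n) *ᵥ Pi.single i 1 = Pi.single i 1 := by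
  funext j
  rw [Rip.res_mulVec]
  by_cases hj : j = i
  · simp [hj]
  · simp [hj]

theorem nv_single (i : Fin n) : nv (Pi.single i 1 : Vec n) = 1 := by
  rw [nv_eq_sqrt, F.sq, Finset.sum_eq_single i (fun j _ hj => by simp [hj]) (by simp)]
  simp

theorem i7_at {L t : ℝ} {S : Dat n} {O : OG n} {h hc : Vec n} (hs : Sm L t) (ad : Adm L t S)
    (g : StrA t (t ^ 4000) (t⁻¹ ^ 10) S O hc) (d4 : D4At t S O hc)
    (hh : nv (h - hc) ≤ 2 * (√n * t ^ 252000)) (R : Reg t (S.J O) (S.y O) h)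
    (hu : IsUnit (Lm (S.J O) h (zh (S.J O) h)).det)
    (hg : OpLe (S.Nsq O * Gam (S.J O) h (zh (S.J O) h) * S.Nsq O) (t⁻¹ ^ 100)) : I7 t S O h := by
  have s := T1A.sm_of hs
  have sc := sca hs ad R
  have cx := fun A hA => ctx (A := A) hs ad g d4 hh R hA
  have oM := (oe_neg 100 (-100) rfl).2 hg
  have th := fun A hA => (cx A hA).theta s (sc.cT.trans (e_neg s (by norm_num)))
    (sc.al.trans (s.mono (by norm_num)))
  simp only [← Vt_eq] at th
  have hb : |2 / T2 (S.J O) (zh (S.J O) h)| * n ≤ T1A.E t 143998 := by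
    linarith [sc.b, s.nn 143999, s.mono (a := 143999) (b := 143998) (by norm_num)]
  have ga := fun A hA => (cx A hA).vp s (by linarith [sc.w]) hb
    (sc.g.trans (e_neg s (by norm_num))) oM (resp ad hu)
  have gb := fun A hA => (cx A hA).vp' s (sc.c.trans (e_neg s (by norm_num))) oM (ga A hA)
  simp only [← T2A.Ga_eq (by linarith [sc.den] :
    1 + cc (S.J O) h (zh (S.J O) h) * ip (tm h) (T2A.pv h) ≠ 0)] at gb
  have gm : ∀ A : Finset (Fin n), (A.card : ℝ) ≤ n * t ^ 360001 → OE t 3876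
      (Rip.res A * Gm (S.J O) h (zh (S.J O) h) * S.Nsq O * S.P (t ^ 139200) O) := by
    intro A hA
    have e : Rip.res A * Gm (S.J O) h (zh (S.J O) h) * S.Nsq O * S.P (t ^ 139200) O =
        diagonal (dv h) * (Rip.res A * Gam (S.J O) h (zh (S.J O) h) * S.Nsq O *
          S.P (t ^ 139200) O) := by
      rw [Gm, ← Matrix.mul_assoc, res_comm]
      simp only [Matrix.mul_assoc]
    have d1 : ∀ i, |dv h i| ≤ 1 := fun i => by
      rw [← T1A.db_self, abs_of_pos (T1A.db_pos h h i)]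
      exact T1A.db_le h h i
    rw [e]
    exact (oe_one (Cube.opLe_diag zero_le_one d1)).mul s (ga A hA) (by norm_num)
  have c1 : ∀ i : Fin n, ((({i} : Finset (Fin n)).card : ℕ) : ℝ) ≤ n * t ^ 360001 := fun i => by
    rw [Finset.card_singleton, Nat.cast_one]
    exact ad.big.trans (mul_le_mul_of_nonneg_left (hs.pw (by norm_num)) (Nat.cast_nonneg n))
  refine ⟨sc, (oe_neg 21 _ rfl).1 (cx ∅ (by
      rw [Finset.card_empty, Nat.cast_zero]
      exact mul_nonneg (Nat.cast_nonneg n) (hs.p0 _).le)).oX,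
    fun A hA => (oe_neg 11 _ rfl).1 (cx A hA).oT,
    fun A hA => (oe_nat 3978 _ rfl).1 ((cx A hA).th1 s),
    fun A hA => (oe_nat 3977 _ rfl).1 (th A hA), fun i => ?_,
    fun A hA => (oe_nat 3876 _ rfl).1 (ga A hA), fun A hA => (oe_nat 3876 _ rfl).1 (gm A hA),
    fun A hA => (oe_nat 3875 _ rfl).1 (gb A hA),
    fun A Q hA h1 h2 => (oe_neg 140125 _ (by norm_num)).1 ((cx A hA).low s (ga A hA) h1 h2),
    fun A Q hA h1 h2 => (oe_neg 140125 _ (by norm_num)).1 ((cx A hA).low s (gm A hA) h1 h2),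
    fun A Q hA h1 h2 => (oe_neg 140126 _ (by norm_num)).1 ((cx A hA).low s (gb A hA) h1 h2)⟩
  have e := ((oe_nat 3977 _ rfl).1 ((th {i} (c1 i)).tr s)).nv_le (hs.p0 _).le (Pi.single i 1)
  rwa [nv_single, mul_one, transpose_mul, transpose_mul, transpose_mul, S.Nis_tr, T2A.Vt_tr,
    Kt_tr (S.J_tr O), res_tr, ← Matrix.mul_assoc, ← Matrix.mul_assoc, ← mulVec_mulVec,
    res_single] at e

/-- **[I7, vp]** -/
def I7Stmt : Prop := Ev fun L t => ∀ (n : ℕ) (S : Dat n) (O : OG n) (h : Vec n),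
  Adm L t S → Good t S O → Ball t (S.J O) (S.y O) h → I7 t S O h

theorem i7_of (h4 : D4Stmt) : I7Stmt := fun L hL => by
  filter_upwards [ev_sm L hL, h4 L hL, D6.d6Stmt_of T1A.d2Stmt h4 L hL] with t hs k4 k6
  intro n S O h ad g hb
  have o := k6 n S O ad g
  exact i7_at hs ad g.str (k4 n S O _ ad (strW_of hs g)) (near_hc hs g hb) (o.reg h hb)
    (o.unit h hb) (o.gam h hb)

end Vale.Agent.N150.T2A7
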