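import Vale.Agent.N150.T1Alg2
import Vale.Agent.N150.D6b

/-! T2, block A, (I9): on the cap an approximate solution of the TAP equation near the reference
point has `|N0 ^ (1/2) h| ≤ √n t ^ 215900`. -/

open Matrix Finset Filter Topology

namespace Vale.Agent.N150.T2A9

open Vale.Agent.P150 Vale.Agent.P150.F Vale.Agent.N150.EC Vale.Agent.N150.Sp
open Vale.Agent.N150.T1A Vale.Agent.N150.Cube

variable {n : ℕ}

/-! ### scalar facts -/

theorem abs_tanh_le (x : ℝ) : |Real.tanh x| ≤ |x| := by simpa using T1A.abs_tanh_sub_le x 0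

theorem tanh_sq_le (x : ℝ) : Real.tanh x ^ 2 ≤ x ^ 2 := sq_le_sq.2 (abs_tanh_le x)

theorem sub_tanh_le {x : ℝ} (hx : 0 ≤ x) : x - Real.tanh x ≤ x ^ 3 / 3 := by
  have hd : ∀ t : ℝ, HasDerivAt (fun t => t ^ 3 / 3 - (t - Real.tanh t))
      (t ^ 2 - Real.tanh t ^ 2) t := fun t => by
    have h1 := (((hasDerivAt_id t).pow 3).div_const 3).sub
      ((hasDerivAt_id t).sub (hasDerivAt_tanh' t))
    exact HasDerivAt.congr_deriv h1 (by norm_num)
  have hm : Monotone (fun t => t ^ 3 / 3 - (t - Real.tanh t)) :=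
    monotone_of_deriv_nonneg (fun t => (hd t).differentiableAt) fun t => by
      rw [(hd t).deriv]; linarith [tanh_sq_le t]
  have := hm hx
  simp only [Real.tanh_zero] at this
  linarith

/-- the quintic remainder -/
noncomputable def ph (x : ℝ) : ℝ := x - Real.tanh x - x * Real.tanh x ^ 2 / 3

theorem ph_neg (x : ℝ) : ph (-x) = -ph x := by
  unfold ph; rw [Real.tanh_neg]; ring

theorem abs_ph_le (x : ℝ) : |ph x| ≤ x ^ 4 * |x| := by
  have key : ∀ x : ℝ, 0 ≤ x → |ph x| ≤ x ^ 4 * x := by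
    intro x hx
    have h0 : 0 ≤ Real.tanh x := by simpa using tanh_mono hx
    have h1 : Real.tanh x ≤ x := by
      simpa [abs_of_nonneg h0, abs_of_nonneg hx] using abs_tanh_le x
    have h2 := sub_tanh_le hx
    have h3 := abs_tanh_cube_le x
    rw [abs_of_nonneg h0, abs_of_nonneg (by linarith)] at h3
    have h4 := tanh_sq_le x
    have h5 : 0 ≤ x ^ 3 := by positivity
    have h6 : (x - Real.tanh x) * Real.tanh x ^ 2 ≤ x ^ 3 * x ^ 2 :=
      mul_le_mul (by linarith) h4 (sq_nonneg _) h5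
    have h7 : x * ((x - Real.tanh x) * (x + Real.tanh x)) ≤ x * (x ^ 3 * (2 * x)) :=
      mul_le_mul_of_nonneg_left (mul_le_mul (by linarith) (by linarith) (by linarith) h5) hx
    have h8 : 0 ≤ x ^ 4 * x := by positivity
    unfold ph
    rw [abs_le]
    constructor <;> nlinarith
  rcases le_total 0 x with h | h
  · rw [abs_of_nonneg h]; exact key x h
  · have := key (-x) (by linarith)
    rw [ph_neg, abs_neg] at this
    rw [abs_of_nonpos h]
    exact this.trans (le_of_eq (by ring))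

theorem abs_sub_tanh_le (x : ℝ) : |x - Real.tanh x| ≤ Real.tanh x ^ 2 * |x| := by
  have h1 := dd1_mul x 0
  have h3 := dd1_le x 0
  have h4 := one_sub_dd1_le x 0
  rw [Real.tanh_zero, sub_zero, sub_zero] at h1
  rw [Real.tanh_zero, zero_pow two_ne_zero, max_eq_left (sq_nonneg _)] at h4
  have e1 : x - Real.tanh x = (1 - dd1 x 0) * x := by linarith
  rw [e1, abs_mul, abs_of_nonneg (by linarith)]
  exact mul_le_mul_of_nonneg_right h4 (abs_nonneg _)

theorem abs_ph_le' (x : ℝ) : |ph x| ≤ 2 * |x| := by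
  have h1 := abs_sub_tanh_le x
  have h2 := tanh_sq_lt x
  have h3 := abs_sub (x - Real.tanh x) (x * Real.tanh x ^ 2 / 3)
  rw [abs_div, abs_mul, abs_of_nonneg (sq_nonneg (Real.tanh x)), abs_of_pos (three_pos (α := ℝ))] at h3
  have h4 := abs_nonneg x
  unfold ph
  nlinarith

/-! ### splitting along a set of sites -/

theorem split (A : Finset (Fin n)) {v u u' : Vec n} {α β : ℝ} (hα : 0 ≤ α) (hβ : 0 ≤ β)
    (h1 : ∀ i ∉ A, |v i| ≤ α * |u i|) (h2 : ∀ i ∈ A, |v i| ≤ β * |u' i|) :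
    ∃ a b : Vec n, v = Rip.res A *ᵥ a + b ∧ nv a ≤ β * nv u' ∧ nv b ≤ α * nv u := by
  refine ⟨fun i => if i ∈ A then v i else 0, fun i => if i ∈ A then 0 else v i, ?_,
    nv_le_mul hβ fun i => ?_, nv_le_mul hα fun i => ?_⟩
  · funext i
    rw [Pi.add_apply, Rip.res_mulVec]
    split_ifs <;> simp
  · split_ifs with h
    · exact h2 i h
    · rw [abs_zero]; positivity
  · split_ifs with h
    · rw [abs_zero]; positivity
    · exact h1 i h

theorem opLe_res (A : Finset (Fin n)) : OpLe (Rip.res A) 1 :=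
  opLe_diag zero_le_one fun i => by split_ifs <;> simp

/-! ### a scalar preconditioner -/

theorem ctx_scal {Nh Ni P Y A AA VV : Mat n} {VW : Vec n → Vec n → Mat n}
    {Ex : Vec n → Finset (Fin n)} {S : Set (Vec n)} {a B η ε κ K e : ℝ}
    (c : Ctx Nh Ni P Y A AA VV VW Ex S a B η ε κ K e) {b : ℝ} (h0 : 0 < b) (h2 : b ≤ 2) :
    Ctx Nh Ni P Y (b • 1) (b⁻¹ • 1) VV VW Ex S b B η ε κ K e := by
  have e1 : (b⁻¹ • (1 : Mat n)) * (b • 1) = 1 := by
    rw [smul_mul_smul_comm, inv_mul_cancel₀ h0.ne', one_mul, one_smul]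
  refine ⟨c.h1, c.h2, c.sNi, Matrix.isUnit_det_of_right_inverse e1, fun T hT => ?_, c.card, c.d4,
    c.ε0, ?_, c.K16, c.BK, c.he, c.small⟩
  · have s := c.str T hT
    exact ⟨s.symm, s.idem, s.YP, by rw [smul_mul_assoc, mul_smul_comm, one_mul, mul_one],
      by rw [mul_smul_comm, mul_one], h0.le, h2, s.η0, s.B0, s.nY,
      (opLe_smul_one b).monoN (abs_nonneg _) (by rwa [abs_of_pos h0]), s.E1, s.E2, s.E3, s.E3',
      s.E4, s.E5, s.E5h, s.E6, s.E7, s.E7'⟩
  · rw [Matrix.inv_eq_right_inv e1, mul_smul_comm, mul_one, smul_mul_assoc, c.h2, sub_self]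
    exact opLe_zero.monoN le_rfl c.ε0

theorem v_smul {L t : ℝ} (s : Sm L t) {a b c : ℤ} {x : ℝ} {v : Vec n} (hx : |x| ≤ E t a)
    (hv : Vb t b v) (h : c ≤ a + b) : Vb t c (x • v) := by
  have := s.v_mul (Sm.o_one (n := n) hx) hv h
  rwa [smul_mulVec, one_mulVec] at this

theorem num_le {L t : ℝ} (s : Sm L t) {C : ℝ} (h0 : 0 ≤ C) (hC : C ≤ 32) : |C| ≤ E t (-1) := by
  have := s.num hC (a := 0) (b := -1) (by norm_num)
  rwa [E_zero, mul_one, ← abs_of_nonneg h0] at this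

theorem vb_of {L t : ℝ} (s : Sm L t) {a b c : ℤ} {v u : Vec n} (h : nv v ≤ E t a * nv u)
    (hu : Vb t b u) (hc : c ≤ a + b) : Vb t c v := by
  refine h.trans ((mul_le_mul_of_nonneg_left hu (s.nn a)).trans ?_)
  rw [mul_left_comm]
  exact mul_le_mul_of_nonneg_left (s.mul_le hc) (Real.sqrt_nonneg _)

/-- the Euler identity for `chi` up to the quintic remainder -/
theorem euler (hn : 0 < n) (h : Vec n) :
    (3 * wb h) • chi h - VW h h *ᵥ h = (2 * (1 - wb h)) • (h - tm h)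
      + (2 * ((1 - wb h) - ip (mu h h) h / (n * wb h))) • tm h - (3 : ℝ) • fun i => ph (h i) := by
  have hw := (wb_pos hn h).ne'
  rw [VW_mulVec, db_self]
  funext i
  simp only [chi, Pi.sub_apply, Pi.add_apply, Pi.smul_apply, smul_eq_mul, mulVec_diagonal, ph, tm,
    dv]
  field_simp
  ring

section Main

variable {L t : ℝ} {S : T1.Dat n} {O : OG n} {hc h : Vec n}

theorem h_vb (hs : T1.Sm L t) (A : T1.Adm L t S) (R : T1.Reg t (S.J O) (S.y O) h) :
    Vb t 71999 h := by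
  have s := sm_of hs
  have h1 := A.nv_h0 hs O
  rw [← E_nat t 71999 71999 rfl] at h1
  have h2 : nv _ ≤ √n * E t 143000 := reg_near R
  have h3 := mul_le_mul_of_nonneg_left (s.num (C := 4) (by norm_num) (a := 143000) (b := 71999)
    (by norm_num)) (Real.sqrt_nonneg (n : ℝ))
  have h4 := nv_add_le (h - T1.h0 (S.J O) (S.y O)) (T1.h0 (S.J O) (S.y O))
  rw [sub_add_cancel] at h4
  have h5 := mul_nonneg (Real.sqrt_nonneg (n : ℝ)) (s.nn 71999)
  unfold Vb
  linarith

theorem near_vb (s : Sm L t) (N : D6.Near t S O hc h) : Vb t 251999 (h - hc) := by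
  have h1 := mul_le_mul_of_nonneg_left (s.num (C := 2) (by norm_num) (a := 252000) (b := 251999)
    (by norm_num)) (Real.sqrt_nonneg (n : ℝ))
  have h2 := N.1
  rw [← E_nat t 252000 252000 rfl] at h2
  unfold Vb
  linarith

theorem off_le {i : Fin n} (hi : i ∉ T1.spk (t ^ 71999) h h) : |h i| ≤ 2 * E t 71999 := by
  rw [E_nat t 71999 71999 rfl]
  by_contra hc
  exact hi (Finset.mem_filter.2 ⟨Finset.mem_univ _, Or.inl (not_le.1 hc)⟩)

theorem on_le (hW : T1.StrW t S O hc) {i : Fin n} (hi : i ∈ T1.spk (t ^ 71999) h h) :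
    |h i| ≤ 2 * |(h - hc) i| := by
  have h1 : 2 * t ^ 71999 < |h i| := (Finset.mem_filter.1 hi).2.elim id id
  have h2 := hW.str.clp i
  have h3 := abs_add_le (h i - hc i) (hc i)
  rw [sub_add_cancel] at h3
  rw [Pi.sub_apply]
  linarith

theorem off_sq (s : Sm L t) {i : Fin n} (hi : i ∉ T1.spk (t ^ 71999) h h) :
    h i ^ 2 ≤ E t 143997 := by
  have h1 := pow_le_pow_left₀ (abs_nonneg _) (off_le hi) 2
  rw [sq_abs, mul_pow, s.sq] at h1
  exact h1.trans (s.num (by norm_num) (by norm_num))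

/-- vectors dominated by `tanh h ^ 2 * h` -/
theorem cub_vb (hs : T1.Sm L t) (A : T1.Adm L t S) (hW : T1.StrW t S O hc)
    (N : D6.Near t S O hc h) {v : Vec n} (hv : ∀ i, |v i| ≤ tm h i ^ 2 * |h i|) :
    Vb t 215995 v := by
  have s := sm_of hs
  obtain ⟨a, b, e, ha, hb⟩ := split (T1.spk (t ^ 71999) h h) (v := v) (u := h) (u' := h - hc)
    (s.nn 143997) (s.nn (-1))
    (fun i hi => (hv i).trans (mul_le_mul_of_nonneg_right
      ((tanh_sq_le _).trans (off_sq s hi)) (abs_nonneg _)))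
    (fun i hi => (hv i).trans (((mul_le_of_le_one_left (abs_nonneg _) (tanh_sq_lt _).le).trans
      (on_le hW hi)).trans (mul_le_mul_of_nonneg_right
        ((le_abs_self _).trans (num_le s (by norm_num) (by norm_num))) (abs_nonneg _))))
  rw [e]
  refine s.v_add (a := 251998) (b := 215996) ?_ (vb_of s hb (h_vb hs A N.2) (by norm_num))
    (by norm_num) (by norm_num)
  refine s.v_mul (a := 0) ?_ (vb_of s ha (near_vb s N) le_rfl) (by norm_num)
  rw [E_zero]; exact opLe_res _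

theorem cub1 (hs : T1.Sm L t) (A : T1.Adm L t S) (hW : T1.StrW t S O hc)
    (N : D6.Near t S O hc h) : Vb t 215995 (h - tm h) :=
  cub_vb hs A hW N fun i => abs_sub_tanh_le (h i)

theorem q_le (hs : T1.Sm L t) (A : T1.Adm L t S) (R : T1.Reg t (S.J O) (S.y O) h) :
    |1 - wb h| ≤ E t 143998 := by
  have s := sm_of hs
  have hn := A.npos'
  have h1 := T1.sq_le_of_nv (reg_tm' hs A R)
  rw [s.sq] at h1
  rw [wb_eq A.npos, sub_sub_cancel, abs_of_nonneg (div_nonneg (sqN_nonneg _) hn.le),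
    div_le_iff₀ hn, mul_comm]
  exact h1

theorem kap_le (hs : T1.Sm L t) (A : T1.Adm L t S) (hW : T1.StrW t S O hc)
    (N : D6.Near t S O hc h) : |(1 - wb h) - ip (mu h h) h / (n * wb h)| ≤ E t 287991 := by
  have s := sm_of hs
  have hn := A.npos'
  have hw := reg_wb hs A N.2
  have hw0 : 0 < wb h := by linarith
  have hm := reg_tm' hs A N.2
  have c2 : Vb t 215995 fun i => tm h i ^ 2 * h i :=
    cub_vb hs A hW N fun i => by rw [abs_mul, abs_of_nonneg (sq_nonneg _)]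
  have c3 := s.v_sub (s.v_add (cub1 hs A hW N) (v_smul s (q_le hs A N.2) hm le_rfl)
    (c := 215994) (by norm_num) (by norm_num)) c2 (c := 215993) (by norm_num) (by norm_num)
  have e0 : ip (tm h) (h - tm h + (1 - wb h) • tm h - fun i => tm h i ^ 2 * h i)
      = ip (mu h h) h - wb h * F.sq (tm h) := by
    rw [mu_self]
    unfold ip F.sq
    rw [Finset.mul_sum, ← Finset.sum_sub_distrib]
    refine Finset.sum_congr rfl fun i _ => ?_
    simp only [Pi.sub_apply, Pi.add_apply, Pi.smul_apply, smul_eq_mul, dv_eq]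
    ring
  have e1 : (1 - wb h) - ip (mu h h) h / (n * wb h)
      = -(ip (mu h h) h - wb h * F.sq (tm h)) / (n * wb h) := by
    have e2 : 1 - wb h = F.sq (tm h) / n := by rw [wb_eq A.npos]; ring
    rw [e2]
    field_simp
    ring
  have h1 := (abs_ip_le _ _).trans (mul_le_mul hm c3 (nv_nonneg _)
    (mul_nonneg (Real.sqrt_nonneg _) (s.nn _)))
  rw [e0, mul_mul_mul_comm, sqrt_mul_sqrt, s.mul] at h1
  have h2 := s.num (C := 4) (by norm_num) (a := 71999 + 215993) (b := 287991) (by norm_num)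
  have h3 := mul_le_mul_of_nonneg_left hw (s.nn 287991)
  rw [e1, abs_div, abs_neg, abs_of_pos (mul_pos hn hw0), div_le_iff₀ (mul_pos hn hw0)]
  refine h1.trans ?_
  rw [mul_left_comm]
  exact mul_le_mul_of_nonneg_left (by linarith) hn.le

theorem ph_vb (hs : T1.Sm L t) (k : D6.Pk L t S O) (hW : T1.StrW t S O hc)
    (N : D6.Near t S O hc h) : Vb t 215991 (S.Nis O *ᵥ fun i => ph (h i)) := by
  have s := sm_of hs
  have A := k.adm
  obtain ⟨-, d2, d3⟩ := k.d4 hc hW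
  have hA : ((T1.spk (t ^ 71999) h h).card : ℝ) ≤ n * t ^ 360000 :=
    (d3 h h N.1 N.1).1.trans (mul_le_mul_of_nonneg_left (hs.pw (by norm_num)) (Nat.cast_nonneg n))
  have i1 := d2 _ hA
  have i2 := hW.str.e5 _ hA
  rw [← E_nat t 4000 4000 rfl] at i1
  rw [← E_neg t (-11) 11 rfl] at i2
  have i3 := s.o_add i1 i2 (c := -12) (by norm_num) (by norm_num)
  rw [← add_mul, add_sub_cancel, one_mul] at i3
  obtain ⟨a, b, e, ha, hb⟩ := split (T1.spk (t ^ 71999) h h) (v := fun i => ph (h i)) (u := h)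
    (u' := h - hc) (s.nn 287994) (s.nn (-1))
    (fun i hi => (abs_ph_le _).trans (mul_le_mul_of_nonneg_right (by
      have := pow_le_pow_left₀ (sq_nonneg _) (off_sq s hi) 2
      rw [← pow_mul, s.sq] at this
      exact this) (abs_nonneg _)))
    (fun i hi => (abs_ph_le' _).trans (by
      have h1 := on_le hW hi
      have h2 := mul_le_mul_of_nonneg_right
        ((le_abs_self _).trans (num_le s (C := 4) (by norm_num) (by norm_num)))
        (abs_nonneg ((h - hc) i))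
      linarith))
  rw [e, mulVec_add, mulVec_mulVec]
  exact s.v_add (s.v_mul i3 (vb_of s ha (near_vb s N) le_rfl) le_rfl)
    (s.v_mul (Nis_op hs A O) (vb_of s hb (h_vb hs A N.2) le_rfl) le_rfl) (by norm_num)
    (by norm_num)

/-- the defect in the Euler identity -/
theorem euler_vb (hs : T1.Sm L t) (k : D6.Pk L t S O) (hW : T1.StrW t S O hc)
    (N : D6.Near t S O hc h) :
    Vb t 215986 (S.Nis O *ᵥ ((3 * wb h) • chi h - VW h h *ᵥ h)) := by
  have s := sm_of hs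
  have A := k.adm
  have hi := Nis_op hs A O
  have two : ∀ {x : ℝ} {a : ℤ}, |x| ≤ E t a → |2 * x| ≤ E t (-1 + a) := fun hx => by
    rw [abs_mul, ← s.mul]
    exact mul_le_mul (num_le s (by norm_num) (by norm_num)) hx (abs_nonneg _) (s.nn _)
  rw [euler A.npos, mulVec_sub, mulVec_add, mulVec_smul, mulVec_smul, mulVec_smul]
  exact s.v_sub (s.v_add (v_smul s (two (q_le hs A N.2)) (s.v_mul hi (cub1 hs A hW N) le_rfl) le_rfl)
    (v_smul s (two (kap_le hs A hW N)) (s.v_mul hi (reg_tm' hs A N.2) le_rfl) le_rfl)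
    (c := 215987) (by norm_num) (by norm_num))
    (v_smul s (num_le s (by norm_num) (by norm_num)) (ph_vb hs k hW N) le_rfl) (by norm_num)
    (by norm_num)

theorem Nis_y (hs : T1.Sm L t) (A : T1.Adm L t S) (O : OG n)
    (hy : ∑ a, S.g a * S.yt a ^ 2 ≤ n * t ^ 431990) : Vb t 215995 (S.Nis O *ᵥ S.y O) := by
  have s := sm_of hs
  refine T1.nv_le_of_sq (s.nn _) ?_
  have e : F.sq (S.Nis O *ᵥ S.y O) = ∑ a, S.g a * S.yt a ^ 2 := by
    unfold T1.Dat.Nis
    rw [T1.sq_JO, T1.Dat.act_y]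
    refine Finset.sum_congr rfl fun a _ => ?_
    rw [mul_pow, inv_pow, Real.sq_sqrt (A.gap_pos hs a).le]; rfl
  rw [e, s.sq, E_nat t _ 431990 (by norm_num)]
  exact hy

/-- (I9) -/
theorem i9 (hs : T1.Sm L t) (k : D6.Pk L t S O) (hW : T1.StrW t S O hc) (N : D6.Near t S O hc h)
    (hr : nv (S.Nis O *ᵥ T1.rs1 (S.J O) (S.y O) h) ≤ √n * t ^ 215995)
    (hy : ∑ a, S.g a * S.yt a ^ 2 ≤ n * t ^ 431990) :
    Vb t 215915 (S.Nsq O *ᵥ h) ∧ Vb t 215914 (S.Nsq O *ᵥ tm h) := by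
  have s := sm_of hs
  have A := k.adm
  have hn := A.npos
  have hw := (wb_pos hn h).ne'
  obtain ⟨z, hz⟩ : ∃ z, z = T1.zh (S.J O) h := ⟨_, rfl⟩
  have hu : IsUnit (Nm (S.J O) z).det := hz ▸ unit_of_pd (zh_spec hn (J_symm S O) h).1
  have c := ctx_scal (k.ctx hW (T := {h | D6.Near t S O hc h}) fun h hh => hh.1) (b := 3⁻¹)
    (by norm_num) (by norm_num)
  rw [inv_inv] at c
  have hK := reg_K hs A N.2
  have hF := reg_F hs A N.2
  have hG := Nsq_G0 hs A O (zh_lt A O h)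
  rw [← hz] at hK hF hG
  have eY : S.Nsq O * S.K0 O * S.Nsq O = S.Y O := D6.Nsq_K0 k.sm A O
  have e34 : t ^ 34000 = E t 34000 := (E_nat t 34000 34000 rfl).symm
  have hd : Dec (S.Nsq O) (S.Nis O) (S.Y O) ((3 : ℝ) • 1) (T1.VW h h) (t ^ 34000)
      ((3 * wb h) • (1 : Mat n) + T1.Kt (S.J O) h z * T1.VW h h) := by
    rw [← eY, e34]
    refine dec_of (Kt := T1.Kt (S.J O) h z) (E := (-(3 * (1 - wb h))) • (1 : Mat n))
      (A.Nsq_mul_Nis hs O) ?_ (s.o_mono hK (by norm_num)) ?_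
    · rw [sub_mul]; module
    · rw [mul_smul_comm, mul_one, smul_mul_assoc, A.Nsq_mul_Nis hs]
      refine Sm.o_one ?_
      rw [abs_neg, abs_mul]
      exact (mul_le_mul (num_le s (by norm_num) (by norm_num)) (q_le hs A N.2) (abs_nonneg _)
        (s.nn _)).trans (s.mul_le (by norm_num))
  have key := c.close (h := h) (h' := h) N N hd h
  have e1 : ((3 * wb h) • (1 : Mat n) + T1.Kt (S.J O) h z * T1.VW h h) *ᵥ h
      = (3 : ℝ) • (G0 (S.J O) z *ᵥ (res1 (S.J O) (S.y O) h z + S.y O))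
        - T1.Kt (S.J O) h z *ᵥ ((3 * wb h) • chi h - VW h h *ᵥ h) := by
    have e2 := Psi_eq hu (S.y O) h
    unfold Psi at e2
    have e3 := tm_eq hn h
    rw [VW_eq, mulVec_add (G0 _ z), e2, e3, T1.Kt]
    simp only [add_mulVec, sub_mulVec, smul_mulVec, one_mulVec, ← mulVec_mulVec, mulVec_sub,
      mulVec_add, mulVec_smul, smul_sub, smul_add, smul_smul]
    have e4 : 3 * wb h * (wb h)⁻¹ = 3 := by field_simp
    rw [e4]
    module
  have e5 : ∀ (M : Mat n) (v : Vec n),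
      S.Nsq O *ᵥ (M *ᵥ v) = (S.Nsq O * M * S.Nsq O) *ᵥ (S.Nis O *ᵥ v) := fun M v => by
    rw [mulVec_mulVec, mulVec_mulVec, mul_assoc _ (S.Nsq O), A.Nsq_mul_Nis hs, mul_one]
  have b1 : OpLe (S.Nsq O * G0 (S.J O) z * S.Nsq O) (E t (-1)) := by
    rw [hG]
    refine s.o_add (a := 0) ?_ hF (by norm_num) (by norm_num)
    rw [E_zero]; exact opLe_one
  have b2 : OpLe (S.Nsq O * T1.Kt (S.J O) h z * S.Nsq O) (E t (-2)) := by
    have := s.o_add hK (s.o_num k.nY (by norm_num) (by norm_num)) (c := -2) (by norm_num)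
      (by norm_num)
    rwa [← eY, ← add_mul, ← mul_add, sub_add_cancel] at this
  have b3 : Vb t 215995 (S.Nis O *ᵥ res1 (S.J O) (S.y O) h z) := by
    unfold Vb; rw [E_nat t 215995 215995 rfl, hz]; exact hr
  have b4 := s.v_add b3 (Nis_y hs A O hy) (c := 215994) (by norm_num) (by norm_num)
  rw [← mulVec_add] at b4
  have b5 := s.v_sub (v_smul s (num_le s (C := 3) (by norm_num) (by norm_num))
    (s.v_mul b1 b4 le_rfl) le_rfl) (s.v_mul b2 (euler_vb hs k hW N) le_rfl) (c := 215983)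
    (by norm_num) (by norm_num)
  rw [← e5, ← e5, ← mulVec_smul, ← mulVec_sub, ← e1] at b5
  have b6 : 1458 * (t⁻¹ ^ 11) ^ 6 ≤ E t (-68) := by
    have := hs.ci (C := 1458) (by norm_num) (a := 66) (b := 68) (by norm_num)
    rw [← pow_mul, E_neg t (-68) 68 rfl]
    exact this
  have b7 : Vb t 215915 (S.Nsq O *ᵥ h) :=
    vb_of s (key.trans (mul_le_mul_of_nonneg_right b6 (nv_nonneg _))) b5 (by norm_num)
  refine ⟨b7, ?_⟩
  have b8 := s.v_sub b7 (s.v_mul (s.o_num (A.opLe_Nsq hs O) (by norm_num) (by norm_num))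
    (cub1 hs A hW N) le_rfl) (c := 215914) (by norm_num) (by norm_num)
  rwa [← mulVec_sub, sub_sub_cancel] at b8

end Main

/-- (I9), stable form: any reference point `hc` with the weak structure predicate -/
def I9WStmt : Prop := T1.Ev fun L t => ∀ (n : ℕ) (S : T1.Dat n) (O : OG n) (hc h : Vec n),
  T1.Adm L t S → T1.StrW t S O hc → D6.Near t S O hc h →
  nv (S.Nis O *ᵥ T1.rs1 (S.J O) (S.y O) h) ≤ √n * t ^ 215995 →
  ∑ a, S.g a * S.yt a ^ 2 ≤ n * t ^ 431990 →
  nv (S.Nsq O *ᵥ h) ≤ √n * t ^ 215900 ∧ nv (S.Nsq O *ᵥ tm h) ≤ √n * t ^ 215900 ∧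
    nv (h - tm h) ≤ √n * t ^ 215995

theorem i9W_of (h4 : T1.D4Stmt) : I9WStmt := fun L hL => by
  filter_upwards [D6.ev_pk d2Stmt h4 L hL, T1.ev_sm L hL] with t hk hs n S O hc h A hW N hr hy
  have s := sm_of hs
  obtain ⟨h1, h2⟩ := i9 hs (hk n S O A) hW N hr hy
  rw [← E_nat t 215900 215900 rfl, ← E_nat t 215995 215995 rfl]
  exact ⟨s.v_mono h1 (by norm_num), s.v_mono h2 (by norm_num), cub1 hs A hW N⟩

/-- (I9) on the ball of the good event -/
def I9Stmt : Prop := T1.Ev fun L t => ∀ (n : ℕ) (S : T1.Dat n) (O : OG n) (h : Vec n),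
  T1.Adm L t S → T1.Good t S O → T1.Ball t (S.J O) (S.y O) h →
  nv (S.Nis O *ᵥ T1.rs1 (S.J O) (S.y O) h) ≤ √n * t ^ 215995 →
  ∑ a, S.g a * S.yt a ^ 2 ≤ n * t ^ 431990 →
  nv (S.Nsq O *ᵥ h) ≤ √n * t ^ 215900 ∧ nv (S.Nsq O *ᵥ tm h) ≤ √n * t ^ 215900 ∧
    nv (h - tm h) ≤ √n * t ^ 215995

theorem near_of_ball {L t : ℝ} (hs : T1.Sm L t) {S : T1.Dat n} {O : OG n} {h : Vec n}
    (g : T1.Good t S O) (hb : T1.Ball t (S.J O) (S.y O) h) (R : T1.Reg t (S.J O) (S.y O) h) :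
    D6.Near t S O (S.hc t O) h := by
  refine ⟨?_, R⟩
  have h1 := nv_sub_triangle h (S.h O 3) (S.hc t O)
  have h2 := g.base.clp
  have h3 := mul_le_mul_of_nonneg_left (hs.pw (a := 280000) (b := 252000) (by norm_num))
    (Real.sqrt_nonneg (n : ℝ))
  have h4 : nv (h - S.h O 3) ≤ √n * t ^ 252000 := hb
  linarith only [h1, h2, h3, h4]

theorem i9_of (h4 : T1.D4Stmt) : I9Stmt := fun L hL => by
  filter_upwards [i9W_of h4 L hL, D6.d6Stmt_of d2Stmt h4 L hL, T1.ev_sm L hL, D6.ev_sm hL]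
    with t hi h6 hs hs' n S O h A g hb hr hy
  exact hi n S O _ h A (D6.strW_of_good hs' g) (near_of_ball hs g hb ((h6 n S O A g).reg h hb))
    hr hy

end Vale.Agent.N150.T2A9
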