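import Vale.Agent.N150.T1Kit
import Vale.Agent.N150.KBCal
import Vale.Agent.N150.D4
import Vale.Agent.N150.Comp
import Vale.Agent.N150.Tail3

/-! Block B of T2 (explored blocks): abstract part. -/

namespace Vale.Agent.N150.T2B

open Matrix Finset
open Vale.Agent.P150 Vale.Agent.P150.F Vale.Agent.N150.Fib Vale.Agent.N150.Rip
open Vale.Agent.N150.Haar (fro fro_nonneg fro_add_le fro_sub_le fro_neg fro_smul fro_transpose
  fro_sq')
open Vale.Agent.N150.T1 (clip abs_clip_le abs_clip_le' nv_clip_le)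
open Vale.Agent.N150.KB.Ch (fro_mul_l fro_mul_r op_of_fro opT)

variable {n : ℕ}

/-! ### small kit -/

theorem abs_mul_le' {a b A B : ℝ} (ha : |a| ≤ A) (hb : |b| ≤ B) : |a * b| ≤ A * B := by
  rw [abs_mul]
  exact mul_le_mul ha hb (abs_nonneg _) ((abs_nonneg _).trans ha)

theorem abs_sq_le {a A : ℝ} (ha : |a| ≤ A) : |a ^ 2| ≤ A ^ 2 := by
  rw [abs_pow]; exact pow_le_pow_left₀ (abs_nonneg _) ha 2

theorem abs_ip_le' {u v : Vec n} {A B : ℝ} (hu : nv u ≤ A) (hv : nv v ≤ B) : |ip u v| ≤ A * B :=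
  (abs_ip_le u v).trans (mul_le_mul hu hv (nv_nonneg _) ((nv_nonneg _).trans hu))

theorem nv_had_le {w u : Vec n} {C : ℝ} (hC : 0 ≤ C) (h : ∀ i, |w i| ≤ C) :
    nv (w * u) ≤ C * nv u :=
  nv_le_mul hC fun i => abs_mul_le' (h i) le_rfl

theorem nv_had_one {w : Vec n} (h : ∀ i, |w i| ≤ 1) (u : Vec n) : nv (w * u) ≤ nv u := by
  simpa using nv_had_le (u := u) zero_le_one h

theorem ip_had (w u v : Vec n) : ip (w * u) v = ip u (w * v) := by
  unfold ip
  exact sum_congr rfl fun i _ => by simp only [Pi.mul_apply]; ring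

theorem ip_diag (w u v : Vec n) : ip u (diagonal w *ᵥ v) = ip (w * u) v := by
  unfold ip
  exact sum_congr rfl fun i _ => by rw [mulVec_diagonal, Pi.mul_apply]; ring

theorem ip_vv (a b u v : Vec n) : ip u (vecMulVec a b *ᵥ v) = ip a u * ip b v := by
  rw [F.vecMulVec_mulVec, ip_smul_right, ipN_comm u a, mul_comm]

theorem ext_bil {A B : Mat n} (h : ∀ u v, ip u (A *ᵥ v) = ip u (B *ᵥ v)) : A = B := by
  ext i j
  have := h (Pi.single i 1) (Pi.single j 1)
  simpa [ip, Pi.single_apply] using this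

theorem fro_vv (a b : Vec n) : fro (vecMulVec a b) = nv a * nv b := by
  have h : fro (vecMulVec a b) ^ 2 = (nv a * nv b) ^ 2 := by
    rw [fro_sq', mul_pow, nv_sq, nv_sq]
    unfold F.sq
    rw [sum_mul_sum]
    exact sum_congr rfl fun i _ => sum_congr rfl fun j _ => by rw [vecMulVec_apply, mul_pow]
  exact (pow_left_inj₀ (fro_nonneg _) (mul_nonneg (nv_nonneg _) (nv_nonneg _)) two_ne_zero).1 h

theorem fro_diag (w : Vec n) : fro (diagonal w) = nv w := by
  have h : fro (diagonal w) ^ 2 = nv w ^ 2 := by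
    rw [fro_sq', nv_sq]
    unfold F.sq
    refine sum_congr rfl fun i _ => ?_
    rw [sum_eq_single i (fun j _ hj => by rw [diagonal_apply_ne _ hj.symm]; ring) (by simp),
      diagonal_apply_eq]
  exact (pow_left_inj₀ (fro_nonneg _) (nv_nonneg _) two_ne_zero).1 h

theorem fro_proj_le {P : Mat n} (hP : IsProj P) {r : ℝ} (hr : P.trace ≤ r) : fro P ≤ √r := by
  have h : fro P = √P.trace := by
    rw [← Tail.hsq_proj hP.symm hP.idem]; rfl
  rw [h]
  exact Real.sqrt_le_sqrt hr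

theorem fro_proj_mul {P A : Mat n} (hP : IsProj P) {r C : ℝ} (hr : P.trace ≤ r) (hC : 0 ≤ C)
    (hA : OpLe A C) : fro (P * A) ≤ √r * C := by
  refine (fro_mul_r hC hA P).trans ?_
  rw [mul_comm]
  exact mul_le_mul_of_nonneg_right (fro_proj_le hP hr) hC

theorem fro_proj_l {P : Mat n} (hP : IsProj P) (A : Mat n) : fro (P * A) ≤ fro A := by
  simpa using fro_mul_l zero_le_one (opLe_proj hP) A

theorem fro_proj_r {P : Mat n} (hP : IsProj P) (A : Mat n) : fro (A * P) ≤ fro A := by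
  simpa using fro_mul_r zero_le_one (opLe_proj hP) A

/-- the clip lemma (L2) -/
theorem sq_sub_clip {c K lam : ℝ} {u : Vec n} (h : Spread c K u) (hc : 0 ≤ c) (hn : 0 < n)
    (hl0 : 0 ≤ lam) (hl : 2 * c * (Real.log n + 2) ≤ n * lam ^ 2) :
    n * F.sq (u - clip lam u) ≤ 2 * c * (K + Real.log n + 3) := by
  classical
  have hn' : (1 : ℝ) ≤ n := by exact_mod_cast hn
  obtain ⟨l, h1, h2⟩ := exists_level (n := n) one_pos hn'
  rw [div_one] at h2
  set S := univ.filter fun i => lam < |u i| with hS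
  have h3 := h l S
  have h4 : (S.card : ℝ) * lam ^ 2 ≤ ∑ i ∈ S, u i ^ 2 := by
    rw [← nsmul_eq_mul, ← sum_const]
    refine sum_le_sum fun i hi => ?_
    rw [← sq_abs (u i)]
    exact pow_le_pow_left₀ hl0 (mem_filter.1 hi).2.le 2
  have h5 : F.sq (u - clip lam u) ≤ ∑ i ∈ S, u i ^ 2 := by
    unfold F.sq
    rw [hS, sum_filter]
    refine sum_le_sum fun i _ => ?_
    rw [Pi.sub_apply]
    unfold clip
    split_ifs with hi
    · rcases le_total 0 (u i) with h0 | h0
      · rw [abs_of_nonneg h0] at hi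
        rw [min_eq_left hi.le, max_eq_right (by linarith)]
        nlinarith
      · rw [abs_of_nonpos h0] at hi
        rw [min_eq_right (by linarith), max_eq_left (by linarith)]
        nlinarith
    · have := abs_le.1 (not_lt.1 hi)
      rw [min_eq_right this.2, max_eq_right this.1]
      simp
  unfold lev at h3
  have h6 : c * ((l + 1) * S.card) ≤ n * (∑ i ∈ S, u i ^ 2) / 2 := by
    have k1 : c * (l + 1) ≤ c * (Real.log n + 2) := by gcongr
    have k2 : (0 : ℝ) ≤ S.card := Nat.cast_nonneg _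
    have k3 : n * (S.card * lam ^ 2) ≤ n * ∑ i ∈ S, u i ^ 2 := by gcongr
    nlinarith
  have h7 : c * (K + (l + 1) + n * Real.exp (-(l : ℝ))) ≤ c * (K + Real.log n + 3) := by
    gcongr c * ?_
    linarith
  have h8 : n * F.sq (u - clip lam u) ≤ n * ∑ i ∈ S, u i ^ 2 := by gcongr
  nlinarith

/-- the set of the large coordinates -/
theorem exists_large {v : Vec n} {k : ℕ} (hk : 0 < k) {vp : ℝ} (h0 : 0 ≤ vp)
    (h : ∀ S : Finset (Fin n), S.card ≤ k → nv (res S *ᵥ v) ≤ vp) :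
    ∃ S : Finset (Fin n), S.card ≤ k ∧ ∀ i ∉ S, √k * |v i| ≤ vp := by
  classical
  refine ⟨univ.filter fun i => vp < √k * |v i|, ?_, fun i hi => ?_⟩
  · by_contra hc
    obtain ⟨T, hT, hTk⟩ := exists_subset_card_eq (not_le.1 hc).le
    have h1 := sq_le_of_nv_le (h T hTk.le)
    rw [sq_res] at h1
    have hk' : (0 : ℝ) < k := by exact_mod_cast hk
    have h2 : ∑ _i ∈ T, vp ^ 2 < ∑ i ∈ T, k * v i ^ 2 := by
      refine sum_lt_sum_of_nonempty (card_pos.1 (by omega)) fun i hi => ?_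
      have := pow_lt_pow_left₀ (mem_filter.1 (hT hi)).2 h0 two_ne_zero
      rwa [mul_pow, Real.sq_sqrt hk'.le, sq_abs] at this
    rw [sum_const, hTk, nsmul_eq_mul, ← mul_sum] at h2
    nlinarith
  · simpa using hi

/-! ### the matrix `Bh` -/

/-- `F = 1 - cT m pᵀ` -/
def Fm (m p : Vec n) (cT : ℝ) : Mat n := 1 - cT • vecMulVec m p

/-- the diagonal weights -/
noncomputable def be (m v d : Vec n) (c : ℝ) : Vec n := m * v + (c / 2 * ip m v) • (d * d)

/-- the test matrix -/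
noncomputable def Bh (m v d : Vec n) (c cT c3 : ℝ) : Mat n :=
  (Fm m (d * m) cT)ᵀ * (diagonal (be m v d c) +
    (c / 2) • (vecMulVec (d * v) (d * m) + vecMulVec (d * m) (d * v)) +
    (c3 * ip m v) • vecMulVec (d * m) (d * m)) * Fm m (d * m) cT

/-- the finite rank part -/
noncomputable def R3 (m v d : Vec n) (c cT c3 : ℝ) : Mat n :=
  -(cT • (vecMulVec (d * m) (be m v d c * m) + vecMulVec (be m v d c * m) (d * m))) +
    (cT ^ 2 * ip (be m v d c * m) m) • vecMulVec (d * m) (d * m) +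
    (c / 2 * (1 - cT * ip (d * m) m)) •
      (vecMulVec (d * v - (cT * ip (d * v) m) • (d * m)) (d * m) +
        vecMulVec (d * m) (d * v - (cT * ip (d * v) m) • (d * m))) +
    (c3 * ip m v * (1 - cT * ip (d * m) m) ^ 2) • vecMulVec (d * m) (d * m)

theorem Fm_mulVec (m p : Vec n) (cT : ℝ) (u : Vec n) :
    Fm m p cT *ᵥ u = u - (cT * ip p u) • m := by
  unfold Fm
  rw [sub_mulVec, one_mulVec, smul_mulVec, F.vecMulVec_mulVec, smul_smul]

theorem ip_R3 (m v d : Vec n) (c cT c3 : ℝ) (x y : Vec n) :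
    ip x (R3 m v d c cT c3 *ᵥ y) =
      -(cT * ip (d * m) x * ip (be m v d c * m) y) - cT * ip (d * m) y * ip (be m v d c * m) x +
      cT ^ 2 * ip (be m v d c * m) m * (ip (d * m) x * ip (d * m) y) +
      c / 2 * ((ip (d * v) x - cT * ip (d * v) m * ip (d * m) x) *
        (ip (d * m) y * (1 - cT * ip (d * m) m))) +
      c / 2 * ((ip (d * v) y - cT * ip (d * v) m * ip (d * m) y) *
        (ip (d * m) x * (1 - cT * ip (d * m) m))) +
      c3 * ip m v * (1 - cT * ip (d * m) m) ^ 2 * (ip (d * m) x * ip (d * m) y) := by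
  unfold R3
  rw [← neg_smul]
  simp only [add_mulVec, smul_mulVec, ip_add_right, ip_smul_right, ip_vv, ip_sub_left,
    ip_smul_left]
  ring

theorem Bh_eq (m v d : Vec n) (c cT c3 : ℝ) :
    Bh m v d c cT c3 = diagonal (be m v d c) + R3 m v d c cT c3 := by
  refine ext_bil fun x y => ?_
  rw [add_mulVec, ip_add_right, ip_R3]
  unfold Bh
  rw [← mulVec_mulVec, ← mulVec_mulVec, ip_mulVec_tr, transpose_transpose, ipN_comm]
  simp only [add_mulVec, smul_mulVec, ip_add_right, ip_smul_right, ip_vv, ip_diag]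
  rw [ip_had, Fm_mulVec, Fm_mulVec]
  set β := be m v d c
  have e1 : ∀ (u : Vec n) (t : ℝ), β * (u - t • m) = β * u - t • (β * m) := fun u t => by
    ext i; simp only [Pi.mul_apply, Pi.sub_apply, Pi.smul_apply, smul_eq_mul]; ring
  rw [e1]
  simp only [ip_sub_left, ip_sub_right, ip_smul_left, ip_smul_right]
  rw [← ip_had β x y, ← ip_had β m y, ipN_comm x (β * m), ipN_comm m (β * m)]
  ring

/-- size hypotheses valid on all scales -/
structure Sc (m v d : Vec n) (c cT c3 M V e : ℝ) : Prop where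
  npos : 0 < n
  m1 : ∀ i, |m i| ≤ 1
  hd : ∀ i, d i = 1 - m i ^ 2
  hM : nv m ≤ M
  hV : nv v ≤ V
  e1 : e ≤ 1
  hc : |c / 2 + 1 / n| ≤ e / n
  hcT : |cT| ≤ 4 / n
  hq : M ^ 2 ≤ e * n
  hc3 : |c3| * M ^ 2 ≤ e / n

namespace Sc

variable {m v d : Vec n} {c cT c3 M V e : ℝ} (h : Sc m v d c cT c3 M V e)
include h

theorem n0 : (0 : ℝ) < n := by exact_mod_cast h.npos
theorem M0 : 0 ≤ M := (nv_nonneg _).trans h.hM
theorem V0 : 0 ≤ V := (nv_nonneg _).trans h.hV
theorem e0 : 0 ≤ e := by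
  have := (abs_nonneg _).trans h.hc
  by_contra h0
  have := div_neg_of_neg_of_pos (not_le.1 h0) h.n0
  linarith
theorem nu0 : 0 ≤ M * V / n := div_nonneg (mul_nonneg h.M0 h.V0) h.n0.le

theorem d1 (i : Fin n) : |d i| ≤ 1 := by
  have h1 : m i ^ 2 ≤ 1 := by rw [← sq_abs]; exact pow_le_one₀ (abs_nonneg _) (h.m1 i)
  rw [h.hd, abs_le]
  constructor <;> nlinarith [sq_nonneg (m i)]

theorem p_le : nv (d * m) ≤ M := (nv_had_one h.d1 m).trans h.hM
theorem dv_le : nv (d * v) ≤ V := (nv_had_one h.d1 v).trans h.hV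
theorem mu_le : |ip m v| ≤ M * V := abs_ip_le' h.hM h.hV

theorem c_le : |c / 2| ≤ 2 / n := by
  have h1 := abs_sub (c / 2 + 1 / n) (1 / n)
  rw [add_sub_cancel_right, abs_of_pos (one_div_pos.2 h.n0)] at h1
  have h2 : e / n ≤ 1 / n := div_le_div_of_nonneg_right h.e1 h.n0.le
  have h3 : (2 : ℝ) / n = 1 / n + 1 / n := by ring
  linarith [h.hc]

theorem q_le : M * M / n ≤ e := by
  rw [div_le_iff₀ h.n0, ← pow_two]; exact h.hq

theorem phi_sub : |cT * ip (d * m) m| ≤ 4 * e := by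
  refine (abs_mul_le' h.hcT (abs_ip_le' h.p_le h.hM)).trans ?_
  have := h.q_le
  calc 4 / n * (M * M) = 4 * (M * M / n) := by ring
    _ ≤ _ := by linarith

theorem phi_le : |1 - cT * ip (d * m) m| ≤ 5 := by
  have h1 := abs_sub 1 (cT * ip (d * m) m)
  rw [abs_one] at h1
  linarith [h.phi_sub, h.e1]

theorem u_le : |cT * ip (d * v) m| * M ≤ 4 * e * V := by
  have h1 := abs_mul_le' h.hcT (abs_ip_le' h.dv_le h.hM)
  have h2 := mul_le_mul_of_nonneg_right h.q_le h.V0
  calc _ ≤ 4 / n * (V * M) * M := mul_le_mul_of_nonneg_right h1 h.M0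
    _ = 4 * (M * M / n * V) := by ring
    _ ≤ _ := by linarith

theorem cmu_le : |c / 2 * ip m v| ≤ 2 * (M * V / n) :=
  (abs_mul_le' h.c_le h.mu_le).trans (le_of_eq (by ring))

theorem M_le : M ≤ √n := Real.le_sqrt_of_sq_le (by nlinarith [h.hq, h.e1, h.n0])

theorem cd_le : nv ((c / 2 * ip m v) • (d * d)) ≤ 2 * (M * V / n) * √n := by
  rw [nv_smul]
  exact mul_le_mul h.cmu_le (nv_le_sqrt_n fun i => by
    simpa using abs_mul_le' (h.d1 i) (h.d1 i)) (nv_nonneg _) (by linarith [h.nu0])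

theorem be_le : nv (be m v d c) ≤ 3 * V := by
  have h1 := (nv_had_one h.m1 v).trans h.hV
  have h2 : M * V / n * √n ≤ V := by
    have k1 : M * √n ≤ √n * √n := mul_le_mul_of_nonneg_right h.M_le (Real.sqrt_nonneg _)
    rw [Real.mul_self_sqrt h.n0.le] at k1
    rw [div_mul_eq_mul_div, div_le_iff₀ h.n0]
    nlinarith [h.V0]
  refine (nv_add_le _ _).trans ?_
  linarith [h.cd_le]

theorem abs_be_le (i : Fin n) : |be m v d c i| ≤ |v i| + 2 * (M * V / n) := by
  unfold be
  simp only [Pi.add_apply, Pi.mul_apply, Pi.smul_apply, smul_eq_mul]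
  refine (abs_add_le _ _).trans (add_le_add ?_ ?_)
  · simpa using abs_mul_le' (h.m1 i) (le_refl |v i|)
  · simpa using abs_mul_le' h.cmu_le (abs_mul_le' (h.d1 i) (h.d1 i))

theorem fro_R3 : fro (R3 m v d c cT c3) ≤ 200 * (M * V / n) := by
  have hn := h.n0
  have hM := h.M0
  have hV := h.V0
  have hp := h.p_le
  have hb : nv (be m v d c * m) ≤ 3 * V := by
    rw [mul_comm]; exact (nv_had_one h.m1 _).trans h.be_le
  have hq1 : nv (d * v - (cT * ip (d * v) m) • (d * m)) ≤ 5 * V := by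
    refine (nv_sub_le _ _).trans ?_
    rw [nv_smul]
    have k1 := (mul_le_mul_of_nonneg_left hp (abs_nonneg (cT * ip (d * v) m))).trans h.u_le
    nlinarith [h.dv_le, h.e1]
  have vv : ∀ {a b : Vec n} {A B : ℝ}, nv a ≤ A → nv b ≤ B → fro (vecMulVec a b) ≤ A * B :=
    fun ha hb => by
      rw [fro_vv]; exact mul_le_mul ha hb (nv_nonneg _) ((nv_nonneg _).trans ha)
  have sm : ∀ {t T B : ℝ} {A : Mat n}, |t| ≤ T → fro A ≤ B → fro (t • A) ≤ T * B :=
    fun ht hA => by
      rw [fro_smul]; exact mul_le_mul ht hA (fro_nonneg _) ((abs_nonneg _).trans ht)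
  have t1 := sm h.hcT ((fro_add_le _ _).trans (add_le_add (vv hp hb) (vv hb hp)))
  have t2 := sm (abs_mul_le' (abs_sq_le h.hcT) (abs_ip_le' hb h.hM)) (vv hp hp)
  have t3 := sm (abs_mul_le' h.c_le h.phi_le)
    ((fro_add_le _ _).trans (add_le_add (vv hq1 hp) (vv hp hq1)))
  have t4 := sm (abs_mul_le' (abs_mul_le' (le_refl |c3|) h.mu_le) (abs_sq_le h.phi_le)) (vv hp hp)
  unfold R3
  refine (fro_add_le _ _).trans ((add_le_add ((fro_add_le _ _).trans (add_le_add
    ((fro_add_le _ _).trans (add_le_add ((fro_neg _).le.trans t1) t2)) t3)) t4).trans ?_)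
  have k1 : (4 / n) ^ 2 * (3 * V * M) * (M * M) ≤ 48 * (M * V / n) := by
    have := mul_le_mul_of_nonneg_left (h.q_le.trans h.e1) h.nu0
    calc _ = 48 * (M * V / n * (M * M / n)) := by ring
      _ ≤ _ := by linarith
  have k2 : |c3| * (M * V) * 5 ^ 2 * (M * M) ≤ 25 * (M * V / n) := by
    have := mul_le_mul_of_nonneg_left
      (h.hc3.trans (div_le_div_of_nonneg_right h.e1 hn.le)) (mul_nonneg hM hV)
    calc _ = 25 * (M * V * (|c3| * M ^ 2)) := by ring
      _ ≤ 25 * (M * V * (1 / n)) := by linarith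
      _ = _ := by ring
  have k3 : 4 / n * (M * (3 * V) + 3 * V * M) = 24 * (M * V / n) := by ring
  have k4 : 2 / n * 5 * (5 * V * M + M * (5 * V)) = 100 * (M * V / n) := by ring
  linarith [h.nu0]

theorem opLe_R3 : OpLe (R3 m v d c cT c3) (200 * (M * V / n)) :=
  (op_of_fro _).monoN (fro_nonneg _) h.fro_R3

end Sc

/-! ### B1: Frobenius bounds through the set of large coordinates -/

theorem diag_split (S : Finset (Fin n)) (w : Vec n) :
    diagonal w = res S * diagonal (res S *ᵥ w) * res S + diagonal (w - res S *ᵥ w) := by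
  unfold res
  rw [diagonal_mul_diagonal, diagonal_mul_diagonal, diagonal_add]
  congr 1
  ext i
  rw [Pi.sub_apply, mulVec_diagonal]
  split_ifs <;> ring

/-- (B1) for a matrix `diagonal w + R` -/
theorem b1_core {Hs PB R : Mat n} {w : Vec n} {S : Finset (Fin n)} {C1 a0 r vp ei rF : ℝ}
    (hH : Hsᵀ = Hs) (hP : IsProj PB) (hc : PB * Hs = Hs * PB) (hr : PB.trace ≤ r)
    (hC1 : 0 ≤ C1) (ha0 : 0 ≤ a0) (hei : 0 ≤ ei) (hS : OpLe (res S * Hs) C1) (hHs : OpLe Hs a0)
    (hw : nv (res S *ᵥ w) ≤ vp) (hwi : ∀ i ∉ S, |w i| ≤ ei) (hR : fro R ≤ rF) :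
    fro (Hs * PB * (diagonal w + R)) ≤ C1 * vp + √r * (a0 * ei) + a0 * rF ∧
    fro (Hs * PB * (diagonal w + R) * PB * Hs) ≤
      C1 ^ 2 * vp + √r * (a0 ^ 2 * ei) + a0 ^ 2 * rF := by
  have hS' : OpLe (Hs * res S) C1 := by
    have := opT hC1 hS
    rwa [transpose_mul, hH, (isProj_res S).symm] at this
  have hD : OpLe (diagonal (w - res S *ᵥ w)) ei := D4.opLe_diag hei fun i => by
    rw [Pi.sub_apply, res_mulVec]
    split_ifs with hi
    · simpa using hei
    · simpa using hwi i hi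
  have hvp : fro (diagonal (res S *ᵥ w)) ≤ vp := (fro_diag _).le.trans hw
  have hvp0 : 0 ≤ vp := (fro_nonneg _).trans hvp
  have f1 : fro (Hs * res S * diagonal (res S *ᵥ w)) ≤ C1 * vp :=
    (fro_mul_l hC1 hS' _).trans (mul_le_mul_of_nonneg_left hvp hC1)
  have f2 : fro (Hs * R) ≤ a0 * rF :=
    (fro_mul_l ha0 hHs _).trans (mul_le_mul_of_nonneg_left hR ha0)
  have o1 : OpLe (Hs * diagonal (w - res S *ᵥ w)) (a0 * ei) := hHs.mulN hD ha0 hei
  constructor
  · have e : Hs * PB * (diagonal w + R) =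
        PB * (Hs * res S * diagonal (res S *ᵥ w) * res S) +
          PB * (Hs * diagonal (w - res S *ᵥ w)) + PB * (Hs * R) := by
      conv_lhs => rw [← hc, diag_split S w]
      simp only [Matrix.mul_add, Matrix.mul_assoc]
    rw [e]
    refine (fro_add_le _ _).trans (add_le_add ((fro_add_le _ _).trans (add_le_add ?_ ?_)) ?_)
    · exact (fro_proj_l hP _).trans ((fro_proj_r (isProj_res S) _).trans f1)
    · exact fro_proj_mul hP hr (by positivity) o1
    · exact (fro_proj_l hP _).trans f2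
  · have e : Hs * PB * (diagonal w + R) * PB * Hs =
        PB * (Hs * res S * diagonal (res S *ᵥ w) * (res S * Hs) * PB) +
          PB * (Hs * diagonal (w - res S *ᵥ w) * Hs * PB) + PB * (Hs * R * Hs * PB) := by
      have hc' : ∀ X : Mat n, Hs * (PB * X) = PB * (Hs * X) := fun X => by
        rw [← Matrix.mul_assoc, ← hc, Matrix.mul_assoc]
      conv_lhs => rw [diag_split S w]
      simp only [Matrix.mul_add, Matrix.add_mul, Matrix.mul_assoc, hc, hc']
    rw [e]
    refine (fro_add_le _ _).trans (add_le_add ((fro_add_le _ _).trans (add_le_add ?_ ?_)) ?_)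
    · refine (fro_proj_l hP _).trans ((fro_proj_r hP _).trans ((fro_mul_r hC1 hS _).trans ?_))
      nlinarith
    · refine (fro_proj_mul hP hr (by positivity) ((o1.mulN hHs (by positivity) ha0).mulN
        (opLe_proj hP) (by positivity) zero_le_one)).trans (le_of_eq (by ring))
    · refine (fro_proj_l hP _).trans ((fro_proj_r hP _).trans ((fro_mul_r ha0 hHs _).trans ?_))
      nlinarith

/-- (B1) -/
theorem Sc.b1 {m v d : Vec n} {c cT c3 M V e : ℝ} (h : Sc m v d c cT c3 M V e) {Hs PB : Mat n}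
    {k : ℕ} {C1 a0 r vp : ℝ} (hH : Hsᵀ = Hs) (hP : IsProj PB) (hc : PB * Hs = Hs * PB)
    (hr : PB.trace ≤ r) (hC1 : 0 ≤ C1) (ha0 : 0 ≤ a0) (hk : 0 < k)
    (hS : ∀ S : Finset (Fin n), S.card ≤ k → OpLe (res S * Hs) C1) (hHs : OpLe Hs a0)
    (hv : ∀ S : Finset (Fin n), S.card ≤ k → nv (res S *ᵥ v) ≤ vp) :
    fro (Hs * PB * Bh m v d c cT c3) ≤ C1 * (vp + 2 * (M * V / n) * √k) +
      √r * (a0 * (vp / √k + 2 * (M * V / n))) + a0 * (200 * (M * V / n)) ∧
    fro (Hs * PB * Bh m v d c cT c3 * PB * Hs) ≤ C1 ^ 2 * (vp + 2 * (M * V / n) * √k) +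
      √r * (a0 ^ 2 * (vp / √k + 2 * (M * V / n))) + a0 ^ 2 * (200 * (M * V / n)) := by
  have hvp : 0 ≤ vp := (nv_nonneg _).trans (hv ∅ (by simp))
  have hk' : 0 < √(k : ℝ) := Real.sqrt_pos.2 (by exact_mod_cast hk)
  obtain ⟨S, hSk, hSi⟩ := exists_large hk hvp hv
  have hnu := h.nu0
  rw [Bh_eq]
  refine b1_core hH hP hc hr hC1 ha0 (by positivity) (hS S hSk) hHs ?_ (fun i hi => ?_) h.fro_R3
  · unfold be
    rw [mulVec_add]
    refine (nv_add_le _ _).trans (add_le_add (le_trans (nv_mono fun i => ?_) (hv S hSk)) ?_)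
    · rw [res_mulVec, res_mulVec]
      split_ifs
      · simpa using abs_mul_le' (h.m1 i) (le_refl |v i|)
      · exact le_rfl
    · refine nv_le_of_sq_le (by positivity) ?_
      rw [sq_res, mul_pow, Real.sq_sqrt (Nat.cast_nonneg _)]
      calc _ ≤ ∑ _i ∈ S, (2 * (M * V / n)) ^ 2 := sum_le_sum fun i _ => by
            rw [← sq_abs]
            refine pow_le_pow_left₀ (abs_nonneg _) ?_ 2
            simpa using abs_mul_le' h.cmu_le (abs_mul_le' (h.d1 i) (h.d1 i))
        _ ≤ _ := by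
            rw [sum_const, nsmul_eq_mul, mul_comm]
            gcongr
  · refine (h.abs_be_le i).trans (add_le_add ?_ le_rfl)
    rw [le_div_iff₀ hk', mul_comm]
    exact hSi i hi

/-! ### B2: the Wick cancellation -/

/-- the Wick property of the clipped unit vectors of the range of `Ps` -/
def WickOK (Ps : Mat n) (x : Vec n) (lam eps : ℝ) : Prop :=
  ∀ a b y y1 : Vec n, Ps *ᵥ a = a → Ps *ᵥ b = b → Ps *ᵥ y = y → Ps *ᵥ y1 = y1 →
    nv a = 1 → nv b = 1 → nv y = 1 → nv y1 = 1 →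
    |∑ i, clip lam a i * clip lam b i * clip lam y i * clip lam y1 i -
      (ip a b * ip y y1 + ip a y * ip b y1 + ip a y1 * ip b y) / n| ≤
      (eps + 3 * (|ip x a| * |ip x b| * |ip x y| * |ip x y1|) / n ^ 2) / n

/-- cancellation of the finite rank part against two Wick terms -/
theorem Sc.r3_wick {m v d : Vec n} {c cT c3 M V e : ℝ} (h : Sc m v d c cT c3 M V e)
    {b m4 g : ℝ} {x y : Vec n} (hb : nv (be m v d c) ≤ b) (hb' : nv (m * v) ≤ b)
    (h4 : nv (m * m) ≤ m4) (hx : nv x ≤ 1) (hy : nv y ≤ 1) (hgx : nv (m * x) ≤ g)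
    (hgy : nv (m * y) ≤ g) (k1 : b * g ≤ e * V) (k2 : m4 * g ≤ e * M)
    (k3 : M * b * m4 ≤ e * V * n) :
    |ip x (R3 m v d c cT c3 *ᵥ y) + (ip m x * ip v y + ip m y * ip v x) / n| ≤
      159 * (e * (M * V / n)) := by
  have hn := h.n0
  have hM := h.M0
  have hV := h.V0
  have he := h.e0
  have hdm : ∀ u : Vec n, d * u = u - m * (m * u) := fun u => by
    ext i; simp only [Pi.mul_apply, Pi.sub_apply, h.hd]; ring
  have s0 : ∀ {u : Vec n}, nv u ≤ 1 → |ip (d * m) u| ≤ M := fun hu => by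
    simpa using abs_ip_le' h.p_le hu
  have s1 : ∀ {u : Vec n}, nv (m * u) ≤ g → |ip (d * m) u - ip m u| ≤ e * M := fun {u} hu => by
    rw [hdm, ip_sub_left, sub_sub_cancel_left, abs_neg, ip_had]
    exact (abs_ip_le' h4 hu).trans k2
  have s2 : ∀ {u : Vec n}, nv (m * u) ≤ g → |ip (d * v) u - ip v u| ≤ e * V := fun {u} hu => by
    rw [hdm, ip_sub_left, sub_sub_cancel_left, abs_neg, ip_had]
    exact (abs_ip_le' hb' hu).trans k1
  have s3 : ∀ {u : Vec n}, nv (m * u) ≤ g → |ip (be m v d c * m) u| ≤ e * V := fun {u} hu => by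
    rw [mul_comm, ip_had]
    exact (abs_ip_le' hb hu).trans k1
  have s4 : |ip (be m v d c * m) m| ≤ b * m4 := by
    rw [mul_comm, ip_had]
    exact abs_ip_le' hb h4
  have tA : ∀ {u w : Vec n}, nv u ≤ 1 → nv (m * w) ≤ g →
      |cT * ip (d * m) u * ip (be m v d c * m) w| ≤ 4 * (e * (M * V / n)) := fun hu hw =>
    (abs_mul_le' (abs_mul_le' h.hcT (s0 hu)) (s3 hw)).trans (le_of_eq (by ring))
  have tB : |cT ^ 2 * ip (be m v d c * m) m * (ip (d * m) x * ip (d * m) y)| ≤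
      16 * (e * (M * V / n)) := by
    refine (abs_mul_le' (abs_mul_le' (abs_sq_le h.hcT) s4) (abs_mul_le' (s0 hx) (s0 hy))).trans ?_
    calc _ = 16 * (M * (M * b * m4) / n ^ 2) := by ring
      _ ≤ 16 * (M * (e * V * n) / n ^ 2) := by gcongr
      _ = _ := by field_simp
  have tC : ∀ {u w : Vec n}, nv u ≤ 1 → nv w ≤ 1 → nv (m * u) ≤ g → nv (m * w) ≤ g →
      |c / 2 * ((ip (d * v) u - cT * ip (d * v) m * ip (d * m) u) *
        (ip (d * m) w * (1 - cT * ip (d * m) m))) + ip m w * ip v u / n| ≤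
        55 * (e * (M * V / n)) := by
    intro u w hu hw hgu hgw
    set t := ip (d * v) u - cT * ip (d * v) m * ip (d * m) u with ht
    set s := ip (d * m) w * (1 - cT * ip (d * m) m) with hs
    have a1 : |cT * ip (d * v) m * ip (d * m) u| ≤ 4 * e * V :=
      (abs_mul_le' le_rfl (s0 hu)).trans h.u_le
    have a2 : |ip v u| ≤ V := by simpa using abs_ip_le' h.hV hu
    have a3 : |t - ip v u| ≤ 5 * e * V := by
      rw [ht, sub_right_comm]
      refine (abs_sub _ _).trans ?_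
      linarith [s2 hgu]
    have a4 : |t| ≤ 5 * V := by
      have k : |ip (d * v) u| ≤ V := by simpa using abs_ip_le' h.dv_le hu
      refine (abs_sub _ _).trans ?_
      nlinarith [h.e1]
    have a5 : |s| ≤ M * 5 := abs_mul_le' (s0 hw) h.phi_le
    have a6 : |s - ip m w| ≤ 5 * e * M := by
      have e1 : s - ip m w = (ip (d * m) w - ip m w) - ip (d * m) w * (cT * ip (d * m) m) := by
        rw [hs]; ring
      rw [e1]
      refine (abs_sub _ _).trans ?_
      linarith [s1 hgw, abs_mul_le' (s0 hw) h.phi_sub]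
    have e2 : c / 2 * (t * s) + ip m w * ip v u / n = (c / 2 + 1 / n) * (t * s) -
        (1 / n * ((t - ip v u) * s) + 1 / n * (ip v u * (s - ip m w))) := by ring
    have a7 : |(1 : ℝ) / n| ≤ 1 / n := (abs_of_pos (by positivity)).le
    rw [e2]
    refine (abs_sub _ _).trans ((add_le_add (abs_mul_le' h.hc (abs_mul_le' a4 a5))
      ((abs_add_le _ _).trans (add_le_add (abs_mul_le' a7 (abs_mul_le' a3 a5))
        (abs_mul_le' a7 (abs_mul_le' a2 a6))))).trans (le_of_eq (by ring)))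
  have tD : |c3 * ip m v * (1 - cT * ip (d * m) m) ^ 2 * (ip (d * m) x * ip (d * m) y)| ≤
      25 * (e * (M * V / n)) := by
    refine (abs_mul_le' (abs_mul_le' (abs_mul_le' (le_refl |c3|) h.mu_le) (abs_sq_le h.phi_le))
      (abs_mul_le' (s0 hx) (s0 hy))).trans ?_
    calc _ = 25 * (M * V * (|c3| * M ^ 2)) := by ring
      _ ≤ 25 * (M * V * (e / n)) := by gcongr; exact h.hc3
      _ = _ := by ring
  rw [ip_R3]
  have u1 := abs_le.1 (tA hx hgy)
  have u2 := abs_le.1 (tA hy hgx)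
  have u3 := abs_le.1 tB
  have u4 := abs_le.1 (tC hx hy hgx hgy)
  have u5 := abs_le.1 (tC hy hx hgy hgx)
  have u6 := abs_le.1 tD
  rw [add_div, abs_le]
  constructor <;> linarith [u1.1, u1.2, u2.1, u2.2, u3.1, u3.2, u4.1, u4.2, u5.1, u5.2, u6.1, u6.2]

theorem abs_ip_inf {w x y : Vec n} {lam : ℝ} (hx : ∀ i, |x i| ≤ lam) (hy : ∀ i, |y i| ≤ lam) :
    |ip (w * x) y| ≤ lam ^ 2 * ∑ i, |w i| := by
  unfold ip
  rw [mul_sum]
  refine (abs_sum_le_sum_abs _ _).trans (sum_le_sum fun i _ => ?_)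
  exact (abs_mul_le' (abs_mul_le' (le_refl |w i|) (hx i)) (hy i)).trans (le_of_eq (by ring))

theorem sum_abs_mul_le (u v : Vec n) : ∑ i, |(u * v) i| ≤ nv u * nv v := by
  have h := ip_le (fun i => |u i|) fun i => |v i|
  have h1 : nv (fun i => |u i|) ≤ nv u := nv_mono fun i => by simp
  have h2 : nv (fun i => |v i|) ≤ nv v := nv_mono fun i => by simp
  refine le_trans (le_of_eq ?_) (h.trans (mul_le_mul h1 h2 (nv_nonneg _) (nv_nonneg _)))
  exact sum_congr rfl fun i _ => by rw [Pi.mul_apply, abs_mul]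

/-- the diagonal part against the Wick sum -/
theorem Sc.diag_wick {m v d : Vec n} {c cT c3 M V e : ℝ} (h : Sc m v d c cT c3 M V e)
    {lam ρ e1 : ℝ} {x y xc yc mc vc : Vec n} (hx : nv x ≤ 1) (hxc : nv xc ≤ 1) (hyc : nv yc ≤ 1)
    (hxl : ∀ i, |xc i| ≤ lam) (hyl : ∀ i, |yc i| ≤ lam) (hxr : nv (x - xc) ≤ ρ)
    (hyr : nv (y - yc) ≤ ρ) (hmc : nv mc ≤ M) (hm : nv (m - mc) ≤ e1 * M)
    (hv : nv (v - vc) ≤ e1 * V) (k1 : 2 * lam ^ 2 * M ^ 2 + 2 * ρ ≤ e)
    (k2 : 2 * lam ^ 2 * e1 * n ≤ e) :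
    |ip (be m v d c * xc) yc - ip (mc * vc * xc) yc + ip m v * ip x y / n| ≤
      3 * (e * (M * V / n)) := by
  have hn := h.n0
  have hM := h.M0
  have hV := h.V0
  have e0 : ip (be m v d c * xc) yc - ip (mc * vc * xc) yc + ip m v * ip x y / n =
      ip (((m - mc) * v + mc * (v - vc)) * xc) yc +
        ((c / 2 + 1 / n) * ip m v * ip (d * d * xc) yc +
          1 / n * ip m v * (ip ((1 - d * d) * xc) yc + (ip (x - xc) yc + ip x (y - yc)))) := by
    unfold be
    generalize ip m v = μ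
    unfold ip
    simp only [Pi.mul_apply, Pi.add_apply, Pi.sub_apply, Pi.smul_apply, Pi.one_apply, smul_eq_mul]
    rw [mul_div_assoc, div_eq_mul_inv (∑ i, x i * y i), sum_mul]
    simp only [← sum_add_distrib, ← sum_sub_distrib, mul_sum]
    exact sum_congr rfl fun i _ => by ring
  have t1 : |ip (((m - mc) * v + mc * (v - vc)) * xc) yc| ≤ e * (M * V / n) := by
    refine (abs_ip_inf hxl hyl).trans ?_
    have a1 : ∑ i, |((m - mc) * v + mc * (v - vc)) i| ≤ e1 * M * V + M * (e1 * V) := by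
      refine le_trans (sum_le_sum fun i _ => abs_add_le _ _) ?_
      rw [sum_add_distrib]
      exact add_le_add ((sum_abs_mul_le _ _).trans (mul_le_mul hm h.hV (nv_nonneg _)
        ((nv_nonneg _).trans hm))) ((sum_abs_mul_le _ _).trans
          (mul_le_mul hmc hv (nv_nonneg _) hM))
    calc _ ≤ lam ^ 2 * (e1 * M * V + M * (e1 * V)) := by gcongr
      _ = (2 * lam ^ 2 * e1 * n) * (M * V / n) := by field_simp; ring
      _ ≤ _ := mul_le_mul_of_nonneg_right k2 h.nu0
  have t2 : |ip (d * d * xc) yc| ≤ 1 := by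
    have := abs_ip_le' ((nv_had_one (w := d * d) (fun i => by
      simpa using abs_mul_le' (h.d1 i) (h.d1 i)) xc).trans hxc) hyc
    simpa using this
  have t3 : |ip ((1 - d * d) * xc) yc| ≤ lam ^ 2 * (2 * M ^ 2) := by
    refine (abs_ip_inf hxl hyl).trans (mul_le_mul_of_nonneg_left ?_ (sq_nonneg _))
    have a1 := sq_le_of_nv_le h.hM
    unfold F.sq at a1
    refine le_trans (sum_le_sum (g := fun i => 2 * m i ^ 2) fun i _ => ?_) (by
      rw [← mul_sum]; linarith)
    have a2 : m i ^ 2 ≤ 1 := by rw [← sq_abs]; exact pow_le_one₀ (abs_nonneg _) (h.m1 i)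
    simp only [Pi.sub_apply, Pi.mul_apply, Pi.one_apply, h.hd]
    rw [abs_le]
    constructor <;> nlinarith [sq_nonneg (m i), sq_nonneg (m i ^ 2)]
  have t4 : |ip (x - xc) yc| ≤ ρ := by simpa using abs_ip_le' hxr hyc
  have t5 : |ip x (y - yc)| ≤ ρ := by simpa using abs_ip_le' hx hyr
  have t6 : |ip ((1 - d * d) * xc) yc + (ip (x - xc) yc + ip x (y - yc))| ≤ e :=
    (abs_add_le _ _).trans (by linarith [abs_add_le (ip (x - xc) yc) (ip x (y - yc))])
  have a7 : |(1 : ℝ) / n| ≤ 1 / n := (abs_of_pos (by positivity)).le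
  rw [e0]
  refine (abs_add_le _ _).trans ((add_le_add t1 ((abs_add_le _ _).trans (add_le_add
    (abs_mul_le' (abs_mul_le' h.hc h.mu_le) t2) (abs_mul_le' (abs_mul_le' a7 h.mu_le) t6)))).trans
    (le_of_eq (by ring)))

end Vale.Agent.N150.T2B
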