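import Vale.Agent.N150.T2Def
import Vale.Agent.N150.T2A1
import Vale.Agent.N150.T2B1
import Vale.Agent.N150.KBT1

/-! Block T2, concrete part: cap data, levels, the fibre data built from `T1Def`, and the
statements of the blocks A, L, B, W and of THEOREM T2. -/

open Matrix MeasureTheory Filter Topology

namespace Vale.Agent.N150.T2

open Vale.Agent.P150 Vale.Agent.P150.F Vale.Agent.N150.Sp Vale.Agent.N150.Fib Vale.Agent.N150.EC
  Vale.Agent.N150.T1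
open Vale.Agent.N150.Haar (fro)
open Vale.Agent.N150.Wd (fr)

variable {n : ℕ}

/-- cap data: `V` is the capped space, the field lives on `V`, counts at all levels -/
structure Cp (L t : ℝ) (S : Dat n) (V : Finset (Fin n)) : Prop where
  vl : ∀ a ∈ V, S.lam a = S.gam
  vy : ∀ a ∉ V, S.yt a = 0
  cnt : ∀ i ≤ 144000, ((S.low (t ^ (2 * i))).card : ℝ) ≤ L * n * t ^ (3 * i)
  big : 1 ≤ n * t ^ 564000

/-- level labels -/
noncomputable def lab (t : ℝ) (S : Dat n) (V : Finset (Fin n)) (a : Fin n) : ℕ :=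
  if a ∈ V then 144002
  else ((Finset.range 144001).filter fun i => S.gam - S.lam a ≤ t ^ (2 * i)).card

/-- the step function -/
noncomputable def hf (t del : ℝ) (l : ℕ) : ℝ :=
  if l ≤ 144000 then (del + t ^ (2 * l))⁻¹ else del⁻¹

/-- projection on the levels above `i` -/
noncomputable def PL (lb : Fin n → ℕ) (i : ℕ) (O : OG n) : Mat n :=
  JO (fun a => if i < lb a then 1 else 0) O

/-- projection on the capped space -/
noncomputable def PV (V : Finset (Fin n)) (O : OG n) : Mat n := O.1ᵀ * Rip.res V * O.1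

/-- `Pi` commutes with the functions of the level -/
def Blk (lb : Fin n → ℕ) (Pi : Mat n) (O : OG n) : Prop :=
  ∀ φ : ℕ → ℝ, Pi * JO (fun a => φ (lb a)) O = JO (fun a => φ (lb a)) O * Pi

noncomputable def zc (S : Dat n) (h : Vec n) : ℝ := zh (diagonal S.lam) h
noncomputable def cS (S : Dat n) (h : Vec n) : ℝ := cc (diagonal S.lam) h (zc S h)
noncomputable def eS (S : Dat n) (h : Vec n) : ℝ := c3 (diagonal S.lam) h (zc S h)
noncomputable def TS (S : Dat n) (h : Vec n) : ℝ := EC.T2 (diagonal S.lam) (zc S h)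

theorem zh_eq (S : Dat n) (O : OG n) (h : Vec n) : zh (S.J O) h = zc S h :=
  KBT.zh_fr _ O h

theorem T2_eq (S : Dat n) (O : OG n) (z : ℝ) : EC.T2 (S.J O) z = EC.T2 (diagonal S.lam) z := by
  rw [KBT.J_eq, EC.T2, KBT.G0_fr, Wd.fr_mul, Wd.trace_fr, EC.T2]

theorem T3_eq (S : Dat n) (O : OG n) (z : ℝ) : T3 (S.J O) z = T3 (diagonal S.lam) z := by
  rw [KBT.J_eq, T3, KBT.G0_fr, Wd.fr_mul, Wd.fr_mul, Wd.trace_fr, T3]

theorem TS_eq (S : Dat n) (O : OG n) (h : Vec n) : EC.T2 (S.J O) (zc S h) = TS S h := T2_eq S O _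

theorem cS_eq (S : Dat n) (O : OG n) (h : Vec n) : cc (S.J O) h (zc S h) = cS S h := by
  rw [cS, cc, T2_eq, cc]

theorem eS_eq (S : Dat n) (O : OG n) (h : Vec n) : c3 (S.J O) h (zc S h) = eS S h := by
  rw [eS, c3, T2_eq, T3_eq, c3]

/-- bound of the corank -/
noncomputable def rr (t : ℝ) (n : ℕ) : ℝ := t⁻¹ ^ 300 * Real.log n

/-- the fibre data -/
noncomputable def mk (t : ℝ) (S : Dat n) (V : Finset (Fin n)) (O0 : OG n) (Pi : Mat n)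
    (h v : Vec n) : Fd n where
  O0 := O0
  Pi := Pi
  nu := fun a => zc S h - S.lam a
  lab := lab t S V
  hf := hf t (zc S h - S.gam)
  del := zc S h - S.gam
  w := wb h
  al := ip (tm h) v / TS S h
  r := rr t n
  Th := T2A.Th (cS S h) h
  Bh := T2A.Bh (cS S h) (eS S h) h v

/-- hypotheses at one point of the frame -/
structure Hy (L t : ℝ) (S : Dat n) (V : Finset (Fin n)) (x xt : Vec n) (O : OG n)
    (h u v : Vec n) : Prop where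
  adm : Adm L t S
  admX : AdmX L t S xt
  cap : Cp L t S V
  good : Good t S O
  out : Out t S O
  sgn : ∀ i, x i = 1 ∨ x i = -1
  ox : O.1 *ᵥ x = xt
  ball : Ball t (S.J O) (S.y O) h
  res : nv (rs1 (S.J O) (S.y O) h) ≤ √n * t ^ 399000
  uV : PV V O *ᵥ u = u
  u1 : nv u = 1
  hv : nv (v - Gm (S.J O) h (zc S h) *ᵥ u) ≤ ((n : ℝ) ^ 3)⁻¹

/-- output of A3, A4 (scalars, I1, I2, I9) -/
structure Ma (t : ℝ) (D : Fd n) (O : OG n) (x h v : Vec n) (c e : ℝ) : Prop where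
  lT : D.Th = T2A.Th c h
  lB : D.Bh = T2A.Bh c e h v
  lw : D.w = wb h
  hc : |c / 2 + 1 / n| ≤ t ^ 143900 / n
  hcT : |T2A.cT c h| ≤ 4 / n
  hc3 : |e| * n ^ 2 ≤ t⁻¹ ^ 30
  m2 : nv (tm h) ≤ √n * t ^ 71999
  m4 : nv (tm h * tm h) ≤ √n * t ^ 143990
  en : nv (D.Hi O *ᵥ tm h) ≤ √n * t ^ 215900
  vH : nv (D.Hi O *ᵥ v) ≤ t⁻¹ ^ 144160
  v2 : nv v ≤ t⁻¹ ^ 288161
  mH : OpLe (diagonal (tm h) * D.Hs O) (t⁻¹ ^ 72020)
  xH : nv (D.Hs O *ᵥ x) ≤ √n * t⁻¹ ^ 72010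
  oT : OpLe D.Th 2
  oV : OpLe D.Vt 2
  trV : |D.Vt.trace| ≤ 1
  fV : hsq D.Vt ≤ n * t ^ 287990
  al : √n * |D.al| ≤ t⁻¹ ^ 72200
  a3 : √n * |D.Bh.trace - D.al * D.Del| ≤ t⁻¹ ^ 216250
  unit : IsUnit (1 + (fr D.A0 O + 0) * D.Th).det
  iGa : OpLe (D.Hi O * D.Ga O * D.Hi O) (t⁻¹ ^ 120)
  iG : OpLe (D.Hi O * D.G O * D.Hi O) (t⁻¹ ^ 150)
  iQ : OpLe (D.Hi O * D.Q O * D.Hi O) (t⁻¹ ^ 125)
  iV : OpLe (D.Hs O * D.Vt * D.Hs O) (t⁻¹ ^ 40)

/-- output of I7 -/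
structure Mb (t : ℝ) (D : Fd n) (O : OG n) (v : Vec n) : Prop where
  th : ∀ A : Finset (Fin n), (A.card : ℝ) ≤ n * t ^ 431990 →
    OpLe (Rip.res A * D.Kt O * D.Vt * D.Hs O) (t ^ 3850)
  vp : ∀ A : Finset (Fin n), (A.card : ℝ) ≤ n * t ^ 431990 → nv (Rip.res A *ᵥ v) ≤ t⁻¹ ^ 140400

/-- spreading of all the levels -/
def RL (t : ℝ) (lb : Fin n → ℕ) (O : OG n) : Prop :=
  ∀ i ≤ 144000, ∀ y : Vec n,
    Rip.Spread (t⁻¹ * F.sq y) (n * (t ^ (3 * i) * t⁻¹ ^ 3)) (PL lb i O *ᵥ y)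

/-- the Wick event, needed only for `s ≤ n ^ (-1/4)` -/
def WK (t : ℝ) (lb : Fin n → ℕ) (x : Vec n) (O : OG n) : Prop :=
  n * t ^ 1152000 ≤ 1 → T2B.WickOK (PL lb 57600 O) x (t⁻¹ ^ 2 / √n) (t ^ 85000)

/-- index of the reference point -/
noncomputable def j0 (n : ℕ) : ℕ := ⌈Real.log n⌉₊
/-- the reference point -/
noncomputable def hr (S : Dat n) (O : OG n) : Vec n := S.h O (j0 n + 3)

/-- **[Fr]** frame data -/
def FrStmt : Prop := Ev fun L t => ∀ (n : ℕ) (S : Dat n) (V : Finset (Fin n)) (x xt : Vec n)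
  (O O0 : OG n) (Pi : Mat n) (h u v : Vec n), Hy L t S V x xt O h u v → Fr t (mk t S V O0 Pi h v)

/-- **[A4]** -/
def A4Stmt : Prop := Ev fun L t => ∀ (n : ℕ) (S : Dat n) (V : Finset (Fin n)) (x xt : Vec n)
  (O O0 : OG n) (Pi : Mat n) (h u v : Vec n), Hy L t S V x xt O h u v →
  Fr t (mk t S V O0 Pi h v) → Ma t (mk t S V O0 Pi h v) O x h v (cS S h) (eS S h)

/-- **[A7]** -/
def A7Stmt : Prop := Ev fun L t => ∀ (n : ℕ) (S : Dat n) (V : Finset (Fin n)) (x xt : Vec n)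
  (O O0 : OG n) (Pi : Mat n) (h u v : Vec n), Hy L t S V x xt O h u v →
  Fr t (mk t S V O0 Pi h v) → Ma t (mk t S V O0 Pi h v) O x h v (cS S h) (eS S h) → RL t (lab t S V) O →
  Mb t (mk t S V O0 Pi h v) O v

/-- **[A2]** the link with the source, and a crude bound -/
def A2Stmt : Prop := Ev fun L t => ∀ (n : ℕ) (S : Dat n) (V : Finset (Fin n)) (x xt : Vec n)
  (O O0 : OG n) (Pi : Mat n) (h u v : Vec n), Hy L t S V x xt O h u v →
  Fr t (mk t S V O0 Pi h v) → Ma t (mk t S V O0 Pi h v) O x h v (cS S h) (eS S h) →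
  ip v (k0 (S.J O) h (zc S h) (PV V O)) =
    (mk t S V O0 Pi h v).f O - (mk t S V O0 Pi h v).al * (mk t S V O0 Pi h v).tau ∧
  nv (k0 (S.J O) h (zc S h) (PV V O)) ≤ (n : ℝ) ^ 2

/-- **[L3]** Frobenius norms -/
def L3Stmt : Prop := Et fun t => ∀ (n : ℕ) (D : Fd n) (O : OG n) (x h v : Vec n) (c e : ℝ),
  Fr t D → Ma t D O x h v c e → Mb t D O v → RL t D.lab O →
  fro D.Bh ≤ t⁻¹ ^ 216250 ∧ fro (D.Hs O * D.Vt) ≤ √n * t ^ 143900 ∧
  fro (D.Hs O * D.Vt * D.Kt O * D.Bh) ≤ t ^ 3800 * t⁻¹ ^ 216250 ∧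
  fro (D.Hs O * D.Bh) ≤ t⁻¹ ^ 216250 ∧
  fro (D.Hs O * D.Pl 2500 O * D.Bh) ≤ t ^ 1250 * t⁻¹ ^ 216250 ∧
  fro (D.P O * D.Bh) ≤ t⁻¹ ^ 250

/-- **[B]** explored blocks -/
def BStmt : Prop := Et fun t => ∀ (n : ℕ) (D : Fd n) (O : OG n) (x h v : Vec n) (c e : ℝ),
  Fr t D → Ma t D O x h v c e → Mb t D O v → RL t D.lab O → WK t D.lab x O →
  IsProj D.Pi → n - D.r ≤ D.Pi.trace → D.r ≤ rr t n → Blk D.lab D.Pi O →
  D.hf = hf t D.del → (∀ a, D.lab a ≤ 144002) →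
  fro (D.Hs O * D.PB * D.Bh) ≤ t⁻¹ ^ 141000 ∧
  fro (D.Hs O * D.PB * D.Bh * D.PB * D.Hs O) ≤ t⁻¹ ^ 141000

/-- **[RL]** -/
def RLStmt : Prop := ∃ C : ℕ, Ev fun L t => ∀ (n : ℕ) (S : Dat n) (V : Finset (Fin n))
  (x xt : Vec n) (μ : Measure (OG n)), Adm L t S → Cp L t S V → FibL μ x xt →
  μ.real {O | ¬RL t (lab t S V) O} ≤ (n : ℝ) ^ C * Real.exp (-(n * t ^ 431998))

/-- **[W]** -/
def WStmt : Prop := ∃ C : ℕ, Ev fun L t => ∀ (n : ℕ) (S : Dat n) (V : Finset (Fin n))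
  (x xt : Vec n) (μ : Measure (OG n)), Adm L t S → Cp L t S V → FibL μ x xt →
  μ.real {O | ¬WK t (lab t S V) x O} ≤ (n : ℝ) ^ C * Real.exp (-(n * t ^ 431998))

/-- **[Prog]** the exploration, closed under the levels -/
def ProgStmt : Prop := Ev fun L t => ∀ (n : ℕ) (S : Dat n) (V : Finset (Fin n))
  (x xt ut : Vec n) (μ : Measure (OG n)), Adm L t S → Cp L t S V → FibL μ x xt →
  Rip.res V *ᵥ ut = ut → nv ut = 1 →
  ∃ (Pi : OG n → Mat n) (v : OG n → Vec n), Explo μ Pi ∧ Measurable v ∧ Adapted Pi v ∧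
    Adapted Pi (hr S) ∧ (∀ O, n - rr t n ≤ (Pi O).trace) ∧ (∀ O, Blk (lab t S V) (Pi O) O) ∧
    ∀ O, Good t S O →
      nv (v O - Gm (S.J O) (hr S O) (zc S (hr S O)) *ᵥ (O.1ᵀ *ᵥ ut)) ≤ ((n : ℝ) ^ 3)⁻¹

/-- **[Pt]** the instance of the abstract hypotheses (from Fr, A4, A7, A2, L3, B) -/
def PtStmt : Prop := Ev fun L t => ∀ (n : ℕ) (S : Dat n) (V : Finset (Fin n)) (x xt : Vec n)
  (O O0 : OG n) (Pi : Mat n) (h u v : Vec n), Hy L t S V x xt O h u v →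
  RL t (lab t S V) O → WK t (lab t S V) x O → IsProj Pi → n - rr t n ≤ Pi.trace →
  Blk (lab t S V) Pi O → Blk (lab t S V) Pi O0 →
  Fr t (mk t S V O0 Pi h v) ∧ Si t (mk t S V O0 Pi h v) ∧ Pt t (mk t S V O0 Pi h v) O ∧
  ip v (k0 (S.J O) h (zc S h) (PV V O)) =
    (mk t S V O0 Pi h v).f O - (mk t S V O0 Pi h v).al * (mk t S V O0 Pi h v).tau ∧
  nv (k0 (S.J O) h (zc S h) (PV V O)) ≤ (n : ℝ) ^ 2

/-- **THEOREM T2** at the reference iterate -/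
def T2Stmt : Prop := ∃ C : ℕ, Ev fun L t => ∀ (n : ℕ) (S : Dat n) (V : Finset (Fin n))
  (x xt : Vec n) (μ : Measure (OG n)), Adm L t S → AdmX L t S xt → Cp L t S V → FibL μ x xt →
  μ.real {O | √(Real.log n) * t⁻¹ ^ 431800 <
    nv (PV V O *ᵥ ka (S.J O) (hr S O) (zh (S.J O) (hr S O)) (PV V O))} ≤
    (n : ℝ) ^ C * Real.exp (-(n * t ^ 431999))

theorem pt_of (hF : FrStmt) (h4 : A4Stmt) (h7 : A7Stmt) (h2 : A2Stmt) (h3 : L3Stmt) (hB : BStmt) :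
    PtStmt := by
  intro L hL
  filter_upwards [hF L hL, h4 L hL, h7 L hL, h2 L hL, h3, hB] with t hF h4 h7 h2 h3 hB
  intro n S V x xt O O0 Pi h u v H hR hW hP hc hb hb0
  have f := hF n S V x xt O O0 Pi h u v H
  have a := h4 n S V x xt O O0 Pi h u v H f
  have b := h7 n S V x xt O O0 Pi h u v H f a hR
  obtain ⟨l1, l2, l3, l4, l5, l6⟩ := h3 n _ O x h v _ _ f a b hR
  obtain ⟨b1, b2⟩ := hB n _ O x h v _ _ f a b hR hW hP hc le_rfl hb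
    rfl (fun i => by
      show lab t S V i ≤ 144002
      unfold lab
      split_ifs
      · exact le_rfl
      · exact (Finset.card_filter_le _ _).trans (by rw [Finset.card_range]; norm_num))
  obtain ⟨k1, k2⟩ := h2 n S V x xt O O0 Pi h u v H f a
  exact ⟨f, ⟨hP, hc, hb0, T2A.Th_tr _ _, T2A.Bh_tr _ _ _ _, a.oT, a.oV, a.trV, a.fV, l1, a.al, a.a3⟩,
    ⟨a.unit, a.iGa, a.iG, a.iQ, a.iV, l2, l3, l4, l5, l6, b1, b2⟩, k1, k2⟩

end Vale.Agent.N150.T2
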