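import Vale.Agent.N150.T2A2
import Vale.Agent.N150.T2A7
import Vale.Agent.N150.T2Cv
import Vale.Agent.N150.T2A9
import Vale.Agent.N150.D6c

/-! Block T2, part A: the statements `A2Stmt` and `A4Stmt` of `T2Cv`. -/

open Matrix Finset

namespace Vale.Agent.N150.T2A

open Vale.Agent.P150 Vale.Agent.P150.F Vale.Agent.N150.EC Vale.Agent.N150.Sp Vale.Agent.N150.T1
  Vale.Agent.N150.T2
open Vale.Agent.N150.Wd (fr)

variable {n : ℕ} {L t : ℝ}

section Cal

variable {A : Mat n} {u : Vec n} {j a : ℤ}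

theorem mo_E (n : ℕ) (t : ℝ) (a : ℤ) : mo n t 0 a = T1A.E t a := by
  rw [mo, zpow_zero, one_mul]
  rfl

theorem OB.of_oe (c : Cx n t) (h : T2A7.OE t a A) : OB t A 0 a := ⟨c, by rw [mo_E]; exact h⟩

theorem VB.of_vb (c : Cx n t) (h : T1A.Vb t a u) : VB t u 1 a :=
  ⟨c, by rw [mo_one, mo_E]; exact h⟩

theorem OB.entry (h : OB t A j a) (i : Fin n) : |A i i| ≤ mo n t j a := by
  have e := h.le.nv_le (h.cx.nn _ _) (Pi.single i 1)
  have e1 : nv (Pi.single i (1 : ℝ) : Vec n) = 1 := by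
    rw [nv_eq_sqrt]
    simp [F.sq, Pi.single_apply]
  rw [e1, mul_one] at e
  refine le_trans ?_ e
  simpa using abs_le_nv (A *ᵥ Pi.single i 1) i

theorem sb_mo (c : Cx n t) (j a : ℤ) : SB n t (mo n t j a) j a := ⟨c, (abs_of_pos (c.pos j a)).le⟩

theorem OB.trace (h : OB t A j a) : SB n t A.trace (j + 2) a := by
  refine (((SB.cast h.cx).mul (sb_mo h.cx j a)).mono _ _ (by omega)).of_le ?_
  refine (Finset.abs_sum_le_sum_abs _ _).trans ((Finset.sum_le_sum fun i _ => h.entry i).trans ?_)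
  rw [Finset.sum_const, Finset.card_univ, Fintype.card_fin, nsmul_eq_mul]
  exact le_abs_self _

theorem VB.to_inv0 (h : VB t u j a) (k : ℕ) (e : j = 0 ∧ -(k : ℤ) ≤ a) : nv u ≤ t⁻¹ ^ k :=
  (le_abs_self _).trans (h.sb.to_inv k e)

theorem SB.rt {x : ℝ} (h : SB n t x j a) (k : ℕ) (e : j = -1 ∧ -(k : ℤ) ≤ a) :
    √n * |x| ≤ t⁻¹ ^ k := by
  have e1 := (h.mono (-1) (-k) e).le
  rwa [mo_neg_one, mo_inv, le_div_iff₀' h.cx.r0] at e1

theorem hsq_symm (hA : Aᵀ = A) : hsq A = (A * A).trace := by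
  unfold hsq Matrix.trace
  refine Finset.sum_congr rfl fun i _ => ?_
  rw [diag_apply, mul_apply]
  refine Finset.sum_congr rfl fun k _ => ?_
  rw [pow_two, ← congrFun (congrFun hA k) i, transpose_apply]

theorem sand {Ni Nh : Mat n} (e1 : Ni * Nh = 1) (e2 : Nh * Ni = 1) (X M Y : Mat n) :
    X * M * Y = X * Ni * (Nh * M * Nh) * (Ni * Y) := by
  calc X * M * Y = X * (Ni * Nh) * M * (Nh * Ni) * Y := by rw [e1, e2, mul_one, mul_one]
    _ = _ := by noncomm_ring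

end Cal

variable {S : Dat n} {V : Finset (Fin n)} {x xt h u v : Vec n} {O O0 : OG n} {Pi : Mat n}

/-- operator bounds in the energy norm of the reference point -/
structure Op (t : ℝ) (S : Dat n) (O : OG n) (h : Vec n) : Prop where
  sc : Sc t (cS S h) (eS S h) (TS S h) h
  lt : ∀ a, S.lam a < zc S h
  near : ∀ a, (S.z0 - S.lam a) / 2 ≤ zc S h - S.lam a ∧
    zc S h - S.lam a ≤ 3 / 2 * (S.z0 - S.lam a)
  unit : IsUnit (1 + Am (S.J O) h (zc S h) * Th (cS S h) h).det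
  ga : OB t (S.Nsq O * Ga (Am (S.J O) h (zc S h)) (Th (cS S h) h) * S.Nsq O) 0 (-101)
  q : OB t (S.Nsq O * Qm (Am (S.J O) h (zc S h)) (Th (cS S h) h) * S.Nsq O) 0 (-102)
  vt : OB t (S.Nis O * Vt (cS S h) h * S.Nis O) 0 (-22)
  g : OB t (S.Nsq O * Gm (S.J O) h (zc S h) * S.Nsq O) 0 (-126)
  mN : OB t (diagonal (tm h) * S.Nis O) 0 (-72004)

theorem Am_JO (S : Dat n) (O : OG n) (h : Vec n) (z : ℝ) :
    Am (S.J O) h z = JO (fun a => z - S.lam a - (wb h)⁻¹) O := by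
  rw [Am, Dat.J, Nm_JO, ← JO_const _ O, JO_sub]

theorem op_of (hs : Sm L t) (A : Adm L t S) (G : Good t S O) (U : Out t S O)
    (d4 : T2A7.D4At t S O (S.hc t O)) (hb : Ball t (S.J O) (S.y O) h) : Op t S O h := by
  have cx := cx_of hs A
  have R := U.reg h hb
  have hh := near_hc G.base hb hs
  have s := sc_ball hs A G U hb
  have hz := (A.zh_spec hs O (near_z hs A R)).1
  have uL := U.unit h hb
  have gam := OB.of_inv cx 100 (U.gam h hb)
  rw [zh_eq] at s hz uL gam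
  have hc0 := s.hc
  have eGa := Ga_eq hc0
  have eGm := Gm_eq hc0
  have un := unit_Ga hc0 uL
  rw [cS_eq, eS_eq, TS_eq] at s
  rw [cS_eq] at eGa eGm un
  have near := A.gap_near hz
  have i1 := A.Nis_mul_Nsq hs O
  have i2 := A.Nsq_mul_Nis hs O
  have oN := OB.of_inv cx 144001 (A.opLe_Nis hs O)
  have oH := OB.num cx 3 (by norm_num) (by norm_num) (A.opLe_Nsq hs O)
  obtain ⟨r1, r2, -⟩ := T2A7.ref hs A G.str d4 hh hh (d4.2.2 h h hh hh).1
  have oA : OB t (Am (S.J O) h (zc S h)) 0 (-1) := by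
    rw [Am_JO]
    refine OB.jo (SB.num cx 11 (by norm_num)) (fun a => ?_) O
    have a1 := abs_le.1 s.wi_le
    have a2 := inv_pos.2 (T1A.wb_pos cx.n0 h)
    rw [abs_of_pos (by norm_num : (0 : ℝ) < 11)]
    exact abs_le.2 ⟨by linarith [(near a).1, A.gap_pos hs a],
      by linarith [(near a).2, A.gap_le hs a]⟩
  have ga : OB t (S.Nsq O * Ga (Am (S.J O) h (zc S h)) (Th (cS S h) h) * S.Nsq O) 0 (-101) := by
    refine (gam.add (((OB.vv (VB.of_vb cx (T1A.reg_Nsq_tm hs A R)) (oN.mulVec s.p)).smul s.bc).mul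
      gam) _ _ (by omega)).congr ?_
    rw [eGa, ← mul_vv, ← S.Nis_tr O, ← vv_mul, add_mul, one_mul, mul_add, add_mul]
    simp only [Matrix.smul_mul, Matrix.mul_smul, mul_assoc]
    rw [← mul_assoc (S.Nis O), i1, one_mul]
  have vt : OB t (S.Nis O * Vt (cS S h) h * S.Nis O) 0 (-22) := by
    refine ((OB.of_oe cx r2).add (OB.vv (oN.mulVec s.bav) (oN.mulVec s.p)) _ _ (by omega)).congr ?_
    rw [Vt_eq_VW cx.n0, mul_add, add_mul, mul_vv, vv_mul, S.Nis_tr O]
  refine ⟨s, A.lt_near hs hz, near, un, ga, ((ga.mul oA).neg.mono _ _ (by omega)).congr ?_, vt,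
    (((oH.mul oH).mul vt).mul ga |>.add (ga.smul s.w) _ _ (by omega)).congr ?_, ?_⟩
  · have e : Am (S.J O) h (zc S h) * S.Nsq O = S.Nsq O * Am (S.J O) h (zc S h) := by
      rw [Am_JO]
      exact JO_comm _ _ _
    rw [Qm, mul_neg, neg_mul, mul_assoc, mul_assoc, e]
    simp only [mul_assoc]
  · rw [eGm]
    nth_rewrite 1 [Th_eq]
    rw [add_mul, mul_add, add_mul, Matrix.smul_mul, one_mul, Matrix.mul_smul, Matrix.smul_mul]
    congr 1
    simp only [mul_assoc]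
    rw [← mul_assoc (S.Nsq O) (S.Nis O), i2, one_mul, ← mul_assoc (S.Nis O), i1, one_mul]
  · have b : SB n t (2 * t ^ 71999) 0 71998 :=
      ((SB.of_pow cx 71999 (abs_of_pos (hs.p0 _)).le).cmul 2 (by norm_num)).mono _ _ (by omega)
    have o1 : OB t (diagonal fun i => if i ∈ spk (t ^ 71999) h h then 0 else tm h i) 0 71998 :=
      OB.diag b fun i => by
        split_ifs with hi
        · rw [abs_zero]
          exact abs_nonneg _
        · have a1 : |tm h i| ≤ |h i| := by simpa [tm] using T1A.abs_tanh_sub_le (h i) 0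
          have a2 : |h i| ≤ 2 * t ^ 71999 := by simpa [spk] using hi
          exact (a1.trans a2).trans (le_abs_self _)
    have o2 : OB t (diagonal (tm h)) 0 0 :=
      OB.diag (SB.one cx (x := 1) (by norm_num)) fun i => by simpa using tm_mem h i
    refine ((o1.mul oN).add (o2.mul (OB.of_oe cx r1)) _ _ (by omega)).congr ?_
    rw [← mul_assoc, ← add_mul, Rip.res, diagonal_mul_diagonal, diagonal_add]
    congr 2
    funext i
    split_ifs <;> simp

/-! ### links with the fibre data -/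

theorem A_eq : fr (mk t S V O0 Pi h v).A0 O = Am (S.J O) h (zc S h) := (Am_JO S O h _).symm

theorem Ga_mk : (mk t S V O0 Pi h v).Ga O = Ga (Am (S.J O) h (zc S h)) (Th (cS S h) h) := by
  rw [Fd.Ga, Wd.Ga, add_zero, A_eq]
  rfl

theorem Q_mk : (mk t S V O0 Pi h v).Q O = Qm (Am (S.J O) h (zc S h)) (Th (cS S h) h) := by
  rw [Fd.Q, Wd.Qm, ← Fd.Ga, Ga_mk, A_eq]
  rfl

theorem G_mk (hc : 1 + cS S h * ip (tm h) (pv h) ≠ 0) :
    (mk t S V O0 Pi h v).G O = Gm (S.J O) h (zc S h) := by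
  rw [← cS_eq S O] at hc
  rw [Fd.G, Wd.Gm, ← Fd.Ga, Ga_mk, Gm_eq hc, cS_eq]
  rfl

theorem ind_mk (a : Fin n) : (mk t S V O0 Pi h v).ind 144001 a = if a ∈ V then 1 else 0 := by
  have e : 144001 < lab t S V a ↔ a ∈ V := by
    unfold lab
    split_ifs with ha
    · simp [ha]
    · have := (Finset.card_filter_le (Finset.range 144001)
        fun i => S.gam - S.lam a ≤ t ^ (2 * i)).trans (Finset.card_range _).le
      simp only [ha, iff_false, not_lt]
      exact this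
  exact if_congr e rfl rfl

theorem P_mk : fr (mk t S V O0 Pi h v).P0 O = PV V O := by
  rw [Fd.P0, funext ind_mk]
  rfl

theorem Xi_mk : (mk t S V O0 Pi h v).Xi O =
    Xi (Am (S.J O) h (zc S h)) (Th (cS S h) h) (PV V O) := by
  rw [Fd.Xi, Wd.Xi, ← Fd.Ga, Ga_mk, P_mk]
  rfl

theorem PV_eq (V : Finset (Fin n)) (O : OG n) : PV V O = JO (fun a => if a ∈ V then 1 else 0) O :=
  rfl

theorem TS_sum (lt : ∀ a, S.lam a < zc S h) :
    TS S h = ∑ a, (zc S h - S.lam a)⁻¹ * (zc S h - S.lam a)⁻¹ := by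
  rw [← TS_eq S 1, EC.T2, Dat.J, G0_JO lt, JO_mul, trace_JO]

theorem Del_mk (hn : 0 < n) (lt : ∀ a, S.lam a < zc S h) (f : Fr t (mk t S V O0 Pi h v)) :
    (mk t S V O0 Pi h v).Del = Del (TS S h) (Vt (cS S h) h * Vt (cS S h) h).trace h := by
  have e1 : hsq (mk t S V O0 Pi h v).Vt = (Vt (cS S h) h * Vt (cS S h) h).trace :=
    hsq_symm (Vt_tr _ _)
  have e2 : hsq (mk t S V O0 Pi h v).K0 = TS S h / wb h ^ 2 - n := by
    have hw := (T1A.wb_pos hn h).ne'
    have t0 : ∑ a, (zc S h - S.lam a)⁻¹ = n * wb h := f.tr0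
    have e : ∀ y : ℝ, (1 - y / wb h) * (1 - y / wb h) =
        1 - 2 / wb h * y + (wb h ^ 2)⁻¹ * (y * y) := fun y => by field_simp; ring
    rw [Fd.K0, hsq_symm (diagonal_transpose _), diagonal_mul_diagonal, trace_diagonal, TS_sum lt]
    change ∑ a, (1 - (zc S h - S.lam a)⁻¹ / wb h) * (1 - (zc S h - S.lam a)⁻¹ / wb h) = _
    simp only [e, Finset.sum_add_distrib, Finset.sum_sub_distrib, ← Finset.mul_sum, t0,
      Finset.sum_const, Finset.card_univ, Fintype.card_fin, nsmul_eq_mul]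
    field_simp
    ring
  rw [Fd.Del, e1, e2]
  rfl

theorem tau_mk (lt : ∀ a, S.lam a < zc S h) (f : Fr t (mk t S V O0 Pi h v)) :
    (G0 (S.J O) (zc S h) * PV V O * G0 (S.J O) (zc S h)).trace = (mk t S V O0 Pi h v).tau := by
  rw [Dat.J, G0_JO lt, ← P_mk (t := t) (S := S) (O0 := O0) (Pi := Pi) (h := h) (v := v), Fd.tau,
    Finset.sum_div]
  change (_ * JO _ O * _).trace = _
  rw [JO_mul, JO_mul, trace_JO]
  refine Finset.sum_congr rfl fun a _ => ?_
  unfold Fd.ind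
  split_ifs with ha
  · have e : zc S h - S.lam a = (mk t S V O0 Pi h v).del := f.nV a ha
    rw [e, mul_one, one_div, pow_two, mul_inv]
  · simp

theorem d4_of (h4 : ∀ (n : ℕ) (S : Dat n) (O : OG n) (hc : Vec n), Adm L t S → StrW t S O hc →
    T2A7.D4At t S O hc) (hs : Sm L t) (H : Hy L t S V x xt O h u v) : Op t S O h :=
  op_of hs H.adm H.good H.out (h4 n S O _ H.adm (T2A7.strW_of hs H.good)) H.ball

theorem k0_le (hs : Sm L t) (A : Adm L t S) (o : Op t S O h) {P : Mat n} (hP : OpLe P 1) :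
    nv (k0 (S.J O) h (zc S h) P) ≤ (n : ℝ) ^ 2 := by
  have s := o.sc
  have cx := s.cx
  have i1 := A.Nis_mul_Nsq hs O
  have i2 := A.Nsq_mul_Nis hs O
  have oN := OB.of_inv cx 144001 (A.opLe_Nis hs O)
  have oP := OB.le_one cx hP
  have un : ∀ {M : Mat n} {a : ℤ}, OB t (S.Nsq O * M * S.Nsq O) 0 a → OB t M 0 (a - 288002) :=
    fun {M a} hM => (((oN.mul hM).mul oN).mono _ _ (by omega)).congr (by
      simpa only [one_mul, mul_one] using sand i1 i2 1 M 1)
  have hc0 := s.hc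
  rw [← cS_eq S O] at hc0
  have oF : OB t (Fm (cS S h) h) 0 (-1) :=
    (s.oF.add (OB.one cx) _ _ (by omega)).congr (sub_add_cancel _ _).symm
  have o1 : OB t (Gam (S.J O) h (zc S h)) 0 (-288104) :=
    ((oF.mul (un o.ga)).mono _ _ (by omega)).congr (by rw [Gam_eq hc0, cS_eq])
  have o2 := (o1.mul oP).mul o1.tr
  have o3 := ((un o.g).mul oP).mul (un o.g).tr
  have o4 : OB t (G0 (S.J O) (zc S h)) 0 (-288002) := by
    rw [Dat.J, G0_JO o.lt]
    refine (OB.jo ((SB.of_inv cx 288001 (abs_of_pos (hs.i0 _)).le).cmul 2 (by norm_num))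
      (fun a => ?_) O).mono _ _ (by omega)
    have p := sub_pos.2 (o.lt a)
    rw [abs_of_pos (inv_pos.2 p), abs_of_pos (mul_pos two_pos (hs.i0 _)), inv_pow,
      ← div_eq_mul_inv, ← one_div, div_le_div_iff₀ p (hs.p0 _)]
    linarith [(o.near a).1, A.pow_le_gap hs a]
  have v1 : VB t (fun i => tm h i * (Gam (S.J O) h (zc S h) * P * (Gam (S.J O) h (zc S h))ᵀ) i i)
      1 (-504209) :=
    (s.m.hmul (sb_mo cx _ _) fun i => by
      rw [abs_mul, mul_comm]
      exact mul_le_mul_of_nonneg_right ((o2.entry i).trans (le_abs_self _)) (abs_nonneg _)).mono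
      _ _ (by omega)
  have v0 := ((s.he.mul (s.m.ip (o3.mulVec s.m))).trade (-1) (-220000) (by omega)).trade 0 (-5000)
    (by omega)
  have v2 := s.m.smul ((s.bc.half.mul o3.trace).add v0 0 (-576259) (by omega))
  have v3 := (o3.mulVec s.m).smul s.bc
  have v4 := s.m.smul (((o4.mul oP).mul o4).trace.mul s.Ti)
  have v5 := ((v1.add v2 1 (-504261) (by omega)).add
    ((v3.trade 0 (-300000) (by omega)).trade 1 (-300000) (by omega)) 1 (-504262) (by omega)).sub v4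
    1 (-504263) (by omega)
  have v6 := ((v5.trade 2 (-290000) (by omega)).trade 3 (-80000) (by omega)).trade 4 0 (by omega)
  have e : mo n t 4 0 = (n : ℝ) ^ 2 := by
    have := cx.sq_mo 2 0
    rw [mo_two, mo_zero, mul_one] at this
    exact this.symm
  rw [← e]
  refine (v6.congr ?_).le
  rw [k0, TS_eq, div_eq_mul_inv]
  congr 1
  funext i
  simp only [eb, cS_eq, eS_eq, qf, Pi.add_apply, Pi.smul_apply, smul_eq_mul]

theorem opLe_PV (V : Finset (Fin n)) (O : OG n) : OpLe (PV V O) 1 :=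
  opLe_JO (fun a => by split_ifs <;> simp) O

/-- **[A2]** -/
theorem a2Stmt : A2Stmt := by
  refine (ev_sm.and d4Stmt).mono fun L t _ ⟨hs, h4⟩ n S V x xt O O0 Pi h u v H f _ => ?_
  have o := d4_of h4 hs H
  refine ⟨?_, k0_le hs H.adm o (opLe_PV V O)⟩
  have hc0 := o.sc.hc
  rw [← cS_eq S O] at hc0
  rw [ip_k0 (P := PV V O) (JO_tr _ O) hc0, cS_eq, eS_eq, TS_eq, tau_mk o.lt f, Fd.f, Xi_mk]
  change _ - _ = _ - ip (tm h) v / TS S h * _
  rw [mul_div_right_comm]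
  rfl

/-- (I9) energy norm of the magnetisation in the cap flow -/
def I9Stmt : Prop := Ev fun L t => ∀ (n : ℕ) (S : Dat n) (O : OG n) (h : Vec n), Adm L t S →
  Good t S O → Ball t (S.J O) (S.y O) h → nv (rs1 (S.J O) (S.y O) h) ≤ √n * t ^ 399000 →
  ∑ a, S.g a * S.yt a ^ 2 ≤ L ^ 2 * n * t ^ 432000 → nv (S.Nsq O *ᵥ tm h) ≤ √n * t ^ 215905

theorem cap_y (hs : Sm L t) (A : Adm L t S) (C : Cp L t S V) :
    ∑ a, S.g a * S.yt a ^ 2 ≤ L ^ 2 * n * t ^ 432000 := by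
  have e : ∑ a, S.g a * S.yt a ^ 2 ≤ L * t ^ 288000 * ∑ a, (S.g a * S.yt a) ^ 2 := by
    rw [Finset.mul_sum]
    refine Finset.sum_le_sum fun a _ => ?_
    by_cases ha : a ∈ V
    · have e1 : S.z0 - S.lam a ≤ L * t ^ 288000 := by linarith [C.vl a ha, A.hi]
      calc S.g a * S.yt a ^ 2 = S.g a * (S.z0 - S.lam a) * (S.g a * S.yt a ^ 2) := by
            rw [A.g_mul hs a, one_mul]
        _ = (S.z0 - S.lam a) * (S.g a * S.yt a) ^ 2 := by ring
        _ ≤ _ := mul_le_mul_of_nonneg_right e1 (sq_nonneg _)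
    · rw [C.vy a ha]
      simp
  refine e.trans ((mul_le_mul_of_nonneg_left A.y2 (mul_pos hs.L0 (hs.p0 _)).le).trans_eq ?_)
  rw [show 432000 = 288000 + 144000 from rfl, pow_add]
  ring

theorem ma_of (hs : Sm L t) (H : Hy L t S V x xt O h u v) (o : Op t S O h)
    (f : Fr t (mk t S V O0 Pi h v)) (en : nv (S.Nsq O *ᵥ tm h) ≤ √n * t ^ 215905) :
    Ma t (mk t S V O0 Pi h v) O x h v (cS S h) (eS S h) := by
  have A := H.adm
  have s := o.sc
  have cx := s.cx
  have hn := cx.n0'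
  have i1 := A.Nis_mul_Nsq hs O
  have i2 := A.Nsq_mul_Nis hs O
  have oN := OB.of_inv cx 144001 (A.opLe_Nis hs O)
  have oH := OB.num cx 3 (by norm_num) (by norm_num) (A.opLe_Nsq hs O)
  obtain ⟨D, hD⟩ : ∃ D, D = mk t S V O0 Pi h v := ⟨_, rfl⟩
  have nu : ∀ a, D.nu a = zc S h - S.lam a := fun a => by rw [hD]; rfl
  have eGa : D.Ga O = _ := hD ▸ Ga_mk
  have eQ : D.Q O = _ := hD ▸ Q_mk
  have eG : D.G O = _ := hD ▸ G_mk s.hc
  have eV : D.Vt = Vt (cS S h) h := by rw [hD]; rfl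
  have eD : D.Del = _ := hD ▸ Del_mk cx.n0 o.lt f
  have eA : fr D.A0 O = _ := hD ▸ A_eq
  have eT : D.Th = Th (cS S h) h := by rw [hD]; rfl
  have eB : D.Bh = Bh (cS S h) (eS S h) h v := by rw [hD]; rfl
  have eal : D.al = ip (tm h) v / TS S h := by rw [hD]; rfl
  have ew : D.w = wb h := by rw [hD]; rfl
  rw [← hD] at f ⊢
  have hp : ∀ a, 0 < D.hv a := fun a => by
    have p := sub_pos.2 (o.lt a)
    rw [← nu a] at p
    exact (mul_pos_iff_of_pos_right p).1 (zero_lt_one.trans_le (f.h1 a))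
  have a1 : OB t (S.Nis O * D.Hi O) 0 (-1) := by
    rw [Dat.Nis, Fd.Hi, JO_mul]
    refine OB.jo (SB.num cx 2 (by norm_num)) (fun a => ?_) O
    have p := A.gap_pos hs a
    rw [← mul_inv, ← Real.sqrt_mul p.le, abs_two,
      abs_of_nonneg (inv_nonneg.2 (Real.sqrt_nonneg _)),
      inv_le_comm₀ (Real.sqrt_pos.2 (mul_pos p (hp a))) two_pos]
    refine Real.le_sqrt_of_sq_le ?_
    have b1 := f.h1 a
    rw [nu a] at b1
    nlinarith [mul_le_mul_of_nonneg_left (o.near a).2 (hp a).le]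
  have a2 : OB t (S.Nsq O * D.Hs O) 0 (-2) := by
    rw [Dat.Nsq, Fd.Hs, JO_mul]
    refine OB.jo (SB.of_inv cx 2 (abs_of_pos (hs.i0 _)).le) (fun a => ?_) O
    have p := A.gap_pos hs a
    rw [← Real.sqrt_mul p.le, abs_of_nonneg (Real.sqrt_nonneg _), abs_of_pos (hs.i0 _)]
    refine Real.sqrt_le_iff.2 ⟨(hs.i0 _).le, ?_⟩
    have b1 := f.h2 a
    have b2 := hs.ci (C := 2) (by norm_num) (a := 3) (b := 4) (by norm_num)
    rw [nu a] at b1
    rw [← pow_mul]
    nlinarith [mul_le_mul_of_nonneg_left (o.near a).1 (hp a).le]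
  have a1' : OB t (D.Hi O * S.Nis O) 0 (-1) := a1.congr (JO_comm _ _ _)
  have a2' : OB t (D.Hs O * S.Nsq O) 0 (-2) := a2.congr (JO_comm _ _ _)
  have bu : VB t u 0 0 := ⟨cx, by rw [mo_zero, H.u1]⟩
  have bd : VB t (v - Gm (S.J O) h (zc S h) *ᵥ u) 0 0 := ⟨cx, H.hv.trans (by
    rw [mo_zero]
    exact inv_le_one_of_one_le₀ (one_le_pow₀ (by linarith [A.three_le hs])))⟩
  have w1 : VB t (S.Nsq O *ᵥ v) 0 (-144128) := by
    refine ((oH.mulVec bd).add ((o.g.mul oN).mulVec bu) _ _ (by omega)).congr ?_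
    rw [mul_assoc, i2, mul_one, ← mulVec_mulVec, ← mulVec_add, sub_add_cancel]
  have back : ∀ (M : Mat n) (y : Vec n), M *ᵥ y = (M * S.Nis O) *ᵥ (S.Nsq O *ᵥ y) :=
    fun M y => by rw [mulVec_mulVec, mul_assoc, i1, mul_one]
  have bv : VB t v 0 (-288129) := ((oN.mulVec w1).mono _ _ (by omega)).congr (by
    rw [mulVec_mulVec, i1, one_mulVec])
  have bx : VB t (S.Nis O *ᵥ x) 1 (-72001) := by
    refine VB.of_sq (j := 2) (a := -144001) ⟨cx, ?_⟩ _ _ (by omega)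
    have b1 : F.sq (S.Nis O *ᵥ x) = ∑ a, S.g a * xt a ^ 2 := by
      rw [Dat.Nis, sq_JO, H.ox]
      refine Finset.sum_congr rfl fun a _ => ?_
      rw [mul_pow, inv_pow, Real.sq_sqrt (A.gap_pos hs a).le]
      rfl
    have b2 := mul_le_mul_of_nonneg_left H.admX.x1 (hs.i0 144000).le
    have b3 := hs.ip_eq 144000 0
    rw [add_zero, pow_zero] at b3
    rw [← mul_assoc, b3, one_mul] at b2
    have b4 := hs.abi (x := L) (by simpa using hs.cL (C := 1) (a := 1) (by norm_num) (by norm_num))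
      (a := 144000) (b := 144001) (by norm_num)
    rw [abs_of_nonneg (sqN_nonneg _), b1, mo_two, show (-144001 : ℤ) = -(144001 : ℕ) from rfl,
      mo_inv]
    refine b2.trans ?_
    calc t⁻¹ ^ 144000 * (L * n) = n * (L * t⁻¹ ^ 144000) := by ring
      _ ≤ _ := mul_le_mul_of_nonneg_left b4 hn.le
  refine ⟨eT, eB, ew, ?_, ?_, ?_, s.m.to_pow _ (by omega),
    (s.m2.congr (by funext i; simp [pow_two])).to_pow _ (by omega),
    ((a1'.mulVec (VB.of_pow cx _ en)).congr (back _ _)).to_pow _ (by omega),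
    ((a1'.mulVec w1).congr (back _ _)).to_inv0 _ (by omega), bv.to_inv0 _ (by omega),
    ((o.mN.mul a2).congr (by rw [mul_assoc, ← mul_assoc (S.Nis O), i1, one_mul])).to_inv _
      (by omega),
    ((a2'.mulVec bx).congr (by rw [mulVec_mulVec, mul_assoc, i2, mul_one])).to_inv _ (by omega),
    eT ▸ s.oTh, eV ▸ s.oVt, ?_, ?_, eal ▸ (s.bal bv).rt _ (by omega), ?_, ?_,
    (((a1'.mul o.ga).mul a1).congr (eGa ▸ sand i1 i2 _ _ _)).to_inv _ (by omega),
    (((a1'.mul o.g).mul a1).congr (eG ▸ sand i1 i2 _ _ _)).to_inv _ (by omega),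
    (((a1'.mul o.q).mul a1).congr (eQ ▸ sand i1 i2 _ _ _)).to_inv _ (by omega),
    (((a2'.mul o.vt).mul a2).congr (eV ▸ sand i2 i1 _ _ _)).to_inv _ (by omega)⟩
  · have b := (s.c_add.mono (-2) (143900 : ℕ) (by omega)).le
    rwa [mo_neg_two, mo_pow] at b
  · have b1 := (s.cT_add.mono (-2) 0 (by omega)).le
    rw [mo_neg_two, mo_zero] at b1
    have b2 := (abs_le.1 (s.q.small (by omega))).2
    have b3 : 2 / (n * wb h ^ 2) ≤ 3 / n := by
      rw [div_le_div_iff₀ (mul_pos hn (pow_pos (T1A.wb_pos cx.n0 h) 2)) hn]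
      have : 2 / 3 ≤ wb h ^ 2 := by nlinarith
      nlinarith
    have b4 : 0 < 2 / (n * wb h ^ 2) := div_pos two_pos (mul_pos hn (pow_pos (T1A.wb_pos cx.n0 h) 2))
    have b5 : (4 : ℝ) / n = 1 / n + 3 / n := by ring
    have b6 : 0 < 3 / (n : ℝ) := div_pos three_pos hn
    exact abs_le.2 ⟨by linarith [(abs_le.1 b1).1], by linarith [(abs_le.1 b1).2]⟩
  · have b := (s.he.mul (SB.cast cx).sq).to_inv 30 (by omega)
    rwa [abs_mul, abs_of_nonneg (sq_nonneg (n : ℝ))] at b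
  · rw [eV]
    exact (s.trV.small (by omega)).trans (by norm_num)
  · have b := (s.trV2.mono 2 (287990 : ℕ) (by omega)).le
    rw [mo_two, mo_pow] at b
    rw [eV, hsq_symm (Vt_tr _ _)]
    exact (le_abs_self _).trans b
  · rw [eB, eal, eD]
    exact (s.a3 bv).rt _ (by omega)
  · rw [add_zero, eA, eT]
    exact o.unit

/-- **[A4]** -/
theorem a4_of (h9 : I9Stmt) : A4Stmt :=
  ((ev_sm.and d4Stmt).and h9).mono fun _ _ _ ⟨⟨hs, h4⟩, h9⟩ n S _ _ _ O _ _ h _ _ H f =>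
    ma_of hs H (d4_of h4 hs H) f (h9 n S O h H.adm H.good H.ball H.res (cap_y hs H.adm H.cap))

theorem i9Stmt : I9Stmt := by
  refine ((ev_sm.and D6.evPk).and D6.d6Stmt).mono ?_
  rintro L t - ⟨⟨hs, k⟩, h6⟩ n S O h A G hb hr hy
  have cx := cx_of hs A
  have e1 := ((OB.of_inv cx 144001 (A.opLe_Nis hs O)).mulVec (VB.of_pow cx _ hr)).to_pow 215995
    (by omega)
  have e2 : L ^ 2 * n * t ^ 432000 ≤ n * t ^ 431990 := by
    have := hs.cLp (C := 1) (k := 2) (by norm_num) (by norm_num) (a := 432000) (b := 431990)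
      (by norm_num)
    calc L ^ 2 * n * t ^ 432000 = n * (1 * L ^ 2 * t ^ 432000) := by ring
      _ ≤ _ := mul_le_mul_of_nonneg_left this cx.n0'.le
  exact (VB.of_vb cx (T2A9.i9 hs (k n S O A) (T2A7.strW_of hs G)
    (T2A9.near_of_ball hs G hb ((h6 n S O A G).reg h hb)) e1 (hy.trans e2)).2).to_pow _ (by omega)

theorem a4Stmt : A4Stmt := a4_of i9Stmt

end Vale.Agent.N150.T2A
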