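import Vale.Agent.N150.T2A7
import Vale.Agent.N150.T2Cv
import Vale.Agent.N150.T1D4

/-! T2, statement `A7Stmt`. -/

open Matrix

namespace Vale.Agent.N150.T2A7

open Vale.Agent.P150 Vale.Agent.P150.F Vale.Agent.N150.EC Vale.Agent.N150.Sp Vale.Agent.N150.Fib
open Vale.Agent.N150.T1 Vale.Agent.N150.T2

variable {n : ℕ}

theorem i7Stmt : I7Stmt := i7_of d4Stmt

section

variable {L t : ℝ} {S : Dat n} {V : Finset (Fin n)} {O O0 : OG n} {Pi : Mat n} {h v : Vec n}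

theorem mk_Kt (ad : Adm L t S) :
    (mk t S V O0 Pi h v).Kt O = Kt (S.J O) h (zh (S.J O) h) := by
  have e : G0 (S.J O) (zh (S.J O) h) = _ := G0_JO (T1A.zh_lt ad O h) O
  rw [Kt, e, JO_smul, one_sub_JO, zh_eq]
  show JO (fun a => 1 - (zc S h - S.lam a)⁻¹ / wb h) O = _
  congr 1
  funext a
  rw [div_eq_inv_mul]

theorem mk_Vt : (mk t S V O0 Pi h v).Vt = T2A.Vt (cc (S.J O) h (zh (S.J O) h)) h := by
  rw [zh_eq, cS_eq]
  rfl

theorem P_mul_PV (cp : Cp L t S V) {σ : ℝ} (hσ : 0 ≤ σ) : S.P σ O * PV V O = PV V O := by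
  show JO (S.ind σ) O * JO (fun a => if a ∈ V then 1 else 0) O = JO _ O
  rw [JO_mul]
  congr 1
  funext a
  by_cases ha : a ∈ V
  · have : a ∈ S.low σ := S.mem_low.2 (by rw [cp.vl a ha, sub_self]; exact hσ)
    simp [Dat.ind, this]
  · simp [ha]

theorem opLe_PV : OpLe (PV V O) 1 :=
  opLe_JO (u := fun a => if a ∈ V then 1 else 0) (fun a => by split_ifs <;> simp) O

/-- `‖N0 ^ (1/2) H ^ (1/2)‖ ≤ t⁻¹ ^ 2` -/
theorem Nsq_Hs (hs : Sm L t) (ad : Adm L t S) (R : Reg t (S.J O) (S.y O) h)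
    (f : Fr t (mk t S V O0 Pi h v)) :
    OpLe (S.Nsq O * (mk t S V O0 Pi h v).Hs O) (t⁻¹ ^ 2) := by
  have s := T1A.sm_of hs
  rw [Dat.Nsq, Fd.Hs, JO_mul]
  refine opLe_JO (fun a => ?_) O
  have h1 := (abs_le.1 (T1A.reg_z hs ad R)).1
  have h2 := T1A.reg_gap hs ad R a
  have h3 := s.mono (a := 358997) (b := 288002) (by norm_num)
  have h4 : (mk t S V O0 Pi h v).hv a * (zc S h - S.lam a) ≤ t⁻¹ ^ 3 := f.h2 a
  have h5 : 1 ≤ (mk t S V O0 Pi h v).hv a * (zc S h - S.lam a) := f.h1 a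
  have h6 := s.pos 288002
  rw [zh_eq] at h1 h2
  have h7 : 0 ≤ (mk t S V O0 Pi h v).hv a := by
    by_contra hc
    nlinarith [not_le.1 hc]
  have h8 := hs.ci (C := 2) (by norm_num) (a := 3) (b := 4) (by norm_num)
  rw [← Real.sqrt_mul (ad.gap_pos hs a).le, abs_of_nonneg (Real.sqrt_nonneg _)]
  refine Real.sqrt_le_iff.2 ⟨(hs.i0 2).le, ?_⟩
  rw [← pow_mul]
  have h9 := mul_le_mul_of_nonneg_left
    (show S.z0 - S.lam a ≤ 2 * (zc S h - S.lam a) by linarith) h7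
  linarith

end

theorem a7Stmt : A7Stmt := fun L hL => by
  filter_upwards [ev_sm L hL, i7Stmt L hL] with t hs k7
  intro n S V x xt O O0 Pi h u v H f _ _
  have ad := H.adm
  have k := k7 n S O h ad H.good H.ball
  have cm : ∀ A : Finset (Fin n), (A.card : ℝ) ≤ n * t ^ 431990 → (A.card : ℝ) ≤ n * t ^ 360001 :=
    fun A hA => hA.trans (mul_le_mul_of_nonneg_left (hs.pw (by norm_num)) (Nat.cast_nonneg n))
  refine ⟨fun A hA => ?_, fun A hA => ?_⟩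
  · have e := (k.th A (cm A hA)).mulN (Nsq_Hs hs ad (H.out.reg h H.ball) f) (hs.p0 _).le
      (hs.i0 _).le
    rw [Matrix.mul_assoc, ← Matrix.mul_assoc (S.Nis O), ad.Nis_mul_Nsq hs, Matrix.one_mul] at e
    rw [mk_Kt ad, mk_Vt (O := O)]
    refine e.monoN (mul_pos (hs.p0 _) (hs.i0 _)).le ?_
    rw [mul_comm]
    exact hs.ip (by norm_num)
  · have e1 := (k.vpGm A _ (cm A hA) (P_mul_PV H.cap (hs.p0 _).le) opLe_PV).nv_le (hs.i0 _).le u
    rw [← mulVec_mulVec, H.uV, H.u1, mul_one, ← mulVec_mulVec, zh_eq] at e1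
    have e2 := (opLe_res A).nv_le zero_le_one (v - Gm (S.J O) h (zc S h) *ᵥ u)
    have e3 : ((n : ℝ) ^ 3)⁻¹ ≤ 1 :=
      inv_le_one_of_one_le₀ (one_le_pow₀ (by exact_mod_cast ad.npos))
    have e4 := nv_add_le (Rip.res A *ᵥ (v - Gm (S.J O) h (zc S h) *ᵥ u))
      (Rip.res A *ᵥ (Gm (S.J O) h (zc S h) *ᵥ u))
    rw [← mulVec_add, sub_add_cancel] at e4
    have e5 := hs.ci (C := 2) (by norm_num) (a := 140125) (b := 140400) (by norm_num)
    linarith [H.hv, hs.i1 140125]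

end Vale.Agent.N150.T2A7
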