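import Vale.Agent.N150.T2B3

/-! T2: `BStmt` (explored blocks). -/

namespace Vale.Agent.N150.T2B

open Matrix Finset Filter Topology
open Vale.Agent.P150 Vale.Agent.P150.F Vale.Agent.N150.Fib Vale.Agent.N150.Rip
  Vale.Agent.N150.Sp Vale.Agent.N150.EC Vale.Agent.N150.T2
open Vale.Agent.N150.Haar (fro)
open Vale.Agent.N150.T1 (Sm ev_sm JO_mul JO_smul opLe_JO one_sub_JO clip)
open Vale.Agent.N150.T2A (mo Cx SB mo_pow mo_inv mo_one mo_two mo_zero mo_neg_one mo_neg_two)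
open Vale.Agent.N150.T2L (li isProj_li)

variable {n : ℕ} {t : ℝ} {D : Fd n} {O : OG n} {x h v : Vec n} {c e : ℝ}

theorem abs_le_res (v : Vec n) (i : Fin n) : |v i| ≤ nv (res {i} *ᵥ v) :=
  abs_le_of_sq_le_sq' (by rw [nv_sq, sq_res, sum_singleton]) (nv_nonneg _) |> abs_le.2

theorem PL_li {lb : Fin n → ℕ} {i j : ℕ} (hij : i < j) (O : OG n) :
    PL lb i O * JO (li lb j) O = JO (li lb j) O := by
  rw [PL, JO_mul]
  congr 1
  funext a
  by_cases ha : lb a = j <;> simp [li, ha, hij]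

theorem Hs_li (D : Fd n) (j : ℕ) (O : OG n) :
    D.Hs O * JO (li D.lab j) O = √(D.hf j) • JO (li D.lab j) O := by
  rw [Fd.Hs, JO_mul, JO_smul]
  congr 1
  funext a
  by_cases ha : D.lab a = j <;> simp [li, ha, Fd.hv]

theorem Hs_sum {N : ℕ} (hN : ∀ a, D.lab a < N) (O : OG n) :
    D.Hs O = ∑ j ∈ range N, √(D.hf j) • JO (li D.lab j) O := by
  rw [Fd.Hs, JO_split hN]
  refine sum_congr rfl fun j _ => ?_
  rw [JO_smul]
  congr 1
  funext a
  by_cases ha : D.lab a = j <;> simp [li, ha, Fd.hv]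

theorem lam_sq (k : Cx n t) : n * mo n t (-1) (-2) ^ 2 = mo n t 0 (-4) := by
  have e1 : (n : ℝ) = mo n t 2 0 := by rw [mo_two, mo_zero, mul_one]
  calc _ = mo n t 2 0 * mo n t (-1) (-2) ^ 2 := by rw [← e1]
    _ = _ := by rw [k.sq_mo, k.mul]; rfl

section

variable (s : Sm 2 t) (f : Fr t D)
include s f

/-- (B1) for `s ≥ n ^ (-1/4)` -/
theorem b_big (a : Ma t D O x h v c e) (b : Mb t D O v) (r : RL t D.lab O)
    (hP : IsProj D.PB) (hc : D.PB * D.Hs O = D.Hs O * D.PB) (hr : D.PB.trace ≤ D.r)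
    (hn : 1 ≤ n * t ^ 1152000) :
    fro (D.Hs O * D.PB * D.Bh) ≤ mo n t 0 (-141000) ∧
    fro (D.Hs O * D.PB * D.Bh * D.PB * D.Hs O) ≤ mo n t 0 (-141000) := by
  have k := cx_fr s f
  have hn0 := k.n0'
  have h1 : (1 : ℝ) ≤ n * t ^ 431990 :=
    f.big.trans (mul_le_mul_of_nonneg_left (s.pw (by norm_num)) hn0.le)
  obtain ⟨K, hK⟩ : ∃ K, K = ⌊n * t ^ 431990⌋₊ := ⟨_, rfl⟩
  have K0 : 0 < K := hK ▸ Nat.floor_pos.2 h1
  have K1 : (K : ℝ) ≤ n * t ^ 431990 := hK ▸ Nat.floor_le (by linarith)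
  have K2 : n * t ^ 431990 < K + 1 := hK ▸ Nat.lt_floor_add_one _
  have K3 : (1 : ℝ) ≤ K := by exact_mod_cast K0
  have e1 : n * t ^ 431990 = mo n t (2 * 1) (2 * 215995) := by
    rw [← mo_pow n, ← mo_two]; rfl
  have s1 : SB n t (√K) 1 215995 := sb_of k (Real.sqrt_nonneg _) (sqrt_le_mo k (e1 ▸ K1))
  have s2 : mo n t 1 215996 ≤ √K := Real.le_sqrt_of_sq_le (by
    have := k.cst (C := 2) (by norm_num) (j := 2 * 1) (a := 2 * 215996) (k := 2 * 1)
      (b := 2 * 215995) (by omega)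
    rw [k.sq_mo]
    linarith)
  have s3 : SB n t (√D.r) 1 518400 := by
    refine sb_of k (Real.sqrt_nonneg _) (sqrt_le_mo k ?_)
    have e2 : n * t ^ 1036800 = mo n t (2 * 1) (2 * 518400) := by
      rw [← mo_pow n, ← mo_two]; rfl
    have e3 : (n * t ^ 1036800) ^ 10 = n * (n * t ^ 1152000) ^ 9 := by
      rw [mul_pow, mul_pow, ← pow_mul, ← pow_mul, ← mul_assoc, ← pow_succ']
    rw [← e2]
    refine (pow_le_pow_iff_left₀ (by linarith [f.r1]) (mul_pos hn0 (s.p0 _)).le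
      (by norm_num : (10 : ℕ) ≠ 0)).1 ((f.r_pow (by norm_num)).trans ?_)
    rw [e3]
    exact le_mul_of_one_le_right hn0.le (one_le_pow₀ hn)
  have cS : ∀ {S : Finset (Fin n)}, S.card ≤ K → (S.card : ℝ) ≤ n * t ^ 431990 := fun hS =>
    (Nat.cast_le.2 hS).trans K1
  have h4 := f.opHs (sml s) O
  rw [← mo_inv n] at h4
  obtain ⟨b1, b2⟩ := (sc_ma s f a).b1 (D.Hs_tr O) hP hc hr (k.nn _ _) (k.nn _ _) K0
    (fun S hS => res_Hs s f r (cS hS)) h4 (vp := mo n t 0 (-140400))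
    fun S hS => (b.vp S (cS hS)).trans (mo_inv n t 140400).ge
  rw [← Bh_link, ← a.lB] at b1 b2
  have u1 := (sb_mo k 0 (-140400)).add (((sb_nu s f).cmul 2 (by norm_num)).mul s1) 0 (-140401)
    (by omega)
  have u2 := (((sb_mo k 0 (-140400)).mul (SB.inv k s2)).congr (div_eq_mul_inv _ _)).add
    ((sb_nu s f).cmul 2 (by norm_num)) (-1) (-356397) (by omega)
  have u3 := (sb_nu0 s f).cmul 200 (by norm_num)
  exact ⟨b1.trans (sb_le ((((sb_mo k _ _).mul u1).add (s3.mul ((sb_mo k _ _).mul u2)) 0 (-140500)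
      (by omega)).add ((sb_mo k _ _).mul u3) 0 (-141000) (by omega)) _ _ (by omega)),
    b2.trans (sb_le ((((sb_mo k _ _).sq.mul u1).add (s3.mul ((sb_mo k _ _).sq.mul u2)) 0 (-140500)
      (by omega)).add (sb_tr ((sb_mo k _ _).sq.mul ((sb_nu s f).cmul 200 (by norm_num))) 576000
        (Real.le_sqrt_of_sq_le (by
          rw [← pow_mul, inv_pow, ← one_div, div_le_iff₀ (s.p0 _)]; exact hn)) 0 0 (by omega))
        0 (-141000) (by omega)) _ _ (by omega))⟩

theorem clip_PL (r : RL t D.lab O) (hl : Real.log n ≤ t⁻¹) {i : ℕ} (hi : i ≤ 144000) {q : ℤ}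
    (hq : 2 * q + 5 ≤ 3 * i) {u : Vec n} (hu : PL D.lab i O *ᵥ u = u) (u1 : nv u = 1) :
    nv (u - clip (mo n t (-1) (-2)) u) ≤ mo n t 0 q := by
  have k := cx_fr s f
  have hn := k.n0'
  have h1 := r i hi u
  have i1 := s.inv1
  have ti : SB n t t⁻¹ 0 (-1) := sb_of k s.inv0.le (by rw [← pow_one t⁻¹, ← mo_inv n]; rfl)
  rw [hu, ← nv_sq, u1, one_pow, mul_one, mo_mix k, ← mo_two] at h1
  have h2 := sq_sub_clip h1 s.inv0.le k.n0 (k.nn (-1) (-2)) (by
    rw [lam_sq k]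
    exact (mul_le_mul_of_nonneg_left (by linarith : Real.log n + 2 ≤ 3 * t⁻¹) (by linarith)).trans
      (sb_le ((ti.cmul 2 (by norm_num)).mul (ti.cmul 3 (by norm_num))) _ _ (by omega)))
  refine nv_le_of_sq_le (k.nn _ _) (le_of_mul_le_mul_left (h2.trans ?_) hn)
  have h3 := sb_tr (sb_tr (ti.cmul 4 (by norm_num)) _ (sq_big s f) 1 281998 (by omega)) _
    (sq_big s f) 2 563998 (by omega)
  have h4 := sb_le h3 2 (3 * i - 3) (by omega)
  rw [k.sq_mo, mul_zero, ← mo_two]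
  push_cast
  refine (mul_le_mul_of_nonneg_left (by linarith : _ ≤ 2 * mo n t 2 (3 * i - 3))
    (by linarith)).trans (le_of_eq_of_le (by ring) (sb_le ((ti.mul
      (sb_mo k 2 (3 * i - 3))).cmul 4 (by norm_num)) _ _ (by omega)))

theorem hf_le (hh : D.hf = hf t D.del) (j : ℕ) :
    √(D.hf j) ≤ mo n t 0 (-144001) ∧ (j ≤ 144000 → √(D.hf j) ≤ mo n t 0 (-j)) := by
  have k := cx_fr s f
  have d0 := T2F.del_pos s.pos f
  have h1 := T2F.inv_del s.pos f
  rw [← mo_inv n] at h1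
  rw [hh, hf]
  refine ⟨sqrt_le_mo k (le_trans ?_ (h1.trans (k.mono (by omega)))), fun hj => sqrt_le_mo k ?_⟩
  · split_ifs
    · exact inv_anti₀ d0 (by linarith [s.p0 (2 * j)])
    · exact le_rfl
  · rw [if_pos hj]
    refine (inv_anti₀ (s.p0 (2 * j)) (by linarith)).trans ?_
    rw [← inv_pow, ← mo_inv n]
    exact k.mono (by omega)

theorem op_HiP (hh : D.hf = hf t D.del) : OpLe (D.Hi O * PL D.lab 57600 O) (mo n t 0 57600) := by
  have k := cx_fr s f
  have d1 := f.dhi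
  rw [← mo_pow n] at d1
  rw [Fd.Hi, PL, JO_mul]
  refine opLe_JO (fun a => ?_) O
  split_ifs with ha
  · rw [mul_one, abs_of_nonneg (by positivity), ← Real.sqrt_inv, Fd.hv, hh, hf]
    refine sqrt_le_mo k ?_
    split_ifs
    · rw [inv_inv, ← mo_pow n]
      exact (add_le_add d1 le_rfl).trans (k.add (by omega))
    · rw [inv_inv]
      exact d1.trans (k.mono (by omega))
  · simpa using k.nn _ _

theorem nv_high (u : Vec n) :
    nv (u - PL D.lab 57600 O *ᵥ u) ≤ mo n t 0 (-57600) * nv (D.Hi O *ᵥ u) := by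
  have k := cx_fr s f
  have o : OpLe ((1 - PL D.lab 57600 O) * D.Hs O) (mo n t 0 (-57600)) := by
    rw [Fd.Hs, PL, one_sub_JO, JO_mul]
    refine opLe_JO (fun a => ?_) O
    split_ifs with ha
    · simpa using k.nn _ _
    · rw [sub_zero, one_mul, abs_of_nonneg (Real.sqrt_nonneg _)]
      exact hs_lev s f (i := 57600) (by norm_num) (not_lt.1 ha)
  have := o.nv_le (k.nn _ _) (D.Hi O *ᵥ u)
  rwa [mulVec_mulVec, Matrix.mul_assoc, f.si (sml s), Matrix.mul_one, sub_mulVec, one_mulVec] at this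

omit s f in
theorem ip_Hs (a : Ma t D O x h v c e) (u : Vec n) :
    |ip x (D.Hs O *ᵥ u)| ≤ mo n t 0 (-72010) * √n * nv u := by
  have := a.xH
  rw [← mo_inv n, mul_comm] at this
  rw [Tail.ip_proj (D.Hs_tr O)]
  exact abs_ip_le' this le_rfl

/-- (B2) for `s ≤ n ^ (-1/4)` -/
theorem b_small (a : Ma t D O x h v c e) (b : Mb t D O v) (r : RL t D.lab O)
    (hW : WickOK (PL D.lab 57600 O) x (t⁻¹ ^ 2 / √n) (t ^ 85000))
    (hP : IsProj D.PB) (hc : D.PB * D.Hs O = D.Hs O * D.PB) (hr : D.PB.trace ≤ D.r)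
    (hrr : D.r ≤ rr t n) (hh : D.hf = hf t D.del) (hlab : ∀ a, D.lab a ≤ 144002)
    (hn : n * t ^ 1152000 ≤ 1) :
    fro (D.Hs O * D.PB * D.Bh) ≤ mo n t 0 (-141000) ∧
    fro (D.Hs O * D.PB * D.Bh * D.PB * D.Hs O) ≤ mo n t 0 (-141000) := by
  have k := cx_fr s f
  have hn0 := k.n0'
  have m := sb_mo k
  have hl : Real.log n ≤ t⁻¹ := by
    have h1 := Real.log_le_log hn0 (T2F.le_inv_pow s.pos hn)
    rw [Real.log_pow] at h1
    have h2 := log_le s (C := 1152000) (by norm_num)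
    push_cast at h1
    linarith
  have s3 : SB n t (√D.r) 0 (-151) := by
    refine sb_of k (Real.sqrt_nonneg _) (sqrt_le_mo k (hrr.trans ((mul_le_mul_of_nonneg_left hl
      (s.i0 300).le).trans ?_)))
    rw [← pow_succ, ← mo_inv n]
    exact k.mono (by omega)
  have sn : SB n t (√n) 1 0 := sb_of k (Real.sqrt_nonneg _) (by rw [mo_one, mo_zero, mul_one])
  rw [← mo_inv n, ← mo_neg_one, ← mo_pow n] at hW
  have l : Low (tm h) v x (PL D.lab 57600 O) (mo n t 1 71999) (mo n t 0 (-288161))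
      (mo n t 0 86290) (mo n t (-1) (-2)) (mo n t 0 86397) (mo n t 0 86300) (mo n t 0 85000)
      (mo n t 0 71995) (mo n t 0 (-14410)) := by
    refine ⟨D.isProj_Pl 57600 O, hW, k.nn _ _, fun u hu u1 => ?_, k.nn _ _, k.nn _ _, k.nn _ _,
      fun u hu u1 => clip_PL s f r hl (by norm_num) (by norm_num) hu u1,
      (nv_high s f _).trans ?_, (nv_high s f _).trans ?_, ?_, ?_, ?_, ?_⟩
    · have h1 := ip_Hs a (D.Hi O *ᵥ u)
      have h2 := (op_HiP (O := O) s f hh).nv_le (k.nn _ _) u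
      rw [← mulVec_mulVec, hu, u1, mul_one] at h2
      rw [mulVec_mulVec, f.si (sml s), one_mulVec] at h1
      refine h1.trans ((mul_le_mul_of_nonneg_left h2 (mul_nonneg (k.nn _ _)
        (Real.sqrt_nonneg _))).trans ?_)
      rw [mul_right_comm, k.mul]
      exact mul_le_mul_of_nonneg_right (k.mono (by omega)) (Real.sqrt_nonneg _)
    · have h1 := a.en
      rw [← mo_pow n, ← mo_one] at h1
      refine (mul_le_mul_of_nonneg_left h1 (k.nn _ _)).trans ?_
      rw [k.mul, k.mul]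
      exact k.mono (by omega)
    · have h1 := a.vH
      rw [← mo_inv n] at h1
      refine (mul_le_mul_of_nonneg_left h1 (k.nn _ _)).trans ?_
      rw [k.mul, k.mul]
      exact k.mono (by omega)
    · rw [lam_sq k]
      exact sb_le (SB.num k 4 (by norm_num)) _ _ (by omega)
    · exact sb_le ((((m _ _).mul (m _ _)).cmul 2 (by norm_num)).add
        ((m _ _).add (m _ _) 0 86299 (by omega)) 0 71995 (by omega)) _ _ (by omega)
    · exact sb_le (m _ _).sq _ _ (by omega)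
    · exact sb_le ((((SB.cast k).mul (m _ _).sq).cmul 2 (by norm_num)).mul
        ((m _ _).add (m _ _) 0 86299 (by omega))) _ _ (by omega)
  have L : Lv (range 144003) (fun j => JO (li D.lab j) O) (fun j => √(D.hf j)) (PL D.lab 57600 O) x
      (mo n t (-1) (-2)) (mo n t 0 (-144001)) (mo n t 0 (-57600)) (mo n t 0 (-4))
      (mo n t 0 (-72010)) := by
    refine ⟨fun j _ => isProj_li _ _ _, fun j _ => Real.sqrt_nonneg _,
      fun j _ => (hf_le s f hh j).1, fun j _ u hu u1 => ?_, fun j _ => ?_⟩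
    · have fx : ∀ {i : ℕ}, i < j → PL D.lab i O *ᵥ u = u := fun hi => by
        rw [← hu, mulVec_mulVec, PL_li hi]
      have fin : ∀ {p q : ℤ}, √(D.hf j) ≤ mo n t 0 p → -4 ≤ p + q →
          nv (u - clip (mo n t (-1) (-2)) u) ≤ mo n t 0 q →
          √(D.hf j) * nv (u - clip (mo n t (-1) (-2)) u) ≤ mo n t 0 (-4) := fun h1 h2 h3 =>
        (mul_le_mul h1 h3 (nv_nonneg _) (k.nn _ _)).trans
          (sb_le ((m _ _).mul (m _ _)) _ _ (by omega))
      rcases Nat.eq_zero_or_pos j with h0 | h0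
      · exact fin (q := 0) ((hf_le s f hh j).2 (by omega)) (by omega)
          ((nv_sub_clip_le (k.nn _ _) u).trans (u1.trans (mo_zero n t).symm).le)
      rcases le_or_gt j 144000 with h1 | h1
      · exact fin (q := j - 4) ((hf_le s f hh j).2 h1) (by omega)
          (clip_PL s f r hl (i := j - 1) (by omega) (by omega) (fx (by omega)) u1)
      · exact fin (q := 215997) (hf_le s f hh j).1 (by omega)
          (clip_PL s f r hl le_rfl (by omega) (fx h1) u1)
    · rcases le_or_gt j 57600 with h1 | h1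
      · exact Or.inl (((hf_le s f hh j).2 (by omega)).trans (k.mono (by omega)))
      · refine Or.inr ⟨PL_li h1 O, fun u hu u1 => ?_⟩
        have h2 := ip_Hs a u
        rw [u1, mul_one, ← hu, mulVec_mulVec, Hs_li, smul_mulVec, hu, ip_smul_right, abs_mul,
          abs_of_nonneg (Real.sqrt_nonneg _)] at h2
        exact h2
  obtain ⟨b1, b2⟩ := b2 (sc_ma s f a) l L (k.nn _ _) (k.nn _ _) (k.nn 0 (-140400))
    (fun i => (abs_le_res v i).trans ((b.vp {i} (card_one s f i)).trans (mo_inv n t 140400).ge))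
    (k.nn _ _) (k.nn _ _) (Hs_sum (fun a => by have := hlab a; omega) O) hP hc hr
  rw [← Bh_link, ← a.lB, card_range] at b1 b2
  have cd := SB.num k (144003 : ℕ) (by norm_num)
  have u1 := (m 0 (-140400)).add ((sb_nu0 s f).cmul 2 (by norm_num)) 0 (-140401) (by omega)
  have u2 := sb_tr ((m 0 (-144001)).mul ((m (-1) (-2)).mul ((m 0 71995).mul (m 0 (-288161))))) _
    (sq_big s f) 0 (-78169) (by omega)
  have u3 := (sb_nu0 s f).cmul 200 (by norm_num)
  have u4 := (sb_tr ((m (-1) (-2)).sq.mul (sn.mul ((m 0 71995).mul (m 0 (-288161))))) _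
    (sq_big s f) 0 65830 (by omega)).add u3 0 65829 (by omega)
  have u5 := ((m 0 (-144001)).sq.mul (((m 0 86290).cmul 163 (by norm_num)).add (m 0 85000) 0 84999
    (by omega))).add (((m 0 (-14410)).mul (m 0 (-72010))).sq.cmul 3 (by norm_num)) 0 (-203004)
      (by omega)
  exact ⟨b1.trans (sb_le (s3.mul (cd.mul ((u2.add ((m 0 (-4)).mul u1) 0 (-140406) (by omega)).add
      ((m 0 (-144001)).mul u3) 0 (-140407) (by omega)))) _ _ (by omega)),
    b2.trans (sb_le (s3.mul (cd.mul (cd.mul (((u1.mul (m 0 (-4)).sq).add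
      ((u2.mul (m 0 (-4))).cmul 2 (by norm_num)) 0 (-140410) (by omega)).add
      ((((m 0 (-144001)).mul (m 0 (-57600))).mul u4).add ((sb_nu0 s f).mul u5) 0 (-137167)
        (by omega)) 0 (-140411) (by omega))))) _ _ (by omega))⟩

end

/-- **[B]** -/
theorem bStmt : BStmt := (ev_sm 2 le_rfl).mono
  fun t s n D O x h v c e f a b r hW hP hr hrr hb hh hlab => by
    have hc : D.PB * D.Hs O = D.Hs O * D.PB := by
      have := hb fun l => √(D.hf l)
      rw [Fd.PB, sub_mul, mul_sub, one_mul, mul_one]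
      exact congrArg _ this
    have hr' : D.PB.trace ≤ D.r := by
      rw [Fd.PB, trace_sub, trace_one, Fintype.card_fin]
      linarith
    rw [← mo_inv n]
    rcases le_total (n * t ^ 1152000) 1 with hn | hn
    · exact b_small s f a b r (hW hn) hP.compl hc hr' hrr hh hlab hn
    · exact b_big s f a b r hP.compl hc hr' hn

end Vale.Agent.N150.T2B
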