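import Vale.Agent.N150.T2Def

/-! Block T2: the tail on one fibre from the quartic lemma, the fluctuation bound and the mean. -/

open Matrix MeasureTheory Filter Topology Set

namespace Vale.Agent.N150.T2Z

open Vale.Agent.P150 Vale.Agent.P150.F Vale.Agent.N150.Fib Vale.Agent.N150.T2

variable {n : ℕ}

theorem prob_mu (D : Fd n) : IsProbabilityMeasure D.mu :=
  haveI := (invOn_haarP D.Pi).prob
  Measure.isProbabilityMeasure_map (measurable_const_mul D.O0).aemeasurable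

/-- polynomials in `n` against the rate `n t ^ 431998` -/
theorem ev_rate (C : ℝ) (p : ℕ) : ∀ᶠ t : ℝ in 𝓝[>] 0, ∀ n : ℕ, 1 ≤ n * t ^ 564000 →
    C * (n : ℝ) ^ p ≤ Real.exp (n * t ^ 431998) := by
  have h1 : ∀ᶠ x in atTop, |C| ≤ Real.exp x / x ^ (5 * p) :=
    (Real.tendsto_exp_div_pow_atTop (5 * p)).eventually_ge_atTop _
  obtain ⟨x0, hx0⟩ := eventually_atTop.1 h1
  have h2 : ∀ᶠ t : ℝ in 𝓝[>] 0, max x0 1 ≤ t⁻¹ := tendsto_inv_nhdsGT_zero.eventually_ge_atTop _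
  filter_upwards [h2, self_mem_nhdsWithin] with t ht ht0 n hn
  have t0 : (0 : ℝ) < t := ht0
  have t1 : t ≤ 1 := (one_le_inv₀ t0).1 ((le_max_right _ _).trans ht)
  obtain ⟨u, hu⟩ : ∃ u, u = t ^ 431998 := ⟨_, rfl⟩
  obtain ⟨v, hv⟩ : ∃ v, v = t ^ 564000 := ⟨_, rfl⟩
  have u0 : 0 < u := hu ▸ pow_pos t0 _
  have v0 : 0 < v := hv ▸ pow_pos t0 _
  have e1 : v ≤ u * t := by
    rw [hu, hv, ← pow_succ]
    exact pow_le_pow_of_le_one t0.le t1 (by norm_num)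
  have e2 : v ^ 4 ≤ u ^ 5 := by
    rw [hu, hv, ← pow_mul, ← pow_mul]
    exact pow_le_pow_of_le_one t0.le t1 (by norm_num)
  rw [← hu]
  rw [← hv] at hn
  have n0 : (0 : ℝ) ≤ n := Nat.cast_nonneg n
  have k1 : t⁻¹ ≤ n * u := by
    rw [inv_le_iff_one_le_mul₀ t0, mul_assoc]
    exact hn.trans (mul_le_mul_of_nonneg_left e1 n0)
  have k2 : (n : ℝ) ≤ (n * u) ^ 5 := by
    have a1 : 1 ≤ (n * v) ^ 4 := one_le_pow₀ hn
    calc (n : ℝ) ≤ n * (n * v) ^ 4 := le_mul_of_one_le_right n0 a1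
      _ = n ^ 5 * v ^ 4 := by ring
      _ ≤ n ^ 5 * u ^ 5 := mul_le_mul_of_nonneg_left e2 (pow_nonneg n0 _)
      _ = _ := by ring
  have k0 : 0 < n * u := lt_of_lt_of_le (inv_pos.2 t0) k1
  have k3 := hx0 _ ((le_max_left _ _).trans (ht.trans k1))
  rw [le_div_iff₀ (pow_pos k0 _)] at k3
  refine le_trans ?_ k3
  rw [pow_mul]
  exact mul_le_mul (le_abs_self C) (pow_le_pow_left₀ n0 k2 p) (pow_nonneg n0 _) (abs_nonneg _)

theorem core_mono {t : ℝ} {D : Fd n} {Gd G' : Set (OG n)} (h : Core t D Gd) (hG : G' ⊆ Gd)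
    (hm : MeasurableSet G') (hp : D.mu.real G'ᶜ ≤ ((n : ℝ) ^ 900)⁻¹) : Core t D G' :=
  ⟨h.fr, h.si, hm, hp, fun O hO => h.fib O (hG hO), fun O hO => h.pt O (hG hO)⟩

/-- **[Fib]** -/
theorem fib_of (hQ : QStmt) (hF : FStmt) (hM : M4Stmt) : FibStmt := by
  have h2 : ∀ᶠ t : ℝ in 𝓝[>] 0, 2 ≤ t⁻¹ := tendsto_inv_nhdsGT_zero.eventually_ge_atTop _
  filter_upwards [hQ, hF, hM, ev_rate 12 900, h2, self_mem_nhdsWithin] with t q f m e t2 ht0 n D Gd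
    h hd
  have t0 : (0 : ℝ) < t := ht0
  have t1 : t ≤ 1 := (one_le_inv₀ t0).1 (by linarith)
  have := prob_mu D
  obtain ⟨K, hK⟩ : ∃ K, K = n * t ^ 431998 := ⟨_, rfl⟩
  have q1 := q n D Gd h
  have e1 := e n h.fr.big
  have n2 : (2 : ℝ) ≤ n := by
    have a1 : t ^ 564000 ≤ t := pow_le_of_le_one t0.le t1 (by norm_num)
    have a2 : 1 ≤ n * t := h.fr.big.trans (mul_le_mul_of_nonneg_left a1 (Nat.cast_nonneg n))
    exact t2.trans ((inv_le_iff_one_le_mul₀ t0).2 a2)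
  set A := toMeasurable D.mu {O | O ∈ Gd ∧ ¬QOK t D O} with hA
  have mA : MeasurableSet A := measurableSet_toMeasurable _ _
  have q2 : D.mu.real A ≤ 6 * Real.exp (-(n * t ^ 431998)) := by
    rwa [hA, measureReal_def, measure_toMeasurable]
  have hq : ∀ O ∈ Gd ∩ Aᶜ, QOK t D O := fun O hO => by
    by_contra hc
    exact hO.2 (subset_toMeasurable _ _ ⟨hO.1, hc⟩)
  have hc : Core t D (Gd ∩ Aᶜ) := by
    refine core_mono h inter_subset_left (h.meas.inter mA.compl) ?_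
    rw [compl_inter, compl_compl]
    refine (measureReal_union_le _ _).trans ((add_le_add hd q2).trans ?_)
    rw [← hK] at e1 ⊢
    obtain ⟨N, hN⟩ : ∃ N, N = (n : ℝ) ^ 900 := ⟨_, rfl⟩
    have N0 : 0 < N := hN ▸ pow_pos (by linarith) _
    rw [pow_succ, ← hN]
    rw [← hN] at e1
    have a1 : (N * n)⁻¹ ≤ (N * 2)⁻¹ :=
      inv_anti₀ (by positivity) (mul_le_mul_of_nonneg_left n2 N0.le)
    have a2 : Real.exp (-K) ≤ (12 * N)⁻¹ := by
      rw [Real.exp_neg]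
      exact inv_anti₀ (by positivity) e1
    have a3 : (N * 2)⁻¹ + 6 * (12 * N)⁻¹ = N⁻¹ := by
      field_simp
      norm_num
    linarith
  have f1 := f n D _ hc hq
  have m1 := m n D _ hc hq
  have r1 : 1 ≤ √D.r := Real.one_le_sqrt.2 h.fr.r1
  refine le_trans (measureReal_mono (s₂ := A ∪ {O | O ∈ Gd ∩ Aᶜ ∧
    t⁻¹ ^ 431600 < |D.f O - D.E (Gd ∩ Aᶜ) D.f|}) fun O hO => ?_)
    ((measureReal_union_le _ _).trans ((add_le_add q2 f1).trans (le_of_eq (by ring))))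
  by_cases hO' : O ∈ A
  · exact Or.inl hO'
  refine Or.inr ⟨⟨hO.1, hO'⟩, ?_⟩
  by_contra hc
  have a1 := abs_sub_le (D.f O) (D.E (Gd ∩ Aᶜ) D.f) (D.al * D.tau)
  have a2 : t⁻¹ ^ 430500 ≤ t⁻¹ ^ 431600 := pow_le_pow_right₀ (by linarith) (by norm_num)
  have a3 := hO.2
  rw [pow_succ] at a3
  have a0 : 0 < t⁻¹ ^ 431600 := pow_pos (by linarith) _
  generalize t⁻¹ ^ 431600 = X at *
  generalize t⁻¹ ^ 430500 = Y at *
  have a4 : √D.r * Y ≤ √D.r * X := mul_le_mul_of_nonneg_left a2 (by linarith)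
  have a5 : √D.r * (X * 2) ≤ √D.r * (X * t⁻¹) :=
    mul_le_mul_of_nonneg_left (mul_le_mul_of_nonneg_left t2 a0.le) (by linarith)
  have a6 : X ≤ √D.r * X := le_mul_of_one_le_left a0.le r1
  have a7 := not_lt.1 hc
  linarith

end Vale.Agent.N150.T2Z
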