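import Vale.Agent.N150.Fib2
import Vale.Agent.N150.SphAnn

/-! T2, block L: explorations which are closed under a finite family of spectral levels. -/

open MeasureTheory Matrix

namespace Vale.Agent.N150.T2L

open Vale.Agent.P150 Vale.Agent.P150.F Vale.Agent.N150.Fib Vale.Agent.N150.Sp

variable {n : ℕ} {ι : Type*}

theorem jo_mul (u v : Vec n) (O : OG n) : JO u O * JO v O = JO (fun a => u a * v a) O := by
  unfold JO
  calc O.1ᵀ * diagonal u * O.1 * (O.1ᵀ * diagonal v * O.1)
      = O.1ᵀ * (diagonal u * (O.1 * O.1ᵀ) * diagonal v) * O.1 := by simp only [Matrix.mul_assoc]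
    _ = _ := by rw [OG.mul_transpose, Matrix.mul_one, diagonal_mul_diagonal]

theorem jo_tr (u : Vec n) (O : OG n) : (JO u O)ᵀ = JO u O := by
  unfold JO
  rw [transpose_mul, transpose_mul, transpose_transpose, diagonal_transpose, Matrix.mul_assoc]

theorem jo_smul (c : ℝ) (u : Vec n) (O : OG n) : JO (fun a => c * u a) O = c • JO u O := by
  have h : diagonal (fun a => c * u a) = c • diagonal u := by
    rw [← diagonal_smul]
    rfl
  unfold JO
  rw [h, Matrix.mul_smul, Matrix.smul_mul]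

theorem jo_mulVec (u : Vec n) (O : OG n) (v : Vec n) :
    JO u O *ᵥ v = O.1ᵀ *ᵥ (diagonal u *ᵥ (O.1 *ᵥ v)) := by
  unfold JO
  simp only [Matrix.mulVec_mulVec, Matrix.mul_assoc]

theorem jo_rot (u : Vec n) (O U : OG n) : JO u (O * U) = U.1ᵀ * JO u O * U.1 := by
  unfold JO
  rw [OG.coe_mul, transpose_mul]
  simp only [Matrix.mul_assoc]

theorem mm_jo {X : Type*} [MeasurableSpace X] {u : X → Vec n} {O : X → OG n} (hu : Measurable u)
    (hO : Measurable O) : MM fun x => JO (u x) (O x) :=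
  ((MM.val hO).transpose.mul (MM.diagonal hu)).mul (MM.val hO)

/-- `d` is constant on the levels of `lv` -/
def LvC (lv : Fin n → ι) (d : Vec n) : Prop := ∀ a b, lv a = lv b → d a = d b

theorem LvC.comp (lv : Fin n → ι) (f : ι → ℝ) : LvC lv fun a => f (lv a) :=
  fun _ _ h => congrArg f h

theorem LvC.map {lv : Fin n → ι} {d : Vec n} (h : LvC lv d) (f : ℝ → ℝ) :
    LvC lv fun a => f (d a) := fun a b e => congrArg f (h a b e)

theorem LvC.mul {lv : Fin n → ι} {d e : Vec n} (h : LvC lv d) (h' : LvC lv e) :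
    LvC lv fun a => d a * e a := fun a b x => by simp only [h a b x, h' a b x]

open Classical in
/-- the indicator of the level `j` -/
noncomputable def li (lv : Fin n → ι) (j : ι) : Vec n := fun a => if lv a = j then 1 else 0

theorem lvC_li (lv : Fin n → ι) (j : ι) : LvC lv (li lv j) := fun a b h => by
  unfold li
  rw [h]

theorem LvC.mul_li {lv : Fin n → ι} {d : Vec n} (h : LvC lv d) (j : ι) :
    ∃ c : ℝ, (fun a => li lv j a * d a) = fun a => c * li lv j a := by
  by_cases hj : ∃ b, lv b = j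
  · obtain ⟨b, hb⟩ := hj
    refine ⟨d b, funext fun a => ?_⟩
    by_cases ha : lv a = j
    · rw [h a b (ha.trans hb.symm), mul_comm]
    · simp [li, ha]
  · refine ⟨0, funext fun a => ?_⟩
    have ha : lv a ≠ j := fun e => hj ⟨a, e⟩
    simp [li, ha]

theorem sum_li {lv : Fin n → ι} {I : Finset ι} (hI : ∀ a, lv a ∈ I) (a : Fin n) :
    ∑ j ∈ I, li lv j a = 1 := by
  classical
  rw [Finset.sum_eq_single (lv a)]
  · simp [li]
  · intro j _ hj
    simp [li, Ne.symm hj]
  · intro h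
    exact absurd (hI a) h

theorem sum_jo_li {lv : Fin n → ι} {I : Finset ι} (hI : ∀ a, lv a ∈ I) (O : OG n) :
    ∑ j ∈ I, JO (li lv j) O = 1 := by
  have h : ∑ j ∈ I, diagonal (li lv j) = (1 : Mat n) := by
    ext a b
    rw [Matrix.sum_apply]
    by_cases hab : a = b
    · subst hab
      simp only [diagonal_apply_eq, one_apply_eq]
      exact sum_li hI a
    · simp [diagonal_apply_ne _ hab, one_apply_ne hab]
  unfold JO
  rw [← Finset.sum_mul, ← Finset.mul_sum, h, Matrix.mul_one, OG.transpose_mul]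

theorem isProj_li (lv : Fin n → ι) (j : ι) (O : OG n) : IsProj (JO (li lv j) O) := by
  refine ⟨jo_tr _ _, ?_⟩
  rw [jo_mul]
  congr 1
  funext a
  by_cases ha : lv a = j <;> simp [li, ha]

/-- the unexplored projection commutes with all functions of the levels -/
def Clo (lv : Fin n → ι) (P : OG n → Mat n) : Prop :=
  ∀ O d, LvC lv d → P O * JO d O = JO d O * P O

theorem clo_one (lv : Fin n → ι) : Clo lv fun _ => (1 : Mat n) := fun _ _ _ => by
  rw [Matrix.one_mul, Matrix.mul_one]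

/-- a closed exploration -/
structure CE (lv : Fin n → ι) (μ : Measure (OG n)) (P : OG n → Mat n) : Prop where
  ex : Explo μ P
  clo : Clo lv P

/-- an explored site vector: it is known together with its image in the frame -/
structure Kn (P : OG n → Mat n) (v : OG n → Vec n) : Prop where
  ms : Measurable v
  ad : Adapted P v
  kill : ∀ O, P O *ᵥ v O = 0

/-- `Q` is a closed exploration which refines `P` and costs at most `c` dimensions -/
structure Ext (lv : Fin n → ι) (μ : Measure (OG n)) (P Q : OG n → Mat n) (c : ℕ) : Prop where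
  ce : CE lv μ Q
  le : ∀ O, Q O * P O = Q O
  tr : ∀ O, (P O).trace - c ≤ (Q O).trace

variable {lv : Fin n → ι} {μ : Measure (OG n)} {P Q R : OG n → Mat n} {I : Finset ι}

namespace CE

theorem refl (h : CE lv μ P) : Ext lv μ P P 0 :=
  ⟨h, fun O => (h.ex.proj O).idem, fun O => by simp⟩

/-- commutation on the whole fibre -/
theorem comm (h : CE lv μ P) (O : OG n) {U : OG n} (hU : U ∈ HG (P O)) {d : Vec n}
    (hd : LvC lv d) : P O * JO d (O * U) = JO d (O * U) * P O := by
  have e := h.clo (O * U) d hd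
  rwa [h.ex.adapted O U hU] at e

theorem comm_compl (h : CE lv μ P) (O : OG n) {U : OG n} (hU : U ∈ HG (P O)) {d : Vec n}
    (hd : LvC lv d) : (1 - P O) * JO d (O * U) = JO d (O * U) * (1 - P O) := by
  rw [Matrix.sub_mul, Matrix.mul_sub, h.comm O hU hd, Matrix.one_mul, Matrix.mul_one]

/-- the explored block of a function of the levels is constant on the fibre -/
theorem block (h : CE lv μ P) (O : OG n) {U : OG n} (hU : U ∈ HG (P O)) {d : Vec n}
    (hd : LvC lv d) : JO d (O * U) * (1 - P O) = JO d O * (1 - P O) := by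
  have e : JO d O * (1 - P O) = (1 - P O) * JO d O := by
    rw [Matrix.sub_mul, Matrix.mul_sub, h.clo O d hd, Matrix.one_mul, Matrix.mul_one]
  have hi : U⁻¹ ∈ HG (P O) := inv_mem hU
  have e2 : U.1ᵀ * (1 - P O) = 1 - P O := by
    have := mem_HG.1 hi
    rwa [OG.coe_inv] at this
  rw [jo_rot, Matrix.mul_assoc, mem_HG.1 hU, Matrix.mul_assoc, e, ← Matrix.mul_assoc, e2]

theorem adapted_block (h : CE lv μ P) {d : Vec n} (hd : LvC lv d) :
    Adapted P fun O => JO d O * (1 - P O) := fun O U hU => by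
  simp only
  rw [h.ex.adapted O U hU, h.block O hU hd]

/-- the frame form of the commutation -/
theorem comm_Pt (h : CE lv μ P) (O : OG n) {d : Vec n} (hd : LvC lv d) :
    Pt P O * diagonal d = diagonal d * Pt P O := by
  have e := congrArg (fun A => O.1 * A * O.1ᵀ) (h.clo O d hd)
  simp only [JO, Matrix.mul_assoc, OG.mul_transpose, Matrix.mul_one] at e
  rw [← Matrix.mul_assoc O.1 O.1ᵀ, OG.mul_transpose, Matrix.one_mul] at e
  simpa only [Pt, Matrix.mul_assoc] using e

theorem isProj_level (h : CE lv μ P) (O : OG n) (j : ι) : IsProj (P O * JO (li lv j) O) := by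
  have e := h.clo O _ (lvC_li lv j)
  refine ⟨by rw [transpose_mul, jo_tr, (h.ex.proj O).symm, e], ?_⟩
  calc P O * JO (li lv j) O * (P O * JO (li lv j) O)
      = P O * (JO (li lv j) O * P O) * JO (li lv j) O := by simp only [Matrix.mul_assoc]
    _ = P O * P O * (JO (li lv j) O * JO (li lv j) O) := by rw [← e]; simp only [Matrix.mul_assoc]
    _ = _ := by rw [(h.ex.proj O).idem, (isProj_li lv j O).idem]

theorem isProj_level_compl (h : CE lv μ P) (O : OG n) (j : ι) :
    IsProj ((1 - P O) * JO (li lv j) O) := by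
  have e : (1 - P O) * JO (li lv j) O = JO (li lv j) O * (1 - P O) := by
    rw [Matrix.sub_mul, Matrix.mul_sub, h.clo O _ (lvC_li lv j), Matrix.one_mul, Matrix.mul_one]
  refine ⟨by rw [transpose_mul, jo_tr, (h.ex.proj O).compl.symm, e], ?_⟩
  calc (1 - P O) * JO (li lv j) O * ((1 - P O) * JO (li lv j) O)
      = (1 - P O) * (JO (li lv j) O * (1 - P O)) * JO (li lv j) O := by
        simp only [Matrix.mul_assoc]
    _ = (1 - P O) * (1 - P O) * (JO (li lv j) O * JO (li lv j) O) := by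
        rw [← e]; simp only [Matrix.mul_assoc]
    _ = _ := by rw [(h.ex.proj O).compl.idem, (isProj_li lv j O).idem]

end CE

namespace Ext

theorem trans {a b : ℕ} (h : Ext lv μ P Q a) (h' : Ext lv μ Q R b) : Ext lv μ P R (a + b) :=
  ⟨h'.ce, fun O => by rw [← h'.le O, Matrix.mul_assoc, h.le O], fun O => by
    have h1 := h.tr O
    have h2 := h'.tr O
    push_cast
    linarith⟩

theorem mono {a b : ℕ} (h : Ext lv μ P Q a) (hab : a ≤ b) : Ext lv μ P Q b :=
  ⟨h.ce, h.le, fun O => by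
    have h1 := h.tr O
    have h2 : (a : ℝ) ≤ b := by exact_mod_cast hab
    linarith⟩

theorem ad {α : Sort*} {a : ℕ} (h : Ext lv μ P Q a) {D : OG n → α} (hD : Adapted P D) :
    Adapted Q D := hD.mono h.le

theorem kn {a : ℕ} (h : Ext lv μ P Q a) {v : OG n → Vec n} (hv : Kn P v) : Kn Q v :=
  ⟨hv.ms, h.ad hv.ad, fun O => by rw [← h.le O, ← Matrix.mulVec_mulVec, hv.kill, mulVec_zero]⟩

end Ext

namespace Kn

variable {v w : OG n → Vec n}

theorem zero : Kn P fun _ => (0 : Vec n) := ⟨measurable_const, .const _, fun _ => mulVec_zero _⟩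

theorem add (h : Kn P v) (h' : Kn P w) : Kn P fun O => v O + w O :=
  ⟨h.ms.add h'.ms, h.ad.comp₂ h'.ad (· + ·), fun O => by
    rw [mulVec_add, h.kill, h'.kill, add_zero]⟩

theorem sub (h : Kn P v) (h' : Kn P w) : Kn P fun O => v O - w O :=
  ⟨h.ms.sub h'.ms, h.ad.comp₂ h'.ad (· - ·), fun O => by
    rw [mulVec_sub, h.kill, h'.kill, sub_zero]⟩

theorem smul (h : Kn P v) {c : OG n → ℝ} (hc : Measurable c) (ha : Adapted P c) :
    Kn P fun O => c O • v O :=
  ⟨hc.smul h.ms, ha.comp₂ h.ad (· • ·), fun O => by rw [mulVec_smul, h.kill, smul_zero]⟩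

theorem congr (h : Kn P v) (e : ∀ O, w O = v O) : Kn P w := by
  rw [funext e]
  exact h

/-- the image in the frame is known -/
theorem img (h : Kn P v) : Adapted P fun O => O.1 *ᵥ v O := h.ad.site h.kill

theorem ms_img (h : Kn P v) : Measurable fun O : OG n => O.1 *ᵥ v O := mm_val.mulVec h.ms

theorem of_frame (hw : Measurable w) (ha : Adapted P w) (h0 : ∀ O, P O *ᵥ (O.1ᵀ *ᵥ w O) = 0) :
    Kn P fun O => O.1ᵀ *ᵥ w O := ⟨mm_val.transpose.mulVec hw, ha.frame h0, h0⟩

theorem compl (h : Kn P v) (O : OG n) : (1 - P O) *ᵥ v O = v O := by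
  rw [sub_mulVec, one_mulVec, h.kill, sub_zero]

/-- the value on the fibre -/
theorem fib (h : Kn P v) (O : OG n) {U : OG n} (hU : U ∈ HG (P O)) :
    v (O * U) = v O ∧ U.1 *ᵥ v O = v O ∧ U.1ᵀ *ᵥ v O = v O :=
  ⟨h.ad O U hU, HG_mulVec hU (h.kill O), HG_tr_mulVec hU (h.kill O)⟩

/-- functions of the levels keep explored vectors explored -/
theorem level (h : Kn P v) (hP : Clo lv P) {d : Vec n} (hd : LvC lv d) :
    Kn P fun O => JO d O *ᵥ v O := by
  have h0 : ∀ O, P O *ᵥ (JO d O *ᵥ v O) = 0 := fun O => by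
    rw [Matrix.mulVec_mulVec, hP O d hd, ← Matrix.mulVec_mulVec, h.kill, mulVec_zero]
  refine ⟨(mm_jo measurable_const measurable_id).mulVec h.ms, fun O U hU => ?_, h0⟩
  show JO d (O * U) *ᵥ v (O * U) = JO d O *ᵥ v O
  rw [h.ad O U hU, jo_rot, ← Matrix.mulVec_mulVec, ← Matrix.mulVec_mulVec,
    HG_mulVec hU (h.kill O), HG_tr_mulVec hU (h0 O)]

end Kn

/-- The closing step. `R` is closed, `P ≤ R` contains every subprojection of `R` which kills
`Oᵀ w`; querying the level components of `w` gives a closed exploration. -/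
theorem close (hI : ∀ a, lv a ∈ I) (hP : Explo μ P) (hR : Clo lv R) (hPR : ∀ O, R O * P O = P O)
    {w : OG n → Vec n} (hw : Measurable w) (ha : Adapted P w)
    (hmax : ∀ O T, IsProj T → R O * T = T → T *ᵥ (O.1ᵀ *ᵥ w O) = 0 → P O * T = T) :
    ∃ Q, Ext lv μ P Q I.card ∧ Kn Q fun O => O.1ᵀ *ᵥ w O := by
  obtain ⟨Q, hQ, h1, h2, -, h4, h5⟩ := hP.many (∅ : Finset Unit) I (v := fun _ _ => 0)
    (w := fun j O => diagonal (li lv j) *ᵥ w O) (fun _ => measurable_const)
    (fun _ => .const _) (fun j => (MM.const _).mulVec hw)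
    (fun j => ha.comp fun x => diagonal (li lv j) *ᵥ x)
  have e : ∀ j (O : OG n), O.1ᵀ *ᵥ (diagonal (li lv j) *ᵥ w O) =
      JO (li lv j) O *ᵥ (O.1ᵀ *ᵥ w O) := fun j O => by rw [jo_mulVec, OG.mulVec_tr_mulVec]
  have hs : ∀ (O : OG n) (T : Mat n), (∀ j ∈ I, T *ᵥ (JO (li lv j) O *ᵥ (O.1ᵀ *ᵥ w O)) = 0) →
      T *ᵥ (O.1ᵀ *ᵥ w O) = 0 := fun O T hT => by
    rw [← one_mulVec (O.1ᵀ *ᵥ w O), ← sum_jo_li hI O, sum_mulVec, mulVec_sum]
    exact Finset.sum_eq_zero hT
  simp only [e] at h4 h5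
  have h0 : ∀ O, Q O *ᵥ (O.1ᵀ *ᵥ w O) = 0 := fun O => hs O _ fun j hj => h4 j hj O
  refine ⟨Q, ⟨⟨hQ, fun O d hd => ?_⟩, h1, fun O => by simpa using h2 O⟩,
    .of_frame hw (ha.mono h1) h0⟩
  have hQP : P O * Q O = Q O := by
    have := congrArg transpose (h1 O)
    rwa [transpose_mul, (hP.proj O).symm, (hQ.proj O).symm] at this
  have hQR : R O * Q O = Q O := by rw [← hQP, ← Matrix.mul_assoc, hPR]
  have key : ∀ a, Q O *ᵥ (JO d O *ᵥ (Q O *ᵥ a)) = JO d O *ᵥ (Q O *ᵥ a) := fun a => by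
    set b := JO d O *ᵥ (Q O *ᵥ a) with hb
    have hRb : R O *ᵥ b = b := by
      rw [hb, Matrix.mulVec_mulVec, hR O d hd, ← Matrix.mulVec_mulVec, Matrix.mulVec_mulVec a,
        hQR]
    have hk : ∀ j ∈ I, pj b *ᵥ (JO (li lv j) O *ᵥ (O.1ᵀ *ᵥ w O)) = 0 := fun j hj => by
      obtain ⟨c, hc⟩ := hd.mul_li j
      have e1 : b ⬝ᵥ (JO (li lv j) O *ᵥ (O.1ᵀ *ᵥ w O)) = 0 := by
        rw [← (isProj_li lv j O).dot, hb, Matrix.mulVec_mulVec, jo_mul, hc, jo_smul,
          smul_mulVec, smul_dotProduct, (isProj_li lv j O).dot, (hQ.proj O).dot, h4 j hj O,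
          dotProduct_zero, smul_zero]
      rw [pj_mulVec, e1, zero_div, zero_smul]
    have hT := h5 O (pj b) (isProj_pj b) (hmax O _ (isProj_pj b) (mul_pj hRb) (hs O _ hk))
      (by simp) hk
    rw [← pj_mulVec_self b, Matrix.mulVec_mulVec, hT]
  have k2 : Q O * JO d O * Q O = JO d O * Q O := by
    refine Matrix.ext_of_mulVec_single fun i => ?_
    have := key (Pi.single i 1)
    simpa only [Matrix.mulVec_mulVec, Matrix.mul_assoc] using this
  have k3 := congrArg transpose k2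
  rw [transpose_mul, transpose_mul, transpose_mul, jo_tr, (hQ.proj O).symm,
    ← Matrix.mul_assoc, k2] at k3
  exact k3.symm

/-- closed frame query -/
theorem CE.frame (hI : ∀ a, lv a ∈ I) (h : CE lv μ P) {w : OG n → Vec n} (hw : Measurable w)
    (ha : Adapted P w) : ∃ Q, Ext lv μ P Q I.card ∧ Kn Q fun O => O.1ᵀ *ᵥ w O :=
  close hI h.ex h.clo (fun O => (h.ex.proj O).idem) hw ha fun _ _ _ hT _ => hT

/-- closing after one site query below a closed family `R` -/
theorem close_site (hI : ∀ a, lv a ∈ I) (hR : Clo lv R) (hp : ∀ O, IsProj (R O))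
    {v : OG n → Vec n} (hP : Explo μ fun O => rm (R O) (v O)) (hv : Measurable v)
    (ha : Adapted (fun O => rm (R O) (v O)) v) :
    ∃ Q, Ext lv μ (fun O => rm (R O) (v O)) Q I.card ∧ Kn Q v := by
  obtain ⟨Q, h1, h2⟩ := close hI hP hR (fun O => (hp O).mul_rm _) (mm_val.mulVec hv)
    (ha.site fun O => (hp O).rm_mulVec_self _) fun O T hT hRT h0 =>
      (hp O).rm_mul_of hT hRT (by rwa [OG.tr_mulVec_mulVec] at h0)
  exact ⟨Q, h1, h2.congr fun O => (OG.tr_mulVec_mulVec O _).symm⟩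

/-- closed site query -/
theorem CE.site (hI : ∀ a, lv a ∈ I) (h : CE lv μ P) {v : OG n → Vec n} (hv : Measurable v)
    (ha : Adapted P v) : ∃ Q, Ext lv μ P Q (I.card + 1) ∧ Kn Q v := by
  obtain ⟨Q, h1, h2⟩ := close_site hI h.clo h.ex.proj (h.ex.site hv ha) hv (h.ex.adapted_rm ha v)
  refine ⟨Q, ⟨h1.ce, fun O => ?_, fun O => ?_⟩, h2⟩
  · rw [← h1.le O, Matrix.mul_assoc, (h.ex.proj O).rm_mul]
  · have h3 := h1.tr O
    have h4 := trace_rm_ge (P O) (v O)
    push_cast
    linarith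

/-- the start: only `x` is explored -/
theorem start (hI : ∀ a, lv a ∈ I) {x : Vec n} (h : Explo μ fun _ => rm 1 x) :
    ∃ Q, Ext lv μ (fun _ => rm 1 x) Q I.card ∧ Kn Q fun _ => x :=
  close_site (R := fun _ => 1) hI (clo_one lv) (fun _ => isProj_one) h measurable_const (.const x)

/-- applying a known frame matrix to an explored vector -/
theorem CE.apply (hI : ∀ a, lv a ∈ I) (h : CE lv μ P) {v : OG n → Vec n} (hv : Kn P v)
    {D : OG n → Mat n} (hD : MM D) (ha : Adapted P D) :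
    ∃ Q, Ext lv μ P Q I.card ∧ Kn Q fun O => (O.1ᵀ * D O * O.1) *ᵥ v O := by
  obtain ⟨Q, h1, h2⟩ := h.frame hI (hD.mulVec hv.ms_img) (ha.comp₂ hv.img (· *ᵥ ·))
  exact ⟨Q, h1, h2.congr fun O => by simp only [Matrix.mulVec_mulVec, Matrix.mul_assoc]⟩

/-- iteration of a closed step: if `St k` can be extended to `St (k + 1)` at cost `c` -/
theorem iter {St : ℕ → (OG n → Mat n) → Prop} {c : ℕ} (h : CE lv μ P) (h0 : St 0 P)
    (hs : ∀ k Q, CE lv μ Q → St k Q → ∃ Q', Ext lv μ Q Q' c ∧ St (k + 1) Q') (r : ℕ) :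
    ∃ Q, Ext lv μ P Q (r * c) ∧ St r Q := by
  induction r with
  | zero => exact ⟨P, by simpa using h.refl, h0⟩
  | succ r ih =>
    obtain ⟨Q, h1, h2⟩ := ih
    obtain ⟨Q', h3, h4⟩ := hs r Q h1.ce h2
    exact ⟨Q', by simpa only [Nat.succ_mul] using h1.trans h3, h4⟩

end Vale.Agent.N150.T2L
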