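import Vale.Agent.N150.Fib2
import Vale.Agent.N150.Tail3
import Vale.Agent.N150.Net

/-! Compressions on one fibre: definitions and statements. The fibre is `O₀ * U`, `U` uniform on
the stabiliser `HG P`; site vectors are mapped to the frame by `O = O₀ * U`. -/

open MeasureTheory Matrix Module

namespace Vale.Agent.N150.X4

open Vale.Agent.P150 Vale.Agent.P150.F Vale.Agent.N150.Fib

variable {n : ℕ}

/-- a site matrix seen in the frame -/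
def cj (O : OG n) (A : Mat n) : Mat n := O.1 * A * O.1ᵀ

/-- the small parameter of level `x` -/
noncomputable def ep (n : ℕ) (x : ℝ) : ℝ := √(x / n)

/-- the explored site space `1 - P = E + F` has dimension at most `p ≤ x ≤ n` -/
structure Lev (P E F : Mat n) (p x : ℝ) : Prop where
  hP : IsProj P
  hE : IsProj E
  hF : IsProj F
  sum : E + F = 1 - P
  tr : (n : ℝ) - P.trace ≤ p
  x1 : 1 ≤ x
  px : p ≤ x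
  pn : 2 * (p + 2) ≤ n
  xn : x ≤ n

/-- a site matrix of size `v`: trace free symmetric part plus rank one -/
def VH (V : Mat n) (v : ℝ) : Prop :=
  0 < v ∧ ∃ (S : Mat n) (r r' : Vec n), V = S + vecMulVec r r' ∧ Sᵀ = S ∧ S.trace = 0 ∧
    (∀ w, |qf S w| ≤ v * F.sq w) ∧ nv r * nv r' ≤ v

/-- the constants attached to the frame matrices -/
structure Cst where
  Γ : ℝ
  y : ℝ
  gF : ℝ
  kF : ℝ
  κF : ℝ
  D : ℝ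
  kK : ℝ
  τ : ℝ

/-- frame matrices `Gh` (`= N^(-1/2) Ph`) and `K` (`= Gh Y Gh`); `OF = O₀ * F` -/
structure KH (OF Gh K : Mat n) (c : Cst) : Prop where
  sym : Kᵀ = K
  Γpos : 0 < c.Γ
  y0 : 0 ≤ c.y
  gF0 : 0 ≤ c.gF
  kF0 : 0 ≤ c.kF
  κF0 : 0 ≤ c.κF
  D0 : 0 ≤ c.D
  kKpos : 0 < c.kK
  τ0 : 0 ≤ c.τ
  opG : OpLe Gh c.Γ
  fac : ∀ a b, |ip a (K *ᵥ b)| ≤ c.y * (nv (Gh *ᵥ a) * nv (Gh *ᵥ b))
  gF : ∀ w, nv (Gh *ᵥ OF *ᵥ w) ≤ c.gF * nv w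
  kF : ∀ w, nv (K *ᵥ OF *ᵥ w) ≤ c.kF * nv w
  κF : ∀ a b, |ip (OF *ᵥ a) (K *ᵥ OF *ᵥ b)| ≤ c.κF * (nv a * nv b)
  hsG : hsq Gh ≤ n * c.D ^ 2
  hsK : hsq K ≤ n * c.kK ^ 2
  trK : |K.trace| ≤ n * c.τ

/-- norm bound -/
noncomputable def Cst.B (c : Cst) (e δ : ℝ) : ℝ := c.Γ * δ + c.gF + 3 * c.D + 9 * c.Γ * e

/-- bilinear bound -/
noncomputable def Cst.η (c : Cst) (e δ : ℝ) : ℝ :=
  2 * c.y * c.Γ * δ * c.B e δ + c.κF + 10 * e * c.kF + 2 * c.τ + 170 * c.kK * e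
    + 300 * c.y * c.Γ ^ 2 * e ^ 2

/-- (C1) compression of `V` between two frame subspaces -/
def C1 (O₀ : OG n) (P V : Mat n) (v x : ℝ) (W W' : Submodule ℝ (Vec n)) (O : OG n) : Prop :=
  ∀ a ∈ W, ∀ b ∈ W', |ip a ((cj O V - cj O₀ ((1 - P) * V * (1 - P))) *ᵥ b)| ≤
    2400 * v * ep n x * (nv a * nv b)

/-- (C2) for a frame subspace `W` -/
def C2 (V Gh K : Mat n) (v B η : ℝ) (W : Submodule ℝ (Vec n)) (O : OG n) : Prop :=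
  (∀ u ∈ W, nv ((Gh * cj O V) *ᵥ u) ≤ 4 * v * B * nv u) ∧
  (∀ u ∈ W, nv ((Gh * cj O Vᵀ) *ᵥ u) ≤ 4 * v * B * nv u) ∧
  ∀ u ∈ W, ∀ u' ∈ W, |ip u ((cj O V * K * cj O V) *ᵥ u')| ≤ 16 * v ^ 2 * η * (nv u * nv u')

/-- (C3) for a frame subspace `W` and a site subspace `A` -/
def C3 (V Gh K : Mat n) (v B η : ℝ) (W A : Submodule ℝ (Vec n)) (O : OG n) : Prop :=
  (∀ c ∈ A, nv ((Gh * O.1) *ᵥ c) ≤ 2 * B * nv c) ∧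
  (∀ c ∈ A, ∀ c' ∈ A, |ip c ((O.1ᵀ * K * O.1) *ᵥ c')| ≤ 4 * η * (nv c * nv c')) ∧
  (∀ u ∈ W, ∀ c ∈ A, |ip u ((cj O V * K * O.1) *ᵥ c)| ≤ 8 * v * η * (nv u * nv c)) ∧
  ∀ c ∈ A, ∀ u ∈ W, |ip c ((O.1ᵀ * K * cj O V) *ᵥ u)| ≤ 8 * v * η * (nv c * nv u)

def C1Stmt : Prop := ∀ (n : ℕ) (O₀ : OG n) (P E F V : Mat n) (p x v : ℝ)
  (W W' : Submodule ℝ (Vec n)), Lev P E F p x → VH V v →
  (haarH P).real {U | ¬ C1 O₀ P V v x W W' (O₀ * U)} ≤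
    20 * Real.exp (2 * (finrank ℝ W + finrank ℝ W') - x)

def C2Stmt : Prop := ∀ (n : ℕ) (O₀ : OG n) (P E F V Gh K : Mat n) (p x v β φ δ : ℝ) (c : Cst)
  (W : Submodule ℝ (Vec n)), Lev P E F p x → VH V v → KH (O₀.1 * F) Gh K c → 0 ≤ β → 0 ≤ φ →
  OpLe (E * V * E) (β * v) → (∀ u ∈ W, nv ((O₀.1 * F)ᵀ *ᵥ u) ≤ φ * nv u) →
  β + φ + 700 * ep n x ≤ δ →
  (haarH P).real {U | ¬ C2 V Gh K v (c.B (ep n x) δ) (c.η (ep n x) δ) W (O₀ * U)} ≤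
    300 * Real.exp (4 * finrank ℝ W - x)

def C3Stmt : Prop := ∀ (n : ℕ) (O₀ : OG n) (P E F V Gh K : Mat n) (p x v β φ δ₀ δ : ℝ) (c : Cst)
  (W A : Submodule ℝ (Vec n)), Lev P E F p x → VH V v → KH (O₀.1 * F) Gh K c → 0 ≤ β → 0 ≤ φ →
  0 ≤ δ₀ → OpLe (E * V * E) (β * v) → (∀ u ∈ W, nv ((O₀.1 * F)ᵀ *ᵥ u) ≤ φ * nv u) →
  (∀ a ∈ A, nv (E *ᵥ a) ≤ δ₀ * nv a) → β + φ + 700 * ep n x ≤ δ → δ₀ + 700 * ep n x ≤ δ →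
  (haarH P).real {U | ¬ C3 V Gh K v (c.B (ep n x) δ) (c.η (ep n x) δ) W A (O₀ * U)} ≤
    400 * Real.exp (2 * finrank ℝ W + 4 * finrank ℝ A - x)

/-- (C3) for all coordinate subspaces of dimension at most `k` at once -/
def C3AllStmt : Prop := ∀ (n : ℕ) (O₀ : OG n) (P E F V Gh K : Mat n) (p x v β φ δ₀ δ : ℝ)
  (c : Cst) (W : Submodule ℝ (Vec n)) (k : ℕ), Lev P E F p x → VH V v → KH (O₀.1 * F) Gh K c →
  0 ≤ β → 0 ≤ φ → 0 ≤ δ₀ → OpLe (E * V * E) (β * v) →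
  (∀ u ∈ W, nv ((O₀.1 * F)ᵀ *ᵥ u) ≤ φ * nv u) → 1 ≤ k → k ≤ n →
  (∀ A : Finset (Fin n), A.card ≤ k → ∀ a ∈ Rip.supp A, nv (E *ᵥ a) ≤ δ₀ * nv a) →
  β + φ + 700 * ep n x ≤ δ → δ₀ + 700 * ep n x ≤ δ →
  (haarH P).real {U | ¬ ∀ A : Finset (Fin n), A.card ≤ k →
      C3 V Gh K v (c.B (ep n x) δ) (c.η (ep n x) δ) W (Rip.supp A) (O₀ * U)} ≤
    400 * Real.exp (2 * finrank ℝ W + k * (5 + Real.log (n / k)) - x)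

end Vale.Agent.N150.X4
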