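import Mathlib
import Vale.Agent.N150.Rip
import Vale.Agent.N150.X4Def

/-! Deterministic part of the net step of T1: bilinear bounds give the block structure;
measurability of operator bounds. -/

open MeasureTheory Matrix

namespace Vale.Agent.N150.X4

open Vale.Agent.P150 Vale.Agent.P150.F Vale.Agent.N150.Rip Vale.Agent.N150.Fib

variable {n : ℕ}

/-! ### operator bounds from forms -/

theorem ip_self (v : Vec n) : ip v v = F.sq v := by
  simp only [ip, F.sq, pow_two]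

theorem opLe_of_bil {A : Mat n} {a : ℝ} (ha : 0 ≤ a)
    (h : ∀ u v, |ip u (A *ᵥ v)| ≤ a * (nv u * nv v)) : OpLe A a := by
  refine opLe_of_nv fun v => ?_
  have h1 := (le_abs_self _).trans (h (A *ᵥ v) v)
  rw [ip_self, ← nv_sq] at h1
  have h0 := nv_nonneg (A *ᵥ v)
  have hv := nv_nonneg v
  rcases h0.eq_or_lt with h2 | h2
  · rw [← h2]
    positivity
  · have h3 : nv (A *ᵥ v) * nv (A *ᵥ v) ≤ a * nv v * nv (A *ᵥ v) := by nlinarith
    exact le_of_mul_le_mul_right h3 h2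

theorem ip_tr (A : Mat n) (u v : Vec n) : ip u (A *ᵥ v) = ip (Aᵀ *ᵥ u) v := by
  rw [ip_mulVec_tr]
  simp only [ip, mul_comm]

theorem opLe_tr {A : Mat n} {a : ℝ} (ha : 0 ≤ a) (h : OpLe A a) : OpLe Aᵀ a := by
  refine opLe_of_bil ha fun u v => ?_
  rw [ip_tr, transpose_transpose]
  refine (abs_ip_le _ _).trans ?_
  have := mul_le_mul_of_nonneg_right (h.nv_le ha u) (nv_nonneg v)
  linarith

theorem res_mem (A : Finset (Fin n)) (v : Vec n) : res A *ᵥ v ∈ supp A := fun i hi => by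
  rw [res_mulVec, if_neg hi]

theorem nv_res (A : Finset (Fin n)) (v : Vec n) : nv (res A *ᵥ v) ≤ nv v :=
  nv_mono fun i => by
    rw [res_mulVec]
    split_ifs
    · exact le_rfl
    · simp

theorem res_tr (A : Finset (Fin n)) : (res A)ᵀ = res A := diagonal_transpose _

/-- `sq ((1 - P) H a) = a ⬝ H (1 - P) H a` -/
theorem sq_compl {P H : Mat n} (hP : IsProj P) (hH : Hᵀ = H) (a : Vec n) :
    F.sq (((1 - P) * H) *ᵥ a) = qf (H * (1 - P) * H) a := by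
  have hc := hP.compl
  rw [← ip_self, ip_tr, mulVec_mulVec, transpose_mul, hH, hc.symm]
  unfold qf
  rw [show H * (1 - P) * ((1 - P) * H) = H * ((1 - P) * (1 - P)) * H by
    simp only [Matrix.mul_assoc], hc.idem]
  simp only [ip, mul_comm]

/-- bilinear bounds produced by the nets (site coordinates) -/
structure Out (V Z G : Mat n) (W₁ W₂ : Set (Vec n)) (kap a₁ a₂ b b' c c' c'' : ℝ) : Prop where
  c1 : ∀ u ∈ W₁, ∀ u' ∈ W₁, |ip u (V *ᵥ u')| ≤ a₁ * (nv u * nv u')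
  c2 : ∀ u ∈ W₂, ∀ u' ∈ W₂, |ip u (V *ᵥ u')| ≤ a₂ * (nv u * nv u')
  g1 : ∀ u ∈ W₂, qf G (Vᵀ *ᵥ u) ≤ b ^ 2 * F.sq u
  g2 : ∀ u ∈ W₂, qf G (V *ᵥ u) ≤ b ^ 2 * F.sq u
  z1 : ∀ u ∈ W₂, ∀ u' ∈ W₂, |ip (Vᵀ *ᵥ u) (Z *ᵥ (V *ᵥ u'))| ≤ c * (nv u * nv u')
  g3 : ∀ A : Finset (Fin n), (A.card : ℝ) ≤ kap → ∀ v ∈ supp A, qf G v ≤ b' ^ 2 * F.sq v
  z2 : ∀ A : Finset (Fin n), (A.card : ℝ) ≤ kap → ∀ v ∈ supp A, ∀ v' ∈ supp A,
    |ip v (Z *ᵥ v')| ≤ c' * (nv v * nv v')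
  z3 : ∀ A : Finset (Fin n), (A.card : ℝ) ≤ kap → ∀ u ∈ W₂, ∀ v ∈ supp A,
    |ip (Vᵀ *ᵥ u) (Z *ᵥ v)| ≤ c'' * (nv u * nv v)
  z4 : ∀ A : Finset (Fin n), (A.card : ℝ) ≤ kap → ∀ u ∈ W₂, ∀ v ∈ supp A,
    |ip v (Z *ᵥ (V *ᵥ u))| ≤ c'' * (nv u * nv v)

/-- the weight matrix `H` on the low space -/
structure Low (P H : Mat n) (W₁ W₂ : Set (Vec n)) (h₁ h₂ : ℝ) : Prop where
  proj : IsProj P
  symm : Hᵀ = H
  h1 : 0 ≤ h₁
  h2 : 0 ≤ h₂
  sub : W₁ ⊆ W₂
  mem : ∀ v, (H * P) *ᵥ v ∈ W₂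
  le : ∀ v, nv ((H * P) *ᵥ v) ≤ h₁ * nv v
  split : ∀ v, ∃ u₁ ∈ W₁, ∃ u₂ ∈ W₂, (H * P) *ᵥ v = u₁ + u₂ ∧ nv u₁ ≤ h₁ * nv v ∧
    nv u₂ ≤ h₂ * nv v

section Conv

variable {P H V Y : Mat n} {W₁ W₂ : Set (Vec n)} {h₁ h₂ kap a₁ a₂ b b' c c' c'' : ℝ}

theorem Low.tr (l : Low P H W₁ W₂ h₁ h₂) : (P * H)ᵀ = H * P := by
  rw [transpose_mul, l.symm, l.proj.symm]

theorem mul_le_mul4 {a x y x' y' : ℝ} (ha : 0 ≤ a) (hx : x ≤ x') (hy : y ≤ y') (hy0 : 0 ≤ y)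
    (hx0 : 0 ≤ x') : a * (x * y) ≤ a * (x' * y') :=
  mul_le_mul_of_nonneg_left (mul_le_mul hx hy hy0 hx0) ha

theorem E1 (l : Low P H W₁ W₂ h₁ h₂) (ha₁ : 0 ≤ a₁) (ha₂ : 0 ≤ a₂)
    (c1 : ∀ u ∈ W₁, ∀ u' ∈ W₁, |ip u (V *ᵥ u')| ≤ a₁ * (nv u * nv u'))
    (c2 : ∀ u ∈ W₂, ∀ u' ∈ W₂, |ip u (V *ᵥ u')| ≤ a₂ * (nv u * nv u')) :
    OpLe (P * (H * V * H) * P) (a₁ * h₁ ^ 2 + a₂ * (2 * h₁ * h₂ + h₂ ^ 2)) := by
  have := l.h1
  have := l.h2
  refine opLe_of_bil (by positivity) fun v v' => ?_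
  rw [show P * (H * V * H) * P = P * H * (V * (H * P)) by simp only [Matrix.mul_assoc],
    ← mulVec_mulVec, ip_tr, l.tr, ← mulVec_mulVec v' V]
  obtain ⟨u₁, m₁, u₂, m₂, e, n₁, n₂⟩ := l.split v
  obtain ⟨w₁, p₁, w₂, p₂, e', q₁, q₂⟩ := l.split v'
  rw [e, e', mulVec_add, ip_add_left, ip_add_right, ip_add_right]
  have hv := nv_nonneg v
  have hv' := nv_nonneg v'
  have k1 := (c1 u₁ m₁ w₁ p₁).trans (mul_le_mul4 ha₁ n₁ q₁ (nv_nonneg _) (by positivity))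
  have k2 := (c2 u₁ (l.sub m₁) w₂ p₂).trans (mul_le_mul4 ha₂ n₁ q₂ (nv_nonneg _) (by positivity))
  have k3 := (c2 u₂ m₂ w₁ (l.sub p₁)).trans (mul_le_mul4 ha₂ n₂ q₁ (nv_nonneg _) (by positivity))
  have k4 := (c2 u₂ m₂ w₂ p₂).trans (mul_le_mul4 ha₂ n₂ q₂ (nv_nonneg _) (by positivity))
  have t1 := abs_add_le (ip u₁ (V *ᵥ w₁) + ip u₁ (V *ᵥ w₂)) (ip u₂ (V *ᵥ w₁) + ip u₂ (V *ᵥ w₂))
  have t2 := abs_add_le (ip u₁ (V *ᵥ w₁)) (ip u₁ (V *ᵥ w₂))
  have t3 := abs_add_le (ip u₂ (V *ᵥ w₁)) (ip u₂ (V *ᵥ w₂))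
  nlinarith

theorem sq_HP (l : Low P H W₁ W₂ h₁ h₂) (v : Vec n) :
    F.sq ((H * P) *ᵥ v) ≤ h₁ ^ 2 * F.sq v := by
  have := sq_le_of_nv_le (l.le v)
  rwa [mul_pow, nv_sq] at this

theorem E3' (l : Low P H W₁ W₂ h₁ h₂) (g2 : ∀ u ∈ W₂, qf (H * (1 - P) * H) (V *ᵥ u) ≤ b ^ 2 * F.sq u) :
    OpLe ((1 - P) * (H * V * H) * P) (b * h₁) := fun v => by
  rw [show (1 - P) * (H * V * H) * P = (1 - P) * H * (V * (H * P)) by simp only [Matrix.mul_assoc],
    ← mulVec_mulVec, sq_compl l.proj l.symm, ← mulVec_mulVec]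
  refine (g2 _ (l.mem v)).trans ?_
  have := mul_le_mul_of_nonneg_left (sq_HP l v) (sq_nonneg b)
  rw [mul_pow]
  linarith

theorem E3 (l : Low P H W₁ W₂ h₁ h₂) (hb : 0 ≤ b)
    (g1 : ∀ u ∈ W₂, qf (H * (1 - P) * H) (Vᵀ *ᵥ u) ≤ b ^ 2 * F.sq u) :
    OpLe (P * (H * V * H) * (1 - P)) (b * h₁) := by
  have h := opLe_tr (mul_nonneg hb l.h1) (E3' l g1)
  have e : ((1 - P) * (H * Vᵀ * H) * P)ᵀ = P * (H * V * H) * (1 - P) := by
    simp only [transpose_mul, transpose_transpose, l.symm, l.proj.symm, l.proj.compl.symm,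
      Matrix.mul_assoc]
  rwa [e] at h

theorem E4 (l : Low P H W₁ W₂ h₁ h₂) (hc : 0 ≤ c)
    (z1 : ∀ u ∈ W₂, ∀ u' ∈ W₂, |ip (Vᵀ *ᵥ u) ((H * ((1 - P) * Y) * H) *ᵥ (V *ᵥ u'))| ≤
      c * (nv u * nv u')) :
    OpLe (P * (H * V * H) * ((1 - P) * Y) * (H * V * H) * P) (c * h₁ ^ 2) := by
  have := l.h1
  refine opLe_of_bil (by positivity) fun v v' => ?_
  rw [show P * (H * V * H) * ((1 - P) * Y) * (H * V * H) * P =
      P * H * (V * (H * ((1 - P) * Y) * H * (V * (H * P)))) by simp only [Matrix.mul_assoc],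
    ← mulVec_mulVec, ip_tr, l.tr, ← mulVec_mulVec v' V, ip_tr,
    ← mulVec_mulVec v' (H * ((1 - P) * Y) * H), ← mulVec_mulVec v' V]
  have hv := nv_nonneg v
  refine ((z1 _ (l.mem v) _ (l.mem v')).trans
    (mul_le_mul4 hc (l.le v) (l.le v') (nv_nonneg _) (by positivity))).trans (le_of_eq ?_)
  ring

theorem E5h (l : Low P H W₁ W₂ h₁ h₂) {A : Finset (Fin n)}
    (g3 : ∀ v ∈ supp A, qf (H * (1 - P) * H) v ≤ b' ^ 2 * F.sq v) :
    OpLe ((1 - P) * (H * res A)) b' := fun v => by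
  rw [← Matrix.mul_assoc, ← mulVec_mulVec, sq_compl l.proj l.symm]
  refine (g3 _ (res_mem A v)).trans (mul_le_mul_of_nonneg_left ?_ (sq_nonneg _))
  have := sq_le_of_nv_le (nv_res A v)
  rwa [nv_sq] at this

theorem E5h' (l : Low P H W₁ W₂ h₁ h₂) (hb : 0 ≤ b') {A : Finset (Fin n)}
    (g3 : ∀ v ∈ supp A, qf (H * (1 - P) * H) v ≤ b' ^ 2 * F.sq v) :
    OpLe (res A * H * (1 - P)) b' := by
  have h := opLe_tr hb (E5h l g3)
  have e : ((1 - P) * (H * res A))ᵀ = res A * H * (1 - P) := by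
    simp only [transpose_mul, l.symm, l.proj.compl.symm, res_tr]
  rwa [e] at h

theorem E6 (hc : 0 ≤ c') {A : Finset (Fin n)}
    (z2 : ∀ v ∈ supp A, ∀ v' ∈ supp A, |ip v ((H * ((1 - P) * Y) * H) *ᵥ v')| ≤
      c' * (nv v * nv v')) :
    OpLe (res A * H * ((1 - P) * Y) * (H * res A)) c' := by
  refine opLe_of_bil hc fun v v' => ?_
  rw [show res A * H * ((1 - P) * Y) * (H * res A) =
      res A * (H * ((1 - P) * Y) * H * res A) by simp only [Matrix.mul_assoc],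
    ← mulVec_mulVec, ip_tr, res_tr, ← mulVec_mulVec]
  exact (z2 _ (res_mem A v) _ (res_mem A v')).trans
    (mul_le_mul4 hc (nv_res A v) (nv_res A v') (nv_nonneg _) (nv_nonneg _))

theorem E7 (l : Low P H W₁ W₂ h₁ h₂) (hc : 0 ≤ c'') {A : Finset (Fin n)}
    (z3 : ∀ u ∈ W₂, ∀ v ∈ supp A, |ip (Vᵀ *ᵥ u) ((H * ((1 - P) * Y) * H) *ᵥ v)| ≤
      c'' * (nv u * nv v)) :
    OpLe (P * (H * V * H) * ((1 - P) * Y) * (H * res A)) (c'' * h₁) := by
  have := l.h1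
  refine opLe_of_bil (by positivity) fun v v' => ?_
  rw [show P * (H * V * H) * ((1 - P) * Y) * (H * res A) =
      P * H * (V * (H * ((1 - P) * Y) * H * res A)) by simp only [Matrix.mul_assoc],
    ← mulVec_mulVec, ip_tr, l.tr, ← mulVec_mulVec v' V, ip_tr, ← mulVec_mulVec v' _ (res A)]
  have hv := nv_nonneg v
  refine ((z3 _ (l.mem v) _ (res_mem A v')).trans
    (mul_le_mul4 hc (l.le v) (nv_res A v') (nv_nonneg _) (by positivity))).trans (le_of_eq ?_)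
  ring

theorem E7' (l : Low P H W₁ W₂ h₁ h₂) (hc : 0 ≤ c'') {A : Finset (Fin n)}
    (z4 : ∀ u ∈ W₂, ∀ v ∈ supp A, |ip v ((H * ((1 - P) * Y) * H) *ᵥ (V *ᵥ u))| ≤
      c'' * (nv u * nv v)) :
    OpLe (res A * H * ((1 - P) * Y) * (H * V * H) * P) (c'' * h₁) := by
  have := l.h1
  refine opLe_of_bil (by positivity) fun v v' => ?_
  rw [show res A * H * ((1 - P) * Y) * (H * V * H) * P =
      res A * (H * ((1 - P) * Y) * H * (V * (H * P))) by simp only [Matrix.mul_assoc],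
    ← mulVec_mulVec, ip_tr, res_tr, ← mulVec_mulVec, ← mulVec_mulVec v' V]
  have hv := nv_nonneg v'
  refine ((z4 _ (l.mem v') _ (res_mem A v)).trans
    (mul_le_mul4 hc (l.le v') (nv_res A v) (nv_nonneg _) (by positivity))).trans (le_of_eq ?_)
  ring

/-- the high block is free -/
theorem E2 (hP : IsProj P) (hH : Hᵀ = H) {nu : ℝ} (hnu : 0 ≤ nu) (h2 : 0 ≤ h₂) (hV : OpLe V nu)
    (hh : OpLe (H * (1 - P)) h₂) : OpLe ((1 - P) * (H * V * H) * (1 - P)) (h₂ * nu * h₂) := by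
  have h := opLe_tr h2 hh
  rw [transpose_mul, hH, hP.compl.symm] at h
  rw [show (1 - P) * (H * V * H) * (1 - P) = (1 - P) * H * V * (H * (1 - P)) by
    simp only [Matrix.mul_assoc]]
  exact (h.mulN hV h2 hnu).mulN hh (mul_nonneg h2 hnu) h2

end Conv

/-! ### matrices which are diagonal in the frame -/

/-- `Oᵀ diag d O` -/
abbrev dg (d : Vec n) (O : OG n) : Mat n := O.1ᵀ * diagonal d * O.1

/-- indicator vector of a set -/
def ind (T : Finset (Fin n)) : Vec n := fun a => if a ∈ T then 1 else 0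

/-- site image of a coordinate subspace of the frame -/
def low (T : Finset (Fin n)) (O : OG n) : Set (Vec n) := {u | ∃ a ∈ supp T, u = O.1ᵀ *ᵥ a}

theorem res_eq (T : Finset (Fin n)) : res T = diagonal (ind T) := rfl

theorem dg_mul (u v : Vec n) (O : OG n) : dg u O * dg v O = dg (fun a => u a * v a) O := by
  unfold dg
  rw [show O.1ᵀ * diagonal u * O.1 * (O.1ᵀ * diagonal v * O.1) =
    O.1ᵀ * (diagonal u * (O.1 * O.1ᵀ) * diagonal v) * O.1 by simp only [Matrix.mul_assoc],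
    OG.mul_transpose, Matrix.mul_one, diagonal_mul_diagonal]

theorem dg_tr (u : Vec n) (O : OG n) : (dg u O)ᵀ = dg u O := by
  unfold dg
  rw [transpose_mul, transpose_mul, transpose_transpose, diagonal_transpose, Matrix.mul_assoc]

theorem dg_one (O : OG n) : dg (fun _ => 1) O = 1 := by
  unfold dg
  rw [diagonal_one, Matrix.mul_one, OG.transpose_mul]

theorem dg_sub (u v : Vec n) (O : OG n) : dg u O - dg v O = dg (fun a => u a - v a) O := by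
  unfold dg
  rw [← Matrix.sub_mul, ← Matrix.mul_sub, diagonal_sub]

theorem dg_smul (c : ℝ) (u : Vec n) (O : OG n) : c • dg u O = dg (fun a => c * u a) O := by
  unfold dg
  rw [← Matrix.smul_mul, ← Matrix.mul_smul, ← diagonal_smul]
  rfl

theorem one_sub_dg (u : Vec n) (O : OG n) : 1 - dg u O = dg (fun a => 1 - u a) O := by
  rw [← dg_sub, dg_one]

theorem dg_mulVec (u : Vec n) (O : OG n) (v : Vec n) :
    dg u O *ᵥ v = O.1ᵀ *ᵥ fun a => u a * (O.1 *ᵥ v) a := by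
  unfold dg
  rw [← mulVec_mulVec, ← mulVec_mulVec]
  congr 1
  funext a
  exact mulVec_diagonal _ _ _

theorem nv_orth (O : OG n) (v : Vec n) : nv (O.1 *ᵥ v) = nv v := by
  rw [nv_eq_sqrt, nv_eq_sqrt, sq_orth]

theorem nv_orth_tr (O : OG n) (v : Vec n) : nv (O.1ᵀ *ᵥ v) = nv v := by
  rw [← OG.coe_inv, nv_orth]

theorem sq_orth_tr (O : OG n) (v : Vec n) : F.sq (O.1ᵀ *ᵥ v) = F.sq v := by
  rw [← OG.coe_inv, sq_orth]

theorem opLe_dg {u : Vec n} {c : ℝ} (hc : 0 ≤ c) (h : ∀ a, |u a| ≤ c) (O : OG n) :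
    OpLe (dg u O) c := opLe_of_nv fun v => by
  rw [dg_mulVec, nv_orth_tr, ← nv_orth O v]
  refine nv_le_mul hc fun a => ?_
  rw [abs_mul]
  exact mul_le_mul_of_nonneg_right (h a) (abs_nonneg _)

theorem isProj_dg (T : Finset (Fin n)) (O : OG n) : IsProj (dg (ind T) O) := by
  refine ⟨dg_tr _ _, ?_⟩
  rw [dg_mul]
  congr 1
  funext a
  unfold ind
  split_ifs <;> simp

theorem low_dg {T₁ T₂ : Finset (Fin n)} (hT : T₁ ⊆ T₂) {hh : Vec n} {h₁ h₂ : ℝ} (h0 : 0 ≤ h₁)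
    (h0' : 0 ≤ h₂) (b1 : ∀ a, |hh a| ≤ h₁) (b2 : ∀ a, a ∉ T₁ → |hh a| ≤ h₂) (O : OG n) :
    Low (dg (ind T₂) O) (dg hh O) (low T₁ O) (low T₂ O) h₁ h₂ := by
  classical
  have key : ∀ (p : Fin n → Prop) [DecidablePred p] (c : ℝ), 0 ≤ c → (∀ a, p a → |hh a| ≤ c) →
      ∀ v, nv (O.1ᵀ *ᵥ fun a => if p a then hh a * (O.1 *ᵥ v) a else 0) ≤ c * nv v := by
    intro p _ c hc h v
    rw [nv_orth_tr, ← nv_orth O v]
    refine nv_le_mul hc fun a => ?_
    split_ifs with ha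
    · rw [abs_mul]
      exact mul_le_mul_of_nonneg_right (h a ha) (abs_nonneg _)
    · rw [abs_zero]
      positivity
  have e : ∀ v, (dg hh O * dg (ind T₂) O) *ᵥ v =
      O.1ᵀ *ᵥ fun a => if a ∈ T₂ then hh a * (O.1 *ᵥ v) a else 0 := fun v => by
    rw [dg_mul, dg_mulVec]
    congr 1
    funext a
    unfold ind
    split_ifs <;> simp
  refine ⟨isProj_dg _ _, dg_tr _ _, h0, h0', ?_, fun v => ?_, fun v => ?_, fun v => ?_⟩
  · rintro u ⟨a, ha, rfl⟩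
    exact ⟨a, fun i hi => ha i fun h => hi (hT h), rfl⟩
  · exact ⟨_, fun i hi => if_neg hi, e v⟩
  · rw [e]
    exact key _ _ h0 (fun a _ => b1 a) v
  · refine ⟨_, ⟨fun a => if a ∈ T₁ then hh a * (O.1 *ᵥ v) a else 0, fun i hi => if_neg hi, rfl⟩,
      _, ⟨fun a => if a ∈ T₂ ∧ a ∉ T₁ then hh a * (O.1 *ᵥ v) a else 0,
        fun i hi => if_neg fun h => hi h.1, rfl⟩, ?_, key _ _ h0 (fun a _ => b1 a) v,
      key _ _ h0' (fun a ha => b2 a ha.2) v⟩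
    rw [e, ← mulVec_add]
    congr 1
    funext a
    by_cases h1 : a ∈ T₁
    · simp [h1, hT h1]
    · simp [h1]

/-! ### measurability -/

section Meas

variable {X : Type*} [MeasurableSpace X]

theorem ms_forall {E : Type*} [TopologicalSpace E] [TopologicalSpace.SeparableSpace E]
    {f g : X → E → ℝ} (hf : ∀ v, Measurable fun x => f x v) (hg : ∀ v, Measurable fun x => g x v)
    (cf : ∀ x, Continuous (f x)) (cg : ∀ x, Continuous (g x)) :
    MeasurableSet {x | ∀ v, f x v ≤ g x v} := by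
  obtain ⟨s, hs, hd⟩ := TopologicalSpace.exists_countable_dense E
  have e : {x | ∀ v, f x v ≤ g x v} = ⋂ v ∈ s, {x | f x v ≤ g x v} := by
    ext x
    simp only [Set.mem_ofPred_eq, Set.mem_iInter]
    refine ⟨fun h v _ => h v, fun h v => ?_⟩
    exact closure_minimal (s := s) (t := {v | f x v ≤ g x v}) h (isClosed_le (cf x) (cg x)) (hd v)
  rw [e]
  exact MeasurableSet.biInter hs fun v _ => measurableSet_le (hf v) (hg v)

theorem cont_sq : Continuous (F.sq : Vec n → ℝ) := by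
  unfold F.sq
  fun_prop

theorem meas_sq {v : X → Vec n} (hv : Measurable v) : Measurable fun x => F.sq (v x) :=
  cont_sq.measurable.comp hv

theorem ms_opLe {A : X → Mat n} (hA : MM A) (c : ℝ) : MeasurableSet {x | OpLe (A x) c} :=
  ms_forall (f := fun x v => F.sq (A x *ᵥ v)) (g := fun _ v => c ^ 2 * F.sq v)
    (fun _ => meas_sq (hA.mulVec measurable_const)) (fun _ => measurable_const)
    (fun _ => cont_sq.comp (continuous_const.matrix_mulVec continuous_id))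
    (fun _ => continuous_const.mul cont_sq)

theorem ms_spread {A : X → Mat n} (hA : MM A) (T : Finset (Fin n)) (c K : ℝ) :
    MeasurableSet {x | ∀ a ∈ supp T, Spread (c * F.sq a) K (A x *ᵥ a)} := by
  have e : {x | ∀ a ∈ supp T, Spread (c * F.sq a) K (A x *ᵥ a)} =
      ⋂ (l : ℕ) (S : Finset (Fin n)), {x | ∀ a : supp T,
        n * ∑ i ∈ S, (A x *ᵥ a.1) i ^ 2 ≤ c * F.sq a.1 * lev n K l S.card} := by
    ext x
    simp only [Set.mem_ofPred_eq, Set.mem_iInter, Spread, Subtype.forall]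
    exact ⟨fun h l S a ha => h a ha l S, fun h a ha l S => h l S a ha⟩
  rw [e]
  refine MeasurableSet.iInter fun l => MeasurableSet.iInter fun S => ms_forall
    (fun a => measurable_const.mul (Finset.measurable_sum _ fun i _ =>
      ((measurable_pi_apply i).comp (hA.mulVec measurable_const)).pow_const 2))
    (fun _ => measurable_const) (fun x => continuous_const.mul
      (continuous_finsetSum _ fun i _ => ((continuous_apply i).comp
        (continuous_const.matrix_mulVec continuous_subtype_val)).pow 2))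
    (fun _ => (continuous_const.mul (cont_sq.comp continuous_subtype_val)).mul continuous_const)

theorem mm_dg (d : Vec n) : MM (dg d) := (mm_val.transpose.mul (MM.const _)).mul mm_val

end Meas

end Vale.Agent.N150.X4
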