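import Vale.Agent.N150.T1Kit
import Vale.Agent.N150.T2LExp
import Vale.Agent.N150.X4A
import Vale.Agent.N150.Comp

/-! T2, block L: spectral levels, the step function `H`, traces, spreading on all levels.
The scale is `s = t ^ M`; level `0` is `gam - lam ≤ 0`, level `j ≥ 1` ends at `s / t ^ (j - 1)`,
the last level is `M + 2`. -/

open MeasureTheory Matrix

namespace Vale.Agent.N150.T2LV

open Vale.Agent.P150 Vale.Agent.P150.F Vale.Agent.N150.Fib Vale.Agent.N150.Sp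
  Vale.Agent.N150.T1 Vale.Agent.N150.T2L Vale.Agent.N150.Rip

variable {n : ℕ}

/-- upper end of the level `j` -/
noncomputable def sg (t : ℝ) (M j : ℕ) : ℝ := if j = 0 then 0 else t ^ (M + 1) / t ^ j
/-- size of the level `j` -/
noncomputable def nu (t : ℝ) (M j : ℕ) : ℝ := t ^ (M + 1) / t ^ max j 1
/-- the level of a distance to the top of the spectrum -/
noncomputable def lvl (t : ℝ) (M : ℕ) (e : ℝ) : ℕ := sInf {j | e ≤ sg t M j}
/-- the level map -/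
noncomputable def lv (t : ℝ) (M : ℕ) (S : Dat n) : Fin n → ℕ := fun a => lvl t M (S.gam - S.lam a)
/-- spectrum of `H` -/
noncomputable def hv (t : ℝ) (M : ℕ) (S : Dat n) : Vec n := fun a => (t * nu t M (lv t M S a))⁻¹
/-- value of `H ^ (1/2)` on the level `j` -/
noncomputable def al (t : ℝ) (M j : ℕ) : ℝ := √(t * nu t M j)⁻¹
noncomputable def Hm (t : ℝ) (M : ℕ) (S : Dat n) (O : OG n) : Mat n := JO (hv t M S) O
noncomputable def Hs (t : ℝ) (M : ℕ) (S : Dat n) (O : OG n) : Mat n :=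
  JO (fun a => √(hv t M S a)) O
noncomputable def Hi (t : ℝ) (M : ℕ) (S : Dat n) (O : OG n) : Mat n :=
  JO (fun a => (√(hv t M S a))⁻¹) O
/-- projection on the level `j` -/
noncomputable def PL (t : ℝ) (M : ℕ) (S : Dat n) (j : ℕ) (O : OG n) : Mat n :=
  JO (li (lv t M S) j) O
/-- `(z - J) ^ (1/2)` -/
noncomputable def Nq (S : Dat n) (z : ℝ) (O : OG n) : Mat n := JO (fun a => √(z - S.lam a)) O
/-- `(z - J) ^ (-1/2)` -/
noncomputable def Ni (S : Dat n) (z : ℝ) (O : OG n) : Mat n :=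
  JO (fun a => (√(z - S.lam a))⁻¹) O
/-- `n ν ^ (3/2)` -/
noncomputable def kl (n : ℕ) (t : ℝ) (M j : ℕ) : ℝ := n * (nu t M j * √(nu t M j))

/-- standing assumptions -/
structure LV (L t : ℝ) (M : ℕ) (S : Dat n) : Prop where
  hL : 1 ≤ L
  hM : 2 ≤ M
  pos : 0 < t
  one : t ≤ 1
  sm : 100000 * ((M : ℝ) + 3) ^ 2 * L * (1 + Real.log t⁻¹) * t ≤ 1
  big : 1 ≤ n * (t ^ M * √(t ^ M)) * t⁻¹ ^ 2
  top : ∀ a, S.lam a ≤ S.gam
  bot : ∀ a, S.gam - S.lam a ≤ 6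
  cnt : ∀ σ, t ^ M ≤ σ → ((S.low σ).card : ℝ) ≤ L * n * (σ * √σ)

/-- position of the spectral parameter -/
structure Gp (t : ℝ) (M : ℕ) (S : Dat n) (z : ℝ) : Prop where
  lo : t ^ (M + 1) ≤ z - S.gam
  hi : 2 * t * (z - S.gam) ≤ t ^ M

/-- spreading of the low modes on all levels -/
def RipL (t : ℝ) (M : ℕ) (S : Dat n) (O : OG n) : Prop :=
  ∀ j ≤ M + 2, ∀ a ∈ supp (S.low (sg t M j)),
    Spread (1202 * F.sq a) (kl n t M j * t⁻¹ ^ 3) (O.1ᵀ *ᵥ a)

theorem Nsq_eq (S : Dat n) (O : OG n) : S.Nsq O = Nq S S.z0 O := rfl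

theorem Nis_eq (S : Dat n) (O : OG n) : S.Nis O = Ni S S.z0 O := rfl

/-! ### scalars -/

section Scal

variable {t : ℝ} {M : ℕ}

theorem sg_zero : sg t M 0 = 0 := if_pos rfl

theorem sg_succ (j : ℕ) : sg t M (j + 1) = nu t M (j + 1) := by
  unfold sg nu
  rw [if_neg j.succ_ne_zero, max_eq_left (by omega)]

theorem sg_eq_nu {j : ℕ} (hj : 1 ≤ j) : sg t M j = nu t M j := by
  obtain ⟨i, rfl⟩ := Nat.exists_eq_add_of_le' hj
  exact sg_succ i

theorem nu_pos (ht : 0 < t) (j : ℕ) : 0 < nu t M j := div_pos (pow_pos ht _) (pow_pos ht _)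

theorem nu_zero (ht : 0 < t) : nu t M 0 = t ^ M := by
  unfold nu
  rw [max_eq_right (by omega), pow_one, pow_succ, mul_div_cancel_right₀ _ ht.ne']

theorem nu_one (ht : 0 < t) : nu t M 1 = t ^ M := by
  unfold nu
  rw [max_self, pow_one, pow_succ, mul_div_cancel_right₀ _ ht.ne']

theorem nu_mono (ht : 0 < t) (h1 : t ≤ 1) {i j : ℕ} (h : i ≤ j) : nu t M i ≤ nu t M j :=
  div_le_div_of_nonneg_left (pow_pos ht _).le (pow_pos ht _)
    (pow_le_pow_of_le_one ht.le h1 (max_le_max h le_rfl))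

theorem nu_ge (ht : 0 < t) (h1 : t ≤ 1) (j : ℕ) : t ^ M ≤ nu t M j := by
  rw [← nu_zero ht]
  exact nu_mono ht h1 j.zero_le

theorem nu_succ (ht : 0 < t) {j : ℕ} (hj : 1 ≤ j) : t * nu t M (j + 1) = nu t M j := by
  unfold nu
  rw [max_eq_left (by omega), max_eq_left hj, pow_succ t j]
  have := (pow_pos ht j).ne'
  have := ht.ne'
  field_simp

theorem nu_pow (ht : 0 < t) {m : ℕ} (hm : m ≤ M) : nu t M (M + 1 - m) = t ^ m := by
  unfold nu
  rw [max_eq_left (by omega), div_eq_iff (pow_pos ht _).ne', ← pow_add]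
  congr 1
  omega

theorem sg_pow (ht : 0 < t) {m : ℕ} (hm : m ≤ M) : sg t M (M + 1 - m) = t ^ m := by
  rw [sg_eq_nu (by omega), nu_pow ht hm]

theorem nu_last (ht : 0 < t) : nu t M (M + 1) = 1 := by
  simpa using nu_pow (M := M) ht (Nat.zero_le M)

theorem nu_top (ht : 0 < t) : t * nu t M (M + 2) = 1 := by
  rw [nu_succ ht (by omega), nu_last ht]

theorem nu_le_one (ht : 0 < t) (h1 : t ≤ 1) {j : ℕ} (hj : j ≤ M + 1) : nu t M j ≤ 1 :=
  (nu_mono ht h1 hj).trans (nu_last ht).le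

theorem t_nu_le (ht : 0 < t) (h1 : t ≤ 1) {j : ℕ} (hj : j ≤ M + 2) : t * nu t M j ≤ 1 :=
  (mul_le_mul_of_nonneg_left (nu_mono ht h1 hj) ht.le).trans (nu_top ht).le

theorem sg_le_nu (ht : 0 < t) (j : ℕ) : sg t M j ≤ nu t M j := by
  rcases j with _ | j
  · rw [sg_zero]
    exact (nu_pos ht 0).le
  · exact (sg_succ j).le

theorem sg_mono (ht : 0 < t) (h1 : t ≤ 1) {i j : ℕ} (h : i ≤ j) : sg t M i ≤ sg t M j := by
  rcases j with _ | j
  · rw [Nat.le_zero.1 h]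
  · rw [sg_succ]
    exact (sg_le_nu ht i).trans (nu_mono ht h1 h)

theorem al_pos (ht : 0 < t) (j : ℕ) : 0 < al t M j :=
  Real.sqrt_pos.2 (inv_pos.2 (mul_pos ht (nu_pos ht j)))

theorem al_sq (ht : 0 < t) (j : ℕ) : al t M j ^ 2 = (t * nu t M j)⁻¹ :=
  Real.sq_sqrt (inv_pos.2 (mul_pos ht (nu_pos ht j))).le

theorem al_top (ht : 0 < t) : al t M (M + 2) = 1 := by
  unfold al
  rw [nu_top ht, inv_one, Real.sqrt_one]

theorem al_anti (ht : 0 < t) (h1 : t ≤ 1) {i j : ℕ} (h : i ≤ j) : al t M j ≤ al t M i :=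
  Real.sqrt_le_sqrt (inv_anti₀ (mul_pos ht (nu_pos ht i))
    (mul_le_mul_of_nonneg_left (nu_mono ht h1 h) ht.le))

theorem al_zero (ht : 0 < t) : al t M 0 = √(t ^ (M + 1))⁻¹ := by
  unfold al
  rw [nu_zero ht, pow_succ']

theorem kl_nonneg (ht : 0 < t) (j : ℕ) : 0 ≤ kl n t M j :=
  mul_nonneg (Nat.cast_nonneg _) (mul_nonneg (nu_pos ht j).le (Real.sqrt_nonneg _))

theorem p32_mono {a b : ℝ} (ha : 0 ≤ a) (h : a ≤ b) : a * √a ≤ b * √b :=
  mul_le_mul h (Real.sqrt_le_sqrt h) (Real.sqrt_nonneg _) (ha.trans h)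

theorem kl_mono (ht : 0 < t) (h1 : t ≤ 1) {i j : ℕ} (h : i ≤ j) : kl n t M i ≤ kl n t M j :=
  mul_le_mul_of_nonneg_left (p32_mono (nu_pos ht i).le (nu_mono ht h1 h)) (Nat.cast_nonneg _)

theorem kl_zero (ht : 0 < t) : kl n t M 0 = n * (t ^ M * √(t ^ M)) := by
  unfold kl
  rw [nu_zero ht]

end Scal

/-! ### functions of the levels -/

section Fun

variable (t : ℝ) (M : ℕ) (S : Dat n) (O : OG n)

theorem lvC_hv : LvC (lv t M S) (hv t M S) := LvC.comp (lv t M S) fun j => (t * nu t M j)⁻¹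

theorem lvC_hs : LvC (lv t M S) fun a => √(hv t M S a) := (lvC_hv t M S).map fun x => √x

theorem lvC_hi : LvC (lv t M S) fun a => (√(hv t M S a))⁻¹ :=
  (lvC_hv t M S).map fun x => (√x)⁻¹

theorem Hs_eq : Hs t M S O = JO (fun a => al t M (lv t M S a)) O := rfl

theorem Hm_tr : (Hm t M S O)ᵀ = Hm t M S O := JO_tr _ _
theorem Hs_tr : (Hs t M S O)ᵀ = Hs t M S O := JO_tr _ _
theorem Hi_tr : (Hi t M S O)ᵀ = Hi t M S O := JO_tr _ _

theorem isProj_PL (j : ℕ) : IsProj (PL t M S j O) := isProj_li _ _ _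

theorem PL_mul_PL {i j : ℕ} (h : i ≠ j) : PL t M S i O * PL t M S j O = 0 := by
  unfold PL
  rw [JO_mul]
  have e : (fun a => li (lv t M S) i a * li (lv t M S) j a) = fun _ => 0 := by
    funext a
    by_cases ha : lv t M S a = i
    · have : lv t M S a ≠ j := fun hb => h (ha.symm.trans hb)
      simp [li, this]
    · simp [li, ha]
  rw [e, JO_const, zero_smul]

theorem step_mul_PL (f : ℕ → ℝ) (j : ℕ) :
    JO (fun a => f (lv t M S a)) O * PL t M S j O = f j • PL t M S j O := by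
  unfold PL
  rw [JO_mul, JO_smul]
  congr 1
  funext a
  by_cases ha : lv t M S a = j <;> simp [li, ha]

theorem Hs_mul_PL (j : ℕ) : Hs t M S O * PL t M S j O = al t M j • PL t M S j O :=
  step_mul_PL t M S O (al t M) j

theorem hsq_JO (u : Vec n) : hsq (JO u O) = ∑ a, u a ^ 2 := by
  rw [Tail.hsq_eq_trace, JO_tr, JO_mul, trace_JO]
  simp only [pow_two]

theorem ms_ripL : MeasurableSet {O : OG n | RipL t M S O} := by
  have e : {O : OG n | RipL t M S O} = ⋂ (j : ℕ) (_ : j ≤ M + 2),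
      {O : OG n | ∀ a ∈ supp (S.low (sg t M j)),
        Spread (1202 * F.sq a) (kl n t M j * t⁻¹ ^ 3) (O.1ᵀ *ᵥ a)} := by
    ext O
    simp only [RipL, Set.mem_ofPred_eq, Set.mem_iInter]
  rw [e]
  exact MeasurableSet.iInter fun j => MeasurableSet.iInter fun _ =>
    X4.ms_spread mm_val.transpose _ _ _

end Fun

/-- a column is bounded by the norm of the corresponding row of the transpose -/
theorem col_le {X : Mat n} {c : ℝ} (hc : 0 ≤ c) {i : Fin n} (h : OpLe (res {i} * Xᵀ) c) :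
    nv (X *ᵥ Pi.single i 1) ≤ c := by
  have h1 := (Rip.opLe_transpose h hc).nv_le hc (Pi.single i 1)
  have e : res {i} *ᵥ (Pi.single i 1 : Vec n) = Pi.single i 1 := by
    funext k
    rw [res_mulVec]
    by_cases hk : k = i <;> simp [hk]
  have e2 : nv (Pi.single i 1 : Vec n) = 1 := by
    rw [nv_eq_sqrt]
    have : F.sq (Pi.single i 1 : Vec n) = 1 := by
      unfold F.sq
      rw [Finset.sum_eq_single i] <;> simp +contextual
    rw [this, Real.sqrt_one]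
  rw [transpose_mul, transpose_transpose, (isProj_res {i}).symm, ← Matrix.mulVec_mulVec, e, e2,
    mul_one] at h1
  exact h1

/-- columnwise bound against a diagonal matrix -/
theorem hsq_mul_diag {X : Mat n} {c : ℝ} (h : ∀ i, nv (X *ᵥ Pi.single i 1) ≤ c) (d : Vec n) :
    hsq (X * diagonal d) ≤ c ^ 2 * F.sq d := by
  rw [hsq_eq_sum_col, F.sq, Finset.mul_sum]
  refine Finset.sum_le_sum fun j _ => ?_
  have e : (X * diagonal d) *ᵥ Pi.single j 1 = d j • (X *ᵥ Pi.single j 1) := by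
    funext i
    simp [mul_comm]
  rw [e, sq_smul, mul_comm, ← nv_sq]
  exact mul_le_mul_of_nonneg_right (pow_le_pow_left₀ (nv_nonneg _) (h j) 2) (sq_nonneg _)

/-- domination of a spectral multiplier by another one -/
theorem opLe_dom {R : Mat n} {u v : Vec n} {b c : ℝ} (hb : 0 ≤ b) (hc : 0 ≤ c)
    (huv : ∀ a, |u a| ≤ c * |v a|) (O : OG n) (hR : OpLe (R * JO v O) b) :
    OpLe (R * JO u O) (b * c) := by
  have h1 : OpLe (JO (fun a => u a / v a) O) c := opLe_JO (fun a => by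
    rw [abs_div]
    exact div_le_of_le_mul₀ (abs_nonneg _) hc (huv a)) O
  have h2 := hR.mulN h1 hb hc
  rw [Matrix.mul_assoc, JO_mul] at h2
  have e : (fun a => v a * (u a / v a)) = u := by
    funext a
    by_cases ha : v a = 0
    · have h3 := huv a
      rw [ha, abs_zero, mul_zero] at h3
      rw [ha, zero_mul, abs_nonpos_iff.1 h3]
    · field_simp
  rwa [e] at h2

theorem opLe_dom' {R : Mat n} {u v : Vec n} {b c : ℝ} (hb : 0 ≤ b) (hc : 0 ≤ c)
    (huv : ∀ a, |u a| ≤ c * |v a|) (O : OG n) (hR : OpLe (JO v O * R) b) :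
    OpLe (JO u O * R) (b * c) := by
  have h1 := Rip.opLe_transpose hR hb
  rw [transpose_mul, JO_tr] at h1
  have h2 := Rip.opLe_transpose (opLe_dom hb hc huv O h1) (mul_nonneg hb hc)
  rwa [transpose_mul, JO_tr, transpose_transpose] at h2

namespace LV

variable {L t : ℝ} {M : ℕ} {S : Dat n} (h : LV L t M S)
include h

theorem log0 : 0 ≤ Real.log t⁻¹ := Real.log_nonneg ((one_le_inv₀ h.pos).2 h.one)

theorem inv1 : 1 ≤ t⁻¹ := (one_le_inv₀ h.pos).2 h.one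

theorem inv0 : 0 < t⁻¹ := inv_pos.2 h.pos

theorem le_inv {x : ℝ} (hx : x ≤ 100000 * ((M : ℝ) + 3) ^ 2 * L * (1 + Real.log t⁻¹)) :
    x ≤ t⁻¹ := by
  rw [← one_div, le_div_iff₀ h.pos]
  exact (mul_le_mul_of_nonneg_right hx h.pos.le).trans h.sm

theorem le_inv' {x : ℝ} (hx : x ≤ 100000 * ((M : ℝ) + 3) ^ 2 * L) : x ≤ t⁻¹ := by
  refine h.le_inv (hx.trans (le_mul_of_one_le_right ?_ (by linarith [h.log0])))
  have := h.hL
  positivity

theorem sq_le_inv : ((M : ℝ) + 3) ^ 2 ≤ t⁻¹ := by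
  refine h.le_inv' ?_
  have h1 : (0 : ℝ) ≤ ((M : ℝ) + 3) ^ 2 := sq_nonneg _
  nlinarith [h.hL]

theorem ML_le_inv : ((M : ℝ) + 3) * L ≤ t⁻¹ := by
  refine h.le_inv' (mul_le_mul_of_nonneg_right ?_ (by linarith [h.hL]))
  have h1 : (0 : ℝ) ≤ M := Nat.cast_nonneg _
  nlinarith

theorem cL_le_inv : 100000 * L ≤ t⁻¹ := by
  refine h.le_inv' (mul_le_mul_of_nonneg_right ?_ (by linarith [h.hL]))
  have h1 : (0 : ℝ) ≤ M := Nat.cast_nonneg _
  nlinarith

theorem c_le_inv : 100000 ≤ t⁻¹ := by linarith [h.cL_le_inv, h.hL]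

theorem log_le_inv : 100000 * ((M : ℝ) * Real.log t⁻¹ + 1) ≤ t⁻¹ := by
  refine h.le_inv ?_
  have h1 : (0 : ℝ) ≤ M := Nat.cast_nonneg _
  have h2 := h.log0
  have h3 : (M : ℝ) * Real.log t⁻¹ + 1 ≤ ((M : ℝ) + 3) ^ 2 * (1 + Real.log t⁻¹) := by
    nlinarith [mul_nonneg h1 h2, mul_nonneg (mul_nonneg h1 h1) h2]
  have h4 : ((M : ℝ) + 3) ^ 2 * (1 + Real.log t⁻¹) ≤
      ((M : ℝ) + 3) ^ 2 * (1 + Real.log t⁻¹) * L :=
    le_mul_of_one_le_right (by positivity) h.hL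
  nlinarith

theorem two_t : 2 * t ≤ 1 := by
  have h1 := h.c_le_inv
  rw [← one_div, le_div_iff₀ h.pos] at h1
  linarith [h.pos]

theorem s_pos : 0 < t ^ M := pow_pos h.pos M

theorem s_le : t ^ M ≤ 1 := pow_le_one₀ h.pos.le h.one

theorem two_le_n : 2 ≤ n := by
  have h1 : t ^ M ≤ t ^ 2 := pow_le_pow_of_le_one h.pos.le h.one h.hM
  have h2 : √(t ^ M) ≤ t := by
    rw [Real.sqrt_le_left h.pos.le]
    exact h1
  have h3 : t ^ M * √(t ^ M) * t⁻¹ ^ 2 ≤ t := by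
    calc t ^ M * √(t ^ M) * t⁻¹ ^ 2 ≤ t ^ 2 * t * t⁻¹ ^ 2 :=
          mul_le_mul_of_nonneg_right (mul_le_mul h1 h2 (Real.sqrt_nonneg _) (sq_nonneg _))
            (sq_nonneg _)
      _ = t := by
          have := h.pos.ne'
          field_simp
  have h4 : (1 : ℝ) ≤ n * t := by
    refine h.big.trans ?_
    rw [mul_assoc]
    exact mul_le_mul_of_nonneg_left h3 (Nat.cast_nonneg _)
  have h5 : (2 : ℝ) ≤ n := by nlinarith [h.two_t, (Nat.cast_nonneg n : (0 : ℝ) ≤ n)]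
  exact_mod_cast h5

theorem npos : (0 : ℝ) < n := by
  have := h.two_le_n
  exact_mod_cast (by omega : 0 < n)

theorem one_le_kl (j : ℕ) : 1 ≤ kl n t M j * t⁻¹ ^ 2 := by
  refine h.big.trans (mul_le_mul_of_nonneg_right ?_ (sq_nonneg _))
  rw [← kl_zero h.pos]
  exact kl_mono h.pos h.one j.zero_le

/-! ### the level map -/

theorem six_le : 6 ≤ sg t M (M + 2) := by
  rw [sg_succ]
  have h1 := nu_top (M := M) h.pos
  have h2 : nu t M (M + 2) = t⁻¹ := eq_inv_of_mul_eq_one_right h1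
  rw [h2]
  linarith [h.c_le_inv]

theorem lv_le_iff {a : Fin n} {j : ℕ} : lv t M S a ≤ j ↔ S.gam - S.lam a ≤ sg t M j := by
  constructor
  · intro hj
    have h1 : lv t M S a ∈ {j | S.gam - S.lam a ≤ sg t M j} :=
      Nat.sInf_mem ⟨M + 2, (h.bot a).trans h.six_le⟩
    exact le_trans h1 (sg_mono h.pos h.one hj)
  · exact fun hj => Nat.sInf_le hj

theorem lv_le (a : Fin n) : lv t M S a ≤ M + 2 := h.lv_le_iff.2 ((h.bot a).trans h.six_le)

theorem lv_mem (a : Fin n) : lv t M S a ∈ Finset.range (M + 3) :=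
  Finset.mem_range.2 (Nat.lt_succ_of_le (h.lv_le a))

theorem mem_low {a : Fin n} {j : ℕ} : a ∈ S.low (sg t M j) ↔ lv t M S a ≤ j :=
  S.mem_low.trans h.lv_le_iff.symm

theorem ind_eq (j : ℕ) (a : Fin n) :
    S.ind (sg t M j) a = if lv t M S a ≤ j then 1 else 0 := by
  unfold Dat.ind
  simp only [h.mem_low]

theorem lvC_ind (j : ℕ) : LvC (lv t M S) (S.ind (sg t M j)) := fun a b e => by
  rw [h.ind_eq, h.ind_eq, e]

theorem lvC_ind_zero : LvC (lv t M S) (S.ind 0) := h.lvC_ind 0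

theorem lvC_ind_pow {m : ℕ} (hm : m ≤ M) : LvC (lv t M S) (S.ind (t ^ m)) := by
  rw [← sg_pow h.pos hm]
  exact h.lvC_ind _

theorem eps_le (a : Fin n) : S.gam - S.lam a ≤ nu t M (lv t M S a) :=
  (h.lv_le_iff.1 le_rfl).trans (sg_le_nu h.pos _)

theorem lt_eps {a : Fin n} (ha : 2 ≤ lv t M S a) :
    t * nu t M (lv t M S a) < S.gam - S.lam a := by
  obtain ⟨j, hj⟩ := Nat.exists_eq_add_of_le' ha
  rw [hj, nu_succ h.pos (by omega), ← sg_succ]
  exact not_le.1 fun hc => by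
    have := h.lv_le_iff.2 hc
    omega

theorem hv_pos (a : Fin n) : 0 < hv t M S a := inv_pos.2 (mul_pos h.pos (nu_pos h.pos _))

theorem one_le_hv (a : Fin n) : 1 ≤ hv t M S a :=
  (one_le_inv₀ (mul_pos h.pos (nu_pos h.pos _))).2 (t_nu_le h.pos h.one (h.lv_le a))

theorem hv_le (a : Fin n) : hv t M S a ≤ (t ^ (M + 1))⁻¹ := by
  refine inv_anti₀ (pow_pos h.pos _) ?_
  rw [pow_succ']
  exact mul_le_mul_of_nonneg_left (nu_ge h.pos h.one _) h.pos.le

theorem hv_high {a : Fin n} {j : ℕ} (ha : ¬lv t M S a ≤ j) :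
    hv t M S a ≤ (t * nu t M (j + 1))⁻¹ :=
  inv_anti₀ (mul_pos h.pos (nu_pos h.pos _))
    (mul_le_mul_of_nonneg_left (nu_mono h.pos h.one (by omega)) h.pos.le)

variable (O : OG n)

theorem sum_PL : ∑ j ∈ Finset.range (M + 3), PL t M S j O = 1 := sum_jo_li h.lv_mem O

theorem step_eq_sum (f : ℕ → ℝ) :
    JO (fun a => f (lv t M S a)) O = ∑ j ∈ Finset.range (M + 3), f j • PL t M S j O := by
  rw [← Matrix.mul_one (JO _ O), ← h.sum_PL O, Finset.mul_sum]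
  exact Finset.sum_congr rfl fun j _ => step_mul_PL t M S O f j

theorem Hs_eq_sum : Hs t M S O = ∑ j ∈ Finset.range (M + 3), al t M j • PL t M S j O :=
  h.step_eq_sum O (al t M)

theorem P_step (j : ℕ) :
    S.P (sg t M j) O = JO (fun a => (fun i => if i ≤ j then (1 : ℝ) else 0) (lv t M S a)) O := by
  rw [Dat.P_eq]
  congr 1
  funext a
  exact h.ind_eq j a

theorem P_mul_PL {i j : ℕ} (hij : i ≤ j) : S.P (sg t M j) O * PL t M S i O = PL t M S i O := by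
  rw [h.P_step, step_mul_PL t M S O fun i => if i ≤ j then (1 : ℝ) else 0, if_pos hij, one_smul]

theorem P_mul_PL_high {i j : ℕ} (hij : j < i) : S.P (sg t M j) O * PL t M S i O = 0 := by
  rw [h.P_step, step_mul_PL t M S O fun i => if i ≤ j then (1 : ℝ) else 0,
    if_neg (not_le.2 hij), zero_smul]

theorem PL_zero : PL t M S 0 O = S.P 0 O := by
  rw [← sg_zero (t := t) (M := M), Dat.P_eq]
  unfold PL
  congr 1
  funext a
  rw [h.ind_eq]
  simp [li]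

theorem Hs_mul_Hi : Hs t M S O * Hi t M S O = 1 := by
  unfold Hs Hi
  rw [JO_mul, ← JO_one O]
  congr 1
  funext a
  exact mul_inv_cancel₀ (Real.sqrt_pos.2 (h.hv_pos a)).ne'

theorem Hi_mul_Hs : Hi t M S O * Hs t M S O = 1 := by
  rw [← h.Hs_mul_Hi O]
  exact JO_comm _ _ _

theorem Hs_mul_Hs : Hs t M S O * Hs t M S O = Hm t M S O := by
  unfold Hs Hm
  rw [JO_mul]
  congr 1
  funext a
  exact Real.mul_self_sqrt (h.hv_pos a).le

theorem opLe_Hm : OpLe (Hm t M S O) (t ^ (M + 1))⁻¹ :=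
  opLe_JO (fun a => by rw [abs_of_pos (h.hv_pos a)]; exact h.hv_le a) O

theorem opLe_Hs : OpLe (Hs t M S O) √(t ^ (M + 1))⁻¹ :=
  opLe_JO (fun a => by
    rw [abs_of_nonneg (Real.sqrt_nonneg _)]
    exact Real.sqrt_le_sqrt (h.hv_le a)) O

theorem opLe_Hi : OpLe (Hi t M S O) 1 :=
  opLe_JO (fun a => by
    rw [abs_of_nonneg (inv_nonneg.2 (Real.sqrt_nonneg _))]
    exact inv_le_one_of_one_le₀ (Real.one_le_sqrt.2 (h.one_le_hv a))) O

theorem opLe_Hm_high (j : ℕ) :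
    OpLe (Hm t M S O * (1 - S.P (sg t M j) O)) (t * nu t M (j + 1))⁻¹ := by
  rw [Dat.Ph_eq, Hm, JO_mul]
  refine opLe_JO (fun a => ?_) O
  rw [h.ind_eq]
  split_ifs with ha
  · rw [sub_self, mul_zero, abs_zero]
    exact (inv_pos.2 (mul_pos h.pos (nu_pos h.pos _))).le
  · rw [sub_zero, mul_one, abs_of_pos (h.hv_pos a)]
    exact h.hv_high ha

theorem opLe_Hs_high (j : ℕ) : OpLe (Hs t M S O * (1 - S.P (sg t M j) O)) (al t M (j + 1)) := by
  rw [Dat.Ph_eq, Hs, JO_mul]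
  refine opLe_JO (fun a => ?_) O
  rw [h.ind_eq]
  split_ifs with ha
  · rw [sub_self, mul_zero, abs_zero]
    exact Real.sqrt_nonneg _
  · rw [sub_zero, mul_one, abs_of_nonneg (Real.sqrt_nonneg _)]
    exact Real.sqrt_le_sqrt (h.hv_high ha)

theorem opLe_Hi_low (j : ℕ) : OpLe (Hi t M S O * S.P (sg t M j) O) √(t * nu t M j) := by
  rw [Dat.P_eq, Hi, JO_mul]
  refine opLe_JO (fun a => ?_) O
  rw [h.ind_eq]
  split_ifs with ha
  · rw [mul_one, abs_of_nonneg (inv_nonneg.2 (Real.sqrt_nonneg _)), ← Real.sqrt_inv, hv, inv_inv]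
    exact Real.sqrt_le_sqrt (mul_le_mul_of_nonneg_left (nu_mono h.pos h.one ha) h.pos.le)
  · rw [mul_zero, abs_zero]
    exact Real.sqrt_nonneg _

/-- `‖H (1 - P_ε)‖ ≤ 1 / ε` for `ε = t ^ m` -/
theorem opLe_Hm_pow {m : ℕ} (hm : m ≤ M) :
    OpLe (Hm t M S O * (1 - S.P (t ^ m) O)) (t ^ m)⁻¹ := by
  have h1 := h.opLe_Hm_high O (M + 1 - m)
  rwa [nu_succ h.pos (by omega), sg_pow h.pos hm, nu_pow h.pos hm] at h1

theorem opLe_Hs_pow {m : ℕ} (hm : m ≤ M) :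
    OpLe (Hs t M S O * (1 - S.P (t ^ m) O)) √(t ^ m)⁻¹ := by
  have h1 := h.opLe_Hs_high O (M + 1 - m)
  rwa [al, nu_succ h.pos (by omega), sg_pow h.pos hm, nu_pow h.pos hm] at h1

/-! ### comparison of `H` with the resolvent -/

section Cmp

variable {z : ℝ} (g : Gp t M S z)
include g

theorem gap_lo (a : Fin n) : t * nu t M (lv t M S a) ≤ z - S.lam a := by
  by_cases ha : 2 ≤ lv t M S a
  · linarith [h.lt_eps ha, g.lo, pow_pos h.pos (M + 1)]
  · have h1 : nu t M (lv t M S a) ≤ t ^ M :=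
      (nu_mono h.pos h.one (by omega : lv t M S a ≤ 1)).trans (nu_one h.pos).le
    have h2 := mul_le_mul_of_nonneg_left h1 h.pos.le
    rw [← pow_succ'] at h2
    linarith [g.lo, h.top a]

theorem gap_pos (a : Fin n) : 0 < z - S.lam a :=
  (mul_pos h.pos (nu_pos h.pos _)).trans_le (h.gap_lo g a)

theorem gap_hi (a : Fin n) : t * (z - S.lam a) ≤ nu t M (lv t M S a) := by
  have h1 := h.eps_le a
  have h2 := nu_ge (M := M) h.pos h.one (lv t M S a)
  have h3 := mul_le_mul_of_nonneg_left h1 h.pos.le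
  have h4 := mul_le_mul_of_nonneg_right h.two_t (nu_pos (M := M) h.pos (lv t M S a)).le
  nlinarith [g.hi]

theorem one_le_hv_gap (a : Fin n) : 1 ≤ hv t M S a * (z - S.lam a) := by
  rw [hv, inv_mul_eq_div, one_le_div (mul_pos h.pos (nu_pos h.pos _))]
  exact h.gap_lo g a

theorem hv_gap_le (a : Fin n) : hv t M S a * (z - S.lam a) ≤ t⁻¹ ^ 2 := by
  rw [hv, inv_mul_eq_div, div_le_iff₀ (mul_pos h.pos (nu_pos h.pos _))]
  have h1 := mul_le_mul_of_nonneg_left (h.gap_hi g a) h.inv0.le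
  have e1 : t⁻¹ * (t * (z - S.lam a)) = z - S.lam a := by
    rw [← mul_assoc, inv_mul_cancel₀ h.pos.ne', one_mul]
  have e2 : t⁻¹ ^ 2 * (t * nu t M (lv t M S a)) = t⁻¹ * nu t M (lv t M S a) := by
    have := h.pos.ne'
    field_simp
  rw [e2]
  rwa [e1] at h1

/-- `G0 ≤ H` -/
theorem g_le_hv (a : Fin n) : (z - S.lam a)⁻¹ ≤ hv t M S a :=
  inv_anti₀ (mul_pos h.pos (nu_pos h.pos _)) (h.gap_lo g a)

/-- `H ≤ t⁻² G0` -/
theorem hv_le_g (a : Fin n) : hv t M S a ≤ t⁻¹ ^ 2 * (z - S.lam a)⁻¹ := by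
  rw [← div_eq_mul_inv, le_div_iff₀ (h.gap_pos g a)]
  exact h.hv_gap_le g a

theorem Nq_mul_Ni : Nq S z O * Ni S z O = 1 := by
  unfold Nq Ni
  rw [JO_mul, ← JO_one O]
  congr 1
  funext a
  exact mul_inv_cancel₀ (Real.sqrt_pos.2 (h.gap_pos g a)).ne'

theorem Ni_mul_Nq : Ni S z O * Nq S z O = 1 := by
  rw [← h.Nq_mul_Ni O g]
  exact JO_comm _ _ _

theorem G0_eq : EC.G0 (S.J O) z = JO (fun a => (z - S.lam a)⁻¹) O :=
  G0_JO (fun a => sub_pos.1 (h.gap_pos g a)) O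

theorem opLe_Hi_Ni : OpLe (Hi t M S O * Ni S z O) 1 := by
  rw [Hi, Ni, JO_mul]
  refine opLe_JO (fun a => ?_) O
  rw [← mul_inv, ← Real.sqrt_mul (h.hv_pos a).le, abs_of_nonneg (inv_nonneg.2 (Real.sqrt_nonneg _))]
  exact inv_le_one_of_one_le₀ (Real.one_le_sqrt.2 (h.one_le_hv_gap g a))

theorem opLe_Ni_Hi : OpLe (Ni S z O * Hi t M S O) 1 := by
  rw [Ni, Hi, JO_comm]
  exact h.opLe_Hi_Ni O g

theorem opLe_Hs_Nq : OpLe (Hs t M S O * Nq S z O) t⁻¹ := by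
  rw [Hs, Nq, JO_mul]
  refine opLe_JO (fun a => ?_) O
  rw [← Real.sqrt_mul (h.hv_pos a).le, abs_of_nonneg (Real.sqrt_nonneg _),
    Real.sqrt_le_left h.inv0.le]
  exact h.hv_gap_le g a

theorem opLe_Nq_Hs : OpLe (Nq S z O * Hs t M S O) t⁻¹ := by
  rw [Nq, Hs, JO_comm]
  exact h.opLe_Hs_Nq O g

theorem opLe_Hi_G_Hi : OpLe (Hi t M S O * EC.G0 (S.J O) z * Hi t M S O) 1 := by
  rw [h.G0_eq O g, Hi, JO_mul, JO_mul]
  refine opLe_JO (fun a => ?_) O
  have h1 := h.hv_pos a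
  have h2 := h.gap_pos g a
  have e : (√(hv t M S a))⁻¹ * (z - S.lam a)⁻¹ * (√(hv t M S a))⁻¹ =
      (hv t M S a * (z - S.lam a))⁻¹ := by
    rw [mul_right_comm, ← mul_inv, Real.mul_self_sqrt h1.le, mul_inv]
  rw [e, abs_of_pos (inv_pos.2 (mul_pos h1 h2))]
  exact inv_le_one_of_one_le₀ (h.one_le_hv_gap g a)

variable {X : Mat n} {c : ℝ}

theorem Hi_left (hc : 0 ≤ c) (hX : OpLe (Nq S z O * X) c) : OpLe (Hi t M S O * X) c := by
  have h1 := (h.opLe_Hi_Ni O g).mulN hX zero_le_one hc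
  rwa [one_mul, Matrix.mul_assoc, ← Matrix.mul_assoc (Ni S z O), h.Ni_mul_Nq O g,
    Matrix.one_mul] at h1

theorem Hi_right (hc : 0 ≤ c) (hX : OpLe (X * Nq S z O) c) : OpLe (X * Hi t M S O) c := by
  have h1 := hX.mulN (h.opLe_Ni_Hi O g) hc zero_le_one
  rwa [mul_one, Matrix.mul_assoc, ← Matrix.mul_assoc (Nq S z O), h.Nq_mul_Ni O g,
    Matrix.one_mul] at h1

theorem Hs_left (hc : 0 ≤ c) (hX : OpLe (Ni S z O * X) c) : OpLe (Hs t M S O * X) (t⁻¹ * c) := by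
  have h1 := (h.opLe_Hs_Nq O g).mulN hX h.inv0.le hc
  rwa [Matrix.mul_assoc, ← Matrix.mul_assoc (Nq S z O), h.Nq_mul_Ni O g, Matrix.one_mul] at h1

theorem Hs_right (hc : 0 ≤ c) (hX : OpLe (X * Ni S z O) c) :
    OpLe (X * Hs t M S O) (t⁻¹ * c) := by
  have h1 := hX.mulN (h.opLe_Nq_Hs O g) hc h.inv0.le
  rwa [mul_comm c, Matrix.mul_assoc, ← Matrix.mul_assoc (Ni S z O), h.Ni_mul_Nq O g,
    Matrix.one_mul] at h1

/-- `‖H ^ (-1/2) X H ^ (-1/2)‖ ≤ ‖N ^ (1/2) X N ^ (1/2)‖` -/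
theorem Hi_Hi (hc : 0 ≤ c) (hX : OpLe (Nq S z O * X * Nq S z O) c) :
    OpLe (Hi t M S O * X * Hi t M S O) c := by
  refine h.Hi_right O g hc ?_
  rw [Matrix.mul_assoc] at hX ⊢
  exact h.Hi_left O g hc hX

/-- `‖H ^ (1/2) X H ^ (1/2)‖ ≤ t⁻² ‖N ^ (-1/2) X N ^ (-1/2)‖` -/
theorem Hs_Hs (hc : 0 ≤ c) (hX : OpLe (Ni S z O * X * Ni S z O) c) :
    OpLe (Hs t M S O * X * Hs t M S O) (t⁻¹ ^ 2 * c) := by
  rw [pow_two, mul_assoc t⁻¹]
  refine h.Hs_right O g (mul_nonneg h.inv0.le hc) ?_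
  rw [Matrix.mul_assoc] at hX ⊢
  exact h.Hs_left O g hc hX

theorem nv_Hi_le (v : Vec n) : nv (Hi t M S O *ᵥ v) ≤ nv (Nq S z O *ᵥ v) := by
  have h1 := (h.opLe_Hi_Ni O g).nv_le zero_le_one (Nq S z O *ᵥ v)
  rwa [one_mul, Matrix.mulVec_mulVec, Matrix.mul_assoc, h.Ni_mul_Nq O g, Matrix.mul_one] at h1

theorem nv_Hs_le (v : Vec n) : nv (Hs t M S O *ᵥ v) ≤ t⁻¹ * nv (Ni S z O *ᵥ v) := by
  have h1 := (h.opLe_Hs_Nq O g).nv_le h.inv0.le (Ni S z O *ᵥ v)
  rwa [Matrix.mulVec_mulVec, Matrix.mul_assoc, h.Nq_mul_Ni O g, Matrix.mul_one] at h1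

end Cmp

/-! ### counts and traces -/

omit O in
theorem card_low (j : ℕ) : ((S.low (sg t M j)).card : ℝ) ≤ L * kl n t M j := by
  have h1 : S.low (sg t M j) ⊆ S.low (nu t M j) := fun a ha =>
    S.mem_low.2 ((S.mem_low.1 ha).trans (sg_le_nu h.pos j))
  refine (Nat.cast_le.2 (Finset.card_le_card h1)).trans
    ((h.cnt _ (nu_ge h.pos h.one j)).trans (le_of_eq ?_))
  rw [kl, mul_assoc]

omit O in
theorem sum_level {F : Fin n → ℝ} {j : ℕ} {b : ℝ} (hb : 0 ≤ b)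
    (hF : ∀ a, lv t M S a = j → F a ≤ b) :
    ∑ a ∈ Finset.univ.filter fun a => lv t M S a = j, F a ≤ min (n : ℝ) (L * kl n t M j) * b := by
  refine (Finset.sum_le_card_nsmul _ _ b fun a ha => hF a (Finset.mem_filter.1 ha).2).trans ?_
  rw [nsmul_eq_mul]
  refine mul_le_mul_of_nonneg_right (le_min ?_ (le_trans ?_ (h.card_low j))) hb
  · exact_mod_cast (Finset.card_le_univ _).trans (Fintype.card_fin n).le
  · exact Nat.cast_le.2 (Finset.card_le_card fun a ha =>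
      h.mem_low.2 (Finset.mem_filter.1 ha).2.le)

omit O in
/-- sums over the spectrum, level by level -/
theorem sum_le {F : Fin n → ℝ} {b : ℕ → ℝ} {c : ℝ} (hb : ∀ j, 0 ≤ b j)
    (hF : ∀ a, F a ≤ b (lv t M S a))
    (hc : ∀ j ≤ M + 2, min (n : ℝ) (L * kl n t M j) * b j ≤ L * c) (hc0 : 0 ≤ c) :
    ∑ a, F a ≤ t⁻¹ * c := by
  rw [← Finset.sum_fiberwise_of_maps_to (s := Finset.univ) (t := Finset.range (M + 3))
    (g := lv t M S) fun a _ => h.lv_mem a]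
  refine (Finset.sum_le_card_nsmul _ _ (L * c) fun j hj => ?_).trans ?_
  · exact (h.sum_level (hb j) fun a ha => ha ▸ hF a).trans
      (hc j (Nat.lt_succ_iff.1 (Finset.mem_range.1 hj)))
  · rw [Finset.card_range, nsmul_eq_mul, ← mul_assoc]
    refine mul_le_mul_of_nonneg_right ?_ hc0
    push_cast
    exact h.ML_le_inv

omit O in
theorem kl_div (j : ℕ) : kl n t M j * (t * nu t M j)⁻¹ = n * √(nu t M j) * t⁻¹ := by
  have := (nu_pos (M := M) h.pos j).ne'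
  have := h.pos.ne'
  unfold kl
  field_simp

omit O in
/-- `tr H ≤ n / t ^ 2` -/
theorem sum_hv : ∑ a, hv t M S a ≤ n * t⁻¹ ^ 2 := by
  have hL := h.hL
  have hn := h.npos
  have hi := h.inv1
  refine (h.sum_le (b := fun j => (t * nu t M j)⁻¹) (c := n * t⁻¹)
    (fun j => (inv_pos.2 (mul_pos h.pos (nu_pos h.pos j))).le) (fun a => le_rfl) (fun j hj => ?_)
    (by positivity)).trans (le_of_eq (by ring))
  have hb := (inv_pos.2 (mul_pos h.pos (nu_pos (M := M) h.pos j))).le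
  rcases Nat.lt_or_ge j (M + 2) with h1 | h1
  · refine (mul_le_mul_of_nonneg_right (min_le_right _ _) hb).trans ?_
    rw [mul_assoc, h.kl_div]
    refine mul_le_mul_of_nonneg_left (mul_le_mul_of_nonneg_right ?_ h.inv0.le) (by linarith)
    exact mul_le_of_le_one_right hn.le (Real.sqrt_le_one.2 (nu_le_one h.pos h.one (by omega)))
  · refine (mul_le_mul_of_nonneg_right (min_le_left _ _) hb).trans ?_
    rw [le_antisymm hj h1, nu_top h.pos, inv_one, mul_one]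
    nlinarith [mul_le_mul hL hi zero_le_one (by linarith)]

omit O in
/-- `tr (H P_ε) ≤ n √ε / t ^ 2` -/
theorem sum_hv_low (j : ℕ) :
    ∑ a, hv t M S a * S.ind (sg t M j) a ≤ n * √(nu t M j) * t⁻¹ ^ 2 := by
  have hL := h.hL
  have hn := h.npos
  have hi := h.inv0
  have hb : ∀ i, 0 ≤ (t * nu t M i)⁻¹ := fun i =>
    (inv_pos.2 (mul_pos h.pos (nu_pos (M := M) h.pos i))).le
  refine (h.sum_le (b := fun i => if i ≤ j then (t * nu t M i)⁻¹ else 0)
    (c := n * √(nu t M j) * t⁻¹) (fun i => ?_) (fun a => ?_) (fun i _ => ?_)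
    (by positivity)).trans (le_of_eq (by ring))
  · split_ifs
    exacts [hb i, le_rfl]
  · rw [h.ind_eq]
    split_ifs
    · exact (mul_one _).le
    · exact (mul_zero _).le
  · split_ifs with hij
    · refine (mul_le_mul_of_nonneg_right (min_le_right _ _) (hb i)).trans ?_
      rw [mul_assoc, h.kl_div]
      refine mul_le_mul_of_nonneg_left (mul_le_mul_of_nonneg_right ?_ hi.le) (by linarith)
      exact mul_le_mul_of_nonneg_left (Real.sqrt_le_sqrt (nu_mono h.pos h.one hij)) hn.le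
    · rw [mul_zero]
      positivity

omit O in
/-- higher moments of `H` on the levels `≥ j` -/
theorem sum_hv_pow (q j : ℕ) {χ : Fin n → ℝ} (h1 : ∀ a, χ a ≤ 1)
    (h0 : ∀ a, lv t M S a < j → χ a ≤ 0) :
    ∑ a, hv t M S a ^ (q + 2) * χ a ≤
      n * ((√(nu t M j))⁻¹ * (nu t M j)⁻¹ ^ q) * t⁻¹ ^ (q + 3) := by
  have hL := h.hL
  have hn := h.npos
  have hi := h.inv0
  have hj := nu_pos (M := M) h.pos j
  have hb : ∀ i, 0 ≤ (t * nu t M i)⁻¹ ^ (q + 2) := fun i =>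
    pow_nonneg (inv_pos.2 (mul_pos h.pos (nu_pos (M := M) h.pos i))).le _
  refine (h.sum_le (b := fun i => if i < j then 0 else (t * nu t M i)⁻¹ ^ (q + 2))
    (c := n * ((√(nu t M j))⁻¹ * (nu t M j)⁻¹ ^ q) * t⁻¹ ^ (q + 2)) (fun i => ?_) (fun a => ?_)
    (fun i _ => ?_) (by positivity)).trans (le_of_eq (by ring))
  · split_ifs
    exacts [le_rfl, hb i]
  · split_ifs with ha
    · exact mul_nonpos_of_nonneg_of_nonpos (hb _) (h0 a ha)
    · exact mul_le_of_le_one_right (hb _) (h1 a)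
  · split_ifs with hij
    · rw [mul_zero]
      positivity
    · refine (mul_le_mul_of_nonneg_right (min_le_right _ _) (hb i)).trans ?_
      have hp := nu_pos (M := M) h.pos i
      have hs := Real.sqrt_pos.2 hp
      have hm := nu_mono (M := M) h.pos h.one (not_lt.1 hij)
      have e : kl n t M i * (t * nu t M i)⁻¹ ^ (q + 2) =
          n * ((√(nu t M i))⁻¹ * (nu t M i)⁻¹ ^ q) * t⁻¹ ^ (q + 2) := by
        have e1 : nu t M i * √(nu t M i) * (nu t M i)⁻¹ ^ 2 = (√(nu t M i))⁻¹ := by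
          have e2 := Real.mul_self_sqrt hp.le
          have := hp.ne'
          have := hs.ne'
          field_simp
          nlinarith
        rw [kl, mul_inv, mul_pow, ← e1]
        ring
      rw [mul_assoc, e]
      refine mul_le_mul_of_nonneg_left (mul_le_mul_of_nonneg_right
        (mul_le_mul_of_nonneg_left ?_ hn.le) (by positivity)) (by linarith)
      exact mul_le_mul (inv_anti₀ (Real.sqrt_pos.2 hj) (Real.sqrt_le_sqrt hm))
        (pow_le_pow_left₀ (inv_pos.2 hp).le (inv_anti₀ hj hm) q) (by positivity) (by positivity)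

omit O in
/-- `tr H ^ (q + 2) ≤ n s ^ (-1/2 - q) / t ^ (q + 3)` -/
theorem sum_hv_pow0 (q : ℕ) :
    ∑ a, hv t M S a ^ (q + 2) ≤ n * ((√(t ^ M))⁻¹ * (t ^ M)⁻¹ ^ q) * t⁻¹ ^ (q + 3) := by
  have h1 := h.sum_hv_pow q 0 (χ := fun _ => 1) (fun _ => le_rfl) fun a ha => absurd ha (by omega)
  simpa only [mul_one, nu_zero h.pos] using h1

omit O in
theorem sum_g_pow {z : ℝ} (g : Gp t M S z) (q : ℕ) :
    ∑ a, (z - S.lam a)⁻¹ ^ (q + 2) ≤ n * ((√(t ^ M))⁻¹ * (t ^ M)⁻¹ ^ q) * t⁻¹ ^ (q + 3) :=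
  (Finset.sum_le_sum fun a _ =>
    pow_le_pow_left₀ (inv_pos.2 (h.gap_pos g a)).le (h.g_le_hv g a) _).trans (h.sum_hv_pow0 q)

omit O in
theorem sum_hv_pow_high (q j : ℕ) :
    ∑ a, hv t M S a ^ (q + 2) * (1 - S.ind (sg t M j) a) ≤
      n * ((√(nu t M (j + 1)))⁻¹ * (nu t M (j + 1))⁻¹ ^ q) * t⁻¹ ^ (q + 3) := by
  refine h.sum_hv_pow q (j + 1) (fun a => ?_) fun a ha => ?_
  · rw [h.ind_eq]
    split_ifs <;> norm_num
  · rw [h.ind_eq, if_pos (by omega), sub_self]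

theorem trace_Hm : (Hm t M S O).trace ≤ n * t⁻¹ ^ 2 := by
  rw [Hm, trace_JO]
  exact h.sum_hv

theorem hsq_Hs : hsq (Hs t M S O) ≤ n * t⁻¹ ^ 2 := by
  rw [Hs, hsq_JO]
  simp only [Real.sq_sqrt (h.hv_pos _).le]
  exact h.sum_hv

theorem hsq_Hs_P (j : ℕ) :
    hsq (Hs t M S O * S.P (sg t M j) O) ≤ n * √(nu t M j) * t⁻¹ ^ 2 := by
  rw [Hs, Dat.P_eq, JO_mul, hsq_JO]
  refine le_trans (le_of_eq (Finset.sum_congr rfl fun a _ => ?_)) (h.sum_hv_low j)
  rw [mul_pow, Real.sq_sqrt (h.hv_pos a).le, h.ind_eq]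
  split_ifs <;> norm_num

theorem trace_Hm_P (j : ℕ) :
    (Hm t M S O * S.P (sg t M j) O).trace ≤ n * √(nu t M j) * t⁻¹ ^ 2 := by
  rw [Hm, Dat.P_eq, JO_mul, trace_JO]
  exact h.sum_hv_low j

theorem hsq_Hm : hsq (Hm t M S O) ≤ n * (√(t ^ M))⁻¹ * t⁻¹ ^ 3 := by
  rw [Hm, hsq_JO]
  simpa using h.sum_hv_pow0 0

theorem hsq_P (j : ℕ) : hsq (S.P (sg t M j) O) ≤ L * kl n t M j := by
  rw [Dat.P_eq, hsq_JO]
  refine le_trans (le_of_eq ?_) (h.card_low j)
  unfold Dat.ind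
  simp

theorem trace_P (j : ℕ) : (S.P (sg t M j) O).trace ≤ L * kl n t M j := by
  rw [Dat.P_eq, trace_JO]
  refine le_trans (le_of_eq ?_) (h.card_low j)
  unfold Dat.ind
  simp

/-! ### spreading on all levels -/

omit O in
/-- the event `RipL` fails with probability `(M + 3) exp (- n s ^ (3/2) / t ^ 2)` -/
theorem rip_prob {μ : Measure (OG n)} {x xt : Vec n} (hμ : FibL μ x xt) :
    μ.real {O | ¬RipL t M S O} ≤
      (M + 3) * Real.exp (-(n * (t ^ M * √(t ^ M)) * t⁻¹ ^ 2)) := by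
  have := hμ.prob
  have hx : ∀ i, x i ^ 2 = 1 := fun i => by rcases hμ.sgn i with e | e <;> simp [e]
  have e : {O : OG n | ¬RipL t M S O} = {O | ∃ j ∈ Finset.range (M + 3),
      ¬∀ a ∈ supp (S.low (sg t M j)),
        Spread (1202 * F.sq a) (kl n t M j * t⁻¹ ^ 3) (O.1ᵀ *ᵥ a)} := by
    ext O
    simp only [RipL, Set.mem_ofPred_eq, Finset.mem_range, not_forall, exists_prop,
      Nat.lt_succ_iff]
  rw [e]
  refine (Rip.real_exists_le μ _ _
    (p := Real.exp (-(n * (t ^ M * √(t ^ M)) * t⁻¹ ^ 2))) fun j _ => ?_).trans (le_of_eq ?_)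
  · have hk := kl_nonneg (n := n) (M := M) h.pos j
    have hi := h.inv1
    refine (rip_sign hx h.two_le_n hμ.explo _ (mul_nonneg hk (by positivity))).trans
      (Real.exp_le_exp.2 ?_)
    rw [finrank_supp, ← kl_zero h.pos]
    have h1 := h.card_low j
    have h2 := kl_mono (n := n) (M := M) h.pos h.one j.zero_le
    have h3 : 2 * L + t⁻¹ ^ 2 ≤ t⁻¹ ^ 3 := by
      have h4 := h.cL_le_inv
      have h5 := h.c_le_inv
      have h6 : t⁻¹ ≤ t⁻¹ ^ 2 := by nlinarith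
      nlinarith [h.hL]
    nlinarith [mul_le_mul_of_nonneg_left h3 hk, mul_le_mul_of_nonneg_right h2 (sq_nonneg t⁻¹)]
  · rw [Finset.card_range]
    push_cast
    ring

section Rip

variable {O} (r : RipL t M S O)
include r

omit h in
theorem spread {j : ℕ} (hj : j ≤ M + 2) {u : Vec n} (hu : S.P (sg t M j) O *ᵥ u = u) :
    Spread (1202 * F.sq u) (kl n t M j * t⁻¹ ^ 3) u := by
  have h1 : O.1 *ᵥ u ∈ supp (S.low (sg t M j)) := fun a ha => by
    rw [← hu, Dat.P_eq, act_JO]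
    simp [Dat.ind, ha]
  have h2 := r j hj _ h1
  rwa [sq_orth, Matrix.mulVec_mulVec, OG.transpose_mul, Matrix.one_mulVec] at h2

theorem spread_PL {j : ℕ} (hj : j ≤ M + 2) {u : Vec n} (hu : PL t M S j O *ᵥ u = u) :
    Spread (1202 * F.sq u) (kl n t M j * t⁻¹ ^ 3) u := by
  refine spread r hj ?_
  rw [← hu, Matrix.mulVec_mulVec, h.P_mul_PL O le_rfl]

/-- (L1) sparse restrictions of the low modes -/
theorem res_P {j : ℕ} (hj : j ≤ M + 2) {A : Finset (Fin n)}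
    (hA : (A.card : ℝ) ≤ kl n t M j * t⁻¹ ^ 2) :
    OpLe (res A * S.P (sg t M j) O) (t⁻¹ ^ 2 * √(nu t M j * √(nu t M j))) := by
  intro v
  have hn := h.npos
  have hi := h.inv1
  have hp := nu_pos (M := M) h.pos j
  have hP := S.isProj_P O (sg t M j)
  have h1 := (spread r hj (u := S.P (sg t M j) O *ᵥ v)
    (by rw [Matrix.mulVec_mulVec, hP.idem])).sparse (mul_nonneg (by norm_num) (sqN_nonneg _))
    (k := n * t ^ (2 * M)) (mul_pos hn (pow_pos h.pos _))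
    (mul_le_of_le_one_right hn.le (pow_le_one₀ h.pos.le h.one)) A
  have e1 : Real.log (n / (n * t ^ (2 * M))) = 2 * (M * Real.log t⁻¹) := by
    rw [div_mul_eq_div_div, div_self hn.ne', one_div, Sm.log_p]
    push_cast
    ring
  have hk := kl_nonneg (n := n) (M := M) h.pos j
  have h2 : n * t ^ (2 * M) ≤ kl n t M j := by
    refine le_trans ?_ (kl_mono h.pos h.one j.zero_le)
    rw [kl_zero h.pos, two_mul, pow_add]
    refine mul_le_mul_of_nonneg_left (mul_le_mul_of_nonneg_left ?_ h.s_pos.le) hn.le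
    rw [Real.le_sqrt h.s_pos.le h.s_pos.le]
    nlinarith [h.s_pos, h.s_le]
  have h3 := h.one_le_kl j
  have h4 := h.log_le_inv
  have h5 := h.c_le_inv
  have hl := mul_nonneg (Nat.cast_nonneg M : (0 : ℝ) ≤ M) h.log0
  obtain ⟨K, hK⟩ : ∃ K, K = kl n t M j := ⟨_, rfl⟩
  obtain ⟨i, hi'⟩ : ∃ i, i = t⁻¹ := ⟨_, rfl⟩
  obtain ⟨l, hl'⟩ : ∃ l, l = (M : ℝ) * Real.log t⁻¹ := ⟨_, rfl⟩
  rw [e1, ← hl', ← hK, ← hi'] at h1
  rw [← hl'] at h4 hl
  rw [← hK] at hA hk h2 h3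
  rw [← hi'] at hA h3 h4 h5 hi
  have hKi : 0 ≤ K * i ^ 2 := by positivity
  have h6 : (2 * l + 2) * ((A.card : ℝ) + 1) ≤ K * i ^ 3 := by
    calc (2 * l + 2) * ((A.card : ℝ) + 1) ≤ (2 * l + 2) * (2 * (K * i ^ 2)) :=
          mul_le_mul_of_nonneg_left (by linarith) (by linarith)
      _ = 4 * (l + 1) * (K * i ^ 2) := by ring
      _ ≤ i * (K * i ^ 2) := mul_le_mul_of_nonneg_right (by linarith) hKi
      _ = K * i ^ 3 := by ring
  have h7 : K ≤ K * i ^ 3 := le_mul_of_one_le_right hk (one_le_pow₀ hi)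
  have h8 : 1202 * (K * i ^ 3 + n * t ^ (2 * M) + (2 * l + 2) * ((A.card : ℝ) + 1)) ≤
      K * i ^ 4 := by
    have h9 : 0 ≤ K * i ^ 3 := by positivity
    calc _ ≤ 3606 * (K * i ^ 3) := by linarith
      _ ≤ i * (K * i ^ 3) := mul_le_mul_of_nonneg_right (by linarith) h9
      _ = K * i ^ 4 := by ring
  have h10 := hP.sq_le v
  have h11 := sqN_nonneg (S.P (sg t M j) O *ᵥ v)
  rw [← Matrix.mulVec_mulVec, sq_res, mul_pow, Real.sq_sqrt (by positivity), ← hi']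
  refine le_of_mul_le_mul_left (h1.trans ?_) hn
  calc _ = 1202 * (K * i ^ 3 + n * t ^ (2 * M) + (2 * l + 2) * ((A.card : ℝ) + 1)) *
        F.sq (S.P (sg t M j) O *ᵥ v) := by ring
    _ ≤ K * i ^ 4 * F.sq v := mul_le_mul h8 h10 h11 (by positivity)
    _ = _ := by rw [hK, kl]; ring

theorem res_P0 {j : ℕ} (hj : j ≤ M + 2) {A : Finset (Fin n)}
    (hA : (A.card : ℝ) ≤ kl n t M 0 * t⁻¹ ^ 2) :
    OpLe (res A * S.P (sg t M j) O) (t⁻¹ ^ 2 * √(nu t M j * √(nu t M j))) :=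
  h.res_P r hj (hA.trans
    (mul_le_mul_of_nonneg_right (kl_mono h.pos h.one j.zero_le) (sq_nonneg _)))

theorem res_PL {j : ℕ} (hj : j ≤ M + 2) {A : Finset (Fin n)}
    (hA : (A.card : ℝ) ≤ kl n t M 0 * t⁻¹ ^ 2) :
    OpLe (res A * PL t M S j O) (t⁻¹ ^ 2 * √(nu t M j * √(nu t M j))) := by
  have h1 := (h.res_P0 r hj hA).mulN (Rip.opLe_proj (isProj_PL t M S O j)) (by positivity)
    zero_le_one
  rwa [mul_one, Matrix.mul_assoc, h.P_mul_PL O le_rfl] at h1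

/-- the projection on the top eigenspace -/
theorem res_V {A : Finset (Fin n)} (hA : (A.card : ℝ) ≤ kl n t M 0 * t⁻¹ ^ 2) :
    OpLe (res A * S.P 0 O) (t⁻¹ ^ 2 * √(t ^ M * √(t ^ M))) := by
  have h1 := h.res_P0 r (j := 0) (by omega) hA
  rwa [sg_zero, nu_zero h.pos] at h1

omit r in
theorem opLe_step {R : Mat n} {f ρ : ℕ → ℝ} {c : ℝ} (hρ : ∀ j, 0 ≤ ρ j)
    (hR : ∀ j ≤ M + 2, OpLe (R * PL t M S j O) (ρ j)) (hc : ∀ j ≤ M + 2, |f j| * ρ j ≤ c) :
    OpLe (R * JO (fun a => f (lv t M S a)) O) ((M + 3) * c) := by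
  refine opLe_of_nv fun v => ?_
  rw [h.step_eq_sum, Finset.mul_sum, Matrix.sum_mulVec]
  refine (nv_sum_le _ _).trans ((Finset.sum_le_card_nsmul _ _ (c * nv v) fun j hj => ?_).trans
    (le_of_eq ?_))
  · have hj' := Nat.lt_succ_iff.1 (Finset.mem_range.1 hj)
    rw [Matrix.mul_smul]
    exact (((hR j hj').smul (hρ j) (f j)).nv_le (mul_nonneg (abs_nonneg _) (hρ j)) v).trans
      (mul_le_mul_of_nonneg_right (hc j hj') (nv_nonneg v))
  · rw [Finset.card_range, nsmul_eq_mul]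
    push_cast
    ring

omit r in
theorem al_mul (j : ℕ) : al t M j * √(nu t M j * √(nu t M j)) = √t⁻¹ * √√(nu t M j) := by
  have hp := nu_pos (M := M) h.pos j
  rw [al, ← Real.sqrt_mul (inv_pos.2 (mul_pos h.pos hp)).le, ← Real.sqrt_mul h.inv0.le]
  congr 1
  have := hp.ne'
  have := h.pos.ne'
  field_simp

omit r in
theorem M_sqrt : ((M : ℝ) + 3) * √t⁻¹ ≤ t⁻¹ := by
  have h1 : (M : ℝ) + 3 ≤ √t⁻¹ := Real.le_sqrt_of_sq_le h.sq_le_inv
  exact (mul_le_mul_of_nonneg_right h1 (Real.sqrt_nonneg _)).trans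
    (Real.mul_self_sqrt h.inv0.le).le

/-- (L1) `‖1_A H ^ (1/2) P_ε‖ ≤ ε ^ (1/4) / t ^ 3` -/
theorem res_Hs_P (j : ℕ) {A : Finset (Fin n)} (hA : (A.card : ℝ) ≤ kl n t M 0 * t⁻¹ ^ 2) :
    OpLe (res A * (Hs t M S O * S.P (sg t M j) O)) (t⁻¹ ^ 3 * √√(nu t M j)) := by
  have e : Hs t M S O * S.P (sg t M j) O =
      JO (fun a => (fun i => if i ≤ j then al t M i else 0) (lv t M S a)) O := by
    rw [Hs_eq, Dat.P_eq, JO_mul]
    congr 1
    funext a
    rw [h.ind_eq]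
    simp
  have hi := h.inv0
  rw [e]
  refine (h.opLe_step (f := fun i => if i ≤ j then al t M i else 0)
    (c := t⁻¹ ^ 2 * (√t⁻¹ * √√(nu t M j))) (fun i => by positivity)
    (fun i hi => h.res_PL r hi hA) fun i _ => ?_).monoN (by positivity) ?_
  · split_ifs with hij
    · rw [abs_of_pos (al_pos h.pos i), mul_left_comm, h.al_mul]
      exact mul_le_mul_of_nonneg_left (mul_le_mul_of_nonneg_left
        (Real.sqrt_le_sqrt (Real.sqrt_le_sqrt (nu_mono h.pos h.one hij))) (Real.sqrt_nonneg _))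
        (sq_nonneg _)
    · rw [abs_zero, zero_mul]
      positivity
  · calc _ = ((M : ℝ) + 3) * √t⁻¹ * (t⁻¹ ^ 2 * √√(nu t M j)) := by ring
      _ ≤ t⁻¹ * (t⁻¹ ^ 2 * √√(nu t M j)) := mul_le_mul_of_nonneg_right h.M_sqrt (by positivity)
      _ = _ := by ring

/-- (L1) `‖1_A H ^ (1/2)‖ ≤ 1 / t ^ 3` -/
theorem res_Hs {A : Finset (Fin n)} (hA : (A.card : ℝ) ≤ kl n t M 0 * t⁻¹ ^ 2) :
    OpLe (res A * Hs t M S O) (t⁻¹ ^ 3) := by
  have hi := h.inv0
  have hi1 := h.inv1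
  have hs : 1 ≤ √t⁻¹ := Real.one_le_sqrt.2 hi1
  rw [Hs_eq]
  refine (h.opLe_step (f := al t M)
    (ρ := fun i => if i ≤ M + 1 then t⁻¹ ^ 2 * √(nu t M i * √(nu t M i)) else 1)
    (c := t⁻¹ ^ 2 * √t⁻¹) (fun i => ?_) (fun i hi => ?_) fun i hi => ?_).monoN
    (by positivity) ?_
  · split_ifs <;> positivity
  · split_ifs
    · exact h.res_PL r hi hA
    · simpa using (Rip.opLe_proj (isProj_res A)).mulN (Rip.opLe_proj (isProj_PL t M S O i))
        zero_le_one zero_le_one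
  · rw [abs_of_pos (al_pos h.pos i)]
    split_ifs with h1
    · rw [mul_left_comm, h.al_mul]
      exact mul_le_mul_of_nonneg_left (mul_le_of_le_one_right (Real.sqrt_nonneg _)
        (Real.sqrt_le_one.2 (Real.sqrt_le_one.2 (nu_le_one h.pos h.one h1)))) (sq_nonneg _)
    · rw [show i = M + 2 by omega, al_top h.pos, one_mul]
      exact one_le_mul_of_one_le_of_one_le (one_le_pow₀ hi1) hs
  · calc _ = ((M : ℝ) + 3) * √t⁻¹ * t⁻¹ ^ 2 := by ring
      _ ≤ t⁻¹ * t⁻¹ ^ 2 := mul_le_mul_of_nonneg_right h.M_sqrt (by positivity)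
      _ = _ := by ring

omit r in
theorem card_one (i : Fin n) : ((({i} : Finset (Fin n)).card : ℕ) : ℝ) ≤ kl n t M 0 * t⁻¹ ^ 2 := by
  simpa using h.one_le_kl 0

theorem col_Hs (i : Fin n) : nv (Hs t M S O *ᵥ Pi.single i 1) ≤ t⁻¹ ^ 3 :=
  col_le (pow_pos h.inv0 3).le (by rw [Hs_tr]; exact h.res_Hs r (h.card_one i))

theorem col_Hs_P (j : ℕ) (i : Fin n) :
    nv ((Hs t M S O * S.P (sg t M j) O) *ᵥ Pi.single i 1) ≤ t⁻¹ ^ 3 * √√(nu t M j) := by
  have hi := h.inv0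
  refine col_le (by positivity) ?_
  rw [transpose_mul, Hs_tr, (S.isProj_P O _).symm, Hs, S.P_comm]
  exact h.res_Hs_P r j (h.card_one i)

theorem col_P {j : ℕ} (hj : j ≤ M + 2) (i : Fin n) :
    nv (S.P (sg t M j) O *ᵥ Pi.single i 1) ≤ t⁻¹ ^ 2 * √(nu t M j * √(nu t M j)) :=
  col_le (by positivity) (by rw [(S.isProj_P O _).symm]; exact h.res_P0 r hj (h.card_one i))

theorem col_V (i : Fin n) : nv (S.P 0 O *ᵥ Pi.single i 1) ≤ t⁻¹ ^ 2 * √(t ^ M * √(t ^ M)) :=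
  col_le (by positivity) (by rw [(S.isProj_P O _).symm]; exact h.res_V r (h.card_one i))

end Rip

omit O in
/-- the size of the clipping error on the level `j` -/
theorem clip_size (hl : Real.log n ≤ kl n t M 0) (j : ℕ) :
    2 * 1202 * (kl n t M j * t⁻¹ ^ 3 + 2 * Real.log n + 5) / n ≤
      nu t M j * √(nu t M j) * t⁻¹ ^ 4 := by
  have hi := h.inv1
  have hk := kl_nonneg (n := n) (M := M) h.pos j
  have h1 := hl.trans (kl_mono h.pos h.one j.zero_le)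
  have h2 := h.one_le_kl j
  have h3 : kl n t M j ≤ kl n t M j * t⁻¹ ^ 3 := le_mul_of_one_le_right hk (one_le_pow₀ hi)
  have h4 : kl n t M j * t⁻¹ ^ 2 ≤ kl n t M j * t⁻¹ ^ 3 :=
    mul_le_mul_of_nonneg_left (pow_le_pow_right₀ hi (by norm_num)) hk
  have h5 : 0 ≤ kl n t M j * t⁻¹ ^ 3 := hk.trans h3
  rw [div_le_iff₀ h.npos]
  calc _ ≤ 100000 * (kl n t M j * t⁻¹ ^ 3) := by linarith
    _ ≤ t⁻¹ * (kl n t M j * t⁻¹ ^ 3) := mul_le_mul_of_nonneg_right h.c_le_inv h5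
    _ = _ := by rw [kl]; ring

end LV

/-! ### the instance of block T1 -/

theorem lv_of_adm {L t : ℝ} {S : Dat n} (hs : Sm L t) (h : Adm L t S)
    (hc : ∀ σ, t ^ 288000 ≤ σ → ((S.low σ).card : ℝ) ≤ L * n * (σ * √σ)) : LV L t 288000 S where
  hL := hs.L1
  hM := by norm_num
  pos := hs.pos
  one := hs.one
  sm := by
    have h1 := hs.clog (C := 100000 * 288003 ^ 2) (a := 1) (b := 1) (by norm_num) (by norm_num)
      (by norm_num)
    rw [pow_one, pow_one] at h1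
    refine le_trans (le_of_eq ?_) h1
    norm_num
  big := by
    have e1 : √(t ^ 288000) = t ^ 144000 := hs.sqrt_p 144000
    have e2 : t⁻¹ ^ 2 * t ^ (2 + 431998) = t ^ 431998 := hs.ip_eq 2 431998
    rw [e1, ← pow_add, mul_assoc, mul_comm _ (t⁻¹ ^ 2), e2]
    exact h.big
  top := h.top
  bot := h.bot
  cnt := hc

theorem rate_eq {L t : ℝ} (hs : Sm L t) :
    n * (t ^ 288000 * √(t ^ 288000)) * t⁻¹ ^ 2 = n * t ^ 431998 := by
  have e1 : √(t ^ 288000) = t ^ 144000 := hs.sqrt_p 144000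
  have e2 : t⁻¹ ^ 2 * t ^ (2 + 431998) = t ^ 431998 := hs.ip_eq 2 431998
  rw [e1, ← pow_add, mul_assoc, mul_comm _ (t⁻¹ ^ 2), e2]

theorem kl_rate {L t : ℝ} (hs : Sm L t) : kl n t 288000 0 * t⁻¹ ^ 2 = n * t ^ 431998 := by
  rw [kl_zero hs.pos, rate_eq hs]

/-- every `z` near the saddle is admissible -/
theorem gp_of_adm {L t z : ℝ} {S : Dat n} (hs : Sm L t) (h : Adm L t S)
    (hz : |z - S.z0| ≤ t ^ 288001) : Gp t 288000 S z := by
  have h1 := hs.cLp (C := 2) (k := 1) (by norm_num) (by norm_num) (a := 288001) (b := 288000)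
    (by norm_num)
  have h2 : 2 * t ^ 288001 ≤ 2 * t ^ 288000 / L := by
    rw [le_div_iff₀ hs.L0]
    linarith [hs.p0 288000]
  have h3 := hs.cLp (C := 4) (k := 1) (by norm_num) (by norm_num) (a := 288001) (b := 288000)
    (by norm_num)
  have h4 := hs.cp (C := 4) (by norm_num) (a := 288002) (b := 288000) (by norm_num)
  have h5 := abs_le.1 hz
  have e1 : t * t ^ 288000 = t ^ 288001 := (pow_succ' t 288000).symm
  have e2 : t * t ^ 288001 = t ^ 288002 := (pow_succ' t 288001).symm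
  constructor
  · change t ^ 288001 ≤ _
    linarith [h.lo, h5.1]
  · have h6 : z - S.gam ≤ L * t ^ 288000 + t ^ 288001 := by linarith [h.hi, h5.2]
    have h7 := mul_le_mul_of_nonneg_left h6 hs.pos.le
    rw [mul_add, mul_left_comm, e1, e2] at h7
    rw [pow_one] at h3
    linarith

theorem gp_z0 {L t : ℝ} {S : Dat n} (hs : Sm L t) (h : Adm L t S) : Gp t 288000 S S.z0 :=
  gp_of_adm hs h (by rw [sub_self, abs_zero]; exact (hs.p0 _).le)

theorem rip_T1 {L t : ℝ} {S : Dat n} (hs : Sm L t) (h : LV L t 288000 S) {μ : Measure (OG n)}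
    {x xt : Vec n} (hμ : FibL μ x xt) :
    μ.real {O | ¬RipL t 288000 S O} ≤ 288003 * Real.exp (-(n * t ^ 431998)) := by
  have h1 := h.rip_prob hμ
  rw [rate_eq hs] at h1
  refine h1.trans (le_of_eq ?_)
  norm_num

end Vale.Agent.N150.T2LV
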