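import Vale.Agent.N150.T2Cv
import Vale.Agent.N150.T2LLev
import Vale.Agent.N150.T1Alg2

/-! T2, block L: the frame data `Fr` of the cap data and the spreading event `RL`. -/

open MeasureTheory Matrix Filter Topology

namespace Vale.Agent.N150.T2LV

open Vale.Agent.P150 Vale.Agent.P150.F Vale.Agent.N150.Fib Vale.Agent.N150.Sp
  Vale.Agent.N150.T1 Vale.Agent.N150.Rip Vale.Agent.N150.T2 Vale.Agent.N150.EC

variable {n : ℕ}

theorem lt_card_iff {p : ℕ → Prop} [DecidablePred p] (hp : ∀ i j, i ≤ j → p j → p i) {N i : ℕ}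
    (hi : i < N) : i < ((Finset.range N).filter p).card ↔ p i := by
  constructor
  · intro h
    by_contra hc
    have h1 : (Finset.range N).filter p ⊆ Finset.range i := fun j hj =>
      Finset.mem_range.2 (not_le.1 fun hij => hc (hp i j hij (Finset.mem_filter.1 hj).2))
    have h2 := Finset.card_le_card h1
    rw [Finset.card_range] at h2
    omega
  · intro h
    have h1 : Finset.range (i + 1) ⊆ (Finset.range N).filter p := fun j hj => by
      have := Finset.mem_range.1 hj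
      exact Finset.mem_filter.2 ⟨Finset.mem_range.2 (by omega), hp j i (by omega) h⟩
    have h2 := Finset.card_le_card h1
    rw [Finset.card_range] at h2
    omega

/-- a sum over the spectrum, label by label -/
theorem sum_lab {g : Fin n → ℕ} {N : ℕ} (hg : ∀ a, g a ≤ N) {F : Fin n → ℝ} {b c : ℕ → ℝ} {X : ℝ}
    (hb : ∀ j, 0 ≤ b j) (hF : ∀ a, F a ≤ b (g a))
    (hc : ∀ m < N, ((Finset.univ.filter fun a => g a = m + 1).card : ℝ) ≤ c m)
    (h0 : n * b 0 ≤ X) (h1 : ∀ m < N, c m * b (m + 1) ≤ X) : ∑ a, F a ≤ (N + 1) * X := by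
  rw [← Finset.sum_fiberwise_of_maps_to (s := Finset.univ) (t := Finset.range (N + 1))
    (g := g) fun a _ => Finset.mem_range.2 (Nat.lt_succ_of_le (hg a))]
  refine (Finset.sum_le_card_nsmul _ _ X fun j hj => ?_).trans (le_of_eq ?_)
  · refine (Finset.sum_le_card_nsmul _ _ (b j) fun a ha =>
      (Finset.mem_filter.1 ha).2 ▸ hF a).trans ?_
    rw [nsmul_eq_mul]
    have hj' := Finset.mem_range.1 hj
    rcases j with _ | m
    · refine (mul_le_mul_of_nonneg_right ?_ (hb 0)).trans h0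
      exact_mod_cast (Finset.card_le_univ _).trans (Fintype.card_fin n).le
    · exact (mul_le_mul_of_nonneg_right (hc m (by omega)) (hb _)).trans (h1 m (by omega))
  · rw [Finset.card_range, nsmul_eq_mul]
    push_cast
    ring

section Lab

variable {L t : ℝ} {S : Dat n} {V : Finset (Fin n)}

theorem lab_le (t : ℝ) (S : Dat n) (V : Finset (Fin n)) (a : Fin n) : lab t S V a ≤ 144002 := by
  unfold lab
  split_ifs
  · exact le_rfl
  · exact (Finset.card_filter_le _ _).trans (by rw [Finset.card_range]; norm_num)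

theorem lab_top {a : Fin n} : 144001 < lab t S V a ↔ a ∈ V := by
  unfold lab
  split_ifs with ha
  · exact ⟨fun _ => ha, fun _ => by norm_num⟩
  · refine ⟨fun h => absurd h (not_lt.2 ?_), fun h => absurd h ha⟩
    exact (Finset.card_filter_le _ _).trans (Finset.card_range _).le

theorem lt_lab (hs : Sm L t) (hc : Cp L t S V) {i : ℕ} (hi : i ≤ 144000) {a : Fin n} :
    i < lab t S V a ↔ S.gam - S.lam a ≤ t ^ (2 * i) := by
  unfold lab
  split_ifs with ha
  · rw [hc.vl a ha, sub_self]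
    exact ⟨fun _ => (hs.p0 _).le, fun _ => by omega⟩
  · exact lt_card_iff (fun i j hij h => h.trans (hs.pw (by omega))) (by omega)

theorem PL_eq (hs : Sm L t) (hc : Cp L t S V) {i : ℕ} (hi : i ≤ 144000) (O : OG n) :
    T2.PL (lab t S V) i O = S.P (t ^ (2 * i)) O := by
  rw [Dat.P_eq]
  unfold T2.PL Dat.ind
  simp only [lt_lab hs hc hi, S.mem_low]

theorem PL_top (t : ℝ) (S : Dat n) (V : Finset (Fin n)) (O : OG n) :
    T2.PL (lab t S V) 144001 O = PV V O := by
  unfold T2.PL PV res JO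
  simp only [lab_top]

theorem sum_ind (hs : Sm L t) (hc : Cp L t S V) {i : ℕ} (hi : i ≤ 144000) :
    ∑ a, (if i < lab t S V a then (1 : ℝ) else 0) ≤ L * n * t ^ (3 * i) := by
  refine le_trans (le_of_eq ?_) (hc.cnt i hi)
  simp only [lt_lab hs hc hi, Finset.sum_boole, Dat.low]

theorem card_lab (hs : Sm L t) (hc : Cp L t S V) {m : ℕ} (hm : m < 144001) :
    ((Finset.univ.filter fun a => min (lab t S V a) 144001 = m + 1).card : ℝ) ≤
      L * n * t ^ (3 * m) := by
  refine le_trans (Nat.cast_le.2 (Finset.card_le_card fun a ha => ?_)) (hc.cnt m (by omega))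
  have h1 := (Finset.mem_filter.1 ha).2
  exact S.mem_low.2 ((lt_lab hs hc (by omega)).1 (by omega))

theorem hf_pos {del : ℝ} (hs : Sm L t) (hd : 0 < del) (l : ℕ) : 0 < hf t del l := by
  unfold hf
  split_ifs
  · exact inv_pos.2 (add_pos hd (hs.p0 _))
  · exact inv_pos.2 hd

theorem hf_le {del : ℝ} (hs : Sm L t) (hd : t ^ 288001 ≤ del) (l : ℕ) :
    hf t del l ≤ t⁻¹ ^ (2 * min l 144001) := by
  have h0 := (hs.p0 288001).trans_le hd
  unfold hf
  split_ifs with hl
  · rw [min_eq_left (by omega), inv_pow]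
    exact inv_anti₀ (hs.p0 _) (by linarith)
  · rw [min_eq_right (by omega), inv_pow]
    exact inv_anti₀ (hs.p0 _) ((hs.pw (by norm_num)).trans hd)

theorem big_n (hs : Sm L t) (hb : 1 ≤ n * t ^ 564000) : t⁻¹ ^ 564000 ≤ n := by
  have e := mul_le_mul_of_nonneg_left hb (hs.i0 564000).le
  have e2 := hs.ip_eq 564000 0
  rw [pow_zero, add_zero] at e2
  rwa [mul_one, mul_left_comm, e2, mul_one] at e

theorem one_le_log (hs : Sm L t) (hb : 1 ≤ n * t ^ 564000) : 1 ≤ Real.log n := by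
  have h1 : (3 : ℝ) ≤ n := by
    refine le_trans ?_ (big_n hs hb)
    have h2 := hs.iw (a := 1) (b := 564000) (by norm_num)
    rw [pow_one] at h2
    exact (hs.c_inv (by norm_num)).trans h2
  rw [Real.le_log_iff_exp_le (by linarith)]
  exact (Real.exp_one_lt_three.le).trans h1

theorem rr_pow (hs : Sm L t) (hb : 1 ≤ n * t ^ 564000) : rr t n ^ 100 ≤ n := by
  have hn : (0 : ℝ) ≤ n := Nat.cast_nonneg _
  have h1 : Real.log n ≤ (n : ℝ) ^ (1 / 200 : ℝ) / (1 / 200) :=
    Real.log_le_rpow_div hn (by norm_num)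
  have h2 : ((n : ℝ) ^ (1 / 200 : ℝ)) ^ 100 = √n := by
    rw [← Real.rpow_natCast, ← Real.rpow_mul hn, Real.sqrt_eq_rpow]
    norm_num
  have h3 : Real.log n ≤ t⁻¹ * (n : ℝ) ^ (1 / 200 : ℝ) := by
    refine h1.trans ?_
    have h4 : (200 : ℝ) ≤ t⁻¹ := hs.c_inv (by norm_num)
    have h5 : 0 ≤ (n : ℝ) ^ (1 / 200 : ℝ) := Real.rpow_nonneg hn _
    nlinarith
  have h4 : Real.log n ^ 100 ≤ t⁻¹ ^ 100 * √n := by
    rw [← h2, ← mul_pow]
    exact pow_le_pow_left₀ (by linarith [one_le_log hs hb]) h3 100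
  have h5 : t⁻¹ ^ 30100 ≤ √n := by
    refine Real.le_sqrt_of_sq_le (le_trans ?_ (big_n hs hb))
    rw [← pow_mul]
    exact hs.iw (by norm_num)
  have h6 := hs.i0 30000
  calc rr t n ^ 100 = t⁻¹ ^ 30000 * Real.log n ^ 100 := by rw [rr, mul_pow, ← pow_mul]
    _ ≤ t⁻¹ ^ 30000 * (t⁻¹ ^ 100 * √n) := mul_le_mul_of_nonneg_left h4 h6.le
    _ = t⁻¹ ^ 30100 * √n := by rw [← mul_assoc, ← pow_add]
    _ ≤ √n * √n := mul_le_mul_of_nonneg_right h5 (Real.sqrt_nonneg _)
    _ = n := Real.mul_self_sqrt hn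

theorem fin_le (hs : Sm L t) {y : ℝ} (hy : 0 ≤ y) {k l : ℕ} (hkl : k < l) :
    ((144001 : ℕ) + 1 : ℝ) * (L * n * (y * t⁻¹ ^ k)) ≤ n * (y * t⁻¹ ^ l) := by
  have h1 := hs.abi (x := 144002 * L ^ 1) (hs.cL (by norm_num) (by norm_num)) hkl
  have h2 := mul_le_mul_of_nonneg_left h1 (mul_nonneg (Nat.cast_nonneg n) hy)
  refine le_trans (le_of_eq ?_) (h2.trans (le_of_eq (by ring)))
  push_cast
  ring

theorem sum_hf_pow (hs : Sm L t) (hc : Cp L t S V) {del : ℝ} (hd : t ^ 288001 ≤ del) (p k l : ℕ)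
    (hk : ∀ m ≤ 144000, 2 * (m + 1) * p ≤ 3 * m + k) (hkl : k < l) :
    ∑ a, hf t del (lab t S V a) ^ p ≤ n * t⁻¹ ^ l := by
  have h0 := (hs.p0 288001).trans_le hd
  have hn : (0 : ℝ) ≤ n := Nat.cast_nonneg _
  have hLn : 0 ≤ L * n := mul_nonneg hs.L0.le hn
  have h1 := sum_lab (g := fun a => min (lab t S V a) 144001) (N := 144001)
    (fun a => min_le_right _ _) (F := fun a => hf t del (lab t S V a) ^ p)
    (b := fun j => t⁻¹ ^ (2 * j * p)) (c := fun m => L * n * t ^ (3 * m))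
    (X := L * n * (1 * t⁻¹ ^ k)) (fun j => (hs.i0 _).le)
    (fun a => by
      rw [pow_mul]
      exact pow_le_pow_left₀ (hf_pos hs h0 _).le (hf_le hs hd _) p)
    (fun m hm => card_lab hs hc hm)
    (by
      rw [mul_zero, zero_mul, pow_zero, mul_one, one_mul]
      nlinarith [hs.i1 k, hs.L1, mul_le_mul_of_nonneg_right hs.L1 hn])
    (fun m hm => by
      rw [mul_assoc, one_mul]
      exact mul_le_mul_of_nonneg_left (hs.pi (hk m (by omega))) hLn)
  have h2 := fin_le (n := n) hs zero_le_one hkl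
  rw [one_mul (t⁻¹ ^ l)] at h2
  exact h1.trans h2

theorem sum_hf_ind (hs : Sm L t) (hc : Cp L t S V) {del : ℝ} (hd : t ^ 288001 ≤ del) {i : ℕ}
    (hi : i ≤ 144000) :
    ∑ a, (if i < lab t S V a then (1 : ℝ) else 0) * hf t del (lab t S V a) ≤
      n * (t ^ i * t⁻¹ ^ 3) := by
  have h0 := (hs.p0 288001).trans_le hd
  have hn : (0 : ℝ) ≤ n := Nat.cast_nonneg _
  have hLn : 0 ≤ L * n := mul_nonneg hs.L0.le hn
  have hX : 0 ≤ L * n * (t ^ i * t⁻¹ ^ 2) := mul_nonneg hLn (mul_pos (hs.p0 _) (hs.i0 _)).le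
  refine (sum_lab (g := fun a => min (lab t S V a) 144001) (N := 144001)
    (fun a => min_le_right _ _) (b := fun j => if i < j then t⁻¹ ^ (2 * j) else 0)
    (c := fun m => L * n * t ^ (3 * m)) (X := L * n * (t ^ i * t⁻¹ ^ 2)) (fun j => ?_)
    (fun a => ?_) (fun m hm => card_lab hs hc hm) ?_ fun m hm => ?_).trans
    (fin_le hs (hs.p0 i).le (by norm_num))
  · split_ifs
    exacts [(hs.i0 _).le, le_rfl]
  · by_cases ha : i < lab t S V a
    · rw [if_pos ha, if_pos (by omega), one_mul]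
      exact hf_le hs hd _
    · rw [if_neg ha, if_neg (by omega), zero_mul]
  · rw [if_neg (by omega), mul_zero]
    exact hX
  · split_ifs with him
    · obtain ⟨d, hd⟩ : ∃ d, 3 * m = i + d := ⟨3 * m - i, by omega⟩
      rw [hd, pow_add, mul_assoc, mul_assoc (t ^ i)]
      exact mul_le_mul_of_nonneg_left
        (mul_le_mul_of_nonneg_left (hs.pi (by omega)) (hs.p0 _).le) hLn
    · rw [mul_zero]
      exact hX

end Lab

theorem frStmt : FrStmt := by
  refine (ev_sm.and T1A.d2Stmt).mono ?_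
  rintro L t - ⟨hs, h2⟩ n S V x xt O O0 Pi h u v H
  have ha := H.adm
  have hc := H.cap
  have hR := H.out.reg h H.ball
  obtain ⟨dw, dz, -⟩ := h2 n S O h h 0 0 ha hR hR le_rfl (by rw [nv_zero, mul_zero])
  rw [zh_eq] at dz
  have g := gp_of_adm hs ha (dz.trans (hs.pw (by norm_num)))
  have dlo : t ^ 288001 ≤ zc S h - S.gam := g.lo
  have d0 := (hs.p0 288001).trans_le dlo
  have dhi : zc S h - S.gam ≤ t ^ 287998 := by
    have h3 := hs.cLp (C := 2) (k := 1) (by norm_num) (by norm_num) (a := 288000) (b := 287998)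
      (by norm_num)
    have h4 := hs.cp (C := 2) (by norm_num) (a := 358800) (b := 287998) (by norm_num)
    rw [pow_one] at h3
    linarith [ha.hi, (abs_le.1 dz).2]
  have d1 := dhi.trans (hs.p1 _)
  have hn : (0 : ℝ) ≤ n := Nat.cast_nonneg _
  have e5 : ∀ {y : ℝ}, 0 ≤ y → n * (y * t⁻¹ ^ 3) ≤ n * (y * t⁻¹ ^ 5) := fun hy =>
    mul_le_mul_of_nonneg_left (mul_le_mul_of_nonneg_left (hs.iw (by norm_num)) hy) hn
  refine ⟨hc.big, ?_, rr_pow hs hc.big, dlo, dhi, fun a => ?_, fun a => ?_, fun a hl => ?_,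
    fun a => ?_, fun a => ?_, fun a => ?_, fun i hi a hl => ?_, fun i hi => ?_, fun i hi => ?_,
    ?_, ?_, ?_, ?_, T1A.wb_le ha.npos h, ?_⟩
  · exact one_le_mul_of_one_le_of_one_le (hs.i1 300) (one_le_log hs hc.big)
  · exact sub_le_sub_left (ha.top a) _
  · change zc S h - S.lam a ≤ 7
    linarith [ha.bot a]
  · change zc S h - S.lam a = zc S h - S.gam
    rw [hc.vl a (lab_top.1 hl)]
  · change 1 ≤ hf t (zc S h - S.gam) (lab t S V a) * (zc S h - S.lam a)
    unfold hf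
    split_ifs with hl
    · have h3 := not_le.1 fun hc' => lt_irrefl _ ((lt_lab hs hc hl).2 hc')
      rw [inv_mul_eq_div, one_le_div (add_pos d0 (hs.p0 _))]
      linarith
    · rw [inv_mul_eq_div, one_le_div d0]
      linarith [ha.top a]
  · change hf t (zc S h - S.gam) (lab t S V a) * (zc S h - S.lam a) ≤ t⁻¹ ^ 3
    have i2 : 7 ≤ t⁻¹ := hs.c_inv (by norm_num)
    have i3 : t⁻¹ ^ 2 ≤ t⁻¹ ^ 3 := hs.iw (by norm_num)
    have i4 : 7 ≤ t⁻¹ ^ 2 := by nlinarith
    unfold hf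
    split_ifs with hl
    · rw [inv_mul_eq_div, div_le_iff₀ (add_pos d0 (hs.p0 _))]
      have h3 : S.gam - S.lam a ≤ t⁻¹ ^ 2 * t ^ (2 * lab t S V a) := by
        rcases hm : lab t S V a with _ | m
        · rw [mul_zero, pow_zero, mul_one]
          linarith [ha.bot a]
        · rw [show 2 * (m + 1) = 2 + 2 * m by ring, hs.ip_eq]
          exact (lt_lab hs hc (by omega)).1 (by omega)
      have h4 := hs.p0 (2 * lab t S V a)
      nlinarith [mul_le_mul_of_nonneg_right i3 h4.le, mul_le_mul_of_nonneg_right (hs.i1 3) d0.le]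
    · rw [inv_mul_eq_div, div_le_iff₀ d0]
      have h3 : S.gam - S.lam a ≤ t ^ (2 * 144000) := (lt_lab hs hc le_rfl).1 (by omega)
      have h4 : t⁻¹ ^ 1 * t ^ (1 + 288000) = t ^ 288000 := hs.ip_eq 1 288000
      have h5 := mul_le_mul_of_nonneg_left dlo hs.inv0.le
      rw [pow_one] at h4
      have h6 : S.gam - S.lam a ≤ t⁻¹ * (zc S h - S.gam) := h3.trans (h4.symm.le.trans h5)
      have h7 : 1 + t⁻¹ ≤ t⁻¹ ^ 3 := by nlinarith
      nlinarith [mul_le_mul_of_nonneg_right h7 d0.le]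
  · change hf t (zc S h - S.gam) (lab t S V a) * (zc S h - S.gam) ≤ 1
    unfold hf
    split_ifs with hl
    · rw [inv_mul_eq_div, div_le_one (add_pos d0 (hs.p0 _))]
      linarith [hs.p0 (2 * lab t S V a)]
    · rw [inv_mul_cancel₀ d0.ne']
  · change hf t (zc S h - S.gam) (lab t S V a) * t ^ (2 * i) ≤ 1
    have hl' : lab t S V a ≤ i := hl
    unfold hf
    rw [if_pos (hl'.trans hi), inv_mul_eq_div, div_le_one (add_pos d0 (hs.p0 _))]
    linarith [hs.pw (a := 2 * i) (b := 2 * lab t S V a) (by omega)]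
  · refine (mul_le_mul_of_nonneg_left (sum_ind hs hc hi) hs.pos.le).trans ?_
    have h3 := hs.cL (C := 1) (a := 1) (by norm_num) (by norm_num)
    have h4 := mul_le_mul_of_nonneg_right h3 (mul_nonneg hn (hs.p0 (3 * i)).le)
    refine le_trans (le_of_eq (by ring)) (h4.trans (le_of_eq (one_mul _)))
  · exact (sum_hf_ind hs hc dlo hi).trans (e5 (hs.p0 i).le)
  · have h3 := sum_hf_pow hs hc dlo 1 2 5 (fun m _ => by omega) (by norm_num)
    simp only [pow_one] at h3
    exact h3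
  · exact sum_hf_pow hs hc dlo 2 144004 144010 (fun m _ => by omega) (by norm_num)
  · exact sum_hf_pow hs hc dlo 3 432006 432010 (fun m _ => by omega) (by norm_num)
  · change 1 - t ^ 143990 ≤ wb h
    have h3 := hs.cp (C := 2) (by norm_num) (a := 143999) (b := 143990) (by norm_num)
    have h4 := hs.cp (C := 2) (by norm_num) (a := 214900) (b := 143990) (by norm_num)
    linarith [ha.w_ge' hs, (abs_le.1 dw).1]
  · change ∑ a, (zc S h - S.lam a)⁻¹ = n * wb h
    obtain ⟨p1, p2⟩ := T1A.zh_spec ha.npos (J := S.J O) (S.J_tr O) h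
    rw [zh_eq] at p1 p2
    rw [← trace_G0 ((posDef_Nm O).1 p1) O, ← T2A.sum_dv ha.npos]
    exact sub_eq_zero.1 p2

theorem rlStmt : RLStmt := by
  refine ⟨1, ev_of_sm fun L t hs n S V x xt μ ha hc hμ => ?_⟩
  have := hμ.prob
  have hx : ∀ i, x i ^ 2 = 1 := fun i => by rcases hμ.sgn i with e | e <;> simp [e]
  have hn : (0 : ℝ) ≤ n := Nat.cast_nonneg _
  have hb : (144001 : ℝ) ≤ n := by
    refine le_trans ?_ (big_n hs hc.big)
    have h2 := hs.iw (a := 1) (b := 564000) (by norm_num)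
    rw [pow_one] at h2
    exact (hs.c_inv (by norm_num)).trans h2
  have h2n : 2 ≤ n := by exact_mod_cast (by linarith : (2 : ℝ) ≤ n)
  have e : {O : OG n | ¬RL t (lab t S V) O} ⊆ {O | ∃ i ∈ Finset.range 144001,
      ¬∀ a ∈ supp (S.low (t ^ (2 * i))),
        Spread (1202 * F.sq a) (n * (t ^ (3 * i) * t⁻¹ ^ 3)) (O.1ᵀ *ᵥ a)} := by
    intro O hO
    by_contra hc'
    refine hO fun i hi y => ?_
    have h1 : ∀ a ∈ supp (S.low (t ^ (2 * i))),
        Spread (1202 * F.sq a) (n * (t ^ (3 * i) * t⁻¹ ^ 3)) (O.1ᵀ *ᵥ a) := by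
      by_contra h1
      exact hc' ⟨i, Finset.mem_range.2 (by omega), h1⟩
    have h2 := h1 _ (X4.res_mem (S.low (t ^ (2 * i))) (O.1 *ᵥ y))
    rw [PL_eq hs hc hi, Dat.P, ← Matrix.mulVec_mulVec, ← Matrix.mulVec_mulVec]
    have h3 := (isProj_res (S.low (t ^ (2 * i)))).sq_le (O.1 *ᵥ y)
    rw [sq_orth] at h3
    refine h2.mono (mul_nonneg (by norm_num) (sqN_nonneg _)) ?_
      (mul_nonneg hn (mul_pos (hs.p0 _) (hs.i0 _)).le) le_rfl
    exact mul_le_mul (hs.c_inv (by norm_num)) h3 (sqN_nonneg _) hs.inv0.le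
  refine (measureReal_mono e).trans ((Rip.real_exists_le μ _ _
    (p := Real.exp (-(n * t ^ 431998))) fun i hi => ?_).trans ?_)
  · have hi' : i ≤ 144000 := Nat.lt_succ_iff.1 (Finset.mem_range.1 hi)
    have hk : 0 ≤ n * t ^ (3 * i) := mul_nonneg hn (hs.p0 _).le
    refine (rip_sign hx h2n hμ.explo _
      (mul_nonneg hn (mul_pos (hs.p0 _) (hs.i0 _)).le)).trans (Real.exp_le_exp.2 ?_)
    rw [finrank_supp]
    have h1 := hc.cnt i hi'
    have h3 : 2 * L + t⁻¹ ^ 2 ≤ t⁻¹ ^ 3 := by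
      have h4 := hs.cL_inv (C := 4) (a := 1) (by norm_num) (by norm_num)
      have h5 : (4 : ℝ) ≤ t⁻¹ := hs.c_inv (by norm_num)
      have h6 : t⁻¹ ≤ t⁻¹ ^ 2 := by nlinarith
      nlinarith [hs.L1]
    have h4 : t ^ 431998 ≤ t ^ (3 * i) * t⁻¹ ^ 2 := by
      have h5 : t⁻¹ ^ 2 * t ^ (2 + 431998) = t ^ 431998 := hs.ip_eq 2 431998
      rw [← h5, mul_comm]
      exact mul_le_mul_of_nonneg_right (hs.pw (by omega)) (hs.i0 2).le
    have h5 := mul_le_mul_of_nonneg_left h3 hk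
    have h6 := mul_le_mul_of_nonneg_left h4 hn
    linarith
  · rw [Finset.card_range, pow_one]
    exact mul_le_mul_of_nonneg_right (by exact_mod_cast hb) (Real.exp_pos _).le

end Vale.Agent.N150.T2LV
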