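import Vale.Agent.N150.T2Cv
import Vale.Agent.N150.D6c

/-! T2, block L: the statement `ProgStmt`. -/

open Matrix MeasureTheory Filter Topology

namespace Vale.Agent.N150.T2L

open Vale.Agent.P150 Vale.Agent.P150.F Vale.Agent.N150.EC Vale.Agent.N150.Sp Vale.Agent.N150.T1
  Vale.Agent.N150.Fib Vale.Agent.N150.T2

variable {n : ℕ} {L t : ℝ} {S : Dat n}

theorem lab_mem (t : ℝ) (S : Dat n) (V : Finset (Fin n)) (a : Fin n) :
    lab t S V a ∈ Finset.range 144003 := by
  rw [Finset.mem_range]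
  unfold lab
  split_ifs
  · norm_num
  · exact ((Finset.card_filter_le _ _).trans_eq (Finset.card_range _)).trans_lt (by norm_num)

theorem three_le_n (hs : T1.Sm L t) (ha : Adm L t S) : (3 : ℝ) ≤ n := by
  have h1 := ha.inv_le_n hs
  have h2 := hs.iw (a := 1) (b := 431998) (by norm_num)
  rw [pow_one] at h2
  exact ((hs.c_inv (by norm_num)).trans h2).trans h1

theorem one_le_log (hs : T1.Sm L t) (ha : Adm L t S) : 1 ≤ Real.log n := by
  rw [Real.le_log_iff_exp_le ha.npos']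
  linarith [Real.exp_one_lt_d9, three_le_n hs ha]

theorem j0_le (hs : T1.Sm L t) (ha : Adm L t S) : (j0 n : ℝ) ≤ 2 * Real.log n := by
  have h1 := one_le_log hs ha
  have h2 : (j0 n : ℝ) < Real.log n + 1 := Nat.ceil_lt_add_one (by linarith)
  linarith

theorem n_le_pow (hs : T1.Sm L t) (ha : Adm L t S) : (n : ℝ) ≤ t⁻¹ ^ j0 n := by
  have h1 : Real.log n ≤ j0 n := Nat.le_ceil _
  have h2 : Real.exp 1 ≤ t⁻¹ :=
    (Real.exp_one_lt_d9.le.trans (by norm_num : (2.7182818286 : ℝ) ≤ 3)).trans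
      (hs.c_inv (by norm_num))
  calc (n : ℝ) = Real.exp (Real.log n) := (Real.exp_log ha.npos').symm
    _ ≤ Real.exp (j0 n) := Real.exp_le_exp.2 h1
    _ = Real.exp 1 ^ j0 n := by rw [← Real.exp_nat_mul, mul_one]
    _ ≤ _ := pow_le_pow_left₀ (Real.exp_pos 1).le h2 _

/-- `t ^ (a j0) ≤ n ^ (-a)` -/
theorem pow_j0_le (hs : T1.Sm L t) (ha : Adm L t S) (a : ℕ) :
    t ^ (a * j0 n) ≤ ((n : ℝ) ^ a)⁻¹ := by
  rw [le_inv_comm₀ (hs.p0 _) (pow_pos ha.npos' a), ← inv_pow, mul_comm, pow_mul]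
  exact pow_le_pow_left₀ ha.npos'.le (n_le_pow hs ha) a

theorem progStmt : ProgStmt :=
  (T1.ev_sm.and (D6.d6Stmt.and D6.vStmt)).mono fun L t _ h n S V x xt ut μ ha _ hμ _ hu => by
    obtain ⟨hs, h6, hv⟩ := h
    obtain ⟨P, hP, htr⟩ := prog (lab_mem t S V) hμ.explo S ut (j0 n + 3) (3 * (97 + j0 n))
    refine ⟨P, vO S ut (j0 n + 3) (3 * (97 + j0 n)), hP.ce.ex, measurable_vO _ _ _ _, hP.ad_v,
      hP.ad_h, fun O => le_trans ?_ (htr O), fun O φ => hP.ce.clo O _ (LvC.comp _ φ),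
      fun O hg => ?_⟩
    · have h1 := one_le_log hs ha
      have h2 := j0_le hs ha
      have h3 : (100000000 : ℝ) ≤ t⁻¹ ^ 300 := by
        have h4 := hs.iw (a := 1) (b := 300) (by norm_num)
        rw [pow_one] at h4
        exact (hs.c_inv (by norm_num)).trans h4
      have h4 := mul_le_mul_of_nonneg_right h3 (zero_le_one.trans h1)
      rw [Finset.card_range, rr]
      push_cast
      linarith only [h1, h2, h4]
    · have h1 := hv n S O (hr S O) (uO ut O) (97 + j0 n) ha hg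
        (ball_h hs (h6 n S O ha hg) (Nat.le_add_left 3 _))
      rw [zh_eq, uO, nv_tr, hu, mul_one] at h1
      refine h1.trans (le_trans (hs.ip (c := 3 * j0 n) (by omega)) (pow_j0_le hs ha 3))

end Vale.Agent.N150.T2L
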