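import Vale.Agent.N150.T2P4

set_option linter.all false

/-! P150, block T2: common consequences of `Core`. -/

namespace Vale.Agent.N150.T2

open Matrix MeasureTheory Set Filter Topology
open Vale.Agent.P150 Vale.Agent.P150.F Vale.Agent.N150.Sp Vale.Agent.N150.Fib
open Vale.Agent.N150.Haar (fro fro_nonneg)
open Vale.Agent.N150.Wd (fr fr_transpose fr_mul fr_one fro_fr trace_fr RI Ms)
open Vale.Agent.N150.KB.Ch Vale.Agent.N150.T2P

variable {n : ℕ} {t : ℝ} {D : Fd n} {Gd : Set (OG n)}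

/-- smallness of the unit -/
structure Sml (t : ℝ) : Prop where
  pos : 0 < t
  le : t ≤ 1 / 1000

theorem et_sml : Et Sml := by
  have ev : ∀ᶠ t in 𝓝[>] (0 : ℝ), t ∈ Ioo (0 : ℝ) (1 / 1000) := Ioo_mem_nhdsGT (by norm_num)
  exact ev.mono fun t ht => ⟨ht.1, ht.2.le⟩

namespace Sml

variable (s : Sml t)
include s

theorem le_one : t ≤ 1 := by linarith [s.le]

theorem big : 1000 ≤ t⁻¹ := by
  rw [le_inv_comm₀ (by norm_num) s.pos, ← one_div]; exact s.le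

theorem one_le : 1 ≤ t⁻¹ := by linarith [s.big]

theorem i0 (k : ℕ) : 0 ≤ t⁻¹ ^ k := pow_nonneg (inv_nonneg.2 s.pos.le) k

theorem p0 (k : ℕ) : 0 ≤ t ^ k := pow_nonneg s.pos.le k

theorem i1 (k : ℕ) : 1 ≤ t⁻¹ ^ k := one_le_pow₀ s.one_le

theorem p1 (k : ℕ) : t ^ k ≤ 1 := pow_le_one₀ s.pos.le s.le_one

theorem im {a b : ℕ} (h : a ≤ b) : t⁻¹ ^ a ≤ t⁻¹ ^ b := pow_le_pow_right₀ s.one_le h

theorem pm {a b : ℕ} (h : b ≤ a) : t ^ a ≤ t ^ b := pow_le_pow_of_le_one s.pos.le s.le_one h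

theorem ci {C : ℝ} (hC : C ≤ 1000) {a b : ℕ} (h : a + 1 ≤ b) : C * t⁻¹ ^ a ≤ t⁻¹ ^ b :=
  cpow (hC.trans s.big) s.one_le h

theorem ip (a b : ℕ) : t⁻¹ ^ a * t ^ (a + b) = t ^ b := by
  rw [pow_add, ← mul_assoc, ← mul_pow, inv_mul_cancel₀ s.pos.ne', one_pow, one_mul]

theorem pi (a b : ℕ) : t⁻¹ ^ (a + b) * t ^ a = t⁻¹ ^ b := by
  rw [pow_add, mul_right_comm, ← mul_pow, inv_mul_cancel₀ s.pos.ne', one_pow, one_mul]

theorem cp {C : ℝ} (hC : C ≤ 1000) {a b : ℕ} (h : b + 1 ≤ a) : C * t ^ a ≤ t ^ b :=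
  calc C * t ^ a ≤ t⁻¹ * t ^ a := mul_le_mul_of_nonneg_right (hC.trans s.big) (s.p0 a)
    _ ≤ t⁻¹ * t ^ (b + 1) := mul_le_mul_of_nonneg_left (s.pm h) (inv_nonneg.2 s.pos.le)
    _ = t ^ b := by rw [pow_succ', ← mul_assoc, inv_mul_cancel₀ s.pos.ne', one_mul]

end Sml

instance (D : Fd n) : IsProbabilityMeasure D.mu :=
  Measure.isProbabilityMeasure_map (measurable_const_mul D.O0).aemeasurable

theorem Fd.ri (D : Fd n) : RI D.Pi D.mu := (RI.haarP D.Pi).coset D.O0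

theorem Fd.ae_fib (D : Fd n) : ∀ᵐ O ∂D.mu, ∃ U ∈ HG D.Pi, O = D.O0 * U := by
  have hm : MeasurableSet {O : OG n | D.O0⁻¹ * O ∈ HG D.Pi} :=
    (measurable_const_mul D.O0⁻¹) (isClosed_HG D.Pi).measurableSet
  have h : ∀ᵐ O ∂D.mu, D.O0⁻¹ * O ∈ HG D.Pi := by
    rw [Fd.mu, ae_map_iff (measurable_const_mul D.O0).aemeasurable hm]
    exact (invOn_haarP D.Pi).ae.mono fun U hU => by
      rw [inv_mul_cancel_left]; exact SG_le_HG hU
  exact h.mono fun O hO => ⟨_, hO, (mul_inv_cancel_left _ _).symm⟩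

theorem Fd.Th_eq (D : Fd n) : D.Th = D.Vt + D.w • 1 := by rw [Fd.Vt, sub_add_cancel]

theorem Fd.P_eq (D : Fd n) (O : OG n) : D.P O = D.Pl 144001 O := rfl

theorem Fd.isProj_Pl (D : Fd n) (i : ℕ) (O : OG n) : IsProj (D.Pl i O) := by
  refine ⟨T1.JO_tr _ O, ?_⟩
  rw [Fd.Pl, T1.JO_mul]
  congr 1
  funext a
  unfold Fd.ind
  split_ifs <;> norm_num

theorem Fd.isProj_P (D : Fd n) (O : OG n) : IsProj (D.P O) := D.isProj_Pl 144001 O

theorem Fd.Hs_tr (D : Fd n) (O : OG n) : (D.Hs O)ᵀ = D.Hs O := T1.JO_tr _ O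
theorem Fd.Hi_tr (D : Fd n) (O : OG n) : (D.Hi O)ᵀ = D.Hi O := T1.JO_tr _ O
theorem Fd.Kt_tr (D : Fd n) (O : OG n) : (D.Kt O)ᵀ = D.Kt O := T1.JO_tr _ O
theorem Fd.A0_tr (D : Fd n) : D.A0ᵀ = D.A0 := diagonal_transpose _
theorem Fd.K0_tr (D : Fd n) : D.K0ᵀ = D.K0 := diagonal_transpose _
theorem Fd.P0_tr (D : Fd n) : D.P0ᵀ = D.P0 := diagonal_transpose _

theorem ms_JO (u : Vec n) : Ms fun O : OG n => JO u O := Ms.fr (diagonal u)

theorem ms_fro {M : OG n → Mat n} (h : Ms M) : Measurable fun O => fro (M O) :=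
  (Finset.measurable_sum _ fun i _ => Finset.measurable_sum _ fun j _ =>
    (h i j).pow_const 2).sqrt

theorem ms_QOK (t : ℝ) (D : Fd n) : MeasurableSet {O | QOK t D O} := by
  have e : {O | QOK t D O} = {O | fro (D.P O * D.Bh * D.Hs O) ≤ t⁻¹ ^ 300} ∩
      ({O | fro (D.Hs O * D.Bh * D.Hs O * D.Pl 2500 O) ≤ t ^ 1200 * t⁻¹ ^ 216250} ∩
      {O | fro (D.Hs O * D.Bh * D.Hs O) ≤ t⁻¹ ^ 216300}) :=
    Set.ext fun O => ⟨fun h => ⟨h.f1, h.f2, h.f0⟩, fun h => ⟨h.1, h.2.1, h.2.2⟩⟩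
  have hs : Ms D.Hs := ms_JO _
  rw [e]
  exact (measurableSet_le (ms_fro (((Ms.fr _).mul (.const _)).mul hs)) measurable_const).inter
    ((measurableSet_le (ms_fro (((hs.mul (.const _)).mul hs).mul (ms_JO _)))
      measurable_const).inter
    (measurableSet_le (ms_fro ((hs.mul (.const _)).mul hs)) measurable_const))

theorem Fd.ms_Ga (D : Fd n) : Ms D.Ga := Ms.ga _ _ _
theorem Fd.ms_G (D : Fd n) : Ms D.G := Ms.gm _ _ _
theorem Fd.ms_Q (D : Fd n) : Ms D.Q := Ms.qm _ _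
theorem Fd.ms_Xi (D : Fd n) : Ms D.Xi := Ms.xi _ _ _
theorem Fd.meas_f (D : Fd n) : Measurable D.f := (D.ms_Xi.mul (.const _)).trace

namespace Fr

variable (h : Fr t D) (s : Sml t)
include h s

theorem n_ge : t⁻¹ ^ 564000 ≤ n := by
  rw [inv_pow, ← one_div, div_le_iff₀ (pow_pos s.pos _)]; exact h.big

theorem ile {k : ℕ} (hk : k ≤ 564000) : t⁻¹ ^ k ≤ n := (s.im hk).trans (h.n_ge s)

theorem n_big : (1000000 : ℝ) ≤ n := by
  have h1 := h.ile s (k := 2) (by norm_num)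
  nlinarith [s.big]

theorem n_pos : 0 < n := by
  have : (0 : ℝ) < n := by linarith [h.n_big s]
  exact_mod_cast this

theorem ile_sqrt {k : ℕ} (hk : k ≤ 282000) : t⁻¹ ^ k ≤ √n :=
  Real.le_sqrt_of_sq_le (by rw [← pow_mul]; exact h.ile s (by omega))

omit s in
theorem r_pow {k : ℕ} (hk : k ≤ 100) : D.r ^ k ≤ n := (pow_le_pow_right₀ h.r1 hk).trans h.rn

theorem r_le : 1000 * D.r ≤ n := by
  have h1 := h.r_pow (k := 2) (by norm_num)
  have h2 := h.n_big s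
  have h3 := h.r1
  by_contra hc
  push Not at hc
  nlinarith

theorem w_half : 1 / 2 ≤ D.w := by
  have h1 := s.cp (C := 2) (by norm_num) (a := 143990) (b := 0) (by norm_num)
  rw [pow_zero] at h1
  linarith [h.wlo]

theorem nu_pos (a : Fin n) : 0 < D.nu a := (del_pos h s.pos).trans_le (h.nlo a)

theorem inv_nu_le (a : Fin n) : (D.nu a)⁻¹ ≤ D.hv a := by
  rw [← one_div, div_le_iff₀ (h.nu_pos s a)]; exact h.h1 a

theorem hv_ge (a : Fin n) : 1 / 7 ≤ D.hv a := by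
  have h1 := mul_le_mul_of_nonneg_left (h.nhi a) (hv_pos h s.pos a).le
  linarith [h.h1 a]

theorem abs_K_le (a : Fin n) : |1 - (D.nu a)⁻¹ / D.w| ≤ 7 * D.hv a := by
  have h1 := h.hv_ge s a
  have h2 := h.inv_nu_le s a
  have h3 := h.w_half s
  have h4 : 0 ≤ (D.nu a)⁻¹ / D.w := div_nonneg (inv_nonneg.2 (h.nu_pos s a).le) (by linarith)
  have h5 : (D.nu a)⁻¹ / D.w ≤ 2 * D.hv a := by
    rw [div_le_iff₀ (by linarith)]; nlinarith
  rw [abs_le]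
  constructor <;> linarith

theorem si (O : OG n) : D.Hs O * D.Hi O = 1 := hs_hi h s.pos O

theorem is (O : OG n) : D.Hi O * D.Hs O = 1 := mul_eq_one_comm.1 (h.si s O)

theorem ss (O : OG n) : D.Hs O * D.Hs O = D.H O := by
  rw [Fd.Hs, T1.JO_mul, Fd.H]
  congr 1
  funext a
  exact Real.mul_self_sqrt (hv_pos h s.pos a).le

theorem opHs (O : OG n) : OpLe (D.Hs O) (t⁻¹ ^ 144001) := op_hs h s.pos s.le_one O

theorem opHi (O : OG n) : OpLe (D.Hi O) 3 := op_hi h s.pos O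

theorem froHs (O : OG n) : fro (D.Hs O) ≤ √n * t⁻¹ ^ 3 := by
  have e : fro (D.Hs O) = fro (diagonal fun a => √(D.hv a) : Mat n) := fro_fr _ O
  refine (abs_le_of_sq_le_sq' ?_ (mul_nonneg (Real.sqrt_nonneg _) (s.i0 _))).2
  rw [e, fro_diag_sq, mul_pow, Real.sq_sqrt (Nat.cast_nonneg n), ← pow_mul,
    Finset.sum_congr rfl fun a _ => Real.sq_sqrt (hv_pos h s.pos a).le]
  exact h.trH1.trans (mul_le_mul_of_nonneg_left (s.im (by norm_num)) (Nat.cast_nonneg n))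

theorem froH (O : OG n) : fro (D.Hs O * D.Hs O) ≤ √n * t⁻¹ ^ 72005 := fro_hh h s.pos O

theorem froP (O : OG n) : fro (D.P O) ≤ √n * t ^ 215999 :=
  (fro_fr _ O).le.trans (fro_P0 h s.pos s.le_one)

theorem opPHi (O : OG n) : OpLe (D.P O * D.Hi O) (t ^ 143999) := by
  rw [Fd.P_eq, Fd.Pl, Fd.Hi, T1.JO_mul]
  refine T1.opLe_JO (fun a => ?_) O
  unfold Fd.ind
  split_ifs with ha
  · rw [one_mul, abs_of_nonneg (inv_nonneg.2 (Real.sqrt_nonneg _)), ← Real.sqrt_inv]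
    refine Real.sqrt_le_iff.2 ⟨s.p0 _, ?_⟩
    rw [← pow_mul]
    refine le_trans ?_ h.dhi
    rw [← h.nV a ha]
    exact inv_le_of_inv_le₀ (h.nu_pos s a) (h.inv_nu_le s a)
  · rw [zero_mul, abs_zero]; exact s.p0 _

theorem opHKH (O : OG n) : OpLe (D.Hi O * D.Kt O * D.Hi O) 7 := by
  have e : D.Kt O = JO (fun a => 1 - (D.nu a)⁻¹ / D.w) O := rfl
  rw [e, Fd.Hi, T1.JO_mul, T1.JO_mul]
  refine T1.opLe_JO (fun a => ?_) O
  have h0 := hv_pos h s.pos a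
  rw [mul_right_comm, ← mul_inv, Real.mul_self_sqrt h0.le, abs_mul, abs_of_pos (inv_pos.2 h0),
    inv_mul_le_iff₀ h0, mul_comm]
  exact h.abs_K_le s a

theorem opK0 : OpLe D.K0 (t⁻¹ ^ 288002) := by
  refine op_diagonal (s.i0 _) fun a => (h.abs_K_le s a).trans ?_
  have h1 : D.hv a * t ^ 288001 ≤ 1 :=
    (mul_le_mul_of_nonneg_left h.dlo (hv_pos h s.pos a).le).trans (h.h3 a)
  have h2 : D.hv a ≤ t⁻¹ ^ 288001 := by
    rw [inv_pow, ← one_div, le_div_iff₀ (pow_pos s.pos _)]; exact h1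
  exact (mul_le_mul_of_nonneg_left h2 (by norm_num)).trans (s.ci (by norm_num) le_rfl)

theorem opKt (O : OG n) : OpLe (D.Kt O) (t⁻¹ ^ 288002) := op_fr (s.i0 _) (h.opK0 s) O

theorem trKt (O : OG n) : (D.Kt O).trace = 0 := by
  have hw : D.w ≠ 0 := by linarith [h.w_half s] |> (ne_of_gt ·)
  rw [Fd.Kt, trace_fr, Fd.K0, trace_diagonal, Finset.sum_sub_distrib, ← Finset.sum_div, h.tr0,
    mul_div_assoc, div_self hw]
  simp

theorem hsqK : hsq D.K0 ≤ n * t⁻¹ ^ 144011 := by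
  have e : hsq D.K0 = fro D.K0 ^ 2 := (Haar.fro_sq' _).symm
  rw [e, Fd.K0, fro_diag_sq]
  calc _ ≤ ∑ a, 49 * D.hv a ^ 2 := Finset.sum_le_sum fun a _ => by
        have := pow_le_pow_left₀ (abs_nonneg _) (h.abs_K_le s a) 2
        rw [sq_abs] at this
        linarith
    _ ≤ 49 * (n * t⁻¹ ^ 144010) := by
        rw [← Finset.mul_sum]; exact mul_le_mul_of_nonneg_left h.trH2 (by norm_num)
    _ = n * (49 * t⁻¹ ^ 144010) := mul_left_comm _ _ _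
    _ ≤ _ := mul_le_mul_of_nonneg_left (s.ci (by norm_num) le_rfl) (Nat.cast_nonneg n)

theorem opA0 : OpLe D.A0 7 := by
  refine op_diagonal (by norm_num) fun a => ?_
  have h1 := h.w_half s
  have h2 : D.w⁻¹ ≤ 2 := inv_le_of_inv_le₀ (by norm_num) (by rwa [← one_div])
  have h3 : 0 ≤ D.w⁻¹ := inv_nonneg.2 (by linarith)
  rw [abs_le]
  constructor <;> linarith [h.nhi a, h.nu_pos s a]

end Fr

namespace Si

variable (h : Si t D)
include h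

theorem projB : IsProj D.PB := h.proj.compl

theorem sV : D.Vtᵀ = D.Vt := by
  rw [Fd.Vt, transpose_sub, h.sT, transpose_smul, transpose_one]

theorem opPi : OpLe D.Pi 1 := opLe_idem h.proj.symm h.proj.idem

theorem opPB : OpLe D.PB 1 := opLe_idem h.projB.symm h.projB.idem

theorem trPB : D.PB.trace ≤ D.r := by
  rw [Fd.PB, trace_sub, trace_one, Fintype.card_fin]; linarith [h.cor]

theorem trPi_le : D.Pi.trace ≤ n := by
  have := h.projB.trace_nonneg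
  rw [Fd.PB, trace_sub, trace_one, Fintype.card_fin] at this
  linarith

theorem froPB : fro D.PB ≤ √D.r :=
  Real.le_sqrt_of_sq_le ((fro_proj h.projB.symm h.projB.idem).le.trans h.trPB)

theorem froVt (s : Sml t) : fro D.Vt ≤ √n * t ^ 143995 := by
  refine (abs_le_of_sq_le_sq' ?_ (mul_nonneg (Real.sqrt_nonneg _) (s.p0 _))).2
  rw [mul_pow, Real.sq_sqrt (Nat.cast_nonneg n), ← pow_mul, Haar.fro_sq']
  exact h.fV

/-- commutation on the whole fibre -/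
theorem comm {O : OG n} (hO : ∃ U ∈ HG D.Pi, O = D.O0 * U) (φ : ℕ → ℝ) :
    D.Pi * JO (fun a => φ (D.lab a)) O = JO (fun a => φ (D.lab a)) O * D.Pi := by
  obtain ⟨U, hU, rfl⟩ := hO
  have c1 := HG_comm h.proj.symm hU
  have c2 := HG_comm h.proj.symm ((HG D.Pi).inv_mem hU)
  rw [OG.coe_inv] at c2
  rw [T1.JO_rot, ← mul_assoc, ← mul_assoc, ← c2, mul_assoc U.1ᵀ, h.blk, mul_assoc, mul_assoc,
    ← c1]
  simp only [mul_assoc]

theorem commB {O : OG n} (hO : ∃ U ∈ HG D.Pi, O = D.O0 * U) (φ : ℕ → ℝ) :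
    D.PB * JO (fun a => φ (D.lab a)) O = JO (fun a => φ (D.lab a)) O * D.PB := by
  rw [Fd.PB, sub_mul, mul_sub, one_mul, mul_one, h.comm hO]

/-- explored blocks are constant on the fibre -/
theorem block {O : OG n} (hO : ∃ U ∈ HG D.Pi, O = D.O0 * U) (φ : ℕ → ℝ) :
    JO (fun a => φ (D.lab a)) O * D.PB = JO (fun a => φ (D.lab a)) D.O0 * D.PB := by
  obtain ⟨U, hU, rfl⟩ := hO
  have c1 : U.1 * D.PB = D.PB := hU
  have c2 : U.1ᵀ * D.PB = D.PB := by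
    have := mem_HG.1 ((HG D.Pi).inv_mem hU)
    rwa [OG.coe_inv] at this
  have c3 := h.commB ⟨1, (HG _).one_mem, (mul_one _).symm⟩ φ
  rw [T1.JO_rot, mul_assoc, c1, mul_assoc, ← c3, ← mul_assoc, c2]

theorem trB_op {Y : Mat n} {c : ℝ} (hc : 0 ≤ c) (hY : OpLe Y c) :
    |(D.PB * Y).trace| ≤ D.r * c := by
  have e : (D.PB * Y).trace = (D.PB * (Y * D.PB)).trace := by
    rw [← mul_assoc, trace_mul_cycle, h.projB.idem]
  have r0 : 0 ≤ D.r := h.projB.trace_nonneg.trans h.trPB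
  rw [e]
  refine (abs_trace_mul _ _).trans ?_
  calc _ ≤ √D.r * (c * √D.r) :=
        mul_le_mul h.froPB (fro_l hc hY h.froPB) (fro_nonneg _) (Real.sqrt_nonneg _)
    _ = _ := by rw [mul_left_comm, Real.mul_self_sqrt r0, mul_comm]

theorem trB_fro {Y : Mat n} {c : ℝ} (hY : fro Y ≤ c) : |(D.PB * Y).trace| ≤ √D.r * c :=
  (abs_trace_mul _ _).trans (mul_le_mul h.froPB hY (fro_nonneg _) (Real.sqrt_nonneg _))

end Si

namespace Core

variable (h : Core t D Gd) (s : Sml t)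
include h

theorem sub {G' : Set (OG n)} (hG : G' ⊆ Gd) (hm : MeasurableSet G')
    (hp : D.mu.real G'ᶜ ≤ ((n : ℝ) ^ 900)⁻¹) : Core t D G' :=
  ⟨h.fr, h.si, hm, hp, fun O hO => h.fib O (hG hO), fun O hO => h.pt O (hG hO)⟩

variable {O : OG n}

theorem cHs (hO : O ∈ Gd) : D.Pi * D.Hs O = D.Hs O * D.Pi :=
  h.si.comm (h.fib O hO) fun i => √(D.hf i)
theorem cHi (hO : O ∈ Gd) : D.Pi * D.Hi O = D.Hi O * D.Pi :=
  h.si.comm (h.fib O hO) fun i => (√(D.hf i))⁻¹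
theorem cH (hO : O ∈ Gd) : D.Pi * D.H O = D.H O * D.Pi := h.si.comm (h.fib O hO) D.hf
theorem cPl (hO : O ∈ Gd) (i : ℕ) : D.Pi * D.Pl i O = D.Pl i O * D.Pi :=
  h.si.comm (h.fib O hO) fun j => if i < j then 1 else 0
theorem cP (hO : O ∈ Gd) : D.Pi * D.P O = D.P O * D.Pi := h.cPl hO 144001
theorem bHs (hO : O ∈ Gd) : D.PB * D.Hs O = D.Hs O * D.PB :=
  h.si.commB (h.fib O hO) fun i => √(D.hf i)
theorem bHi (hO : O ∈ Gd) : D.PB * D.Hi O = D.Hi O * D.PB :=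
  h.si.commB (h.fib O hO) fun i => (√(D.hf i))⁻¹
theorem bH (hO : O ∈ Gd) : D.PB * D.H O = D.H O * D.PB := h.si.commB (h.fib O hO) D.hf
theorem bPl (hO : O ∈ Gd) (i : ℕ) : D.PB * D.Pl i O = D.Pl i O * D.PB :=
  h.si.commB (h.fib O hO) fun j => if i < j then 1 else 0
theorem bP (hO : O ∈ Gd) : D.PB * D.P O = D.P O * D.PB := h.bPl hO 144001

theorem Ga_eq (hO : O ∈ Gd) : D.Ga O = 1 + D.Q O * D.Th := Wd.Ga_eq (h.pt O hO).unit

theorem GaT_eq (hO : O ∈ Gd) : (D.Ga O)ᵀ = 1 + D.Th * D.Q O :=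
  Wd.GaT_eq D.A0_tr h.si.sT (h.pt O hO).unit

theorem Q_tr (hO : O ∈ Gd) : (D.Q O)ᵀ = D.Q O := Wd.Qm_symm D.A0_tr h.si.sT (h.pt O hO).unit

include s

theorem half : (n : ℝ) / 2 ≤ D.Pi.trace := by
  linarith [h.si.cor, h.fr.r_le s, h.fr.r1]

theorem conc : Conc D.mu (n / 300) := by
  have h1 := h.si.cor
  have h2 := h.fr.r_le s
  have h3 := h.fr.n_big s
  exact ((conc_haarP h.si.proj.symm h.si.proj.idem (by linarith)).mono
    (by linarith)).map_mul_left D.O0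

theorem mass_pos : (0 : ℝ) < ((n : ℝ) ^ 900)⁻¹ :=
  inv_pos.2 (pow_pos (by linarith [h.fr.n_big s]) _)

theorem mass_le : ((n : ℝ) ^ 900)⁻¹ ≤ 1 / 1000000 := by
  have h1 := h.fr.n_big s
  rw [one_div]
  exact inv_anti₀ (by norm_num) (h1.trans (le_self_pow₀ (by linarith) (by norm_num)))

theorem mass_ge : 1 - ((n : ℝ) ^ 900)⁻¹ ≤ D.mu.real Gd := by
  have h1 := probReal_add_probReal_compl (μ := D.mu) h.meas
  linarith [h.mass]

theorem nonempty : Gd.Nonempty := by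
  rcases Gd.eq_empty_or_nonempty with rfl | h1
  · have h1 := h.mass_ge s
    rw [measureReal_empty] at h1
    linarith [h.mass_le s]
  · exact h1

theorem wt (hO : O ∈ Gd) {Γ : Mat n} {B : ℝ} (hB : t⁻¹ ^ 125 ≤ B)
    (hΓ : OpLe (D.Hi O * Γ * D.Hi O) B) :
    Wt D.Vt (D.P O) (D.Q O) Γ (D.Hs O) (D.Hi O) (t⁻¹ ^ 144001) 3 B (√n * t⁻¹ ^ 72005) :=
  ⟨h.fr.si s O, h.fr.is s O, h.fr.opHs s O, h.fr.opHi s O, (h.pt O hO).iQ.monoN (s.i0 _) hB, hΓ,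
    (h.pt O hO).iV.monoN (s.i0 _) ((s.im (by norm_num)).trans hB), D.Hs_tr O, h.fr.froH s O⟩

theorem up (O : OG n) (M : Mat n) : M = D.Hs O * (D.Hi O * M * D.Hi O) * D.Hs O := by
  rw [← mul_assoc, ← mul_assoc, h.fr.si s, one_mul, mul_assoc, h.fr.is s, mul_one]

theorem down (O : OG n) (M : Mat n) : M = D.Hi O * (D.Hs O * M * D.Hs O) * D.Hi O := by
  rw [← mul_assoc, ← mul_assoc, h.fr.is s, one_mul, mul_assoc, h.fr.si s, mul_one]

/-- from the weighted norm to the norm -/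
theorem op_up (O : OG n) {M : Mat n} {k : ℕ} (hM : OpLe (D.Hi O * M * D.Hi O) (t⁻¹ ^ k)) :
    OpLe M (t⁻¹ ^ (k + 288002)) := by
  have := ((h.fr.opHs s O).mulN hM (s.i0 _) (s.i0 _)).mulN (h.fr.opHs s O)
    (mul_nonneg (s.i0 _) (s.i0 _)) (s.i0 _)
  rwa [← h.up s, ← pow_add, ← pow_add, show 144001 + k + 144001 = k + 288002 by omega] at this

theorem fro_up (O : OG n) {M : Mat n} {k : ℕ} (hM : OpLe (D.Hi O * M * D.Hi O) (t⁻¹ ^ k)) :
    fro M ≤ √n * t⁻¹ ^ (k + 72005) := by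
  have := fro_conj (s.i0 _) (D.Hs_tr O) hM (h.fr.froH s O)
  rwa [← h.up s, mul_left_comm, ← pow_add] at this

/-- one sided weights -/
theorem op_Hi (O : OG n) {M : Mat n} {k : ℕ} (hM : OpLe (D.Hi O * M * D.Hi O) (t⁻¹ ^ k)) :
    OpLe (D.Hi O * M) (t⁻¹ ^ (k + 144001)) := by
  have := hM.mulN (h.fr.opHs s O) (s.i0 _) (s.i0 _)
  rwa [mul_assoc, h.fr.is s, mul_one, ← pow_add] at this

theorem op_Hi' (O : OG n) {M : Mat n} {k : ℕ} (hM : OpLe (D.Hi O * M * D.Hi O) (t⁻¹ ^ k)) :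
    OpLe (M * D.Hi O) (t⁻¹ ^ (k + 144001)) := by
  have := (h.fr.opHs s O).mulN hM (s.i0 _) (s.i0 _)
  rwa [← mul_assoc, ← mul_assoc, h.fr.si s, one_mul, ← pow_add, add_comm] at this

theorem opGa (hO : O ∈ Gd) : OpLe (D.Ga O) (t⁻¹ ^ 288122) := h.op_up s O (h.pt O hO).iGa
theorem opG (hO : O ∈ Gd) : OpLe (D.G O) (t⁻¹ ^ 288152) := h.op_up s O (h.pt O hO).iG
theorem opQ (hO : O ∈ Gd) : OpLe (D.Q O) (t⁻¹ ^ 288127) := h.op_up s O (h.pt O hO).iQ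
theorem froGa (hO : O ∈ Gd) : fro (D.Ga O) ≤ √n * t⁻¹ ^ 72125 := h.fro_up s O (h.pt O hO).iGa
theorem froG (hO : O ∈ Gd) : fro (D.G O) ≤ √n * t⁻¹ ^ 72155 := h.fro_up s O (h.pt O hO).iG
theorem froQ (hO : O ∈ Gd) : fro (D.Q O) ≤ √n * t⁻¹ ^ 72130 := h.fro_up s O (h.pt O hO).iQ

theorem opHsV (hO : O ∈ Gd) : OpLe (D.Hs O * D.Vt) (t⁻¹ ^ 41) := by
  have := (h.pt O hO).iV.mulN (h.fr.opHi s O) (s.i0 _) (by norm_num)
  rw [mul_assoc, h.fr.si s, mul_one, mul_comm] at this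
  exact this.monoN (mul_nonneg (by norm_num) (s.i0 _)) (s.ci (by norm_num) le_rfl)

theorem opVHs (hO : O ∈ Gd) : OpLe (D.Vt * D.Hs O) (t⁻¹ ^ 41) := by
  have := opT (s.i0 _) (h.opHsV s hO)
  rwa [transpose_mul, h.si.sV, D.Hs_tr] at this

theorem opQV (hO : O ∈ Gd) : OpLe (D.Q O * D.Vt) (t⁻¹ ^ 144167) := by
  have := (h.op_Hi' s O (h.pt O hO).iQ).mulN (h.opHsV s hO) (s.i0 _) (s.i0 _)
  rwa [mul_assoc, ← mul_assoc (D.Hi O), h.fr.is s, one_mul, ← pow_add] at this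

theorem opVQ (hO : O ∈ Gd) : OpLe (D.Vt * D.Q O) (t⁻¹ ^ 144167) := by
  have := opT (s.i0 _) (h.opQV s hO)
  rwa [transpose_mul, h.si.sV, h.Q_tr hO] at this

theorem opVGa (hO : O ∈ Gd) : OpLe (D.Vt * D.Ga O) (t⁻¹ ^ 144162) := by
  have := (h.opVHs s hO).mulN (h.op_Hi s O (h.pt O hO).iGa) (s.i0 _) (s.i0 _)
  rwa [mul_assoc, ← mul_assoc (D.Hs O), h.fr.si s, one_mul, ← pow_add] at this

theorem opGaV (hO : O ∈ Gd) : OpLe (D.Ga O * D.Vt) (t⁻¹ ^ 144162) := by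
  have := (h.op_Hi' s O (h.pt O hO).iGa).mulN (h.opHsV s hO) (s.i0 _) (s.i0 _)
  rwa [mul_assoc, ← mul_assoc (D.Hi O), h.fr.is s, one_mul, ← pow_add] at this

omit h s in
theorem opP (O : OG n) : OpLe (D.P O) 1 := opLe_idem (D.isProj_P O).symm (D.isProj_P O).idem

theorem opGaP (hO : O ∈ Gd) : OpLe (D.Ga O * D.P O) (t⁻¹ ^ 288122) := by
  have := (h.opGa s hO).mulN (opP (D := D) O) (s.i0 _) zero_le_one
  rwa [mul_one] at this

theorem opVGaP (hO : O ∈ Gd) : OpLe (D.Vt * D.Ga O * D.P O) (t⁻¹ ^ 144162) := by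
  have := (h.opVGa s hO).mulN (opP (D := D) O) (s.i0 _) zero_le_one
  rwa [mul_one] at this

theorem opXi (hO : O ∈ Gd) : OpLe (D.Xi O) (t⁻¹ ^ 576244) := by
  have := (h.opGaP s hO).mulN (opT (s.i0 _) (h.opGa s hO)) (s.i0 _) (s.i0 _)
  rwa [← pow_add] at this

theorem froXi (hO : O ∈ Gd) : fro (D.Xi O) ≤ √n * t⁻¹ ^ 360245 := by
  have := fro_r (s.i0 _) (fro_l (s.i0 _) (h.opGa s hO) (h.fr.froP s O))
    (opT (s.i0 _) (h.opGa s hO))
  refine this.trans (le_of_eq ?_)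
  rw [mul_left_comm, mul_assoc, mul_right_comm, ← pow_add]
  exact congrArg _ (s.pi 215999 360245)

theorem ok : Wd.Ok D.Pi Gd ((n : ℝ) ^ 2) D.A0 0 D.Th := by
  have h1 := h.fr.n_big s
  have h2 : √(n : ℝ) ≤ n := Real.sqrt_le_iff.2 ⟨by linarith, by nlinarith⟩
  have h3 := Real.sqrt_nonneg (n : ℝ)
  refine ⟨h.si.proj.symm, h.si.proj.idem, D.A0_tr, transpose_zero, h.si.sT, by nlinarith,
    by nlinarith, (fro_le_op (by norm_num) (h.fr.opA0 s)).trans (by nlinarith),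
    by rw [Haar.fro_zero]; positivity, (fro_le_op zero_le_two h.si.oT).trans (by nlinarith),
    fun O hO => (h.pt O hO).unit, fun O hO => (h.froGa s hO).trans ?_⟩
  rw [pow_two]
  exact mul_le_mul h2 (h.fr.ile s (by norm_num)) (s.i0 _) (by linarith)

theorem Del_sub : |D.Del - n * D.w ^ 2| ≤ n * t ^ 143979 := by
  have n0 : (0 : ℝ) < n := by linarith [h.fr.n_big s]
  have a0 : ∀ A : Mat n, 0 ≤ hsq A := fun A =>
    Finset.sum_nonneg fun _ _ => Finset.sum_nonneg fun _ _ => sq_nonneg _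
  rw [Fd.Del, sub_sub_cancel_left, abs_neg, abs_of_nonneg (div_nonneg (mul_nonneg (a0 _) (a0 _))
    n0.le), div_le_iff₀ n0]
  calc _ ≤ n * t⁻¹ ^ 144011 * (n * t ^ (144011 + 143979)) :=
        mul_le_mul (h.fr.hsqK s) h.si.fV (a0 _) (mul_nonneg n0.le (s.i0 _))
    _ = n * (t⁻¹ ^ 144011 * t ^ (144011 + 143979)) * n := by
        generalize t⁻¹ ^ 144011 = a; generalize t ^ (144011 + 143979) = b; ring
    _ = _ := by rw [s.ip]

theorem Del_ge : (n : ℝ) / 2 ≤ D.Del := by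
  have n0 : (0 : ℝ) ≤ n := Nat.cast_nonneg n
  have h1 := (abs_le.1 (h.Del_sub s)).1
  have h2 := s.cp (C := 8) (by norm_num) (a := 143979) (b := 0) (by norm_num)
  have h3 := s.cp (C := 8) (by norm_num) (a := 143990) (b := 0) (by norm_num)
  have h4 := h.fr.wlo
  rw [pow_zero] at h2 h3
  generalize t ^ 143979 = a at h1 h2
  generalize t ^ 143990 = b at h3 h4
  have h5 : 3 / 4 ≤ D.w ^ 2 := by nlinarith
  nlinarith

theorem abs_Del : |D.Del| ≤ 2 * n := by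
  have n0 : (0 : ℝ) ≤ n := Nat.cast_nonneg n
  have h1 := (abs_le.1 (h.Del_sub s)).2
  have h2 := s.p1 143979
  have h3 := h.Del_ge s
  have h4 : D.w ^ 2 ≤ 1 := pow_le_one₀ (by linarith [h.fr.w_half s]) h.fr.whi
  generalize t ^ 143979 = a at h1 h2
  rw [abs_of_nonneg (by linarith)]
  nlinarith

theorem trB_si (hO : O ∈ Gd) (Y : Mat n) :
    (D.PB * Y).trace = (D.PB * (D.Hs O * Y * D.Hi O)).trace := by
  rw [← mul_assoc, ← mul_assoc, trace_mul_cycle, ← mul_assoc, ← h.bHi hO, mul_assoc D.PB,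
    h.fr.is s, mul_one]

theorem trB_is (hO : O ∈ Gd) (Y : Mat n) :
    (D.PB * Y).trace = (D.PB * (D.Hi O * Y * D.Hs O)).trace := by
  rw [← mul_assoc, ← mul_assoc, trace_mul_cycle, ← mul_assoc, ← h.bHs hO, mul_assoc D.PB,
    h.fr.si s, mul_one]

/-- finite rank terms -/
theorem fr_is (hO : O ∈ Gd) {Y : Mat n} {c : ℝ} (hc : 0 ≤ c)
    (hY : OpLe (D.Hi O * Y * D.Hs O) c) : |(D.PB * Y).trace| ≤ D.r * c := by
  rw [h.trB_is s hO]; exact h.si.trB_op hc hY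

theorem fr_si (hO : O ∈ Gd) {Y : Mat n} {c : ℝ} (hc : 0 ≤ c)
    (hY : OpLe (D.Hs O * Y * D.Hi O) c) : |(D.PB * Y).trace| ≤ D.r * c := by
  rw [h.trB_si s hO]; exact h.si.trB_op hc hY

theorem fr_is' (hO : O ∈ Gd) {Y : Mat n} {c : ℝ} (hY : fro (D.Hi O * Y * D.Hs O) ≤ c) :
    |(D.PB * Y).trace| ≤ √D.r * c := by
  rw [h.trB_is s hO]; exact h.si.trB_fro hY

theorem fr_si' (hO : O ∈ Gd) {Y : Mat n} {c : ℝ} (hY : fro (D.Hs O * Y * D.Hi O) ≤ c) :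
    |(D.PB * Y).trace| ≤ √D.r * c := by
  rw [h.trB_si s hO]; exact h.si.trB_fro hY

theorem tr_PB_B : |(D.PB * D.Bh).trace| ≤ √D.r * t⁻¹ ^ 141001 := by
  obtain ⟨O, hO⟩ := h.nonempty s
  have e : (D.PB * D.Bh).trace = (D.PB * (D.PB * D.Bh)).trace := by
    rw [← mul_assoc, h.si.projB.idem]
  rw [e]
  refine h.fr_si' s hO ?_
  rw [← mul_assoc]
  refine (fro_r (by norm_num) (h.pt O hO).fB (h.fr.opHi s O)).trans ?_
  rw [mul_comm]
  exact s.ci (by norm_num) le_rfl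

theorem tr_B : |D.Bh.trace| ≤ √n * t⁻¹ ^ 72201 := by
  have n0 : (0 : ℝ) < n := by linarith [h.fr.n_big s]
  have s0 : 0 < √(n : ℝ) := Real.sqrt_pos.2 n0
  have h1 := h.si.a3
  have h2 := h.si.al
  have h3 := h.abs_Del s
  have h4 : t⁻¹ ^ 216250 ≤ n := h.fr.ile s (by norm_num)
  have h5 := s.i1 72200
  have h6 := s.ci (C := 3) (by norm_num) (a := 72200) (b := 72201) le_rfl
  have h7 : |D.Bh.trace| ≤ |D.Bh.trace - D.al * D.Del| + |D.al| * |D.Del| := by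
    rw [← abs_mul]; linarith [abs_add_le (D.Bh.trace - D.al * D.Del) (D.al * D.Del),
      congrArg abs (sub_add_cancel D.Bh.trace (D.al * D.Del))]
  have h8 := mul_le_mul h2 h3 (abs_nonneg _) (s.i0 _)
  generalize t⁻¹ ^ 216250 = a at h1 h4
  generalize t⁻¹ ^ 72200 = b at h2 h5 h6 h8
  generalize t⁻¹ ^ 72201 = c at h6 ⊢
  refine le_of_mul_le_mul_left ?_ s0
  rw [← mul_assoc, Real.mul_self_sqrt n0.le]
  have h9 := mul_le_mul_of_nonneg_left h7 s0.le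
  nlinarith

theorem tr_Pi_B : |(D.Pi * D.Bh).trace| ≤ √n * t⁻¹ ^ 72202 := by
  have e : (D.Pi * D.Bh).trace = D.Bh.trace - (D.PB * D.Bh).trace := by
    rw [Fd.PB, sub_mul, one_mul, trace_sub, sub_sub_cancel]
  have r0 : 0 ≤ D.r := by linarith [h.fr.r1]
  have n0 : (0 : ℝ) ≤ n := Nat.cast_nonneg n
  have h1 : √D.r * t⁻¹ ^ 141000 ≤ √n := by
    refine Real.le_sqrt_of_sq_le (abs_le_of_sq_le_sq' ?_ n0).2
    rw [mul_pow, Real.sq_sqrt r0, mul_pow, ← pow_mul, ← pow_mul, pow_two (n : ℝ)]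
    exact mul_le_mul (h.fr.r_pow (by norm_num)) (h.fr.n_ge s) (s.i0 _) n0
  have h2 : √D.r * t⁻¹ ^ 141001 ≤ √n * t⁻¹ ^ 72201 := by
    rw [pow_succ, ← mul_assoc]
    refine mul_le_mul h1 ?_ (inv_nonneg.2 s.pos.le) (Real.sqrt_nonneg _)
    exact (pow_one _).ge.trans (s.im (by norm_num))
  have h3 := mul_le_mul_of_nonneg_left
    (s.ci (C := 2) (by norm_num) (a := 72201) (b := 72202) le_rfl) (Real.sqrt_nonneg (n : ℝ))
  rw [e]
  refine (abs_sub _ _).trans ?_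
  have h4 := h.tr_B s
  have h5 := h.tr_PB_B s
  generalize t⁻¹ ^ 72201 = a at h2 h3 h4
  linarith

/-- means of bounded functions -/
theorem abs_E {g : OG n → ℝ} {c : ℝ} (hc : 0 ≤ c) (hg : ∀ O ∈ Gd, |g O| ≤ c) :
    |D.E Gd g| ≤ c := by
  have h1 := norm_setIntegral_le_of_norm_le_const (μ := D.mu) (s := Gd) (f := g)
    (measure_lt_top _ _) hg
  exact h1.trans (mul_le_of_le_one_right hc measureReal_le_one)

end Core

end Vale.Agent.N150.T2
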