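import Vale.Agent.N150.T2M2
import Vale.Agent.N150.T2Kit

/-! Block T2: proof of `T2.M2Stmt`. -/

namespace Vale.Agent.N150.T2M

open Matrix MeasureTheory Set Filter Topology
open Vale.Agent.P150 Vale.Agent.P150.F Vale.Agent.N150.Sp
open Vale.Agent.N150.Haar (fro fro_nonneg)
open Vale.Agent.N150.Wd
open Vale.Agent.N150.T2 (Fd Core Sml)

variable {n : ℕ} {t : ℝ} {D : Fd n} {Gd : Set (OG n)}

theorem alg {A K V g Q : Mat n} {w : ℝ} (hK : A * (w • (1 - K)) = K) (hQ : Q = -(g * A))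
    (hg : g = 1 + Q * (V + w • 1)) (hG : gᵀ * (V + w • 1) * A = 1 - gᵀ) :
    gᵀ * V * K = w • (1 - K - gᵀ) ∧ w • Q = -K - Q * V * K := by
  have e1 : gᵀ * (V + w • 1) * K = (1 - gᵀ) * (w • (1 - K)) := by rw [← hG, mul_assoc _ A, hK]
  have e2 : Q * (w • (1 - K)) = -((1 + Q * (V + w • 1)) * K) := by
    rw [← hg]; conv_lhs => rw [hQ, neg_mul, mul_assoc, hK]
  simp only [mul_add, add_mul, mul_sub, sub_mul, Matrix.mul_smul, Matrix.smul_mul, mul_one, one_mul,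
    smul_sub] at e1 e2 ⊢
  exact ⟨by linear_combination (norm := abel1) e1, by linear_combination (norm := abel1) e2⟩

theorem r_tau (h : T2.Fr t D) (s : Sml t) : D.r * t⁻¹ ^ 336000 ≤ n := by
  have r0 : 0 ≤ D.r := by linarith [h.r1]
  refine (pow_le_pow_iff_left₀ (mul_nonneg r0 (s.i0 _)) (Nat.cast_nonneg n) three_ne_zero).1 ?_
  rw [mul_pow, ← pow_mul, pow_succ' (n : ℝ) 2]
  refine mul_le_mul (h.r_pow (by norm_num)) ?_ (s.i0 _) (Nat.cast_nonneg n)
  refine le_trans ?_ (pow_le_pow_left₀ (s.i0 _) (h.n_ge s) 2)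
  rw [← pow_mul]; exact s.im (by norm_num)

theorem AK (h : T2.Fr t D) (s : Sml t) (O : OG n) :
    fr D.A0 O * (D.w • (1 - fr D.K0 O)) = fr D.K0 O := by
  have hw : D.w ≠ 0 := ne_of_gt (by linarith [h.w_half s])
  show JO _ O * (D.w • (1 - JO _ O)) = JO _ O
  rw [T1.one_sub_JO, T1.JO_smul, T1.JO_mul]
  congr 1
  funext a
  have := (h.nu_pos s a).ne'
  field_simp
  ring

theorem core_pt (h : Core t D Gd) (s : Sml t) {O : OG n} (hO : O ∈ Gd) :
    Pt (t⁻¹ ^ 125) (t⁻¹ ^ 72000) D.r (t ^ 47995) D.w D.Pi (D.Hs O) (D.Hi O) (D.Kt O) D.Vt (D.Ga O)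
      (D.Q O) := by
  have p := h.pt O hO
  have s0 := Real.sqrt_nonneg (n : ℝ)
  have n0 : (0 : ℝ) ≤ n := Nat.cast_nonneg n
  have b : 1000 ≤ t⁻¹ ^ 125 := s.big.trans ((pow_one _).ge.trans (s.im (by norm_num)))
  have e : t ^ 47995 * (t⁻¹ ^ 72000) ^ 2 = t⁻¹ ^ 96005 := by
    rw [← pow_mul, mul_comm]; exact s.pi 47995 96005
  have hg : D.Ga O = 1 + D.Q O * (D.Vt + D.w • 1) := by rw [← D.Th_eq]; exact h.Ga_eq hO
  have hG : (D.Ga O)ᵀ * (D.Vt + D.w • 1) * fr D.A0 O = 1 - (D.Ga O)ᵀ := by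
    have h1 := Gm_mul_A D.A0_tr h.si.sT p.unit
    rw [Gm_eq D.A0_tr transpose_zero h.si.sT p.unit] at h1
    rw [← D.Th_eq]; exact h1
  obtain ⟨a1, a2⟩ := alg (AK h.fr s O) rfl hg hG
  refine ⟨by linarith, s.i1 _, h.fr.r1, ?_, (s.i1 _).trans e.ge, h.fr.w_half s, h.fr.whi, h.si.proj.symm,
    h.si.proj.idem, h.si.trPB, D.Hs_tr O, h.fr.si s O, h.cHs hO, D.Kt_tr O, h.si.sV, h.Q_tr hO, hg,
    a1, a2, h.fr.trKt s O, (h.fr.opHs s O).monoN (s.i0 _) ?_,
    (h.fr.opHi s O).monoN (by norm_num) (by linarith), p.iGa.monoN (s.i0 _) (s.im (by norm_num)),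
    p.iQ, p.iV.monoN (s.i0 _) (s.im (by norm_num)),
    (h.fr.opHKH s O).monoN (by norm_num) (by linarith), (h.fr.froHs s O).trans ?_,
    (h.fr.froH s O).trans ?_, ?_, h.si.trV.trans ?_,
    JO (fun a => √(D.hv a) * D.ind 48000 a) O, JO (fun a => D.hv a * (1 - D.ind 48000 a)) O,
    ?_, ?_, ?_⟩
  · have h1 := mul_le_mul_of_nonneg_left (r_tau h.fr s) (s.p0 47995)
    refine le_trans ?_ h1
    rw [← pow_mul, mul_left_comm, mul_comm (t ^ _), s.pi 47995 288005]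
    exact mul_le_mul_of_nonneg_left (s.im (by norm_num)) (by linarith [h.fr.r1])
  · rw [← pow_mul, ← pow_add]; exact s.im (by norm_num)
  · rw [mul_comm]; exact mul_le_mul_of_nonneg_right (s.im (by norm_num)) s0
  · rw [mul_left_comm, ← pow_add]; exact mul_le_mul_of_nonneg_left (s.im (by norm_num)) s0
  · refine (mul_le_mul_of_nonneg_left p.hV (sq_nonneg _)).trans ?_
    rw [← pow_mul, mul_left_comm, s.pi 143900 100, mul_comm]
    exact mul_le_mul_of_nonneg_right (s.im (by norm_num)) s0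
  · exact one_le_mul_of_one_le_of_one_le (s.i1 _) h.fr.r1
  · rw [h.fr.ss s, T1.JO_tr, T1.JO_mul, T1.JO_add, Fd.H]
    congr 1
    funext a
    have := Real.mul_self_sqrt (T2P.hv_pos h.fr s.pos a).le
    unfold Fd.ind
    split_ifs
    · linarith
    · ring
  · have e1 : fro (JO (fun a => √(D.hv a) * D.ind 48000 a) O) = fro (diagonal _ : Mat n) :=
      fro_fr _ O
    have e2 := h.fr.trH 48000 (by norm_num)
    rw [mul_comm (t ^ 48000), s.ip 5 47995, mul_comm] at e2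
    rw [e1, T2P.fro_diag_sq]
    refine le_trans (le_of_eq (Finset.sum_congr rfl fun a _ => ?_)) e2
    rw [mul_pow, Real.sq_sqrt (T2P.hv_pos h.fr s.pos a).le]
    unfold Fd.ind
    split_ifs <;> ring
  · rw [e]
    refine T1.opLe_JO (fun a => ?_) O
    unfold Fd.ind
    split_ifs with ha
    · rw [sub_self, mul_zero, abs_zero]; exact s.i0 _
    · rw [sub_zero, mul_one, abs_of_pos (T2P.hv_pos h.fr s.pos a)]
      refine le_trans ?_ (s.im (show 2 * 48000 ≤ 96005 by norm_num))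
      rw [inv_pow, ← one_div, le_div_iff₀ (pow_pos s.pos _)]
      exact h.fr.hi 48000 (by norm_num) a (by omega)

theorem core_fb (h : Core t D Gd) (s : Sml t)
    (lip : ∀ (F S : Mat n) (a σ : ℝ), 0 ≤ a → 0 ≤ σ → OpLe S σ → OpLe F a →
      LipO Gd (a * σ * √n * t⁻¹ ^ 216500) (D.phQ F S)) :
    Fb D.mu Gd (t⁻¹ ^ 125) (t⁻¹ ^ 72000) D.r (t ^ 47995) D.w (n ^ 2) (n / 300) ((n : ℝ) ^ 900)⁻¹
      (√n * t⁻¹ ^ 216500) (t⁻¹ ^ 288002 * (√n * t⁻¹ ^ 216500)) D.Pi D.A0 D.K0 D.Vt D.Hs D.Hi := by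
  have nb := h.fr.n_big s
  have n1 : (1 : ℝ) ≤ n := by linarith
  have n0 : (0 : ℝ) < n := by linarith
  have s0 : 0 < √(n : ℝ) := Real.sqrt_pos.2 n0
  have τ0 : 0 < t⁻¹ := inv_pos.2 s.pos
  have sn : √(n : ℝ) ≤ n := Real.sqrt_le_iff.2 ⟨n0.le, by nlinarith⟩
  have ss := Real.mul_self_sqrt n0.le
  refine ⟨D.Th_eq ▸ h.ok s, D.ri, h.meas, h.nonempty s, h.mass, h.mass_pos s, ?_, ?_, h.conc s,
    by positivity, fun O hO => D.Th_eq ▸ core_pt h s hO, ?_, ?_, ?_, mul_pos s0 (pow_pos τ0 _),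
    mul_pos (pow_pos τ0 _) (mul_pos s0 (pow_pos τ0 _)), fun F a ha hF => ?_, ?_, ?_, ?_⟩
  · rw [← div_eq_mul_inv, div_le_one (pow_pos n0 _)]
    exact le_self_pow₀ n1 (by norm_num)
  · rw [Real.sqrt_inv, show (900 : ℕ) = 450 * 2 from rfl, pow_mul, Real.sqrt_sq (pow_pos n0 _).le,
      ← pow_mul, ← div_eq_mul_inv, div_le_one (pow_pos n0 _)]
    exact pow_le_pow_right₀ n1 (by norm_num)
  · rw [← pow_mul, s.ip 12500 35495]; exact s.p1 _
  · refine le_trans (abs_le_of_sq_le_sq' ?_ n0.le).2 (le_self_pow₀ n1 two_ne_zero)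
    rw [Haar.fro_sq', pow_two (n : ℝ)]
    exact (h.fr.hsqK s).trans (mul_le_mul_of_nonneg_left (h.fr.ile s (by norm_num)) n0.le)
  · rw [← pow_mul, pow_two]
    exact mul_le_mul (h.fr.ile s (by norm_num)) sn s0.le n0.le
  · have := lip F 1 a 1 ha zero_le_one opLe_one hF
    rw [mul_one, mul_assoc] at this
    rw [← D.Th_eq]
    exact lip_add (c := 0) this fun O _ => by rw [zero_add, Fd.phQ, fr_one, mul_one, Fd.Q]
  · have := lip D.Pi D.K0 1 _ zero_le_one (s.i0 _) (h.fr.opK0 s) h.si.opPi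
    rw [one_mul, mul_assoc] at this
    rw [← D.Th_eq]
    exact this
  · rw [mul_mul_mul_comm, ss, ← pow_add, div_le_iff₀ (by positivity), mul_comm (n : ℝ) (_ / _)]
    refine mul_le_mul_of_nonneg_left ?_ n0.le |>.trans_eq' rfl |>.trans_eq (mul_comm _ _)
    rw [le_div_iff₀ (by norm_num), mul_comm]
    exact (s.ci (by norm_num) le_rfl).trans (h.fr.ile s (by norm_num))
  · rw [mul_assoc, mul_mul_mul_comm, ss, ← pow_add, mul_left_comm, ← pow_add, ← pow_mul,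
      mul_left_comm (t ^ _), mul_comm (t ^ _), s.pi 47995 240005, div_le_iff₀ (by positivity),
      mul_assoc]
    refine mul_le_mul_of_nonneg_left ?_ n0.le
    rw [show 288002 + (216500 + 216500) = 240005 + 480997 from rfl, pow_add]
    refine mul_le_mul_of_nonneg_left ?_ (s.i0 _)
    rw [le_div_iff₀ (by norm_num), mul_comm]
    exact (s.ci (by norm_num) le_rfl).trans (h.fr.ile s (by norm_num))

/-- **[M2]** -/
theorem m2Stmt : T2.M2Stmt := by
  refine (T2.et_sml.and T2P.lipStmt).mono fun t ⟨s, lip⟩ n D Gd h => ?_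
  obtain ⟨a, b, c⟩ := (core_fb h s fun F S a σ ha hσ hS hF =>
    ((lip n D Gd h F S a σ ha hσ hS).1 hF).1).main
  have r0 : 0 ≤ D.r := by linarith [h.fr.r1]
  rw [← D.Th_eq] at a b c
  refine ⟨a.2.2.trans ?_, b.2.2.trans ?_, ?_⟩
  · rw [mul_left_comm, ← pow_mul, ← pow_mul, ← pow_add]
    exact mul_le_mul_of_nonneg_left (s.im (by norm_num)) r0
  · rw [mul_left_comm, ← pow_mul, ← pow_mul, ← pow_add]
    exact mul_le_mul_of_nonneg_left (s.im (by norm_num)) r0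
  · refine le_trans (le_of_eq ?_) (c.2.2.trans ?_)
    · refine congrArg abs (integral_congr_ae (ae_of_all _ fun O => ?_))
      show (D.Pi * D.Vt * D.Ga O).trace = _
      rw [mul_assoc, trace_mul_comm]; rfl
    · rw [pow_zero, one_mul, ← pow_mul]
      exact mul_le_mul_of_nonneg_left (s.im (by norm_num)) r0

end Vale.Agent.N150.T2M
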