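import Vale.Agent.N150.T2Kit

/-! Block T2: more consequences of `Fr`, `Si`, `Pt` and `Core`.  The smallness assumption is
`hs : T1.Sm 2 t`. -/

set_option linter.unusedSectionVars false

open Matrix MeasureTheory Filter Topology

namespace Vale.Agent.N150.T2

open Vale.Agent.P150 Vale.Agent.P150.F Vale.Agent.N150.Sp Vale.Agent.N150.Fib
open Vale.Agent.N150.Haar (fro fro_nonneg fro_transpose fro_sq')
open Vale.Agent.N150.Wd (fr Ms RI)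
open Vale.Agent.N150.T1 (Sm JO_mul JO_comm JO_tr JO_one JO_smul JO_sub JO_const JO_rot trace_JO
  opLe_JO one_sub_JO)
open Vale.Agent.N150.KB.Ch (opT opNeg fro_mul_l fro_mul_r fro_le_op op_of_fro abs_trace_le_fro
  abs_trace_op)
open Vale.Agent.N150.T2P (abs_trace_mul fro_conj fro_l fro_r opLe_idem)

variable {n : ℕ}

theorem sml_of {t : ℝ} (hs : Sm 2 t) : Sml t :=
  ⟨hs.pos, by have := hs.c1 (C := 1000) (by norm_num); linarith⟩

theorem et_sm : Et fun t => Sm 2 t := T1.ev_sm 2 le_rfl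

theorem Et.and {p q : ℝ → Prop} (hp : Et p) (hq : Et q) : Et fun t => p t ∧ q t :=
  Filter.Eventually.and hp hq

theorem Et.mono {p q : ℝ → Prop} (hp : Et p) (h : ∀ t, p t → q t) : Et q :=
  Filter.Eventually.mono hp h

theorem et_of_sm {p : ℝ → Prop} (h : ∀ t, Sm 2 t → p t) : Et p := et_sm.mono h

/-! ### generic facts -/

theorem fro_sq_hsq (A : Mat n) : fro A ^ 2 = hsq A := fro_sq' A

theorem hsq_nn (A : Mat n) : 0 ≤ hsq A := by rw [← fro_sq_hsq]; exact sq_nonneg _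

theorem fro_le_sqrt {A : Mat n} {c : ℝ} (hc : 0 ≤ c) (h : hsq A ≤ n * c ^ 2) : fro A ≤ √n * c := by
  refine (abs_le_of_sq_le_sq' ?_ (mul_nonneg (Real.sqrt_nonneg _) hc)).2
  rwa [fro_sq_hsq, mul_pow, Real.sq_sqrt (Nat.cast_nonneg n)]

theorem hsq_diag (u : Vec n) : hsq (diagonal u : Mat n) = ∑ a, u a ^ 2 := by
  unfold hsq
  refine Finset.sum_congr rfl fun a _ => ?_
  rw [Finset.sum_eq_single a (fun b _ hb => by simp [diagonal_apply_ne' _ hb]) (by simp)]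
  simp

theorem hsq_JO (u : Vec n) (O : OG n) : hsq (JO u O) = ∑ a, u a ^ 2 := by
  rw [← hsq_diag, ← fro_sq_hsq, ← fro_sq_hsq]
  exact congrArg (· ^ 2) (Wd.fro_fr (diagonal u) O)

theorem JO_cg {u v : Vec n} (h : ∀ a, u a = v a) (O : OG n) : JO u O = JO v O := by
  rw [funext h]



theorem isProj_op {P : Mat n} (h : IsProj P) : OpLe P 1 := opLe_idem h.symm h.idem

theorem isProj_compl {P : Mat n} (h : IsProj P) : IsProj (1 - P) :=
  ⟨by rw [transpose_sub, transpose_one, h.symm], by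
    rw [mul_sub, sub_mul, sub_mul, h.idem]; simp⟩

theorem fro_proj_sq {P : Mat n} (h : IsProj P) : fro P ^ 2 = P.trace := by
  rw [Haar.fro_sq, Haar.ip_eq_trace, h.symm, h.idem]

theorem trace_proj_nn {P : Mat n} (h : IsProj P) : 0 ≤ P.trace := by
  rw [← fro_proj_sq h]; exact sq_nonneg _

theorem fro_proj_sqrt {P : Mat n} (h : IsProj P) {r : ℝ} (hr : P.trace ≤ r) : fro P ≤ √r :=
  Real.le_sqrt_of_sq_le (by rwa [fro_proj_sq h])

/-- `|tr (P Y)| ≤ √r |P Y|_F` -/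
theorem abs_tr_proj_fro {P : Mat n} (h : IsProj P) {r : ℝ} (hr : P.trace ≤ r) (Y : Mat n) :
    |(P * Y).trace| ≤ √r * fro (P * Y) := by
  have e : P * Y = P * (P * Y) := by rw [← mul_assoc, h.idem]
  calc |(P * Y).trace| = |(P * (P * Y)).trace| := by rw [← e]
    _ ≤ fro P * fro (P * Y) := abs_trace_mul _ _
    _ ≤ _ := mul_le_mul_of_nonneg_right (fro_proj_sqrt h hr) (fro_nonneg _)

/-- `|P Y|_F ≤ √r ‖Y‖` -/
theorem fro_proj_mul {P : Mat n} (h : IsProj P) {r : ℝ} (hr : P.trace ≤ r) {Y : Mat n} {c : ℝ}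
    (hc : 0 ≤ c) (hY : OpLe Y c) : fro (P * Y) ≤ √r * c := fro_r hc (fro_proj_sqrt h hr) hY

/-- `|tr (P Y)| ≤ r ‖Y‖` -/
theorem abs_tr_proj_op {P : Mat n} (h : IsProj P) {r : ℝ} (hr : P.trace ≤ r) {Y : Mat n} {c : ℝ}
    (hc : 0 ≤ c) (hY : OpLe Y c) : |(P * Y).trace| ≤ r * c := by
  refine (abs_tr_proj_fro h hr Y).trans ((mul_le_mul_of_nonneg_left (fro_proj_mul h hr hc hY)
    (Real.sqrt_nonneg _)).trans_eq ?_)
  rw [← mul_assoc, Real.mul_self_sqrt ((trace_proj_nn h).trans hr)]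

/-- product of operator bounds which are powers of `t⁻¹` -/
theorem op_mul {t : ℝ} (hs : Sm 2 t) {A B : Mat n} {a b : ℕ} (hA : OpLe A (t⁻¹ ^ a))
    (hB : OpLe B (t⁻¹ ^ b)) : OpLe (A * B) (t⁻¹ ^ (a + b)) := by
  rw [pow_add]; exact hA.mulN hB (hs.i0 a).le (hs.i0 b).le

theorem op_mono {t : ℝ} (hs : Sm 2 t) {A : Mat n} {a b : ℕ} (hA : OpLe A (t⁻¹ ^ a)) (hab : a ≤ b) :
    OpLe A (t⁻¹ ^ b) := hA.monoN (hs.i0 a).le (hs.iw hab)

theorem op_num {t : ℝ} (hs : Sm 2 t) {A : Mat n} {c : ℝ} (hA : OpLe A c) (h0 : 0 ≤ c)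
    (hc : c ≤ 10 ^ 40) : OpLe A (t⁻¹ ^ 1) := by
  rw [pow_one]; exact hA.monoN h0 (hs.c_inv hc)

theorem op_tr {t : ℝ} (hs : Sm 2 t) {A : Mat n} {a : ℕ} (hA : OpLe A (t⁻¹ ^ a)) :
    OpLe Aᵀ (t⁻¹ ^ a) := opT (hs.i0 a).le hA

/-! ### the data of a fibre, without hypotheses -/

namespace Fd

variable (D : Fd n) (O : OG n)

theorem A_eq : D.A O = JO (fun a => D.nu a - D.w⁻¹) O := rfl
theorem Kt_eq : D.Kt O = JO (fun a => 1 - (D.nu a)⁻¹ / D.w) O := rfl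
theorem Pi_eq : D.Pi = 1 - D.PB := by rw [PB, sub_sub_cancel]
theorem G_eq : D.G O = D.Th * D.Ga O := rfl
theorem Q_eq : D.Q O = -(D.Ga O * D.A O) := rfl
theorem Xi_eq : D.Xi O = D.Ga O * D.P O * (D.Ga O)ᵀ := rfl

theorem A_tr : (D.A O)ᵀ = D.A O := JO_tr _ _
theorem P_tr : (D.P O)ᵀ = D.P O := JO_tr _ _
theorem G0_tr : (D.G0 O)ᵀ = D.G0 O := JO_tr _ _
theorem H_tr : (D.H O)ᵀ = D.H O := JO_tr _ _
theorem Pl_tr (i : ℕ) : (D.Pl i O)ᵀ = D.Pl i O := JO_tr _ _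
theorem Xi_tr : (D.Xi O)ᵀ = D.Xi O := Wd.Xi_symm D.P0_tr O

theorem ind_nn (i : ℕ) (a : Fin n) : 0 ≤ D.ind i a := by unfold ind; split_ifs <;> norm_num
theorem ind_le (i : ℕ) (a : Fin n) : D.ind i a ≤ 1 := by unfold ind; split_ifs <;> norm_num
theorem ind_sq (i : ℕ) (a : Fin n) : D.ind i a * D.ind i a = D.ind i a := by
  unfold ind; split_ifs <;> norm_num
theorem ind_mul {i j : ℕ} (h : i ≤ j) (a : Fin n) : D.ind i a * D.ind j a = D.ind j a := by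
  unfold ind
  by_cases hj : j < D.lab a
  · rw [if_pos hj, if_pos (h.trans_lt hj), one_mul]
  · rw [if_neg hj, mul_zero]
theorem ind_anti {i j : ℕ} (h : i ≤ j) (a : Fin n) : D.ind j a ≤ D.ind i a := by
  rw [← D.ind_mul h a]
  exact mul_le_of_le_one_right (D.ind_nn i a) (D.ind_le j a)

theorem Pl_mul {i j : ℕ} (h : i ≤ j) : D.Pl i O * D.Pl j O = D.Pl j O := by
  rw [Pl, Pl, JO_mul]; exact JO_cg (D.ind_mul h) O
theorem isProj_PlX (i : ℕ) : IsProj (D.Pl i O) := ⟨D.Pl_tr O i, D.Pl_mul O le_rfl⟩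
theorem P0_idem : D.P0 * D.P0 = D.P0 := by
  rw [P0, diagonal_mul_diagonal]; exact congrArg diagonal (funext (D.ind_sq _))
theorem op_Pl (i : ℕ) : OpLe (D.Pl i O) 1 := isProj_op (D.isProj_PlX O i)
theorem op_P : OpLe (D.P O) 1 := D.op_Pl O _
theorem op_Plc (i : ℕ) : OpLe (1 - D.Pl i O) 1 := isProj_op (isProj_compl (D.isProj_PlX O i))
theorem trace_Pl (i : ℕ) : (D.Pl i O).trace = ∑ a, D.ind i a := trace_JO _ _
theorem trace_P : (D.P O).trace = ∑ a, D.ind 144001 a := trace_JO _ _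
theorem Hs_Pl (i : ℕ) : D.Hs O * D.Pl i O = D.Pl i O * D.Hs O := JO_comm _ _ _
theorem Hi_Pl (i : ℕ) : D.Hi O * D.Pl i O = D.Pl i O * D.Hi O := JO_comm _ _ _
theorem Hs_P : D.Hs O * D.P O = D.P O * D.Hs O := JO_comm _ _ _
theorem Hi_P : D.Hi O * D.P O = D.P O * D.Hi O := JO_comm _ _ _
theorem hsq_Kt : hsq (D.Kt O) = hsq D.K0 := by rw [Kt_eq, hsq_JO, K0, hsq_diag]




theorem ms_A : Ms D.A := Ms.fr _
theorem ms_Kt : Ms D.Kt := Ms.fr _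
theorem ms_P : Ms D.P := Ms.fr _
theorem ms_G0 : Ms D.G0 := ms_JO _
theorem ms_H : Ms D.H := ms_JO _
theorem ms_Hs : Ms D.Hs := ms_JO _
theorem ms_Hi : Ms D.Hi := ms_JO _
theorem ms_Pl (i : ℕ) : Ms (D.Pl i) := ms_JO _
theorem meas_ga : Measurable D.ga := ((Ms.const _).mul D.ms_Ga).trace
theorem meas_ka : Measurable D.ka := ((Ms.const _).mul D.ms_Q).trace
theorem meas_ze : Measurable D.ze := ((Ms.const _).mul D.ms_Ga).trace
theorem meas_xx : Measurable D.xx := ((Ms.const _).mul D.ms_Xi).trace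
theorem meas_phQ (F S : Mat n) : Measurable (D.phQ F S) :=
  (((Ms.const _).mul (.fr S)).mul D.ms_Q).trace
theorem meas_phX (F S : Mat n) : Measurable (D.phX F S) :=
  (((Ms.const _).mul (.fr S)).mul D.ms_Xi).trace

theorem meas_QOK (t : ℝ) : MeasurableSet {O | QOK t D O} := by
  have a1 := measurableSet_le (ms_fro ((D.ms_P.mul (.const D.Bh)).mul D.ms_Hs))
    (measurable_const (a := t⁻¹ ^ 300))
  have a2 := measurableSet_le (ms_fro (((D.ms_Hs.mul (.const D.Bh)).mul D.ms_Hs).mul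
    (D.ms_Pl 2500))) (measurable_const (a := t ^ 1200 * t⁻¹ ^ 216250))
  have a3 := measurableSet_le (ms_fro ((D.ms_Hs.mul (.const D.Bh)).mul D.ms_Hs))
    (measurable_const (a := t⁻¹ ^ 216300))
  have e : {O | QOK t D O} = {O | fro (D.P O * D.Bh * D.Hs O) ≤ t⁻¹ ^ 300} ∩
      ({O | fro (D.Hs O * D.Bh * D.Hs O * D.Pl 2500 O) ≤ t ^ 1200 * t⁻¹ ^ 216250} ∩
        {O | fro (D.Hs O * D.Bh * D.Hs O) ≤ t⁻¹ ^ 216300}) :=
    Set.ext fun O => ⟨fun h => ⟨h.f1, h.f2, h.f0⟩, fun h => ⟨h.1, h.2.1, h.2.2⟩⟩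
  rw [e]
  exact a1.inter (a2.inter a3)

/-! means over the good set -/

variable {D} {Gd : Set (OG n)} {g g' : OG n → ℝ}

theorem intOn (hG : MeasurableSet Gd) (hg : Measurable g) {c : ℝ} (hb : ∀ O ∈ Gd, |g O| ≤ c) :
    IntegrableOn g Gd D.mu :=
  Measure.integrableOn_of_bounded (measure_ne_top _ _) hg.aestronglyMeasurable
    ((ae_restrict_iff' hG).2 (ae_of_all _ hb))

theorem abs_E_le {c : ℝ} (hc : 0 ≤ c) (hb : ∀ O ∈ Gd, |g O| ≤ c) : |D.E Gd g| ≤ c :=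
  (norm_setIntegral_le_of_norm_le_const (μ := D.mu) (s := Gd) (f := g) (measure_lt_top _ _)
    hb).trans (mul_le_of_le_one_right hc measureReal_le_one)

theorem E_congr (hG : MeasurableSet Gd) (h : ∀ O ∈ Gd, g O = g' O) : D.E Gd g = D.E Gd g' :=
  setIntegral_congr_fun hG h

theorem E_add (h : IntegrableOn g Gd D.mu) (h' : IntegrableOn g' Gd D.mu) :
    D.E Gd (fun O => g O + g' O) = D.E Gd g + D.E Gd g' := integral_add h h'

theorem E_sub (h : IntegrableOn g Gd D.mu) (h' : IntegrableOn g' Gd D.mu) :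
    D.E Gd (fun O => g O - g' O) = D.E Gd g - D.E Gd g' := integral_sub h h'

theorem E_mul (c : ℝ) : D.E Gd (fun O => c * g O) = c * D.E Gd g := integral_const_mul c g

theorem E_neg : D.E Gd (fun O => -g O) = -D.E Gd g := integral_neg g

theorem E_const (c : ℝ) : D.E Gd (fun _ => c) = c * D.mu.real Gd := by
  rw [E, setIntegral_const, smul_eq_mul, mul_comm]

end Fd

/-! ### frame data -/

namespace Fr

variable {t : ℝ} {D : Fd n} (h : Fr t D)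
include h

theorem npos : 0 < n := by
  rcases Nat.eq_zero_or_pos n with h0 | h0
  · have := h.big
    rw [h0] at this
    norm_num at this
  · exact h0

theorem npos' : (0 : ℝ) < n := by exact_mod_cast h.npos

theorem n1 : (1 : ℝ) ≤ n := by exact_mod_cast h.npos

theorem r0 : 0 ≤ D.r := by linarith [h.r1]


variable (hs : Sm 2 t)
include hs

theorem inv_le_n : t⁻¹ ^ 564000 ≤ n := by
  have e := mul_le_mul_of_nonneg_left h.big (hs.i0 564000).le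
  have e2 := hs.ip_eq 564000 0
  rw [pow_zero, add_zero] at e2
  rw [mul_one, mul_left_comm, e2, mul_one] at e
  exact e

theorem inv_le_sqrt : t⁻¹ ^ 282000 ≤ √n :=
  Real.le_sqrt_of_sq_le (by rw [← pow_mul]; exact h.inv_le_n hs)

theorem c_le_n {C : ℝ} (hC : C ≤ 10 ^ 40) : C ≤ n := by
  have e := hs.iw (show 1 ≤ 564000 by norm_num)
  rw [pow_one] at e
  exact (hs.c_inv hC).trans (e.trans (h.inv_le_n hs))

/-- powers of `r` and of `t⁻¹` are absorbed by powers of `√n` -/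
theorem absorb (k a j : ℕ) (hk : 5640 * k + a ≤ 282000 * j) : D.r ^ k * t⁻¹ ^ a ≤ √n ^ j := by
  have s0 := Real.sqrt_nonneg (n : ℝ)
  have h0 := mul_nonneg (pow_nonneg h.r0 k) (hs.i0 a).le
  refine le_of_pow_le_pow_left₀ (n := 564000) (by norm_num) (pow_nonneg s0 j) ?_
  have e1 : (D.r ^ k) ^ 564000 = (D.r ^ 100) ^ (5640 * k) := by
    rw [← pow_mul, ← pow_mul]; congr 1; omega
  have e2 : (t⁻¹ ^ a) ^ 564000 = (t⁻¹ ^ 564000) ^ a := by rw [← pow_mul, ← pow_mul, mul_comm]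
  have e3 : (√(n : ℝ) ^ j) ^ 564000 = (n : ℝ) ^ (282000 * j) := by
    conv_rhs => rw [← Real.sq_sqrt h.npos'.le]
    rw [← pow_mul, ← pow_mul]; congr 1; omega
  rw [mul_pow, e1, e2, e3]
  refine (mul_le_mul (pow_le_pow_left₀ (pow_nonneg h.r0 _) h.rn _)
    (pow_le_pow_left₀ (hs.i0 _).le (h.inv_le_n hs) _) (pow_nonneg (hs.i0 _).le _)
    (pow_nonneg h.npos'.le _)).trans ?_
  rw [← pow_add]
  exact pow_le_pow_right₀ h.n1 hk

theorem abs_sqrt (k a : ℕ) (hk : 5640 * k + a ≤ 282000) : D.r ^ k * t⁻¹ ^ a ≤ √n := by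
  simpa using h.absorb hs k a 1 (by omega)

theorem abs_n (k a : ℕ) (hk : 5640 * k + a ≤ 564000) : D.r ^ k * t⁻¹ ^ a ≤ n := by
  have := h.absorb hs k a 2 (by omega)
  rwa [Real.sq_sqrt h.npos'.le] at this

omit hs in
theorem sqrt_r_le : √D.r ≤ D.r := Real.sqrt_le_left h.r0 |>.2 (by nlinarith [h.r1])

omit hs in
theorem sqrt_le_n : √(n : ℝ) ≤ n := Real.sqrt_le_left h.npos'.le |>.2 (by nlinarith [h.n1])

theorem del_pos : 0 < D.del := (hs.p0 _).trans_le h.dlo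
theorem nu_posX (a : Fin n) : 0 < D.nu a := (h.del_pos hs).trans_le (h.nlo a)
theorem hv_pos (a : Fin n) : 0 < D.hv a :=
  pos_of_mul_pos_left (zero_lt_one.trans_le (h.h1 a)) (h.nu_posX hs a).le
theorem w_halfX : 1 / 2 ≤ D.w := by
  have := hs.cp (C := 2) (by norm_num) (show 0 < 143990 by norm_num)
  rw [pow_zero] at this
  linarith [h.wlo]
theorem w_pos : 0 < D.w := by linarith [h.w_halfX hs]
theorem wi_le : D.w⁻¹ ≤ 2 := by
  rw [inv_le_comm₀ (h.w_pos hs) two_pos]; linarith [h.w_halfX hs]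
theorem wi_ge : 1 ≤ D.w⁻¹ := (one_le_inv₀ (h.w_pos hs)).2 h.whi
theorem deli_le : D.del⁻¹ ≤ t⁻¹ ^ 288001 := by
  rw [inv_pow]; exact inv_anti₀ (hs.p0 _) h.dlo
theorem nui_le_hv (a : Fin n) : (D.nu a)⁻¹ ≤ D.hv a := by
  rw [inv_le_iff_one_le_mul₀ (h.nu_posX hs a)]; exact h.h1 a
theorem hv_le_deli (a : Fin n) : D.hv a ≤ D.del⁻¹ := by
  rw [← one_div, le_div_iff₀ (h.del_pos hs)]; exact h.h3 a
theorem hv_le (a : Fin n) : D.hv a ≤ t⁻¹ ^ 288001 := (h.hv_le_deli hs a).trans (h.deli_le hs)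
theorem nui_le (a : Fin n) : (D.nu a)⁻¹ ≤ t⁻¹ ^ 288001 := (h.nui_le_hv hs a).trans (h.hv_le hs a)
theorem hv_geX (a : Fin n) : 1 / 7 ≤ D.hv a := by
  have := mul_le_mul_of_nonneg_left (h.nhi a) (h.hv_pos hs a).le
  linarith [h.h1 a]
theorem hv_V {a : Fin n} (ha : 144001 < D.lab a) : D.hv a = D.del⁻¹ :=
  le_antisymm (h.hv_le_deli hs a) (by rw [← h.nV a ha]; exact h.nui_le_hv hs a)
theorem abs_a (a : Fin n) : |D.nu a - D.w⁻¹| ≤ 7 :=
  abs_le.2 ⟨by linarith [h.nu_posX hs a, h.wi_le hs], by linarith [h.nhi a, h.wi_ge hs]⟩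
theorem k_eq (a : Fin n) : 1 - (D.nu a)⁻¹ / D.w = (D.nu a)⁻¹ * (D.nu a - D.w⁻¹) := by
  rw [mul_sub, inv_mul_cancel₀ (h.nu_posX hs a).ne', div_eq_mul_inv]
theorem abs_k (a : Fin n) : |1 - (D.nu a)⁻¹ / D.w| ≤ 7 * D.hv a := by
  have h0 := inv_pos.2 (h.nu_posX hs a)
  rw [h.k_eq hs, abs_mul, abs_of_pos h0, mul_comm]
  exact mul_le_mul (h.abs_a hs a) (h.nui_le_hv hs a) h0.le (by norm_num)

variable (O : OG n)

theorem Hs_Hi : D.Hs O * D.Hi O = 1 := by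
  rw [Fd.Hs, Fd.Hi, JO_mul, ← JO_one O]
  exact JO_cg (fun a => mul_inv_cancel₀ (Real.sqrt_pos.2 (h.hv_pos hs a)).ne') O
theorem Hi_Hs : D.Hi O * D.Hs O = 1 := by rw [← h.Hs_Hi hs O]; exact JO_comm _ _ _
theorem Hs_Hs : D.Hs O * D.Hs O = D.H O := by
  rw [Fd.Hs, JO_mul]
  exact JO_cg (fun a => Real.mul_self_sqrt (h.hv_pos hs a).le) O
theorem up (M : Mat n) : M = D.Hs O * (D.Hi O * M * D.Hi O) * D.Hs O := by
  rw [← mul_assoc, ← mul_assoc, h.Hs_Hi hs, one_mul, mul_assoc, h.Hi_Hs hs, mul_one]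
theorem down (M : Mat n) : M = D.Hi O * (D.Hs O * M * D.Hs O) * D.Hi O := by
  rw [← mul_assoc, ← mul_assoc, h.Hi_Hs hs, one_mul, mul_assoc, h.Hs_Hi hs, mul_one]
theorem Kt_G0A : D.Kt O = D.G0 O * D.A O := by
  rw [Fd.Kt_eq, Fd.A_eq, Fd.G0, JO_mul]; exact JO_cg (h.k_eq hs) O
theorem Kt_AG0 : D.Kt O = D.A O * D.G0 O := by rw [h.Kt_G0A hs]; exact JO_comm _ _ _
omit h hs in
theorem Kt_sub : D.Kt O = 1 - D.w⁻¹ • D.G0 O := by
  rw [Fd.Kt_eq, Fd.G0, JO_smul, one_sub_JO]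
  exact JO_cg (fun a => by rw [div_eq_mul_inv, mul_comm]) O
omit hs in
theorem P_G0 : D.P O * D.G0 O = D.del⁻¹ • D.P O := by
  rw [Fd.P_eq, Fd.Pl, Fd.G0, JO_mul, JO_smul]
  refine JO_cg (fun a => ?_) O
  unfold Fd.ind
  split_ifs with ha
  · rw [h.nV a ha, mul_comm]
  · simp
omit hs in
theorem P_A : D.P O * D.A O = (D.del - D.w⁻¹) • D.P O := by
  rw [Fd.P_eq, Fd.Pl, Fd.A_eq, JO_mul, JO_smul]
  refine JO_cg (fun a => ?_) O
  unfold Fd.ind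
  split_ifs with ha
  · rw [h.nV a ha, mul_comm]
  · simp
omit hs in
theorem A_P : D.A O * D.P O = (D.del - D.w⁻¹) • D.P O := by
  rw [← h.P_A O]; exact JO_comm _ _ _
theorem P_H : D.P O * D.H O = D.del⁻¹ • D.P O := by
  rw [Fd.P_eq, Fd.Pl, Fd.H, JO_mul, JO_smul]
  refine JO_cg (fun a => ?_) O
  unfold Fd.ind
  split_ifs with ha
  · rw [h.hv_V hs ha, mul_comm]
  · simp
theorem trace_Kt : (D.Kt O).trace = 0 := by
  rw [Kt_sub, trace_sub, trace_smul, Fd.G0, trace_JO, h.tr0, trace_one, Fintype.card_fin,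
    smul_eq_mul, mul_left_comm, inv_mul_cancel₀ (h.w_pos hs).ne', mul_one, sub_self]

theorem op_Hs : OpLe (D.Hs O) (t⁻¹ ^ 144001) := opLe_JO (fun a => by
  rw [abs_of_nonneg (Real.sqrt_nonneg _)]
  refine Real.sqrt_le_iff.2 ⟨(hs.i0 _).le, (h.hv_le hs a).trans ?_⟩
  rw [← pow_mul]; exact hs.iw (by norm_num)) O
theorem op_Hi : OpLe (D.Hi O) 3 := opLe_JO (fun a => by
  have h1 : 1 / 3 ≤ √(D.hv a) := Real.le_sqrt_of_sq_le (by linarith [h.hv_geX hs a])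
  rw [abs_inv, abs_of_nonneg (Real.sqrt_nonneg _), inv_le_comm₀ (by linarith) (by norm_num)]
  linarith) O
theorem op_Hi' : OpLe (D.Hi O) (t⁻¹ ^ 1) := op_num hs (h.op_Hi hs O) (by norm_num) (by norm_num)
theorem op_H : OpLe (D.H O) (t⁻¹ ^ 288001) := opLe_JO (fun a => by
  rw [abs_of_pos (h.hv_pos hs a)]; exact h.hv_le hs a) O
theorem op_G0 : OpLe (D.G0 O) (t⁻¹ ^ 288001) := opLe_JO (fun a => by
  rw [abs_of_pos (inv_pos.2 (h.nu_posX hs a))]; exact h.nui_le hs a) O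
theorem op_A : OpLe (D.A O) 7 := opLe_JO (h.abs_a hs) O
theorem op_A0 : OpLe D.A0 7 := KB.Ch.op_diagonal (by norm_num) (h.abs_a hs)
theorem abs_k' (a : Fin n) : |1 - (D.nu a)⁻¹ / D.w| ≤ t⁻¹ ^ 288002 :=
  (h.abs_k hs a).trans ((mul_le_mul_of_nonneg_left (h.hv_le hs a) (by norm_num)).trans
    (hs.ci (by norm_num) (by norm_num)))
theorem op_Kt : OpLe (D.Kt O) (t⁻¹ ^ 288002) := opLe_JO (h.abs_k' hs) O
theorem op_K0 : OpLe D.K0 (t⁻¹ ^ 288002) := KB.Ch.op_diagonal (hs.i0 _).le (h.abs_k' hs)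
omit h hs in
theorem op_P0 : OpLe D.P0 1 := opLe_idem D.P0_tr D.P0_idem
theorem op_HiKtHi : OpLe (D.Hi O * D.Kt O * D.Hi O) 7 := by
  rw [Fd.Hi, Fd.Kt_eq, JO_mul, JO_mul]
  refine opLe_JO (fun a => ?_) O
  have h0 := h.hv_pos hs a
  have e : (√(D.hv a))⁻¹ * (1 - (D.nu a)⁻¹ / D.w) * (√(D.hv a))⁻¹ =
      (1 - (D.nu a)⁻¹ / D.w) / D.hv a := by
    rw [mul_right_comm, ← mul_inv, Real.mul_self_sqrt h0.le, mul_comm, div_eq_mul_inv _ (D.hv a)]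
  rw [e, abs_div, abs_of_pos h0, div_le_iff₀ h0]
  exact h.abs_k hs a
theorem op_HiG0Hi : OpLe (D.Hi O * D.G0 O * D.Hi O) 1 := by
  rw [Fd.Hi, Fd.G0, JO_mul, JO_mul]
  refine opLe_JO (fun a => ?_) O
  have h0 := h.hv_pos hs a
  have e : (√(D.hv a))⁻¹ * (D.nu a)⁻¹ * (√(D.hv a))⁻¹ = (D.nu a)⁻¹ / D.hv a := by
    rw [mul_right_comm, ← mul_inv, Real.mul_self_sqrt h0.le, mul_comm, div_eq_mul_inv _ (D.hv a)]
  rw [e, abs_div, abs_of_pos h0, div_le_iff₀ h0, abs_of_pos (inv_pos.2 (h.nu_posX hs a)), one_mul]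
  exact h.nui_le_hv hs a
theorem op_PHi : OpLe (D.P O * D.Hi O) (t ^ 143999) := by
  rw [Fd.P_eq, Fd.Pl, Fd.Hi, JO_mul]
  refine opLe_JO (fun a => ?_) O
  unfold Fd.ind
  split_ifs with ha
  · rw [one_mul, h.hv_V hs ha, Real.sqrt_inv, inv_inv, abs_of_nonneg (Real.sqrt_nonneg _)]
    refine Real.sqrt_le_iff.2 ⟨(hs.p0 _).le, ?_⟩
    rw [← pow_mul]; exact h.dhi
  · rw [zero_mul, abs_zero]; exact (hs.p0 _).le
theorem op_PlcHs {i : ℕ} (hi : i ≤ 144000) : OpLe ((1 - D.Pl i O) * D.Hs O) (t⁻¹ ^ i) := by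
  rw [Fd.Pl, one_sub_JO, Fd.Hs, JO_mul]
  refine opLe_JO (fun a => ?_) O
  unfold Fd.ind
  split_ifs with ha
  · rw [sub_self, zero_mul, abs_zero]; exact (hs.i0 _).le
  · rw [sub_zero, one_mul, abs_of_nonneg (Real.sqrt_nonneg _)]
    refine Real.sqrt_le_iff.2 ⟨(hs.i0 _).le, ?_⟩
    rw [← pow_mul, inv_pow, ← one_div, le_div_iff₀ (hs.p0 _), mul_comm i 2]
    exact h.hi i hi a (not_lt.1 ha)
theorem op_HsPlc {i : ℕ} (hi : i ≤ 144000) : OpLe (D.Hs O * (1 - D.Pl i O)) (t⁻¹ ^ i) := by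
  have e : D.Hs O * (1 - D.Pl i O) = (1 - D.Pl i O) * D.Hs O := by
    rw [mul_sub, sub_mul, D.Hs_Pl, mul_one, one_mul]
  rw [e]; exact h.op_PlcHs hs O hi

omit O in
theorem sum_ind {i : ℕ} (h1 : 1 ≤ i) (hi : i ≤ 144000) : ∑ a, D.ind i a ≤ n * t ^ (3 * i - 1) := by
  refine le_of_mul_le_mul_left ((h.cnt i hi).trans_eq ?_) hs.pos
  rw [mul_left_comm, ← pow_succ', Nat.sub_add_cancel (by omega)]
omit O in
theorem k_le : ∑ a, D.ind 144001 a ≤ n * t ^ 431999 :=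
  (Finset.sum_le_sum fun a _ => D.ind_anti (by norm_num) a).trans
    (h.sum_ind hs (i := 144000) (by norm_num) le_rfl)
omit O h hs in
theorem k_nn : 0 ≤ ∑ a, D.ind 144001 a := Finset.sum_nonneg fun a _ => D.ind_nn _ a
theorem fro_P : fro (D.P O) ≤ √n * t ^ 215999 := by
  refine fro_le_sqrt (hs.p0 _).le ?_
  rw [← fro_sq_hsq, fro_proj_sq (D.isProj_P O), D.trace_P, ← pow_mul]
  exact (h.k_le hs).trans (mul_le_mul_of_nonneg_left (hs.pw (by norm_num)) h.npos'.le)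
theorem fro_Hs : fro (D.Hs O) ≤ √n * t⁻¹ ^ 3 := by
  refine fro_le_sqrt (hs.i0 _).le ?_
  rw [Fd.Hs, hsq_JO, ← pow_mul, Finset.sum_congr rfl fun a _ => Real.sq_sqrt (h.hv_pos hs a).le]
  exact h.trH1.trans (mul_le_mul_of_nonneg_left (hs.iw (by norm_num)) h.npos'.le)
theorem fro_H : fro (D.H O) ≤ √n * t⁻¹ ^ 72005 := by
  refine fro_le_sqrt (hs.i0 _).le ?_
  rw [Fd.H, hsq_JO, ← pow_mul]
  exact h.trH2
theorem hsq_HsPl {i : ℕ} (hi : i ≤ 144000) :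
    hsq (D.Hs O * D.Pl i O) ≤ n * (t ^ i * t⁻¹ ^ 5) := by
  rw [Fd.Hs, Fd.Pl, JO_mul, hsq_JO]
  refine le_trans (le_of_eq (Finset.sum_congr rfl fun a _ => ?_)) (h.trH i hi)
  rw [mul_pow, Real.sq_sqrt (h.hv_pos hs a).le, pow_two, D.ind_sq, mul_comm]
omit O in
theorem hsq_K0 : hsq D.K0 ≤ n * t⁻¹ ^ 144011 := by
  rw [Fd.K0, hsq_diag]
  calc _ ≤ ∑ a, 49 * D.hv a ^ 2 := Finset.sum_le_sum fun a _ => by
        rw [← sq_abs]
        exact (pow_le_pow_left₀ (abs_nonneg _) (h.abs_k hs a) 2).trans_eq (by ring)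
    _ ≤ 49 * (n * t⁻¹ ^ 144010) := by
        rw [← Finset.mul_sum]; exact mul_le_mul_of_nonneg_left h.trH2 (by norm_num)
    _ ≤ _ := by
        rw [mul_left_comm]
        exact mul_le_mul_of_nonneg_left (hs.ci (by norm_num) (by norm_num)) h.npos'.le
omit O in
theorem fro_K0 : fro D.K0 ≤ √n * t⁻¹ ^ 72006 := fro_le_sqrt (hs.i0 _).le ((h.hsq_K0 hs).trans (by
  rw [← pow_mul]; exact mul_le_mul_of_nonneg_left (hs.iw (by norm_num)) h.npos'.le))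
theorem fro_Kt : fro (D.Kt O) ≤ √n * t⁻¹ ^ 72006 := (Wd.fro_fr _ O).trans_le (h.fro_K0 hs)
omit O h hs in
theorem tau_nn : 0 ≤ D.tau := div_nonneg k_nn (sq_nonneg _)
omit O in
theorem tau_le : D.tau ≤ n * t⁻¹ ^ 144003 := by
  rw [Fd.tau, div_eq_mul_inv, ← inv_pow]
  refine (mul_le_mul (h.k_le hs) (pow_le_pow_left₀ (inv_pos.2 (h.del_pos hs)).le (h.deli_le hs) 2)
    (sq_nonneg _) (mul_nonneg h.npos'.le (hs.p0 _).le)).trans ?_
  rw [← pow_mul, mul_assoc]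
  exact mul_le_mul_of_nonneg_left (hs.pi (by norm_num)) h.npos'.le
omit O in
/-- `√n t⁻¹ ^ a ≤ n ^ 2` -/
theorem le_sq {a : ℕ} (ha : a ≤ 564000) : √n * t⁻¹ ^ a ≤ (n : ℝ) ^ 2 := by
  rw [pow_two]
  exact mul_le_mul h.sqrt_le_n ((hs.iw ha).trans (h.inv_le_n hs)) (hs.i0 _).le h.npos'.le

end Fr

/-! ### site data -/

namespace Si

variable {t : ℝ} {D : Fd n} (h : Si t D)
include h

theorem Pi_tr : D.Piᵀ = D.Pi := h.proj.symm
theorem Pi_idem : D.Pi * D.Pi = D.Pi := h.proj.idem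
theorem PB_tr : D.PBᵀ = D.PB := h.projB.symm
theorem PB_idem : D.PB * D.PB = D.PB := h.projB.idem
theorem op_Pi : OpLe D.Pi 1 := isProj_op h.proj
theorem op_PB : OpLe D.PB 1 := isProj_op h.projB
theorem Vt_tr : D.Vtᵀ = D.Vt := by
  rw [Fd.Vt, transpose_sub, transpose_smul, transpose_one, h.sT]
theorem trB_le : D.PB.trace ≤ D.r := by
  rw [Fd.PB, trace_sub, trace_one, Fintype.card_fin]; linarith [h.cor]
theorem fro_PB : fro D.PB ≤ √D.r := fro_proj_sqrt h.projB h.trB_le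
theorem tr_Pi (Y : Mat n) : (D.Pi * Y).trace = Y.trace - (D.PB * Y).trace := by
  rw [D.Pi_eq, sub_mul, one_mul, trace_sub]
theorem trB_froX (Y : Mat n) : |(D.PB * Y).trace| ≤ √D.r * fro (D.PB * Y) :=
  abs_tr_proj_fro h.projB h.trB_le Y

section Fibre

variable {O : OG n} (hO : ∃ U ∈ HG D.Pi, O = D.O0 * U) (φ : ℕ → ℝ)
include hO

/-- functions of the level commute with `Pi` on the whole fibre -/
theorem comm_Pi : D.Pi * JO (fun a => φ (D.lab a)) O = JO (fun a => φ (D.lab a)) O * D.Pi := by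
  obtain ⟨U, hU, rfl⟩ := hO
  have e1 := HG_comm h.Pi_tr hU
  have e2 : D.Pi * U.1ᵀ = U.1ᵀ * D.Pi := by
    have := congrArg transpose e1
    rwa [transpose_mul, transpose_mul, h.Pi_tr] at this
  rw [JO_rot, ← mul_assoc, ← mul_assoc, e2, mul_assoc U.1ᵀ D.Pi, h.blk φ, mul_assoc, mul_assoc,
    ← e1]
  simp only [mul_assoc]

theorem comm_PB : D.PB * JO (fun a => φ (D.lab a)) O = JO (fun a => φ (D.lab a)) O * D.PB := by
  rw [Fd.PB, sub_mul, mul_sub, h.comm_Pi hO φ, one_mul, mul_one]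


theorem Pi_Hs : D.Pi * D.Hs O = D.Hs O * D.Pi := h.comm_Pi hO fun l => √(D.hf l)
theorem Pi_Hi : D.Pi * D.Hi O = D.Hi O * D.Pi := h.comm_Pi hO fun l => (√(D.hf l))⁻¹
theorem Pi_H : D.Pi * D.H O = D.H O * D.Pi := h.comm_Pi hO D.hf
theorem Pi_Pl (i : ℕ) : D.Pi * D.Pl i O = D.Pl i O * D.Pi :=
  h.comm_Pi hO fun l => if i < l then 1 else 0
theorem Pi_P : D.Pi * D.P O = D.P O * D.Pi := h.Pi_Pl hO _
theorem PB_Hs : D.PB * D.Hs O = D.Hs O * D.PB := h.comm_PB hO fun l => √(D.hf l)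
theorem PB_Hi : D.PB * D.Hi O = D.Hi O * D.PB := h.comm_PB hO fun l => (√(D.hf l))⁻¹
theorem PB_H : D.PB * D.H O = D.H O * D.PB := h.comm_PB hO D.hf
theorem PB_Pl (i : ℕ) : D.PB * D.Pl i O = D.Pl i O * D.PB :=
  h.comm_PB hO fun l => if i < l then 1 else 0
theorem PB_P : D.PB * D.P O = D.P O * D.PB := h.PB_Pl hO _

variable (hf : Fr t D) (hs : Sm 2 t)
include hf hs

theorem trB_IS (Y : Mat n) : (D.PB * Y).trace = (D.PB * (D.Hi O * Y * D.Hs O)).trace := by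
  rw [← mul_assoc, trace_mul_comm _ (D.Hs O), ← mul_assoc, ← h.PB_Hs hO, mul_assoc, ← mul_assoc _ _ Y,
    hf.Hs_Hi hs, one_mul]
theorem trB_SI (Y : Mat n) : (D.PB * Y).trace = (D.PB * (D.Hs O * Y * D.Hi O)).trace := by
  rw [← mul_assoc, trace_mul_comm _ (D.Hi O), ← mul_assoc, ← h.PB_Hi hO, mul_assoc, ← mul_assoc _ _ Y,
    hf.Hi_Hs hs, one_mul]
theorem trPi_IS (Y : Mat n) : (D.Pi * Y).trace = (D.Pi * (D.Hi O * Y * D.Hs O)).trace := by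
  rw [← mul_assoc, trace_mul_comm _ (D.Hs O), ← mul_assoc, ← h.Pi_Hs hO, mul_assoc, ← mul_assoc _ _ Y,
    hf.Hs_Hi hs, one_mul]
theorem trPi_SI (Y : Mat n) : (D.Pi * Y).trace = (D.Pi * (D.Hs O * Y * D.Hi O)).trace := by
  rw [← mul_assoc, trace_mul_comm _ (D.Hi O), ← mul_assoc, ← h.Pi_Hi hO, mul_assoc, ← mul_assoc _ _ Y,
    hf.Hi_Hs hs, one_mul]
/-- `|tr (PB Y)| ≤ r ‖Hi Y Hs‖` -/
theorem trB_opIS {Y : Mat n} {c : ℝ} (hc : 0 ≤ c) (hY : OpLe (D.Hi O * Y * D.Hs O) c) :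
    |(D.PB * Y).trace| ≤ D.r * c := by rw [h.trB_IS hO hf hs]; exact h.trB_op hc hY
/-- `|tr (PB Y)| ≤ r ‖Hs Y Hi‖` -/
theorem trB_opSI {Y : Mat n} {c : ℝ} (hc : 0 ≤ c) (hY : OpLe (D.Hs O * Y * D.Hi O) c) :
    |(D.PB * Y).trace| ≤ D.r * c := by rw [h.trB_SI hO hf hs]; exact h.trB_op hc hY
/-- `|tr (PB Y)| ≤ √r |Hi PB Y Hs|_F` -/
theorem trB_froIS (Y : Mat n) :
    |(D.PB * Y).trace| ≤ √D.r * fro (D.Hi O * D.PB * Y * D.Hs O) := by
  rw [h.trB_IS hO hf hs, ← h.PB_Hi hO, mul_assoc D.PB, mul_assoc D.PB]; exact h.trB_froX _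
/-- `|tr (PB Y)| ≤ √r |Hs PB Y Hi|_F` -/
theorem trB_froSI (Y : Mat n) :
    |(D.PB * Y).trace| ≤ √D.r * fro (D.Hs O * D.PB * Y * D.Hi O) := by
  rw [h.trB_SI hO hf hs, ← h.PB_Hs hO, mul_assoc D.PB, mul_assoc D.PB]; exact h.trB_froX _

end Fibre

variable (hf : Fr t D) (hs : Sm 2 t)
include hf hs

theorem r_le : 4 * D.r ≤ n := by
  have h1 := hf.abs_n hs 1 1 (by norm_num)
  rw [pow_one, pow_one] at h1
  nlinarith [hs.c_inv (C := 4) (by norm_num), hf.r0]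
theorem trPi_ge : 3 / 4 * n ≤ D.Pi.trace := by linarith [h.cor, h.r_le hf hs]
theorem trPi_half : n / 2 ≤ D.Pi.trace := by linarith [h.trPi_ge hf hs, hf.npos']
theorem conc' : Conc D.mu (n / 256) := by
  have h1 := h.trPi_ge hf hs
  have h2 := hf.c_le_n hs (C := 100) (by norm_num)
  exact ((conc_haarP h.Pi_tr h.Pi_idem (by linarith)).map_mul_left D.O0).mono (by linarith)
theorem conc : Conc D.mu (n / 300) := (h.conc' hf hs).mono (by linarith [hf.npos'])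
theorem fro_Vt : fro D.Vt ≤ √n * t ^ 143995 :=
  fro_le_sqrt (hs.p0 _).le (by rw [← pow_mul]; exact h.fV)
theorem KV_le : hsq D.K0 * hsq D.Vt / n ≤ n * t ^ 143979 := by
  rw [div_le_iff₀ hf.npos']
  refine (mul_le_mul (hf.hsq_K0 hs) h.fV (hsq_nn _) (mul_nonneg hf.npos'.le (hs.i0 _).le)).trans ?_
  have e := mul_le_mul_of_nonneg_left (hs.ip (a := 144011) (b := 287990) (c := 143979) le_rfl)
    (mul_nonneg hf.npos'.le hf.npos'.le)
  calc _ = n * n * (t⁻¹ ^ 144011 * t ^ 287990) := by ring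
    _ ≤ _ := e
    _ = _ := by ring
theorem Del_le : D.Del ≤ n := by
  have h1 : D.w ^ 2 ≤ 1 := pow_le_one₀ (hf.w_pos hs).le hf.whi
  have h2 := div_nonneg (mul_nonneg (hsq_nn D.K0) (hsq_nn D.Vt)) hf.npos'.le
  have h3 := mul_le_mul_of_nonneg_left h1 hf.npos'.le
  rw [Fd.Del]; linarith
/-- `Del = n (1 + O (t ^ 143978))` -/
theorem Del_ge' : n - n * t ^ 143978 ≤ D.Del := by
  have h0 := hs.pw (show 143979 ≤ 143990 by norm_num)
  have h2 := h.KV_le hf hs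
  have h3 := hs.cp (C := 3) (by norm_num) (show 143978 < 143979 by norm_num)
  have h7 := hf.wlo
  have h8 := hs.p1 143979
  have h9 := hs.p0 143979
  generalize t ^ 143979 = u at h0 h2 h3 h8 h9
  generalize t ^ 143990 = v at h0 h7
  have h4 : 1 - 2 * u ≤ D.w ^ 2 := by nlinarith [hf.whi]
  have h5 := mul_le_mul_of_nonneg_left h4 hf.npos'.le
  have h6 := mul_le_mul_of_nonneg_left h3 hf.npos'.le
  rw [Fd.Del]; linarith
theorem Del_ge : n / 2 ≤ D.Del := by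
  have h1 := hs.cp (C := 2) (by norm_num) (show 0 < 143978 by norm_num)
  rw [pow_zero] at h1
  have h2 := mul_le_mul_of_nonneg_left h1 hf.npos'.le
  linarith [h.Del_ge' hf hs]
theorem abs_Del' : |D.Del| ≤ n :=
  abs_le.2 ⟨by linarith [h.Del_ge hf hs, hf.npos'], h.Del_le hf hs⟩
theorem abs_Del : |D.Del| ≤ 2 * n := by linarith [h.abs_Del' hf hs, hf.npos']
theorem abs_trBh : |D.Bh.trace| ≤ 2 * (√n * t⁻¹ ^ 72200) := by
  have s1 : 1 ≤ √(n : ℝ) := Real.one_le_sqrt.2 hf.n1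
  have a1 : |D.Bh.trace - D.al * D.Del| ≤ √n * t⁻¹ ^ 72200 := by
    have b1 := hf.abs_sqrt hs 0 144050 (by norm_num)
    rw [pow_zero, one_mul] at b1
    have b2 := mul_le_mul_of_nonneg_right b1 (hs.i0 72200).le
    rw [← pow_add] at b2
    exact (le_mul_of_one_le_left (abs_nonneg _) s1).trans (h.a3.trans b2)
  have a2 : |D.al * D.Del| ≤ √n * t⁻¹ ^ 72200 := by
    rw [abs_mul]
    refine (mul_le_mul_of_nonneg_left (h.abs_Del' hf hs) (abs_nonneg _)).trans ?_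
    calc |D.al| * n = √n * (√n * |D.al|) := by
          rw [← mul_assoc, Real.mul_self_sqrt hf.npos'.le, mul_comm]
      _ ≤ _ := mul_le_mul_of_nonneg_left h.al (Real.sqrt_nonneg _)
  have a3 := abs_add_le (D.Bh.trace - D.al * D.Del) (D.al * D.Del)
  rw [sub_add_cancel] at a3
  linarith
theorem abs_trB_Bh : |(D.PB * D.Bh).trace| ≤ √D.r * t⁻¹ ^ 216250 :=
  (h.trB_froX _).trans (mul_le_mul_of_nonneg_left
    ((fro_l zero_le_one h.op_PB h.bB).trans_eq (one_mul _)) (Real.sqrt_nonneg _))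
theorem abs_trPi_Bh : |(D.Pi * D.Bh).trace| ≤ √n * t⁻¹ ^ 72201 := by
  have b1 := hf.abs_sqrt hs 1 144050 (by norm_num)
  rw [pow_one] at b1
  have b2 := mul_le_mul_of_nonneg_right b1 (hs.i0 72200).le
  rw [mul_assoc, ← pow_add] at b2
  have b3 := mul_le_mul_of_nonneg_right hf.sqrt_r_le (hs.i0 216250).le
  have b4 := mul_le_mul_of_nonneg_left (hs.ci (C := 3) (by norm_num)
    (show 72200 < 72201 by norm_num)) (Real.sqrt_nonneg (n : ℝ))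
  have b5 := abs_sub D.Bh.trace (D.PB * D.Bh).trace
  rw [h.tr_Pi]
  linarith [h.abs_trBh hf hs, h.abs_trB_Bh hf hs]

end Si

/-! ### one good point -/

namespace Pt

variable {t : ℝ} {D : Fd n} {O : OG n} (h : Pt t D O)
include h

theorem Ga_eq : D.Ga O = 1 + D.Q O * D.Th := Wd.Ga_eq h.unit
theorem A_G : D.A O * D.G O = 1 - D.Ga O := Wd.A_mul_Gm h.unit

variable (hi : Si t D)
include hi

theorem GaT_eq : (D.Ga O)ᵀ = 1 + D.Th * D.Q O := Wd.GaT_eq D.A0_tr hi.sT h.unit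
theorem Q_tr : (D.Q O)ᵀ = D.Q O := Wd.Qm_symm D.A0_tr hi.sT h.unit
theorem Q_eq' : D.Q O = -(D.A O * (D.Ga O)ᵀ) := Wd.Qm_eq D.A0_tr hi.sT h.unit
theorem G_tr : (D.G O)ᵀ = D.G O := Wd.Gm_symm D.A0_tr transpose_zero hi.sT h.unit
theorem G_eq' : D.G O = (D.Ga O)ᵀ * D.Th := Wd.Gm_eq D.A0_tr transpose_zero hi.sT h.unit
theorem G_A : D.G O * D.A O = 1 - (D.Ga O)ᵀ := Wd.Gm_mul_A D.A0_tr hi.sT h.unit

variable (hf : Fr t D) (hs : Sm 2 t)
include hf hs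

theorem GaT_V_K : (D.Ga O)ᵀ * D.Vt * D.Kt O = D.G0 O - D.w • (D.Ga O)ᵀ := by
  have e1 : (D.Ga O)ᵀ * D.Th * D.A O = 1 - (D.Ga O)ᵀ := by rw [← h.G_eq' hi, h.G_A hi]
  have e2 : D.w • D.Kt O = D.w • (1 : Mat n) - D.G0 O := by
    rw [Fr.Kt_sub, smul_sub, smul_smul, mul_inv_cancel₀ (hf.w_pos hs).ne', one_smul]
  have e3 : (D.Ga O)ᵀ * D.Th * D.Kt O = D.G0 O - (D.Ga O)ᵀ * D.G0 O := by
    rw [hf.Kt_AG0 hs, ← mul_assoc, e1, sub_mul, one_mul]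
  rw [Fd.Vt, mul_sub, sub_mul, e3, Matrix.mul_smul, mul_one, Matrix.smul_mul, ← Matrix.mul_smul, e2,
    mul_sub, Matrix.mul_smul, mul_one]
  abel
theorem K_V_Ga : D.Kt O * D.Vt * D.Ga O = D.G0 O - D.w • D.Ga O := by
  have := congrArg transpose (h.GaT_V_K hi hf hs)
  rwa [transpose_mul, transpose_mul, transpose_transpose, D.Kt_tr, hi.Vt_tr, ← mul_assoc,
    transpose_sub, D.G0_tr, transpose_smul, transpose_transpose] at this
theorem w_Q : D.w • D.Q O = -D.Kt O - D.Q O * D.Vt * D.Kt O := by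
  have e : D.Q O * D.Vt * D.Kt O = -(D.A O * ((D.Ga O)ᵀ * D.Vt * D.Kt O)) := by
    rw [h.Q_eq' hi]; noncomm_ring
  rw [e, h.GaT_V_K hi hf hs, mul_sub, ← hf.Kt_AG0 hs, Matrix.mul_smul, h.Q_eq' hi, smul_neg]
  abel
theorem Xi_V_K : D.Xi O * D.Vt * D.Kt O = D.del⁻¹ • (D.Ga O * D.P O) - D.w • D.Xi O := by
  have e : D.Xi O * D.Vt * D.Kt O = D.Ga O * D.P O * ((D.Ga O)ᵀ * D.Vt * D.Kt O) := by
    rw [D.Xi_eq]; noncomm_ring
  rw [e, h.GaT_V_K hi hf hs, mul_sub, Matrix.mul_smul, ← D.Xi_eq, mul_assoc, hf.P_G0,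
    Matrix.mul_smul]
theorem trace_P_Ga : D.w * D.del * (D.P O * D.Ga O).trace =
    (∑ a, D.ind 144001 a) + (D.P O * D.Q O * D.Vt).trace := by
  have e1 : (D.P O * D.Q O).trace = -((D.del - D.w⁻¹) * (D.P O * D.Ga O).trace) := by
    rw [D.Q_eq, mul_neg, trace_neg, ← mul_assoc, trace_mul_cycle, hf.A_P, Matrix.smul_mul,
      trace_smul, smul_eq_mul]
  have e2 : (D.P O * D.Ga O).trace = (D.P O).trace + ((D.P O * D.Q O * D.Vt).trace +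
      D.w * (D.P O * D.Q O).trace) := by
    conv_lhs => rw [h.Ga_eq, D.Th_eq]
    rw [mul_add, mul_one, trace_add, mul_add, mul_add, trace_add, Matrix.mul_smul, mul_one,
      Matrix.mul_smul, trace_smul, smul_eq_mul, mul_assoc]
  rw [e1, D.trace_P, mul_neg, ← mul_assoc, mul_sub, mul_inv_cancel₀ (hf.w_pos hs).ne'] at e2
  linarith

omit hi in
theorem op_HiGa : OpLe (D.Hi O * D.Ga O) (t⁻¹ ^ 144121) := by
  have := op_mul hs h.iGa (hf.op_Hs hs O)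
  rwa [mul_assoc, hf.Hi_Hs hs, mul_one] at this
omit hi in
theorem op_GaHi : OpLe (D.Ga O * D.Hi O) (t⁻¹ ^ 144121) := by
  have := op_mul hs (hf.op_Hs hs O) h.iGa
  rwa [← mul_assoc, ← mul_assoc, hf.Hs_Hi hs, one_mul] at this
omit hi in
theorem op_Ga : OpLe (D.Ga O) (t⁻¹ ^ 288122) := by
  have := op_mul hs (hf.op_Hs hs O) (h.op_HiGa hf hs)
  rwa [← mul_assoc, hf.Hs_Hi hs, one_mul] at this
omit hi in
theorem op_HiQ : OpLe (D.Hi O * D.Q O) (t⁻¹ ^ 144126) := by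
  have := op_mul hs h.iQ (hf.op_Hs hs O)
  rwa [mul_assoc, hf.Hi_Hs hs, mul_one] at this
omit hi in
theorem op_QHi : OpLe (D.Q O * D.Hi O) (t⁻¹ ^ 144126) := by
  have := op_mul hs (hf.op_Hs hs O) h.iQ
  rwa [← mul_assoc, ← mul_assoc, hf.Hs_Hi hs, one_mul] at this
omit hi in
theorem op_Q : OpLe (D.Q O) (t⁻¹ ^ 288127) := by
  have := op_mul hs (hf.op_Hs hs O) (h.op_HiQ hf hs)
  rwa [← mul_assoc, hf.Hs_Hi hs, one_mul] at this
omit hi in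
theorem op_HiG : OpLe (D.Hi O * D.G O) (t⁻¹ ^ 144151) := by
  have := op_mul hs h.iG (hf.op_Hs hs O)
  rwa [mul_assoc, hf.Hi_Hs hs, mul_one] at this
omit hi in
theorem op_G : OpLe (D.G O) (t⁻¹ ^ 288152) := by
  have := op_mul hs (hf.op_Hs hs O) (h.op_HiG hf hs)
  rwa [← mul_assoc, hf.Hs_Hi hs, one_mul] at this
omit hi in
theorem iGaT : OpLe (D.Hi O * (D.Ga O)ᵀ * D.Hi O) (t⁻¹ ^ 120) := by
  have := op_tr hs h.iGa
  rwa [transpose_mul, transpose_mul, D.Hi_tr, ← mul_assoc] at this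
omit hi in
theorem op_GaP : OpLe (D.Ga O * D.P O) (t⁻¹ ^ 288122) := by
  simpa using (h.op_Ga hf hs).mulN (D.op_P O) (hs.i0 _).le zero_le_one
omit hi in
theorem op_HiGaP : OpLe (D.Hi O * D.Ga O * D.P O) (t⁻¹ ^ 144121) := by
  simpa using (h.op_HiGa hf hs).mulN (D.op_P O) (hs.i0 _).le zero_le_one
omit hi in
/-- `Hs Vt Ga Hi` -/
theorem op_sVGi : OpLe (D.Hs O * (D.Vt * D.Ga O) * D.Hi O) (t⁻¹ ^ 160) := by
  have := op_mul hs h.iV h.iGa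
  have e : D.Hs O * D.Vt * D.Hs O * (D.Hi O * D.Ga O * D.Hi O) =
      D.Hs O * D.Vt * (D.Hs O * D.Hi O) * D.Ga O * D.Hi O := by simp only [mul_assoc]
  rwa [e, hf.Hs_Hi hs, mul_one, mul_assoc (D.Hs O)] at this
omit hi in
/-- `Hi Q Vt Hs` -/
theorem op_iQVs : OpLe (D.Hi O * (D.Q O * D.Vt) * D.Hs O) (t⁻¹ ^ 165) := by
  have := op_mul hs h.iQ h.iV
  have e : D.Hi O * D.Q O * D.Hi O * (D.Hs O * D.Vt * D.Hs O) =
      D.Hi O * D.Q O * (D.Hi O * D.Hs O) * D.Vt * D.Hs O := by simp only [mul_assoc]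
  rwa [e, hf.Hi_Hs hs, mul_one, mul_assoc (D.Hi O)] at this
omit hi in
theorem op_HsVG : OpLe (D.Hs O * (D.Vt * D.Ga O)) (t⁻¹ ^ 144161) := by
  have := op_mul hs (h.op_sVGi hf hs) (hf.op_Hs hs O)
  rwa [mul_assoc, hf.Hi_Hs hs, mul_one] at this
omit hi in
theorem op_VG : OpLe (D.Vt * D.Ga O) (t⁻¹ ^ 144162) := by
  have := op_mul hs (hf.op_Hi' hs O) (h.op_HsVG hf hs)
  rwa [← mul_assoc, hf.Hi_Hs hs, one_mul] at this
omit hi in
theorem op_VGP : OpLe (D.Vt * D.Ga O * D.P O) (t⁻¹ ^ 144162) := by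
  simpa using (h.op_VG hf hs).mulN (D.op_P O) (hs.i0 _).le zero_le_one
omit hi in
theorem op_HiQV : OpLe (D.Hi O * (D.Q O * D.Vt)) (t⁻¹ ^ 166) := by
  have := op_mul hs (h.op_iQVs hf hs) (hf.op_Hi' hs O)
  rwa [mul_assoc, hf.Hs_Hi hs, mul_one] at this
omit hi in
theorem op_QV : OpLe (D.Q O * D.Vt) (t⁻¹ ^ 144167) := by
  have := op_mul hs (hf.op_Hs hs O) (h.op_HiQV hf hs)
  rwa [← mul_assoc, hf.Hs_Hi hs, one_mul] at this
theorem op_VQ : OpLe (D.Vt * D.Q O) (t⁻¹ ^ 144167) := by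
  have := op_tr hs (h.op_QV hf hs)
  rwa [transpose_mul, hi.Vt_tr, h.Q_tr hi] at this
omit hi h hf hs in
theorem Xi_sq : D.Xi O = D.Ga O * D.P O * (D.Ga O * D.P O)ᵀ := by
  rw [transpose_mul, D.P_tr, ← mul_assoc, mul_assoc (D.Ga O), (D.isProj_P O).idem, D.Xi_eq]
omit hi in
theorem op_Xi : OpLe (D.Xi O) (t⁻¹ ^ 576244) := by
  rw [Xi_sq]; exact op_mul hs (h.op_GaP hf hs) (op_tr hs (h.op_GaP hf hs))
omit hi in
theorem iXi : OpLe (D.Hi O * D.Xi O * D.Hi O) (t⁻¹ ^ 288242) := by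
  have := op_mul hs (h.op_HiGaP hf hs) (op_tr hs (h.op_HiGaP hf hs))
  rw [mul_assoc (D.Hi O), transpose_mul, D.Hi_tr] at this
  rw [Xi_sq]
  simpa only [mul_assoc] using this
theorem op_XiV : OpLe (D.Xi O * D.Vt) (t⁻¹ ^ 432284) := by
  have := op_mul hs (h.op_GaP hf hs) (op_tr hs (h.op_VGP hf hs))
  rw [mul_assoc D.Vt, transpose_mul, hi.Vt_tr] at this
  rw [Xi_sq]
  simpa only [mul_assoc] using this

omit hi h in
/-- Frobenius norm from the weighted operator norm -/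
theorem fro_of_w {M : Mat n} {a : ℕ} (hM : OpLe (D.Hi O * M * D.Hi O) (t⁻¹ ^ a)) :
    fro M ≤ √n * t⁻¹ ^ (a + 72005) := by
  have := fro_conj (hs.i0 a).le (D.Hs_tr O) hM ((congrArg fro (hf.Hs_Hs hs O)).trans_le
    (hf.fro_H hs O))
  rwa [← hf.up hs, mul_left_comm, ← pow_add] at this
omit hi h in
theorem fro_Hi_of_w {M : Mat n} {a : ℕ} (hM : OpLe (D.Hi O * M * D.Hi O) (t⁻¹ ^ a)) :
    fro (D.Hi O * M) ≤ √n * t⁻¹ ^ (a + 3) ∧ fro (M * D.Hi O) ≤ √n * t⁻¹ ^ (a + 3) := by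
  have a1 := fro_l (hs.i0 a).le hM (hf.fro_Hs hs O)
  have a2 := fro_r (hs.i0 a).le (hf.fro_Hs hs O) hM
  rw [mul_assoc, hf.Hi_Hs hs, mul_one, mul_left_comm, ← pow_add] at a1
  rw [← mul_assoc, ← mul_assoc, hf.Hs_Hi hs, one_mul, mul_assoc, ← pow_add, add_comm] at a2
  exact ⟨a1, a2⟩
omit hi in
theorem fro_Ga : fro (D.Ga O) ≤ √n * t⁻¹ ^ 72125 := fro_of_w hf hs h.iGa
omit hi in
theorem fro_Q : fro (D.Q O) ≤ √n * t⁻¹ ^ 72130 := fro_of_w hf hs h.iQ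
omit hi in
theorem fro_G : fro (D.G O) ≤ √n * t⁻¹ ^ 72155 := fro_of_w hf hs h.iG
omit hi h in
/-- rank `k` words: `|M P|_F ≤ √k ‖M‖` -/
theorem fro_mul_P {M : Mat n} {a b : ℕ} (hM : OpLe M (t⁻¹ ^ a)) (hab : a ≤ 215999 + b) :
    fro (M * D.P O) ≤ √n * t⁻¹ ^ b := by
  refine (fro_l (hs.i0 a).le hM (hf.fro_P hs O)).trans ?_
  rw [mul_left_comm, mul_comm (t⁻¹ ^ a)]
  exact mul_le_mul_of_nonneg_left (hs.pi hab) (Real.sqrt_nonneg _)
omit hi in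
theorem fro_GaP : fro (D.Ga O * D.P O) ≤ √n * t⁻¹ ^ 72123 :=
  fro_mul_P hf hs (h.op_Ga hf hs) (by norm_num)
omit hi in
theorem fro_Xi : fro (D.Xi O) ≤ √n * t⁻¹ ^ 360245 := by
  have := fro_r (hs.i0 _).le (h.fro_GaP hf hs) (op_tr hs (h.op_GaP hf hs))
  rwa [← Xi_sq, mul_assoc, ← pow_add] at this
theorem fro_XiV : fro (D.Xi O * D.Vt) ≤ √n * t⁻¹ ^ 216285 := by
  have := fro_r (hs.i0 _).le (h.fro_GaP hf hs) (op_tr hs (h.op_VGP hf hs))
  rw [mul_assoc D.Vt, transpose_mul, hi.Vt_tr, mul_assoc √(n : ℝ), ← pow_add] at this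
  rw [Xi_sq]
  simpa only [mul_assoc] using this

end Pt

/-! ### a typical fibre -/

namespace Core

variable {t : ℝ} {D : Fd n} {Gd : Set (OG n)} (h : Core t D Gd)
include h

theorem p_pos : (0 : ℝ) < ((n : ℝ) ^ 900)⁻¹ := inv_pos.2 (pow_pos h.fr.npos' _)
theorem p_le_one : ((n : ℝ) ^ 900)⁻¹ ≤ 1 := inv_le_one_of_one_le₀ (one_le_pow₀ h.fr.n1)
theorem sqrt_p : √((n : ℝ) ^ 900)⁻¹ = ((n : ℝ) ^ 450)⁻¹ := by
  rw [Real.sqrt_inv, show (n : ℝ) ^ 900 = ((n : ℝ) ^ 450) ^ 2 by ring,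
    Real.sqrt_sq (pow_pos h.fr.npos' _).le]
/-- the error of the Ward identities -/
theorem ward_err {a b : ℕ} (hab : 2 * a + b ≤ 450) :
    ((n : ℝ) ^ 2) ^ a * √((n : ℝ) ^ 900)⁻¹ ≤ ((n : ℝ) ^ b)⁻¹ := by
  rw [h.sqrt_p, ← pow_mul, ← div_eq_mul_inv, div_le_iff₀ (pow_pos h.fr.npos' _), ← div_eq_inv_mul,
    le_div_iff₀ (pow_pos h.fr.npos' _), ← pow_add]
  exact pow_le_pow_right₀ h.fr.n1 hab
theorem mass_geX : 1 - ((n : ℝ) ^ 900)⁻¹ ≤ D.mu.real Gd := by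
  have := h.mass
  rw [probReal_compl_eq_one_sub h.meas] at this
  linarith
theorem intOn {g : OG n → ℝ} (hg : Measurable g) {c : ℝ} (hb : ∀ O ∈ Gd, |g O| ≤ c) :
    IntegrableOn g Gd D.mu := Fd.intOn h.meas hg hb
theorem E_const (c : ℝ) : |D.E Gd (fun _ => c) - c| ≤ |c| * ((n : ℝ) ^ 900)⁻¹ := by
  have h1 : D.mu.real Gd ≤ 1 := measureReal_le_one
  rw [Fd.E_const, show c * D.mu.real Gd - c = c * (D.mu.real Gd - 1) by ring, abs_mul]
  exact mul_le_mul_of_nonneg_left (abs_le.2 ⟨by linarith [h.mass_geX], by linarith [h.p_pos]⟩)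
    (abs_nonneg _)
/-- a function which is close to a constant on the good set -/
theorem E_near {g : OG n → ℝ} (hg : Measurable g) {c e : ℝ} (he : 0 ≤ e)
    (hb : ∀ O ∈ Gd, |g O - c| ≤ e) : |D.E Gd g - c| ≤ e + |c| * ((n : ℝ) ^ 900)⁻¹ := by
  have i1 := h.intOn (hg.sub_const c) hb
  have i2 := h.intOn (measurable_const (a := c)) fun _ _ => le_refl |c|
  have e1 : D.E Gd g = D.E Gd (fun O => g O - c) + D.E Gd fun _ => c := by
    rw [← Fd.E_add i1 i2]; exact Fd.E_congr h.meas fun O _ => (sub_add_cancel _ _).symm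
  rw [e1, add_sub_assoc]
  exact (abs_add_le _ _).trans (add_le_add (Fd.abs_E_le he hb) (h.E_const c))

variable (hs : Sm 2 t)
include hs

theorem conc' : Conc D.mu (n / 256) := h.si.conc' h.fr hs
/-- an operator bound by a power of `t⁻¹` gives the Frobenius bound `n ^ 2` -/
theorem fro_le_K {M : Mat n} {a : ℕ} (hM : OpLe M (t⁻¹ ^ a)) (ha : a ≤ 564000) :
    fro M ≤ (n : ℝ) ^ 2 :=
  (fro_le_op (hs.i0 a).le hM).trans (by rw [mul_comm]; exact h.fr.le_sq hs ha)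
theorem fro_le_K' {M : Mat n} {c : ℝ} (hM : OpLe M c) (h0 : 0 ≤ c) (hc : c ≤ 10 ^ 40) :
    fro M ≤ (n : ℝ) ^ 2 := h.fro_le_K hs (op_num hs hM h0 hc) (by norm_num)
theorem fro_K0 : fro D.K0 ≤ (n : ℝ) ^ 2 := h.fro_le_K hs (h.fr.op_K0 hs) (by norm_num)
theorem fro_KK : fro (D.K0 * D.K0) ≤ (n : ℝ) ^ 2 := by
  refine (fro_l (hs.i0 _).le (h.fr.op_K0 hs) (h.fr.fro_K0 hs)).trans ?_
  rw [mul_left_comm, ← pow_add]
  exact h.fr.le_sq hs (by norm_num)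
theorem fro_P0 : fro D.P0 ≤ (n : ℝ) ^ 2 := h.fro_le_K' hs Fr.op_P0 zero_le_one (by norm_num)
theorem fro_Bh : fro D.Bh ≤ (n : ℝ) ^ 2 :=
  h.si.bB.trans (((hs.iw (by norm_num)).trans (h.fr.inv_le_n hs)).trans
    (le_self_pow₀ h.fr.n1 two_ne_zero))
theorem okX : Wd.Ok D.Pi Gd ((n : ℝ) ^ 2) D.A0 0 D.Th where
  hP := h.si.Pi_tr
  hPP := h.si.Pi_idem
  hA := D.A0_tr
  hC := transpose_zero
  hD := h.si.sT
  hK := (h.fr.c_le_n hs (by norm_num)).trans (le_self_pow₀ h.fr.n1 two_ne_zero)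
  hn := le_self_pow₀ h.fr.n1 two_ne_zero
  bA := h.fro_le_K' hs (h.fr.op_A0 hs) (by norm_num) (by norm_num)
  bC := by rw [Haar.fro_zero]; exact sq_nonneg _
  bD := h.fro_le_K' hs h.si.oT (by norm_num) (by norm_num)
  unit := fun O hO => (h.pt O hO).unit
  bG := fun O hO => ((h.pt O hO).fro_Ga h.fr hs).trans (h.fr.le_sq hs (by norm_num))
/-- decoupling -/
theorem cov {f g : OG n → ℝ} {L₁ L₂ B₁ B₂ : ℝ} (hL₁ : 0 < L₁) (hL₂ : 0 < L₂) (hB₁ : 0 ≤ B₁)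
    (hB₂ : 0 ≤ B₂) (hf : LipO Gd L₁ f) (hg : LipO Gd L₂ g) (bf : ∀ O ∈ Gd, |f O| ≤ B₁)
    (bg : ∀ O ∈ Gd, |g O| ≤ B₂) : |D.E Gd (fun O => f O * g O) - D.E Gd f * D.E Gd g| ≤
      512 * (L₁ * L₂ / n) + 3 * B₁ * B₂ * ((n : ℝ) ^ 900)⁻¹ := by
  have := Wd.cov_good (h.conc' hs) (by linarith [h.fr.npos']) h.meas h.mass hL₁ hL₂ hB₁ hB₂ hf hg
    bf bg
  refine this.trans_eq ?_
  have := h.fr.npos'.ne'
  congr 1
  field_simp
  ring

end Core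

end Vale.Agent.N150.T2
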