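import Vale.Agent.N150.T2M3b
import Vale.Agent.N150.T2Kx

/-! Block M3 of T2: `M2Stmt → M3Stmt`. -/

namespace Vale.Agent.N150.T2M3

open Matrix MeasureTheory
open Vale.Agent.P150 Vale.Agent.P150.F Vale.Agent.N150.T2
open Vale.Agent.N150.Haar (fro fro_nonneg)
open Vale.Agent.N150.Wd (fr)

variable {n : ℕ} {t : ℝ} {D : Fd n} {Gd : Set (OG n)}

theorem gr (τ : ℝ) (j i : ℕ) : (τ ^ 125) ^ j * (τ ^ 72000) ^ i = τ ^ (125 * j + 72000 * i) := by
  rw [← pow_mul, ← pow_mul, ← pow_add]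

theorem gr1 (τ : ℝ) (i : ℕ) : τ ^ 125 * (τ ^ 72000) ^ i = τ ^ (125 + 72000 * i) := by
  rw [← pow_mul, ← pow_add]

theorem sq_of {x c : ℝ} (h0 : 0 ≤ x) (h : x ≤ √n * c) : x ^ 2 ≤ c ^ 2 * n := by
  have := pow_le_pow_left₀ h0 h 2
  rwa [mul_pow, Real.sq_sqrt (Nat.cast_nonneg n), mul_comm] at this

theorem pt_of (hs : T1.Sm 2 t) (h : Core t D Gd) {O : OG n} (hO : O ∈ Gd) :
    Pt (t⁻¹ ^ 125) (t⁻¹ ^ 72000) (D.r * t⁻¹ ^ 3000) (∑ a, D.ind 144001 a) D.w D.del D.Pi (D.P O)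
      (D.Hs O) (D.Hi O) (D.A O) (D.G0 O) (D.Kt O) D.Vt (D.Ga O) (D.Q O) := by
  have s := sml_of hs
  have f := h.fr
  have p := h.pt O hO
  have n0 : (0 : ℝ) ≤ n := Nat.cast_nonneg n
  have c : ∀ {C : ℝ}, C ≤ 1000 → C ≤ t⁻¹ ^ 125 := fun hC => by
    have := s.ci hC (a := 0) (b := 125) (by norm_num)
    rwa [pow_zero, mul_one] at this
  have rr : D.r ≤ D.r * t⁻¹ ^ 3000 := le_mul_of_one_le_right f.r0 (s.i1 _)
  refine ⟨⟨c (by norm_num), s.i1 _⟩, f.w_half s, f.whi, T2P.del_pos f s.pos, ?_, h.si.proj.symm,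
    h.si.proj.idem, (D.isProj_P O).symm, (D.isProj_P O).idem, f.si s O, f.is s O, h.cHs hO,
    T1.JO_comm _ _ _, D.Hs_tr O, D.Kt_tr O, h.si.sV, h.Q_tr hO, Fr.Kt_sub O,
    (f.Kt_AG0 hs O).symm, rfl, D.Th_eq ▸ h.Ga_eq hO, f.P_G0 O, f.A_P O, f.trKt s O, D.trace_P O,
    ?_, h.si.trPB.trans rr, (f.opHs s O).monoN (s.i0 _) ?_,
    (f.opHi s O).monoN (by norm_num) (c (by norm_num)), p.iGa.monoN (s.i0 _) (s.im (by norm_num)),
    p.iQ, p.iV.monoN (s.i0 _) (s.im (by norm_num)),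
    (f.opHKH s O).monoN (by norm_num) (c (by norm_num)), ?_, ?_, ?_, h.si.trV.trans
      (one_le_mul_of_one_le_of_one_le (s.i1 _) (f.r1.trans rr))⟩
  · rw [gr1]
    refine le_trans ?_ (s.im (show 288001 ≤ _ by norm_num))
    rw [inv_pow]
    exact inv_anti₀ (pow_pos s.pos _) f.dlo
  · refine (mul_le_mul_of_nonneg_right (f.k_le hs) (pow_nonneg (s.i0 _) _)).trans ?_
    rw [← pow_mul, mul_assoc, mul_comm (t ^ _), mul_comm _ (n : ℝ)]
    exact mul_le_mul_of_nonneg_left ((s.pi 431999 1).le.trans (s.im (by norm_num))) n0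
  · rw [gr1]; exact s.im (by norm_num)
  · refine (sq_of (fro_nonneg _) (f.froHs s O)).trans (mul_le_mul_of_nonneg_right ?_ n0)
    rw [← pow_mul]; exact s.im (by norm_num)
  · refine (sq_of (fro_nonneg _) (f.froH s O)).trans (mul_le_mul_of_nonneg_right ?_ n0)
    rw [← pow_mul, gr1]; exact s.im (by norm_num)
  · rw [← fro_sq_sym h.si.sV, fro_sq_hsq]
    refine (mul_le_mul_of_nonneg_right h.si.fV (pow_nonneg (s.i0 _) _)).trans ?_
    rw [← pow_mul, mul_assoc, mul_comm (t ^ _), mul_comm _ (n : ℝ)]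
    exact mul_le_mul_of_nonneg_left ((s.pi 287990 10).le.trans (s.im (by norm_num))) n0

theorem vR (τ r : ℝ) (i : ℕ) : (τ ^ 72000) ^ i * (r * τ ^ 3000) = r * τ ^ (72000 * i + 3000) := by
  rw [← pow_mul, mul_left_comm, ← pow_add]

theorem hy_of (hs : T1.Sm 2 t) (h : Core t D Gd)
    (hl : ∀ (F S : Mat n) (a σ : ℝ), 0 ≤ a → 0 ≤ σ → OpLe S σ → OpLe F a →
      LipO Gd (a * σ * √n * t⁻¹ ^ 216500) (D.phQ F S) ∧
      LipO Gd (a * σ * √n * t⁻¹ ^ 504600) (D.phX F S))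
    (h2 : |D.E Gd D.ka| ≤ D.r * t⁻¹ ^ 291000 ∧ |D.E Gd D.ga - n| ≤ D.r * t⁻¹ ^ 291000 ∧
      |D.E Gd D.ze| ≤ D.r * t⁻¹ ^ 147000) :
    Hy D.mu Gd (t⁻¹ ^ 125) (t⁻¹ ^ 72000) (D.r * t⁻¹ ^ 3000) (∑ a, D.ind 144001 a) D.w D.del
      (n / 300) ((n : ℝ) ^ 900)⁻¹ (n ^ 2) D.Pi D.A0 D.P0 D.K0 D.Vt D.Hs D.Hi D.G0 := by
  have s := sml_of hs
  have f := h.fr
  have n0 := f.npos'
  have n1 := f.n1
  have s0 := Real.sqrt_nonneg (n : ℝ)
  have i2 : ∀ {a : ℕ}, a ≤ 1128000 → t⁻¹ ^ a ≤ (n : ℝ) ^ 2 := fun ha => by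
    refine (s.im ha).trans ?_
    rw [show 1128000 = 564000 * 2 by norm_num, pow_mul]
    exact pow_le_pow_left₀ (s.i0 _) (f.n_ge s) 2
  refine ⟨D.Th_eq ▸ h.ok s, D.ri, h.meas, h.mass, h.p_pos, h.p_le_one, h.conc s, by linarith, ?_,
    h.nonempty s, fun O hO => D.Th_eq ▸ pt_of hs h hO, ?_, ?_, ?_, ?_, n1,
    one_le_mul_of_one_le_of_one_le f.r1 (s.i1 _), ?_, fun F S a σ ha hσ hS hF => ?_,
    fun F S a σ ha hσ hS hF => ?_, ?_, ?_, ?_⟩
  · have := s.ci (C := 300) (by norm_num) (a := 0) (b := 125) (by norm_num)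
    rw [pow_zero, mul_one] at this
    calc (n : ℝ) = 300 * (n / 300) := by ring
      _ ≤ _ := mul_le_mul_of_nonneg_right this (by linarith)
  · simpa using h.ward_err (a := 44) (b := 0) (by norm_num)
  · rw [gr, mul_inv_le_iff₀ (pow_pos n0 _), one_mul]
    have a := mul_le_mul_of_nonneg_right (i2 (a := 125 * 20 + 72000 * 12) (by norm_num)) n0.le
    have b := mul_le_mul a a (mul_nonneg (s.i0 _) n0.le) (by positivity)
    have c : 3 * ((n : ℝ) ^ 2 * n * (n ^ 2 * n)) ≤ n ^ 900 :=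
      calc _ ≤ n * ((n : ℝ) ^ 2 * n * (n ^ 2 * n)) :=
            mul_le_mul_of_nonneg_right (by linarith [f.n_big s]) (by positivity)
        _ = n ^ 7 := by ring
        _ ≤ _ := pow_le_pow_right₀ n1 (by norm_num)
    rw [mul_assoc]
    exact (mul_le_mul_of_nonneg_left b (by norm_num)).trans c
  · rw [gr, show 125 * 11 + 72000 * 8 = 564000 + 13375 by norm_num, pow_add]
    calc _ ≤ n * √n * √n := mul_le_mul_of_nonneg_right
          (mul_le_mul (f.n_ge s) (f.ile_sqrt s (by norm_num)) (s.i0 _) n0.le) s0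
      _ = _ := by rw [mul_assoc, Real.mul_self_sqrt n0.le, pow_two]
  · rw [← pow_mul]
    exact (f.ile s (by norm_num)).trans (le_mul_of_one_le_left n0.le (s.i1 _))
  · rw [vR, mul_left_comm]
    refine (mul_le_mul_of_nonneg_left (s.ci (b := 291001) (by norm_num) (by norm_num)) f.r0).trans
      ((pow_le_pow_iff_left₀ (mul_nonneg f.r0 (s.i0 _)) n0.le three_ne_zero).1 ?_)
    rw [mul_pow, ← pow_mul, pow_succ' (n : ℝ) 2]
    exact mul_le_mul (f.r_pow (by norm_num)) (i2 (by norm_num)) (s.i0 _) n0.le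
  · rw [← D.Th_eq, gr]
    exact T2P.lip_mono (hl F S a σ ha hσ hS hF).1 (mul_le_mul_of_nonneg_left (s.im (by norm_num))
      (mul_nonneg (mul_nonneg ha hσ) s0))
  · rw [← D.Th_eq, gr]
    exact T2P.lip_mono (hl F S a σ ha hσ hS hF).2 (mul_le_mul_of_nonneg_left (s.im (by norm_num))
      (mul_nonneg (mul_nonneg ha hσ) s0))
  · rw [← D.Th_eq, vR]
    simp only [trace_mul_comm _ D.Pi]
    exact h2.1
  · rw [← D.Th_eq, vR]
    simp only [trace_mul_comm _ D.Pi]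
    exact h2.2.1
  · rw [← D.Th_eq, vR]
    simp only [trace_mul_comm _ (D.Pi * D.Vt)]
    exact h2.2.2

/-- **[M3]** -/
theorem m3_of (h2 : M2Stmt) : M3Stmt := by
  refine ((et_sm.and T2P.lipStmt).and h2).mono fun t ⟨⟨hs, hl⟩, hm⟩ n D Gd h => ?_
  have s := sml_of hs
  have a := (hy_of hs h (fun F S a σ ha hσ hS => (hl n D Gd h F S a σ ha hσ hS).1)
    (hm n D Gd h)).main
  rw [Le, ← D.Th_eq, ← fro_sq_sym D.K0_tr, ← fro_sq_sym h.si.sV, fro_sq_hsq, fro_sq_hsq, gr] at a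
  simp only [trace_mul_comm _ D.Pi] at a
  refine a.trans ?_
  rw [mul_left_comm, mul_left_comm _ D.r, ← pow_add, mul_assoc]
  exact mul_le_mul_of_nonneg_left (mul_le_mul (le_self_pow₀ h.fr.r1 two_ne_zero)
    (s.im (by norm_num)) (s.i0 _) (sq_nonneg _)) h.fr.npos'.le

end Vale.Agent.N150.T2M3
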