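import Vale.Agent.N150.SymPZ

/-! The four Ward identities for `Q = -Γ A` and `Ξ = Γ P Γᵀ`, and decoupling of products. -/

namespace Vale.Agent.N150.Wd

open Matrix MeasureTheory Set
open Vale.Agent.N150.Haar (fro fro_nonneg)

variable {n : ℕ} {P : Mt n}

/-- the bracket `<L|R>` -/
def br (P L R : Mt n) : ℝ := (P * Lᵀ * P * R).trace - (L * P).trace * (P * R).trace

lemma dv_br (hP : Pᵀ = P) (L R : Mt n) : dv P (fun X => L * X * R) = br P L R := by
  rw [dv_sand hP, br, trace_mul_comm P L]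

lemma dv_self (hP : Pᵀ = P) (hPP : P * P = P) (M : Mt n) :
    dv P (fun X => M * X - X * M) = 0 := by
  have h1 := dv_sand hP M 1
  have h2 := dv_sand hP 1 M
  simp only [mul_one, one_mul, transpose_one, hPP] at h1 h2
  rw [dv_sub, h1, h2, trace_mul_cycle, hPP, ← trace_transpose (P * Mᵀ), transpose_mul,
    transpose_transpose, hP, trace_mul_comm M P]
  ring

/-- `Q = -Γ A` -/
noncomputable def Qm (A D : Mt n) (O : OG n) : Mt n := -(Ga A 0 D O * fr A O)

/-- `Ξ = Γ R Γᵀ` -/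
noncomputable def Xi (A D R : Mt n) (O : OG n) : Mt n := Ga A 0 D O * fr R O * (Ga A 0 D O)ᵀ

lemma Ms.qm (A D : Mt n) : Ms (Qm A D) := ((Ms.ga A 0 D).mul (.fr A)).neg

lemma Ms.xi (A D R : Mt n) : Ms (Xi A D R) :=
  ((Ms.ga A 0 D).mul (.fr R)).mul (Ms.ga A 0 D).transpose

section Alg

variable {A D : Mt n} {O : OG n} (hA : Aᵀ = A) (hD : Dᵀ = D)
  (hu : IsUnit (1 + (fr A O + 0) * D).det)
include hu

/-- `Γ = 1 + Q D` -/
lemma Ga_eq : Ga A 0 D O = 1 + Qm A D O * D := by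
  have h : Ga A 0 D O * (1 + (fr A O + 0) * D) = 1 := nonsing_inv_mul _ hu
  rw [add_zero, mul_add, mul_one, ← mul_assoc] at h
  rw [Qm, neg_mul, ← h]; abel

lemma A_mul_Gm : fr A O * Gm A 0 D O = 1 - Ga A 0 D O := by
  simpa only [add_zero] using B_mul_Gm hu

include hA hD

lemma Gm_mul_A : Gm A 0 D O * fr A O = 1 - (Ga A 0 D O)ᵀ := by
  simpa only [add_zero] using Gm_mul_B hA transpose_zero hD hu

lemma Qm_eq : Qm A D O = -(fr A O * (Ga A 0 D O)ᵀ) := by
  have h1 := Gm_mul_A hA hD hu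
  have h2 : (1 + (fr A O + 0) * D) * Ga A 0 D O = 1 := mul_nonsing_inv _ hu
  have h3 : (Ga A 0 D O)ᵀ = 1 - D * Ga A 0 D O * fr A O := by
    rw [← Gm, h1, sub_sub_cancel]
  have h4 : Ga A 0 D O = 1 - fr A O * D * Ga A 0 D O := by
    rw [add_zero, add_mul, one_mul] at h2
    rw [← h2, add_sub_cancel_right]
  rw [Qm, h3]
  conv_lhs => rw [h4]
  noncomm_ring

lemma Qm_symm : (Qm A D O)ᵀ = Qm A D O := by
  conv_rhs => rw [Qm_eq hA hD hu]
  rw [Qm, transpose_neg, transpose_mul, fr_transpose, hA]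

/-- `Γᵀ = 1 + D Q` -/
lemma GaT_eq : (Ga A 0 D O)ᵀ = 1 + D * Qm A D O := by
  conv_lhs => rw [Ga_eq hu, transpose_add, transpose_one, transpose_mul, hD, Qm_symm hA hD hu]

omit hA hD in
lemma der_Ga (X : Mt n) : -(Ga A 0 D O * (fr A O * X - X * fr A O) * Gm A 0 D O) =
    Qm A D O * X * (D * Ga A 0 D O) + Ga A 0 D O * X * (1 - Ga A 0 D O) := by
  rw [← A_mul_Gm hu, Qm, Gm]; noncomm_ring

lemma der_GaT (X : Mt n) : -(Gm A 0 D O * (fr A O * X - X * fr A O) * (Ga A 0 D O)ᵀ) =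
    -((1 - (Ga A 0 D O)ᵀ) * X * (Ga A 0 D O)ᵀ) - (Ga A 0 D O)ᵀ * D * X * Qm A D O := by
  rw [← Gm_mul_A hA hD hu, Qm_eq hA hD hu, ← Gm_eq hA transpose_zero hD hu]; noncomm_ring

end Alg

lemma Xi_symm {A D R : Mt n} (hR : Rᵀ = R) (O : OG n) : (Xi A D R O)ᵀ = Xi A D R O := by
  rw [Xi, transpose_mul, transpose_mul, transpose_transpose, fr_transpose, hR, mul_assoc]

section Four

variable {G : Set (OG n)} {K : ℝ} {A D : Mt n}

lemma Ok.hd_qm (h : Ok P G K A 0 D) : HD P G (K ^ 19) (Qm A D)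
    fun O X => Qm A D O * X * (Ga A 0 D O)ᵀ - Ga A 0 D O * X * Qm A D O := by
  have hK := h.hK
  have a1 := ((h.hd_ga.mul (hd_fr P G hK h.bA)).neg).mono (κ' := K ^ 19)
    (by nlinarith [pow_pos (show 0 < K by linarith) 18])
  refine a1.congr (fun X => (((Ms.qm A D).mul (.const X)).mul (Ms.ga A 0 D).transpose).sub
    (((Ms.ga A 0 D).mul (.const X)).mul (.qm A D))) fun O hO X _ => ?_
  have e1 := Gm_mul_A h.hA h.hD (h.unit O hO)
  have e2 := Qm_eq h.hA h.hD (h.unit O hO)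
  calc _ = Ga A 0 D O * (fr A O * X - X * fr A O) * (Gm A 0 D O * fr A O - 1) := by noncomm_ring
    _ = -(Ga A 0 D O * fr A O) * X * (Ga A 0 D O)ᵀ -
        Ga A 0 D O * X * -(fr A O * (Ga A 0 D O)ᵀ) := by rw [e1]; noncomm_ring
    _ = _ := by rw [← e2, ← Qm]

lemma Ok.hd_xi (h : Ok P G K A 0 D) {R : Mt n} (hR : fro R ≤ K) : HD P G (K ^ 36) (Xi A D R)
    fun O X => Xi A D R O * X * (Ga A 0 D O)ᵀ + Qm A D O * X * (D * Xi A D R O) -
      Xi A D R O * D * X * Qm A D O - Ga A 0 D O * X * Xi A D R O := by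
  have hK := h.hK
  have a1 := ((h.hd_ga.mul (hd_fr P G hK hR)).mul h.hd_gaT).mono (κ' := K ^ 36)
    (by
      have : 16 ≤ K ^ 2 := by nlinarith
      nlinarith [pow_pos (show 0 < K by linarith) 34])
  refine a1.congr (fun X => (((((Ms.xi A D R).mul (.const X)).mul (Ms.ga A 0 D).transpose).add
    (((Ms.qm A D).mul (.const X)).mul ((Ms.const D).mul (.xi A D R)))).sub
    ((((Ms.xi A D R).mul (.const D)).mul (.const X)).mul (.qm A D))).sub
    (((Ms.ga A 0 D).mul (.const X)).mul (.xi A D R))) fun O hO X _ => ?_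
  rw [der_Ga (h.unit O hO), der_GaT h.hA h.hD (h.unit O hO), Xi]
  noncomm_ring

variable {μ : Measure (OG n)} [IsProbabilityMeasure μ] {p : ℝ}

lemma Ok.fin (h : Ok P G K A 0 D) (hμ : RI P μ) (hG : MeasurableSet G) (hp : μ.real Gᶜ ≤ p)
    (hp0 : 0 < p) (hp1 : p ≤ 1) {M : OG n → Mt n} {M1 : OG n → Mt n → Mt n} {a : ℕ}
    (hM : HD P G (K ^ a) M M1) {f : OG n → ℝ} (hf : ∀ O ∈ G, dv P (M1 O) = f O) :
    |∫ O in G, f O ∂μ| ≤ K ^ (a + 3) * √p := by
  have h1 := hM.ward h.hP h.hPP hμ hG hp hp0 hp1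
  rw [setIntegral_congr_fun hG hf] at h1
  refine h1.trans (mul_le_mul_of_nonneg_right ?_ (Real.sqrt_nonneg _))
  have hK := h.hK
  have hn := h.hn
  rw [show K ^ (a + 3) = K * K ^ 2 * K ^ a by ring]
  gcongr
  linarith

lemma pw_le {K : ℝ} (hK : 8 ≤ K) (a b : ℕ) : 4 * K ^ a * K ^ b ≤ K ^ (a + b + 1) := by
  rw [show K ^ (a + b + 1) = K * K ^ a * K ^ b by ring]
  gcongr
  linarith

/-- (Wa) -/
theorem Ok.wa (h : Ok P G K A 0 D) (hμ : RI P μ) (hG : MeasurableSet G) (hp : μ.real Gᶜ ≤ p)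
    (hp0 : 0 < p) (hp1 : p ≤ 1) {T : Mt n} (hT : fro T ≤ K) :
    |∫ O in G, (br P (T * Qm A D O) (Ga A 0 D O)ᵀ - br P (T * Ga A 0 D O) (Qm A D O)) ∂μ| ≤
      K ^ 24 * √p := by
  have k1 : 1 ≤ K := by linarith [h.hK]
  have a0 := (HD.const P G k1 hT).mono (pow_one K).ge
  refine h.fin hμ hG hp hp0 hp1 ((a0.mul h.hd_qm).mono (pw_le h.hK 1 19)) fun O _ => ?_
  rw [← dv_br h.hP, ← dv_br h.hP, ← dv_sub]
  exact congrArg _ (funext fun X => by noncomm_ring)

/-- (Wc) -/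
theorem Ok.wc (h : Ok P G K A 0 D) (hμ : RI P μ) (hG : MeasurableSet G) (hp : μ.real Gᶜ ≤ p)
    (hp0 : 0 < p) (hp1 : p ≤ 1) {T R : Mt n} (hT : fro T ≤ K) (hR : fro R ≤ K) :
    |∫ O in G, (br P (T * Qm A D O) (D * Xi A D R O) - br P (T * Ga A 0 D O) (Xi A D R O) +
      br P (T * Xi A D R O) (Ga A 0 D O)ᵀ - br P (T * Xi A D R O * D) (Qm A D O)) ∂μ| ≤
      K ^ 41 * √p := by
  have k1 : 1 ≤ K := by linarith [h.hK]
  have a0 := (HD.const P G k1 hT).mono (pow_one K).ge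
  refine h.fin hμ hG hp hp0 hp1 ((a0.mul (h.hd_xi hR)).mono (pw_le h.hK 1 36)) fun O _ => ?_
  rw [← dv_br h.hP, ← dv_br h.hP, ← dv_br h.hP, ← dv_br h.hP, ← dv_sub, ← dv_add, ← dv_sub]
  exact congrArg _ (funext fun X => by noncomm_ring)

/-- (Wb), with `V = D - w` -/
theorem Ok.wb (h : Ok P G K A 0 D) (hμ : RI P μ) (hG : MeasurableSet G) (hp : μ.real Gᶜ ≤ p)
    (hp0 : 0 < p) (hp1 : p ≤ 1) {S V : Mt n} (hS : fro S ≤ K) {w : ℝ} (hV : D = V + w • 1) :
    |∫ O in G, (br P (fr S O * Qm A D O) (V * Ga A 0 D O) -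
      br P (fr S O * Qm A D O * V) (Ga A 0 D O)) ∂μ| ≤ K ^ 22 * √p := by
  refine h.fin hμ hG hp hp0 hp1
    (((hd_fr P G h.hK hS).mul h.hd_ga).mono (pw_le h.hK 2 16)) fun O hO => ?_
  rw [← dv_br h.hP, ← dv_br h.hP, ← dv_sub, ← add_zero (dv P fun X => _ - _),
    ← dv_self h.hP h.hPP (fr S O * Ga A 0 D O), ← dv_add]
  refine congrArg _ (funext fun X => ?_)
  rw [der_Ga (h.unit O hO)]
  have e := Ga_eq (h.unit O hO)
  generalize Qm A D O = Q at e ⊢
  generalize Ga A 0 D O = g at e ⊢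
  have e2 : g * X * g = X * g + Q * D * X * g := by
    calc g * X * g = (1 + Q * D) * X * g := by rw [← e]
      _ = _ := by noncomm_ring
  have e3 : g * X * (1 - g) = g * X - (X * g + Q * D * X * g) := by rw [← e2]; noncomm_ring
  rw [e3, hV]
  simp only [mul_add, add_mul, mul_sub, sub_mul, Matrix.mul_smul, Matrix.smul_mul, mul_one, one_mul,
    mul_assoc]
  abel

/-- (Wd), with `V = D - w` -/
theorem Ok.wd (h : Ok P G K A 0 D) (hμ : RI P μ) (hG : MeasurableSet G) (hp : μ.real Gᶜ ≤ p)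
    (hp0 : 0 < p) (hp1 : p ≤ 1) {S R V : Mt n} (hS : fro S ≤ K) (hR : fro R ≤ K) {w : ℝ}
    (hV : D = V + w • 1) :
    |∫ O in G, (br P (fr S O * Xi A D R O * V) (Ga A 0 D O) +
      br P (fr S O * Qm A D O * V) (Xi A D R O * D) -
      br P (fr S O * Xi A D R O) (V * Ga A 0 D O) -
      br P (fr S O * Qm A D O) (V * Xi A D R O * D)) ∂μ| ≤ K ^ 44 * √p := by
  have k1 : 1 ≤ K := by linarith [h.hK]
  have a0 := (HD.const P G k1 h.bD).mono (pow_one K).ge
  refine h.fin hμ hG hp hp0 hp1 ((((((hd_fr P G h.hK hS).mul (h.hd_xi hR)).mono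
    (pw_le h.hK 2 36)).mul a0).mono (pw_le h.hK 39 1)).neg) fun O hO => ?_
  rw [← dv_br h.hP, ← dv_br h.hP, ← dv_br h.hP, ← dv_br h.hP, ← dv_add, ← dv_sub, ← dv_sub,
    ← sub_zero (dv P fun X => _ - _), ← dv_self h.hP h.hPP (fr S O * Xi A D R O * D), ← dv_sub]
  refine congrArg _ (funext fun X => ?_)
  have e := Ga_eq (h.unit O hO)
  have e' : (Ga A 0 D O)ᵀ * D = D * Ga A 0 D O := (Gm_eq h.hA transpose_zero h.hD (h.unit O hO)).symm
  generalize Qm A D O = Q at e ⊢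
  generalize Xi A D R O = Z
  generalize fr S O = s
  generalize (Ga A 0 D O)ᵀ = g' at e' ⊢
  generalize Ga A 0 D O = g at e e' ⊢
  have e1 : s * (Z * X * g' + Q * X * (D * Z) - Z * D * X * Q - g * X * Z) * D =
      s * Z * X * (g' * D) + s * Q * X * D * Z * D - s * Z * D * X * ((1 + Q * D) - 1) -
        s * g * X * Z * D := by noncomm_ring
  have e2 : s * g * X * Z * D = s * X * Z * D + s * Q * D * X * Z * D := by
    conv_lhs => rw [e]
    noncomm_ring
  have e3 : ∀ Y W : Mt n, Y * X * D * W - Y * D * X * W = Y * X * V * W - Y * V * X * W := by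
    intro Y W
    rw [hV]
    simp only [mul_add, add_mul, Matrix.mul_smul, Matrix.smul_mul, mul_one, mul_assoc]
    abel
  rw [mul_zero, add_zero, add_mul, e1, e2, e', ← e]
  have e4 := e3 (s * Z) g
  have e5 := e3 (s * Q) (Z * D)
  calc _ = -(s * Z * X * D * g - s * Z * D * X * g) -
        (s * Q * X * D * (Z * D) - s * Q * D * X * (Z * D)) - (s * Z * D * X - X * (s * Z * D)) := by
        noncomm_ring
    _ = _ := by rw [e4, e5]; noncomm_ring

end Four

/-- **decoupling on a good set** -/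
theorem cov_good {μ : Measure (OG n)} [IsProbabilityMeasure μ] {c : ℝ} (h : Conc μ c) (hc : 0 < c)
    {G : Set (OG n)} (hG : MeasurableSet G) {p : ℝ} (hp : μ.real Gᶜ ≤ p) {f g : OG n → ℝ}
    {L₁ L₂ B₁ B₂ : ℝ} (hL₁ : 0 < L₁) (hL₂ : 0 < L₂) (hB₁ : 0 ≤ B₁) (hB₂ : 0 ≤ B₂)
    (hf : LipO G L₁ f) (hg : LipO G L₂ g) (bf : ∀ O ∈ G, |f O| ≤ B₁) (bg : ∀ O ∈ G, |g O| ≤ B₂) :
    |∫ O in G, f O * g O ∂μ - (∫ O in G, f O ∂μ) * ∫ O in G, g O ∂μ| ≤
      2 * L₁ * L₂ / c + 3 * B₁ * B₂ * p := by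
  obtain ⟨F, hF, eF, bF⟩ := hf.extend_bdd hL₁.le hB₁ bf
  obtain ⟨H, hH, eH, bH⟩ := hg.extend_bdd hL₂.le hB₂ bg
  have cF := hF.continuous
  have cH := hH.continuous
  rw [setIntegral_congr_fun hG (g := fun O => F O * H O) fun O hO => by simp only [eF O hO, eH O hO],
    setIntegral_congr_fun hG (f := f) (g := F) fun O hO => (eF O hO).symm,
    setIntegral_congr_fun hG (f := g) (g := H) fun O hO => (eH O hO).symm]
  have cut : ∀ {u : OG n → ℝ} {b : ℝ}, Continuous u → 0 ≤ b → (∀ O, |u O| ≤ b) →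
      |∫ O in G, u O ∂μ - ∫ O, u O ∂μ| ≤ b * p ∧ |∫ O in G, u O ∂μ| ≤ b ∧ |∫ O, u O ∂μ| ≤ b := by
    intro u b hu hb h1
    refine ⟨?_, ?_, ?_⟩
    · rw [← integral_add_compl hG (integrable_of_continuous hu μ), sub_add_cancel_left, abs_neg]
      exact (norm_setIntegral_le_of_norm_le_const (μ := μ) (s := Gᶜ) (f := u) (measure_lt_top _ _)
        fun O _ => h1 O).trans (mul_le_mul_of_nonneg_left hp hb)
    · exact (norm_setIntegral_le_of_norm_le_const (μ := μ) (s := G) (f := u) (measure_lt_top _ _)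
        fun O _ => h1 O).trans (mul_le_of_le_one_right hb measureReal_le_one)
    · simpa using norm_integral_le_of_norm_le_const (μ := μ) (f := u) (C := b) (ae_of_all _ h1)
  obtain ⟨a1, a2, _⟩ := cut cF hB₁ bF
  obtain ⟨b1, _, b3⟩ := cut cH hB₂ bH
  obtain ⟨c1, _, _⟩ := cut (u := fun O => F O * H O) (cF.mul cH) (mul_nonneg hB₁ hB₂) fun O => by
    rw [abs_mul]; exact mul_le_mul (bF O) (bH O) (abs_nonneg _) hB₁
  have v1 := h.var hc hL₁ hF
  have v2 := h.var hc hL₂ hH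
  set a := ∫ O, F O ∂μ with ha
  set b := ∫ O, H O ∂μ with hb
  have iF := integrable_of_continuous cF μ
  have iH := integrable_of_continuous cH μ
  have iFH : Integrable (fun O => F O * H O) μ := integrable_of_continuous (cF.mul cH) μ
  have e1 : ∫ O, (F O - a) * (H O - b) ∂μ = ∫ O, F O * H O ∂μ - a * b := by
    have j1 : Integrable (fun O => F O * H O - b * F O) μ := iFH.sub (iF.const_mul b)
    have j2 : Integrable (fun O => F O * H O - b * F O - a * H O) μ := j1.sub (iH.const_mul a)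
    rw [integral_congr_ae (g := fun O => F O * H O - b * F O - a * H O + a * b)
      (ae_of_all _ fun O => by ring), integral_add j2 (integrable_const _),
      integral_sub j1 (iH.const_mul a), integral_sub iFH (iF.const_mul b), integral_const_mul,
      integral_const_mul]
    simp only [integral_const, probReal_univ, smul_eq_mul, one_mul]
    ring
  have e2 : |∫ O, (F O - a) * (H O - b) ∂μ| ≤ 2 * L₁ * L₂ / c := by
    have j1 : Integrable (fun O => (F O - a) ^ 2) μ := integrable_of_continuous (by fun_prop) μ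
    have j2 : Integrable (fun O => (H O - b) ^ 2) μ := integrable_of_continuous (by fun_prop) μ
    have j3 : Integrable (fun O => (F O - a) * (H O - b)) μ :=
      integrable_of_continuous (by fun_prop) μ
    refine abs_integral_le_integral_abs.trans ((integral_mono j3.abs
      ((j1.const_mul (L₂ / (2 * L₁))).add (j2.const_mul (L₁ / (2 * L₂)))) fun O => ?_).trans ?_)
    · show |(F O - a) * (H O - b)| ≤ L₂ / (2 * L₁) * (F O - a) ^ 2 + L₁ / (2 * L₂) * (H O - b) ^ 2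
      rw [abs_mul, ← sq_abs (F O - a), ← sq_abs (H O - b)]
      have e : L₂ / (2 * L₁) * |F O - a| ^ 2 + L₁ / (2 * L₂) * |H O - b| ^ 2 -
          |F O - a| * |H O - b| = (L₂ * |F O - a| - L₁ * |H O - b|) ^ 2 / (2 * L₁ * L₂) := by
        field_simp; ring
      have : 0 ≤ (L₂ * |F O - a| - L₁ * |H O - b|) ^ 2 / (2 * L₁ * L₂) := by positivity
      linarith
    · show ∫ O, (L₂ / (2 * L₁) * (F O - a) ^ 2 + L₁ / (2 * L₂) * (H O - b) ^ 2) ∂μ ≤ _
      rw [integral_add (j1.const_mul _) (j2.const_mul _), integral_const_mul, integral_const_mul]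
      refine (add_le_add (mul_le_mul_of_nonneg_left v1 (by positivity))
        (mul_le_mul_of_nonneg_left v2 (by positivity))).trans (le_of_eq ?_)
      field_simp; ring
  rw [e1] at e2
  set x := ∫ O in G, F O ∂μ
  set y := ∫ O in G, H O ∂μ
  have e3 : |x * y - a * b| ≤ B₁ * (B₂ * p) + B₁ * p * B₂ := by
    rw [show x * y - a * b = x * (y - b) + (x - a) * b by ring]
    refine (abs_add_le _ _).trans (add_le_add ?_ ?_) <;> rw [abs_mul]
    · exact mul_le_mul a2 b1 (abs_nonneg _) hB₁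
    · exact mul_le_mul a1 b3 (abs_nonneg _) ((abs_nonneg _).trans a1)
  have := abs_le.1 c1
  have := abs_le.1 e2
  have := abs_le.1 e3
  rw [abs_le]
  constructor <;> nlinarith

end Vale.Agent.N150.Wd
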