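import Vale.Agent.N150.T1Def
import Vale.Agent.N150.WardQ
import Vale.Agent.N150.HaarF

/-! Block T2 (notes/P150/T2_helper24.md), abstract part: one fibre.

Unit `t` as in `T1Def`: `s = t ^ 288000`.  Levels: `i < lab a` means `gam - lam a ≤ t ^ (2 i)`
(`i ≤ 144000`), the label `144002` is the capped space `V`.  `b = t⁻¹ ^ 216250`,
`fb = t⁻¹ ^ 141000`, rate `n t ^ 431998`. -/

open Matrix MeasureTheory Filter Topology

namespace Vale.Agent.N150.T2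

open Vale.Agent.P150 Vale.Agent.P150.F Vale.Agent.N150.Sp Vale.Agent.N150.Fib
open Vale.Agent.N150.Haar (fro)
open Vale.Agent.N150.Wd (fr)

variable {n : ℕ}

/-- the data which are constant on a fibre `O0 * SG Pi` -/
structure Fd (n : ℕ) where
  O0 : OG n
  Pi : Mat n
  nu : Vec n
  lab : Fin n → ℕ
  hf : ℕ → ℝ
  del : ℝ
  w : ℝ
  al : ℝ
  r : ℝ
  Th : Mat n
  Bh : Mat n

namespace Fd

variable (D : Fd n)

/-- the law on the fibre -/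
noncomputable def mu : Measure (OG n) := (haarP D.Pi).map fun U => D.O0 * U
/-- mean over the good set -/
noncomputable def E (Gd : Set (OG n)) (g : OG n → ℝ) : ℝ := ∫ O in Gd, g O ∂D.mu
/-- the step function -/
def hv : Vec n := fun a => D.hf (D.lab a)
def PB : Mat n := 1 - D.Pi
def Vt : Mat n := D.Th - D.w • (1 : Mat n)
/-- indicator of the levels above `i` -/
def ind (i : ℕ) : Vec n := fun a => if i < D.lab a then 1 else 0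
noncomputable def A0 : Mat n := diagonal fun a => D.nu a - D.w⁻¹
noncomputable def K0 : Mat n := diagonal fun a => 1 - (D.nu a)⁻¹ / D.w
def P0 : Mat n := diagonal (D.ind 144001)
noncomputable def A (O : OG n) : Mat n := fr D.A0 O
noncomputable def Kt (O : OG n) : Mat n := fr D.K0 O
noncomputable def P (O : OG n) : Mat n := fr D.P0 O
noncomputable def G0 (O : OG n) : Mat n := JO (fun a => (D.nu a)⁻¹) O
noncomputable def H (O : OG n) : Mat n := JO D.hv O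
noncomputable def Hs (O : OG n) : Mat n := JO (fun a => √(D.hv a)) O
noncomputable def Hi (O : OG n) : Mat n := JO (fun a => (√(D.hv a))⁻¹) O
noncomputable def Pl (i : ℕ) (O : OG n) : Mat n := JO (D.ind i) O
noncomputable def Ga (O : OG n) : Mat n := Wd.Ga D.A0 0 D.Th O
noncomputable def G (O : OG n) : Mat n := Wd.Gm D.A0 0 D.Th O
noncomputable def Q (O : OG n) : Mat n := Wd.Qm D.A0 D.Th O
noncomputable def Xi (O : OG n) : Mat n := Wd.Xi D.A0 D.Th D.P0 O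
/-- the observable -/
noncomputable def f (O : OG n) : ℝ := (D.Xi O * D.Bh).trace
/-- `k / del ^ 2` -/
noncomputable def tau : ℝ := (∑ a, D.ind 144001 a) / D.del ^ 2
noncomputable def Del : ℝ := n * D.w ^ 2 - hsq D.K0 * hsq D.Vt / n
noncomputable def ga (O : OG n) : ℝ := (D.Pi * D.Ga O).trace
noncomputable def ka (O : OG n) : ℝ := (D.Pi * D.Q O).trace
noncomputable def ze (O : OG n) : ℝ := (D.Pi * D.Vt * D.Ga O).trace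
noncomputable def xx (O : OG n) : ℝ := (D.Pi * D.Xi O).trace
noncomputable def phQ (F S : Mat n) (O : OG n) : ℝ := (F * fr S O * D.Q O).trace
noncomputable def phX (F S : Mat n) (O : OG n) : ℝ := (F * fr S O * D.Xi O).trace

end Fd

/-- frame data -/
structure Fr (t : ℝ) (D : Fd n) : Prop where
  big : 1 ≤ n * t ^ 564000
  r1 : 1 ≤ D.r
  rn : D.r ^ 100 ≤ n
  dlo : t ^ 288001 ≤ D.del
  dhi : D.del ≤ t ^ 287998
  nlo : ∀ a, D.del ≤ D.nu a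
  nhi : ∀ a, D.nu a ≤ 7
  nV : ∀ a, 144001 < D.lab a → D.nu a = D.del
  h1 : ∀ a, 1 ≤ D.hv a * D.nu a
  h2 : ∀ a, D.hv a * D.nu a ≤ t⁻¹ ^ 3
  h3 : ∀ a, D.hv a * D.del ≤ 1
  hi : ∀ i ≤ 144000, ∀ a, D.lab a ≤ i → D.hv a * t ^ (2 * i) ≤ 1
  cnt : ∀ i ≤ 144000, t * ∑ a, D.ind i a ≤ n * t ^ (3 * i)
  trH : ∀ i ≤ 144000, ∑ a, D.ind i a * D.hv a ≤ n * (t ^ i * t⁻¹ ^ 5)
  trH1 : ∑ a, D.hv a ≤ n * t⁻¹ ^ 5
  trH2 : ∑ a, D.hv a ^ 2 ≤ n * t⁻¹ ^ 144010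
  trH3 : ∑ a, D.hv a ^ 3 ≤ n * t⁻¹ ^ 432010
  wlo : 1 - t ^ 143990 ≤ D.w
  whi : D.w ≤ 1
  tr0 : ∑ a, (D.nu a)⁻¹ = n * D.w

/-- site data -/
structure Si (t : ℝ) (D : Fd n) : Prop where
  proj : IsProj D.Pi
  cor : n - D.r ≤ D.Pi.trace
  blk : ∀ φ : ℕ → ℝ, D.Pi * JO (fun a => φ (D.lab a)) D.O0 = JO (fun a => φ (D.lab a)) D.O0 * D.Pi
  sT : D.Thᵀ = D.Th
  sB : D.Bhᵀ = D.Bh
  oT : OpLe D.Th 2
  oV : OpLe D.Vt 2
  trV : |D.Vt.trace| ≤ 1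
  fV : hsq D.Vt ≤ n * t ^ 287990
  bB : fro D.Bh ≤ t⁻¹ ^ 216250
  al : √n * |D.al| ≤ t⁻¹ ^ 72200
  a3 : √n * |D.Bh.trace - D.al * D.Del| ≤ t⁻¹ ^ 216250

/-- pointwise bounds at a good point of the fibre -/
structure Pt (t : ℝ) (D : Fd n) (O : OG n) : Prop where
  unit : IsUnit (1 + (fr D.A0 O + 0) * D.Th).det
  iGa : OpLe (D.Hi O * D.Ga O * D.Hi O) (t⁻¹ ^ 120)
  iG : OpLe (D.Hi O * D.G O * D.Hi O) (t⁻¹ ^ 150)
  iQ : OpLe (D.Hi O * D.Q O * D.Hi O) (t⁻¹ ^ 125)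
  iV : OpLe (D.Hs O * D.Vt * D.Hs O) (t⁻¹ ^ 40)
  hV : fro (D.Hs O * D.Vt) ≤ √n * t ^ 143900
  thB : fro (D.Hs O * D.Vt * D.Kt O * D.Bh) ≤ t ^ 3800 * t⁻¹ ^ 216250
  bH : fro (D.Hs O * D.Bh) ≤ t⁻¹ ^ 216250
  bE : fro (D.Hs O * D.Pl 2500 O * D.Bh) ≤ t ^ 1250 * t⁻¹ ^ 216250
  bP : fro (D.P O * D.Bh) ≤ t⁻¹ ^ 250
  fB : fro (D.Hs O * D.PB * D.Bh) ≤ t⁻¹ ^ 141000
  fBB : fro (D.Hs O * D.PB * D.Bh * D.PB * D.Hs O) ≤ t⁻¹ ^ 141000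

/-- a typical fibre with its good set -/
structure Core (t : ℝ) (D : Fd n) (Gd : Set (OG n)) : Prop where
  fr : Fr t D
  si : Si t D
  meas : MeasurableSet Gd
  mass : D.mu.real Gdᶜ ≤ ((n : ℝ) ^ 900)⁻¹
  fib : ∀ O ∈ Gd, ∃ U ∈ HG D.Pi, O = D.O0 * U
  pt : ∀ O ∈ Gd, Pt t D O

/-- output of the quartic lemma -/
structure QOK (t : ℝ) (D : Fd n) (O : OG n) : Prop where
  f1 : fro (D.P O * D.Bh * D.Hs O) ≤ t⁻¹ ^ 300
  f2 : fro (D.Hs O * D.Bh * D.Hs O * D.Pl 2500 O) ≤ t ^ 1200 * t⁻¹ ^ 216250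
  f0 : fro (D.Hs O * D.Bh * D.Hs O) ≤ t⁻¹ ^ 216300

/-- for all small `t > 0` -/
def Et (p : ℝ → Prop) : Prop := ∀ᶠ t in 𝓝[>] (0 : ℝ), p t

/-- **[Q]** quartic lemma -/
def QStmt : Prop := Et fun t => ∀ (n : ℕ) (D : Fd n) (Gd : Set (OG n)), Core t D Gd →
  D.mu.real {O | O ∈ Gd ∧ ¬QOK t D O} ≤ 6 * Real.exp (-(n * t ^ 431998))

/-- **[F]** fluctuation -/
def FStmt : Prop := Et fun t => ∀ (n : ℕ) (D : Fd n) (Gd : Set (OG n)), Core t D Gd →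
  (∀ O ∈ Gd, QOK t D O) →
  D.mu.real {O | O ∈ Gd ∧ t⁻¹ ^ 431600 < |D.f O - D.E Gd D.f|} ≤ 2 * Real.exp (-(n * t ^ 431998))

/-- **[M-Lip]** Lipschitz constants of the traces (`F` fixed, `S` rotating) -/
def LipStmt : Prop := Et fun t => ∀ (n : ℕ) (D : Fd n) (Gd : Set (OG n)), Core t D Gd →
  ∀ (F S : Mat n) (a σ : ℝ), 0 ≤ a → 0 ≤ σ → OpLe S σ →
    (OpLe F a → LipO Gd (a * σ * √n * t⁻¹ ^ 216500) (D.phQ F S) ∧
      LipO Gd (a * σ * √n * t⁻¹ ^ 504600) (D.phX F S)) ∧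
    (fro F ≤ a → LipO Gd (a * σ * t⁻¹ ^ 432500) (D.phQ F S) ∧
      LipO Gd (a * σ * t⁻¹ ^ 720600) (D.phX F S))

/-- **[M2]** -/
def M2Stmt : Prop := Et fun t => ∀ (n : ℕ) (D : Fd n) (Gd : Set (OG n)), Core t D Gd →
  |D.E Gd D.ka| ≤ D.r * t⁻¹ ^ 291000 ∧ |D.E Gd D.ga - n| ≤ D.r * t⁻¹ ^ 291000 ∧
  |D.E Gd D.ze| ≤ D.r * t⁻¹ ^ 147000

/-- **[M3]** -/
def M3Stmt : Prop := Et fun t => ∀ (n : ℕ) (D : Fd n) (Gd : Set (OG n)), Core t D Gd →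
  |D.E Gd D.xx * D.Del - D.tau * D.E Gd D.ga| ≤ n * D.r ^ 2 * t⁻¹ ^ 600000

/-- **[M4]** the mean -/
def M4Stmt : Prop := Et fun t => ∀ (n : ℕ) (D : Fd n) (Gd : Set (OG n)), Core t D Gd →
  (∀ O ∈ Gd, QOK t D O) → |D.E Gd D.f - D.al * D.tau| ≤ √D.r * t⁻¹ ^ 430500

/-- **[Fib]** the tail on one fibre -/
def FibStmt : Prop := Et fun t => ∀ (n : ℕ) (D : Fd n) (Gd : Set (OG n)), Core t D Gd →
  D.mu.real Gdᶜ ≤ ((n : ℝ) ^ 901)⁻¹ →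
  D.mu.real {O | O ∈ Gd ∧ √D.r * t⁻¹ ^ 431601 < |D.f O - D.al * D.tau|} ≤
    8 * Real.exp (-(n * t ^ 431998))

end Vale.Agent.N150.T2
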