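import Vale.Agent.N150.T2P3
import Vale.Agent.N150.T2Def
import Vale.Agent.N150.T1Kit

set_option linter.all false

/-! P150, block T2: proof of `T2.LipStmt`. -/

namespace Vale.Agent.N150.T2P

open Matrix MeasureTheory Set Filter Topology
open Vale.Agent.P150 Vale.Agent.P150.F Vale.Agent.N150.Sp
open Vale.Agent.N150.Haar (fro fro_nonneg)
open Vale.Agent.N150.Wd (fr Ga Gm Qm Xi fr_transpose fr_mul fr_one fro_fr trace_fr)
open Vale.Agent.N150.KB.Ch Vale.Agent.N150.T2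

variable {n : ℕ} {t : ℝ} {D : Fd n}

theorem fro_diag_sq (u : Vec n) : fro (diagonal u : Mat n) ^ 2 = ∑ a, u a ^ 2 := by
  rw [Haar.fro_sq, Haar.ip_eq_trace, diagonal_transpose, diagonal_mul_diagonal, trace_diagonal]
  exact Finset.sum_congr rfl fun a _ => (pow_two _).symm

theorem cpow {τ C : ℝ} (hC : C ≤ τ) (h1 : 1 ≤ τ) {a b : ℕ} (hab : a + 1 ≤ b) :
    C * τ ^ a ≤ τ ^ b :=
  calc C * τ ^ a ≤ τ * τ ^ a := mul_le_mul_of_nonneg_right hC (pow_nonneg (by linarith) _)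
    _ = τ ^ (a + 1) := (pow_succ' τ a).symm
    _ ≤ τ ^ b := pow_le_pow_right₀ h1 hab

section

variable (h : Fr t D) (ht : 0 < t)
include h ht

theorem del_pos : 0 < D.del := (pow_pos ht _).trans_le h.dlo

theorem hv_pos (a : Fin n) : 0 < D.hv a := by
  have h1 := h.h1 a
  have h2 : 0 < D.nu a := (del_pos h ht).trans_le (h.nlo a)
  by_contra hx
  push Not at hx
  nlinarith

theorem hs_hi (O : OG n) : D.Hs O * D.Hi O = 1 := by
  rw [Fd.Hs, Fd.Hi, T1.JO_mul, ← T1.JO_one O]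
  congr 1
  funext a
  exact mul_inv_cancel₀ (Real.sqrt_pos.2 (hv_pos h ht a)).ne'

theorem op_hs (ht1 : t ≤ 1) (O : OG n) : OpLe (D.Hs O) (t⁻¹ ^ 144001) := by
  refine T1.opLe_JO (fun a => ?_) O
  rw [abs_of_nonneg (Real.sqrt_nonneg _)]
  refine Real.sqrt_le_iff.2 ⟨pow_nonneg (inv_nonneg.2 ht.le) _, ?_⟩
  have h1 : D.hv a * t ^ 288001 ≤ 1 :=
    (mul_le_mul_of_nonneg_left h.dlo (hv_pos h ht a).le).trans (h.h3 a)
  have h2 : D.hv a ≤ t⁻¹ ^ 288001 := by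
    rw [inv_pow, ← one_div, le_div_iff₀ (pow_pos ht _)]; exact h1
  rw [← pow_mul]
  exact h2.trans (pow_le_pow_right₀ (one_le_inv₀ ht |>.2 ht1) (by norm_num))

theorem op_hi (O : OG n) : OpLe (D.Hi O) 3 := by
  refine T1.opLe_JO (fun a => ?_) O
  have h0 := hv_pos h ht a
  have h1 : 1 / 3 ≤ √(D.hv a) := Real.le_sqrt_of_sq_le (by
    have := mul_le_mul_of_nonneg_left (h.nhi a) h0.le
    have := h.h1 a
    linarith)
  rw [abs_of_nonneg (inv_nonneg.2 (Real.sqrt_nonneg _))]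
  exact inv_le_of_inv_le₀ (by norm_num) (by rwa [← one_div])

theorem fro_hh (O : OG n) : fro (D.Hs O * D.Hs O) ≤ √n * t⁻¹ ^ 72005 := by
  have e : D.Hs O * D.Hs O = fr (diagonal D.hv) O := by
    rw [Fd.Hs, T1.JO_mul]
    show JO _ O = JO _ O
    congr 1
    funext a
    exact Real.mul_self_sqrt (hv_pos h ht a).le
  rw [e, fro_fr]
  refine (abs_le_of_sq_le_sq' ?_
    (mul_nonneg (Real.sqrt_nonneg _) (pow_nonneg (inv_nonneg.2 ht.le) _))).2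
  rw [fro_diag_sq, mul_pow, Real.sq_sqrt (Nat.cast_nonneg n), ← pow_mul]
  exact h.trH2

theorem fro_P0 (ht1 : t ≤ 1) : fro D.P0 ≤ √n * t ^ 215999 := by
  refine (abs_le_of_sq_le_sq' ?_ (mul_nonneg (Real.sqrt_nonneg _) (pow_nonneg ht.le _))).2
  rw [Fd.P0, fro_diag_sq, mul_pow, Real.sq_sqrt (Nat.cast_nonneg n), ← pow_mul]
  have h1 : ∑ a, D.ind 144001 a ^ 2 ≤ ∑ a, D.ind 144000 a := Finset.sum_le_sum fun a _ => by
    unfold Fd.ind
    by_cases ha : 144001 < D.lab a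
    · rw [if_pos ha, if_pos (by omega)]; norm_num
    · rw [if_neg ha]; split_ifs <;> norm_num
  have h2 := h.cnt 144000 le_rfl
  have h3 : t ^ (3 * 144000) ≤ t * t ^ (215999 * 2) := by
    rw [← pow_succ']
    exact pow_le_pow_of_le_one ht.le ht1 (by norm_num)
  refine h1.trans (le_of_mul_le_mul_left (h2.trans ?_) ht)
  calc (n : ℝ) * t ^ (3 * 144000) ≤ n * (t * t ^ (215999 * 2)) :=
        mul_le_mul_of_nonneg_left h3 (Nat.cast_nonneg n)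
    _ = _ := mul_left_comm _ _ _

end

theorem P0_idem : D.P0 * D.P0 = D.P0 := by
  rw [Fd.P0, diagonal_mul_diagonal]
  congr 1
  funext a
  unfold Fd.ind
  split_ifs <;> norm_num

/-- the norm bounds on a typical fibre -/
theorem core_nm {Gd : Set (OG n)} (h : Core t D Gd) (ht : 0 < t) (ht1 : t ≤ 1) :
    Nm Gd D.A0 D.Th D.P0 D.Vt D.w 2 2 (3 * t⁻¹ ^ 144251) (t⁻¹ ^ 288127) (√n * t⁻¹ ^ 72130)
      (t⁻¹ ^ 576254) (3 * t⁻¹ ^ 432378) (√n * t⁻¹ ^ 360255) (3 * (√n * t⁻¹ ^ 216379)) := by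
  have τ0 : 0 ≤ t⁻¹ := inv_nonneg.2 ht.le
  have τ1 : 1 ≤ t⁻¹ := (one_le_inv₀ ht).2 ht1
  have N := Nm.of_wt (G := Gd) (A := D.A0) (Th := D.Th) (R := D.P0) (Vt := D.Vt) (w := D.w)
    (a := t⁻¹ ^ 144001) (c := 3) (B := t⁻¹ ^ 125) (h := √n * t⁻¹ ^ 72005) (Hs := D.Hs)
    (Hi := D.Hi) (diagonal_transpose _) h.si.sT (diagonal_transpose _) P0_idem
    (by rw [Fd.Vt, sub_add_cancel]) (fun U hU => (h.pt U hU).unit) zero_le_two zero_le_two
    (pow_nonneg τ0 _) (by norm_num) (pow_nonneg τ0 _) h.si.oT h.si.oV (fro_P0 h.fr ht ht1)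
    fun U hU => ⟨hs_hi h.fr ht U, mul_eq_one_comm.1 (hs_hi h.fr ht U), op_hs h.fr ht ht1 U,
      op_hi h.fr ht U, (h.pt U hU).iQ,
      (h.pt U hU).iGa.monoN (pow_nonneg τ0 _) (pow_le_pow_right₀ τ1 (by norm_num)),
      (h.pt U hU).iV.monoN (pow_nonneg τ0 _) (pow_le_pow_right₀ τ1 (by norm_num)),
      T1.JO_tr _ U, fro_hh h.fr ht U⟩
  have i1 : t⁻¹ ^ 215999 * t ^ 215999 = 1 := by
    rw [← mul_pow, inv_mul_cancel₀ ht.ne', one_pow]
  generalize t ^ 215999 = u at N i1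
  generalize t⁻¹ = τ at N i1 ⊢
  have e1 : (τ ^ 125) ^ 2 * τ ^ 144001 * 3 = 3 * τ ^ 144251 := by ring
  have e2 : τ ^ 125 * (τ ^ 144001) ^ 2 = τ ^ 288127 := by ring
  have e3 : τ ^ 125 * (√n * τ ^ 72005) = √n * τ ^ 72130 := by ring
  have e4 : (τ ^ 125) ^ 2 * (τ ^ 144001) ^ 4 = τ ^ 576254 := by ring
  have e5 : (τ ^ 125) ^ 3 * (τ ^ 144001) ^ 3 * 3 = 3 * τ ^ 432378 := by ring
  have e6 : τ ^ 576254 * (√n * u) = √n * τ ^ 360255 := by
    calc _ = √n * τ ^ 360255 * (τ ^ 215999 * u) := by ring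
      _ = _ := by rw [i1, mul_one]
  have e7 : 3 * τ ^ 432378 * (√n * u) = 3 * (√n * τ ^ 216379) := by
    calc _ = 3 * (√n * τ ^ 216379) * (τ ^ 215999 * u) := by ring
      _ = _ := by rw [i1, mul_one]
  rwa [e1, e2, e3, e4, e5, e6, e7] at N

/-- **[M-Lip]** -/
theorem lipStmt : T2.LipStmt := by
  have ev : ∀ᶠ t in 𝓝[>] (0 : ℝ), t ∈ Ioo (0 : ℝ) (1 / 14) := Ioo_mem_nhdsGT (by norm_num)
  refine ev.mono fun t ht n D Gd h F S a σ ha hσ hS => ?_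
  have t1 : t ≤ 1 := by linarith [ht.2]
  have N := core_nm h ht.1 t1
  have τ14 : 14 ≤ t⁻¹ := by
    rw [le_inv_comm₀ (by norm_num) ht.1, ← one_div]; exact ht.2.le
  have s0 : 0 ≤ √(n : ℝ) := Real.sqrt_nonneg _
  have c0 : 0 ≤ a * σ := mul_nonneg ha hσ
  have c1 : 0 ≤ a * σ * √n := mul_nonneg c0 s0
  obtain ⟨τ, hτ⟩ : ∃ τ, τ = t⁻¹ := ⟨_, rfl⟩
  rw [← hτ] at N τ14 ⊢
  have τ1 : 1 ≤ τ := by linarith
  have τ0 : 0 ≤ τ := by linarith
  have g1 : 1 + 3 * τ ^ 144251 ≤ 4 * τ ^ 144251 := by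
    linarith [one_le_pow₀ τ1 (n := 144251)]
  have p := fun k : ℕ => pow_nonneg τ0 k
  refine ⟨fun hF => ⟨lip_mono (N.sw.lipQ_op ha hσ N.g0 hF hS N.og N.fq) ?_,
    lip_mono (N.sw.lipX_op ha hσ N.g0 N.q0 hF hS N.og N.oq N.fx N.fxv) ?_⟩,
    fun hF => ⟨lip_mono (N.sw.lipQ_fro hσ N.g0 N.q0 hF hS N.og N.oq) ?_,
    lip_mono (N.sw.lipX_fro hσ N.g0 N.q0 N.x0 N.xv0 hF hS N.og N.oq N.ox N.oxv) ?_⟩⟩
  · calc _ = a * σ * √n * (2 * τ ^ 72130 * (1 + 3 * τ ^ 144251)) := by ring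
      _ ≤ a * σ * √n * (2 * τ ^ 72130 * (4 * τ ^ 144251)) := mul_le_mul_of_nonneg_left
          (mul_le_mul_of_nonneg_left g1 (mul_nonneg zero_le_two (p _))) c1
      _ = a * σ * √n * (8 * τ ^ 216381) := by ring
      _ ≤ _ := mul_le_mul_of_nonneg_left (cpow (by linarith) τ1 (by norm_num)) c1
  · calc _ = a * σ * √n * (6 * τ ^ 504506 + 2 * τ ^ 360255 * (1 + 3 * τ ^ 144251)) := by ring
      _ ≤ a * σ * √n * (6 * τ ^ 504506 + 2 * τ ^ 360255 * (4 * τ ^ 144251)) :=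
          mul_le_mul_of_nonneg_left (add_le_add le_rfl
            (mul_le_mul_of_nonneg_left g1 (mul_nonneg zero_le_two (p _)))) c1
      _ = a * σ * √n * (14 * τ ^ 504506) := by ring
      _ ≤ _ := mul_le_mul_of_nonneg_left (cpow τ14 τ1 (by norm_num)) c1
  · calc _ = a * σ * (2 * τ ^ 288127 * (1 + 3 * τ ^ 144251)) := by ring
      _ ≤ a * σ * (2 * τ ^ 288127 * (4 * τ ^ 144251)) := mul_le_mul_of_nonneg_left
          (mul_le_mul_of_nonneg_left g1 (mul_nonneg zero_le_two (p _))) c0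
      _ = a * σ * (8 * τ ^ 432378) := by ring
      _ ≤ _ := mul_le_mul_of_nonneg_left (cpow (by linarith) τ1 (by norm_num)) c0
  · calc _ = a * σ * (6 * τ ^ 720505 + 2 * τ ^ 576254 * (1 + 3 * τ ^ 144251)) := by ring
      _ ≤ a * σ * (6 * τ ^ 720505 + 2 * τ ^ 576254 * (4 * τ ^ 144251)) :=
          mul_le_mul_of_nonneg_left (add_le_add le_rfl
            (mul_le_mul_of_nonneg_left g1 (mul_nonneg zero_le_two (p _)))) c0
      _ = a * σ * (14 * τ ^ 720505) := by ring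
      _ ≤ _ := mul_le_mul_of_nonneg_left (cpow τ14 τ1 (by norm_num)) c0

end Vale.Agent.N150.T2P
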