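import Vale.Agent.N150.T2M4a
import Vale.Agent.N150.T2P4

/-! Block T2, part M4: proof of `T2.M4Stmt` from `M2Stmt` and `M3Stmt`. -/

namespace Vale.Agent.N150.T2M4

open Matrix MeasureTheory Set Filter Topology
open Vale.Agent.P150 Vale.Agent.P150.F Vale.Agent.N150.Sp
open Vale.Agent.N150.Haar (fro fro_nonneg fro_zero fro_transpose)
open Vale.Agent.N150.Wd Vale.Agent.N150.T2

/-! ### arithmetic -/

section Num

variable {u x r ρ γ s : ℝ}

theorem pw (hu : 10000 ≤ u) {a b : ℕ} (h : a ≤ b) : u ^ a ≤ u ^ b :=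
  pow_le_pow_right₀ (by linarith) h

theorem cw (hu : 10000 ≤ u) {C : ℝ} (hC : C ≤ 10000) {a b : ℕ} (h : a + 1 ≤ b) :
    C * u ^ a ≤ u ^ b := T2P.cpow (hC.trans hu) (by linarith) h

/-- `C x r u ^ (a + 260000) / γ ≤ 2 C u ^ a` -/
theorem dv (hu : 10000 ≤ u) (r1 : 1 ≤ r) (hx : r ^ 2 * u ^ 260000 ≤ x) (hγ : x * x / 2 ≤ γ)
    {C y : ℝ} (hC : 0 ≤ C) (a : ℕ) (hy : y ≤ C * (x * r * (u ^ a * u ^ 260000))) :
    y / γ ≤ 2 * C * u ^ a := by
  have u0 : 0 < u := by linarith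
  have h1 : r * u ^ 260000 ≤ x :=
    (mul_le_mul_of_nonneg_right (le_self_pow₀ r1 two_ne_zero) (pow_pos u0 _).le).trans hx
  have x0 : 0 < x := (mul_pos (by linarith) (pow_pos u0 _)).trans_le h1
  have p0 := (pow_pos u0 a).le
  rw [div_le_iff₀ (lt_of_lt_of_le (by positivity) hγ)]
  generalize u ^ a = v at *
  generalize u ^ 260000 = w at *
  calc y ≤ C * v * x * (r * w) := by linarith
    _ ≤ C * v * x * x := mul_le_mul_of_nonneg_left h1 (by positivity)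
    _ = 2 * C * v * (x * x / 2) := by ring
    _ ≤ _ := mul_le_mul_of_nonneg_left hγ (by positivity)

theorem num (hu : 10000 ≤ u) (hs : u ^ 215999 * s = 1) (r1 : 1 ≤ r) (ρ1 : 1 ≤ ρ)
    (hx : r ^ 2 * u ^ 260000 ≤ x) (hγ : x * x / 2 ≤ γ) {e1 e2 e3 cv : ℝ} (h1 : e1 ≤ 1)
    (h2 : e2 ≤ 1) (h3 : e3 ≤ 1) (h0 : 0 ≤ e3) (h0' : 0 ≤ e1)
    (hc : cv ≤ 2049 * (x * u ^ 633350)) :
    ρ * ((u ^ 150) ^ 2 * (u ^ 144001) ^ 2) * u ^ 141000 +
      (u ^ 144001 * u ^ 150 * u ^ 144001 * (x * s)) ^ 2 / γ * (e3 + u ^ 141000 * (ρ * u ^ 150) +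
        2 * (u ^ 141000 * (ρ * (u ^ 150 * u ^ 144001))) +
        2 * ((e1 + 8 * u ^ 216300 * (u ^ 150) ^ 3 * (x * u ^ 72005) +
          8 * u ^ 216300 * (u ^ 150) ^ 2 * x * (2 * r * u ^ 291000)) / γ)) +
      (e2 + 8 * u ^ 216300 * (u ^ 150) ^ 3 * (u ^ 144001) ^ 4 * (x * s) +
        4 * u ^ 216300 * (u ^ 150) ^ 2 * (u ^ 144001) ^ 2 * (x * s) * (2 * r * u ^ 291000) +
        2 * cv) / γ ≤ 4 * (ρ * u ^ 429458) := by
  have u0 : 0 < u := by linarith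
  have u1 : 1 ≤ u := by linarith
  have x1 : 1 ≤ x :=
    (one_le_mul_of_one_le_of_one_le (one_le_pow₀ r1) (one_le_pow₀ u1)).trans hx
  have x0 : 0 ≤ x := by linarith
  have γ0 : 0 < γ := lt_of_lt_of_le (div_pos (mul_pos (by linarith) (by linarith)) two_pos) hγ
  have mon : ∀ {a b : ℕ}, a ≤ b → x * u ^ a ≤ x * r * u ^ b := fun h =>
    mul_le_mul (le_mul_of_one_le_right x0 r1) (pw hu h) (pow_pos u0 _).le
      (mul_nonneg x0 (by linarith))
  have mon1 : ∀ b : ℕ, 1 ≤ x * r * u ^ b := fun b =>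
    one_le_mul_of_one_le_of_one_le (one_le_mul_of_one_le_of_one_le x1 r1) (one_le_pow₀ u1)
  have mr : ∀ {a b : ℕ}, a ≤ b → u ^ a ≤ ρ * u ^ b := fun h =>
    (pw hu h).trans (le_mul_of_one_le_left (pow_pos u0 _).le ρ1)
  have mr' : ∀ {a b : ℕ}, a ≤ b → ρ * u ^ a ≤ ρ * u ^ b := fun h =>
    mul_le_mul_of_nonneg_left (pw hu h) (by linarith)
  have a1 : ρ * ((u ^ 150) ^ 2 * (u ^ 144001) ^ 2) * u ^ 141000 ≤ ρ * u ^ 429458 :=
    (le_of_eq (by ring)).trans (mr' (a := 429302) (by norm_num))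
  have a2 : (u ^ 144001 * u ^ 150 * u ^ 144001 * (x * s)) ^ 2 / γ ≤ 2 * u ^ 144306 := by
    rw [div_le_iff₀ γ0]
    calc _ = x * x * u ^ 144306 * (u ^ 215999 * s) ^ 2 := by ring
      _ = 2 * u ^ 144306 * (x * x / 2) := by rw [hs]; ring
      _ ≤ _ := mul_le_mul_of_nonneg_left hγ (mul_nonneg zero_le_two (pow_pos u0 _).le)
  have a3 : (e1 + 8 * u ^ 216300 * (u ^ 150) ^ 3 * (x * u ^ 72005) +
      8 * u ^ 216300 * (u ^ 150) ^ 2 * x * (2 * r * u ^ 291000)) / γ ≤ 2 * 25 * u ^ 247600 := by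
    refine dv hu r1 hx hγ (by norm_num) _ ?_
    have b1 := mon1 507600
    have b2 := mon (a := 288755) (b := 507600) (by norm_num)
    have e1 : 8 * u ^ 216300 * (u ^ 150) ^ 3 * (x * u ^ 72005) = 8 * (x * u ^ 288755) := by ring
    have e2 : 8 * u ^ 216300 * (u ^ 150) ^ 2 * x * (2 * r * u ^ 291000) =
      16 * (x * r * u ^ 507600) := by ring
    rw [e1, e2, ← pow_add, show 247600 + 260000 = 507600 from rfl]
    linarith
  have a4 : (e2 + 8 * u ^ 216300 * (u ^ 150) ^ 3 * (u ^ 144001) ^ 4 * (x * s) +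
      4 * u ^ 216300 * (u ^ 150) ^ 2 * (u ^ 144001) ^ 2 * (x * s) * (2 * r * u ^ 291000) +
      2 * cv) / γ ≤ 2 * 4115 * u ^ 373350 := by
    refine dv hu r1 hx hγ (by norm_num) _ ?_
    have b1 := mon1 633350
    have b2 := mon (a := 576755) (b := 633350) (by norm_num)
    have b3 := mon (a := 633350) (b := 633350) le_rfl
    have b4 : x * r * u ^ 579603 ≤ x * r * u ^ 633350 :=
      mul_le_mul_of_nonneg_left (pw hu (by norm_num)) (mul_nonneg x0 (by linarith))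
    have e1 : 8 * u ^ 216300 * (u ^ 150) ^ 3 * (u ^ 144001) ^ 4 * (x * s) =
        8 * (x * u ^ 576755) := by
      calc _ = 8 * (x * u ^ 576755) * (u ^ 215999 * s) := by ring
        _ = _ := by rw [hs, mul_one]
    have e2 : 4 * u ^ 216300 * (u ^ 150) ^ 2 * (u ^ 144001) ^ 2 * (x * s) * (2 * r * u ^ 291000) =
        8 * (x * r * u ^ 579603) := by
      calc _ = 8 * (x * r * u ^ 579603) * (u ^ 215999 * s) := by ring
        _ = _ := by rw [hs, mul_one]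
    rw [e1, e2, ← pow_add, show 373350 + 260000 = 633350 from rfl]
    linarith
  have a5 : 2 * 4115 * u ^ 373350 ≤ ρ * u ^ 429458 :=
    (cw hu (by norm_num) (b := 429458) (by norm_num)).trans (mr le_rfl)
  have n3 : 0 ≤ (e1 + 8 * u ^ 216300 * (u ^ 150) ^ 3 * (x * u ^ 72005) +
      8 * u ^ 216300 * (u ^ 150) ^ 2 * x * (2 * r * u ^ 291000)) / γ := by
    have : 0 ≤ r := by linarith
    positivity
  generalize (e1 + 8 * u ^ 216300 * (u ^ 150) ^ 3 * (x * u ^ 72005) +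
      8 * u ^ 216300 * (u ^ 150) ^ 2 * x * (2 * r * u ^ 291000)) / γ = z at a3 n3 ⊢
  have e4 : u ^ 141000 * (ρ * u ^ 150) = ρ * u ^ 141150 := by ring
  have e5 : u ^ 141000 * (ρ * (u ^ 150 * u ^ 144001)) = ρ * u ^ 285151 := by ring
  rw [e4, e5]
  have b1 := mr' (a := 141150) (b := 285151) (by norm_num)
  have b2 := mr (a := 247600) (b := 285151) (by norm_num)
  have b3 := mr (a := 0) (b := 285151) (by norm_num)
  have b4 : 104 * (ρ * u ^ 285151) ≤ ρ * u ^ 285152 := by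
    rw [mul_left_comm]
    exact mul_le_mul_of_nonneg_left (cw hu (by norm_num) le_rfl) (by linarith)
  have b5 : 0 ≤ ρ * u ^ 141150 := mul_nonneg (by linarith) (pow_pos u0 _).le
  rw [pow_zero] at b3
  have a6 := mul_le_mul a2 (show e3 + ρ * u ^ 141150 + 2 * (ρ * u ^ 285151) + 2 * z ≤
    ρ * u ^ 285152 by linarith) (by linarith) (mul_nonneg zero_le_two (pow_pos u0 _).le)
  have e6 : 2 * u ^ 144306 * (ρ * u ^ 285152) = 2 * (ρ * u ^ 429458) := by ring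
  rw [e6] at a6
  linarith

theorem close {N w y z b al De ta : ℝ} (hu : 10000 ≤ u) (n0 : 0 < N) (r1 : 1 ≤ r) (ρ1 : 1 ≤ ρ)
    (kx : r ^ 2 * u ^ 260000 ≤ w) (hγ : N / 2 ≤ γ) (hN : |y - z / γ * b| ≤ 4 * (ρ * u ^ 429458))
    (bx : |z| ≤ N * u ^ 144306) (a3 : w * |b - al * De| ≤ u ^ 216250) (a4 : w * |al| ≤ u ^ 72200)
    (h3 : |z * De - ta * γ| ≤ N * r ^ 2 * u ^ 600000) : |y - al * ta| ≤ ρ * u ^ 430500 := by
  have u0 : 0 < u := by linarith
  have p0 : ∀ k : ℕ, 0 < u ^ k := fun k => pow_pos u0 k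
  have γ0 : 0 < γ := by linarith
  have k1 : u ^ 260000 ≤ w := (le_mul_of_one_le_left (p0 _).le (one_le_pow₀ r1)).trans kx
  have s1 : |z / γ| ≤ 2 * u ^ 144306 := by
    rw [abs_div, abs_of_pos γ0, div_le_iff₀ γ0]
    have := mul_le_mul_of_nonneg_left hγ (p0 144306).le
    linarith
  have s2 : |b - al * De| ≤ 1 := by
    refine le_of_mul_le_mul_left (a3.trans ?_) ((p0 _).trans_le k1)
    rw [mul_one]
    exact (pw hu (by norm_num)).trans k1
  have s3 : |(z * De - ta * γ) / γ| ≤ 2 * (r ^ 2 * u ^ 600000) := by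
    rw [abs_div, abs_of_pos γ0, div_le_iff₀ γ0]
    have := mul_le_mul_of_nonneg_left hγ (mul_pos (pow_pos (zero_lt_one.trans_le r1) 2)
      (p0 600000)).le
    linarith
  have s4 : |al| * (2 * (r ^ 2 * u ^ 600000)) ≤ 2 * u ^ 412200 := by
    have a5 : r ^ 2 * u ^ 260000 * |al| ≤ u ^ 72200 :=
      (mul_le_mul_of_nonneg_right kx (abs_nonneg _)).trans a4
    calc _ = 2 * u ^ 340000 * (r ^ 2 * u ^ 260000 * |al|) := by ring
      _ ≤ 2 * u ^ 340000 * u ^ 72200 := mul_le_mul_of_nonneg_left a5 (mul_pos two_pos (p0 _)).le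
      _ = _ := by ring
  have e : y - al * ta = (y - z / γ * b) + (z / γ * (b - al * De) + al * ((z * De - ta * γ) / γ)) := by
    field_simp; ring
  have s5 : |z / γ * (b - al * De)| ≤ 2 * u ^ 144306 * 1 := by
    rw [abs_mul]; exact mul_le_mul s1 s2 (abs_nonneg _) (mul_pos two_pos (p0 _)).le
  have s6 : |al * ((z * De - ta * γ) / γ)| ≤ 2 * u ^ 412200 := by
    rw [abs_mul]; exact (mul_le_mul_of_nonneg_left s3 (abs_nonneg _)).trans s4
  have s7 : ∀ {a : ℕ}, a ≤ 429458 → u ^ a ≤ ρ * u ^ 429458 := fun ha =>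
    (pw hu ha).trans (le_mul_of_one_le_left (p0 _).le ρ1)
  have s8 := s7 (a := 144306) (by norm_num)
  have s9 := s7 (a := 412200) (by norm_num)
  have s10 : 8 * (ρ * u ^ 429458) ≤ ρ * u ^ 430500 := by
    rw [mul_left_comm]
    exact mul_le_mul_of_nonneg_left (cw hu (by norm_num) (by norm_num)) (by linarith)
  rw [e]
  refine (abs_add_le _ _).trans ((add_le_add hN ((abs_add_le _ _).trans
    (add_le_add s5 s6))).trans ?_)
  linarith

end Num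

/-! ### the instance -/

variable {n : ℕ} {t : ℝ} {D : Fd n} {Gd : Set (OG n)}

instance (D : Fd n) : IsProbabilityMeasure D.mu :=
  Measure.isProbabilityMeasure_map (measurable_const_mul D.O0).aemeasurable

section

variable (h : Fr t D) (ht : 0 < t) (hu : 10000 ≤ t⁻¹)
include h ht

theorem big : t⁻¹ ^ 564000 ≤ n := by
  rw [inv_pow, ← one_div, div_le_iff₀ (pow_pos ht _)]; exact h.big

include hu

theorem key : D.r ^ 2 * t⁻¹ ^ 260000 ≤ √n := by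
  have r0 : 0 ≤ D.r := zero_le_one.trans h.r1
  have b := big h ht
  have u0 : 0 ≤ t⁻¹ := by linarith
  have n1 : (1 : ℝ) ≤ n := (one_le_pow₀ (by linarith)).trans b
  refine le_of_pow_le_pow_left₀ (n := 100) (by norm_num) (Real.sqrt_nonneg _) ?_
  have e1 : (D.r ^ 2) ^ 100 ≤ (n : ℝ) ^ 2 := by
    rw [← pow_mul, mul_comm, pow_mul]; exact pow_le_pow_left₀ (pow_nonneg r0 _) h.rn 2
  have e2 : (t⁻¹ ^ 260000) ^ 100 ≤ (n : ℝ) ^ 47 := by
    refine le_trans ?_ (pow_le_pow_left₀ (pow_nonneg u0 _) b 47)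
    rw [← pow_mul, ← pow_mul]; exact pw hu (by norm_num)
  have e3 : √(n : ℝ) ^ 100 = (n : ℝ) ^ 50 := by
    rw [show 100 = 2 * 50 from rfl, pow_mul, Real.sq_sqrt (by linarith)]
  rw [mul_pow, e3]
  refine (mul_le_mul e1 e2 (pow_nonneg (pow_nonneg u0 _) _) (by positivity)).trans ?_
  rw [← pow_add]
  exact pow_le_pow_right₀ n1 (by norm_num)

theorem le_n {C : ℝ} (hC : C ≤ 10000) {a : ℕ} (ha : a + 1 ≤ 564000) : C * t⁻¹ ^ a ≤ n :=
  (cw hu hC ha).trans (big h ht)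

theorem le_x {C : ℝ} (hC : C ≤ 10000) {a : ℕ} (ha : a + 1 ≤ 260000) :
    D.r * (C * t⁻¹ ^ a) ≤ √n := by
  have r0 : 0 ≤ D.r := zero_le_one.trans h.r1
  refine (mul_le_mul_of_nonneg_left (cw hu hC ha) r0).trans (le_trans ?_ (key h ht hu))
  exact mul_le_mul_of_nonneg_right (le_self_pow₀ h.r1 two_ne_zero) (pow_nonneg (by linarith) _)

theorem x_big : 10000 * D.r ≤ √n := by
  have := le_x h ht hu (C := 10000) le_rfl (a := 0) (by norm_num)
  rwa [pow_zero, mul_one, mul_comm] at this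

theorem x_le : √(n : ℝ) ≤ n / 10000 := by
  have h1 := x_big h ht hu
  have h2 := h.r1
  have h3 := Real.mul_self_sqrt (Nat.cast_nonneg (α := ℝ) n)
  nlinarith

theorem n_big : (10000 : ℝ) ≤ n := by
  have h1 := x_big h ht hu
  have h2 := h.r1
  have h3 := x_le h ht hu
  linarith

theorem le_sq {C : ℝ} (hC : C ≤ 10000) {a : ℕ} (ha : a + 1 ≤ 564000) :
    C * t⁻¹ ^ a * √n ≤ (n : ℝ) ^ 2 := by
  have h1 := x_le h ht hu
  have h2 := n_big h ht hu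
  rw [pow_two]
  exact mul_le_mul (le_n h ht hu hC ha) (by linarith) (Real.sqrt_nonneg _) (by linarith)

theorem tiny {a : ℕ} (ha : a ≤ 225) : ((n : ℝ) ^ 2) ^ a * √((n : ℝ) ^ 900)⁻¹ ≤ 1 := by
  have h2 : (1 : ℝ) ≤ n := by linarith [n_big h ht hu]
  rw [Real.sqrt_inv, show 900 = 450 * 2 from rfl, pow_mul, Real.sqrt_sq (by positivity),
    ← pow_mul, ← div_eq_mul_inv, div_le_one (by positivity)]
  exact pow_le_pow_right₀ h2 (by omega)

theorem tiny' {y : ℝ} (hy : y ≤ (n : ℝ) ^ 5) : y * ((n : ℝ) ^ 900)⁻¹ ≤ 1 := by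
  have h2 : (1 : ℝ) ≤ n := by linarith [n_big h ht hu]
  rw [← div_eq_mul_inv, div_le_one (by positivity)]
  exact hy.trans (pow_le_pow_right₀ h2 (by norm_num))

theorem three_le {y z : ℝ} (y0 : 0 ≤ y) (z0 : 0 ≤ z) (hy : y ≤ (n : ℝ) ^ 2)
    (hz : z ≤ (n : ℝ) ^ 2) : 3 * y * z * ((n : ℝ) ^ 900)⁻¹ ≤ 1 := by
  have h2 := n_big h ht hu
  refine tiny' h ht hu ?_
  calc 3 * y * z ≤ n * (n : ℝ) ^ 2 * (n : ℝ) ^ 2 := by gcongr; linarith
    _ = _ := by ring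

end

section

variable (h : Core t D Gd) (ht : 0 < t) (hu : 10000 ≤ t⁻¹)
include h ht hu

omit h ht in
theorem t_le : t ≤ 1 / 10000 := by
  rw [one_div]; exact le_inv_of_le_inv₀ (by norm_num) hu

theorem c_ge : (n : ℝ) / 256 ≤ (D.Pi.trace - 2) / 128 := by
  have := h.si.cor
  have := x_big h.fr ht hu
  have := x_le h.fr ht hu
  have := n_big h.fr ht hu
  linarith

theorem conc : Conc D.mu ((D.Pi.trace - 2) / 128) := by
  have := c_ge h ht hu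
  have := n_big h.fr ht hu
  exact (conc_haarP h.si.proj.symm h.si.proj.idem (by linarith)).map_mul_left _

theorem div_c {y z : ℝ} (hz : 0 ≤ z) (hy : y ≤ z * n) : y / ((D.Pi.trace - 2) / 128) ≤ 256 * z := by
  have := c_ge h ht hu
  have := n_big h.fr ht hu
  rw [div_le_iff₀ (by linarith)]
  nlinarith

omit ht hu in
theorem com (φ : ℕ → ℝ) {O : OG n} (hO : O ∈ Gd) :
    D.Pi * JO (fun a => φ (D.lab a)) O = JO (fun a => φ (D.lab a)) O * D.Pi := by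
  obtain ⟨U, hU, rfl⟩ := h.fib O hO
  have e1 := HG_comm h.si.proj.symm hU
  have e2 : D.Pi * U.1ᵀ = U.1ᵀ * D.Pi := by
    simpa only [transpose_mul, h.si.proj.symm] using congrArg transpose e1
  rw [T1.JO_rot, ← mul_assoc, ← mul_assoc, e2, mul_assoc U.1ᵀ, h.si.blk, mul_assoc _ U.1, e1]
  simp only [mul_assoc]

theorem raw {O : OG n} {M : Mat n} {b : ℝ} (hb : 0 ≤ b) (hM : OpLe (D.Hi O * M * D.Hi O) b) :
    OpLe M (t⁻¹ ^ 144001 * b * t⁻¹ ^ 144001) := by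
  have si := T2P.hs_hi h.fr ht O
  have os := T2P.op_hs h.fr ht (by linarith [t_le hu]) O
  have a0 : 0 ≤ t⁻¹ ^ 144001 := pow_nonneg (by linarith) _
  have e : M = D.Hs O * (D.Hi O * M * D.Hi O) * D.Hs O := by
    calc M = D.Hs O * D.Hi O * M * (D.Hi O * D.Hs O) := by
          rw [si, mul_eq_one_comm.1 si, one_mul, mul_one]
      _ = _ := by simp only [mul_assoc]
  rw [e]
  exact (os.mulN hM a0 hb).mulN os (mul_nonneg a0 hb) a0

theorem ok : Ok D.Pi Gd ((n : ℝ) ^ 2) D.A0 0 D.Th := by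
  have n1 := n_big h.fr ht hu
  have u0 : 0 ≤ t⁻¹ := by linarith
  have t1 := t_le hu
  refine ⟨h.si.proj.symm, h.si.proj.idem, diagonal_transpose _, transpose_zero, h.si.sT,
    by nlinarith, by nlinarith, ?_, by rw [fro_zero]; positivity, ?_,
    fun O hO => (h.pt O hO).unit, fun O hO => ?_⟩
  · have w1 : 1 / 2 ≤ D.w := by
      have := h.fr.wlo
      have : t ^ 143990 ≤ t ^ 1 := pow_le_pow_of_le_one ht.le (by linarith) (by norm_num)
      rw [pow_one] at this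
      linarith
    have w2 : D.w⁻¹ ≤ 2 := inv_le_of_inv_le₀ (by norm_num) (by rwa [← one_div])
    have w3 : 0 ≤ D.w⁻¹ := inv_nonneg.2 (by linarith)
    have o : OpLe D.A0 9 := by
      have := T1.opLe_JO (u := fun a => D.nu a - D.w⁻¹) (c := 9) (fun a => ?_) 1
      · rwa [T1.JO_id] at this
      · have := h.fr.nhi a
        have := (T2P.del_pos h.fr ht).trans_le (h.fr.nlo a)
        rw [abs_le]; constructor <;> linarith
    have := le_sq h.fr ht hu (C := 9) (by norm_num) (a := 0) (by norm_num)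
    rw [pow_zero, mul_one] at this
    exact (fro_op (by norm_num) o).trans this
  · have := le_sq h.fr ht hu (C := 2) (by norm_num) (a := 0) (by norm_num)
    rw [pow_zero, mul_one] at this
    exact (fro_op (by norm_num) h.si.oT).trans this
  · refine (fro_op (by positivity) (raw h ht hu (pow_nonneg u0 _) (h.pt O hO).iGa)).trans
      (le_trans (le_of_eq ?_) (le_sq h.fr ht hu (C := 1) (by norm_num) (a := 288122) (by norm_num)))
    ring

theorem p_lt : ((n : ℝ) ^ 900)⁻¹ < 1 :=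
  inv_lt_one_of_one_lt₀ (one_lt_pow₀ (by linarith [n_big h.fr ht hu]) (by norm_num))

theorem fb (hq : ∀ O ∈ Gd, QOK t D O) :
    Fb D.Pi D.A0 D.Th D.P0 D.Bh D.mu Gd D.Hs D.Hi ((n : ℝ) ^ 2) ((n : ℝ) ^ 900)⁻¹ (t⁻¹ ^ 150)
      (t⁻¹ ^ 144001) (√n * t⁻¹ ^ 72005) (√n * t ^ 215999) (t⁻¹ ^ 216300) (t⁻¹ ^ 141000)
      (t⁻¹ ^ 141000) := by
  have n1 := n_big h.fr ht hu
  have u0 : 0 ≤ t⁻¹ := by linarith
  have u1 : 1 ≤ t⁻¹ := by linarith
  have t1 : t ≤ 1 := by linarith [t_le hu]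
  have b3 : 3 ≤ t⁻¹ ^ 150 := by
    have := cw hu (C := 3) (by norm_num) (a := 0) (b := 150) (by norm_num)
    rwa [pow_zero, mul_one] at this
  have fP := T2P.fro_P0 h.fr ht t1
  refine ⟨ok h ht hu, (RI.haarP _).coset _, h.meas, h.mass, by positivity, (p_lt h ht hu).le,
    h.si.sB, diagonal_transpose _, T2P.P0_idem, one_le_pow₀ u1, pow_nonneg u0 _,
    h.si.oT.monoN zero_le_two (by linarith), ?_, ?_, ?_, fun O hO => ?_⟩
  · refine (mul_le_mul_of_nonneg_left h.si.bB (by linarith)).trans ?_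
    refine le_trans (le_of_eq ?_) ((le_n h.fr ht hu (C := 2) (by norm_num) (a := 216400)
      (by norm_num)).trans (by nlinarith))
    ring
  · refine fP.trans ((mul_le_of_le_one_right (Real.sqrt_nonneg _)
      (pow_le_one₀ ht.le t1)).trans ?_)
    have := x_le h.fr ht hu
    nlinarith
  · by_contra hne
    have := h.mass
    rw [not_nonempty_iff_eq_empty.1 hne, compl_empty, probReal_univ] at this
    exact absurd (p_lt h ht hu) (not_lt.2 this)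
  · have q := h.pt O hO
    have pT : (fr D.P0 O)ᵀ = fr D.P0 O := by rw [fr_transpose, Fd.P0, diagonal_transpose]
    exact ⟨⟨h.si.proj.symm, h.si.proj.idem, T1.JO_tr _ O, T1.JO_tr _ O, T2P.hs_hi h.fr ht O,
      com h (fun l => √(D.hf l)) hO⟩, q.iGa.monoN (pow_nonneg u0 _) (pw hu (by norm_num)), q.iG,
      q.iQ.monoN (pow_nonneg u0 _) (pw hu (by norm_num)),
      (T2P.op_hi h.fr ht O).monoN (by norm_num) b3, T2P.op_hs h.fr ht t1 O, T2P.fro_hh h.fr ht O,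
      op_proj pT (by rw [fr_mul, T2P.P0_idem]), by rw [fro_fr]; exact fP, (hq O hO).f0, q.fB,
      q.fBB⟩

/-- mean absolute deviation of a trace with `L ≤ 2 √n u ^ 216500` -/
theorem dev {g : OG n → ℝ} (mg : Measurable g) (hl : LipO Gd (2 * 1 * √n * t⁻¹ ^ 216500) g)
    (hb : ∀ O ∈ Gd, |g O| ≤ (n : ℝ) ^ 2) :
    ∫ O in Gd, |g O - ∫ O in Gd, g O ∂D.mu| ∂D.mu ≤ t⁻¹ ^ 216501 := by
  have n1 := n_big h.fr ht hu
  have u0 : 0 < t⁻¹ := by linarith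
  have c1 := c_ge h ht hu
  have x0 : 0 < √(n : ℝ) := Real.sqrt_pos.2 (by linarith)
  refine (mean_dev (conc h ht hu) (by linarith) h.meas h.mass mg
    (mul_pos (by positivity) (pow_pos u0 _)) (by positivity) hl hb).trans
    (Real.sqrt_le_iff.2 ⟨(pow_pos u0 _).le, ?_⟩)
  have a1 := three_le h.fr ht hu (by positivity) (by positivity) le_rfl le_rfl
  have a2 := div_c h ht hu (y := 2 * (2 * 1 * √n * t⁻¹ ^ 216500) * (2 * 1 * √n * t⁻¹ ^ 216500))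
    (z := 8 * t⁻¹ ^ 433000) (mul_nonneg (by norm_num) (pow_pos u0 _).le) (le_of_eq (by
      calc _ = 8 * t⁻¹ ^ 433000 * (√n * √n) := by ring
        _ = _ := by rw [Real.mul_self_sqrt (by linarith)]))
  have a3 := cw hu (C := 2049) (by norm_num) (a := 433000) (b := 216501 * 2) (by norm_num)
  have a4 : 1 ≤ t⁻¹ ^ 433000 := one_le_pow₀ (by linarith)
  rw [← pow_mul]
  linarith

/-- covariance of a trace with a small weight and a trace of `Ξ` -/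
theorem cov {g g' : OG n → ℝ} {a b : ℝ} (ha : 0 < a) (hb : 0 < b) (hab : a * b = 4)
    (hl : LipO Gd (a * t⁻¹ ^ 216250 * 1 * t⁻¹ ^ 432500) g)
    (hl' : LipO Gd (b * 1 * √n * t⁻¹ ^ 504600) g') (bg : ∀ O ∈ Gd, |g O| ≤ (n : ℝ) ^ 2)
    (bg' : ∀ O ∈ Gd, |g' O| ≤ (n : ℝ) ^ 2) :
    |∫ O in Gd, g O * g' O ∂D.mu - (∫ O in Gd, g O ∂D.mu) * ∫ O in Gd, g' O ∂D.mu| ≤
      2049 * (√n * t⁻¹ ^ 633350) := by
  have n1 := n_big h.fr ht hu
  have u0 : 0 < t⁻¹ := by linarith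
  have c1 := c_ge h ht hu
  have x0 : 0 < √(n : ℝ) := Real.sqrt_pos.2 (by linarith)
  have p0 : ∀ k : ℕ, 0 < t⁻¹ ^ k := fun k => pow_pos u0 k
  refine (cov_good (conc h ht hu) (by linarith) h.meas h.mass
    (mul_pos (mul_pos (mul_pos ha (p0 _)) one_pos) (p0 _))
    (mul_pos (mul_pos (mul_pos hb one_pos) x0) (p0 _)) (by positivity) (by positivity) hl hl' bg
    bg').trans ?_
  have a1 := three_le h.fr ht hu (by positivity) (by positivity) le_rfl le_rfl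
  have a2 := div_c h ht hu (y := 2 * (a * t⁻¹ ^ 216250 * 1 * t⁻¹ ^ 432500) *
    (b * 1 * √n * t⁻¹ ^ 504600)) (z := 8 * (√n * t⁻¹ ^ 633350))
    (mul_nonneg (by norm_num) (mul_pos x0 (p0 _)).le) (by
      calc _ = 2 * (a * b) * (√n * t⁻¹ ^ 633350) * t⁻¹ ^ 520000 := by ring
        _ = 8 * (√n * t⁻¹ ^ 633350) * t⁻¹ ^ 520000 := by rw [hab]; norm_num
        _ ≤ _ := mul_le_mul_of_nonneg_left ((pw hu (by norm_num)).trans (big h.fr ht))
          (mul_nonneg (by norm_num) (mul_pos x0 (p0 _)).le))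
  have a3 : 1 ≤ √n * t⁻¹ ^ 633350 := one_le_mul_of_one_le_of_one_le
    (Real.one_le_sqrt.2 (by linarith)) (one_le_pow₀ (by linarith))
  linarith

omit hu in
theorem lips (w₀ : OpLe (1 + (1 - D.Pi)) 2)
    (hL : ∀ (F S : Mat n) (a σ : ℝ), 0 ≤ a → 0 ≤ σ → OpLe S σ →
      (OpLe F a → LipO Gd (a * σ * √n * t⁻¹ ^ 216500) (D.phQ F S) ∧
        LipO Gd (a * σ * √n * t⁻¹ ^ 504600) (D.phX F S)) ∧
      (fro F ≤ a → LipO Gd (a * σ * t⁻¹ ^ 432500) (D.phQ F S) ∧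
        LipO Gd (a * σ * t⁻¹ ^ 720600) (D.phX F S))) :
    LipO Gd (2 * 1 * √n * t⁻¹ ^ 216500) (ga D.Pi D.A0 D.Th) ∧
    LipO Gd (2 * 1 * √n * t⁻¹ ^ 216500) (ka D.Pi D.A0 D.Th) ∧
    LipO Gd (2 * 1 * √n * t⁻¹ ^ 504600) (aa D.Pi D.A0 D.Th D.P0) ∧
    LipO Gd (1 * 1 * √n * t⁻¹ ^ 504600) (xx D.Pi D.A0 D.Th D.P0) ∧
    LipO Gd (2 * t⁻¹ ^ 216250 * 1 * t⁻¹ ^ 432500) (tq D.Pi D.A0 D.Th (D.Bh * (1 + (1 - D.Pi)))) ∧
    LipO Gd (4 * t⁻¹ ^ 216250 * 1 * t⁻¹ ^ 432500)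
      (tg D.Pi D.A0 D.Th (D.Bh * (1 + (1 - D.Pi)))) := by
  have p0 : ∀ k : ℕ, 0 < t⁻¹ ^ k := fun k => pow_pos (inv_pos.2 ht) k
  have oP := op_proj h.si.proj.symm h.si.proj.idem
  have lc : ∀ {L c : ℝ} {g g' : OG n → ℝ}, LipO Gd L g → (∀ O ∈ Gd, g' O = c + g O) →
      LipO Gd L g' := fun hg e U hU V hV => by
    rw [e U hU, e V hV, add_sub_add_left_eq_sub]; exact hg U hU V hV
  have eQ : ∀ (Y : Mat n) (O : OG n), D.phQ Y 1 O = (Y * Qm D.A0 D.Th O).trace := fun Y O => by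
    rw [Fd.phQ, fr_one, mul_one]; rfl
  have eX : ∀ (Y : Mat n) (O : OG n), D.phX Y 1 O = (Y * Xi D.A0 D.Th D.P0 O).trace :=
    fun Y O => by rw [Fd.phX, fr_one, mul_one]; rfl
  have eG : ∀ (Y : Mat n), ∀ O ∈ Gd, (Y * Ga D.A0 0 D.Th O).trace =
      Y.trace + (D.Th * Y * Qm D.A0 D.Th O).trace := fun Y O hO => by
    rw [Ga_eq (h.pt O hO).unit, mul_add, mul_one, trace_add, ← mul_assoc, trace_mul_comm _ D.Th,
      mul_assoc]
  have o1 : OpLe (D.Th * D.Pi) 2 := by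
    simpa only [mul_one] using h.si.oT.mulN oP zero_le_two zero_le_one
  have o2 : OpLe (D.Pi * D.Th) 2 := by
    simpa only [one_mul] using oP.mulN h.si.oT zero_le_one zero_le_two
  have f1 : fro (D.Pi * (D.Bh * (1 + (1 - D.Pi)))) ≤ 2 * t⁻¹ ^ 216250 :=
    (fro_l zero_le_one oP (fro_r zero_le_two w₀ h.si.bB)).trans (le_of_eq (by ring))
  have f2 : fro (D.Th * (D.Pi * (D.Bh * (1 + (1 - D.Pi))))) ≤ 4 * t⁻¹ ^ 216250 :=
    (fro_l zero_le_two h.si.oT f1).trans (le_of_eq (by ring))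
  have l1 : LipO Gd (2 * 1 * √n * t⁻¹ ^ 216500) (ga D.Pi D.A0 D.Th) :=
    lc ((hL _ 1 2 1 zero_le_two zero_le_one opLe_one).1 o1).1 fun O hO => by
      rw [eQ]; exact eG D.Pi O hO
  have l2 : LipO Gd (2 * 1 * √n * t⁻¹ ^ 216500) (ka D.Pi D.A0 D.Th) :=
    lc (c := 0) ((hL _ 1 2 1 zero_le_two zero_le_one opLe_one).1
      (oP.monoN zero_le_one one_le_two)).1 fun O _ => by rw [eQ, zero_add]; rfl
  have l3 : LipO Gd (2 * 1 * √n * t⁻¹ ^ 504600) (aa D.Pi D.A0 D.Th D.P0) :=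
    lc (c := 0) ((hL _ 1 2 1 zero_le_two zero_le_one opLe_one).1 o2).2 fun O _ => by
      rw [eX, zero_add, aa, mul_assoc]
  have l4 : LipO Gd (1 * 1 * √n * t⁻¹ ^ 504600) (xx D.Pi D.A0 D.Th D.P0) :=
    lc (c := 0) ((hL _ 1 1 1 zero_le_one zero_le_one opLe_one).1 oP).2 fun O _ => by
      rw [eX, zero_add]; rfl
  have l5 : LipO Gd (2 * t⁻¹ ^ 216250 * 1 * t⁻¹ ^ 432500)
      (tq D.Pi D.A0 D.Th (D.Bh * (1 + (1 - D.Pi)))) :=
    lc (c := 0) ((hL _ 1 _ 1 (mul_pos two_pos (p0 _)).le zero_le_one opLe_one).2 f1).1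
      fun O _ => by rw [eQ, zero_add, tq, trace_mul_comm, ← mul_assoc]
  have l6 : LipO Gd (4 * t⁻¹ ^ 216250 * 1 * t⁻¹ ^ 432500)
      (tg D.Pi D.A0 D.Th (D.Bh * (1 + (1 - D.Pi)))) :=
    lc ((hL _ 1 _ 1 (mul_pos four_pos (p0 _)).le zero_le_one opLe_one).2 f2).1
      fun O hO => by rw [eQ, tg, trace_mul_comm, ← mul_assoc]; exact eG _ O hO
  exact ⟨l1, l2, l3, l4, l5, l6⟩

theorem m4_core (hq : ∀ O ∈ Gd, QOK t D O)
    (hL : ∀ (F S : Mat n) (a σ : ℝ), 0 ≤ a → 0 ≤ σ → OpLe S σ →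
      (OpLe F a → LipO Gd (a * σ * √n * t⁻¹ ^ 216500) (D.phQ F S) ∧
        LipO Gd (a * σ * √n * t⁻¹ ^ 504600) (D.phX F S)) ∧
      (fro F ≤ a → LipO Gd (a * σ * t⁻¹ ^ 432500) (D.phQ F S) ∧
        LipO Gd (a * σ * t⁻¹ ^ 720600) (D.phX F S)))
    (hk : |D.E Gd D.ka| ≤ D.r * t⁻¹ ^ 291000) (hg : |D.E Gd D.ga - n| ≤ D.r * t⁻¹ ^ 291000)
    (h3 : |D.E Gd D.xx * D.Del - D.tau * D.E Gd D.ga| ≤ n * D.r ^ 2 * t⁻¹ ^ 600000) :
    |D.E Gd D.f - D.al * D.tau| ≤ √D.r * t⁻¹ ^ 430500 := by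
  have F := fb h ht hu hq
  have n1 := n_big h.fr ht hu
  have u0 : 0 < t⁻¹ := by linarith
  have p0 : ∀ k : ℕ, 0 < t⁻¹ ^ k := fun k => pow_pos u0 k
  have x0 : 0 < √(n : ℝ) := Real.sqrt_pos.2 (by linarith)
  have xx2 : √(n : ℝ) * √n = n := Real.mul_self_sqrt (by linarith)
  have r1 := h.fr.r1
  have ρ1 : 1 ≤ √D.r := Real.one_le_sqrt.2 r1
  have hs : t⁻¹ ^ 215999 * t ^ 215999 = 1 := by rw [← mul_pow, inv_mul_cancel₀ ht.ne', one_pow]
  obtain ⟨s₀, i₀, w₀⟩ := F.wt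
  obtain ⟨l1, l2, l3, l4, l5, l6⟩ := lips h ht w₀.two_op hL
  have bd1 : √n * (t⁻¹ ^ 144001 * t⁻¹ ^ 150 * t⁻¹ ^ 144001 * √n) ≤ (n : ℝ) ^ 2 := by
    calc _ = √n * √n * (1 * t⁻¹ ^ 288152) := by ring
      _ ≤ n * n := by
        rw [xx2]
        exact mul_le_mul_of_nonneg_left (le_n h.fr ht hu (by norm_num) (by norm_num)) (by linarith)
      _ = _ := (pow_two _).symm
  have bd2 : t⁻¹ ^ 216300 * (2 * (t⁻¹ ^ 150 * √n)) ≤ (n : ℝ) ^ 2 :=
    le_trans (le_of_eq (by ring)) (le_sq h.fr ht hu (C := 2) (by norm_num) (a := 216450)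
      (by norm_num))
  have eX2 : (t⁻¹ ^ 144001 * t⁻¹ ^ 150 * t⁻¹ ^ 144001 * (√n * t ^ 215999)) ^ 2 =
      n * t⁻¹ ^ 144306 := by
    generalize t ^ 215999 = s at hs
    calc _ = √n * √n * t⁻¹ ^ 144306 * (t⁻¹ ^ 215999 * s) ^ 2 := by ring
      _ = _ := by rw [hs, xx2, one_pow, mul_one]
  have bd3 : n * t⁻¹ ^ 144306 ≤ (n : ℝ) ^ 2 := by
    rw [pow_two]
    exact mul_le_mul_of_nonneg_left ((pw hu (by norm_num)).trans (big h.fr ht)) (by linarith)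
  have d1 := dev h ht hu (ms_ga _ _ _) l1 fun O hO =>
    ((F.pt O hO).tr_raw F.ha F.B0 (F.pt O hO).og).trans bd1
  have d2 := dev h ht hu (ms_ka _ _ _) l2 fun O hO =>
    ((F.pt O hO).tr_raw F.ha F.B0 (F.pt O hO).oq).trans bd1
  have c1 := cov h ht hu two_pos two_pos (by norm_num) l5 l3 (fun O hO =>
    ((F.pt O hO).wt.tr1 (F.pt O hO).f0 (F.pt O hO).wt.two_com zero_le_two w₀.two_op
      (fro_op F.B0 (F.pt O hO).oq)).trans bd2) fun O hO => ((F.abs_aa hO).trans_eq eX2).trans bd3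
  have c2 := cov h ht hu four_pos one_pos (by norm_num) l6 l4 (fun O hO =>
    ((F.pt O hO).wt.tr1 (F.pt O hO).f0 (F.pt O hO).wt.two_com zero_le_two w₀.two_op
      (fro_op F.B0 (F.pt O hO).og)).trans bd2) fun O hO => ((F.abs_xx hO).trans_eq eX2).trans bd3
  have bx := abs_mean (μ := D.mu) (mul_pos (by linarith) (p0 144306)).le
    fun O hO => (F.abs_xx hO).trans_eq eX2
  have q1 : t⁻¹ ^ 216501 ≤ D.r * t⁻¹ ^ 291000 :=
    (pw hu (by norm_num)).trans (le_mul_of_one_le_left (p0 _).le r1)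
  have dk : ∫ O in Gd, |ka D.Pi D.A0 D.Th O| ∂D.mu ≤ 2 * D.r * t⁻¹ ^ 291000 := by
    have hk' : |∫ O in Gd, ka D.Pi D.A0 D.Th O ∂D.mu| ≤ D.r * t⁻¹ ^ 291000 := hk
    generalize ∫ O in Gd, ka D.Pi D.A0 D.Th O ∂D.mu = k at hk' d2
    have j1 := (F.bd_ka.sub (Bd.const Gd k)).abs.int (μ := D.mu) h.meas
    have j2 := (Bd.const Gd |k|).int (μ := D.mu) h.meas
    have j3 := setIntegral_mono_on (F.bd_ka.abs.int (μ := D.mu) h.meas) (j1.add j2) h.meas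
      fun O _ => by
        show |ka D.Pi D.A0 D.Th O| ≤ |ka D.Pi D.A0 D.Th O - k| + |k|
        simpa only [sub_add_cancel] using abs_add_le (ka D.Pi D.A0 D.Th O - k) k
    have j4 : ∫ O in Gd, (|ka D.Pi D.A0 D.Th O - k| + |k|) ∂D.mu ≤ t⁻¹ ^ 216501 + |k| := by
      rw [integral_add j1 j2, setIntegral_const, smul_eq_mul]
      exact add_le_add d2 (mul_le_of_le_one_left (abs_nonneg _) measureReal_le_one)
    exact (j3.trans j4).trans (by linarith)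
  have hγ : √n * √n / 2 ≤ D.E Gd D.ga := by
    have a1 := le_x h.fr ht hu (C := 2) (by norm_num) (a := 31000) (by norm_num)
    have a2 : t⁻¹ ^ 260000 ≤ √n :=
      (le_mul_of_one_le_left (p0 _).le (one_le_pow₀ r1)).trans (key h.fr ht hu)
    have a3 := mul_le_mul a1 a2 (p0 _).le x0.le
    have e : D.r * (2 * t⁻¹ ^ 31000) * t⁻¹ ^ 260000 = 2 * (D.r * t⁻¹ ^ 291000) := by ring
    rw [e] at a3
    linarith [(abs_le.1 hg).1]
  have γ0 : 0 < D.E Gd D.ga := lt_of_lt_of_le (by positivity) hγ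
  have hβ : |D.Bh.trace| ≤ t⁻¹ ^ 216250 * √n := by
    simpa only [mul_one] using tr_le h.si.bB (fro_one (n := n)).le
  have M := F.main (γ := D.E Gd D.ga) (r := D.r) γ0 (by
      rw [trace_sub, trace_one, Fintype.card_fin]; linarith [h.si.cor]) hβ
    (d1.trans (q1.trans (by linarith [(mul_pos (zero_lt_one.trans_le r1) (p0 291000))]))) dk c1 c2
  have N := M.trans (num hu hs r1 ρ1 (key h.fr ht hu) hγ (tiny h.fr ht hu (by norm_num))
    (tiny h.fr ht hu (by norm_num)) (by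
      rw [mul_comm]
      refine tiny' h.fr ht hu (le_trans ?_ (pow_le_pow_right₀ (by linarith) (show 2 ≤ 5 by norm_num)))
      simpa only [one_mul] using le_sq h.fr ht hu (C := 1) (by norm_num) (a := 216250) (by norm_num))
    (mul_nonneg (by positivity) (mul_pos (p0 _) x0).le) (by positivity) le_rfl)
  change |D.E Gd D.f - D.E Gd D.xx / D.E Gd D.ga * D.Bh.trace| ≤ _ at N
  change |D.E Gd D.xx| ≤ _ at bx
  rw [xx2] at hγ
  exact close hu (by linarith) r1 ρ1 (key h.fr ht hu) hγ N bx h.si.a3 h.si.al h3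

end

theorem m4_of (hL : LipStmt) (h2 : M2Stmt) (h3 : M3Stmt) : M4Stmt := by
  have h0 : ∀ᶠ t in 𝓝[>] (0 : ℝ), t ∈ Ioo (0 : ℝ) (1 / 10000) := Ioo_mem_nhdsGT (by norm_num)
  filter_upwards [hL, h2, h3, h0] with t hL h2 h3 ht n D Gd h hq
  have hu : 10000 ≤ t⁻¹ := by
    rw [le_inv_comm₀ (by norm_num) ht.1, ← one_div]; exact ht.2.le
  exact m4_core h ht.1 hu hq (hL n D Gd h) (h2 n D Gd h).1 (h2 n D Gd h).2.1 (h3 n D Gd h)

theorem m4Stmt_of (h2 : M2Stmt) (h3 : M3Stmt) : M4Stmt := m4_of T2P.lipStmt h2 h3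

end Vale.Agent.N150.T2M4
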