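import Vale.Agent.N150.T2Q
import Vale.Agent.N150.T2Def
import Vale.Agent.N150.Pw

/-! Block Q of T2: `T2.QStmt`. -/

namespace Vale.Agent.N150.T2Q

open Matrix MeasureTheory Set
open Vale.Agent.P150 Vale.Agent.P150.F Vale.Agent.N150.Sp Vale.Agent.N150.Fib
open Vale.Agent.N150.Haar (fro fro_nonneg)
open Vale.Agent.N150.Wd
open Vale.Agent.N150.KB.Ch (fro_mul_l fro_mul_r op_fr op_diagonal)
open Vale.Agent.N150.T2 Vale.Agent.N150.Pw

variable {n : ℕ} {t : ℝ} {D : Fd n} {Gd : Set (OG n)}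

lemma fr_JO (u : Vec n) (O U : OG n) : fr (JO u O) U = JO u (O * U) := by
  simp only [fr, JO, OG.coe_mul, transpose_mul, mul_assoc]

lemma JO_mul' (u v : Vec n) (O : OG n) : JO u O * JO v O = JO (fun a => u a * v a) O := by
  have h := fr_mul (diagonal u) (diagonal v) O
  rwa [diagonal_mul_diagonal] at h

lemma JO_tr' (u : Vec n) (O : OG n) : (JO u O)ᵀ = JO u O := by
  have h := fr_transpose (diagonal u) O
  rwa [diagonal_transpose] at h

lemma hsq_diag (u : Vec n) : hsq (diagonal u) = ∑ a, u a ^ 2 :=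
  Finset.sum_congr rfl fun i _ => by
    rw [Finset.sum_eq_single i (fun j _ hj => by simp [diagonal_apply_ne' u hj]) (by simp),
      diagonal_apply_eq]

lemma fro_JO_le {u : Vec n} {f : ℝ} (hf : 0 ≤ f) (h : ∑ a, u a ^ 2 ≤ n * f ^ 2) (O : OG n) :
    fro (JO u O) ≤ √n * f := by
  refine (fro_fr (diagonal u) O).le.trans (Real.sqrt_le_iff.2 ⟨by positivity, ?_⟩)
  rw [mul_pow, Real.sq_sqrt (Nat.cast_nonneg n)]
  exact (hsq_diag u).le.trans h

lemma op_JO {u : Vec n} {c : ℝ} (hc : 0 ≤ c) (h : ∀ a, |u a| ≤ c) (O : OG n) : OpLe (JO u O) c :=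
  op_fr hc (op_diagonal hc h) O

lemma mu_real (D : Fd n) (S : Set (OG n)) :
    D.mu.real S = (haarP D.Pi).real {U | D.O0 * U ∈ S} :=
  congrArg ENNReal.toReal ((MeasurableEquiv.mulLeft D.O0).map_apply S)

section

variable (hs : Sm 2 t) (h : Fr t D)
include hs h

lemma inv_le_n : t⁻¹ ^ 564000 ≤ n := by
  rw [inv_pow, inv_le_iff_one_le_mul₀ (pow_pos hs.t0 _)]
  exact h.big

lemma n_big : (10000000 : ℝ) ≤ n := by
  have h1 := mul_le_mul_of_nonneg_left (hs.pmono (show 1 ≤ 564000 by norm_num)) (Nat.cast_nonneg n)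
  have h2 := mul_le_mul_of_nonneg_left hs.t1 (Nat.cast_nonneg (α := ℝ) n)
  rw [pow_one] at h1
  linarith [h.big]

omit hs in
lemma r_pow_le {k : ℕ} (hk : k ≤ 100) : D.r ^ k ≤ n := (pow_le_pow_right₀ h.r1 hk).trans h.rn

lemma hv_pos (a : Fin n) : 0 < D.hv a :=
  (mul_pos_iff_of_pos_right (((pow_pos hs.t0 _).trans_le h.dlo).trans_le (h.nlo a))).1
    (one_pos.trans_le (h.h1 a))

lemma sqrt_hv_le (a : Fin n) : |√(D.hv a)| ≤ t⁻¹ ^ 144001 := by
  rw [abs_of_nonneg (Real.sqrt_nonneg _), Real.sqrt_le_left (pow_nonneg (inv_pos.2 hs.t0).le _),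
    ← pow_mul, inv_pow, ← one_div, le_div_iff₀ (pow_pos hs.t0 _)]
  exact (mul_le_mul_of_nonneg_left ((hs.pmono (by norm_num)).trans h.dlo)
    (hv_pos hs h a).le).trans (h.h3 a)

lemma abs_Del (h' : Si t D) : |D.Del| ≤ 2 * n := by
  have n0 : (0 : ℝ) < n := by linarith [n_big hs h]
  have w1 : 1 / 2 ≤ D.w := by linarith [h.wlo, hs.small (hs.pow 143990) (by norm_num)]
  have a1 : hsq D.K0 ≤ n * (1 + 4 * t⁻¹ ^ 144010) := by
    rw [Fd.K0, hsq_diag]
    refine (Finset.sum_le_sum (g := fun a => 1 + 4 * D.hv a ^ 2) fun a _ => ?_).trans ?_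
    · have v0 := ((pow_pos hs.t0 _).trans_le h.dlo).trans_le (h.nlo a)
      have b1 : (D.nu a)⁻¹ ≤ D.hv a := by
        rw [inv_le_iff_one_le_mul₀ v0]; exact h.h1 a
      have b2 : (D.nu a)⁻¹ / D.w ≤ 2 * D.hv a := by
        rw [div_le_iff₀ (by linarith)]
        nlinarith [hv_pos hs h a]
      have b3 : 0 ≤ (D.nu a)⁻¹ / D.w := div_nonneg (inv_pos.2 v0).le (by linarith)
      nlinarith [pow_le_pow_left₀ b3 b2 2]
    · rw [Finset.sum_add_distrib, ← Finset.mul_sum]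
      simp only [Finset.sum_const, Finset.card_univ, Fintype.card_fin, nsmul_eq_mul]
      linarith [h.trH2]
  have p : ∀ A : Mat n, 0 ≤ hsq A := fun A => by unfold hsq; positivity
  have a2 := mul_le_mul a1 h'.fV (p _) ((p _).trans a1)
  have a3 := hs.le_one' (hs.mul (hs.add (Sm.of_le_one zero_le_one le_rfl)
    (hs.cmul 4 (by norm_num) (by norm_num) (hs.inv 144010))) (hs.pow 287990)) (by norm_num)
  have a4 : hsq D.K0 * hsq D.Vt / n ≤ n := by
    rw [div_le_iff₀ n0]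
    nlinarith [mul_le_mul_of_nonneg_left a3 (mul_pos n0 n0).le]
  have a5 : 0 ≤ hsq D.K0 * hsq D.Vt / n := div_nonneg (mul_nonneg (p _) (p _)) n0.le
  have a6 : D.w ^ 2 ≤ 1 := pow_le_one₀ (by linarith) h.whi
  rw [Fd.Del, abs_le]
  constructor <;> nlinarith [sq_nonneg D.w]

lemma sqrt_r : √D.r * t⁻¹ ^ 144050 ≤ √n := by
  have i0 := (inv_pos.2 hs.t0).le
  have r0 : 0 ≤ D.r := by linarith [h.r1]
  refine Real.le_sqrt_of_sq_le (le_of_pow_le_pow_left₀ (n := 4) (by norm_num) (Nat.cast_nonneg n) ?_)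
  rw [mul_pow, Real.sq_sqrt r0, mul_pow, ← pow_mul, ← pow_mul, pow_succ' (n : ℝ) 3]
  refine mul_le_mul (r_pow_le h (by norm_num)) ?_ (pow_nonneg i0 _) (Nat.cast_nonneg n)
  refine le_trans ?_ (pow_le_pow_left₀ (pow_nonneg i0 _) (inv_le_n hs h) 3)
  rw [← pow_mul]
  exact hs.le_inv (hs.inv _) _ (by norm_num)

lemma abs_tr_Pi (h' : Si t D) : |(D.Pi * D.Bh).trace| ≤ √n * t⁻¹ ^ 72201 := by
  have nb := n_big hs h
  have s1 : 1 ≤ √(n : ℝ) := Real.one_le_sqrt.2 (by linarith)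
  have s2 : √(n : ℝ) * √n = n := Real.mul_self_sqrt (by linarith)
  have r1 : 1 ≤ √D.r := Real.one_le_sqrt.2 h.r1
  have a1 : fro (1 - D.Pi) ≤ √D.r := by
    refine Real.le_sqrt_of_sq_le ?_
    rw [fro_sq_tr, h'.proj.compl.1, h'.proj.compl.2, trace_sub, trace_one, Fintype.card_fin]
    linarith [h'.cor]
  have a2 := abs_tr_le (1 - D.Pi) D.Bh
  rw [h'.proj.compl.1, sub_mul, one_mul, trace_sub] at a2
  have b0 := (hs.inv 216250).1
  have a3 := a2.trans (mul_le_mul a1 h'.bB (fro_nonneg _) (Real.sqrt_nonneg _))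
  have a4 : |D.Bh.trace - D.al * D.Del| ≤ √D.r * t⁻¹ ^ 216250 := by
    nlinarith [h'.a3, abs_nonneg (D.Bh.trace - D.al * D.Del)]
  have a5 : |D.al * D.Del| ≤ 2 * (√n * t⁻¹ ^ 72200) := by
    rw [abs_mul]
    refine (mul_le_mul_of_nonneg_left (abs_Del hs h h') (abs_nonneg _)).trans ?_
    have a := mul_le_mul_of_nonneg_left h'.al (Real.sqrt_nonneg n)
    rw [← mul_assoc, s2] at a
    linarith
  have a6 : √D.r * t⁻¹ ^ 216250 ≤ √n * t⁻¹ ^ 72200 := by
    rw [show 216250 = 144050 + 72200 by norm_num, pow_add, ← mul_assoc]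
    exact mul_le_mul_of_nonneg_right (sqrt_r hs h) (hs.inv 72200).1
  have a7 := mul_le_mul_of_nonneg_left (hs.le_inv (hs.cmul 4 (by norm_num) (by norm_num)
    (hs.inv 72200)) 72201 (by norm_num)) (Real.sqrt_nonneg n)
  rw [abs_le] at *
  constructor <;> linarith [a3.1, a3.2, a4.1, a4.2, a5.1, a5.2]

lemma rho_le : √(3 / ((n : ℝ) / 300)) + √300 * t ^ 215999 ≤ t ^ 215998 := by
  have n0 : (0 : ℝ) < n := by linarith [n_big hs h]
  have a3 : √(3 / ((n : ℝ) / 300)) ≤ 30 * t ^ 215999 := by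
    refine Real.sqrt_le_iff.2 ⟨by linarith [(hs.pow 215999).1], ?_⟩
    rw [div_le_iff₀ (by positivity), mul_pow, ← pow_mul]
    have a := h.big.trans
      (mul_le_mul_of_nonneg_left (hs.pmono (show 215999 * 2 ≤ 564000 by norm_num)) n0.le)
    generalize t ^ (215999 * 2) = x at a ⊢
    linarith
  have a4 : √(300 : ℝ) ≤ 20 := Real.sqrt_le_iff.2 (by norm_num)
  have a5 := hs.le_pow (hs.cmul 50 (by norm_num) (by norm_num) (hs.pow 215999)) 215998 (by norm_num)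
  linarith [mul_le_mul_of_nonneg_right a4 (hs.pow 215999).1]

lemma r_le : D.r ≤ n / 1000 := by
  have nb := n_big hs h
  refine (abs_le_of_sq_le_sq' ((r_pow_le h (by norm_num)).trans ?_) (by linarith)).2
  nlinarith

end

lemma half_le (hs : Sm 2 t) (h : Core t D Gd) :
    1 / 2 ≤ (haarP D.Pi).real {U | D.O0 * U ∈ Gd} := by
  have nb := n_big hs h.fr
  have := (invOn_haarP D.Pi).prob
  have a1 := h.mass
  rw [mu_real] at a1
  have a2 := measureReal_union_le (μ := haarP D.Pi) {U | D.O0 * U ∈ Gd} {U | D.O0 * U ∈ Gdᶜ}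
  rw [show {U | D.O0 * U ∈ Gd} ∪ {U | D.O0 * U ∈ Gdᶜ} = univ from union_compl_self _,
    probReal_univ] at a2
  have a3 : ((n : ℝ) ^ 900)⁻¹ ≤ 2⁻¹ :=
    inv_anti₀ two_pos (le_trans (by linarith) (le_self_pow₀ (by linarith) (by norm_num)))
  linarith

/-- one application of the quartic lemma on a fibre -/
theorem one (hs : Sm 2 t) (h : Core t D Gd) (φ ψ : ℕ → ℝ) {o1 o2 g1 g2 f1 f2 f3 M F X : ℝ}
    (b1 : ∀ a, |φ (D.lab a)| ≤ o1) (b2 : ∀ a, |ψ (D.lab a)| ≤ o2) (p1 : 0 ≤ o1) (p2 : 0 ≤ o2)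
    (h1 : ∀ O ∈ Gd, fro (JO (fun a => φ (D.lab a)) O * D.Bh) ≤ g1)
    (h2 : ∀ O ∈ Gd, fro (JO (fun a => ψ (D.lab a)) O * D.Bh) ≤ g2) (z1 : 0 ≤ g1) (z2 : 0 ≤ g2)
    (q1 : ∑ a, φ (D.lab a) ^ 2 ≤ n * f1 ^ 2) (q2 : ∑ a, ψ (D.lab a) ^ 2 ≤ n * f2 ^ 2)
    (q3 : ∑ a, (φ (D.lab a) * ψ (D.lab a)) ^ 2 ≤ n * f3 ^ 2) (y1 : 0 ≤ f1) (y2 : 0 ≤ f2)
    (y3 : 0 ≤ f3) (hM : 0 < M) (m0 : t⁻¹ ^ 216250 * f1 * f2 ≤ M) (m1 : f2 * g1 ≤ M)
    (m2 : f1 * g2 ≤ M) (m3 : t⁻¹ ^ 72201 * f3 ≤ M)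
    (hF : ∀ O ∈ Gd, fro (JO (fun a => φ (D.lab a)) O * D.PB * D.Bh * D.PB *
      JO (fun a => ψ (D.lab a)) O) ≤ F)
    (hX : 18 * M + F + (o1 * g2 + o2 * g1) * t ^ 215998 ≤ X) :
    D.mu.real {O | O ∈ Gd ∧ X < fro (JO (fun a => φ (D.lab a)) O * D.Bh *
      JO (fun a => ψ (D.lab a)) O)} ≤ 2 * Real.exp (-(n * t ^ 431998)) := by
  have nb := n_big hs h.fr
  have n0 : (0 : ℝ) < n := by linarith
  have s0 := Real.sqrt_nonneg (n : ℝ)
  have s2 : √(n : ℝ) * √n = n := Real.mul_self_sqrt n0.le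
  have hP := h.si.proj.1
  have hPP := h.si.proj.2
  have r1 := r_le hs h.fr
  have tP := h.si.cor
  have := (invOn_haarP D.Pi).prob
  have hc := (conc_haarP hP hPP (by linarith)).mono (c' := n / 300) (by linarith)
  have u1 := fro_JO_le y1 q1 D.O0
  have u2 := fro_JO_le y2 q2 D.O0
  have u3 := fro_JO_le y3 q3 D.O0
  have key := quart hP hPP (Nat.cast_pos.1 n0) (by linarith) (RI.haarP D.Pi)
    ((invOn_haarP D.Pi).ae.mono fun _ hU => SG_le_HG hU) hc (by positivity) (JO_tr' _ D.O0)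
    (JO_tr' _ D.O0) h.si.sB (h.si.blk φ).symm (h.si.blk ψ).symm p1 p2 (op_JO p1 b1 _)
    (op_JO p2 b2 _) (half_le hs h) (fun U hU => (fr_JO _ _ U).symm ▸ h1 _ hU)
    (fun U hU => (fr_JO _ _ U).symm ▸ h2 _ hU) hM (t := √300 * t ^ 215999)
    (by
      have a := mul_le_mul (mul_le_mul h.si.bB u1 (fro_nonneg _) (hs.inv _).1) u2 (fro_nonneg _)
        (mul_nonneg (hs.inv _).1 (mul_nonneg s0 y1))
      refine a.trans (le_of_eq_of_le ?_ (mul_le_mul_of_nonneg_right m0 n0.le))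
      linear_combination (t⁻¹ ^ 216250 * f1 * f2) * s2)
    (by linarith [mul_le_mul_of_nonneg_right u2 z1, mul_le_mul_of_nonneg_right m1 s0])
    (by linarith [mul_le_mul_of_nonneg_right u1 z2, mul_le_mul_of_nonneg_right m2 s0])
    (by
      rw [JO_mul']
      have a := mul_le_mul (abs_tr_Pi hs h.fr h.si) u3 (fro_nonneg _) (mul_nonneg s0 (hs.inv _).1)
      refine a.trans (le_of_eq_of_le ?_ (mul_le_mul_of_nonneg_right m3 n0.le))
      linear_combination (t⁻¹ ^ 72201 * f3) * s2)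
    (mul_nonneg (Real.sqrt_nonneg _) (hs.pow _).1)
  rw [mul_pow, Real.sq_sqrt (by norm_num), ← pow_mul,
    show (n : ℝ) / 300 * (300 * t ^ (215999 * 2)) = n * t ^ 431998 by ring] at key
  rw [mu_real]
  refine le_trans (measureReal_mono fun U hU => ?_) key
  refine ⟨hU.1, ?_⟩
  obtain ⟨V, hV, e⟩ := h.fib _ hU.1
  obtain rfl : U = V := mul_left_cancel e
  have a1 := hF _ hU.1
  have a2 := hU.2
  rw [← fr_JO, ← fr_JO] at a1 a2
  rw [Fd.PB, mul_assoc _ (1 - D.Pi) (fr _ _), (fr_compl hP (h.si.blk φ).symm hV).1,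
    (fr_compl hP (h.si.blk ψ).symm hV).2, ← mul_assoc] at a1
  have a6 := rho_le hs h.fr
  linarith [mul_le_mul_of_nonneg_left a6 (add_nonneg (mul_nonneg p1 z2) (mul_nonneg p2 z1))]

lemma ind_mono (D : Fd n) {i j : ℕ} (hij : i ≤ j) (a : Fin n) : D.ind j a ≤ D.ind i a := by
  unfold Fd.ind
  split_ifs <;> first | omega | norm_num

lemma ind_sq (D : Fd n) (i : ℕ) (a : Fin n) : D.ind i a ^ 2 = D.ind i a := by
  unfold Fd.ind
  split_ifs <;> norm_num

lemma abs_ind (D : Fd n) (i : ℕ) (a : Fin n) : |D.ind i a| ≤ 1 := by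
  unfold Fd.ind
  split_ifs <;> norm_num

/-- **[Q]** -/
theorem qStmt : QStmt := by
  filter_upwards [ev_sm (L := 2) le_rfl] with t hs n D Gd h
  have n0 : (0 : ℝ) ≤ n := Nat.cast_nonneg n
  have hp := fun a => (hv_pos hs h.fr a).le
  have i := fun k => (hs.inv k).1
  have j := fun k => (hs.pow k).1
  have i0 : ∀ k : ℕ, 0 < t⁻¹ ^ k := fun k => pow_pos (inv_pos.2 hs.t0) k
  have c18 := fun {x : ℝ} {a : ℤ} (hx : Lp t x a) => hs.cmul 18 (by norm_num) (by norm_num) hx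
  have sq1 : ∀ {x : ℝ} {a : ℤ} (k : ℕ), Lp t x a → -((k * 2 : ℕ) : ℤ) ≤ a →
      n * x ≤ n * (t⁻¹ ^ k) ^ 2 := fun k hx hk => by
    rw [← pow_mul]; exact mul_le_mul_of_nonneg_left (hs.le_inv hx _ hk) n0
  have sq2 : ∀ {x : ℝ} {a : ℤ} (k : ℕ), Lp t x a → ((k * 2 : ℕ) : ℤ) ≤ a →
      n * x ≤ n * (t ^ k) ^ 2 := fun k hx hk => by
    rw [← pow_mul]; exact mul_le_mul_of_nonneg_left (hs.le_pow hx _ hk) n0
  have qH : ∑ a, √(D.hv a) ^ 2 ≤ n * (t⁻¹ ^ 3) ^ 2 := by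
    simp only [fun a => Real.sq_sqrt (hp a)]
    exact h.fr.trH1.trans (sq1 3 (hs.inv 5) (by norm_num))
  have qHH : ∑ a, (√(D.hv a) * √(D.hv a)) ^ 2 ≤ n * (t⁻¹ ^ 72005) ^ 2 := by
    simp only [fun a => Real.mul_self_sqrt (hp a)]
    exact h.fr.trH2.trans (sq1 72005 (hs.inv 144010) (by norm_num))
  have e1 := one hs h (fun l => if 144001 < l then 1 else 0) (fun l => √(D.hf l)) (X := t⁻¹ ^ 300)
    (F := t ^ 143999 * t⁻¹ ^ 141000) (M := t⁻¹ ^ 254) (f1 := t ^ 215999) (f3 := t ^ 71997)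
    (abs_ind D 144001) (sqrt_hv_le hs h.fr) zero_le_one (i _) (fun O hO => (h.pt O hO).bP)
    (fun O hO => (h.pt O hO).bH) (i _) (i _)
    (by
      refine (Finset.sum_le_sum fun a _ => (ind_sq D 144001 a).le.trans
        (ind_mono D (show 144000 ≤ 144001 by norm_num) a)).trans (le_of_mul_le_mul_left
          ((h.fr.cnt 144000 le_rfl).trans ?_) hs.t0)
      rw [mul_left_comm, ← pow_mul, ← pow_succ']
      exact mul_le_mul_of_nonneg_left (hs.pmono (by norm_num)) n0)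
    qH
    (by
      refine (Finset.sum_le_sum (g := fun a => D.ind 144000 a * D.hv a) fun a _ => ?_).trans
        ((h.fr.trH 144000 le_rfl).trans (sq2 71997 (hs.mul (hs.pow _) (hs.inv 5)) (by norm_num)))
      rw [mul_pow]
      exact mul_le_mul ((ind_sq D 144001 a).le.trans (ind_mono D (by norm_num) a))
        (Real.sq_sqrt (hp a)).le (sq_nonneg _) (((sq_nonneg _).trans (ind_sq D _ a).le)))
    (j _) (i _) (j _) (i0 _)
    (hs.le_inv (hs.mul (hs.mul (hs.inv _) (hs.pow _)) (hs.inv _)) _ (by norm_num))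
    (hs.le_inv (hs.mul (hs.inv _) (hs.inv _)) _ (by norm_num))
    (hs.le_inv (hs.mul (hs.pow _) (hs.inv _)) _ (by norm_num))
    (hs.le_inv (hs.mul (hs.inv _) (hs.pow _)) _ (by norm_num))
    (fun O hO => by
      have e : JO (fun a => if 144001 < D.lab a then (1 : ℝ) else 0) O =
          JO (fun a => D.ind 144001 a * (√(D.hv a))⁻¹) O * D.Hs O := by
        rw [Fd.Hs, JO_mul']
        congr 1
        funext a
        rw [mul_assoc, inv_mul_cancel₀ (Real.sqrt_pos.2 (hv_pos hs h.fr a)).ne', mul_one]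
        rfl
      have a := (h.pt O hO).fBB
      rw [e]
      simp only [mul_assoc] at a ⊢
      refine (fro_mul_l (j _) (op_JO (j _) (fun a => ?_) O) _).trans
        (mul_le_mul_of_nonneg_left a (j _))
      unfold Fd.ind
      split_ifs with hl
      · rw [one_mul, abs_of_nonneg (inv_nonneg.2 (Real.sqrt_nonneg _)), ← Real.sqrt_inv,
          Real.sqrt_le_left (j _), ← pow_mul, inv_le_iff_one_le_mul₀' (hv_pos hs h.fr a)]
        refine (h.fr.h1 a).trans (mul_le_mul_of_nonneg_left ?_ (hp a))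
        rw [h.fr.nV a hl]
        exact h.fr.dhi
      · rw [zero_mul, abs_zero]; exact j _)
    (hs.le_inv (hs.add (hs.add (c18 (hs.inv _)) (hs.mul (hs.pow _) (hs.inv _)))
      (hs.mul (hs.add (hs.mul (Sm.of_le_one zero_le_one le_rfl) (hs.inv _))
        (hs.mul (hs.inv _) (hs.inv _))) (hs.pow _))) _ (by norm_num))
  have e2 := one hs h (fun l => √(D.hf l)) (fun l => √(D.hf l) * if 2500 < l then 1 else 0)
    (X := t⁻¹ ^ 215050) (F := t⁻¹ ^ 141000) (M := t⁻¹ ^ 215006) (f2 := t ^ 1247)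
    (f3 := t⁻¹ ^ 72005) (o2 := t⁻¹ ^ 144001) (g2 := t ^ 1250 * t⁻¹ ^ 216250)
    (sqrt_hv_le hs h.fr)
    (fun a => by
      rw [abs_mul]
      exact (mul_le_of_le_one_right (abs_nonneg _) (abs_ind D 2500 a)).trans (sqrt_hv_le hs h.fr a))
    (i _) (i _) (fun O hO => (h.pt O hO).bH)
    (fun O hO => by
      have a := (h.pt O hO).bE
      rwa [Fd.Hs, Fd.Pl, JO_mul'] at a)
    (i _) (mul_nonneg (j _) (i _)) qH
    (by
      refine (Finset.sum_le_sum (g := fun a => D.ind 2500 a * D.hv a) fun a _ => ?_).trans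
        ((h.fr.trH 2500 (by norm_num)).trans
          (sq2 1247 (hs.mul (hs.pow _) (hs.inv 5)) (by norm_num)))
      rw [mul_pow, mul_comm]
      exact mul_le_mul (ind_sq D 2500 a).le (Real.sq_sqrt (hp a)).le (sq_nonneg _)
        (((sq_nonneg _).trans (ind_sq D _ a).le)))
    (by
      refine (Finset.sum_le_sum fun a _ => ?_).trans qHH
      rw [← mul_assoc, mul_pow]
      exact mul_le_of_le_one_right (sq_nonneg _)
        ((ind_sq D 2500 a).le.trans ((le_abs_self _).trans (abs_ind D 2500 a))))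
    (i _) (j _) (i _) (i0 _)
    (hs.le_inv (hs.mul (hs.mul (hs.inv _) (hs.inv _)) (hs.pow _)) _ (by norm_num))
    (hs.le_inv (hs.mul (hs.pow _) (hs.inv _)) _ (by norm_num))
    (hs.le_inv (hs.mul (hs.inv _) (hs.mul (hs.pow _) (hs.inv _))) _ (by norm_num))
    (hs.le_inv (hs.mul (hs.inv _) (hs.inv _)) _ (by norm_num))
    (fun O hO => by
      have a := fro_mul_r zero_le_one (op_JO zero_le_one (abs_ind D 2500) O)
        (D.Hs O * D.PB * D.Bh * D.PB * D.Hs O)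
      rw [one_mul, mul_assoc _ (D.Hs O), Fd.Hs, JO_mul'] at a
      exact a.trans (h.pt O hO).fBB)
    (hs.le_inv (hs.add (hs.add (c18 (hs.inv _)) (hs.inv _))
      (hs.mul (hs.add (hs.mul (hs.inv _) (hs.mul (hs.pow _) (hs.inv _)))
        (hs.mul (hs.inv _) (hs.inv _))) (hs.pow _))) _ (by norm_num))
  have e3 := one hs h (fun l => √(D.hf l)) (fun l => √(D.hf l))
    (X := t⁻¹ ^ 216300) (M := t⁻¹ ^ 216256) (sqrt_hv_le hs h.fr) (sqrt_hv_le hs h.fr)
    (i _) (i _) (fun O hO => (h.pt O hO).bH) (fun O hO => (h.pt O hO).bH) (i _) (i _) qH qH qHH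
    (i _) (i _) (i _) (i0 _)
    (hs.le_inv (hs.mul (hs.mul (hs.inv _) (hs.inv _)) (hs.inv _)) _ (by norm_num))
    (hs.le_inv (hs.mul (hs.inv _) (hs.inv _)) _ (by norm_num))
    (hs.le_inv (hs.mul (hs.inv _) (hs.inv _)) _ (by norm_num))
    (hs.le_inv (hs.mul (hs.inv _) (hs.inv _)) _ (by norm_num))
    (fun O hO => (h.pt O hO).fBB)
    (hs.le_inv (hs.add (hs.add (c18 (hs.inv _)) (hs.inv _))
      (hs.mul (hs.add (hs.mul (hs.inv _) (hs.inv _)) (hs.mul (hs.inv _) (hs.inv _))) (hs.pow _))) _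
      (by norm_num))
  have := (invOn_haarP D.Pi).prob
  have : IsProbabilityMeasure D.mu :=
    Measure.isProbabilityMeasure_map (measurable_const_mul _).aemeasurable
  have u := (measureReal_union_le (μ := D.mu) _ _).trans
    (add_le_add ((measureReal_union_le (μ := D.mu) _ _).trans (add_le_add e1 e2)) e3)
  refine le_trans (measureReal_mono fun O hO => ?_) (u.trans (by linarith))
  by_contra hc
  simp only [mem_union, mem_ofPred_eq, hO.1, true_and, not_or, not_lt] at hc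
  refine hO.2 ⟨hc.1.1, ?_, hc.2⟩
  rw [mul_assoc _ (D.Hs O), Fd.Hs, Fd.Pl, JO_mul',
    show t ^ 1200 * t⁻¹ ^ 216250 = t⁻¹ ^ 215050 by
      rw [show 216250 = 1200 + 215050 by norm_num, pow_add, ← mul_assoc, ← mul_pow,
        mul_inv_cancel₀ hs.t0.ne', one_pow, one_mul]]
  exact hc.1.2

end Vale.Agent.N150.T2Q
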