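import Vale.Agent.N150.D6b
import Vale.Agent.N150.T1Alg2
import Vale.Agent.N150.T1D4
import Vale.Agent.N150.T1Meas

/-! P150: the limit of the Picard orbit, a measurable exact solution of the EC equations. -/

open Matrix MeasureTheory Filter Topology

namespace Vale.Agent.N150.Tap

open Vale.Agent.P150 Vale.Agent.P150.F Vale.Agent.P150.F.Ms Vale.Agent.N150.EC
  Vale.Agent.N150.Sp Vale.Agent.N150.T1

variable {n : ℕ}

/-- the limit of the Picard orbit -/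
noncomputable def hl (J : Mat n) (y : Vec n) : Vec n :=
  fun i => liminf (fun j => it J y j i) atTop

theorem mv_hl {α : Type*} [MeasurableSpace α] {J : α → Mat n} {y : α → Vec n} (hJ : MMat J)
    (hy : MVec y) : MVec fun a => hl (J a) (y a) := fun i =>
  Measurable.liminf fun j => mv_it hJ hy j i

theorem ms_zh_hl {α : Type*} [MeasurableSpace α] {J : α → Mat n} {y : α → Vec n} (hJ : MMat J)
    (hy : MVec y) : Measurable fun a => zh (J a) (hl (J a) (y a)) :=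
  T1.ms_zh hJ (mv_hl hJ hy)

theorem geo_lim {u : ℕ → Vec n} {C r : ℝ} (hC : 0 ≤ C) (h0 : 0 ≤ r) (hr : r ≤ 1 / 2)
    (h : ∀ j, nv (u (j + 1) - u j) ≤ C * r ^ j) : ∃ a, ∀ j, nv (a - u j) ≤ 2 * C * r ^ j := by
  have h1 : r < 1 := by linarith
  have hd : ∀ j, dist (WithLp.toLp 2 (u j) : EuclideanSpace ℝ (Fin n)) (WithLp.toLp 2 (u (j + 1)))
      ≤ C * r ^ j := fun j => by
    rw [dist_comm, dist_eq_norm, ← WithLp.toLp_sub]
    exact h j
  obtain ⟨a, ha⟩ := cauchySeq_tendsto_of_complete (cauchySeq_of_le_geometric r C h1 hd)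
  refine ⟨a.ofLp, fun j => ?_⟩
  have h2 := dist_le_of_le_geometric_of_tendsto r C h1 hd ha j
  rw [dist_comm, dist_eq_norm] at h2
  have h3 : 0 ≤ C * r ^ j := mul_nonneg hC (pow_nonneg h0 j)
  have h4 : C * r ^ j / (1 - r) ≤ 2 * C * r ^ j := by
    rw [div_le_iff₀ (by linarith)]
    nlinarith
  exact h2.trans h4

theorem tendsto_of_nv {u : ℕ → Vec n} {a : Vec n} {e : ℕ → ℝ} (he : Tendsto e atTop (𝓝 0))
    (h : ∀ j, nv (a - u j) ≤ e j) (i : Fin n) : Tendsto (fun j => u j i) atTop (𝓝 (a i)) := by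
  rw [tendsto_iff_dist_tendsto_zero]
  refine squeeze_zero (fun _ => dist_nonneg) (fun j => ?_) he
  rw [dist_comm, Real.dist_eq]
  exact (abs_le_nv (a - u j) i).trans (h j)

theorem eq_zero_of_le {v : Vec n} {e : ℕ → ℝ} (he : Tendsto e atTop (𝓝 0))
    (h : ∀ j, nv v ≤ e j) : v = 0 := by
  have h1 : nv v ≤ 0 := ge_of_tendsto' he h
  funext i
  exact abs_nonpos_iff.1 ((abs_le_nv v i).trans h1)

section

variable {L t : ℝ} {S : Dat n} {O : OG n} (k : D6.Pk L t S O)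
include k

theorem r_half : t ^ 1000 ≤ 1 / 2 := by
  have h1 : 2 * t ^ 1000 ≤ t ^ 0 := k.sm.mon2 (k.sm.c (by norm_num)) _ _ (by norm_num)
  rw [pow_zero] at h1
  linarith

theorem geo_zero (c : ℝ) (a : ℕ) :
    Tendsto (fun j : ℕ => c * t ^ (a + 1000 * j)) atTop (𝓝 0) := by
  have h1 := r_half k
  have h2 := (tendsto_pow_atTop_nhds_zero_of_lt_one (k.p0 1000) (by linarith)).const_mul
    (c * t ^ a)
  rw [mul_zero] at h2
  refine h2.congr fun j => ?_
  rw [pow_add, pow_mul, mul_assoc]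

variable (g : Good t S O)
include g

/-- the rate of convergence, in the norm of `N^{1/2}` -/
theorem hl_rateN (j : ℕ) : nv (S.Nsq O *ᵥ (hl (S.J O) (S.y O) - S.h O (j + 3))) ≤
    √n * t ^ (399999 + 1000 * j) := by
  have o := k.out g
  have hs := k.sm
  obtain ⟨a, ha⟩ := geo_lim (u := fun j => S.Nsq O *ᵥ S.h O (j + 3)) (C := √n * t ^ 400000)
    (mul_nonneg (Real.sqrt_nonneg _) (k.p0 _)) (k.p0 1000) (r_half k) fun j => by
      have := o.step j
      rwa [Matrix.mulVec_sub, pow_add, pow_mul, ← mul_assoc] at this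
  have h1 : ∀ j, nv (S.Nsq O *ᵥ (S.Nis O *ᵥ a - S.h O (j + 3))) ≤
      √n * t ^ (399999 + 1000 * j) := fun j => by
    rw [Matrix.mulVec_sub, Matrix.mulVec_mulVec, D6.Nsq_Nis hs k.adm O, Matrix.one_mulVec]
    refine (ha j).trans ?_
    have h2 : 2 * t ^ (400000 + 1000 * j) ≤ t ^ (399999 + 1000 * j) :=
      hs.mon2 (hs.c (by norm_num)) _ _ (by omega)
    calc 2 * (√n * t ^ 400000) * (t ^ 1000) ^ j = √n * (2 * t ^ (400000 + 1000 * j)) := by
          rw [pow_add, pow_mul]; ring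
      _ ≤ _ := k.sc h2
  have h2 : ∀ j, nv (S.Nis O *ᵥ a - S.h O (j + 3)) ≤ √n * t ^ (255000 + 1000 * j) := fun j =>
    k.nv_le_N' (h1 j) (by omega)
  have h3 : hl (S.J O) (S.y O) = S.Nis O *ᵥ a := by
    funext i
    have h4 := tendsto_of_nv (geo_zero k √n 255000) h2 i
    exact ((tendsto_add_atTop_iff_nat (f := fun j => it (S.J O) (S.y O) j i) 3).1 h4).liminf_eq
  rw [h3]
  exact h1 j

/-- the rate of convergence -/
theorem hl_rate (j : ℕ) :
    nv (hl (S.J O) (S.y O) - S.h O (j + 3)) ≤ √n * t ^ (255000 + 1000 * j) :=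
  k.nv_le_N' (hl_rateN k g j) (by omega)

theorem hl_tendsto (i : Fin n) :
    Tendsto (fun j => it (S.J O) (S.y O) j i) atTop (𝓝 (hl (S.J O) (S.y O) i)) :=
  (tendsto_add_atTop_iff_nat (f := fun j => it (S.J O) (S.y O) j i) 3).1
    (tendsto_of_nv (geo_zero k √n 255000) (hl_rate k g) i)

theorem hl_near : nv (hl (S.J O) (S.y O) - S.h O 3) ≤ √n * t ^ 259000 := by
  have h1 := hl_rate k g 5
  have h2 := (k.out g).stay 5
  have h3 : 2 * t ^ 260000 ≤ t ^ 259000 := k.sm.mon2 (k.sm.c (by norm_num)) _ _ (by norm_num)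
  have h4 := k.sc h3
  have h5 := nv_sub_triangle (hl (S.J O) (S.y O)) (S.h O (5 + 3)) (S.h O 3)
  norm_num at h1 h2 h5
  linarith

theorem hl_ball : Ball t (S.J O) (S.y O) (hl (S.J O) (S.y O)) :=
  (hl_near k g).trans (k.sc (k.sm.pw (by norm_num)))

theorem it_ball (j : ℕ) : Ball t (S.J O) (S.y O) (S.h O (j + 3)) :=
  ((k.out g).stay j).trans (k.sc (k.sm.pw (by norm_num)))

theorem hl_hc : nv (hl (S.J O) (S.y O) - S.hc t O) ≤ √n * t ^ 258000 := by
  have h1 := hl_near k g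
  have h2 := g.base.clp.trans (k.sc (k.sm.pw (a := 259000) (by norm_num)))
  have h3 : 2 * t ^ 259000 ≤ t ^ 258000 := k.sm.mon2 (k.sm.c (by norm_num)) _ _ (by norm_num)
  have h4 := k.sc h3
  have h5 := nv_sub_triangle (hl (S.J O) (S.y O)) (S.h O 3) (S.hc t O)
  linarith

theorem hl_hc' : nv (hl (S.J O) (S.y O) - S.hc t O) ≤ √n * t ^ 252000 / 2 := by
  have h1 := hl_hc k g
  have h3 : 2 * t ^ 258000 ≤ t ^ 252000 := k.sm.mon2 (k.sm.c (by norm_num)) _ _ (by norm_num)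
  have h4 := k.sc h3
  linarith

theorem near_ball {h : Vec n} (hh : Ball t (S.J O) (S.y O) h) : D6.Near t S O (S.hc t O) h := by
  have h1 := g.base.clp.trans (k.sc (k.sm.pw (a := 252000) (by norm_num)))
  have h2 : nv (h - S.h O 3) ≤ √n * t ^ 252000 := hh
  exact ⟨by linarith only [nv_sub_triangle h (S.h O 3) (S.hc t O), h1, h2], (k.out g).reg h hh⟩

theorem hl_Near : D6.Near t S O (S.hc t O) (hl (S.J O) (S.y O)) := near_ball k g (hl_ball k g)

theorem hl_reg : Reg t (S.J O) (S.y O) (hl (S.J O) (S.y O)) := (hl_Near k g).2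

/-- the limit solves the EC equation -/
theorem hl_res : rs1 (S.J O) (S.y O) (hl (S.J O) (S.y O)) = 0 := by
  have hs := k.sm
  have hn := D6.n_pos hs k.adm
  have hJ := T1A.J_symm S O
  have o := k.out g
  have oW := k.outW (D6.strW_of_good hs g)
  have hu := T1A.unit_of_pd (T1A.zh_spec hn hJ (hl (S.J O) (S.y O))).1
  obtain ⟨p, hp⟩ : ∃ p, p = hl (S.J O) (S.y O) := ⟨_, rfl⟩
  have hG := (k.d2 p p 0 _ (hp ▸ hl_reg k g) (hp ▸ hl_reg k g) (k.p0 107000)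
    k.zero_le_r).2.2.2.2.1
  rw [← hp] at hu ⊢
  obtain ⟨G, hGe⟩ : ∃ G, G = G0 (S.J O) (zh (S.J O) p) := ⟨_, rfl⟩
  rw [← hGe] at hG
  have e0 : ∀ (M : Mat n) (v : Vec n),
      S.Nsq O *ᵥ (M *ᵥ v) = (S.Nsq O * M * S.Nis O) *ᵥ (S.Nsq O *ᵥ v) := fun M v => by
    rw [Matrix.mulVec_mulVec, Matrix.mulVec_mulVec, mul_assoc _ (S.Nis O), D6.Nis_Nsq hs k.adm O,
      mul_one]
  have e1 : ∀ v : Vec n, S.Nsq O *ᵥ (G *ᵥ v) =
      (S.Nsq O * G * S.Nsq O - 1 + 1) *ᵥ (S.Nis O *ᵥ v) := fun v => by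
    rw [sub_add_cancel, Matrix.mulVec_mulVec, Matrix.mulVec_mulVec, mul_assoc _ (S.Nsq O),
      D6.Nsq_Nis hs k.adm O, mul_one]
  have hc1 := add_nonneg (k.p0 70000) zero_le_one
  have key : S.Nsq O *ᵥ (G *ᵥ rs1 (S.J O) (S.y O) p) = 0 := by
    have hz := (geo_zero k ((t ^ 70000 + 1) * (t⁻¹ ^ 144001 * √n)) 399000).add
      (geo_zero k (t⁻¹ ^ 35 * √n) 399999)
    rw [add_zero] at hz
    refine eq_zero_of_le hz fun j => ?_
    have h1 := T1A.rs1_sub_MM hn hJ (S.y O) p (S.h O (j + 3))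
    rw [← hGe, Matrix.mulVec_sub, sub_eq_iff_eq_add'] at h1
    have h2 := (oW.mm p (S.h O (j + 3)) 0 (hp ▸ hl_Near k g) (near_ball k g (it_ball k g j))
      k.zero_le_r).2.2.nv_le (k.i0 35) (S.Nsq O *ᵥ (p - S.h O (j + 3)))
    have h3 := mul_le_mul_of_nonneg_left (hp ▸ hl_rateN k g j) (k.i0 35)
    have h4 := (hG.add opLe_one (k.p0 _) zero_le_one).nv_le hc1
      (S.Nis O *ᵥ rs1 (S.J O) (S.y O) (S.h O (j + 3)))
    have h5 := ((D6.opLe_Nis hs k.adm O).nv_le (k.i0 _)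
      (rs1 (S.J O) (S.y O) (S.h O (j + 3)))).trans
        (mul_le_mul_of_nonneg_left (o.res j) (k.i0 _))
    have h6 := mul_le_mul_of_nonneg_left h5 hc1
    rw [h1, Matrix.mulVec_add, e0 (MM _ _ _ _), e1]
    refine (nv_add_le _ _).trans (add_le_add (h4.trans (h6.trans_eq ?_)) (h2.trans
      (h3.trans_eq ?_)))
    · ring
    · ring
  have h7 : rs1 (S.J O) (S.y O) p = (Nm (S.J O) (zh (S.J O) p) * S.Nis O) *ᵥ
      (S.Nsq O *ᵥ (G *ᵥ rs1 (S.J O) (S.y O) p)) := by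
    rw [Matrix.mulVec_mulVec, Matrix.mulVec_mulVec, mul_assoc _ (S.Nis O), D6.Nis_Nsq hs k.adm O,
      mul_one, hGe, G0, Matrix.mul_nonsing_inv _ hu, Matrix.one_mulVec]
  rw [h7, key, Matrix.mulVec_zero]

/-- uniqueness in the ball -/
theorem eq_hl {h : Vec n} (hh : Ball t (S.J O) (S.y O) h) (h0 : rs1 (S.J O) (S.y O) h = 0) :
    h = hl (S.J O) (S.y O) := by
  have h1 := (k.out g).close h _ hh (hl_ball k g)
  rw [h0, hl_res k g, sub_zero, Matrix.mulVec_zero, nv_zero, mul_zero] at h1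
  have h2 := (k.nv_le_N (h - hl (S.J O) (S.y O))).trans (mul_le_mul_of_nonneg_left h1 (k.i0 _))
  rw [mul_zero] at h2
  funext i
  exact sub_eq_zero.1 (abs_nonpos_iff.1 ((abs_le_nv (h - hl (S.J O) (S.y O)) i).trans h2))

end

theorem evPk : Ev fun L t => ∀ (n : ℕ) (S : Dat n) (O : OG n), Adm L t S → D6.Pk L t S O :=
  D6.ev_pk T1A.d2Stmt d4Stmt

/-- the facts on the limit, on the good set -/
structure HlOK (t : ℝ) (S : Dat n) (O : OG n) : Prop where
  lim : ∀ i, Tendsto (fun j => it (S.J O) (S.y O) j i) atTop (𝓝 (hl (S.J O) (S.y O) i))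
  rateN : ∀ j, nv (S.Nsq O *ᵥ (hl (S.J O) (S.y O) - S.h O (j + 3))) ≤ √n * t ^ (399999 + 1000 * j)
  rate : ∀ j, nv (hl (S.J O) (S.y O) - S.h O (j + 3)) ≤ √n * t ^ (255000 + 1000 * j)
  near : nv (hl (S.J O) (S.y O) - S.h O 3) ≤ √n * t ^ 259000
  ball : Ball t (S.J O) (S.y O) (hl (S.J O) (S.y O))
  hc : nv (hl (S.J O) (S.y O) - S.hc t O) ≤ √n * t ^ 258000
  reg : Reg t (S.J O) (S.y O) (hl (S.J O) (S.y O))
  res : rs1 (S.J O) (S.y O) (hl (S.J O) (S.y O)) = 0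
  uniq : ∀ h, Ball t (S.J O) (S.y O) h → rs1 (S.J O) (S.y O) h = 0 → h = hl (S.J O) (S.y O)

theorem hlOK_of {L t : ℝ} {S : Dat n} {O : OG n} (k : D6.Pk L t S O) (g : Good t S O) :
    HlOK t S O :=
  ⟨hl_tendsto k g, hl_rateN k g, hl_rate k g, hl_near k g, hl_ball k g, hl_hc k g, hl_reg k g,
    hl_res k g, fun _ => eq_hl k g⟩

theorem hlStmt : Ev fun L t => ∀ (n : ℕ) (S : Dat n) (O : OG n), Adm L t S → Good t S O →
    HlOK t S O := fun L hL =>
  (evPk L hL).mono fun _ h n S O ha g => hlOK_of (h n S O ha) g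

end Vale.Agent.N150.Tap
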