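import Vale.Agent.N150.ECLip
import Vale.Agent.N150.TapHl
import Vale.Agent.N150.CapU
import Vale.Agent.N150.T2Cv
import Vale.Agent.N150.Adm3

/-! Transfer between points of the ball of block T1: polynomial conditioning, closeness of the
responses and of the drift at two approximate fixed points, and THEOREM T2 at the exact fixed point
of the cap flow. -/

open Matrix MeasureTheory Filter Topology

namespace Vale.Agent.N150.T2Tr

open Vale.Agent.P150 Vale.Agent.P150.F Vale.Agent.N150.EC Vale.Agent.N150.Sp Vale.Agent.N150.T1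

variable {n : ℕ} {L t : ℝ} {S : Dat n} {O : OG n}

theorem big_le (hs : Sm L t) (hA : Adm L t S) {a : ℕ} (ha : a ≤ 431998) : t⁻¹ ^ a ≤ n :=
  (hs.iw ha).trans (hA.inv_le_n hs)

theorem c_le (hs : Sm L t) (hA : Adm L t S) {C : ℝ} (hC : C ≤ 10 ^ 40) : C ≤ n :=
  (hs.c_inv hC).trans (by simpa using big_le hs hA (a := 1) (by norm_num))

theorem opGam (hs : Sm L t) (hA : Adm L t S) {G : Mat n} {a : ℕ}
    (h : OpLe (S.Nsq O * G * S.Nsq O) (t⁻¹ ^ a)) : OpLe G (t⁻¹ ^ (288002 + a)) := by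
  have hN := hA.opLe_Nis hs O
  have a1 := (hs.i0 144001).le
  have a2 := (hs.i0 a).le
  have e : G = S.Nis O * (S.Nsq O * G * S.Nsq O) * S.Nis O := by
    rw [← Matrix.mul_assoc, ← Matrix.mul_assoc, hA.Nis_mul_Nsq hs, Matrix.one_mul,
      Matrix.mul_assoc, hA.Nsq_mul_Nis hs, Matrix.mul_one]
  rw [e]
  refine ((hN.mulN h a1 a2).mulN hN (mul_nonneg a1 a2) a1).monoN
    (mul_nonneg (mul_nonneg a1 a2) a1) (le_of_eq ?_)
  rw [← pow_add, ← pow_add]
  congr 1
  omega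

/-- the points of the ball are polynomially well conditioned -/
theorem loc_ball (hs : Sm L t) (hA : Adm L t S) (out : Out t S O) {h : Vec n}
    (hb : Ball t (S.J O) (S.y O) h) (hw : |wb h - S.w| ≤ t ^ 144010) :
    Loc n (S.J O) h (zh (S.J O) h) := by
  have hz := (hA.zh_spec hs O hw).1
  have n0 := hA.npos'
  have c := fun a => hA.gap_near hz a
  have d := fun a => hA.inv_near hs hz a
  have w4 : 1 / 4 ≤ wb h := by
    have h1 := hs.cp (C := 4) (by norm_num) (a := 144010) (b := 0) (by norm_num)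
    rw [pow_zero] at h1
    linarith [(abs_le.1 hw).1, hA.w_half hs]
  refine ⟨c_le hs hA (by norm_num), le_rfl, hA.npos, (hA.posDef_zh hs O hw).det_pos.ne'.isUnit,
    fun i j => ?_, fun i j => ?_, ?_, ?_, out.unit h hb, ?_⟩
  · rw [show Nm (S.J O) (zh (S.J O) h) = _ from Nm_JO S.lam O _]
    refine Cap.abs_JO_le (fun a => ?_) O i j
    rw [abs_of_pos (sub_pos.2 (hA.lt_near hs hz a))]
    linarith [(c a).2, hA.gap_le hs a, c_le hs hA (C := 11) (by norm_num)]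
  · rw [hA.G0_zh hs O hw]
    refine Cap.abs_JO_le (fun a => ?_) O i j
    rw [abs_of_pos (inv_pos.2 (sub_pos.2 (hA.lt_near hs hz a)))]
    have h1 := hs.ci (C := 2) (by norm_num) (a := 288001) (b := 288002) (by norm_num)
    linarith [(d a).2, hA.g_le hs a, big_le hs hA (a := 288002) (by norm_num)]
  · nlinarith [c_le hs hA (C := 4) (by norm_num)]
  · have h1 := sq_trace_le (G0_symm (J := S.J O) (S.J_tr O) (zh (S.J O) h))
    have h2 : (G0 (S.J O) (zh (S.J O) h)).trace = n * wb h := by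
      rw [← sum_dv hA.npos]
      exact sub_eq_zero.1 (hA.res2_zh hs O hw)
    rw [h2] at h1
    have h3 : 1 ≤ n * wb h := by nlinarith [c_le hs hA (C := 4) (by norm_num)]
    exact (one_le_pow₀ h3).trans h1
  · exact (MB_of_opLe (opGam hs hA (out.gam h hb)) (hs.i0 _).le).mono
      (big_le hs hA (by norm_num))

/-- the distance of two points of the ball is bounded by the difference of the residuals -/
theorem nv_close (hs : Sm L t) (hA : Adm L t S) (out : Out t S O) {h h' : Vec n}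
    (hb : Ball t (S.J O) (S.y O) h) (hb' : Ball t (S.J O) (S.y O) h') :
    nv (h - h') ≤ t⁻¹ ^ 288102 * nv (rs1 (S.J O) (S.y O) h - rs1 (S.J O) (S.y O) h') := by
  have hN := hA.opLe_Nis hs O
  have a1 := (hs.i0 144001).le
  have h1 := hN.nv_le a1 (S.Nsq O *ᵥ (h - h'))
  rw [mulVec_mulVec, hA.Nis_mul_Nsq hs, one_mulVec] at h1
  have h2 := (out.close h h' hb hb').trans
    (mul_le_mul_of_nonneg_left (hN.nv_le a1 _) (hs.i0 100).le)
  refine h1.trans ((mul_le_mul_of_nonneg_left h2 a1).trans (le_of_eq ?_))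
  rw [← mul_assoc, ← mul_assoc, ← pow_add, ← pow_add]

theorem ball_h (hs : Sm L t) (out : Out t S O) (j : ℕ) :
    Ball t (S.J O) (S.y O) (S.h O (j + 3)) :=
  (out.stay j).trans (mul_le_mul_of_nonneg_left (hs.pw (by norm_num)) (Real.sqrt_nonneg _))

/-- what is known at every point of the ball -/
def BallStmt : Prop := Ev fun L t => ∀ (n : ℕ) (S : Dat n) (O : OG n), Adm L t S → Good t S O →
  Out t S O ∧ ∀ h, Ball t (S.J O) (S.y O) h → Loc n (S.J O) h (zh (S.J O) h) ∧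
    (Nm (S.J O) (zh (S.J O) h)).PosDef ∧ res2 (S.J O) h (zh (S.J O) h) = 0

theorem ballStmt : BallStmt := by
  refine ((ev_sm.and T1A.d2Stmt).and (D6.d6Stmt_of T1A.d2Stmt d4Stmt)).mono ?_
  rintro L t - ⟨⟨hs, h2⟩, h6⟩ n S O hA hG
  have out := h6 n S O hA hG
  refine ⟨out, fun h hb => ?_⟩
  have hr := out.reg h hb
  have hw := (h2 n S O h h 0 0 hA hr hr le_rfl (by rw [nv_zero, mul_zero])).1.trans
    (hs.pw (a := 214900) (b := 144010) (by norm_num))
  exact ⟨loc_ball hs hA out hb hw, hA.posDef_zh hs O hw, hA.res2_zh hs O hw⟩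

/-- two points of the ball with close residuals have close responses, sources and drifts -/
def CloseStmt : Prop := ∃ p : ℕ, Ev fun L t => ∀ (n : ℕ) (S : Dat n) (O : OG n) (h h' : Vec n)
  (Q : Mat n) (ρ : ℝ), Adm L t S → Good t S O → Ball t (S.J O) (S.y O) h →
  Ball t (S.J O) (S.y O) h' → MB Q n →
  nv (rs1 (S.J O) (S.y O) h' - rs1 (S.J O) (S.y O) h) ≤ ρ → (n : ℝ) ^ p * ρ ≤ 1 →
  nv (h' - h) ≤ n * ρ ∧ |zh (S.J O) h' - zh (S.J O) h| ≤ n ^ p * ρ ∧
  OpLe (Gam (S.J O) h' (zh (S.J O) h') - Gam (S.J O) h (zh (S.J O) h)) (n ^ p * ρ) ∧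
  OpLe (Gm (S.J O) h' (zh (S.J O) h') - Gm (S.J O) h (zh (S.J O) h)) (n ^ p * ρ) ∧
  nv (k0 (S.J O) h' (zh (S.J O) h') Q - k0 (S.J O) h (zh (S.J O) h) Q) ≤ n ^ p * ρ ∧
  nv (ka (S.J O) h' (zh (S.J O) h') Q - ka (S.J O) h (zh (S.J O) h) Q) ≤ n ^ p * ρ

theorem closeStmt : CloseStmt := by
  obtain ⟨p, hp⟩ := lip_h
  refine ⟨p + 1, (ev_sm.and ballStmt).mono ?_⟩
  rintro L t - ⟨hs, hB⟩ n S O h h' Q ρ hA hG hb hb' hQ hr hρ
  obtain ⟨out, hB⟩ := hB n S O hA hG
  obtain ⟨l1, p1, r1⟩ := hB h hb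
  obtain ⟨l2, p2, r2⟩ := hB h' hb'
  have d : nv (h' - h) ≤ n * ρ := (nv_close hs hA out hb' hb).trans
    (mul_le_mul (big_le hs hA (by norm_num)) hr (nv_nonneg _) (Nat.cast_nonneg n))
  have e : (n : ℝ) ^ (p + 1) * ρ = n ^ p * (n * ρ) := by ring
  rw [e] at hρ ⊢
  obtain ⟨a1, a2, a3, -, a5, a6⟩ := hp n n (n * ρ) (S.J O) Q h h' _ _ l1 l2 (S.J_tr O) p1 p2 hQ d
    r1 r2 hρ
  exact ⟨d, a1, a2, a3, a5, a6⟩

/-! ### THEOREM T2 at every approximate fixed point -/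

open Vale.Agent.N150.T2 (Cp PV j0 hr T2Stmt)

theorem one_le_log (hs : Sm L t) (hA : Adm L t S) : 1 ≤ Real.log n := by
  rw [Real.le_log_iff_exp_le hA.npos']
  linarith [hA.three_le hs, Real.exp_one_lt_d9]

theorem pow_j0 (hn : 0 < n) {p : ℕ} (h0 : 0 < t) (ht : Real.exp p * t ≤ 1) :
    (n : ℝ) ^ p * t ^ j0 n ≤ 1 := by
  have n0 : (0 : ℝ) < n := by exact_mod_cast hn
  have h1 : (n : ℝ) ^ p ≤ Real.exp p ^ j0 n := by
    rw [← Real.exp_log n0, ← Real.exp_nat_mul, ← Real.exp_nat_mul, mul_comm]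
    exact Real.exp_le_exp.2 (mul_le_mul_of_nonneg_right (Nat.le_ceil _) (Nat.cast_nonneg p))
  calc _ ≤ Real.exp p ^ j0 n * t ^ j0 n := mul_le_mul_of_nonneg_right h1 (pow_pos h0 _).le
    _ ≤ 1 := by
      rw [← mul_pow]
      exact pow_le_one₀ (mul_pos (Real.exp_pos _) h0).le ht

theorem MB_PV (V : Finset (Fin n)) (O : OG n) : MB (PV V O) 1 := fun i j =>
  Cap.abs_JO_le (u := fun a => if a ∈ V then 1 else 0) (fun a => by split_ifs <;> simp) O i j

theorem op_PV (V : Finset (Fin n)) (O : OG n) : OpLe (PV V O) 1 :=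
  opLe_JO (u := fun a => if a ∈ V then 1 else 0) (fun a => by split_ifs <;> simp) O

/-- the drift bound at all the points of the ball with a small residual -/
def T2Any : Prop := ∃ C : ℕ, Ev fun L t => ∀ (n : ℕ) (S : Dat n) (V : Finset (Fin n))
  (x xt : Vec n) (μ : Measure (OG n)), Adm L t S → AdmX L t S xt → Cp L t S V → FibL μ x xt →
  μ.real {O | Good t S O ∧ ∃ h, Ball t (S.J O) (S.y O) h ∧
    nv (rs1 (S.J O) (S.y O) h) ≤ √n * t ^ j0 n ∧ √(Real.log n) * t⁻¹ ^ 431801 <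
      nv (PV V O *ᵥ ka (S.J O) h (zh (S.J O) h) (PV V O))} ≤
    (n : ℝ) ^ C * Real.exp (-(n * t ^ 431999))

theorem t2Any_of (h2 : T2Stmt) : T2Any := by
  obtain ⟨C, h2⟩ := h2
  obtain ⟨p, hp⟩ := closeStmt
  refine ⟨C, ((((ev_sm.and h2).and hp).and ballStmt).and
    (ev_le fun _ => Real.exp ((p + 2 : ℕ) : ℝ))).mono ?_⟩
  rintro L t - ⟨⟨⟨⟨hs, h2⟩, hp⟩, hB⟩, ht⟩ n S V x xt μ hA hX hC hF
  have := hF.prob
  refine le_trans (measureReal_mono ?_) (h2 n S V x xt μ hA hX hC hF)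
  rintro O ⟨hG, h, hb, hr1, hbad⟩
  have out := (hB n S O hA hG).1
  have n3 := hA.three_le hs
  have r0 : 0 ≤ √n := Real.sqrt_nonneg _
  have r1 : √n ≤ n := by
    rw [Real.sqrt_le_left (by linarith)]
    nlinarith
  have hr2 : nv (rs1 (S.J O) (S.y O) (hr S O)) ≤ √n * t ^ j0 n :=
    (out.res _).trans (mul_le_mul_of_nonneg_left (hs.pw (by omega)) r0)
  have t0 := (hs.p0 (j0 n)).le
  have hρ : (n : ℝ) ^ p * (2 * (√n * t ^ j0 n)) ≤ 1 := by
    refine le_trans ?_ (pow_j0 hA.npos hs.pos ht)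
    have h1 : 2 * √n ≤ (n : ℝ) ^ 2 := by nlinarith
    calc _ = (n : ℝ) ^ p * (2 * √n) * t ^ j0 n := by ring
      _ ≤ n ^ p * n ^ 2 * t ^ j0 n := by gcongr
      _ = _ := by rw [← pow_add]
  have d := (hp n S O (hr S O) h (PV V O) _ hA hG (ball_h hs out _) hb
    ((MB_PV V O).mono (by linarith)) ((nv_sub_le _ _).trans (by linarith)) hρ).2.2.2.2.2.trans hρ
  have d1 := (op_PV V O).nv_le zero_le_one
    (ka (S.J O) h (zh (S.J O) h) (PV V O) - ka (S.J O) (hr S O) (zh (S.J O) (hr S O)) (PV V O))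
  have d2 := nv_add_le (PV V O *ᵥ (ka (S.J O) h (zh (S.J O) h) (PV V O) -
    ka (S.J O) (hr S O) (zh (S.J O) (hr S O)) (PV V O)))
    (PV V O *ᵥ ka (S.J O) (hr S O) (zh (S.J O) (hr S O)) (PV V O))
  rw [← mulVec_add, sub_add_cancel] at d2
  have l1 : 1 ≤ √(Real.log n) := Real.one_le_sqrt.2 (one_le_log hs hA)
  have l2 := hs.ci (C := 2) (by norm_num) (a := 431800) (b := 431801) (by norm_num)
  have l3 := mul_le_mul l1 (hs.i1 431800) zero_le_one (by linarith)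
  have l4 := mul_le_mul_of_nonneg_left l2 (by linarith : 0 ≤ √(Real.log n))
  show √(Real.log n) * t⁻¹ ^ 431800 < _
  linarith

/-! ### the cap flow -/

open Vale.Agent.N150.Cap (dI lamC PC)
open Vale.Agent.N150.Adm (Std dat)

variable {w s z0 K : ℝ} {lam yt : Vec n}

/-- the capped modes -/
noncomputable def capV (lam : Vec n) (s : ℝ) : Finset (Fin n) :=
  Finset.univ.filter fun a => 2 - lam a ≤ s

theorem PV_capV (lam : Vec n) (s : ℝ) (O : OG n) : PV (capV lam s) O = PC lam O s := by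
  show JO (fun a => if a ∈ capV lam s then 1 else 0) O = JO (dI lam s) O
  congr 1
  funext a
  simp [capV, dI]

theorem cp_cap (hs : Sm L t) (H : Std n w s lam) (e : t ^ 288000 = s)
    (hy : ∀ a, dI lam s a * yt a = yt a) (hb : 1 ≤ n * t ^ 564000) :
    Cp L t (dat s z0 (lamC lam s) yt) (capV lam s) := by
  refine ⟨fun a ha => ?_, fun a ha => ?_, fun i hi => ?_, hb⟩
  · exact min_eq_right (by linarith [(Finset.mem_filter.1 ha).2])
  · have h1 : ¬2 - lam a ≤ s := fun h => ha (Finset.mem_filter.2 ⟨Finset.mem_univ a, h⟩)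
    have h2 := hy a
    rw [dI, if_neg h1, zero_mul] at h2
    exact h2.symm
  · have h1 := (Adm.sand_clip H).card_le H (σ := t ^ (2 * i)) (e ▸ hs.pw (by omega))
    rw [hs.sqrt_p, ← pow_add, show 2 * i + i = 3 * i by ring] at h1
    refine le_trans h1 ?_
    rw [mul_assoc]
    exact le_mul_of_one_le_left (mul_nonneg (Nat.cast_nonneg n) (hs.p0 _).le) hs.L1

theorem le_of_scale (hs : Sm L t) (hn : 0 < n) (hK : 0 ≤ K)
    (h : (K / n) ^ (51 / 100 : ℝ) ≤ t ^ 288000) : K ≤ n * t ^ 564480 := by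
  have n0 : (0 : ℝ) < n := by exact_mod_cast hn
  have k0 : 0 ≤ K / n := div_nonneg hK n0.le
  have h1 := pow_le_pow_left₀ (Real.rpow_nonneg k0 _) h 100
  rw [← Real.rpow_natCast, ← Real.rpow_mul k0, ← pow_mul,
    show (51 / 100 : ℝ) * ((100 : ℕ) : ℝ) = ((51 : ℕ) : ℝ) by norm_num, Real.rpow_natCast] at h1
  have h2 : (K / n) ^ 51 ≤ (t ^ 564480) ^ 51 := by
    rw [← pow_mul]
    exact h1.trans (hs.pw (by norm_num))
  have h3 := (pow_le_pow_iff_left₀ k0 (hs.p0 _).le (by norm_num)).1 h2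
  rwa [div_le_iff₀ n0, mul_comm] at h3

theorem rpow_unit (h0 : 0 < t) (a : ℕ) : (t ^ 288000) ^ ((a : ℝ) / 288000) = t ^ a := by
  rw [← Real.rpow_natCast, ← Real.rpow_mul h0.le, ← Real.rpow_natCast]
  congr 1
  push_cast
  ring

/-- **THEOREM T2 at the exact fixed point of the cap flow**, on a fibre -/
def T2Hl : Prop := ∃ (C : ℕ) (e : ℝ), 0 < e ∧ Ev fun L t => ∀ (n : ℕ) (w s z0 K : ℝ)
  (lam yt x xt : Vec n) (μ : Measure (OG n)) (S : Dat n), Std n w s lam → t ^ 288000 = s →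
  (∀ a, dI lam s a * yt a = yt a) → S = dat s z0 (lamC lam s) yt → Adm L t S → AdmX L t S xt →
  FibL μ x xt → Real.log n ≤ K → (K / n) ^ (51 / 100 : ℝ) ≤ s →
  μ.real {O | Good t S O ∧ s ^ e * √K < s * √s * nv (PC lam O s *ᵥ
    ka (S.J O) (Tap.hl (S.J O) (S.y O)) (zh (S.J O) (Tap.hl (S.J O) (S.y O))) (PC lam O s))} ≤
    (n : ℝ) ^ C * Real.exp (-(5 * K))

theorem t2Hl_of (h2 : T2Stmt) : T2Hl := by
  obtain ⟨C, h2⟩ := t2Any_of h2
  refine ⟨C, (199 : ℕ) / 288000, by norm_num, ((ev_sm.and h2).and Tap.hlStmt).mono ?_⟩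
  rintro L t - ⟨⟨hs, h2⟩, hl⟩ n w s z0 K lam yt x xt μ S H e hy hS hA hX hF hK hKs
  have := hF.prob
  have l1 := one_le_log hs hA
  have n0 := hA.npos'.le
  have k1 := le_of_scale hs hA.npos (by linarith) (e ▸ hKs)
  have k2 : 1 ≤ n * t ^ 564000 :=
    (l1.trans (hK.trans k1)).trans (mul_le_mul_of_nonneg_left (hs.pw (by norm_num)) n0)
  have k3 : 5 * K ≤ n * t ^ 431999 := by
    have := mul_le_mul_of_nonneg_left
      (hs.cp (C := 5) (by norm_num) (a := 564480) (b := 431999) (by norm_num)) n0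
    linarith
  refine le_trans (measureReal_mono ?_) ((h2 n S (capV lam s) x xt μ hA hX
    (hS ▸ cp_cap hs H e hy k2) hF).trans (mul_le_mul_of_nonneg_left
      (Real.exp_le_exp.2 (neg_le_neg k3)) (pow_nonneg n0 C)))
  rintro O ⟨hG, hbad⟩
  have o := hl n S O hA hG
  refine ⟨hG, _, o.ball, ?_, ?_⟩
  · rw [o.res, nv_zero]
    exact mul_nonneg (Real.sqrt_nonneg _) (hs.p0 _).le
  · rw [PV_capV]
    by_contra hc
    have e1 : s * √s = t ^ 432000 := by
      rw [← e, show √(t ^ 288000) = t ^ 144000 from hs.sqrt_p 144000, ← pow_add]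
    rw [e1, ← e, rpow_unit hs.pos, e] at hbad
    have h1 := mul_le_mul_of_nonneg_left (not_lt.1 hc) (hs.p0 432000).le
    have h3 : t ^ 432000 * (√(Real.log n) * t⁻¹ ^ 431801) = t ^ 199 * √(Real.log n) := by
      rw [← hs.ip_eq 431801 199]
      ring
    have h4 := mul_le_mul_of_nonneg_left (Real.sqrt_le_sqrt hK) (hs.p0 199).le
    linarith

end Vale.Agent.N150.T2Tr
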