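import Vale.Agent.N150.T2W2
import Vale.Agent.N150.T2Cv

/-! P150, block T2: the statement `WStmt`. -/

open Matrix MeasureTheory Real

namespace Vale.Agent.N150.T2W

open Vale.Agent.P150 Vale.Agent.P150.F Vale.Agent.N150.Fib Vale.Agent.N150.T1 Vale.Agent.N150.T2

variable {n : ℕ}

theorem PL_eq (lb : Fin n → ℕ) (i : ℕ) (O : OG n) :
    PL lb i O = O.1ᵀ * Rip.res (Finset.univ.filter fun a => i < lb a) * O.1 := by
  simp only [PL, Sp.JO, Rip.res, Finset.mem_filter, Finset.mem_univ, true_and]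

theorem lab_low {L L' t : ℝ} (hs : Sm L t) {S : Dat n} {V : Finset (Fin n)} (hV : Cp L' t S V)
    {i : ℕ} {a : Fin n} (ha : i < lab t S V a) : a ∈ S.low (t ^ (2 * i)) := by
  simp only [Dat.low, Finset.mem_filter, Finset.mem_univ, true_and]
  unfold lab at ha
  split_ifs at ha with h
  · rw [hV.vl a h, sub_self]
    exact (hs.p0 _).le
  · by_contra hn
    refine ha.not_ge ((Finset.card_le_card fun j hj => ?_).trans (Finset.card_range i).le)
    rw [Finset.mem_range]
    by_contra hj'
    exact hn ((Finset.mem_filter.1 hj).2.trans (hs.pw (by omega)))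

theorem wStmt : WStmt := by
  refine ⟨1, ev_of_sm fun L t hs n S V x xt μ _ hV hμ => ?_⟩
  have := hμ.prob
  have t0 := hs.pos
  have n0' : (0 : ℝ) ≤ n := Nat.cast_nonneg n
  have n2 : (2 : ℝ) ≤ n := by
    have h1 := mul_le_mul_of_nonneg_left
      (hs.cp (C := 2) (a := 564000) (b := 0) (by norm_num) (by norm_num)) n0'
    linarith [hV.big]
  have n0 : (0 : ℝ) < n := by linarith
  by_cases hr : n * t ^ 1152000 ≤ 1
  swap
  · have e : {O | ¬WK t (lab t S V) x O} = ∅ :=
      Set.eq_empty_of_forall_notMem fun O hO => hO fun h => absurd h hr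
    rw [e, measureReal_empty]
    exact mul_nonneg (pow_nonneg n0' 1) (exp_pos _).le
  have e1 : n * (t⁻¹ ^ 2 / √n) ^ 2 = t⁻¹ ^ 4 := by
    rw [div_pow, Real.sq_sqrt n0', mul_div_cancel₀ _ n0.ne', ← pow_mul]
  have hT : ((Finset.univ.filter fun a => 57600 < lab t S V a).card : ℝ) ≤ n * t ^ 172799 := by
    have h1 : ((Finset.univ.filter fun a => 57600 < lab t S V a).card : ℝ) ≤
        (S.low (t ^ (2 * 57600))).card := by
      exact_mod_cast Finset.card_le_card fun a ha => lab_low hs hV (Finset.mem_filter.1 ha).2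
    have h2 := mul_le_mul_of_nonneg_left (hs.ab (x := L) (a := 3 * 57600) (b := 172799)
      (by simpa using hs.cL (C := 1) (a := 1) (by norm_num) (by norm_num)) (by norm_num)) n0'
    have h3 := hV.cnt 57600 (by norm_num)
    linarith
  have hl : 48 * (log n + 1) ≤ t⁻¹ ^ 4 := by
    have h1 : log n ≤ (1152000 : ℕ) * log t⁻¹ := by
      rw [← log_pow]
      refine log_le_log n0 ?_
      rwa [inv_pow, ← one_div, le_div_iff₀ (hs.p0 _)]
    have h2 := hs.clog (C := 48 * 1152000) (a := 0) (b := 1) (by norm_num) (by norm_num)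
      (by norm_num)
    rw [pow_zero, pow_one, mul_one, ← le_div_iff₀ t0, one_div] at h2
    have h3 := hs.iw (a := 1) (b := 4) (by norm_num)
    rw [pow_one] at h3
    push_cast at h1
    linarith
  have h1 := wick_t hs (a := 85000) (g := 4) (b := 564000) (c := 172799) (by norm_num)
    (by norm_num) (by norm_num) (x := x)
    (fun i => by rcases hμ.sgn i with h | h <;> rw [h] <;> norm_num) hμ.explo hV.big hT
    (l := t⁻¹ ^ 2 / √n) (div_pos (hs.i0 2) (sqrt_pos.2 n0)) (e1 ▸ hl) e1.le
  refine (Tail.real_imp_le _ fun O hO h2 => hO fun _ => ?_).trans (h1.trans ?_)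
  swap
  · rwa [PL_eq]
  · rw [pow_one]
    exact mul_le_mul n2 (exp_le_exp.2 (neg_le_neg
      (mul_le_mul_of_nonneg_left (hs.pw (by norm_num)) n0'))) (exp_pos _).le n0'

end Vale.Agent.N150.T2W
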