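import Vale.Agent.N150.T2X1
import Vale.Agent.N150.T2Cv
import Vale.Agent.N150.T1Meas

/-! Block T2, assembly: THEOREM T2 from the one-fibre tail and the events. -/

open MeasureTheory Matrix Set Filter

namespace Vale.Agent.N150.T2X

open Vale.Agent.P150 Vale.Agent.P150.F Vale.Agent.N150.Fib Vale.Agent.N150.Sp
open Vale.Agent.N150.EC Vale.Agent.N150.T1 Vale.Agent.N150.T2 Vale.Agent.P150.F.Ms

variable {n : ℕ} {L t : ℝ}

/-! ### numerical facts -/

theorem inv_le_n (hs : Sm L t) (hb : 1 ≤ n * t ^ 564000) {a : ℕ} (ha : a ≤ 564000) :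
    t⁻¹ ^ a ≤ n := by
  have e : t⁻¹ ^ 564000 * t ^ 564000 = 1 := by
    rw [← mul_pow, inv_mul_cancel₀ hs.pos.ne', one_pow]
  calc t⁻¹ ^ a ≤ t⁻¹ ^ 564000 * 1 := by rw [mul_one]; exact hs.iw ha
    _ ≤ t⁻¹ ^ 564000 * (n * t ^ 564000) := mul_le_mul_of_nonneg_left hb (hs.i0 _).le
    _ = n := by rw [mul_left_comm, e, mul_one]

theorem c_le_n (hs : Sm L t) (hb : 1 ≤ n * t ^ 564000) {C : ℝ} (hC : C ≤ 10 ^ 40) : C ≤ n :=
  (hs.c_inv hC).trans (by simpa using inv_le_n hs hb (a := 1) (by norm_num))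

theorem one_le_log (hs : Sm L t) (hb : 1 ≤ n * t ^ 564000) : 1 ≤ Real.log n := by
  have h3 := c_le_n hs hb (C := 3) (by norm_num)
  rw [Real.le_log_iff_exp_le (by linarith)]
  exact le_trans (by linarith [Real.exp_one_lt_d9]) h3

theorem rr_le (hs : Sm L t) (hb : 1 ≤ n * t ^ 564000) : rr t n ≤ n / 2 := by
  have h3 := c_le_n hs hb (C := 3) (by norm_num)
  have h0 : (0 : ℝ) < n := by linarith
  have hq : 0 < √(n : ℝ) := Real.sqrt_pos.2 h0
  have h1 : Real.log n ≤ 2 * √(n : ℝ) := by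
    have := Real.log_le_sub_one_of_pos hq
    rw [Real.log_sqrt h0.le] at this
    linarith
  have h2 : 4 * t⁻¹ ^ 300 ≤ √(n : ℝ) := by
    refine Real.le_sqrt_of_sq_le ?_
    calc (4 * t⁻¹ ^ 300) ^ 2 = 16 * t⁻¹ ^ 600 := by rw [mul_pow, ← pow_mul]; norm_num
      _ ≤ t⁻¹ ^ 601 := hs.ci (by norm_num) (by norm_num)
      _ ≤ n := inv_le_n hs hb (by norm_num)
  have h4 := Real.mul_self_sqrt h0.le
  have h5 := hs.i0 300
  unfold rr
  generalize t⁻¹ ^ 300 = u at *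
  nlinarith

theorem thr_le (hs : Sm L t) (hb : 1 ≤ n * t ^ 564000) :
    √(rr t n) * t⁻¹ ^ 431601 + 1 ≤ √(Real.log n) * t⁻¹ ^ 431800 / 2 := by
  have h1 : 1 ≤ √(Real.log n) := Real.one_le_sqrt.2 (one_le_log hs hb)
  have e : √(rr t n) = t⁻¹ ^ 150 * √(Real.log n) := by
    rw [rr, Real.sqrt_mul (hs.i0 300).le, show 300 = 150 * 2 from rfl, pow_mul,
      Real.sqrt_sq (hs.i0 150).le]
  have h2 : 4 * t⁻¹ ^ 431751 ≤ t⁻¹ ^ 431800 := hs.ci (by norm_num) (by norm_num)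
  have h3 := hs.i1 431751
  have e2 : t⁻¹ ^ 150 * √(Real.log n) * t⁻¹ ^ 431601 = √(Real.log n) * t⁻¹ ^ 431751 := by
    rw [mul_right_comm, ← pow_add, mul_comm]
  rw [e, e2]
  generalize t⁻¹ ^ 431751 = u at *
  generalize t⁻¹ ^ 431800 = v at *
  nlinarith

theorem card_le (hs : Sm L t) {S : Dat n} {V : Finset (Fin n)} (hc : Cp L t S V) :
    (V.card : ℝ) ≤ n * t ^ 431999 := by
  have h1 : V ⊆ S.low (t ^ (2 * 144000)) := fun a ha => by
    rw [Dat.mem_low, hc.vl a ha, sub_self]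
    exact (hs.p0 _).le
  have h2 : (V.card : ℝ) ≤ (S.low (t ^ (2 * 144000))).card := by
    exact_mod_cast Finset.card_le_card h1
  refine h2.trans ((hc.cnt 144000 le_rfl).trans ?_)
  rw [mul_comm L, mul_assoc]
  exact mul_le_mul_of_nonneg_left (hs.Lp (by norm_num)) (Nat.cast_nonneg n)

theorem rate_le (hs : Sm L t) {k : ℝ} (hk : k ≤ n * t ^ 431999) :
    Real.exp (2 * k) * Real.exp (-(n * t ^ 431998)) ≤ Real.exp (-(n * t ^ 431999)) := by
  rw [← Real.exp_add, Real.exp_le_exp]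
  have h1 : 3 * t ^ 431999 ≤ t ^ 431998 := hs.cp (by norm_num) (by norm_num)
  have h2 := mul_le_mul_of_nonneg_left h1 (Nat.cast_nonneg (α := ℝ) n)
  generalize t ^ 431999 = u at *
  generalize t ^ 431998 = v at *
  linarith

theorem pre_le {x : ℝ} (hx : 14 ≤ x) (a b c : ℕ) {e : ℝ} (he : 0 ≤ e) :
    (x ^ a * e + x ^ b * e + x ^ c * e) + (x ^ a * e + x ^ b * e + x ^ c * e) / (x ^ 901)⁻¹ +
      8 * e ≤ x ^ (a + b + c + 902) * e := by
  have x1 : 1 ≤ x := by linarith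
  have h1 : x ^ a ≤ x ^ (a + b + c) := pow_le_pow_right₀ x1 (by omega)
  have h2 : x ^ b ≤ x ^ (a + b + c) := pow_le_pow_right₀ x1 (by omega)
  have h3 : x ^ c ≤ x ^ (a + b + c) := pow_le_pow_right₀ x1 (by omega)
  have h4 : 1 ≤ x ^ (a + b + c) := one_le_pow₀ x1
  have h5 : 1 ≤ x ^ 901 := one_le_pow₀ x1
  have e1 : x ^ (a + b + c + 902) = x ^ (a + b + c) * x ^ 901 * x := by
    rw [mul_assoc, ← pow_succ, ← pow_add]
  rw [div_inv_eq_mul, e1]
  generalize x ^ (a + b + c) = u at *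
  generalize x ^ 901 = v at *
  have h6 : x ^ a + x ^ b + x ^ c ≤ 3 * u := by linarith
  have h7 : 0 ≤ x ^ a + x ^ b + x ^ c := by positivity
  have h8 : (x ^ a + x ^ b + x ^ c) * (1 + v) + 8 ≤ u * v * x := by
    have h9 : (x ^ a + x ^ b + x ^ c) * (1 + v) ≤ 3 * u * (2 * v) :=
      mul_le_mul h6 (by linarith) (by linarith) (by linarith)
    have h10 : 1 ≤ u * v := one_le_mul_of_one_le_of_one_le h4 h5
    nlinarith
  calc _ = ((x ^ a + x ^ b + x ^ c) * (1 + v) + 8) * e := by ring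
    _ ≤ _ := mul_le_mul_of_nonneg_right h8 he

/-! ### one direction -/

theorem PV_fix (V : Finset (Fin n)) (O : OG n) {u : Vec n} (hu : Rip.res V *ᵥ u = u) :
    PV V O *ᵥ (O.1ᵀ *ᵥ u) = O.1ᵀ *ᵥ u := by
  rw [PV, Matrix.mul_assoc, ← mulVec_mulVec, ← mulVec_mulVec, OG.mulVec_tr_mulVec, hu]

theorem res_fix {V : Finset (Fin n)} {u : Vec n} (hu : u ∈ Rip.supp V) : Rip.res V *ᵥ u = u := by
  funext i
  rw [Rip.res_mulVec]
  split_ifs with h
  · rfl
  · exact (hu i h).symm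

theorem measurable_ka (S : Dat n) (V : Finset (Fin n)) (u : Vec n) :
    Measurable fun O : OG n =>
      ip (O.1ᵀ *ᵥ u) (ka (S.J O) (hr S O) (zh (S.J O) (hr S O)) (PV V O)) :=
  ms_ip (mvec_of (mm_val.transpose.mulVec measurable_const))
    (mv_ka S.mm_J (mvec_of (S.measurable_h _)) (S.measurable_zh _)
      ((mm_val.transpose.mul (Fib.MM.const _)).mul mm_val))

/-- the drift in a direction `u`, through an approximation `v` of `Gm u` -/
theorem ip_ka_le {J Q : Mat n} (hJ : J.IsSymm) (h u v : Vec n) (z : ℝ) {a b : ℝ}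
    (hv : nv (v - Gm J h z *ᵥ u) ≤ a) (hk : nv (k0 J h z Q) ≤ b) :
    ip u (ka J h z Q) ≤ |ip v (k0 J h z Q)| + a * b := by
  have e : ip u (ka J h z Q) = ip (v - Gm J h z *ᵥ u) (k0 J h z Q) - ip v (k0 J h z Q) := by
    have e1 : ip u (ka J h z Q) = -ip u (Gm J h z *ᵥ k0 J h z Q) := by
      rw [ka, Rip.ip_dot, Rip.ip_dot, dotProduct_neg]
    rw [e1, Rip.ip_mulVec_tr, (Gm_symm hJ h z).eq, ip_sub_left, ipN_comm]
    ring
  have h1 := (ip_le _ _).trans (mul_le_mul hv hk (nv_nonneg _) ((nv_nonneg _).trans hv))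
  linarith [neg_abs_le (ip v (k0 J h z Q))]

/-- the bad set -/
def Bad (t : ℝ) (S : Dat n) (V : Finset (Fin n)) (x xt : Vec n) : Set (OG n) :=
  {O | ¬Good t S O} ∪ {O | ¬RL t (lab t S V) O} ∪ {O | ¬WK t (lab t S V) x O} ∪
    {O | ¬O.1 *ᵥ x = xt}

theorem bad_le {S : Dat n} {V : Finset (Fin n)} {x xt : Vec n} {μ : Measure (OG n)}
    (hμ : FibL μ x xt) {a b c : ℝ} (h1 : μ.real {O | ¬Good t S O} ≤ a)
    (h2 : μ.real {O | ¬RL t (lab t S V) O} ≤ b) (h3 : μ.real {O | ¬WK t (lab t S V) x O} ≤ c) :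
    μ.real (Bad t S V x xt) ≤ a + b + c := by
  have h4 : μ.real {O : OG n | ¬O.1 *ᵥ x = xt} = 0 := by
    rw [measureReal_def, ae_iff.1 hμ.ae, ENNReal.toReal_zero]
  have u1 := measureReal_union_le (μ := μ) {O | ¬Good t S O} {O | ¬RL t (lab t S V) O}
  have u2 := measureReal_union_le (μ := μ) ({O | ¬Good t S O} ∪ {O | ¬RL t (lab t S V) O})
    {O | ¬WK t (lab t S V) x O}
  have u3 := measureReal_union_le (μ := μ) ({O | ¬Good t S O} ∪ {O | ¬RL t (lab t S V) O} ∪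
    {O | ¬WK t (lab t S V) x O}) {O : OG n | ¬O.1 *ᵥ x = xt}
  unfold Bad
  linarith

theorem not_bad {S : Dat n} {V : Finset (Fin n)} {x xt : Vec n} {O : OG n}
    (h : O ∉ Bad t S V x xt) :
    Good t S O ∧ RL t (lab t S V) O ∧ WK t (lab t S V) x O ∧ O.1 *ᵥ x = xt := by
  simp only [Bad, mem_union, mem_ofPred_eq, not_or, not_not] at h
  exact ⟨h.1.1.1, h.1.1.2, h.1.2, h.2⟩

/-- **THEOREM T2** from the blocks -/
theorem t2_of (h1 : T1Stmt) (h6 : D6Stmt) (hP : ProgStmt) (hR : RLStmt) (hW : WStmt)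
    (hT : PtStmt) (hF : FibStmt) : T2Stmt := by
  obtain ⟨C1, h1⟩ := h1
  obtain ⟨C2, hR⟩ := hR
  obtain ⟨C3, hW⟩ := hW
  refine ⟨C1 + C2 + C3 + 902, fun L hL => ?_⟩
  filter_upwards [ev_sm L hL, h1 L hL, h6 L hL, hP L hL, hR L hL, hW L hL, hT L hL, hF]
    with t hs h1 h6 hP hR hW hT hF
  intro n S V x xt μ hA hX hC hμ
  have := hμ.prob
  have hb := hC.big
  have n14 := c_le_n hs hb (C := 14) (by norm_num)
  have n1 : (1 : ℝ) ≤ n := by linarith
  obtain ⟨e, he⟩ : ∃ e, e = Real.exp (-(n * t ^ 431998)) := ⟨_, rfl⟩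
  have e0 : 0 ≤ e := he ▸ (Real.exp_pos _).le
  obtain ⟨a, ha⟩ : ∃ a, a = √(Real.log n) * t⁻¹ ^ 431800 / 2 := ⟨_, rfl⟩
  have a0 : 0 ≤ a := ha ▸ div_nonneg (mul_nonneg (Real.sqrt_nonneg _) (hs.i0 _).le) zero_le_two
  have hbad := bad_le hμ (h1 n S x xt μ hA hX hμ) (hR n S V x xt μ hA hC hμ)
    (hW n S V x xt μ hA hC hμ)
  rw [← he] at hbad
  have d0 : (0 : ℝ) < ((n : ℝ) ^ 901)⁻¹ := inv_pos.2 (pow_pos (by linarith) _)
  have d1 : ((n : ℝ) ^ 901)⁻¹ < 1 := inv_lt_one_of_one_lt₀ (one_lt_pow₀ (by linarith) (by norm_num))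
  have d2 : ((n : ℝ) ^ 901)⁻¹ ≤ ((n : ℝ) ^ 900)⁻¹ :=
    inv_anti₀ (pow_pos (by linarith) _) (pow_le_pow_right₀ n1 (by norm_num))
  have key : ∀ u ∈ Rip.supp V, nv u = 1 → μ.real {O | a < ip (O.1ᵀ *ᵥ u)
      (ka (S.J O) (hr S O) (zh (S.J O) (hr S O)) (PV V O))} ≤ (n : ℝ) ^ (C1 + C2 + C3 + 902) * e := by
    intro u hu hu1
    obtain ⟨Pi, v, hE, -, av, ah, htr, hblk, hv⟩ := hP n S V x xt u μ hA hC hμ (res_fix hu) hu1
    refine (shell' hE _ (measurableSet_lt measurable_const (measurable_ka S V u)) hbad d0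
      (q := 8 * e) (by linarith) (c := 1 / 128) (by norm_num)
      (fun O => by linarith [htr O, rr_le hs hb]) fun O G hG hB => ?_).trans
      (pre_le n14 C1 C2 C3 e0)
    have pt : ∀ W ∈ G, _ := fun W hW => by
      obtain ⟨g, r, w, o⟩ := not_bad (hB W hW)
      have out := h6 n S W hA g
      have e1 : hr S W = hr S O := hG.adapted ah hW
      have e2 : v W = v O := hG.adapted av hW
      have e3 : Pi W = Pi O := hG.adapted hE.adapted hW
      have b1 : Ball t (S.J W) (S.y W) (hr S W) := (out.stay (j0 n)).trans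
        (mul_le_mul_of_nonneg_left (hs.pw (by norm_num)) (Real.sqrt_nonneg _))
      have b2 : nv (rs1 (S.J W) (S.y W) (hr S W)) ≤ √n * t ^ 399000 := (out.res (j0 n)).trans
        (mul_le_mul_of_nonneg_left (hs.pw (by omega)) (Real.sqrt_nonneg _))
      have b3 := hv W g
      have b4 := hblk W
      rw [e1] at b1 b2
      rw [e1, e2] at b3
      rw [e3] at b4
      exact And.intro (And.intro e1 b3) (hT n S V x xt W O (Pi O) (hr S O) (W.1ᵀ *ᵥ u) (v O)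
        ⟨hA, hX, hC, g, out, hμ.sgn, o, b1, b2, PV_fix V W (res_fix hu),
          by rw [nv_tr, hu1], b3⟩ r w (hE.proj O) (htr O) b4 (hblk O))
    obtain ⟨W0, hW0⟩ := hG.nonempty d1
    have core : Core t (mk t S V O (Pi O) (hr S O) (v O)) G :=
      ⟨(pt W0 hW0).2.1, (pt W0 hW0).2.2.1, hG.meas, hG.small.trans d2,
        fun W hW => (hG.mem W hW).imp fun U hU => ⟨SG_le_HG hU.1, hU.2⟩,
        fun W hW => (pt W hW).2.2.2.1⟩
    have h2 := hF n _ G core hG.small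
    rw [← he] at h2
    refine le_trans (measureReal_mono ?_) h2
    rintro W ⟨hW, hlt⟩
    obtain ⟨⟨e1, b3⟩, -, -, -, k1, k2⟩ := pt W hW
    refine ⟨hW, ?_⟩
    have h3 := ip_ka_le (J := S.J W) (Q := PV V W) (JO_tr _ _) _ _ _ _ b3 k2
    have h4 : ((n : ℝ) ^ 3)⁻¹ * (n : ℝ) ^ 2 ≤ 1 := by
      rw [inv_mul_le_iff₀ (by positivity), mul_one]
      exact pow_le_pow_right₀ n1 (by norm_num)
    have h5 := thr_le hs hb
    rw [mem_ofPred_eq, e1, zh_eq] at hlt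
    rw [k1] at h3
    rw [← ha] at h5
    show √(rr t n) * t⁻¹ ^ 431601 < _
    linarith
  have h2 := net_res V (fun O => ka (S.J O) (hr S O) (zh (S.J O) (hr S O)) (PV V O)) a0
    (mul_nonneg (pow_nonneg (Nat.cast_nonneg n) _) e0) key
  have e2 : 2 * a = √(Real.log n) * t⁻¹ ^ 431800 := by rw [ha, mul_div_cancel₀ _ two_ne_zero]
  rw [e2] at h2
  refine h2.trans ?_
  rw [mul_left_comm, he]
  exact mul_le_mul_of_nonneg_left (rate_le hs (card_le hs hC)) (pow_nonneg (Nat.cast_nonneg n) _)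

end Vale.Agent.N150.T2X
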