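import Vale.Agent.N150.T1Ce
import Vale.Agent.N150.D6b
import Vale.Agent.N150.T1D4
import Vale.Agent.N150.T1Alg2
import Vale.Agent.N150.BrDef

/-! Two consecutive good points give a locally good step of the mean field reference. -/

open Matrix Filter Topology

namespace Vale.Agent.N150.TapG

open Vale.Agent.P150 Vale.Agent.P150.F Vale.Agent.N150.EC Vale.Agent.N150.Sp Vale.Agent.N150.T1
open Vale.Agent.N150.T1C

variable {n : ℕ} {L t : ℝ} {S S' : Dat n} {O O' : OG n} {h h' : Vec n}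

theorem d6Stmt : D6Stmt := D6.d6Stmt_of T1A.d2Stmt T1.d4Stmt

theorem K40 (hs : Sm L t) : 40 ≤ t⁻¹ ^ 288002 := by
  have := hs.ci (C := 40) (by norm_num) (a := 0) (b := 288002) (by norm_num)
  rwa [pow_zero, mul_one] at this

theorem ip_le_n (hs : Sm L t) (A : Adm L t S) {a : ℕ} (ha : a ≤ 431998) : t⁻¹ ^ a ≤ n :=
  (hs.iw ha).trans (A.inv_le_n hs)

theorem n40 (hs : Sm L t) (A : Adm L t S) : (40 : ℝ) ≤ n :=
  (K40 hs).trans (ip_le_n hs A (by norm_num))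

/-- the window at a point of the region -/
theorem reg_win (hs : Sm L t) (A : Adm L t S) (R : Reg t (S.J O) (S.y O) h) :
    Win (S.J O) (zh (S.J O) h) (4 * (t⁻¹ ^ 288002)⁻¹) 8 ∧ 1 / 2 ≤ wb h := by
  have hz := T1A.reg_z hs A R
  rw [T1A.E_nat t 358997 358997 rfl] at hz
  have h1 := hz.trans (hs.pw (b := 288002) (by norm_num))
  have g8 := hs.cp (C := 8) (by norm_num) (a := 288002) (b := 288001) (by norm_num)
  rw [← inv_pow, inv_inv]
  refine ⟨win_of_frame O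
      (fun a => by linarith [A.pow_le_gap hs a, (abs_le.1 h1).1, hs.p0 288002])
      (fun a => by linarith [A.gap_le hs a, (abs_le.1 h1).2, hs.p1 288002]), ?_⟩
  have c2 := hs.cp (C := 4) (by norm_num) (a := 143999) (b := 0) (by norm_num)
  have c3 := hs.pw (a := 144010) (b := 143999) (by norm_num)
  rw [pow_zero] at c2
  linarith [(abs_le.1 (reg_w hs A O R).1).1, A.w_ge' hs]

theorem unsand (hs : Sm L t) (A : Adm L t S) {M : Mat n} {b : ℕ}
    (hM : OpLe (S.Nsq O * M * S.Nsq O) (t⁻¹ ^ b)) : OpLe M (t⁻¹ ^ (288002 + b)) := by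
  have e : M = S.Nis O * (S.Nsq O * M * S.Nsq O) * S.Nis O := by
    rw [Matrix.mul_assoc (S.Nsq O), ← Matrix.mul_assoc (S.Nis O), A.Nis_mul_Nsq hs, Matrix.one_mul,
      Matrix.mul_assoc, A.Nsq_mul_Nis hs, Matrix.mul_one]
  rw [e]
  refine (((A.opLe_Nis hs O).mulN hM (hs.i0 _).le (hs.i0 _).le).mulN (A.opLe_Nis hs O)
    (mul_pos (hs.i0 _) (hs.i0 _)).le (hs.i0 _).le).monoN
    (mul_pos (mul_pos (hs.i0 _) (hs.i0 _)) (hs.i0 _)).le (le_of_eq ?_)
  rw [← pow_add, ← pow_add]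
  congr 1
  omega

/-- (a) points of the ball are polynomially well conditioned -/
theorem ball_loc (hs : Sm L t) (A : Adm L t S) (out : Out t S O)
    (B : Ball t (S.J O) (S.y O) h) : Loc n (S.J O) h (zh (S.J O) h) := by
  obtain ⟨W, hw⟩ := reg_win hs A (out.reg h B)
  have n0 := n40 hs A
  have i0 := inv_pos.2 (hs.i0 288002)
  have W' := W.mono (γ' := (t⁻¹ ^ 288002)⁻¹) (by linarith) le_rfl
  have g := W'.opG i0
  rw [inv_inv] at g
  refine ⟨by linarith, le_rfl, A.npos, W'.unit i0,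
    (MB_of_opLe (W'.opN i0) (by norm_num)).mono (by linarith),
    (MB_of_opLe g (hs.i0 _).le).mono (ip_le_n hs A (by norm_num)), by nlinarith, ?_, out.unit h B,
    (MB_of_opLe (unsand hs A (out.gam h B)) (hs.i0 _).le).mono (ip_le_n hs A (by norm_num))⟩
  have := W'.T2_ge i0
  nlinarith

theorem ball_gm (hs : Sm L t) (A : Adm L t S) (out : Out t S O)
    (B : Ball t (S.J O) (S.y O) h) : OpLe (Gm (S.J O) h (zh (S.J O) h)) (t⁻¹ ^ 288202) :=
  unsand hs A (out.gm h B)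

/-- the roots `z(h)` for neighbouring data -/
theorem zh_sub {J J' : Mat n} {K d : ℝ} (hn : 0 < n) (hK : 40 ≤ K)
    (W : Win J (zh J h) (4 * K⁻¹) 8) (hJ : J'ᵀ = J') (d0 : 0 ≤ d) (dJ : OpLe (J' - J) d)
    (dh : nv (h - h') ≤ √n * d) (hs : d * K ^ 8 ≤ 1) : |zh J' h' - zh J h| ≤ d * K ^ 7 := by
  have hn' : (0 : ℝ) < n := Nat.cast_pos.2 hn
  have dw := wb_lip hn dh
  obtain ⟨p1, r1⟩ := T1A.zh_spec hn W.sym h
  obtain ⟨p2, r2⟩ := T1A.zh_spec hn hJ h'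
  have K0 : 0 ≤ K := by linarith
  exact (root2 (y := 0) (y' := 0) hn hK W hJ d0 dJ
    (by rw [sub_self, nv_zero]; positivity) (by rw [nv_zero]; positivity) p2
    (by
      rw [ph_zero, ph_zero, T1A.trace_of_res2 hn r1, T1A.trace_of_res2 hn r2, ← mul_sub, abs_mul,
        abs_of_pos hn']
      nlinarith) hs).1

/-- (c) approximate solutions for neighbouring data are close -/
theorem close (hs : Sm L t) (A : Adm L t S) (out : Out t S O) (A' : Adm L t S')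
    (out' : Out t S' O') {K e : ℝ} (hK : K = t⁻¹ ^ 288002) (he : 0 ≤ e) (sm : e * K ^ 19 ≤ 1)
    (dJ : OpLe (S'.J O' - S.J O) e) (dy : nv (S'.y O' - S.y O) ≤ √n * e)
    (B : Ball t (S.J O) (S.y O) h) (B1 : Ball t (S'.J O') (S'.y O') h)
    (B' : Ball t (S'.J O') (S'.y O') h') (r : nv (rs1 (S.J O) (S.y O) h) ≤ √n * e)
    (r' : nv (rs1 (S'.J O') (S'.y O') h') ≤ √n * e) :
    nv (h - h') ≤ √n * (e * K ^ 11) ∧ |zh (S'.J O') h' - zh (S.J O) h| ≤ e * K ^ 18 := by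
  have k40 : 40 ≤ K := (K40 hs).trans_eq hK.symm
  have K0 : 0 < K := by linarith
  have W := (reg_win hs A (out.reg h B)).1
  rw [← hK] at W
  have r0 := Real.sqrt_nonneg (n : ℝ)
  have z1 := zh_sub (h' := h) A.npos k40 W (S'.J_tr O') he dJ
    (by rw [sub_self, nv_zero]; exact mul_nonneg r0 he) ((le' k40 he (by norm_num)).trans sm)
  have m1 : nv (tm h) ≤ √n * 1 := by
    rw [mul_one]
    exact nv_le_sqrt_n fun i => (Real.abs_tanh_lt_one _).le
  have c1 := out'.close h h' B1 B'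
  have e1 : rs1 (S'.J O') (S'.y O') h = rs1 (S.J O) (S.y O) h +
      ((zh (S'.J O') h - zh (S.J O) h) • tm h - (S'.J O' - S.J O) *ᵥ tm h - (S'.y O' - S.y O)) := by
    unfold rs1 res1 Nm
    simp only [sub_mulVec, smul_mulVec, one_mulVec, sub_smul]
    abel
  have a1 : nv (rs1 (S'.J O') (S'.y O') h - rs1 (S'.J O') (S'.y O') h') ≤ √n * (e * K ^ 8) := by
    have b1 := nv_sub_le (rs1 (S'.J O') (S'.y O') h) (rs1 (S'.J O') (S'.y O') h')
    have b2 := nv_add_le (rs1 (S.J O) (S.y O) h)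
      ((zh (S'.J O') h - zh (S.J O) h) • tm h - (S'.J O' - S.J O) *ᵥ tm h - (S'.y O' - S.y O))
    have b3 := nv_sub_le ((zh (S'.J O') h - zh (S.J O) h) • tm h - (S'.J O' - S.J O) *ᵥ tm h)
      (S'.y O' - S.y O)
    have b4 := nv_sub_le ((zh (S'.J O') h - zh (S.J O) h) • tm h) ((S'.J O' - S.J O) *ᵥ tm h)
    rw [nv_smul] at b4
    have b5 := mul_le_mul z1 m1 (nv_nonneg _) (mul_nonneg he (pow_pos K0 _).le)
    have b6 := mv_le dJ he m1
    have b7 := le' k40 he (a := 0) (b := 7) (by norm_num)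
    have b8 := up k40 he (c := 5) (by norm_num) (a := 7) (b := 8) (by norm_num)
    have b9 : √(n : ℝ) * (e * K ^ 7 + 4 * e) ≤ √n * (e * K ^ 8) :=
      mul_le_mul_of_nonneg_left (by linarith) r0
    rw [← e1] at b2
    linarith
  have o1 : OpLe (S'.Nis O') K := (A'.opLe_Nis hs O').monoN (hs.i0 _).le
    ((hs.iw (by norm_num)).trans_eq hK.symm)
  have a2 := mv_le o1 K0.le a1
  have a3 : nv (S'.Nsq O' *ᵥ (h - h')) ≤ √n * (K * (K * (e * K ^ 8))) := by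
    have b1 : t⁻¹ ^ 100 ≤ K := (hs.iw (by norm_num)).trans_eq hK.symm
    refine c1.trans ((mul_le_mul b1 a2 (nv_nonneg _) K0.le).trans (le_of_eq ?_))
    ring
  have a4 := mv_le o1 K0.le a3
  rw [mulVec_mulVec, A'.Nis_mul_Nsq hs, one_mulVec,
    show K * (K * (K * (e * K ^ 8))) = e * K ^ 11 by ring] at a4
  refine ⟨a4, ?_⟩
  have d0 : 0 ≤ e * K ^ 11 := mul_nonneg he (pow_pos K0 _).le
  have := zh_sub A.npos k40 W (S'.J_tr O') d0
    (dJ.monoN he (by simpa using le' k40 he (a := 0) (b := 11) (by norm_num))) a4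
    (by rwa [mul_assoc, ← pow_add])
  rwa [mul_assoc, ← pow_add] at this

/-- the generic step: data at distance `e`, both points near the centres with residual `e` -/
theorem near_close : ∃ Q : ℕ, Ev fun L t => ∀ (n : ℕ) (S S' : Dat n) (O O' : OG n) (h h' : Vec n)
    (e : ℝ), Adm L t S → Good t S O → Adm L t S' → Good t S' O' → 0 ≤ e → e ≤ t ^ Q →
    OpLe (S'.J O' - S.J O) e → nv (S'.y O' - S.y O) ≤ √n * e →
    nv (h - S.h O 3) ≤ √n * t ^ 253000 → nv (h' - S'.h O' 3) ≤ √n * t ^ 252000 →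
    nv (rs1 (S.J O) (S.y O) h) ≤ √n * e → nv (rs1 (S'.J O') (S'.y O') h') ≤ √n * e →
    nv (h - h') ≤ √n * (e * (t⁻¹ ^ 288002) ^ 11) ∧
      |zh (S'.J O') h' - zh (S.J O) h| ≤ e * (t⁻¹ ^ 288002) ^ 18 := by
  obtain ⟨q, hq⟩ := ceStmt
  refine ⟨2 * q + 288002 * 19, ((ev_sm.and hq).and d6Stmt).mono ?_⟩
  rintro L t - ⟨⟨hs, hc⟩, h6⟩ n S S' O O' h h' e A G A' G' he hε dJ dy N N' r r'
  have c := (hc n S O (S'.J O') (S'.y O') e A G.base (S'.J_tr O') he
    (hε.trans (hs.pw (by omega))) dJ dy).1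
  have c1 : e * t⁻¹ ^ q ≤ t ^ 253000 := by
    rw [mul_comm]
    exact (mul_le_mul_of_nonneg_left hε (hs.i0 _).le).trans (hs.ip (by omega))
  have c2 := hs.cp (C := 2) (by norm_num) (a := 253000) (b := 252000) (by norm_num)
  refine close hs A (h6 n S O A G) A' (h6 n S' O' A' G') rfl he ?_ dJ dy
    (sn_mono N (hs.pw (by norm_num))) ?_ N' r r'
  · rw [← pow_mul, mul_comm]
    exact (mul_le_mul_of_nonneg_left hε (hs.i0 _).le).trans
      ((hs.ip (c := 0) (by omega)).trans_eq (pow_zero t))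
  · have b := nv_sub_le (h - S.h O 3) (it (S'.J O') (S'.y O') 3 - S.h O 3)
    rw [sub_sub_sub_cancel_right] at b
    refine sn_mono (a := 2 * t ^ 253000) ?_ c2
    linarith [sn_mono c c1]

/-- (a) + (c): the step of the channel between two good points -/
theorem det_gen : ∃ a : ℕ, Ev fun L t => ∀ (n : ℕ) (S S' : Dat n) (O O' : OG n) (R : Mat n)
    (x ξ : Vec n) (δ : ℝ) (h h' : Vec n), Adm L t S → Good t S O → Adm L t S' → Good t S' O' →
    Rᵀ = R → OpLe R 1 → (∀ i, |x i| ≤ 1) → nv ξ ≤ n → 0 ≤ δ → ((n : ℝ) ^ a) ^ 8 * δ ≤ 1 →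
    S'.J O' = S.J O - δ • (R * Rᵀ) → S'.y O' = S.y O + δ • ((R * Rᵀ) *ᵥ x) + √δ • (R *ᵥ ξ) →
    nv (h - S.h O 3) ≤ √n * t ^ 253000 → nv (h' - S'.h O' 3) ≤ √n * t ^ 252000 →
    (∀ i, |rs1 (S.J O) (S.y O) h i| ≤ δ ^ 2) → (∀ i, |rs1 (S'.J O') (S'.y O') h' i| ≤ δ ^ 2) →
    Br.GS ((n : ℝ) ^ a) (t⁻¹ ^ 288202) δ (S.J O) (S'.J O') (S.y O) (S'.y O') h h' := by
  obtain ⟨Q, hQ⟩ := near_close
  refine ⟨Q + 5, ((ev_sm.and hQ).and d6Stmt).mono ?_⟩
  rintro L t - ⟨⟨hs, hc⟩, h6⟩ n S S' O O' R x ξ δ h h' A G A' G' hR oR hx hξ d0 hδ eJ ey N N' r r'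
  have n0 := n40 hs A
  have n1 : (1 : ℝ) ≤ n := by linarith
  have s0 := Real.sqrt_nonneg δ
  have s1 : (1 : ℝ) ≤ √n := Real.one_le_sqrt.2 n1
  have s2 : √(n : ℝ) ≤ n := Real.sqrt_le_iff.2 ⟨by linarith, by nlinarith⟩
  have ss := Real.mul_self_sqrt d0
  have k1 : ((n : ℝ) ^ (Q + 5)) ^ 4 * √δ ≤ 1 := by
    refine (sq_le_one_iff₀ (mul_nonneg (pow_nonneg (pow_nonneg (Nat.cast_nonneg n) _) _) s0)).1 ?_
    rwa [mul_pow, Real.sq_sqrt d0, ← pow_mul _ 4 2]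
  have pw : ∀ {a b : ℕ}, a ≤ b → (n : ℝ) ^ a * √δ ≤ (n : ℝ) ^ b * √δ := fun hab =>
    mul_le_mul_of_nonneg_right (pow_le_pow_right₀ n1 hab) s0
  rw [← pow_mul] at k1
  have s3 : √δ ≤ 1 := by simpa using (pw (Nat.zero_le _)).trans k1
  have s4 : δ ≤ √δ := by nlinarith
  obtain ⟨e, he⟩ : ∃ e, e = (n : ℝ) ^ 2 * √δ := ⟨_, rfl⟩
  have e1 : 2 * (n * √δ) ≤ e := by
    rw [he]
    nlinarith [mul_nonneg (sub_nonneg.2 n0) (mul_nonneg (Nat.cast_nonneg n) s0)]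
  have e2 : √δ ≤ n * √δ := le_mul_of_one_le_left s0 n1
  have e0 : 0 ≤ e := by linarith
  have t1 : t⁻¹ ≤ n := by simpa using ip_le_n hs A (a := 1) (by norm_num)
  have eQ : e ≤ t ^ Q := by
    have b1 : t⁻¹ ^ Q ≤ (n : ℝ) ^ Q := pow_le_pow_left₀ hs.inv0.le t1 Q
    have b2 : t⁻¹ ^ Q * e ≤ 1 := by
      refine (mul_le_mul_of_nonneg_right b1 e0).trans (le_trans (le_of_eq ?_)
        ((pw (a := Q + 2) (by omega)).trans k1))
      rw [he]
      ring
    rwa [inv_pow, inv_mul_le_iff₀ (hs.p0 Q), mul_one] at b2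
  have oRR : OpLe (R * Rᵀ) 1 := by
    rw [hR]
    simpa using oR.mulN oR zero_le_one zero_le_one
  have dJ : OpLe (S'.J O' - S.J O) e := by
    rw [eJ, sub_sub_cancel_left, ← neg_smul]
    refine (oRR.smul zero_le_one _).monoN (by positivity) ?_
    rw [abs_neg, abs_of_nonneg d0]
    linarith
  have dy : nv (S'.y O' - S.y O) ≤ √n * e := by
    have b1 := nv_add_le (δ • ((R * Rᵀ) *ᵥ x)) (√δ • (R *ᵥ ξ))
    rw [nv_smul, nv_smul, abs_of_nonneg d0, abs_of_nonneg s0] at b1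
    have b2 := mul_le_mul_of_nonneg_left ((oRR.nv_le zero_le_one x).trans
      ((one_mul _).trans_le ((nv_le_sqrt_n hx).trans s2))) d0
    have b3 := mul_le_mul_of_nonneg_left ((oR.nv_le zero_le_one ξ).trans
      ((one_mul _).trans_le hξ)) s0
    have b4 := mul_le_mul_of_nonneg_right s4 (Nat.cast_nonneg (α := ℝ) n)
    have b5 := le_mul_of_one_le_left e0 s1
    rw [ey, add_assoc, add_sub_cancel_left]
    linarith
  have d2 : δ ^ 2 ≤ e := by nlinarith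
  have rr : ∀ v : Vec n, (∀ i, |v i| ≤ δ ^ 2) → nv v ≤ √n * e := fun v hv =>
    sn_mono ((nv_le_sqrt (sq_nonneg δ) hv).trans_eq (mul_comm _ _)) d2
  obtain ⟨c1, c2⟩ := hc n S S' O O' h h' e A G A' G' e0 eQ dJ dy N N' (rr _ r) (rr _ r')
  have kn := ip_le_n hs A (a := 288002) (by norm_num)
  have kp : ∀ j : ℕ, e * (t⁻¹ ^ 288002) ^ j ≤ (n : ℝ) ^ (j + 2) * √δ := fun j => by
    refine (mul_le_mul_of_nonneg_left (pow_le_pow_left₀ (hs.i0 _).le kn j) e0).trans (le_of_eq ?_)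
    rw [he]
    ring
  have B : Ball t (S.J O) (S.y O) h := sn_mono N (hs.pw (by norm_num))
  have nK : (n : ℝ) ≤ (n : ℝ) ^ (Q + 5) := le_self_pow₀ n1 (by omega)
  refine ⟨(ball_loc hs A (h6 n S O A G) B).mono nK, (ball_loc hs A' (h6 n S' O' A' G') N').mono nK,
    fun i => ?_, ?_, r, (T1A.zh_spec A.npos (S.J_tr O) h).2, r',
    (T1A.zh_spec A.npos (S'.J_tr O') h').2, ball_gm hs A (h6 n S O A G) B⟩
  · rw [← pow_mul, abs_sub_comm]
    refine (abs_le_nv (h - h') i).trans ((sn_mono c1 (kp 11)).trans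
      ((mul_le_mul_of_nonneg_right s2 (by positivity)).trans (le_trans (le_of_eq ?_)
        (pw (a := 14) (by omega)))))
    ring
  · rw [← pow_mul]
    exact c2.trans ((kp 18).trans (pw (by omega)))

/-- the residual at depth `n + 3` is below every exponentially small scale -/
theorem res_small (hs : Sm L t) (out : Out t S O) {δ : ℝ} (hδ : Real.exp (-(n : ℝ)) ≤ δ) (j : ℕ)
    (i : Fin n) : |rs1 (S.J O) (S.y O) (S.h O (n + j + 3)) i| ≤ δ ^ 2 := by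
  have e3 : Real.exp 3 ≤ 10 ^ 40 := by
    have h1 : Real.exp 3 = Real.exp 1 ^ 3 := by rw [← Real.exp_nat_mul]; norm_num
    have h2 : Real.exp 1 ^ 3 ≤ 3 ^ 3 :=
      pow_le_pow_left₀ (Real.exp_pos 1).le (by linarith [Real.exp_one_lt_d9]) 3
    linarith
  have t3 : t ≤ Real.exp (-3) := by
    rw [Real.exp_neg, ← one_div, le_div_iff₀ (Real.exp_pos 3), mul_comm]
    exact hs.c1 e3
  have a1 : t ^ (399000 + 1000 * (n + j)) ≤ Real.exp (-3) ^ n :=
    (hs.pw (by omega)).trans (pow_le_pow_left₀ hs.pos.le t3 n)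
  have a2 : √(n : ℝ) ≤ Real.exp n := by
    have := Real.add_one_le_exp (n : ℝ)
    refine Real.sqrt_le_iff.2 ⟨(Real.exp_pos _).le, ?_⟩
    nlinarith [Nat.cast_nonneg (α := ℝ) n]
  refine (abs_le_nv _ i).trans ((out.res (n + j)).trans ((mul_le_mul a2 a1 (hs.p0 _).le
    (Real.exp_pos _).le).trans (le_trans (le_of_eq ?_)
      (pow_le_pow_left₀ (Real.exp_pos _).le hδ 2))))
  rw [← Real.exp_nat_mul, ← Real.exp_nat_mul, ← Real.exp_add]
  congr 1
  push_cast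
  ring

/-- (DET) -/
theorem detStmt : Br.DetStmt := by
  obtain ⟨a, ha⟩ := det_gen
  refine ⟨a, ((ev_sm.and ha).and d6Stmt).mono ?_⟩
  rintro L t - ⟨⟨hs, hc⟩, h6⟩
  refine ⟨t⁻¹ ^ 288202, hs.i1 _, Eventually.of_forall ?_⟩
  intro n S S' O O' R x ξ δ A G A' G' hR oR hx hξ hδ k eJ ey
  exact hc n S S' O O' R x ξ δ _ _ A G A' G' hR oR hx hξ ((Real.exp_pos _).le.trans hδ) k eJ ey
    (sn_mono ((h6 n S O A G).stay n) (hs.pw (by norm_num)))
    (sn_mono ((h6 n S' O' A' G').stay n) (hs.pw (by norm_num)))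
    (res_small hs (h6 n S O A G) hδ 0) (res_small hs (h6 n S' O' A' G') hδ 0)

end Vale.Agent.N150.TapG
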