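import Vale.Agent.N150.TapGen
import Vale.Agent.N150.M0Def

/-! The locally good step for selectors of exact solutions. -/

open Matrix Filter Topology

namespace Vale.Agent.N150.TapG

open Vale.Agent.P150 Vale.Agent.P150.F Vale.Agent.N150.EC Vale.Agent.N150.Sp Vale.Agent.N150.T1

variable {n : ℕ}

theorem tapSt_of_GS {K Λ δ : ℝ} {J J' : Mat n} {y y' h h' : Vec n}
    (g : Br.GS K Λ δ J J' y y' h h') : Cap.TapSt K δ J y h (zh J h) J' y' h' (zh J' h') :=
  ⟨g.loc, g.loc', g.dh, g.dz, g.r1, by rw [g.r2, abs_zero]; exact sq_nonneg δ, g.r1',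
    by rw [g.r2', abs_zero]; exact sq_nonneg δ⟩

/-- exact solutions near the centre -/
def Exact (hs : M0.HS) : Prop := Ev fun L t => ∀ (n : ℕ) (S : Dat n) (O : OG n),
  Adm L t S → Good t S O → nv (hs n (S.J O) (S.y O) - S.h O 3) ≤ √n * t ^ 253000 ∧
    rs1 (S.J O) (S.y O) (hs n (S.J O) (S.y O)) = 0

theorem detM_of {hs : M0.HS} (H : Exact hs) : M0.DetM hs := by
  obtain ⟨a, ha⟩ := det_gen
  refine ⟨a, ((ev_sm.and ha).and H).mono ?_⟩
  rintro L t - ⟨⟨sm, hc⟩, he⟩ n S S' O O' R x ξ δ A G A' G' hR oR hx hξ hδ k eJ ey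
  obtain ⟨a1, a2⟩ := he n S O A G
  obtain ⟨b1, b2⟩ := he n S' O' A' G'
  refine tapSt_of_GS (hc n S S' O O' R x ξ δ _ _ A G A' G' hR oR hx hξ hδ.le k eJ ey a1
    (T1C.sn_mono b1 (sm.pw (by norm_num))) (fun i => ?_) fun i => ?_)
  · rw [a2, Pi.zero_apply, abs_zero]
    exact sq_nonneg δ
  · rw [b2, Pi.zero_apply, abs_zero]
    exact sq_nonneg δ

theorem nearM_of {hs : M0.HS} (H : Exact hs) : M0.NearM hs := by
  refine (ev_sm.and H).mono ?_
  rintro L t - ⟨sm, he⟩ n S O A G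
  have a1 := (he n S O A G).1
  refine ⟨T1C.sn_mono a1 (sm.pw (by norm_num)), ?_⟩
  have b := nv_add_le (hs n (S.J O) (S.y O) - S.h O 3) (S.h O 3 - S.hc t O)
  rw [sub_add_sub_cancel] at b
  have c1 := T1C.sn_mono G.base.clp (sm.pw (b := 253000) (by norm_num))
  have c2 := mul_le_mul_of_nonneg_left
    (sm.cp (C := 4) (by norm_num) (a := 253000) (b := 252000) (by norm_num)) (Real.sqrt_nonneg n)
  linarith

end Vale.Agent.N150.TapG
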