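import Vale.Agent.N150.TapHlM
import Vale.Agent.N150.TapGenM

/-! P150: the deterministic step for the limit selector. -/

namespace Vale.Agent.N150.Tap

theorem exactL : TapG.Exact hsL := fun L hL =>
  (evPk L hL).mono fun _ h n S O ha g =>
    ⟨(hl_near (h n S O ha) g).trans ((h n S O ha).sc ((h n S O ha).sm.pw (by norm_num))),
      hl_res (h n S O ha) g⟩

theorem detM : M0.DetM hsL := TapG.detM_of exactL

end Vale.Agent.N150.Tap
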