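import Vale.Agent.N150.AsmTop
import Vale.Agent.N150.EndTQ
import Vale.Agent.N150.BrKB
import Vale.Agent.N150.BrMeas
import Vale.Agent.N150.KBMain
import Vale.Agent.N150.KBTyp
import Vale.Agent.N150.KBDet
import Vale.Agent.N150.T1Ce
import Vale.Agent.N150.T1Meas
import Vale.Agent.N150.D6c
import Vale.Agent.N150.X3Main
import Vale.Agent.N150.X4
import Vale.Agent.N150.Adm4
import Vale.Agent.N150.M0Def
import Vale.Agent.N150.T2Cv
import Vale.Agent.N150.T2Fib
import Vale.Agent.N150.T2F3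
import Vale.Agent.N150.T2Q2
import Vale.Agent.N150.T2P4
import Vale.Agent.N150.T2A8
import Vale.Agent.N150.TapGen
import Vale.Agent.N150.TapHlD
import Vale.Agent.N150.T2A3
import Vale.Agent.N150.T2LFr
import Vale.Agent.N150.T2LP
import Vale.Agent.N150.T2M4b
import Vale.Agent.N150.T2W3
import Vale.Agent.N150.T2X2
import Vale.Agent.N150.TapQ0
import Vale.Agent.N150.T2M2b
import Vale.Agent.N150.T2M3c
import Vale.Agent.N150.T2B4
import Vale.Agent.N150.T2Tr
import Vale.Agent.N150.BrMain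
import Vale.Agent.N150.EndTL4
import Vale.Agent.N150.CritFin
import Vale.Agent.N150.AsmMain

/-! P150 at the critical point: the integration file.  `Open` lists what is still unproved. -/

open Filter

namespace Vale.Agent.N150.Plan

theorem t1 : T1.T1Stmt := T1.t1_of X3P.x3Stmt X4.x4Stmt T1.sprStmt

theorem kbDet : KB.KBDetStmt :=
  KBD.kbDet_of T1A.zStmt T1A.d1Stmt T1A.d2Stmt T1.d4Stmt D6.d6Stmt

theorem kb : KB.KBStmt := KB.kb_of KB.typStmt

theorem kbT1 : KB.KBT1Stmt := KBT.kbT1_of kb kbDet X3P.x3Stmt t1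

theorem kbSel : KBT.KBSelStmt := KBT.kbSel_of kb kbDet X3P.x3Stmt t1

theorem kbb : Br.KBB := Br.kbb_of kbT1

theorem fib : T2.FibStmt :=
  T2Z.fib_of T2Q.qStmt T2F.fStmt (T2M4.m4Stmt_of T2M.m2Stmt (T2M3.m3_of T2M.m2Stmt))

theorem pt : T2.PtStmt :=
  T2.pt_of T2LV.frStmt T2A.a4Stmt T2A7.a7Stmt T2A.a2Stmt T2B.l3Stmt T2B.bStmt

theorem t2 : T2.T2Stmt := T2X.t2_of t1 D6.d6Stmt T2L.progStmt T2LV.rlStmt T2W.wStmt pt fib

theorem t2Q (lo : ℕ → ℝ) : TapQ.T2Q lo Tap.hsL := by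
  obtain ⟨C, e, he, h⟩ := T2Tr.t2Hl_of t2
  obtain ⟨u, hu, h2⟩ := (mem_nhdsGT_iff_exists_Ioc_subset).1 (h 1000 (by norm_num))
  refine ⟨C, e, u, he, hu, Eventually.of_forall ?_⟩
  intro n lam yt x xt s t z0 K μ _ hS ht htu hts _ hl hKs hy _ hA hX hF
  exact h2 ⟨ht, htu⟩ n _ s z0 K lam yt x xt μ _ hS hts hy rfl hA hX hF hl hKs

/-- the reference means -/
noncomputable abbrev sel : Br.Sel := M0.selOf Tap.hsL

/-- the reference mean -/
noncomputable abbrev cen : ∀ n, P150.F.Mat n → P150.F.Vec n → P150.F.Vec n := fun n => sel n 0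

theorem br : Br.BrStmt sel sel := Br.brStmt_of t1 TapG.detStmt Br.admB kbb Tap.selOK Tap.selOK

theorem refOK : ETL.RefOK Tap.hsL := by
  refine ⟨fun n => measurable_pi_iff.2 fun i => Measurable.liminf fun j =>
    measurable_pi_iff.1 (ETL.mp_it j) i, Tap.hlStmt.mono fun L t _ H n S O hA hG => ?_⟩
  refine ⟨(H n S O hA hG).near, ?_⟩
  have h := (H n S O hA hG).res
  exact (congrArg P150.F.nv h).le.trans (by simp [P150.F.nv])

theorem tl : End.TLStmt cen := ETL.tlStmt_of D6.d6Stmt t1 refOK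

theorem term : Asm.TermQ cen := End.termQ_of_TL Tap.selOK br tl 0

/-- the open statements -/
structure Open : Prop where
  tap : ∀ lo, TapQ.T2Q lo Tap.hsL → Asm.TapQ lo cen

theorem Open.path (h : Open) : Red.PathHg (2 / 3) := by
  refine Asm.pathHg_of (a := 1) ?_ (Asm.pathH_of (h.tap _ (t2Q fun _ => 0)) term)
  exact Eventually.of_forall fun n => by simpa using Real.log_natCast_nonneg n

theorem upStmt_of (h : Open) : UpStmt := Red.upStmt_of_pathH h.path

theorem upFull_of (h : Open) : UpFull := N150.upFull_of h.path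

end Vale.Agent.N150.Plan
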