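import Vale.Agent.N150.RadMeas

set_option linter.all false

/-! Quadratic growth of the noise term of the spherical reference. -/

open Matrix Finset MeasureTheory

namespace Vale.Agent.N150.Rad

open Vale.Agent.P150 Vale.Agent.P150.F Vale.Agent.N150.EC Vale.Agent.N150.Sp Vale.Agent.N150.Cap

variable {n : ℕ}

theorem br_smul (J : Mat n) (y : Vec n) (c : ℝ) (b : Vec n) :
    br J y (c • b) = c ^ 2 • br J y b := bs_smul J y _ c b

theorem abs_le_nv' (v : Vec n) (i : Fin n) : |v i| ≤ nv v := by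
  rw [nv_eq_sqrt]
  refine Real.abs_le_sqrt ?_
  exact Finset.single_le_sum (f := fun j => v j ^ 2) (fun j _ => sq_nonneg _) (Finset.mem_univ i)

/-- `br` is bounded by a multiple of `sq b`, for every `b` -/
theorem br_quad : ∃ p : ℕ, ∀ (n : ℕ) (K : ℝ) (lam : Vec n) (O : OG n) (y b : Vec n),
    0 < n → 2 ≤ K → (n : ℝ) ≤ K → (∀ a, |lam a| ≤ K) → (∀ i, |y i| ≤ K) →
    ∀ i, |br (JO lam O) y b i| ≤ K ^ p * F.sq b := by
  obtain ⟨p, hp⟩ := crude_root
  refine ⟨p, fun n K lam O y b hn hK hnK hl hy i => ?_⟩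
  rcases eq_or_lt_of_le (nv_nonneg b) with h0 | h0
  · have hb : b = (0 : ℝ) • b := by
      funext j
      have := abs_le_nv' b j
      rw [← h0] at this
      rw [abs_nonpos_iff.1 this, Pi.smul_apply, smul_eq_mul, zero_mul]
    rw [hb, br_smul, ← hb, ← nv_sq, ← h0]
    simp
  · have hb : b = nv b • ((nv b)⁻¹ • b) := by
      rw [smul_smul, mul_inv_cancel₀ h0.ne', one_smul]
    have h1 := (hp n K lam (fun _ => 0) O y ((nv b)⁻¹ • b) hn hK hnK hl (fun _ => le_rfl)
      (fun _ => by linarith) hy fun j => ?_).2.2.1 i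
    · conv_lhs => rw [hb, br_smul]
      rw [Pi.smul_apply, smul_eq_mul, abs_mul, abs_of_nonneg (sq_nonneg _), nv_sq, mul_comm]
      exact mul_le_mul_of_nonneg_right h1 (sqN_nonneg b)
    · rw [Pi.smul_apply, smul_eq_mul, abs_mul, abs_of_pos (inv_pos.2 h0), inv_mul_le_iff₀ h0]
      have := abs_le_nv' b j
      nlinarith

end Vale.Agent.N150.Rad
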