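import Vale.Agent.N150.RadStep
import Vale.Agent.N150.CapDef
import Vale.Agent.N150.SphLow
import Vale.Agent.N150.Fib0
import Vale.Agent.N150.HaarB

set_option linter.all false

/-! The spherical saddle point as a function of `(J, y)`: existence, uniqueness, measurability,
micro step. -/

open Matrix Finset MeasureTheory

namespace Vale.Agent.N150.Rad

open Vale.Agent.P150 Vale.Agent.P150.F Vale.Agent.N150.EC Vale.Agent.N150.Sp Vale.Agent.N150.Cap

variable {n : ℕ}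

/-! ### the root in the eigenframe -/

theorem sadF_sub_ge {lam yt : Vec n} {g1 g2 M : ℝ} (h1 : ∀ a, lam a < g1) (h12 : g1 ≤ g2)
    (hM : ∀ a, g2 - lam a ≤ M) :
    n * ((g2 - g1) / M ^ 2) ≤ sadF lam yt g1 - sadF lam yt g2 := by
  unfold sadF
  rw [← Finset.sum_sub_distrib]
  have : (n : ℝ) * ((g2 - g1) / M ^ 2) = ∑ _a : Fin n, (g2 - g1) / M ^ 2 := by simp
  rw [this]
  refine Finset.sum_le_sum fun a _ => ?_
  have p1 : 0 < g1 - lam a := sub_pos.2 (h1 a)
  have p2 : 0 < g2 - lam a := by linarith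
  have p3 : g1 - lam a ≤ g2 - lam a := by linarith
  have e1 : 1 / (g1 - lam a) - 1 / (g2 - lam a) = (g2 - g1) / ((g1 - lam a) * (g2 - lam a)) := by
    field_simp
    ring
  have e2 : (g2 - g1) / M ^ 2 ≤ (g2 - g1) / ((g1 - lam a) * (g2 - lam a)) := by
    refine div_le_div_of_nonneg_left (by linarith) (by positivity) ?_
    have := hM a
    nlinarith
  have e3 : yt a ^ 2 / (g2 - lam a) ^ 2 ≤ yt a ^ 2 / (g1 - lam a) ^ 2 :=
    div_le_div_of_nonneg_left (sq_nonneg _) (by positivity) (pow_le_pow_left₀ p1.le p3 2)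
  linarith

theorem exists_bd (lam : Vec n) (g : ℝ) : ∃ M, 0 < M ∧ ∀ a, g - lam a ≤ M := by
  refine ⟨1 + ∑ a, |g - lam a|, by positivity, fun a => ?_⟩
  have := Finset.single_le_sum (f := fun a => |g - lam a|) (fun a _ => abs_nonneg _)
    (Finset.mem_univ a)
  linarith [le_abs_self (g - lam a)]

theorem sadF_anti {lam yt : Vec n} {g1 g2 : ℝ} (h1 : ∀ a, lam a < g1) (h12 : g1 ≤ g2) :
    sadF lam yt g2 ≤ sadF lam yt g1 := by
  obtain ⟨M, hM0, hM⟩ := exists_bd lam g2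
  have h := sadF_sub_ge (yt := yt) h1 h12 hM
  have : 0 ≤ (n : ℝ) * ((g2 - g1) / M ^ 2) :=
    mul_nonneg (Nat.cast_nonneg _) (div_nonneg (by linarith) (sq_nonneg _))
  linarith

theorem sadF_strict (hn : 0 < n) {lam yt : Vec n} {g1 g2 : ℝ} (h1 : ∀ a, lam a < g1)
    (h12 : g1 < g2) : sadF lam yt g2 < sadF lam yt g1 := by
  obtain ⟨M, hM0, hM⟩ := exists_bd lam g2
  have h := sadF_sub_ge (yt := yt) h1 h12.le hM
  have hn' : (0 : ℝ) < n := by exact_mod_cast hn
  have : 0 < (n : ℝ) * ((g2 - g1) / M ^ 2) :=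
    mul_pos hn' (div_pos (by linarith) (by positivity))
  linarith

open Classical in
/-- the saddle point in the eigenframe -/
noncomputable def zs (lam yt : Vec n) : ℝ :=
  if h : ∃ g, (∀ a, lam a < g) ∧ sadF lam yt g = n then h.choose else 0

theorem exists_root (hn : 0 < n) (lam yt : Vec n) :
    ∃ g, (∀ a, lam a + 1 / n ≤ g) ∧ sadF lam yt g = n := by
  have hn' : (0 : ℝ) < n := by exact_mod_cast hn
  obtain ⟨B, -, hB⟩ := exists_bd (-lam) 0
  have hl : ∀ a, lam a ≤ B := fun a => by simpa using hB a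
  have h0 : 0 ≤ F.sq yt / n := div_nonneg (sqN_nonneg _) hn'.le
  obtain ⟨g, h1, -, h3⟩ := exists_saddle hn hn' (lam := lam) (yt := yt)
    (γ₁ := B + 1 + F.sq yt / n) (fun a => by linarith [hl a]) (sadF_crude hn hl)
  exact ⟨g, h1, h3⟩

theorem root_unique (hn : 0 < n) {lam yt : Vec n} {g g' : ℝ} (h : ∀ a, lam a < g)
    (h' : ∀ a, lam a < g') (e : sadF lam yt g = n) (e' : sadF lam yt g' = n) : g = g' := by
  rcases lt_trichotomy g g' with h1 | h1 | h1
  · linarith [sadF_strict hn (yt := yt) h h1]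
  · exact h1
  · linarith [sadF_strict hn (yt := yt) h' h1]

theorem zs_spec (hn : 0 < n) (lam yt : Vec n) :
    (∀ a, lam a < zs lam yt) ∧ sadF lam yt (zs lam yt) = n := by
  have hn' : (0 : ℝ) < n := by exact_mod_cast hn
  have hex : ∃ g, (∀ a, lam a < g) ∧ sadF lam yt g = n := by
    obtain ⟨g, h1, h2⟩ := exists_root hn lam yt
    have : 0 < 1 / (n : ℝ) := by positivity
    exact ⟨g, fun a => by linarith [h1 a], h2⟩
  unfold zs
  rw [dif_pos hex]
  exact hex.choose_spec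

theorem lt_zs (hn : 0 < n) (lam yt : Vec n) (a : Fin n) : lam a < zs lam yt :=
  (zs_spec hn lam yt).1 a

theorem sadF_zs (hn : 0 < n) (lam yt : Vec n) : sadF lam yt (zs lam yt) = n :=
  (zs_spec hn lam yt).2

theorem zs_eq (hn : 0 < n) {lam yt : Vec n} {g : ℝ} (h : ∀ a, lam a < g)
    (e : sadF lam yt g = n) : zs lam yt = g :=
  root_unique hn (lt_zs hn lam yt) h (sadF_zs hn lam yt) e

theorem gap_zs (hn : 0 < n) (lam yt : Vec n) (a : Fin n) : 1 / n ≤ zs lam yt - lam a := by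
  have hn' : (0 : ℝ) < n := by exact_mod_cast hn
  obtain ⟨g, h1, h2⟩ := exists_root hn lam yt
  have : 0 < 1 / (n : ℝ) := by positivity
  rw [zs_eq hn (fun a => by linarith [h1 a]) h2]
  linarith [h1 a]

theorem zs_le_iff (hn : 0 < n) {lam yt : Vec n} {g : ℝ} (h : ∀ a, lam a < g) :
    zs lam yt ≤ g ↔ sadF lam yt g ≤ n := by
  constructor
  · intro h1
    have := sadF_anti (yt := yt) (lt_zs hn lam yt) h1
    rwa [sadF_zs hn] at this
  · intro h1
    by_contra h2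
    have := sadF_strict hn (yt := yt) h (not_le.1 h2)
    rw [sadF_zs hn] at this
    linarith

theorem le_zs_iff (hn : 0 < n) {lam yt : Vec n} {g : ℝ} (h : ∀ a, lam a < g) :
    g ≤ zs lam yt ↔ n ≤ sadF lam yt g := by
  constructor
  · intro h1
    have := sadF_anti (yt := yt) h h1
    rwa [sadF_zs hn] at this
  · intro h1
    by_contra h2
    have := sadF_strict hn (yt := yt) (lt_zs hn lam yt) (not_le.1 h2)
    rw [sadF_zs hn] at this
    linarith

theorem zs_le_crude (hn : 0 < n) {lam : Vec n} (yt : Vec n) {B : ℝ} (hl : ∀ a, lam a ≤ B) :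
    zs lam yt ≤ B + 1 + F.sq yt / n := by
  have hn' : (0 : ℝ) < n := by exact_mod_cast hn
  have h0 : 0 ≤ F.sq yt / n := div_nonneg (sqN_nonneg _) hn'.le
  exact (zs_le_iff hn fun a => by linarith [hl a]).2 (sadF_crude hn hl)

theorem measurable_zs {X : Type*} [MeasurableSpace X] {lam yt : X → Vec n} (hn : 0 < n)
    (hl : Measurable lam) (hy : Measurable yt) : Measurable fun x => zs (lam x) (yt x) := by
  refine measurable_of_Iic fun c => ?_
  have e : (fun x => zs (lam x) (yt x)) ⁻¹' Set.Iic c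
      = (⋂ a, {x | lam x a < c}) ∩ {x | sadF (lam x) (yt x) c ≤ n} := by
    ext x
    simp only [Set.mem_preimage, Set.mem_Iic, Set.mem_inter_iff, Set.mem_iInter, Set.mem_setOf_eq]
    constructor
    · intro h
      have h1 : ∀ a, lam x a < c := fun a => (lt_zs hn _ _ a).trans_le h
      exact ⟨h1, (zs_le_iff hn h1).1 h⟩
    · intro h
      exact (zs_le_iff hn h.1).2 h.2
  rw [e]
  refine (MeasurableSet.iInter fun a => measurableSet_lt
    ((measurable_pi_apply a).comp hl) measurable_const).inter (measurableSet_le ?_ measurable_const)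
  unfold sadF
  refine Finset.measurable_sum _ fun a _ => ?_
  have h1 : Measurable fun x => lam x a := (measurable_pi_apply a).comp hl
  have h2 : Measurable fun x => yt x a := (measurable_pi_apply a).comp hy
  fun_prop

/-- the root is Lipschitz in the data -/
theorem abs_zs_sub_le (hn : 0 < n) {lam yt : Vec n} {g M : ℝ} (h : ∀ a, lam a < g)
    (hM : ∀ a, g - lam a ≤ M) (hM' : ∀ a, zs lam yt - lam a ≤ M) :
    |zs lam yt - g| ≤ M ^ 2 * |sadF lam yt g - n| := by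
  have hn' : (1 : ℝ) ≤ n := by exact_mod_cast hn
  have hM0 : 0 < M := by linarith [h ⟨0, hn⟩, hM ⟨0, hn⟩]
  have key : ∀ d s : ℝ, 0 ≤ d → n * (d / M ^ 2) ≤ s → d ≤ M ^ 2 * |s| := by
    intro d s hd hs
    have h1 : d / M ^ 2 ≤ n * (d / M ^ 2) :=
      le_mul_of_one_le_left (by positivity) hn'
    have h2 : d / M ^ 2 ≤ |s| := h1.trans (hs.trans (le_abs_self _))
    rw [div_le_iff₀ (by positivity)] at h2
    linarith
  rcases le_total g (zs lam yt) with h1 | h1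
  · have h2 := sadF_sub_ge (yt := yt) h h1 hM'
    rw [sadF_zs hn] at h2
    rw [abs_of_nonneg (sub_nonneg.2 h1)]
    exact key _ _ (sub_nonneg.2 h1) h2
  · have h2 := sadF_sub_ge (yt := yt) (lt_zs hn lam yt) h1 hM
    rw [sadF_zs hn] at h2
    rw [abs_sub_comm, abs_of_nonneg (sub_nonneg.2 h1), abs_sub_comm]
    exact key _ _ (sub_nonneg.2 h1) h2

/-! ### matrices in the eigenframe -/

theorem JO_symm (u : Vec n) (O : OG n) : (JO u O).IsSymm := JO_transpose u O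

theorem JO_sub (u v : Vec n) (O : OG n) : JO (fun a => u a - v a) O = JO u O - JO v O := by
  have := JO_sub_smul u v 1 O
  simpa using this

theorem JO_smul (c : ℝ) (v : Vec n) (O : OG n) : JO (fun a => c * v a) O = c • JO v O := by
  unfold JO
  have e : Matrix.diagonal (fun a => c * v a) = c • Matrix.diagonal v := by
    ext i j
    simp only [Matrix.diagonal_apply, Matrix.smul_apply, smul_eq_mul]
    split_ifs <;> simp
  rw [e, Matrix.mul_smul, Matrix.smul_mul]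

theorem Nm_JO (lam : Vec n) (O : OG n) (z : ℝ) : Nm (JO lam O) z = JO (fun a => z - lam a) O := by
  unfold Nm
  rw [← JO_one O, ← JO_smul, ← JO_sub]
  simp

theorem trace_JO (u : Vec n) (O : OG n) : (JO u O).trace = ∑ a, u a := by
  unfold JO
  rw [Matrix.trace_mul_comm, ← Matrix.mul_assoc, OG.mul_transpose, Matrix.one_mul,
    Matrix.trace_diagonal]

theorem JO_mul_inv {u : Vec n} (O : OG n) (h : ∀ a, u a ≠ 0) :
    JO u O * JO (fun a => (u a)⁻¹) O = 1 := by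
  rw [JO_mul, ← JO_one O]
  congr 1
  funext a
  exact mul_inv_cancel₀ (h a)

theorem unit_Nm {lam : Vec n} (O : OG n) {z : ℝ} (h : ∀ a, lam a < z) :
    IsUnit (Nm (JO lam O) z).det := by
  rw [Nm_JO]
  exact Matrix.isUnit_det_of_right_inverse (JO_mul_inv O fun a => (sub_pos.2 (h a)).ne')

theorem G0_JO {lam : Vec n} (O : OG n) {z : ℝ} (h : ∀ a, lam a < z) :
    G0 (JO lam O) z = JO (fun a => (z - lam a)⁻¹) O := by
  unfold G0
  rw [Nm_JO]
  exact Matrix.inv_eq_right_inv (JO_mul_inv O fun a => (sub_pos.2 (h a)).ne')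

theorem sq_tr (O : OG n) (v : Vec n) : F.sq (O.1ᵀ *ᵥ v) = F.sq v := by
  rw [← sq_act O, OG.mulVec_tr_mulVec]

theorem ip_JO (u : Vec n) (O : OG n) (v w : Vec n) :
    ip v (JO u O *ᵥ w) = ∑ a, u a * ((O.1 *ᵥ v) a * (O.1 *ᵥ w) a) := by
  rw [← ip_act O, act_JO]
  unfold ip
  exact Finset.sum_congr rfl fun a _ => by ring

theorem sq_JO (u : Vec n) (O : OG n) (v : Vec n) :
    F.sq (JO u O *ᵥ v) = ∑ a, u a ^ 2 * (O.1 *ᵥ v) a ^ 2 := by
  rw [← sq_act O, act_JO]
  unfold F.sq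
  exact Finset.sum_congr rfl fun a _ => by ring

theorem res_JO {lam : Vec n} (O : OG n) (y : Vec n) {z : ℝ} (h : ∀ a, lam a < z) :
    res (JO lam O) y z = sadF lam (O.1 *ᵥ y) z - n := by
  unfold res pm sadF
  rw [G0_JO O h, trace_JO, sq_JO, Finset.sum_add_distrib]
  congr 2
  · exact Finset.sum_congr rfl fun a _ => (one_div _).symm
  · exact Finset.sum_congr rfl fun a _ => by rw [inv_pow, div_eq_inv_mul]

theorem T2_JO {lam : Vec n} (O : OG n) {z : ℝ} (h : ∀ a, lam a < z) :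
    T2 (JO lam O) z = ∑ a, ((z - lam a) ^ 2)⁻¹ := by
  unfold T2
  rw [G0_JO O h, JO_mul, trace_JO]
  exact Finset.sum_congr rfl fun a _ => by rw [← mul_inv, pow_two]

theorem T3_JO {lam : Vec n} (O : OG n) {z : ℝ} (h : ∀ a, lam a < z) :
    T3 (JO lam O) z = ∑ a, ((z - lam a) ^ 3)⁻¹ := by
  unfold T3
  rw [G0_JO O h, JO_mul, JO_mul, trace_JO]
  exact Finset.sum_congr rfl fun a _ => by rw [← mul_inv, ← mul_inv]; ring_nf

theorem Dn_JO {lam : Vec n} (O : OG n) (y : Vec n) {z : ℝ} (h : ∀ a, lam a < z) :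
    Dn (JO lam O) y z = ∑ a, (((z - lam a) ^ 2)⁻¹ + 2 * ((O.1 *ᵥ y) a ^ 2 / (z - lam a) ^ 3)) := by
  unfold Dn am pm
  rw [T2_JO O h, G0_JO O h, ip_JO, act_JO, Finset.mul_sum, ← Finset.sum_add_distrib]
  refine Finset.sum_congr rfl fun a _ => ?_
  have : z - lam a ≠ 0 := (sub_pos.2 (h a)).ne'
  field_simp

theorem Dn_ge {lam : Vec n} (O : OG n) (y : Vec n) {z M : ℝ} (h : ∀ a, lam a < z)
    (hM : ∀ a, z - lam a ≤ M) : sadF lam (O.1 *ᵥ y) z ≤ M * Dn (JO lam O) y z := by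
  rw [Dn_JO O y h, Finset.mul_sum]
  unfold sadF
  refine Finset.sum_le_sum fun a _ => ?_
  have p : 0 < z - lam a := sub_pos.2 (h a)
  have hMa := hM a
  set d := z - lam a
  set w := (O.1 *ᵥ y) a ^ 2
  have hw : 0 ≤ w := sq_nonneg _
  have e1 : 1 / d = d * (d ^ 2)⁻¹ := by field_simp
  have e2 : w / d ^ 2 = d * (w / d ^ 3) := by field_simp
  have h1 : 0 ≤ (d ^ 2)⁻¹ := by positivity
  have h2 : 0 ≤ w / d ^ 3 := by positivity
  rw [e1, e2]
  nlinarith

theorem abs_JO_le {u : Vec n} (O : OG n) {c : ℝ} (h : ∀ a, |u a| ≤ c) (i j : Fin n) :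
    |JO u O i j| ≤ n * c := by
  unfold JO
  rw [Matrix.mul_apply]
  calc |∑ a, (O.1ᵀ * Matrix.diagonal u) i a * O.1 a j|
      ≤ ∑ a, |(O.1ᵀ * Matrix.diagonal u) i a * O.1 a j| := Finset.abs_sum_le_sum_abs _ _
    _ ≤ ∑ _a : Fin n, c := Finset.sum_le_sum fun a _ => by
        rw [Matrix.mul_diagonal, Matrix.transpose_apply, abs_mul, abs_mul]
        have h1 := OG.abs_le_one O a i
        have h2 := OG.abs_le_one O a j
        have h3 := h a
        have hc : 0 ≤ c := (abs_nonneg _).trans h3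
        calc |O.1 a i| * |u a| * |O.1 a j| ≤ 1 * c * 1 := by gcongr
          _ = c := by ring
    _ = n * c := by simp

theorem lt_of_posDef {lam : Vec n} {O : OG n} {z : ℝ} (h : (Nm (JO lam O) z).PosDef) (a : Fin n) :
    lam a < z := by
  classical
  have hv : O.1ᵀ *ᵥ (Pi.single a 1 : Vec n) ≠ 0 := by
    intro h0
    have := congrArg (fun v => O.1 *ᵥ v) h0
    simp only [OG.mulVec_tr_mulVec, Matrix.mulVec_zero] at this
    have h2 := congrFun this a
    simp at h2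
  have h1 := h.dotProduct_mulVec_pos hv
  have h2 : star (O.1ᵀ *ᵥ (Pi.single a 1 : Vec n)) ⬝ᵥ
      (Nm (JO lam O) z *ᵥ (O.1ᵀ *ᵥ (Pi.single a 1 : Vec n))) = z - lam a := by
    rw [Nm_JO, star_trivial]
    have := ip_JO (fun a => z - lam a) O (O.1ᵀ *ᵥ (Pi.single a 1 : Vec n))
      (O.1ᵀ *ᵥ (Pi.single a 1 : Vec n))
    rw [OG.mulVec_tr_mulVec] at this
    refine this.trans ?_
    rw [Finset.sum_eq_single a]
    · simp
    · intro b _ hb
      simp [Pi.single_eq_of_ne hb]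
    · simp
  rw [h2] at h1
  linarith

theorem posDef_Nm {lam : Vec n} (O : OG n) {z : ℝ} (h : ∀ a, lam a < z) :
    (Nm (JO lam O) z).PosDef := by
  rw [Nm_JO]
  refine Matrix.PosDef.of_dotProduct_mulVec_pos ?_ fun v hv => ?_
  · exact (JO_symm _ O : (JO _ O)ᵀ = _)
  · rw [star_trivial]
    have h1 := ip_JO (fun a => z - lam a) O v v
    change 0 < ip v (JO (fun a => z - lam a) O *ᵥ v)
    rw [h1]
    have h2 : O.1 *ᵥ v ≠ 0 := by
      intro h0
      apply hv
      rw [← OG.tr_mulVec_mulVec O v, h0, Matrix.mulVec_zero]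
    obtain ⟨a, ha⟩ := Function.ne_iff.1 h2
    refine Finset.sum_pos' (fun b _ => mul_nonneg (sub_pos.2 (h b)).le (mul_self_nonneg _))
      ⟨a, Finset.mem_univ a, mul_pos (sub_pos.2 (h a)) (mul_self_pos.2 ha)⟩

/-! ### the reference as a function of `(J, y)` -/

open Classical in
/-- the saddle point -/
noncomputable def zr (J : Mat n) (y : Vec n) : ℝ :=
  if h : ∃ z, (Nm J z).PosDef ∧ res J y z = 0 then h.choose else 0

/-- tracked mean -/
noncomputable def mr (J : Mat n) (y : Vec n) : Vec n := pm J y (zr J y)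
/-- response matrix -/
noncomputable def Gr (J : Mat n) (y : Vec n) : Mat n := Gs J y (zr J y)
/-- drift -/
noncomputable def kr (J : Mat n) (y : Vec n) (Q : Mat n) : Vec n := ks J y (zr J y) Q
/-- quadratic term -/
noncomputable def br (J : Mat n) (y : Vec n) (b : Vec n) : Vec n := bs J y (zr J y) b
/-- mean of the quadratic term -/
noncomputable def er (J : Mat n) (y : Vec n) (Q : Mat n) : Vec n := es J y (zr J y) Q

theorem zr_JO (hn : 0 < n) (lam : Vec n) (O : OG n) (y : Vec n) :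
    zr (JO lam O) y = zs lam (O.1 *ᵥ y) := by
  have hex : ∃ z, (Nm (JO lam O) z).PosDef ∧ res (JO lam O) y z = 0 :=
    ⟨zs lam (O.1 *ᵥ y), posDef_Nm O (lt_zs hn _ _), by
      rw [res_JO O y (lt_zs hn _ _), sadF_zs hn, sub_self]⟩
  unfold zr
  rw [dif_pos hex]
  obtain ⟨h1, h2⟩ := hex.choose_spec
  have h3 := lt_of_posDef h1
  rw [res_JO O y h3] at h2
  exact (zs_eq hn h3 (by linarith)).symm

theorem lt_zr (hn : 0 < n) (lam : Vec n) (O : OG n) (y : Vec n) (a : Fin n) :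
    lam a < zr (JO lam O) y := by
  rw [zr_JO hn]; exact lt_zs hn _ _ a

theorem res_zr (hn : 0 < n) (lam : Vec n) (O : OG n) (y : Vec n) :
    res (JO lam O) y (zr (JO lam O) y) = 0 := by
  rw [res_JO O y (lt_zr hn lam O y), zr_JO hn, sadF_zs hn, sub_self]

theorem Gr_symm (lam : Vec n) (O : OG n) (y : Vec n) : (Gr (JO lam O) y).IsSymm :=
  Gs_symm (JO_symm lam O) _ _

theorem trace_G0_nonneg {lam : Vec n} (O : OG n) {z : ℝ} (h : ∀ a, lam a < z) :
    0 ≤ (G0 (JO lam O) z).trace := by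
  rw [G0_JO O h, trace_JO]
  exact Finset.sum_nonneg fun a _ => (inv_pos.2 (sub_pos.2 (h a))).le

/-- the tracked mean lies in the ball of radius `√n` -/
theorem sq_mr_le (hn : 0 < n) (lam : Vec n) (O : OG n) (y : Vec n) :
    F.sq (mr (JO lam O) y) ≤ n := by
  have h1 := res_zr hn lam O y
  have h2 := trace_G0_nonneg O (lt_zr hn lam O y)
  unfold res at h1
  unfold mr
  linarith

/-! ### the micro step -/

/-- data of a micro step in an eigenframe -/
structure RCx where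
  n : ℕ
  K : ℝ
  δ : ℝ
  lam : Vec n
  q : Vec n
  O : OG n
  v : Vec n
  y : Vec n
  ξ : Vec n
  npos : 0 < n
  hK : 2 ≤ K
  hn : (n : ℝ) ≤ K
  hl : ∀ a, |lam a| ≤ K
  q0 : ∀ a, 0 ≤ q a
  q1 : ∀ a, q a ≤ K
  hv : ∀ i, |v i| ≤ K
  hy : ∀ i, |y i| ≤ K
  hξ : ∀ i, |ξ i| ≤ K
  d0 : 0 ≤ δ
  d1 : δ ≤ 1

namespace RCx

/-- the frame of micro steps -/
noncomputable abbrev FF : Frame RCx where
  K := RCx.K
  t := fun c => √c.δ
  n := RCx.n
  hK c := c.hK
  hn c := c.hn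
  ht0 := fun c => Real.sqrt_nonneg _
  ht1 := fun c => Real.sqrt_le_one.2 c.d1

noncomputable def lam' (c : RCx) : Vec c.n := fun a => c.lam a - c.δ * c.q a
noncomputable def y' (c : RCx) : Vec c.n := c.y + c.δ • (JO c.q c.O *ᵥ c.v) + √c.δ • c.ξ
noncomputable def z (c : RCx) : ℝ := zs c.lam (c.O.1 *ᵥ c.y)
noncomputable def z' (c : RCx) : ℝ := zs c.lam' (c.O.1 *ᵥ c.y')

theorem s1 : FF.O 1 (fun c => √c.δ) := Frame.O.of_t fun c => by
  rw [pow_one, abs_of_nonneg (Real.sqrt_nonneg _)]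
theorem s2 : FF.O 2 (fun c => c.δ) := s1.sq.congr fun c => (Real.sq_sqrt c.d0).symm
theorem oO : FF.M 0 (fun c => c.O.1) := Frame.M.of_K fun c i l =>
  (OG.abs_le_one c.O i l).trans (by linarith [c.hK])
theorem oJO {j : ℕ} {u : ∀ c : RCx, Vec c.n} (hu : FF.V j u) : FF.M j (fun c => JO (u c) c.O) :=
  ((oO.transpose.zmul (Frame.M.diagonal hu)).mul oO).congr' fun c => rfl
theorem ol : FF.V 0 (fun c => c.lam) := Frame.V.of_K fun c a => c.hl a
theorem oq : FF.V 0 (fun c => c.q) := Frame.V.of_K fun c a => by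
  rw [abs_of_nonneg (c.q0 a)]; exact c.q1 a
theorem ov : FF.V 0 (fun c => c.v) := Frame.V.of_K fun c a => c.hv a
theorem oy : FF.V 0 (fun c => c.y) := Frame.V.of_K fun c a => c.hy a
theorem oξ : FF.V 0 (fun c => c.ξ) := Frame.V.of_K fun c a => c.hξ a
theorem odq : FF.V 2 (fun c a => c.δ * c.q a) := (Frame.V.lift s2).mul oq
theorem ol' : FF.V 0 (fun c => c.lam') := (ol.sub (odq.mono (by omega))).congr fun c a => rfl
theorem ody : FF.V 1 (fun c => c.y' - c.y) := by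
  have h1 := Frame.V.smul s2 ((oJO oq).zmulVec ov)
  have h2 := Frame.V.smul s1 oξ
  refine ((h1.mono (by omega)).add h2).congr' fun c => ?_
  unfold y'
  abel
theorem oy' : FF.V 0 (fun c => c.y') :=
  ((ody.mono (by omega)).add oy).congr' fun c => by abel

theorem le_lam (c : RCx) (a : Fin c.n) : c.lam' a ≤ c.lam a := by
  unfold lam'
  linarith [mul_nonneg c.d0 (c.q0 a)]

theorem lt_z (c : RCx) (a : Fin c.n) : c.lam a < c.z := lt_zs c.npos _ _ a
theorem lt_z' (c : RCx) (a : Fin c.n) : c.lam' a < c.z' := lt_zs c.npos _ _ a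
theorem lt_z2 (c : RCx) (a : Fin c.n) : c.lam' a < c.z := (c.le_lam a).trans_lt (c.lt_z a)

theorem inv_le {d : ℝ} {m : ℕ} (hm : 0 < m) {K : ℝ} (hK : (m : ℝ) ≤ K) (h : 1 / (m : ℝ) ≤ d) :
    |d⁻¹| ≤ K := by
  have hm' : (0 : ℝ) < m := by exact_mod_cast hm
  have h0 : 0 < 1 / (m : ℝ) := by positivity
  have hd : 0 < d := h0.trans_le h
  rw [abs_of_pos (inv_pos.2 hd)]
  refine le_trans ?_ hK
  rw [inv_le_comm₀ hd hm', ← one_div]
  exact h

theorem ou : FF.V 0 (fun c a => (c.z - c.lam a)⁻¹) := Frame.V.of_K fun c a =>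
  inv_le c.npos c.hn (gap_zs c.npos _ _ a)
theorem ou' : FF.V 0 (fun c a => (c.z' - c.lam' a)⁻¹) := Frame.V.of_K fun c a =>
  inv_le c.npos c.hn (gap_zs c.npos _ _ a)
theorem ou2 : FF.V 0 (fun c a => (c.z - c.lam' a)⁻¹) := Frame.V.of_K fun c a =>
  inv_le c.npos c.hn ((gap_zs c.npos c.lam (c.O.1 *ᵥ c.y) a).trans (by
    have := c.le_lam a
    change c.z - c.lam a ≤ c.z - c.lam' a
    linarith))

/-- a bound of all the gaps -/
noncomputable def Mx (c : RCx) : ℝ :=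
  2 * (∑ a, |c.lam a| + ∑ a, |c.lam' a|) + 1 + F.sq (c.O.1 *ᵥ c.y) + F.sq (c.O.1 *ᵥ c.y')

theorem oabs {j : ℕ} {u : ∀ c : RCx, Vec c.n} (hu : FF.V j u) : FF.V j (fun c a => |u c a|) :=
  hu.of_le fun c a => by rw [abs_abs]

theorem oMx : FF.O 0 (fun c => c.Mx) :=
  (((((oabs ol).sum.add (oabs ol').sum).cmul 2).add (Frame.O.const 1)).add
    (oO.zmulVec oy).sq).add (oO.zmulVec oy').sq

theorem single_abs {m : ℕ} (u : Vec m) (a : Fin m) : |u a| ≤ ∑ b, |u b| :=
  Finset.single_le_sum (f := fun b => |u b|) (fun _ _ => abs_nonneg _) (Finset.mem_univ a)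

theorem zs_le' {m : ℕ} (hm : 0 < m) (u w : Vec m) : zs u w ≤ ∑ b, |u b| + 1 + F.sq w := by
  have h1 := zs_le_crude hm w (lam := u) (B := ∑ b, |u b|)
    fun a => (le_abs_self _).trans (single_abs u a)
  have hm' : (1 : ℝ) ≤ m := by exact_mod_cast hm
  have h2 : F.sq w / m ≤ F.sq w := div_le_self (sqN_nonneg _) hm'
  linarith

theorem sum_abs_nonneg {m : ℕ} (u : Vec m) : 0 ≤ ∑ b, |u b| :=
  Finset.sum_nonneg fun _ _ => abs_nonneg _

theorem gap1 (c : RCx) (a : Fin c.n) : c.z - c.lam a ≤ c.Mx := by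
  have h1 := zs_le' c.npos c.lam (c.O.1 *ᵥ c.y)
  have h2 := single_abs c.lam a
  have h3 := neg_abs_le (c.lam a)
  have h4 := sum_abs_nonneg c.lam'
  have h5 := sqN_nonneg (c.O.1 *ᵥ c.y')
  unfold Mx z
  linarith

theorem gap2 (c : RCx) (a : Fin c.n) : c.z - c.lam' a ≤ c.Mx := by
  have h1 := zs_le' c.npos c.lam (c.O.1 *ᵥ c.y)
  have h2 := single_abs c.lam' a
  have h3 := neg_abs_le (c.lam' a)
  have h4 := sum_abs_nonneg c.lam'
  have h6 := sum_abs_nonneg c.lam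
  have h5 := sqN_nonneg (c.O.1 *ᵥ c.y')
  unfold Mx z
  linarith

theorem gap3 (c : RCx) (a : Fin c.n) : c.z' - c.lam' a ≤ c.Mx := by
  have h1 := zs_le' c.npos c.lam' (c.O.1 *ᵥ c.y')
  have h2 := single_abs c.lam' a
  have h3 := neg_abs_le (c.lam' a)
  have h6 := sum_abs_nonneg c.lam
  have h5 := sqN_nonneg (c.O.1 *ᵥ c.y)
  unfold Mx z'
  linarith

theorem osad : FF.O 1 (fun c => sadF c.lam' (c.O.1 *ᵥ c.y') c.z - c.n) := by
  have d1 : FF.V 2 (fun c a => (c.z - c.lam' a)⁻¹ - (c.z - c.lam a)⁻¹) :=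
    ((odq.mul ou).mul ou2).neg.congr fun c a => by
      have h1 : c.z - c.lam a ≠ 0 := (sub_pos.2 (c.lt_z a)).ne'
      have h2 : c.z - c.lam' a ≠ 0 := (sub_pos.2 (c.lt_z2 a)).ne'
      have h3 : c.δ * c.q a = (c.z - c.lam' a) - (c.z - c.lam a) := by unfold lam'; ring
      simp only [Pi.neg_apply]
      rw [h3]
      field_simp
      ring
  have w0 := oO.zmulVec oy
  have w1 := oO.zmulVec oy'
  have wd : FF.V 1 (fun c => c.O.1 *ᵥ c.y' - c.O.1 *ᵥ c.y) :=
    (oO.zmulVec ody).congr' fun c => by rw [Matrix.mulVec_sub]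
  have d2 : FF.V 1 (fun c a => (c.O.1 *ᵥ c.y') a * (c.z - c.lam' a)⁻¹
      - (c.O.1 *ᵥ c.y) a * (c.z - c.lam a)⁻¹) :=
    ((wd.mul ou2).add ((w0.zmul d1).mono (by omega))).congr fun c a => by
      simp only [Pi.add_apply, Pi.sub_apply]
      ring
  have d3 := d2.mul ((w1.zmul ou2).add (w0.zmul ou))
  refine (((d1.mono (by omega)).add d3).sum).congr fun c => ?_
  have h0 : (c.n : ℝ) = sadF c.lam (c.O.1 *ᵥ c.y) c.z := (sadF_zs c.npos _ _).symm
  rw [h0]
  unfold sadF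
  rw [← Finset.sum_sub_distrib]
  refine Finset.sum_congr rfl fun a _ => ?_
  simp only [Pi.add_apply]
  rw [one_div, one_div, div_eq_mul_inv, div_eq_mul_inv, ← inv_pow, ← inv_pow]
  ring

theorem oz : FF.O 1 (fun c => c.z' - c.z) :=
  ((oMx.pow0 2).zmul osad).of_le fun c => by
    refine (abs_zs_sub_le c.npos c.lt_z2 c.gap2 c.gap3).trans (le_of_eq ?_)
    rw [abs_mul, abs_of_nonneg (sq_nonneg c.Mx)]

theorem Dn_low (c : RCx) : 1 ≤ c.Mx * Dn (JO c.lam c.O) c.y c.z := by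
  have h1 := Dn_ge c.O c.y c.lt_z c.gap1
  have h2 : sadF c.lam (c.O.1 *ᵥ c.y) c.z = c.n := sadF_zs c.npos _ _
  have h3 : (1 : ℝ) ≤ c.n := by exact_mod_cast c.npos
  linarith

theorem Mx_pos (c : RCx) : 0 < c.Mx :=
  (sub_pos.2 (c.lt_z ⟨0, c.npos⟩)).trans_le (c.gap1 _)

theorem Dp (c : RCx) : 0 < Dn (JO c.lam c.O) c.y c.z := by
  have h1 := c.Dn_low
  have h2 := c.Mx_pos
  by_contra h
  have := mul_nonpos_of_nonneg_of_nonpos h2.le (not_lt.1 h)
  linarith

theorem oDi : FF.O 0 (fun c => (Dn (JO c.lam c.O) c.y c.z)⁻¹) :=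
  oMx.of_le fun c => by
    rw [abs_of_pos (inv_pos.2 c.Dp), abs_of_pos c.Mx_pos, inv_le_iff_one_le_mul₀ c.Dp]
    exact c.Dn_low

theorem J'_eq (c : RCx) : JO c.lam c.O - c.δ • JO c.q c.O = JO c.lam' c.O :=
  (JO_sub_smul c.lam c.q c.δ c.O).symm

theorem oG0 : FF.M 0 (fun c => G0 (JO c.lam c.O) c.z) :=
  (oJO ou).congr' fun c => G0_JO c.O c.lt_z

/-- the family of steps -/
noncomputable def S : SD FF where
  J c := JO c.lam c.O
  Δ c := c.δ • JO c.q c.O
  y c := c.y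
  y' c := c.y'
  z c := c.z
  z' c := c.z'
  sym c := JO_symm _ _
  u c := unit_Nm c.O c.lt_z
  u' c := by rw [J'_eq]; exact unit_Nm c.O c.lt_z'
  oG0 := oG0
  oG0' := (oJO ou').congr' fun c => by rw [J'_eq]; exact G0_JO c.O c.lt_z'
  oy := oy
  Dp := Dp
  oDi0 := oDi
  oz := oz
  ob0 := by
    have h1 := (Frame.M.smul s2 (oJO oq)).mulVec (oG0.zmulVec oy)
    exact ody.sub (h1.mono (by omega))
  oΔ := Frame.M.smul s2 (oJO oq)
  ores0 := (Frame.O.of_t (f := fun _ => 0) fun c => by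
      rw [abs_zero]; exact pow_nonneg (Real.sqrt_nonneg _) _).congr fun c => by
    rw [J'_eq, res_JO c.O _ c.lt_z', res_JO c.O _ c.lt_z]
    unfold z z'
    rw [sadF_zs c.npos, sadF_zs c.npos, sub_self]

theorem zr_eq (c : RCx) : zr (JO c.lam c.O) c.y = c.z := zr_JO c.npos _ _ _
theorem zr_eq' (c : RCx) : zr (JO c.lam c.O - c.δ • JO c.q c.O) c.y' = c.z' := by
  rw [J'_eq]; exact zr_JO c.npos _ _ _

theorem oes {Q : ∀ c : RCx, Mat c.n} (hQ : FF.M 0 Q) :
    FF.V 0 (fun c => es (JO c.lam c.O) c.y c.z (Q c)) := by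
  have hQa := hQ.zmulVec S.oa
  have h1 := (Frame.V.lift (oDi.cmul 2)).zmul (S.oG.zmulVec (S.oG.zmulVec hQa))
  have h2 : FF.O 0 (fun c => 4 * qf (Q c) (S.a c) * ((Dn (JO c.lam c.O) c.y c.z)⁻¹) ^ 2) :=
    ((S.oa.zip hQa).cmul 4).mulz (oDi.pow0 2)
  have h3 := (Frame.V.lift h2).zmul S.oGa
  have h4 := (((h2.mulz S.oT3).sub ((oDi.cmul 8).mulz (S.oGa.zip hQa))).add
    ((S.oG.zmul hQ).mul S.oG).trace).mulz oDi
  have h5 := (Frame.V.lift h4).zmul S.oa
  refine ((h1.sub h3).add h5).congr fun c i => ?_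
  unfold es
  simp only [Pi.add_apply, Pi.sub_apply, Pi.smul_apply, smul_eq_mul, div_eq_mul_inv, ← inv_pow]
  rfl

theorem oks {Q : ∀ c : RCx, Mat c.n} (hQ : FF.M 0 Q) :
    FF.V 0 (fun c => ks (JO c.lam c.O) c.y c.z (Q c)) := by
  have h1 := (Frame.V.lift (((S.oG.zmul hQ).mul S.oG).trace.mulz oDi)).zmul S.oa
  refine (h1.sub (oes hQ)).congr fun c i => ?_
  unfold ks
  simp only [Pi.sub_apply, Pi.smul_apply, smul_eq_mul, div_eq_mul_inv]
  rfl

theorem oGs : FF.M 0 (fun c => Gs (JO c.lam c.O) c.y c.z) := by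
  have h1 := Frame.M.smul (oDi.cmul 2) (Frame.M.vecMulVec S.oa S.oa)
  refine (S.oG.sub h1).congr' fun c => ?_
  unfold Gs
  rw [div_eq_mul_inv]
  rfl

end RCx

/-- **micro step of the spherical reference**: `J' = J - δ Q`, `y' = y + δ Q v + √δ ξ` -/
theorem chan_root : ∃ p : ℕ, ∀ (n : ℕ) (K δ : ℝ) (lam q : Vec n) (O : OG n) (v y ξ : Vec n),
    0 < n → 2 ≤ K → (n : ℝ) ≤ K → (∀ a, |lam a| ≤ K) → (∀ a, 0 ≤ q a) → (∀ a, q a ≤ K) →
    (∀ i, |v i| ≤ K) → (∀ i, |y i| ≤ K) → (∀ i, |ξ i| ≤ K) → 0 ≤ δ → δ ≤ 1 →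
    ∀ i, |(mr (JO lam O - δ • JO q O) (y + δ • (JO q O *ᵥ v) + √δ • ξ) - mr (JO lam O) y
      - Gr (JO lam O) y *ᵥ (δ • (JO q O *ᵥ (v - mr (JO lam O) y)) + √δ • ξ)
      - δ • kr (JO lam O) y (JO q O)
      + δ • (br (JO lam O) y ξ - er (JO lam O) y (JO q O))) i| ≤ K ^ p * (δ * √δ) := by
  obtain ⟨p, hp⟩ := (RCx.S.chan (fun c => c.δ) (fun c => JO c.q c.O) (fun c => c.v) (fun c => c.ξ)
    (fun c => c.d0) RCx.s1 (RCx.oJO RCx.oq) RCx.ov RCx.oξ (fun c => rfl) (fun c => rfl)).out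
  refine ⟨p, fun n K δ lam q O v y ξ h1 h2 h3 h4 h5 h6 h7 h8 h9 h10 h11 i => ?_⟩
  let c : RCx := ⟨n, K, δ, lam, q, O, v, y, ξ, h1, h2, h3, h4, h5, h6, h7, h8, h9, h10, h11⟩
  have h := hp c i
  have e1 : zr (JO lam O) y = c.z := c.zr_eq
  have e2 : zr (JO lam O - δ • JO q O) (y + δ • (JO q O *ᵥ v) + √δ • ξ) = c.z' := c.zr_eq'
  unfold mr Gr kr br er
  rw [e1, e2]
  refine le_trans h (le_of_eq ?_)
  change K ^ p * √δ ^ 3 = K ^ p * (δ * √δ)
  rw [pow_succ, Real.sq_sqrt h10]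

/-- crude polynomial bounds of all the data -/
theorem crude_root : ∃ p : ℕ, ∀ (n : ℕ) (K : ℝ) (lam q : Vec n) (O : OG n) (y ξ : Vec n),
    0 < n → 2 ≤ K → (n : ℝ) ≤ K → (∀ a, |lam a| ≤ K) → (∀ a, 0 ≤ q a) → (∀ a, q a ≤ K) →
    (∀ i, |y i| ≤ K) → (∀ i, |ξ i| ≤ K) →
    (∀ i j, |Gr (JO lam O) y i j| ≤ K ^ p) ∧ (∀ i, |kr (JO lam O) y (JO q O) i| ≤ K ^ p) ∧
      (∀ i, |br (JO lam O) y ξ i| ≤ K ^ p) ∧ ∀ i, |er (JO lam O) y (JO q O) i| ≤ K ^ p := by
  obtain ⟨p1, h1⟩ := RCx.oGs.out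
  obtain ⟨p2, h2⟩ := (RCx.oks (RCx.oJO RCx.oq)).out
  obtain ⟨p3, h3⟩ := (RCx.S.obs RCx.oξ).out
  obtain ⟨p4, h4⟩ := (RCx.oes (RCx.oJO RCx.oq)).out
  refine ⟨p1 + p2 + p3 + p4, fun n K lam q O y ξ a1 a2 a3 a4 a5 a6 a8 a9 => ?_⟩
  let c : RCx := ⟨n, K, 0, lam, q, O, y, y, ξ, a1, a2, a3, a4, a5, a6, a8, a8, a9, le_rfl,
    zero_le_one⟩
  have e1 : zr (JO lam O) y = c.z := c.zr_eq
  have hK : (1 : ℝ) ≤ K := by linarith
  have key : ∀ (r : ℝ) (p' : ℕ), p' ≤ p1 + p2 + p3 + p4 → r ≤ K ^ p' * √(0 : ℝ) ^ 0 →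
      r ≤ K ^ (p1 + p2 + p3 + p4) := fun r p' hp hr => by
    rw [pow_zero, mul_one] at hr
    exact hr.trans (pow_le_pow_right₀ hK hp)
  unfold Gr kr br er
  rw [e1]
  exact ⟨fun i j => key _ p1 (by omega) (h1 c i j), fun i => key _ p2 (by omega) (h2 c i),
    fun i => key _ p3 (by omega) (h3 c i), fun i => key _ p4 (by omega) (h4 c i)⟩

/-! ### the Gaussian mean of the quadratic term -/

theorem ip_mulVec_rect {m : ℕ} (R : Matrix (Fin n) (Fin m) ℝ) (u : Vec n) (g : Fin m → ℝ) :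
    ip u (R *ᵥ g) = ∑ j, (Rᵀ *ᵥ u) j * g j := by
  change u ⬝ᵥ (R *ᵥ g) = (Rᵀ *ᵥ u) ⬝ᵥ g
  rw [Matrix.dotProduct_mulVec, Matrix.mulVec_transpose]

theorem ipip_eq {m : ℕ} (R : Matrix (Fin n) (Fin m) ℝ) (u w : Vec n) (g : Fin m → ℝ) :
    ip u (R *ᵥ g) * ip w (R *ᵥ g)
      = ∑ j, ∑ l, (Rᵀ *ᵥ u) j * (Rᵀ *ᵥ w) l * (g j * g l) := by
  rw [ip_mulVec_rect, ip_mulVec_rect, Finset.sum_mul_sum]
  exact Finset.sum_congr rfl fun j _ => Finset.sum_congr rfl fun l _ => by ring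

theorem integrable_ipip {m : ℕ} (R : Matrix (Fin n) (Fin m) ℝ) (u w : Vec n) :
    Integrable (fun g => ip u (R *ᵥ g) * ip w (R *ᵥ g)) (gpi (Fin m)) := by
  simp_rw [ipip_eq]
  exact integrable_finset_sum _ fun j _ => integrable_finset_sum _ fun l _ =>
    (Haar.integrable_coord_mul j l).const_mul _

theorem integral_ipip {m : ℕ} (R : Matrix (Fin n) (Fin m) ℝ) (u w : Vec n) :
    ∫ g, ip u (R *ᵥ g) * ip w (R *ᵥ g) ∂gpi (Fin m) = ip u ((R * Rᵀ) *ᵥ w) := by
  simp_rw [ipip_eq]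
  rw [integral_finset_sum _ fun j _ => integrable_finset_sum _ fun l _ =>
    (Haar.integrable_coord_mul j l).const_mul _]
  rw [← Matrix.mulVec_mulVec, ip_mulVec_rect]
  refine Finset.sum_congr rfl fun j _ => ?_
  rw [integral_finset_sum _ fun l _ => (Haar.integrable_coord_mul j l).const_mul _]
  simp_rw [integral_const_mul, Haar.integral_coord_mul]
  simp

/-- a row of a matrix -/
def rowv (A : Mat n) (i : Fin n) : Vec n := fun j => A i j

/-- the quadratic term as a sum of products of linear forms -/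
theorem bs_apply {J : Mat n} (hJ : J.IsSymm) (y : Vec n) (z : ℝ) (b : Vec n) (i : Fin n) :
    bs J y z b i = 2 / Dn J y z * (ip (am J y z) b * ip (rowv (G0 J z * G0 J z) i) b)
      + ((4 / Dn J y z ^ 2) * (-(G0 J z *ᵥ am J y z) i
          + (T3 J z + 3 * F.sq (am J y z)) / Dn J y z * am J y z i))
        * (ip (am J y z) b * ip (am J y z) b)
      - 8 / Dn J y z ^ 2 * am J y z i * (ip (am J y z) b * ip (G0 J z *ᵥ am J y z) b)
      + am J y z i / Dn J y z * ∑ j, ip (rowv (G0 J z) j) b * ip (rowv (G0 J z) j) b := by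
  have e1 : (G0 J z *ᵥ (G0 J z *ᵥ b)) i = ip (rowv (G0 J z * G0 J z) i) b := by
    rw [Matrix.mulVec_mulVec]; rfl
  have e2 : F.sq (G0 J z *ᵥ b) = ∑ j, ip (rowv (G0 J z) j) b * ip (rowv (G0 J z) j) b :=
    Finset.sum_congr rfl fun j _ => by rw [pow_two]; rfl
  unfold bs z1
  simp only [Pi.add_apply, Pi.sub_apply, Pi.smul_apply, smul_eq_mul]
  rw [e1, e2]
  ring

theorem integrable_bs {m : ℕ} {J : Mat n} (hJ : J.IsSymm) (y : Vec n) (z : ℝ)
    (R : Matrix (Fin n) (Fin m) ℝ) (i : Fin n) :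
    Integrable (fun g => bs J y z (R *ᵥ g) i) (gpi (Fin m)) := by
  simp_rw [bs_apply hJ]
  exact ((((integrable_ipip R _ _).const_mul _).add ((integrable_ipip R _ _).const_mul _)).sub
    ((integrable_ipip R _ _).const_mul _)).add
    ((integrable_finset_sum _ fun j _ => integrable_ipip R _ _).const_mul _)

theorem integral_bs {m : ℕ} {J : Mat n} (hJ : J.IsSymm) (y : Vec n) (z : ℝ)
    (R : Matrix (Fin n) (Fin m) ℝ) (i : Fin n) :
    ∫ g, bs J y z (R *ᵥ g) i ∂gpi (Fin m) = es J y z (R * Rᵀ) i := by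
  have hG := G0_symm hJ z
  have hQ : (R * Rᵀ).IsSymm := by
    unfold Matrix.IsSymm
    rw [Matrix.transpose_mul, Matrix.transpose_transpose]
  simp_rw [bs_apply hJ]
  have lin : ∀ (f1 f2 f3 f4 : (Fin m → ℝ) → ℝ) (c1 c2 c3 c4 : ℝ), Integrable f1 (gpi (Fin m)) →
      Integrable f2 (gpi (Fin m)) → Integrable f3 (gpi (Fin m)) → Integrable f4 (gpi (Fin m)) →
      ∫ g, (c1 * f1 g + c2 * f2 g - c3 * f3 g + c4 * f4 g) ∂gpi (Fin m)
        = c1 * ∫ g, f1 g ∂gpi (Fin m) + c2 * ∫ g, f2 g ∂gpi (Fin m)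
          - c3 * ∫ g, f3 g ∂gpi (Fin m) + c4 * ∫ g, f4 g ∂gpi (Fin m) := by
    intro f1 f2 f3 f4 c1 c2 c3 c4 h1 h2 h3 h4
    have a1 : Integrable (fun g => c1 * f1 g + c2 * f2 g) (gpi (Fin m)) :=
      (h1.const_mul _).add (h2.const_mul _)
    have a2 : Integrable (fun g => c1 * f1 g + c2 * f2 g - c3 * f3 g) (gpi (Fin m)) :=
      a1.sub (h3.const_mul _)
    rw [integral_add a2 (h4.const_mul _), integral_sub a1 (h3.const_mul _),
      integral_add (h1.const_mul _) (h2.const_mul _), integral_const_mul, integral_const_mul,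
      integral_const_mul, integral_const_mul]
  rw [lin _ _ _ _ _ _ _ _ (integrable_ipip R _ _) (integrable_ipip R _ _) (integrable_ipip R _ _)
    (integrable_finset_sum _ fun j _ => integrable_ipip R _ _),
    integral_finset_sum _ fun j _ => integrable_ipip R _ _]
  simp_rw [integral_ipip]
  have e1 : ip (am J y z) ((R * Rᵀ) *ᵥ rowv (G0 J z * G0 J z) i)
      = (G0 J z *ᵥ (G0 J z *ᵥ ((R * Rᵀ) *ᵥ am J y z))) i := by
    rw [ip_mulVec_comm hQ, ipN_comm, Matrix.mulVec_mulVec _ (G0 J z) (G0 J z)]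
    rfl
  have e2 : ip (am J y z) ((R * Rᵀ) *ᵥ (G0 J z *ᵥ am J y z))
      = ip (G0 J z *ᵥ am J y z) ((R * Rᵀ) *ᵥ am J y z) := by
    rw [ip_mulVec_comm hQ, ipN_comm]
  have e3 : ∑ j, ip (rowv (G0 J z) j) ((R * Rᵀ) *ᵥ rowv (G0 J z) j)
      = (G0 J z * (R * Rᵀ) * G0 J z).trace := by
    rw [Matrix.mul_assoc]
    refine Finset.sum_congr rfl fun j _ => ?_
    rw [Matrix.diag_apply, Matrix.mul_apply]
    refine Finset.sum_congr rfl fun l _ => ?_
    congr 1
    rw [Matrix.mul_apply, Matrix.mulVec, dotProduct]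
    exact Finset.sum_congr rfl fun k _ => by rw [hG.apply j k]; rfl
  rw [e1, e2, e3]
  unfold es qf
  simp only [Pi.add_apply, Pi.sub_apply, Pi.smul_apply, smul_eq_mul]
  ring

theorem integral_br {m : ℕ} (lam : Vec n) (O : OG n) (y : Vec n) (R : Matrix (Fin n) (Fin m) ℝ)
    (i : Fin n) : ∫ g, br (JO lam O) y (R *ᵥ g) i ∂gpi (Fin m) = er (JO lam O) y (R * Rᵀ) i :=
  integral_bs (JO_symm lam O) y _ R i

theorem integrable_br {m : ℕ} (lam : Vec n) (O : OG n) (y : Vec n) (R : Matrix (Fin n) (Fin m) ℝ)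
    (i : Fin n) : Integrable (fun g => br (JO lam O) y (R *ᵥ g) i) (gpi (Fin m)) :=
  integrable_bs (JO_symm lam O) y _ R i

/-! ### measurability -/

section meas

open Vale.Agent.N150.Fib

variable {X : Type*} [MeasurableSpace X] {lam y b : X → Vec n} {O : X → OG n} {Q : X → Mat n}

theorem mm_O (hO : Measurable O) : MM fun x => (O x).1 := fun i j => (measurable_entry i j).comp hO

theorem mm_JO {u : X → Vec n} (hu : Measurable u) (hO : Measurable O) :
    MM fun x => JO (u x) (O x) :=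
  ((mm_O hO).transpose.mul (MM.diagonal hu)).mul (mm_O hO)

theorem measurable_ip' {u v : X → Vec n} (hu : Measurable u) (hv : Measurable v) :
    Measurable fun x => ip (u x) (v x) := by
  unfold ip
  exact Finset.measurable_sum _ fun i _ =>
    ((measurable_pi_apply i).comp hu).mul ((measurable_pi_apply i).comp hv)

theorem measurable_zr (hn : 0 < n) (hl : Measurable lam) (hO : Measurable O) (hy : Measurable y) :
    Measurable fun x => zr (JO (lam x) (O x)) (y x) := by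
  simp_rw [zr_JO hn]
  exact measurable_zs hn hl (measurable_mulVecG hO hy)

theorem mm_G0 (hn : 0 < n) (hl : Measurable lam) (hO : Measurable O) (hy : Measurable y) :
    MM fun x => G0 (JO (lam x) (O x)) (zr (JO (lam x) (O x)) (y x)) := by
  simp_rw [G0_JO _ (lt_zr hn _ _ _)]
  refine mm_JO (measurable_pi_iff.2 fun a => ?_) hO
  exact ((measurable_zr hn hl hO hy).sub ((measurable_pi_apply a).comp hl)).inv

theorem measurable_mr (hn : 0 < n) (hl : Measurable lam) (hO : Measurable O) (hy : Measurable y) :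
    Measurable fun x => mr (JO (lam x) (O x)) (y x) := (mm_G0 hn hl hO hy).mulVec hy

theorem measurable_am (hn : 0 < n) (hl : Measurable lam) (hO : Measurable O) (hy : Measurable y) :
    Measurable fun x => am (JO (lam x) (O x)) (y x) (zr (JO (lam x) (O x)) (y x)) :=
  (mm_G0 hn hl hO hy).mulVec (measurable_mr hn hl hO hy)

theorem measurable_Dn (hn : 0 < n) (hl : Measurable lam) (hO : Measurable O) (hy : Measurable y) :
    Measurable fun x => Dn (JO (lam x) (O x)) (y x) (zr (JO (lam x) (O x)) (y x)) :=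
  ((mm_G0 hn hl hO hy).mul (mm_G0 hn hl hO hy)).trace.add
    ((measurable_ip' (measurable_mr hn hl hO hy) (measurable_am hn hl hO hy)).const_mul 2)

theorem measurable_T3 (hn : 0 < n) (hl : Measurable lam) (hO : Measurable O) (hy : Measurable y) :
    Measurable fun x => T3 (JO (lam x) (O x)) (zr (JO (lam x) (O x)) (y x)) :=
  (((mm_G0 hn hl hO hy).mul (mm_G0 hn hl hO hy)).mul (mm_G0 hn hl hO hy)).trace

theorem mm_Gr (hn : 0 < n) (hl : Measurable lam) (hO : Measurable O) (hy : Measurable y) :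
    MM fun x => Gr (JO (lam x) (O x)) (y x) :=
  (mm_G0 hn hl hO hy).sub (MM.smul (measurable_const.div (measurable_Dn hn hl hO hy))
    (MM.vecMulVec (measurable_am hn hl hO hy) (measurable_am hn hl hO hy)))

theorem measurable_br (hn : 0 < n) (hl : Measurable lam) (hO : Measurable O) (hy : Measurable y)
    (hb : Measurable b) : Measurable fun x => br (JO (lam x) (O x)) (y x) (b x) := by
  have hG := mm_G0 hn hl hO hy
  have ha := measurable_am hn hl hO hy
  have hD := measurable_Dn hn hl hO hy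
  have hT := measurable_T3 hn hl hO hy
  have hz : Measurable fun x => z1 (JO (lam x) (O x)) (y x) (zr (JO (lam x) (O x)) (y x)) (b x) :=
    ((measurable_ip' ha hb).const_mul 2).div hD
  exact ((hz.smul (hG.mulVec (hG.mulVec hb))).sub ((hz.pow_const 2).smul (hG.mulVec ha))).add
    ((((((hz.pow_const 2).mul (hT.add ((measurable_sq.comp ha).const_mul 3))).sub
      ((hz.const_mul 4).mul (measurable_ip' (hG.mulVec ha) hb))).add
      (measurable_sq.comp (hG.mulVec hb))).div hD).smul ha)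

theorem measurable_er (hn : 0 < n) (hl : Measurable lam) (hO : Measurable O) (hy : Measurable y)
    (hQ : MM Q) : Measurable fun x => er (JO (lam x) (O x)) (y x) (Q x) := by
  have hG := mm_G0 hn hl hO hy
  have ha := measurable_am hn hl hO hy
  have hD := measurable_Dn hn hl hO hy
  have hT := measurable_T3 hn hl hO hy
  have hq := ((measurable_ip' ha (hQ.mulVec ha)).const_mul 4).div (hD.pow_const 2)
  exact (((measurable_const.div hD).smul (hG.mulVec (hG.mulVec (hQ.mulVec ha)))).sub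
    (hq.smul (hG.mulVec ha))).add
    (((((hq.mul (hT.add ((measurable_sq.comp ha).const_mul 3))).sub
      ((measurable_const.div hD).mul (measurable_ip' (hG.mulVec ha) (hQ.mulVec ha)))).add
      ((hG.mul hQ).mul hG).trace).div hD).smul ha)

theorem measurable_kr (hn : 0 < n) (hl : Measurable lam) (hO : Measurable O) (hy : Measurable y)
    (hQ : MM Q) : Measurable fun x => kr (JO (lam x) (O x)) (y x) (Q x) := by
  have hG := mm_G0 hn hl hO hy
  exact ((((hG.mul hQ).mul hG).trace.div (measurable_Dn hn hl hO hy)).smul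
    (measurable_am hn hl hO hy)).sub (measurable_er hn hl hO hy hQ)

end meas

end Vale.Agent.N150.Rad
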