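import Vale.Agent.N150.ECDef
import Vale.Agent.N150.ECOrd

set_option linter.all false

/-! Spherical saddle point reference: `z` solves `tr G0 + |G0 y| ^ 2 = n`, the tracked mean is
`G0 y`.  Second order expansion of one step. -/

open Matrix Finset

namespace Vale.Agent.N150.Rad

open Vale.Agent.P150 Vale.Agent.P150.F Vale.Agent.N150.EC

variable {n : ℕ}

/-- tracked mean `p = G0 y` -/
noncomputable def pm (J : Mat n) (y : Vec n) (z : ℝ) : Vec n := G0 J z *ᵥ y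
/-- `a = G0 p` -/
noncomputable def am (J : Mat n) (y : Vec n) (z : ℝ) : Vec n := G0 J z *ᵥ pm J y z
/-- minus the `z` derivative of the saddle equation -/
noncomputable def Dn (J : Mat n) (y : Vec n) (z : ℝ) : ℝ :=
  T2 J z + 2 * ip (pm J y z) (am J y z)
/-- response of the tracked mean -/
noncomputable def Gs (J : Mat n) (y : Vec n) (z : ℝ) : Mat n :=
  G0 J z - (2 / Dn J y z) • vecMulVec (am J y z) (am J y z)
/-- residual of the saddle equation -/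
noncomputable def res (J : Mat n) (y : Vec n) (z : ℝ) : ℝ :=
  (G0 J z).trace + F.sq (pm J y z) - n
/-- first order response of `z` -/
noncomputable def z1 (J : Mat n) (y : Vec n) (z : ℝ) (b : Vec n) : ℝ :=
  2 * ip (am J y z) b / Dn J y z
/-- the quadratic term of the response to a field increment `b` -/
noncomputable def bs (J : Mat n) (y : Vec n) (z : ℝ) (b : Vec n) : Vec n :=
  z1 J y z b • (G0 J z *ᵥ (G0 J z *ᵥ b)) - z1 J y z b ^ 2 • (G0 J z *ᵥ am J y z)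
    + ((z1 J y z b ^ 2 * (T3 J z + 3 * F.sq (am J y z))
        - 4 * z1 J y z b * ip (G0 J z *ᵥ am J y z) b + F.sq (G0 J z *ᵥ b)) / Dn J y z) • am J y z
/-- Gaussian mean of `bs (R g)`, `Q = R Rᵀ` -/
noncomputable def es (J : Mat n) (y : Vec n) (z : ℝ) (Q : Mat n) : Vec n :=
  (2 / Dn J y z) • (G0 J z *ᵥ (G0 J z *ᵥ (Q *ᵥ am J y z)))
    - (4 * qf Q (am J y z) / Dn J y z ^ 2) • (G0 J z *ᵥ am J y z)
    + ((4 * qf Q (am J y z) / Dn J y z ^ 2 * (T3 J z + 3 * F.sq (am J y z))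
        - 8 / Dn J y z * ip (G0 J z *ᵥ am J y z) (Q *ᵥ am J y z)
        + (G0 J z * Q * G0 J z).trace) / Dn J y z) • am J y z
/-- drift of the tracked mean -/
noncomputable def ks (J : Mat n) (y : Vec n) (z : ℝ) (Q : Mat n) : Vec n :=
  ((G0 J z * Q * G0 J z).trace / Dn J y z) • am J y z - es J y z Q

/-- polynomially well conditioned point -/
structure Loc (K : ℝ) (J : Mat n) (y : Vec n) (z : ℝ) : Prop where
  hK : 2 ≤ K
  hn : (n : ℝ) ≤ K
  sym : J.IsSymm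
  uN : IsUnit (Nm J z).det
  bG0 : MB (G0 J z) K
  by' : ∀ i, |y i| ≤ K
  bD : 1 ≤ K * Dn J y z

theorem Nm_symm {J : Mat n} (hJ : J.IsSymm) (z : ℝ) : (Nm J z).IsSymm := by
  unfold Nm
  exact (Matrix.isSymm_one.smul z).sub hJ

theorem G0_symm {J : Mat n} (hJ : J.IsSymm) (z : ℝ) : (G0 J z).IsSymm := by
  unfold G0 Matrix.IsSymm
  rw [Matrix.transpose_nonsing_inv, (Nm_symm hJ z).eq]

theorem Gs_symm {J : Mat n} (hJ : J.IsSymm) (y : Vec n) (z : ℝ) : (Gs J y z).IsSymm := by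
  unfold Gs
  refine (G0_symm hJ z).sub (Matrix.IsSymm.smul ?_ _)
  unfold Matrix.IsSymm
  rw [Matrix.transpose_vecMulVec]

theorem Gs_mulVec (J : Mat n) (y : Vec n) (z : ℝ) (b : Vec n) :
    Gs J y z *ᵥ b = G0 J z *ᵥ b - z1 J y z b • am J y z := by
  unfold Gs z1
  rw [Matrix.sub_mulVec, Matrix.smul_mulVec, F.vecMulVec_mulVec, smul_smul]
  congr 2
  ring

theorem resolv {J Δ : Mat n} {z z' : ℝ} (h : IsUnit (Nm J z).det)
    (h' : IsUnit (Nm (J - Δ) z').det) :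
    G0 (J - Δ) z' = G0 J z - G0 J z * ((z' - z) • (1 : Mat n) + Δ) * G0 (J - Δ) z' := by
  have e : (z' - z) • (1 : Mat n) + Δ = Nm (J - Δ) z' - Nm J z := by
    unfold Nm
    rw [sub_smul]
    abel
  have h1 : G0 J z * Nm J z = 1 := Matrix.nonsing_inv_mul _ h
  have h2 : Nm (J - Δ) z' * G0 (J - Δ) z' = 1 := Matrix.mul_nonsing_inv _ h'
  rw [e, Matrix.mul_sub, Matrix.sub_mul, h1, Matrix.mul_assoc, h2, Matrix.one_mul, Matrix.mul_one]
  abel

theorem pm_step {J Δ : Mat n} {y y' : Vec n} {z z' : ℝ} (h : IsUnit (Nm J z).det)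
    (h' : IsUnit (Nm (J - Δ) z').det) :
    pm (J - Δ) y' z' = pm J y z
      + G0 (J - Δ) z' *ᵥ ((y' - y - Δ *ᵥ pm J y z) - (z' - z) • pm J y z) := by
  have h1 : Nm J z *ᵥ pm J y z = y := by
    unfold pm
    rw [Matrix.mulVec_mulVec]
    unfold G0
    rw [Matrix.mul_nonsing_inv _ h, Matrix.one_mulVec]
  have h2 : G0 (J - Δ) z' * Nm (J - Δ) z' = 1 := Matrix.nonsing_inv_mul _ h'
  have e : Nm (J - Δ) z' = Nm J z + (z' - z) • (1 : Mat n) + Δ := by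
    unfold Nm
    rw [sub_smul]
    abel
  have h3 : Nm (J - Δ) z' *ᵥ pm J y z = y + (z' - z) • pm J y z + Δ *ᵥ pm J y z := by
    rw [e, Matrix.add_mulVec, Matrix.add_mulVec, h1, Matrix.smul_mulVec, Matrix.one_mulVec]
  have h4 : pm J y z = G0 (J - Δ) z' *ᵥ (y + (z' - z) • pm J y z + Δ *ᵥ pm J y z) := by
    rw [← h3, Matrix.mulVec_mulVec, h2, Matrix.one_mulVec]
  have h5 : pm (J - Δ) y' z' = G0 (J - Δ) z' *ᵥ y' := rfl
  rw [h5]
  conv_rhs => rw [h4]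
  rw [← h4]
  conv_rhs => lhs; rw [h4]
  rw [← Matrix.mulVec_add]
  congr 1
  abel

/-- a family of steps over a frame -/
structure SD {X : Type} (F : Frame X) where
  J : ∀ x, Mat (F.n x)
  Δ : ∀ x, Mat (F.n x)
  y : ∀ x, Vec (F.n x)
  y' : ∀ x, Vec (F.n x)
  z : X → ℝ
  z' : X → ℝ
  sym : ∀ x, (J x).IsSymm
  u : ∀ x, IsUnit (Nm (J x) (z x)).det
  u' : ∀ x, IsUnit (Nm (J x - Δ x) (z' x)).det
  oG0 : F.M 0 (fun x => G0 (J x) (z x))
  oG0' : F.M 0 (fun x => G0 (J x - Δ x) (z' x))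
  oy : F.V 0 y
  Dp : ∀ x, 0 < Dn (J x) (y x) (z x)
  oDi0 : F.O 0 (fun x => (Dn (J x) (y x) (z x))⁻¹)
  oz : F.O 1 (fun x => z' x - z x)
  ob0 : F.V 1 (fun x => y' x - y x - Δ x *ᵥ pm (J x) (y x) (z x))
  oΔ : F.M 2 Δ
  ores0 : F.O 3 (fun x => res (J x - Δ x) (y' x) (z' x) - res (J x) (y x) (z x))

theorem sq_eq (u v : Vec n) : F.sq u = F.sq v + ip (u - v) (u + v) := by
  unfold F.sq ip
  rw [← Finset.sum_add_distrib]
  exact Finset.sum_congr rfl fun i _ => by simp only [Pi.sub_apply, Pi.add_apply]; ring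

namespace SD

variable {X : Type} {Fr : Frame X} (S : SD Fr)

noncomputable def G (x : X) : Mat (Fr.n x) := G0 (S.J x) (S.z x)
noncomputable def G' (x : X) : Mat (Fr.n x) := G0 (S.J x - S.Δ x) (S.z' x)
noncomputable def ζ (x : X) : ℝ := S.z' x - S.z x
noncomputable def p (x : X) : Vec (Fr.n x) := pm (S.J x) (S.y x) (S.z x)
noncomputable def a (x : X) : Vec (Fr.n x) := am (S.J x) (S.y x) (S.z x)
noncomputable def b (x : X) : Vec (Fr.n x) := S.y' x - S.y x - S.Δ x *ᵥ pm (S.J x) (S.y x) (S.z x)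
noncomputable def D (x : X) : ℝ := Dn (S.J x) (S.y x) (S.z x)
noncomputable def μ (x : X) : Vec (Fr.n x) :=
  pm (S.J x - S.Δ x) (S.y' x) (S.z' x) - pm (S.J x) (S.y x) (S.z x)
noncomputable def w (x : X) : ℝ := z1 (S.J x) (S.y x) (S.z x) (S.b x)
noncomputable def t2 (x : X) : ℝ := T2 (S.J x) (S.z x)
noncomputable def t3 (x : X) : ℝ := T3 (S.J x) (S.z x)

theorem oG : Fr.M 0 (fun x => S.G x) := S.oG0
theorem oG' : Fr.M 0 (fun x => S.G' x) := S.oG0'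
theorem oζ : Fr.O 1 (fun x => S.ζ x) := S.oz
theorem ob : Fr.V 1 (fun x => S.b x) := S.ob0
theorem op : Fr.V 0 (fun x => S.p x) := S.oG.zmulVec S.oy
theorem oa : Fr.V 0 (fun x => S.a x) := S.oG.zmulVec S.op
theorem oDi : Fr.O 0 (fun x => (S.D x)⁻¹) := S.oDi0
theorem D_pos (x : X) : 0 < S.D x := S.Dp x

theorem res1 (x : X) :
    S.G' x = S.G x - S.G x * (S.ζ x • (1 : Mat (Fr.n x)) + S.Δ x) * S.G' x :=
  resolv (S.u x) (S.u' x)

theorem oE : Fr.M 1 (fun x => S.ζ x • (1 : Mat (Fr.n x)) + S.Δ x) :=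
  ((Frame.M.smul S.oζ Frame.M.one).mono (by omega)).add (S.oΔ.mono (by omega))

theorem oR1 : Fr.M 1 (fun x => S.G' x - S.G x) :=
  (((S.oG.zmul S.oE).mul S.oG').neg.mono (by omega)).congr' fun x => by
    conv_lhs => rw [S.res1 x]
    abel

theorem oR2 : Fr.M 2 (fun x => S.G' x - S.G x + S.ζ x • (S.G x * S.G x)) :=
  ((((S.oG.zmul S.oΔ).mul S.oG').mono (by omega)).neg.sub
      ((Frame.M.smul S.oζ (S.oG.zmul S.oR1)).mono (by omega))).congr' fun x => by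
    conv_lhs => rw [S.res1 x]
    simp only [Matrix.mul_add, Matrix.add_mul, Matrix.mul_smul, Matrix.smul_mul, Matrix.mul_one,
      Matrix.mul_sub, smul_sub]
    abel

theorem oR3 : Fr.M 3 (fun x => S.G' x - S.G x + S.ζ x • (S.G x * S.G x)
    - S.ζ x ^ 2 • (S.G x * S.G x * S.G x) + S.G x * S.Δ x * S.G x) :=
  (((Frame.M.smul S.oζ (S.oG.zmul S.oR2)).mono (by omega)).neg.sub
      (((S.oG.zmul S.oΔ).mul S.oR1).mono (by omega))).congr' fun x => by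
    conv_lhs => rw [S.res1 x]
    simp only [Matrix.mul_add, Matrix.add_mul, Matrix.mul_smul, Matrix.smul_mul, Matrix.mul_one,
      Matrix.mul_sub, smul_sub, smul_add, smul_smul, Matrix.mul_assoc, pow_two]
    abel

theorem μ_eq (x : X) : S.μ x = S.G' x *ᵥ (S.b x - S.ζ x • S.p x) := by
  unfold μ
  rw [pm_step (S.u x) (S.u' x)]
  exact add_sub_cancel_left _ _

theorem ov : Fr.V 1 (fun x => S.b x - S.ζ x • S.p x) :=
  S.ob.sub ((Frame.V.smul S.oζ S.op).mono (by omega))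

theorem oμ : Fr.V 1 (fun x => S.μ x) := (S.oG'.zmulVec S.ov).congr' fun x => S.μ_eq x

theorem a_eq (x : X) : S.G x *ᵥ S.p x = S.a x := rfl

theorem oμ3 : Fr.V 3 (fun x => S.μ x - (S.G x *ᵥ S.b x - S.ζ x • S.a x
    - S.ζ x • (S.G x *ᵥ (S.G x *ᵥ S.b x)) + S.ζ x ^ 2 • (S.G x *ᵥ S.a x))) :=
  ((S.oR2.mulVec S.ov).mono (by omega)).congr' fun x => by
    rw [S.μ_eq x]
    simp only [Matrix.add_mulVec, Matrix.sub_mulVec, Matrix.smul_mulVec, Matrix.mulVec_sub,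
      Matrix.mulVec_smul, ← Matrix.mulVec_mulVec, a_eq, smul_sub, smul_add, smul_smul, pow_two]
    abel

theorem oGb : Fr.V 1 (fun x => S.G x *ᵥ S.b x) := S.oG.zmulVec S.ob
theorem oGGb : Fr.V 1 (fun x => S.G x *ᵥ (S.G x *ᵥ S.b x)) := S.oG.zmulVec S.oGb
theorem oGa : Fr.V 0 (fun x => S.G x *ᵥ S.a x) := S.oG.zmulVec S.oa
theorem oζ2 : Fr.O 2 (fun x => S.ζ x ^ 2) := S.oζ.sq

theorem oμ2 : Fr.V 2 (fun x => S.μ x - (S.G x *ᵥ S.b x - S.ζ x • S.a x)) :=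
  (((S.oμ3.mono (by omega)).sub ((Frame.V.smul S.oζ S.oGGb).mono (by omega))).add
      ((Frame.V.smul S.oζ2 S.oGa).mono (by omega))).congr' fun x => by abel

theorem oμ1 : Fr.V 1 (fun x => S.G x *ᵥ S.b x - S.ζ x • S.a x) :=
  S.oGb.sub ((Frame.V.smul S.oζ S.oa).mono (by omega))

theorem Gsym (x : X) : (S.G x).IsSymm := G0_symm (S.sym x) _

theorem osq : Fr.O 3 (fun x => F.sq (S.μ x) - (F.sq (S.G x *ᵥ S.b x)
    - 2 * S.ζ x * ip (S.G x *ᵥ S.a x) (S.b x) + S.ζ x ^ 2 * F.sq (S.a x))) :=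
  ((S.oμ2.ip (S.oμ.add S.oμ1)).mono (by omega)).congr fun x => by
    have h1 := sq_eq (S.μ x) (S.G x *ᵥ S.b x - S.ζ x • S.a x)
    have h2 : F.sq (S.G x *ᵥ S.b x - S.ζ x • S.a x) = F.sq (S.G x *ᵥ S.b x)
        - 2 * S.ζ x * ip (S.G x *ᵥ S.a x) (S.b x) + S.ζ x ^ 2 * F.sq (S.a x) := by
      rw [← ipN_self, ip_sub_left, ip_sub_right, ip_sub_right, ip_smul_left, ip_smul_left,
        ip_smul_right, ip_smul_right, ipN_self, ipN_self, ipN_comm (S.G x *ᵥ S.b x) (S.a x),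
        ip_mulVec_comm (S.Gsym x) (S.a x) (S.b x)]
      ring
    linarith

theorem oip : Fr.O 3 (fun x => ip (S.p x) (S.μ x) - (ip (S.a x) (S.b x)
    - S.ζ x * ip (S.p x) (S.a x) - S.ζ x * ip (S.G x *ᵥ S.a x) (S.b x)
    + S.ζ x ^ 2 * F.sq (S.a x))) :=
  (S.op.zip S.oμ3).congr fun x => by
    rw [ip_sub_right, ip_add_right, ip_sub_right, ip_sub_right, ip_smul_right, ip_smul_right,
      ip_smul_right, ip_mulVec_comm (S.Gsym x) (S.p x) (S.b x),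
      ip_mulVec_comm (S.Gsym x) (S.p x) (S.G x *ᵥ S.b x),
      ip_mulVec_comm (S.Gsym x) (S.p x) (S.a x), a_eq, ip_mulVec_comm (S.Gsym x) (S.a x) (S.b x),
      ipN_self]

theorem otr : Fr.O 3 (fun x => (S.G' x).trace - (S.G x).trace + S.ζ x * S.t2 x
    - S.ζ x ^ 2 * S.t3 x + (S.G x * S.Δ x * S.G x).trace) :=
  S.oR3.trace.congr fun x => by
    simp only [Matrix.trace_add, Matrix.trace_sub, Matrix.trace_smul, smul_eq_mul]
    rfl

theorem res_eq (x : X) : res (S.J x - S.Δ x) (S.y' x) (S.z' x) - res (S.J x) (S.y x) (S.z x)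
    = (S.G' x).trace - (S.G x).trace + 2 * ip (S.p x) (S.μ x) + F.sq (S.μ x) := by
  have h1 : pm (S.J x - S.Δ x) (S.y' x) (S.z' x) = S.p x + S.μ x := by
    unfold μ p; abel
  have h2 : F.sq (S.p x + S.μ x) = F.sq (S.p x) + 2 * ip (S.p x) (S.μ x) + F.sq (S.μ x) := by
    rw [← ipN_self, ip_add_left, ip_add_right, ip_add_right, ipN_self, ipN_self,
      ipN_comm (S.μ x) (S.p x)]
    ring
  unfold res
  rw [h1, h2]
  unfold G G' p
  ring

/-- the scalar equation for `ζ` -/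
theorem oeq : Fr.O 3 (fun x => S.ζ x * S.D x - (2 * ip (S.a x) (S.b x)
    - (S.G x * S.Δ x * S.G x).trace + S.ζ x ^ 2 * (S.t3 x + 3 * F.sq (S.a x))
    - 4 * S.ζ x * ip (S.G x *ᵥ S.a x) (S.b x) + F.sq (S.G x *ᵥ S.b x))) :=
  (((S.otr.add (S.oip.cmul 2)).add S.osq).sub S.ores0).congr fun x => by
    rw [S.res_eq x]
    have : S.D x = S.t2 x + 2 * ip (S.p x) (S.a x) := rfl
    rw [this]
    ring

theorem oT3 : Fr.O 0 (fun x => S.t3 x + 3 * F.sq (S.a x)) :=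
  ((S.oG.zmul S.oG).zmul S.oG).trace.add (S.oa.sq.cmul 3)
theorem oτ : Fr.O 2 (fun x => (S.G x * S.Δ x * S.G x).trace) :=
  ((S.oG.zmul S.oΔ).mul S.oG).trace
theorem oGab : Fr.O 1 (fun x => ip (S.G x *ᵥ S.a x) (S.b x)) := S.oGa.zip S.ob

theorem w_eq (x : X) : S.w x = 2 * ip (S.a x) (S.b x) * (S.D x)⁻¹ := by
  unfold w z1
  rw [div_eq_mul_inv]
  rfl

theorem ow : Fr.O 1 (fun x => S.w x) :=
  (((S.oa.zip S.ob).cmul 2).mulz S.oDi).congr fun x => S.w_eq x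

theorem oζw : Fr.O 2 (fun x => S.ζ x - S.w x) :=
  ((((((S.oeq.mono (by omega)).sub S.oτ).add (S.oζ2.mulz S.oT3)).sub
      (((S.oζ.cmul 4).mul S.oGab).mono (by omega))).add
      (S.oGb.sq.mono (by omega))).mulz S.oDi).congr
    fun x => by
      have := S.D_pos x
      rw [S.w_eq x]
      field_simp
      ring

theorem oζw2 : Fr.O 3 (fun x => S.ζ x ^ 2 - S.w x ^ 2) :=
  ((S.oζw.mul (S.oζ.add S.ow)).mono (by omega)).congr fun x => by ring

theorem oζ3 : Fr.O 3 (fun x => S.ζ x - S.w x - (S.w x ^ 2 * (S.t3 x + 3 * F.sq (S.a x))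
    - 4 * S.w x * ip (S.G x *ᵥ S.a x) (S.b x) + F.sq (S.G x *ᵥ S.b x)
    - (S.G x * S.Δ x * S.G x).trace) / S.D x) :=
  (((S.oeq.add (S.oζw2.mulz S.oT3)).sub
      (((S.oζw.cmul 4).mul S.oGab).mono (by omega))).mulz S.oDi).congr
    fun x => by
      have := S.D_pos x
      rw [S.w_eq x]
      field_simp
      ring

theorem main : Fr.V 3 (fun x => S.μ x - Gs (S.J x) (S.y x) (S.z x) *ᵥ S.b x
    + bs (S.J x) (S.y x) (S.z x) (S.b x)
    - ((S.G x * S.Δ x * S.G x).trace / S.D x) • S.a x) :=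
  (((S.oμ3.sub ((Frame.V.smul S.oζ3 S.oa).mono (by omega))).sub
      ((Frame.V.smul S.oζw S.oGGb).mono (by omega))).add
      ((Frame.V.smul S.oζw2 S.oGa).mono (by omega))).congr fun x i => by
    rw [Gs_mulVec]
    change (S.μ x - (S.G x *ᵥ S.b x - S.w x • S.a x) + (S.w x • (S.G x *ᵥ (S.G x *ᵥ S.b x))
      - S.w x ^ 2 • (S.G x *ᵥ S.a x)
      + ((S.w x ^ 2 * (S.t3 x + 3 * F.sq (S.a x)) - 4 * S.w x * ip (S.G x *ᵥ S.a x) (S.b x)
        + F.sq (S.G x *ᵥ S.b x)) / S.D x) • S.a x)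
        - ((S.G x * S.Δ x * S.G x).trace / S.D x) • S.a x) i = _
    simp only [Pi.add_apply, Pi.sub_apply, Pi.smul_apply, smul_eq_mul]
    ring

/-- first order response of `z` -/
theorem oz1 {j : ℕ} {u : ∀ x, Vec (Fr.n x)} (hu : Fr.V j u) :
    Fr.O j (fun x => z1 (S.J x) (S.y x) (S.z x) (u x)) :=
  (((S.oa.zip hu).cmul 2).mulz S.oDi).congr fun x => by
    unfold z1
    rw [div_eq_mul_inv]
    rfl

theorem obs {j : ℕ} {u : ∀ x, Vec (Fr.n x)} (hu : Fr.V j u) :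
    Fr.V (j + j) (fun x => bs (S.J x) (S.y x) (S.z x) (u x)) := by
  have h1 := S.oz1 hu
  have h2 := Frame.V.smul h1 (S.oG.zmulVec (S.oG.zmulVec hu))
  have h3 := Frame.V.smul h1.sq S.oGa
  have h4 := (((h1.sq.mulz S.oT3).sub ((h1.cmul 4).mul (S.oGa.zip hu))).add
    (S.oG.zmulVec hu).sq).mulz S.oDi
  have h5 := Frame.V.smul h4 S.oa
  refine ((h2.sub h3).add h5).congr' fun x => ?_
  unfold bs
  rw [div_eq_mul_inv]
  rfl

theorem obs_diff {u v : ∀ x, Vec (Fr.n x)} (hu : Fr.V 1 u) (hv : Fr.V 1 v)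
    (hd : Fr.V 2 (fun x => u x - v x)) :
    Fr.V 3 (fun x => bs (S.J x) (S.y x) (S.z x) (u x) - bs (S.J x) (S.y x) (S.z x) (v x)) := by
  have u1 := S.oz1 hu
  have v1 := S.oz1 hv
  have d1 : Fr.O 2 (fun x => z1 (S.J x) (S.y x) (S.z x) (u x) - z1 (S.J x) (S.y x) (S.z x) (v x)) :=
    (S.oz1 hd).congr fun x => by
      unfold z1
      rw [ip_sub_right]
      ring
  have d2 : Fr.O 3 (fun x => z1 (S.J x) (S.y x) (S.z x) (u x) ^ 2
      - z1 (S.J x) (S.y x) (S.z x) (v x) ^ 2) :=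
    (d1.mul (u1.add v1)).congr fun x => by ring
  have d3 : Fr.O 3 (fun x => F.sq (S.G x *ᵥ u x) - F.sq (S.G x *ᵥ v x)) :=
    ((S.oG.zmulVec hd).ip ((S.oG.zmulVec hu).add (S.oG.zmulVec hv))).congr fun x => by
      rw [sq_eq (S.G x *ᵥ u x) (S.G x *ᵥ v x), Matrix.mulVec_sub]
      ring
  have h1 := Frame.V.smul v1 (S.oG.zmulVec (S.oG.zmulVec hd))
  have h2 := (Frame.V.smul d1 (S.oG.zmulVec (S.oG.zmulVec hu))).add h1
  have h3 := Frame.V.smul d2 S.oGa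
  have h0 := (v1.cmul 4).mul (S.oGa.zip hd)
  have h4 := ((((d2.mulz S.oT3).sub ((d1.cmul 4).mul (S.oGa.zip hu))).sub h0).add d3).mulz S.oDi
  have h5 := Frame.V.smul h4 S.oa
  refine ((h2.sub h3).add h5).congr fun x i => ?_
  unfold bs
  simp only [Matrix.mulVec_sub, ip_sub_right, Pi.add_apply, Pi.sub_apply, Pi.smul_apply,
    smul_eq_mul]
  unfold G a D t3
  ring

end SD

theorem z1_smul (J : Mat n) (y : Vec n) (z c : ℝ) (b : Vec n) :
    z1 J y z (c • b) = c * z1 J y z b := by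
  unfold z1
  rw [ip_smul_right]
  ring

theorem bs_smul (J : Mat n) (y : Vec n) (z c : ℝ) (b : Vec n) :
    bs J y z (c • b) = c ^ 2 • bs J y z b := by
  have h : F.sq (c • (G0 J z *ᵥ b)) = c ^ 2 * F.sq (G0 J z *ᵥ b) := by
    rw [← ipN_self, ip_smul_left, ip_smul_right, ipN_self]; ring
  unfold bs
  rw [z1_smul]
  simp only [Matrix.mulVec_smul, ip_smul_right, h]
  funext i
  simp only [Pi.add_apply, Pi.sub_apply, Pi.smul_apply, smul_eq_mul]
  ring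

/-- channel form of the step: `Δ = δ Q`, `y' = y + δ Q x + √δ ξ` -/
theorem SD.chan {X : Type} {Fr : Frame X} (S : SD Fr) (δ : X → ℝ) (Q : ∀ x, Mat (Fr.n x))
    (v ξ : ∀ x, Vec (Fr.n x)) (hδ : ∀ x, 0 ≤ δ x) (oδ : Fr.O 1 (fun x => √(δ x)))
    (oQ : Fr.M 0 Q) (ov : Fr.V 0 v) (oξ : Fr.V 0 ξ) (hΔ : ∀ x, S.Δ x = δ x • Q x)
    (hy : ∀ x, S.y' x = S.y x + δ x • (Q x *ᵥ v x) + √(δ x) • ξ x) :
    Fr.V 3 (fun x => pm (S.J x - S.Δ x) (S.y' x) (S.z' x) - pm (S.J x) (S.y x) (S.z x)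
      - Gs (S.J x) (S.y x) (S.z x) *ᵥ
          (δ x • (Q x *ᵥ (v x - pm (S.J x) (S.y x) (S.z x))) + √(δ x) • ξ x)
      - δ x • ks (S.J x) (S.y x) (S.z x) (Q x)
      + δ x • (bs (S.J x) (S.y x) (S.z x) (ξ x) - es (S.J x) (S.y x) (S.z x) (Q x))) := by
  have o2 : Fr.O 2 δ := oδ.sq.congr fun x => (Real.sq_sqrt (hδ x)).symm
  have hb : ∀ x, S.b x = δ x • (Q x *ᵥ (v x - pm (S.J x) (S.y x) (S.z x))) + √(δ x) • ξ x := by
    intro x
    unfold SD.b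
    rw [hy, hΔ]
    simp only [Matrix.mulVec_sub, Matrix.smul_mulVec, smul_sub]
    abel
  have b1 := Frame.V.smul oδ oξ
  have x2 := Frame.V.smul o2 (oQ.zmulVec (ov.sub S.op))
  have d2 : Fr.V 2 (fun x => S.b x - √(δ x) • ξ x) := x2.congr' fun x => by
    rw [hb, add_sub_cancel_right]; rfl
  refine (S.main.sub (S.obs_diff S.ob b1 d2)).congr' fun x => ?_
  rw [bs_smul, Real.sq_sqrt (hδ x), hb]
  have e : ((S.G x * S.Δ x * S.G x).trace / S.D x)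
      = δ x * ((G0 (S.J x) (S.z x) * Q x * G0 (S.J x) (S.z x)).trace
        / Dn (S.J x) (S.y x) (S.z x)) := by
    rw [hΔ, Matrix.mul_smul, Matrix.smul_mul, Matrix.trace_smul, smul_eq_mul, mul_div_assoc]
    rfl
  rw [e]
  unfold ks SD.μ SD.a
  module

end Vale.Agent.N150.Rad
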