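import Vale.Agent.N150.Rec

set_option linter.all false

/-! P150 at the critical point: the deterministic recursion with one source budget per window. -/

open Finset
open scoped Matrix

namespace Vale.Agent.N150.Rec

open Vale.Agent.P150 Vale.Agent.P150.F

variable {n : ℕ}

/-- the hypotheses of the sharp tier on the index range `[a, b]`, without the sources -/
structure Sh (t : ℕ → ℝ) (P G : ℕ → Mat n) (y W src : ℕ → Vec n) (η : ℝ) (a b : ℕ) :
    Prop where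
  mem : ∀ k, a ≤ k → k ≤ b → P k *ᵥ y k = y k
  rc : ∀ k, a ≤ k → k < b →
    W k - (t (k + 1) - t k) • (G k *ᵥ (P k *ᵥ W k)) = W (k + 1) + src k
  t1 : ∀ k, a ≤ k → k < b → ∀ u v, P k *ᵥ u = u → P k *ᵥ v = v →
    |t k * ip u (G k *ᵥ v) - (ip u v - ip (y k) u * ip (y k) v / (2 * F.sq (y k)))| ≤
      η * nv u * nv v

/-- the hypotheses of the crude tier on the index range `[a, b]`, without the sources -/
structure Cr (t : ℕ → ℝ) (P G : ℕ → Mat n) (W src : ℕ → Vec n) (Lam : ℝ) (a b : ℕ) :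
    Prop where
  rc : ∀ k, a ≤ k → k < b →
    W k - (t (k + 1) - t k) • (G k *ᵥ (P k *ᵥ W k)) = W (k + 1) + src k
  form : ∀ k, a ≤ k → k < b → ∀ u, P k *ᵥ u = u → t k * ip u (G k *ᵥ u) ≤ Lam * F.sq u

/-- source budget on the index range `[a, b)` -/
def Bud (t : ℕ → ℝ) (P : ℕ → Mat n) (src : ℕ → Vec n) (ζ : ℝ) (a b : ℕ) : Prop :=
  ∑ k ∈ Ico a b, √(t k) * nv (P k *ᵥ src k) ≤ ζ

theorem Bud.nonneg {t : ℕ → ℝ} {P : ℕ → Mat n} {src : ℕ → Vec n} {ζ : ℝ} {a b : ℕ}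
    (h : Bud t P src ζ a b) : 0 ≤ ζ :=
  (Finset.sum_nonneg fun _ _ => mul_nonneg (Real.sqrt_nonneg _) (nv_nonneg _)).trans h

/-- a pointwise bound plus one jump gives a budget -/
theorem bud_of {t : ℕ → ℝ} {P : ℕ → Mat n} {src : ℕ → Vec n} {η R Z : ℝ} {a b j : ℕ}
    (hab : a ≤ b) (hη : 0 ≤ η) (hZ : 0 ≤ Z) (ht : ∀ k, a ≤ k → 0 < t k)
    (hmono : ∀ k, t k ≤ t (k + 1)) (hR : t b ≤ R * t a)
    (hx : ∀ k, a ≤ k → k < b → t (k + 1) - t k ≤ t k)
    (h : ∀ k, a ≤ k → k < b →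
      √(t k) * nv (P k *ᵥ src k) ≤ η * ((t (k + 1) - t k) / t k) + if k = j then Z else 0) :
    Bud t P src (η * (2 * Real.log R) + if a ≤ j ∧ j < b then Z else 0) a b := by
  have ha := ht a le_rfl
  have hb := ht b hab
  have h1 : ∑ k ∈ Ico a b, (t (k + 1) - t k) / t k ≤ 2 * Real.log R := by
    refine (sum_rel_le hab ht hmono hx).trans ?_
    refine mul_le_mul_of_nonneg_left (Real.log_le_log (by positivity) ?_) (by norm_num)
    rw [div_le_iff₀ ha]; exact hR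
  unfold Bud
  calc _ ≤ ∑ k ∈ Ico a b, (η * ((t (k + 1) - t k) / t k) + if k = j then Z else 0) :=
        Finset.sum_le_sum fun k hk => h k (Finset.mem_Ico.1 hk).1 (Finset.mem_Ico.1 hk).2
    _ = η * ∑ k ∈ Ico a b, (t (k + 1) - t k) / t k + if a ≤ j ∧ j < b then Z else 0 := by
        rw [Finset.sum_add_distrib, ← Finset.mul_sum, Finset.sum_ite_eq']
        simp only [Finset.mem_Ico]
    _ ≤ _ := by
        have := mul_le_mul_of_nonneg_left h1 hη
        linarith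

theorem Sh.mono {t : ℕ → ℝ} {P G : ℕ → Mat n} {y W src : ℕ → Vec n} {η : ℝ} {a b a' b' : ℕ}
    (h : Sh t P G y W src η a b) (ha : a ≤ a') (hb : b' ≤ b) : Sh t P G y W src η a' b' :=
  ⟨fun k h1 h2 => h.mem k (by omega) (by omega), fun k h1 h2 => h.rc k (by omega) (by omega),
    fun k h1 h2 => h.t1 k (by omega) (by omega)⟩

theorem Sh.form {t : ℕ → ℝ} {P G : ℕ → Mat n} {y W src : ℕ → Vec n} {η : ℝ} {a b : ℕ}
    (h : Sh t P G y W src η a b) {k : ℕ} (h1 : a ≤ k) (h2 : k < b) (u : Vec n)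
    (hu : P k *ᵥ u = u) : t k * ip u (G k *ᵥ u) ≤ (1 + η) * F.sq u := by
  have h3 := (abs_le.1 (h.t1 k h1 h2 u u hu hu)).2
  have h4 : 0 ≤ ip (y k) u * ip (y k) u / (2 * F.sq (y k)) :=
    div_nonneg (mul_self_nonneg _) (mul_nonneg (by norm_num) (sqN_nonneg _))
  have h5 : η * nv u * nv u = η * F.sq u := by rw [← nv_sq]; ring
  rw [ipN_self, h5] at h3
  linarith

/-- crude bound on a whole window with a source budget -/
theorem crude_winZ {P : ℕ → Mat n} (hP : Flag P) {t : ℕ → ℝ} {G : ℕ → Mat n}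
    {W src : ℕ → Vec n} {a b : ℕ} {L Lam R ζ : ℝ} (hL : 1 ≤ L)
    (ht : ∀ k, a ≤ k → 0 < t k) (hmono : ∀ k, t k ≤ t (k + 1)) (hR : t b ≤ R * t a)
    (hx : ∀ k, a ≤ k → k < b → Lam * L * (t (k + 1) - t k) ≤ (L - Lam) * t k)
    (hC : Cr t P G W src Lam a b) (hB : Bud t P src ζ a b)
    {k : ℕ} (hak : a ≤ k) (hkb : k ≤ b) :
    √(t k) * nv (P k *ᵥ W k) ≤ R ^ L * (√(t b) * nv (P b *ᵥ W b) + ζ) := by
  have ha := ht a le_rfl
  have hk := ht k hak
  have hb := ht b (by omega)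
  have h1 := crude hP hkb hL (fun j hj => ht j (by omega)) hmono
    (fun j h1 h2 => hx j (by omega) h2) (fun j h1 h2 => hC.rc j (by omega) h2)
    (fun j h1 h2 => hC.form j (by omega) h2)
  have hkb' : t k ≤ t b := mono_le hmono hkb
  have hak' : t a ≤ t k := mono_le hmono hak
  have hR1 : 1 ≤ R := by
    by_contra h
    push Not at h
    nlinarith
  have hL0 : 0 ≤ L := by linarith
  have hbR : t b ^ L ≤ R ^ L * t k ^ L := by
    rw [← Real.mul_rpow (by linarith) hk.le]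
    exact Real.rpow_le_rpow hb.le (by nlinarith) hL0
  have hkL : 0 < t k ^ L := Real.rpow_pos_of_pos hk L
  have hsk : 0 ≤ √(t k) := Real.sqrt_nonneg _
  have h2 : √(t k) * ∑ j ∈ Ico k b, t (j + 1) ^ L * nv (P j *ᵥ src j) ≤ t b ^ L * ζ := by
    have h3 : ∑ j ∈ Ico k b, √(t j) * nv (P j *ᵥ src j) ≤ ζ := by
      refine le_trans (Finset.sum_le_sum_of_subset_of_nonneg (Finset.Ico_subset_Ico hak le_rfl)
        fun j _ _ => mul_nonneg (Real.sqrt_nonneg _) (nv_nonneg _)) hB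
    calc √(t k) * ∑ j ∈ Ico k b, t (j + 1) ^ L * nv (P j *ᵥ src j)
        = ∑ j ∈ Ico k b, t (j + 1) ^ L * (√(t k) * nv (P j *ᵥ src j)) := by
          rw [Finset.mul_sum]; exact Finset.sum_congr rfl fun j _ => by ring
      _ ≤ ∑ j ∈ Ico k b, t b ^ L * (√(t j) * nv (P j *ᵥ src j)) := by
          refine Finset.sum_le_sum fun j hj => ?_
          rw [Finset.mem_Ico] at hj
          have h4 : √(t k) ≤ √(t j) := Real.sqrt_le_sqrt (mono_le hmono hj.1)
          have h6 := mul_le_mul_of_nonneg_right h4 (nv_nonneg (P j *ᵥ src j))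
          have h7 : t (j + 1) ^ L ≤ t b ^ L :=
            Real.rpow_le_rpow (ht (j + 1) (by omega)).le (mono_le hmono hj.2) hL0
          exact mul_le_mul h7 h6 (mul_nonneg hsk (nv_nonneg _)) (Real.rpow_nonneg hb.le L)
      _ = t b ^ L * ∑ j ∈ Ico k b, √(t j) * nv (P j *ᵥ src j) := by rw [Finset.mul_sum]
      _ ≤ t b ^ L * ζ := mul_le_mul_of_nonneg_left h3 (Real.rpow_nonneg hb.le L)
  have h3 : √(t k) ≤ √(t b) := Real.sqrt_le_sqrt hkb'
  have hS : 0 ≤ √(t b) * nv (P b *ᵥ W b) + ζ :=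
    add_nonneg (mul_nonneg (Real.sqrt_nonneg _) (nv_nonneg _)) hB.nonneg
  have h4 : t k ^ L * (√(t k) * nv (P k *ᵥ W k)) ≤
      t b ^ L * (√(t b) * nv (P b *ᵥ W b) + ζ) := by
    have h5 := mul_le_mul_of_nonneg_left h1 hsk
    have h6 : √(t k) * (t b ^ L * nv (P b *ᵥ W b)) ≤ √(t b) * (t b ^ L * nv (P b *ᵥ W b)) :=
      mul_le_mul_of_nonneg_right h3 (mul_nonneg (Real.rpow_nonneg hb.le L) (nv_nonneg _))
    nlinarith
  have h5 := h4.trans (mul_le_mul_of_nonneg_right hbR hS)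
  rw [mul_comm (R ^ L), mul_assoc] at h5
  exact le_of_mul_le_mul_left h5 hkL

/-- the sharp window, paired with the adjoint flow -/
theorem sharp_pairZ {P : ℕ → Mat n} (hP : Flag P) {t : ℕ → ℝ} {G : ℕ → Mat n}
    {y W src : ℕ → Vec n} {η : ℝ} {a : ℕ} (hη1 : η ≤ 1) (ht : ∀ k, a ≤ k → 0 < t k)
    (hmono : ∀ k, t k ≤ t (k + 1)) {v : Vec n} (hv : P a *ᵥ v = v) (j : ℕ)
    (hx : ∀ k, a ≤ k → k < a + j → t (k + 1) - t k ≤ η * t k)
    (hS : Sh t P G y W src η a (a + j)) :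
    |ip v (W a) - t (a + j) / t a * ip (prop t y a j *ᵥ v) (W (a + j))| ≤
      (∑ k ∈ Ico a (a + j), t (k + 1) / t a *
        (3 * η * ((t (k + 1) - t k) / t k) * nv (P k *ᵥ W k) + nv (P k *ᵥ src k))) * nv v := by
  induction j with
  | zero => simp [prop, (ht a le_rfl).ne']
  | succ j ih =>
    have ih' := ih (fun k h1 h2 => hx k h1 (by omega)) (hS.mono le_rfl (by omega))
    have ha := ht a le_rfl
    have hk := ht (a + j) (by omega)
    have hmem := prop_mem hP t hv j (fun k h1 h2 => hS.mem k h1 (by omega))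
    have h1 := sharp_step hP hk (hmono (a + j)) hη1 (hx (a + j) (by omega) (by omega))
      (hS.mem (a + j) (by omega) (by omega)) hmem (hS.rc (a + j) (by omega) (by omega))
      (hS.t1 (a + j) (by omega) (by omega))
    have hn := nv_prop_le y ht hmono j v
    rw [← add_assoc, Finset.sum_Ico_succ_top (by omega), add_mul, prop_succ_mulVec]
    set ξ := prop t y a j *ᵥ v
    set B := 3 * η * ((t (a + j + 1) - t (a + j)) / t (a + j)) * nv (P (a + j) *ᵥ W (a + j)) +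
      nv (P (a + j) *ᵥ src (a + j)) with hB
    have hη : 0 ≤ η := by
      have h2 := hx (a + j) (by omega) (by omega)
      have h3 := hmono (a + j)
      by_contra h
      push Not at h
      nlinarith
    have hB0 : 0 ≤ B := by
      have h2 : 0 ≤ (t (a + j + 1) - t (a + j)) / t (a + j) :=
        div_nonneg (by linarith [hmono (a + j)]) hk.le
      have h3 := nv_nonneg (P (a + j) *ᵥ W (a + j))
      have h4 := nv_nonneg (P (a + j) *ᵥ src (a + j))
      positivity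
    have hk1 : 0 < t (a + j + 1) := ht _ (by omega)
    have h2 : |t (a + j) / t a * (ip ξ (W (a + j)) - t (a + j + 1) / t (a + j) *
        ip (stp (cf t (a + j)) (y (a + j)) *ᵥ ξ) (W (a + j + 1)))| ≤
        t (a + j + 1) / t a * B * nv v := by
      rw [abs_mul, abs_of_pos (by positivity : 0 < t (a + j) / t a)]
      calc _ ≤ t (a + j) / t a * (t (a + j + 1) / t (a + j) * B * nv ξ) :=
            mul_le_mul_of_nonneg_left h1 (by positivity)
        _ = t (a + j + 1) / t a * B * nv ξ := by field_simp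
        _ ≤ _ := mul_le_mul_of_nonneg_left hn (by positivity)
    have h3 : ip v (W a) - t (a + j + 1) / t a *
        ip (stp (cf t (a + j)) (y (a + j)) *ᵥ ξ) (W (a + j + 1)) =
        (ip v (W a) - t (a + j) / t a * ip ξ (W (a + j))) +
        t (a + j) / t a * (ip ξ (W (a + j)) - t (a + j + 1) / t (a + j) *
        ip (stp (cf t (a + j)) (y (a + j)) *ᵥ ξ) (W (a + j + 1))) := by
      field_simp; ring
    rw [h3]
    exact (abs_add_le _ _).trans (add_le_add ih' h2)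

/-- crude bound inside a sharp window -/
theorem sharp_crudeZ {P : ℕ → Mat n} (hP : Flag P) {t : ℕ → ℝ} {G : ℕ → Mat n}
    {y W src : ℕ → Vec n} {η R ζ : ℝ} {a b : ℕ} (hη1 : η ≤ 1 / 6)
    (ht : ∀ k, a ≤ k → 0 < t k) (hmono : ∀ k, t k ≤ t (k + 1)) (hR : t b ≤ R * t a)
    (hx : ∀ k, a ≤ k → k < b → t (k + 1) - t k ≤ η * t k)
    (hS : Sh t P G y W src η a b) (hB : Bud t P src ζ a b) {k : ℕ} (hak : a ≤ k) (hkb : k ≤ b) :
    √(t k) * nv (P k *ᵥ W k) ≤ R ^ 3 * (√(t b) * nv (P b *ᵥ W b) + ζ) := by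
  have h := crude_winZ hP (L := 3) (Lam := 2) (by norm_num) ht hmono hR
    (fun j h1 h2 => by have := hx j h1 h2; have := ht j h1; nlinarith)
    ⟨hS.rc, fun j h1 h2 u hu => by
      have h3 := hS.form h1 h2 u hu
      have h4 := sqN_nonneg u
      nlinarith⟩ hB hak hkb
  rwa [show (3:ℝ) = ((3:ℕ):ℝ) by norm_num, Real.rpow_natCast] at h

theorem window_scalZ {M0 M1 R ℓ η θ ζ : ℝ} (hR : 1 ≤ R) (hζ : 0 ≤ ζ) (hM : 0 ≤ M1)
    (hθ : θ ≤ 1 / 4) (hq : 3 * R ^ 4 * η * ℓ ≤ 1 / 4)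
    (h : M0 ≤ θ * M1 + R * (3 * η * ℓ * (R ^ 3 * (M1 + ζ)) + ζ)) :
    M0 ≤ M1 / 2 + 2 * R * ζ := by
  have h1 : θ * M1 ≤ M1 / 4 := by nlinarith
  have h3 : R * (3 * η * ℓ * (R ^ 3 * (M1 + ζ))) = (3 * R ^ 4 * η * ℓ) * (M1 + ζ) := by ring
  have h4 : (3 * R ^ 4 * η * ℓ) * (M1 + ζ) ≤ 1 / 4 * (M1 + ζ) :=
    mul_le_mul_of_nonneg_right hq (by linarith)
  have h5 : ζ ≤ R * ζ := by nlinarith
  nlinarith

/-- contraction over one sharp window -/
theorem windowZ {P : ℕ → Mat n} (hP : Flag P) {t : ℕ → ℝ} {G : ℕ → Mat n}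
    {y W src : ℕ → Vec n} {η η₁ κ R ζ : ℝ} {a b : ℕ} (hab : a ≤ b) (hη : 0 ≤ η) (hη1 : η ≤ 1 / 6)
    (hκ : 0 ≤ κ) (hη₁ : 0 ≤ η₁) (hη₁' : η₁ ≤ 1 / 2)
    (ht : ∀ k, a ≤ k → 0 < t k) (hmono : ∀ k, t k ≤ t (k + 1)) (hR : t b ≤ R * t a)
    (hx : ∀ k, a ≤ k → k < b → t (k + 1) - t k ≤ η * t k)
    (hθ : √R * (κ * (4 + Real.log R) + 4 * η₁ * Real.log R) ≤ 1 / 4)
    (hq : 6 * R ^ 4 * η * Real.log R ≤ 1 / 4)
    (hS : Sh t P G y W src η a b) (hB : Bud t P src ζ a b) (hRad : Rad t P y κ η₁ a b)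
    (hC : Comp t P y W κ a b) :
    √(t a) * nv (P a *ᵥ W a) ≤ √(t b) * nv (P b *ᵥ W b) / 2 + 2 * R * ζ := by
  have hζ := hB.nonneg
  obtain ⟨m, rfl⟩ := Nat.exists_eq_add_of_le hab
  have ha := ht a le_rfl
  have hb := ht (a + m) hab
  have hab' : t a ≤ t (a + m) := mono_le hmono hab
  have hR1 : 1 ≤ R := by
    by_contra h
    push Not at h
    nlinarith
  have hlog : 0 ≤ Real.log R := Real.log_nonneg hR1
  have hx1 : ∀ k, a ≤ k → k < a + m → t (k + 1) - t k ≤ t k := fun j h1 h2 => by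
    have := hx j h1 h2; have := ht j h1; nlinarith
  set Lg := ∑ i ∈ Ico a (a + m), (t (i + 1) - t i) / t i with hLg
  have hLg1 : Lg ≤ 2 * Real.log R := by
    refine (sum_rel_le hab ht hmono hx1).trans ?_
    refine mul_le_mul_of_nonneg_left (Real.log_le_log (by positivity) ?_) (by norm_num)
    rw [div_le_iff₀ ha]; exact hR
  set w := P (a + m) *ᵥ W (a + m) with hw
  set Mb := √(t (a + m)) * nv w with hMb
  have hMb0 : 0 ≤ Mb := mul_nonneg (Real.sqrt_nonneg _) (nv_nonneg _)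
  set Mw := R ^ 3 * (Mb + ζ) with hMw
  have hMw0 : 0 ≤ Mw := by positivity
  have hsa : 0 < √(t a) := Real.sqrt_pos.2 ha
  set th := κ * (4 + Real.log R) + 4 * η₁ * Real.log R with hth
  have hth0 : 0 ≤ th := by positivity
  set Er := ∑ k ∈ Ico a (a + m), t (k + 1) / t a *
    (3 * η * ((t (k + 1) - t k) / t k) * nv (P k *ᵥ W k) + nv (P k *ᵥ src k)) with hEr
  have hEr1 : √(t a) * Er ≤ R * (3 * η * (2 * Real.log R) * Mw + ζ) := by
    calc √(t a) * Er = ∑ k ∈ Ico a (a + m), t (k + 1) / t a *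
          (3 * η * ((t (k + 1) - t k) / t k) * (√(t a) * nv (P k *ᵥ W k)) +
            √(t a) * nv (P k *ᵥ src k)) := by
          rw [hEr, Finset.mul_sum]; exact Finset.sum_congr rfl fun k _ => by ring
      _ ≤ ∑ k ∈ Ico a (a + m), R * (3 * η * Mw * ((t (k + 1) - t k) / t k) +
            √(t k) * nv (P k *ᵥ src k)) := by
          refine Finset.sum_le_sum fun k hk => ?_
          rw [Finset.mem_Ico] at hk
          have h1 : t (k + 1) / t a ≤ R := by
            rw [div_le_iff₀ ha]; exact (mono_le hmono hk.2).trans hR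
          have h2 : √(t a) ≤ √(t k) := Real.sqrt_le_sqrt (mono_le hmono hk.1)
          have h3 : √(t a) * nv (P k *ᵥ W k) ≤ Mw :=
            (mul_le_mul_of_nonneg_right h2 (nv_nonneg _)).trans
              (sharp_crudeZ hP hη1 ht hmono hR hx hS hB hk.1 hk.2.le)
          have h4 : √(t a) * nv (P k *ᵥ src k) ≤ √(t k) * nv (P k *ᵥ src k) :=
            mul_le_mul_of_nonneg_right h2 (nv_nonneg _)
          have h5 : 0 ≤ (t (k + 1) - t k) / t k :=
            div_nonneg (by linarith [hmono k]) (ht k hk.1).le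
          have h6 := mul_le_mul_of_nonneg_left h3 (by positivity :
            0 ≤ 3 * η * ((t (k + 1) - t k) / t k))
          refine mul_le_mul h1 (by linarith) ?_ (by linarith)
          have := nv_nonneg (P k *ᵥ W k)
          have := nv_nonneg (P k *ᵥ src k)
          positivity
      _ = R * (3 * η * Mw * Lg + ∑ k ∈ Ico a (a + m), √(t k) * nv (P k *ᵥ src k)) := by
          rw [hLg, ← Finset.mul_sum, Finset.sum_add_distrib, ← Finset.mul_sum]
      _ ≤ R * (3 * η * Mw * (2 * Real.log R) + ζ) :=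
          mul_le_mul_of_nonneg_left (add_le_add
            (mul_le_mul_of_nonneg_left hLg1 (by positivity)) hB) (by linarith)
      _ = _ := by ring
  have hEr0 : 0 ≤ Er := Finset.sum_nonneg fun k hk => by
    rw [Finset.mem_Ico] at hk
    have h5 : 0 ≤ (t (k + 1) - t k) / t k := div_nonneg (by linarith [hmono k]) (ht k hk.1).le
    have := nv_nonneg (P k *ᵥ W k)
    have := nv_nonneg (P k *ᵥ src k)
    have := ht (k + 1) (by omega)
    positivity
  have hmain : nv (P a *ᵥ W a) ≤ t (a + m) / t a * (th * nv w) + Er := by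
    refine hP.nv_le_of_ip (by have := nv_nonneg w; positivity) fun v hv => ?_
    have h1 := (abs_le.1 (sharp_pairZ hP (by linarith) ht hmono hv m hx hS)).2
    rw [← hEr] at h1
    set ξ := prop t y a m *ᵥ v with hξ
    have hmem : P (a + m) *ᵥ ξ = ξ := prop_mem hP t hv m fun k h1 h2 => hS.mem k h1 h2.le
    have h2 := radial hP ht hmono hx1 hκ hη₁ hη₁' hRad hv
    rw [← hLg, ← hξ] at h2
    have h3 : ip ξ (W (a + m)) = ip ξ (perp (y (a + m)) w) +
        ip (y (a + m)) w / F.sq (y (a + m)) * ip ξ (y (a + m)) := by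
      rw [← hP.ip_proj hmem, ← hw, perp, ip_sub_right, ip_smul_right]; ring
    have h4 : ip ξ (perp (y (a + m)) w) ≤ nv v * (κ * nv w) := by
      rw [hξ, ip_mulVec_tr]
      refine (le_abs_self _).trans ((hP.abs_ip_le hv _).trans ?_)
      refine mul_le_mul_of_nonneg_left ?_ (nv_nonneg v)
      have h5 := hC
      rw [Comp, Nat.add_sub_cancel_left] at h5
      exact h5
    have hv0 := nv_nonneg v
    have hLg0 : 0 ≤ Lg := Finset.sum_nonneg fun k hk => by
      rw [Finset.mem_Ico] at hk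
      exact div_nonneg (by linarith [hmono k]) (ht k hk.1).le
    have h5 : |ip (y (a + m)) ξ| ≤ ((κ * (3 + Real.log R) + 4 * η₁ * Real.log R) * nv v) *
        nv (y (a + m)) := by
      refine h2.trans ?_
      rw [mul_right_comm]
      refine mul_le_mul_of_nonneg_right (mul_le_mul_of_nonneg_right ?_ hv0) (nv_nonneg _)
      have h6 := mul_le_mul_of_nonneg_left hLg1 hκ
      have h7 := mul_le_mul_of_nonneg_left hLg1 hη₁
      linarith
    have h6 := (le_abs_self _).trans (abs_coef_le (w := w) (by positivity) h5)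
    have h7 : ip ξ (W (a + m)) ≤ th * nv w * nv v := by
      rw [h3, hth]; linarith
    have h8 := mul_le_mul_of_nonneg_left h7 (by positivity : 0 ≤ t (a + m) / t a)
    linarith
  have h9 : √(t a) * (t (a + m) / t a * (th * nv w)) ≤ √R * th * Mb := by
    have h1 : √(t a) * (t (a + m) / t a) ≤ √R * √(t (a + m)) := by
      rw [← Real.sqrt_mul (by linarith)]
      refine Real.le_sqrt_of_sq_le ?_
      rw [mul_pow, Real.sq_sqrt ha.le]
      have h2 : t a * (t (a + m) / t a) ^ 2 = t (a + m) / t a * t (a + m) := by field_simp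
      rw [h2]
      refine mul_le_mul_of_nonneg_right ?_ hb.le
      rw [div_le_iff₀ ha]; exact hR
    have h2 := mul_le_mul_of_nonneg_right h1 (mul_nonneg hth0 (nv_nonneg w))
    rw [hMb]
    linarith
  have h10 := mul_le_mul_of_nonneg_left hmain hsa.le
  refine window_scalZ (ℓ := 2 * Real.log R) (η := η) hR1 hζ hMb0 hθ (by linarith) ?_
  rw [← hMw]
  linarith

/-- the deterministic majorant at the window ends -/
noncomputable def mu (R M0 : ℝ) (ζ : ℕ → ℝ) : ℕ → ℝ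
  | 0 => M0
  | j + 1 => mu R M0 ζ j / 2 + 2 * R * ζ j

theorem sum_mu_le (R M0 : ℝ) (ζ : ℕ → ℝ) (J : ℕ) :
    ∑ j ∈ range J, mu R M0 ζ j ^ 2 + 2 * mu R M0 ζ J ^ 2 ≤
      2 * M0 ^ 2 + 16 * R ^ 2 * ∑ j ∈ range J, ζ j ^ 2 := by
  induction J with
  | zero => simp [mu]
  | succ J ih =>
    rw [Finset.sum_range_succ, Finset.sum_range_succ, mu]
    nlinarith [sq_nonneg (mu R M0 ζ J / 2 - 2 * R * ζ J)]

theorem mu_sq_le (R M0 : ℝ) (ζ : ℕ → ℝ) (J : ℕ) :
    mu R M0 ζ J ^ 2 ≤ M0 ^ 2 + 8 * R ^ 2 * ∑ j ∈ range J, ζ j ^ 2 := by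
  have h1 := sum_mu_le R M0 ζ J
  have h2 : 0 ≤ ∑ j ∈ range J, mu R M0 ζ j ^ 2 := Finset.sum_nonneg fun _ _ => sq_nonneg _
  linarith

/-- the bound at the window ends -/
theorem endsZ {P : ℕ → Mat n} (hP : Flag P) {t : ℕ → ℝ} {G : ℕ → Mat n}
    {y W src : ℕ → Vec n} {η η₁ κ R M0 : ℝ} {ζ : ℕ → ℝ} {a : ℕ → ℕ} {J : ℕ}
    (ha : ∀ j, j < J → a (j + 1) ≤ a j) (hη : 0 ≤ η) (hη1 : η ≤ 1 / 6)
    (hκ : 0 ≤ κ) (hη₁ : 0 ≤ η₁) (hη₁' : η₁ ≤ 1 / 2)
    (ht : ∀ k, a J ≤ k → 0 < t k) (hmono : ∀ k, t k ≤ t (k + 1))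
    (hR : ∀ j, j < J → t (a j) ≤ R * t (a (j + 1)))
    (hx : ∀ k, a J ≤ k → k < a 0 → t (k + 1) - t k ≤ η * t k)
    (hθ : √R * (κ * (4 + Real.log R) + 4 * η₁ * Real.log R) ≤ 1 / 4)
    (hq : 6 * R ^ 4 * η * Real.log R ≤ 1 / 4)
    (hS : Sh t P G y W src η (a J) (a 0))
    (hW : ∀ j, j < J → Bud t P src (ζ j) (a (j + 1)) (a j) ∧
      Rad t P y κ η₁ (a (j + 1)) (a j) ∧ Comp t P y W κ (a (j + 1)) (a j))
    (h0 : √(t (a 0)) * nv (P (a 0) *ᵥ W (a 0)) ≤ M0) {j : ℕ} (hj : j ≤ J) :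
    √(t (a j)) * nv (P (a j) *ᵥ W (a j)) ≤ mu R M0 ζ j := by
  induction j with
  | zero => exact h0
  | succ j ih =>
    have h1 := ih (by omega)
    have h2 : a J ≤ a (j + 1) := anti_le ha hj le_rfl
    have h3 : a j ≤ a 0 := anti_le ha (Nat.zero_le j) (by omega)
    have h4 := windowZ hP (ha j (by omega)) hη hη1 hκ hη₁ hη₁' (fun k hk => ht k (by omega))
      hmono (hR j (by omega)) (fun k h5 h6 => hx k (by omega) (by omega)) hθ hq (hS.mono h2 h3)
      (hW j (by omega)).1 (hW j (by omega)).2.1 (hW j (by omega)).2.2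
    rw [mu]
    linarith

/-- total of the squared bounds of the sharp windows; `Z` bounds the sum of the squared budgets -/
noncomputable def totA (R M0 Z : ℝ) : ℝ := R ^ 6 * (4 * M0 ^ 2 + 34 * R ^ 2 * Z)

/-- squared bound of the crude tier -/
noncomputable def totB (R M0 Z R₂ L ζ₂ : ℝ) : ℝ :=
  2 * (R₂ ^ L) ^ 2 * (M0 ^ 2 + 8 * R ^ 2 * Z + ζ₂ ^ 2)

/-- MAIN: deterministic bounds `m k` for the tracking functional, sharp windows
`[a (j+1), a j]`, `j < J`, with source budgets `ζ j`, followed by a crude tier `[k₀, a J]` -/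
theorem rec_mainZ {t : ℕ → ℝ} {η η₁ κ R M0 R₂ L Lam Z ζ₂ : ℝ} {ζ : ℕ → ℝ} {a : ℕ → ℕ}
    {J k₀ : ℕ} (ha : ∀ j, j < J → a (j + 1) ≤ a j) (hk₀ : k₀ ≤ a J) (hη : 0 ≤ η)
    (hη1 : η ≤ 1 / 6) (hκ : 0 ≤ κ) (hη₁ : 0 ≤ η₁) (hη₁' : η₁ ≤ 1 / 2) (hR1 : 1 ≤ R) (hL : 1 ≤ L)
    (hZ : ∑ j ∈ range J, ζ j ^ 2 ≤ Z)
    (ht : ∀ k, k₀ ≤ k → 0 < t k) (hmono : ∀ k, t k ≤ t (k + 1))
    (hR : ∀ j, j < J → t (a j) ≤ R * t (a (j + 1))) (hR₂ : t (a J) ≤ R₂ * t k₀)
    (hx : ∀ k, k₀ ≤ k → k < a 0 → t (k + 1) - t k ≤ η * t k)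
    (hx₂ : ∀ k, k₀ ≤ k → k < a J → Lam * L * (t (k + 1) - t k) ≤ (L - Lam) * t k)
    (hθ : √R * (κ * (4 + Real.log R) + 4 * η₁ * Real.log R) ≤ 1 / 4)
    (hq : 6 * R ^ 4 * η * Real.log R ≤ 1 / 4) :
    ∃ m : ℕ → ℝ, (∀ k, k₀ ≤ k → 0 ≤ m k ∧
        m k ≤ (t (k + 1) - t k) / t k * (totA R M0 Z + totB R M0 Z R₂ L ζ₂)) ∧
      ∑ k ∈ Ico k₀ (a 0), m k ≤
        2 * Real.log R * totA R M0 Z + 2 * Real.log R₂ * totB R M0 Z R₂ L ζ₂ ∧
      ∀ {n : ℕ} {P G : ℕ → Mat n} {y W src : ℕ → Vec n}, Flag P →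
        Sh t P G y W src η (a J) (a 0) →
        (∀ j, j < J → Bud t P src (ζ j) (a (j + 1)) (a j) ∧
          Rad t P y κ η₁ (a (j + 1)) (a j) ∧ Comp t P y W κ (a (j + 1)) (a j)) →
        Cr t P G W src Lam k₀ (a J) → Bud t P src ζ₂ k₀ (a J) →
        √(t (a 0)) * nv (P (a 0) *ᵥ W (a 0)) ≤ M0 →
        (∀ k, k₀ ≤ k → k < a 0 → (t (k + 1) - t k) * F.sq (P k *ᵥ W k) ≤ m k) ∧
          t k₀ * F.sq (P k₀ *ᵥ W k₀) ≤ totB R M0 Z R₂ L ζ₂ := by
  classical
  have hlog : 0 ≤ Real.log R := Real.log_nonneg hR1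
  have hk0 := ht k₀ le_rfl
  have hR21 : 1 ≤ R₂ := by
    have h1 : t k₀ ≤ t (a J) := mono_le hmono hk₀
    by_contra h
    push Not at h
    nlinarith
  have hlog2 : 0 ≤ Real.log R₂ := Real.log_nonneg hR21
  have hZ0 : 0 ≤ Z := (Finset.sum_nonneg fun _ _ => sq_nonneg _).trans hZ
  set B : ℕ → ℝ := fun j => (R ^ 3 * (mu R M0 ζ j + ζ j)) ^ 2 with hB
  have hB0 : ∀ j, 0 ≤ B j := fun j => sq_nonneg _
  have hBs : ∑ j ∈ range J, B j ≤ totA R M0 Z := by
    have h1 := sum_mu_le R M0 ζ J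
    have h2 := sq_nonneg (mu R M0 ζ J)
    have h3 : 1 ≤ R ^ 2 := one_le_pow₀ hR1
    have h4 := mul_le_mul_of_nonneg_left hZ (by positivity : 0 ≤ 16 * R ^ 2)
    have h5 := mul_le_mul_of_nonneg_right h3 hZ0
    calc ∑ j ∈ range J, B j ≤ ∑ j ∈ range J, R ^ 6 * (2 * mu R M0 ζ j ^ 2 + 2 * ζ j ^ 2) := by
          refine Finset.sum_le_sum fun j _ => ?_
          have h6 : B j = R ^ 6 * (mu R M0 ζ j + ζ j) ^ 2 := by simp only [hB]; ring
          rw [h6]
          exact mul_le_mul_of_nonneg_left (by nlinarith [sq_nonneg (mu R M0 ζ j - ζ j)])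
            (by positivity)
      _ = R ^ 6 * (2 * ∑ j ∈ range J, mu R M0 ζ j ^ 2 + 2 * ∑ j ∈ range J, ζ j ^ 2) := by
          rw [← Finset.mul_sum, Finset.sum_add_distrib, ← Finset.mul_sum, ← Finset.mul_sum]
      _ ≤ totA R M0 Z := mul_le_mul_of_nonneg_left (by linarith) (by positivity)
  have hT0 : 0 ≤ totB R M0 Z R₂ L ζ₂ := by unfold totB; positivity
  have hx0 : ∀ k, k₀ ≤ k → 0 ≤ (t (k + 1) - t k) / t k := fun k hk =>
    div_nonneg (by linarith [hmono k]) (ht k hk).le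
  have hx1 : ∀ k, k₀ ≤ k → k < a 0 → t (k + 1) - t k ≤ t k := fun j h1 h2 => by
    have := hx j h1 h2; have := ht j h1; nlinarith
  have haJ : a J ≤ a 0 := anti_le ha (Nat.zero_le J) le_rfl
  let β : ℕ → ℝ := fun k => (∑ j ∈ range J, if k ∈ Ico (a (j + 1)) (a j) then B j else 0) +
    if k ∈ Ico k₀ (a J) then totB R M0 Z R₂ L ζ₂ else 0
  have hβ1 : ∀ k, 0 ≤ ∑ j ∈ range J, if k ∈ Ico (a (j + 1)) (a j) then B j else 0 := fun k =>
    Finset.sum_nonneg fun j _ => by split_ifs; exacts [hB0 j, le_rfl]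
  have hβ2 : ∀ k, 0 ≤ if k ∈ Ico k₀ (a J) then totB R M0 Z R₂ L ζ₂ else 0 := fun k => by
    split_ifs; exacts [hT0, le_rfl]
  refine ⟨fun k => (t (k + 1) - t k) / t k * β k, fun k hk => ⟨?_, ?_⟩, ?_, ?_⟩
  · exact mul_nonneg (hx0 k hk) (add_nonneg (hβ1 k) (hβ2 k))
  · refine mul_le_mul_of_nonneg_left (add_le_add ?_ ?_) (hx0 k hk)
    · refine le_trans (Finset.sum_le_sum fun j _ => ?_) hBs
      split_ifs; exacts [le_rfl, hB0 j]
    · split_ifs; exacts [le_rfl, hT0]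
  · have key : ∀ (c d : ℕ) (X Rr : ℝ), k₀ ≤ c → c ≤ d → d ≤ a 0 → 0 ≤ X → t d ≤ Rr * t c →
        ∑ k ∈ Ico k₀ (a 0), (t (k + 1) - t k) / t k * (if k ∈ Ico c d then X else 0) ≤
          2 * Real.log Rr * X := by
      intro c d X Rr h1 h2 h3 hX h4
      have hc := ht c h1
      have hd := ht d (by omega)
      have h5 : ∑ k ∈ Ico k₀ (a 0), (t (k + 1) - t k) / t k * (if k ∈ Ico c d then X else 0) =
          (∑ k ∈ Ico c d, (t (k + 1) - t k) / t k) * X := by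
        simp only [mul_ite, mul_zero]
        rw [Finset.sum_ite_mem, Finset.sum_mul]
        refine Finset.sum_congr ?_ fun _ _ => rfl
        ext k
        simp only [Finset.mem_inter, Finset.mem_Ico]
        omega
      rw [h5]
      refine mul_le_mul_of_nonneg_right ?_ hX
      refine (sum_rel_le h2 (fun k hk => ht k (by omega)) hmono
        (fun k h6 h7 => hx1 k (by omega) (by omega))).trans ?_
      refine mul_le_mul_of_nonneg_left (Real.log_le_log (by positivity) ?_) (by norm_num)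
      rw [div_le_iff₀ hc]; exact h4
    calc ∑ k ∈ Ico k₀ (a 0), (t (k + 1) - t k) / t k * β k
        = (∑ j ∈ range J, ∑ k ∈ Ico k₀ (a 0), (t (k + 1) - t k) / t k *
            (if k ∈ Ico (a (j + 1)) (a j) then B j else 0)) +
          ∑ k ∈ Ico k₀ (a 0), (t (k + 1) - t k) / t k *
            (if k ∈ Ico k₀ (a J) then totB R M0 Z R₂ L ζ₂ else 0) := by
          rw [Finset.sum_comm, ← Finset.sum_add_distrib]
          refine Finset.sum_congr rfl fun k _ => ?_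
          rw [← Finset.mul_sum, ← mul_add]
      _ ≤ (∑ j ∈ range J, 2 * Real.log R * B j) + 2 * Real.log R₂ * totB R M0 Z R₂ L ζ₂ := by
          refine add_le_add (Finset.sum_le_sum fun j hj => ?_)
            (key k₀ (a J) _ R₂ le_rfl hk₀ haJ hT0 hR₂)
          rw [Finset.mem_range] at hj
          exact key _ _ _ R (hk₀.trans (anti_le ha hj le_rfl)) (ha j hj)
            (anti_le ha (Nat.zero_le j) hj.le) (hB0 j) (hR j hj)
      _ ≤ _ := by
          rw [← Finset.mul_sum]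
          have := mul_le_mul_of_nonneg_left hBs (by positivity : 0 ≤ 2 * Real.log R)
          linarith
  · intro n P G y W src hP hS hW hC hB2 h0
    have hend := fun j (hj : j ≤ J) => endsZ hP ha hη hη1 hκ hη₁ hη₁'
      (fun k hk => ht k (by omega)) hmono hR (fun k h1 h2 => hx k (by omega) h2) hθ hq hS hW h0 hj
    have hlow : ∀ k, k₀ ≤ k → k ≤ a J →
        √(t k) * nv (P k *ᵥ W k) ≤ R₂ ^ L * (mu R M0 ζ J + ζ₂) := by
      intro k hk1 hk2
      have h5 := crude_winZ hP hL ht hmono hR₂ hx₂ hC hB2 hk1 hk2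
      refine h5.trans (mul_le_mul_of_nonneg_left ?_ (Real.rpow_nonneg (by linarith) L))
      have h7 := hend J le_rfl
      linarith
    have hsq : (R₂ ^ L * (mu R M0 ζ J + ζ₂)) ^ 2 ≤ totB R M0 Z R₂ L ζ₂ := by
      have h1 := mu_sq_le R M0 ζ J
      have h2 := mul_le_mul_of_nonneg_left hZ (by positivity : 0 ≤ 8 * R ^ 2)
      have h3 : (mu R M0 ζ J + ζ₂) ^ 2 ≤ 2 * (M0 ^ 2 + 8 * R ^ 2 * Z + ζ₂ ^ 2) := by
        nlinarith [sq_nonneg (mu R M0 ζ J - ζ₂)]
      have h4 := mul_le_mul_of_nonneg_left h3 (sq_nonneg (R₂ ^ L))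
      unfold totB
      rw [mul_pow]
      linarith
    refine ⟨fun k hk1 hk2 => ?_, ?_⟩
    · by_cases hk : a J ≤ k
      · obtain ⟨j, hj, h1, h2⟩ := exists_window hk hk2
        have h3 : a J ≤ a (j + 1) := anti_le ha hj le_rfl
        have h4 : a j ≤ a 0 := anti_le ha (Nat.zero_le j) hj.le
        have h5 := sharp_crudeZ hP hη1 (fun k hk => ht k (by omega)) hmono (hR j hj)
          (fun k h5 h6 => hx k (by omega) (by omega)) (hS.mono h3 h4) (hW j hj).1 h1 h2.le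
        have h6 : √(t k) * nv (P k *ᵥ W k) ≤ R ^ 3 * (mu R M0 ζ j + ζ j) := by
          refine h5.trans (mul_le_mul_of_nonneg_left ?_ (by positivity))
          have h7 := hend j hj.le
          linarith
        refine (sq_le_of (ht k hk1) (hmono k) h6).trans
          (mul_le_mul_of_nonneg_left ?_ (hx0 k hk1))
        refine le_add_of_le_of_nonneg ?_ (hβ2 k)
        refine le_trans ?_ (Finset.single_le_sum (f := fun j =>
          if k ∈ Ico (a (j + 1)) (a j) then B j else 0)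
          (fun j _ => by split_ifs; exacts [hB0 j, le_rfl]) (Finset.mem_range.2 hj))
        rw [if_pos (Finset.mem_Ico.2 ⟨h1, h2⟩)]
      · refine (sq_le_of (ht k hk1) (hmono k) (hlow k hk1 (by omega))).trans
          (mul_le_mul_of_nonneg_left ?_ (hx0 k hk1))
        refine le_add_of_nonneg_of_le (hβ1 k) ?_
        rw [if_pos (Finset.mem_Ico.2 ⟨hk1, by omega⟩)]
        exact hsq
    · have h1 := pow_le_pow_left₀ (mul_nonneg (Real.sqrt_nonneg _) (nv_nonneg _))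
        (hlow k₀ le_rfl hk₀) 2
      rw [mul_pow, Real.sq_sqrt hk0.le, nv_sq] at h1
      exact h1.trans hsq

end Vale.Agent.N150.Rec
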