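import Vale.Agent.N150.Plant
import Vale.Agent.N150.CapDef

set_option linter.all false

/-! P150 at the critical point: Cameron-Martin formula on the past of the noise path; the planted
path law as a mixture of planted laws at an intermediate state. -/

open MeasureTheory Matrix Finset
open scoped ENNReal

namespace Vale.Agent.N150.CM

open Vale.Agent.P150 Vale.Agent.P150.F Vale.Agent.N150.Plant Vale.Agent.N150.Cap

variable {n m : ℕ}

/-- the first `b` entries come from `η`, the others from `ω` -/
def glue (b : ℕ) (η ω : ℕ → Vec m) : ℕ → Vec m := fun j => if j < b then η j else ω (j - b)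

theorem glue_lt {b j : ℕ} (h : j < b) (η ω : ℕ → Vec m) : glue b η ω j = η j := if_pos h

theorem glue_ge {b j : ℕ} (h : b ≤ j) (η ω : ℕ → Vec m) : glue b η ω j = ω (j - b) :=
  if_neg (not_lt.2 h)

theorem shS_glue (b : ℕ) (η ω : ℕ → Vec m) : shS b (glue b η ω) = ω := by
  funext j
  unfold shS
  rw [glue_ge (Nat.le_add_right b j), Nat.add_sub_cancel_left]

theorem glue_zero (η ω : ℕ → Vec m) : glue 0 η ω = ω := by
  funext j
  rw [glue_ge (Nat.zero_le j), Nat.sub_zero]

theorem glue_succ (b : ℕ) (η ω : ℕ → Vec m) :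
    glue (b + 1) η ω = consS (η 0) (glue b (fun j => η (j + 1)) ω) := by
  funext j
  cases j with
  | zero => rw [glue_lt (Nat.succ_pos b), consS_zero]
  | succ j =>
    rw [consS_succ]
    unfold glue
    by_cases h : j < b
    · rw [if_pos h, if_pos (by omega)]
    · rw [if_neg h, if_neg (by omega), Nat.add_sub_add_right]

theorem measurable_glue {α : Type*} [MeasurableSpace α] (b : ℕ) {η ω : α → ℕ → Vec m}
    (hη : Measurable η) (hω : Measurable ω) : Measurable fun a => glue b (η a) (ω a) := by
  refine measurable_pi_lambda _ fun j => ?_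
  unfold glue
  by_cases h : j < b
  · simp only [if_pos h]; exact (measurable_pi_apply j).comp hη
  · simp only [if_neg h]; exact (measurable_pi_apply (j - b)).comp hω

theorem measurable_ip2 {α : Type*} [MeasurableSpace α] {u v : α → Vec m} (hu : Measurable u)
    (hv : Measurable v) : Measurable fun a => ip (u a) (v a) := by
  unfold ip
  exact Finset.measurable_fun_sum _ fun i _ =>
    ((measurable_pi_apply i).comp hu).mul ((measurable_pi_apply i).comp hv)

theorem measurable_sq2 {α : Type*} [MeasurableSpace α] {u : α → Vec m} (hu : Measurable u) :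
    Measurable fun a => F.sq (u a) := by
  simp only [← ipN_self]
  exact measurable_ip2 hu hu

/-- Cameron-Martin formula for one Gaussian vector -/
theorem lint_cm1 (s : Vec m) {G : Vec m → ℝ≥0∞} (hG : Measurable G) :
    ∫⁻ g, G g ∂gpi (Fin m) =
      ∫⁻ g, ENNReal.ofReal (Real.exp (ip s g - F.sq s / 2)) * G (g - s) ∂gpi (Fin m) := by
  have hG' : Measurable fun g : Vec m => G (g - s) := hG.comp (measurable_id.sub_const s)
  have h := lintegral_tilt (ι := Fin m) (w := fun _ => 1) s (fun _ => one_pos) hG'
  have e1 : ∀ g : Vec m, aff (fun _ => (1:ℝ)) s g - s = g := fun g => by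
    funext a; simp [aff]
  simp only [e1, sub_self, zero_mul, zero_div, zero_add, Real.log_one, Finset.sum_const_zero,
    neg_zero, div_one] at h
  have e2 : ∀ g : Vec m, ENNReal.ofReal (Real.exp (ip s g - F.sq s / 2)) * G (g - s) =
      ENNReal.ofReal (Real.exp (-(F.sq s / 2))) *
        (ENNReal.ofReal (Real.exp (∑ a, s a * g a)) * G (g - s)) := fun g => by
    rw [← mul_assoc, ← ENNReal.ofReal_mul (Real.exp_pos _).le, ← Real.exp_add]
    congr 3
    unfold ip
    ring
  simp only [e2]
  rw [lintegral_const_mul' _ _ ENNReal.ofReal_ne_top, h, ← mul_assoc,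
    ← ENNReal.ofReal_mul (Real.exp_pos _).le, ← Real.exp_add]
  have e3 : -(F.sq s / 2) + (∑ a, s a ^ 2) / 2 = 0 := by unfold F.sq; ring
  rw [e3, Real.exp_zero, ENNReal.ofReal_one, one_mul]

/-- logarithm of the density of the shifted past -/
noncomputable def ew (σ : ℕ → Vec m) (b : ℕ) (η : ℕ → Vec m) : ℝ :=
  ∑ j ∈ range b, (ip (σ j) (η j) - F.sq (σ j) / 2)

theorem measurable_ew {α : Type*} [MeasurableSpace α] (b : ℕ) {σ η : α → ℕ → Vec m}
    (hσ : Measurable σ) (hη : Measurable η) : Measurable fun a => ew (σ a) b (η a) := by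
  unfold ew
  refine Finset.measurable_fun_sum _ fun j _ => ?_
  have h1 : Measurable fun a => σ a j := (measurable_pi_apply j).comp hσ
  have h2 : Measurable fun a => η a j := (measurable_pi_apply j).comp hη
  exact (measurable_ip2 h1 h2).sub ((measurable_sq2 h1).div_const _)

/-- Cameron-Martin formula on the first `b` noise vectors -/
theorem lint_cm (b : ℕ) (σ : ℕ → Vec m) {G : (ℕ → Vec m) → ℝ≥0∞} (hG : Measurable G) :
    ∫⁻ ω, G ω ∂PN m = ∫⁻ η, ENNReal.ofReal (Real.exp (ew σ b η)) *
      ∫⁻ ω, G (glue b (η - σ) ω) ∂PN m ∂PN m := by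
  induction b generalizing σ G with
  | zero => simp [ew, glue_zero]
  | succ b ih =>
    have hin : ∀ (c : ℕ) (τ : ℕ → Vec m) {G' : (ℕ → Vec m) → ℝ≥0∞}, Measurable G' →
        Measurable fun η : ℕ → Vec m => ENNReal.ofReal (Real.exp (ew τ c η)) *
          ∫⁻ ω, G' (glue c (η - τ) ω) ∂PN m := by
      intro c τ G' hG'
      refine (ENNReal.measurable_ofReal.comp (Real.measurable_exp.comp
        (measurable_ew c measurable_const measurable_id))).mul ?_
      exact (hG'.comp (measurable_glue c (measurable_fst.sub_const τ)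
        measurable_snd)).lintegral_prod_right'
    rw [lintegral_consS hG, lintegral_consS (hin (b + 1) σ hG),
      lint_cm1 (σ 0) (G := fun ξ => ∫⁻ ω, G (consS ξ ω) ∂PN m)
        (hG.comp measurable_consS).lintegral_prod_right']
    refine lintegral_congr fun ξ => ?_
    have hG1 : Measurable fun ω => G (consS (ξ - σ 0) ω) :=
      hG.comp (measurable_consS.comp measurable_prodMk_left)
    rw [ih (fun j => σ (j + 1)) hG1, ← lintegral_const_mul _ (hin b _ hG1)]
    refine lintegral_congr fun η => ?_
    rw [← mul_assoc, ← ENNReal.ofReal_mul (Real.exp_pos _).le, ← Real.exp_add]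
    have e1 : ew σ (b + 1) (consS ξ η) =
        ip (σ 0) ξ - F.sq (σ 0) / 2 + ew (fun j => σ (j + 1)) b η := by
      unfold ew
      rw [Finset.sum_range_succ', add_comm]
      rfl
    rw [e1]
    congr 1
    refine lintegral_congr fun ω => ?_
    rw [glue_succ]
    rfl

/-! ### the cap flow -/

/-- the drift of the past noise -/
noncomputable def sig (lam : Vec n) (t : ℕ → ℝ) (u : Vec n) : ℕ → Vec n :=
  fun j a => dI lam (t j) a * √(t (j + 1) - t j) * u a

/-- the path point with past `η` (drift included) and future `q.2` -/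
noncomputable def lift (lam : Vec n) (t : ℕ → ℝ) (b : ℕ) (η : ℕ → Vec n)
    (q : (OG n × Cfg n) × (ℕ → Vec n)) : (OG n × Cfg n) × (ℕ → Vec n) :=
  (q.1, glue b (η - sig lam t (xt q.1.1 q.1.2)) q.2)

theorem measurable_sig (lam : Vec n) (t : ℕ → ℝ) : Measurable (sig lam t) :=
  measurable_pi_lambda _ fun _ => measurable_pi_lambda _ fun a =>
    (measurable_pi_apply a).const_mul _

theorem measurable_lift (lam : Vec n) (t : ℕ → ℝ) (b : ℕ) :
    Measurable fun r : (ℕ → Vec n) × ((OG n × Cfg n) × (ℕ → Vec n)) => lift lam t b r.1 r.2 := by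
  have h1 : Measurable fun r : (ℕ → Vec n) × ((OG n × Cfg n) × (ℕ → Vec n)) => r.2.1 :=
    measurable_fst.comp measurable_snd
  exact h1.prodMk (measurable_glue b (measurable_fst.sub
    ((measurable_sig lam t).comp (measurable_xt.comp h1))) (measurable_snd.comp measurable_snd))

theorem measurable_nz (lam : Vec n) (t : ℕ → ℝ) (k : ℕ) :
    Measurable fun η : ℕ → Vec n => nz lam t η k := by
  unfold nz
  refine measurable_pi_lambda _ fun a => Finset.measurable_fun_sum _ fun j _ => ?_
  have h1 : Measurable fun η : ℕ → Vec n => η j a :=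
    (measurable_pi_apply a).comp (measurable_pi_apply j)
  exact h1.const_mul _

variable {lam : Vec n} {t : ℕ → ℝ} {dl : ℝ}

/-- up to time `b` the field is a function of the past `η` -/
theorem yF_glue (h : Grid lam t dl) (u : Vec n) {b k : ℕ} (hk : k ≤ b) (η ω : ℕ → Vec n) :
    yF lam t u (glue b (η - sig lam t u) ω) k = nz lam t η k := by
  induction k with
  | zero => funext a; simp [yF, nz]
  | succ k ih =>
    funext a
    have h1 := Real.mul_self_sqrt (h.step_pos k).le
    have h2 := dI_mul_self lam (t k) a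
    simp only [yF]
    rw [ih (by omega), glue_lt (by omega)]
    simp only [nz, Finset.sum_range_succ, Pi.sub_apply, sig]
    linear_combination (-(dI lam (t k) a * dI lam (t k) a * u a)) * h1 -
      (t (k + 1) - t k) * u a * h2

theorem yF_lift (h : Grid lam t dl) {b k : ℕ} (hk : k ≤ b) (η : ℕ → Vec n)
    (q : (OG n × Cfg n) × (ℕ → Vec n)) :
    yF lam t (xt (lift lam t b η q).1.1 (lift lam t b η q).1.2) (lift lam t b η q).2 k =
      nz lam t η k := yF_glue h _ hk η q.2

theorem shS_lift (b : ℕ) (η : ℕ → Vec n) (q : (OG n × Cfg n) × (ℕ → Vec n)) :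
    shS b (lift lam t b η q).2 = q.2 := shS_glue _ _ _

theorem dI_mul_nz (h : Grid lam t dl) (η : ℕ → Vec n) (k : ℕ) (a : Fin n) :
    dI lam (t k) a * nz lam t η k a = nz lam t η k a := by
  rw [← yF_glue h 0 le_rfl η η]
  exact h.dI_mul_yF _ _ k a

theorem HM_ew (h : Grid lam t dl) (u : Vec n) (b : ℕ) (η : ℕ → Vec n) :
    HM (diagonal lam) 0 u + ew (sig lam t u) b η =
      HM (diagonal (lamC lam (t b))) (nz lam t η b) u := by
  have e1 : ew (sig lam t u) b η =
      ∑ a, (nz lam t η b a * u a - pr lam (t b) a * u a ^ 2 / 2) := by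
    unfold ew ip F.sq nz
    simp only [h.pr_eq, Finset.sum_mul, Finset.sum_div, ← Finset.sum_sub_distrib]
    rw [Finset.sum_comm]
    refine Finset.sum_congr rfl fun a _ => Finset.sum_congr rfl fun j _ => ?_
    have h1 := Real.mul_self_sqrt (h.step_pos j).le
    have h2 := dI_mul_self lam (t j) a
    unfold sig
    linear_combination (-(dI lam (t j) a * dI lam (t j) a * u a ^ 2 / 2)) * h1 -
      ((t (j + 1) - t j) * u a ^ 2 / 2) * h2
  rw [e1, HM_diag, HM_diag]
  unfold HE
  simp only [lamC_eq, Pi.zero_apply, zero_mul, Finset.sum_const_zero, add_zero, Finset.sum_div,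
    ← Finset.sum_add_distrib]
  refine Finset.sum_congr rfl fun a _ => ?_
  ring

theorem lint_plN_base (M : Mat n) (y : Vec n) {G : (OG n × Cfg n) × (ℕ → Vec m) → ℝ≥0∞}
    (hG : Measurable G) : ∫⁻ q, G q ∂plN m M y =
      ∫⁻ p, ENNReal.ofReal (Real.exp (HM M y (xt p.1 p.2)) / (2 ^ n * ISM M y)) *
        ∫⁻ ω, G (p, ω) ∂PN m ∂(haar n).prod Measure.count := by
  unfold plN
  rw [lintegral_prod _ hG.aemeasurable]
  unfold plM
  rw [lintegral_withDensity_eq_lintegral_mul _ (measurable_dens M y) hG.lintegral_prod_right']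
  rfl

/-- the mixing density of the past -/
noncomputable def wP (lam : Vec n) (t : ℕ → ℝ) (b : ℕ) (η : ℕ → Vec n) : ℝ≥0∞ :=
  ENNReal.ofReal (ISM (diagonal (lamC lam (t b))) (nz lam t η b) / ISM (diagonal lam) 0)

theorem measurable_wP (lam : Vec n) (t : ℕ → ℝ) (b : ℕ) : Measurable (wP lam t b) := by
  have h1 : ∀ a, Measurable fun η : ℕ → Vec n => nz lam t η b a := fun a =>
    (measurable_pi_apply a).comp (measurable_nz lam t b)
  have h2 : Measurable fun η : ℕ → Vec n => ISM (diagonal (lamC lam (t b))) (nz lam t η b) :=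
    measurable_ISM (M := fun _ => diagonal (lamC lam (t b))) (y := fun η => nz lam t η b)
      (fun _ _ => measurable_const) h1
  exact ENNReal.measurable_ofReal.comp (h2.div_const _)

/-- **the planted path law is a mixture of planted laws at the state of index `b`** -/
theorem plN_cm (h : Grid lam t dl) (b : ℕ) {G : (OG n × Cfg n) × (ℕ → Vec n) → ℝ≥0∞}
    (hG : Measurable G) : ∫⁻ q, G q ∂plN n (diagonal lam) 0 =
      ∫⁻ η, wP lam t b η * ∫⁻ q, G (lift lam t b η q)
        ∂plN n (diagonal (lamC lam (t b))) (nz lam t η b) ∂PN n := by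
  have hL := hG.comp (measurable_lift lam t b)
  let K : OG n × Cfg n → (ℕ → Vec n) → ℝ≥0∞ := fun p η =>
    ENNReal.ofReal (Real.exp (HM (diagonal (lamC lam (t b))) (nz lam t η b) (xt p.1 p.2)) /
      (2 ^ n * ISM (diagonal lam) 0)) * ∫⁻ ω, G (lift lam t b η (p, ω)) ∂PN n
  have hI : Measurable fun r : (OG n × Cfg n) × (ℕ → Vec n) =>
      ∫⁻ ω, G (lift lam t b r.2 (r.1, ω)) ∂PN n := by
    have h1 : Measurable fun s : ((OG n × Cfg n) × (ℕ → Vec n)) × (ℕ → Vec n) =>
        (s.1.2, (s.1.1, s.2)) := (measurable_snd.comp measurable_fst).prodMk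
          ((measurable_fst.comp measurable_fst).prodMk measurable_snd)
    exact (hL.comp h1).lintegral_prod_right'
  have hK : Measurable (Function.uncurry K) := by
    refine (ENNReal.measurable_ofReal.comp ((Real.measurable_exp.comp ?_).div_const _)).mul hI
    exact measurable_HM3 (fun _ _ => measurable_const)
      (fun a => (measurable_pi_apply a).comp ((measurable_nz lam t b).comp measurable_snd))
      (measurable_xt.comp measurable_fst)
  calc ∫⁻ q, G q ∂plN n (diagonal lam) 0
      = ∫⁻ p, ∫⁻ η, K p η ∂PN n ∂(haar n).prod Measure.count := by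
        rw [lint_plN_base _ _ hG]
        refine lintegral_congr fun p => ?_
        rw [lint_cm b (sig lam t (xt p.1 p.2)) (G := fun ω => G (p, ω))
          (hG.comp measurable_prodMk_left), ← lintegral_const_mul' _ _ ENNReal.ofReal_ne_top]
        refine lintegral_congr fun η => ?_
        rw [← mul_assoc, ← ENNReal.ofReal_mul
          (div_pos (Real.exp_pos _) (nrm_pos _ _)).le, div_mul_eq_mul_div, ← Real.exp_add,
          HM_ew h]
        rfl
    _ = ∫⁻ η, ∫⁻ p, K p η ∂(haar n).prod Measure.count ∂PN n :=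
        lintegral_lintegral_swap hK.aemeasurable
    _ = _ := by
        refine lintegral_congr fun η => ?_
        rw [lint_plN_base _ _ (G := fun q => G (lift lam t b η q))
          (hL.comp measurable_prodMk_left), wP,
          ← lintegral_const_mul' _ _ ENNReal.ofReal_ne_top]
        refine lintegral_congr fun p => ?_
        rw [← mul_assoc, ← ENNReal.ofReal_mul (div_pos (ISM_pos _ _) (ISM_pos _ _)).le]
        have h1 := (ISM_pos (diagonal (lamC lam (t b))) (nz lam t η b)).ne'
        have h2 := (ISM_pos (diagonal lam) (0 : Vec n)).ne'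
        have e : ISM (diagonal (lamC lam (t b))) (nz lam t η b) / ISM (diagonal lam) 0 *
            (Real.exp (HM (diagonal (lamC lam (t b))) (nz lam t η b) (xt p.1 p.2)) /
              (2 ^ n * ISM (diagonal (lamC lam (t b))) (nz lam t η b))) =
            Real.exp (HM (diagonal (lamC lam (t b))) (nz lam t η b) (xt p.1 p.2)) /
              (2 ^ n * ISM (diagonal lam) 0) := by field_simp
        rw [e]

theorem lint_wP (h : Grid lam t dl) (b : ℕ) : ∫⁻ η, wP lam t b η ∂PN n = 1 := by
  have h1 := plN_cm h b (G := fun _ => 1) measurable_const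
  simpa only [lintegral_const, measure_univ, mul_one] using h1.symm

theorem plN_cm_set (h : Grid lam t dl) (b : ℕ) {B : Set ((OG n × Cfg n) × (ℕ → Vec n))}
    (hB : MeasurableSet B) : plN n (diagonal lam) 0 B =
      ∫⁻ η, wP lam t b η * plN n (diagonal (lamC lam (t b))) (nz lam t η b)
        {q | lift lam t b η q ∈ B} ∂PN n := by
  rw [← lintegral_indicator_one hB, plN_cm h b (measurable_one.indicator hB)]
  refine lintegral_congr fun η => ?_
  have hq : MeasurableSet {q | lift lam t b η q ∈ B} :=
    ((measurable_lift lam t b).comp measurable_prodMk_left) hB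
  rw [← lintegral_indicator_one hq]
  rfl

/-- a bound for every past gives a bound for the planted path law -/
theorem plN_le_of_state (h : Grid lam t dl) (b : ℕ) {B : Set ((OG n × Cfg n) × (ℕ → Vec n))}
    (hB : MeasurableSet B) {p : ℝ≥0∞}
    (hp : ∀ η, plN n (diagonal (lamC lam (t b))) (nz lam t η b) {q | lift lam t b η q ∈ B} ≤ p) :
    plN n (diagonal lam) 0 B ≤ p := by
  rw [plN_cm_set h b hB]
  calc _ ≤ ∫⁻ η, wP lam t b η * p ∂PN n := lintegral_mono fun η => mul_le_mul_right (hp η) _
    _ = p := by rw [lintegral_mul_const _ (measurable_wP lam t b), lint_wP h, one_mul]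

end Vale.Agent.N150.CM
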