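import Vale.Agent.N150.RecComp
import Vale.Agent.N150.CapU
import Vale.Agent.N150.A1One

set_option linter.all false

/-! P150 at the critical point: the compression event for the universal process (noise in site
coordinates). -/

open MeasureTheory Matrix Finset
open scoped ENNReal

namespace Vale.Agent.N150.Rec

open Vale.Agent.P150 Vale.Agent.P150.F Vale.Agent.N150.Plant Vale.Agent.N150.Cap
  Vale.Agent.N150.CM

variable {n : ℕ} {lam : Vec n} {t : ℕ → ℝ} {dl : ℝ}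

theorem rotN_inv (O : OG n) (ω : ℕ → Vec n) : rotN O⁻¹ (rotN O ω) = ω := by
  funext k
  show (O⁻¹).1 *ᵥ (O.1 *ᵥ ω k) = ω k
  rw [OG.coe_inv, OG.tr_mulVec_mulVec]

theorem rotN_mul (U O : OG n) (ω : ℕ → Vec n) : rotN (U * O) ω = rotN U (rotN O ω) := by
  funext k
  show (U * O).1 *ᵥ ω k = U.1 *ᵥ (O.1 *ᵥ ω k)
  rw [OG.coe_mul, Matrix.mulVec_mulVec]

theorem shS_rotN (O : OG n) (b : ℕ) (ω : ℕ → Vec n) : shS b (rotN O ω) = rotN O (shS b ω) := rfl

theorem flag_capP (h : Grid lam t dl) (O : OG n) : Flag (capP lam t O) :=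
  flag_PC lam O fun k => (h.lt k).le

/-- the site field along the universal process -/
theorem sy_traj (h : Grid lam t dl) (O : OG n) (x : Cfg n) (ω : ℕ → Vec n) (k : ℕ) :
    sy ((up n h.steps).traj (capS lam t O 0 0) x ω k) =
      O.1ᵀ *ᵥ yF lam t (xt O x) (rotN O ω) k := by
  rw [h.traj_cap]; rfl

/-- path events in the eigenframe give the path events along the universal process -/
theorem Rad.cap (h : Grid lam t dl) (O : OG n) (x : Cfg n) (ω : ℕ → Vec n) {κ η₁ : ℝ} {a b : ℕ}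
    (hR : Rad t (fun k => PF lam (t k)) (yF lam t (xt O x) (rotN O ω)) κ η₁ a b) :
    Rad t (capP lam t O) (fun k => sy ((up n h.steps).traj (capS lam t O 0 0) x ω k)) κ η₁ a b := by
  simp only [sy_traj h]
  exact hR.site O

theorem mem_cap (h : Grid lam t dl) (O : OG n) (x : Cfg n) (ω : ℕ → Vec n) (k : ℕ) :
    capP lam t O k *ᵥ sy ((up n h.steps).traj (capS lam t O 0 0) x ω k) =
      sy ((up n h.steps).traj (capS lam t O 0 0) x ω k) := by
  rw [sy_traj h]
  exact h.PC_yF O _ _ k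

/-- **E3 for the universal process**: `W q b` is any measurable function of the state at index
`b`, of the spins and of the future noise. -/
theorem comp_cap (h : Grid lam t dl) {a b : ℕ} (hab : a ≤ b) (ht : ∀ k, a ≤ k → 0 < t k)
    {Ψ : St n → Cfg n → (ℕ → Vec n) → Vec n}
    (hΨ : ∀ x, Measurable fun p : St n × (ℕ → Vec n) => Ψ p.1 x p.2)
    {W : (OG n × Cfg n) × (ℕ → Vec n) → ℕ → Vec n}
    (hW : ∀ q, W q b = Ψ ((up n h.steps).traj (capS lam t q.1.1 0 0) q.1.2 q.2 b) q.1.2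
      (shS b q.2))
    {κ x : ℝ} (hx : 0 ≤ x) (hb : 1 < Edge.cnt lam (t b))
    (hκ : 2 * √(Edge.cnt lam (t a)) + 6 * √x ≤ κ * √(Edge.cnt lam (t b) - 1)) :
    (plN n (diagonal lam) 0).real {q | ¬ Comp t (capP lam t q.1.1)
      (fun k => sy ((up n h.steps).traj (capS lam t q.1.1 0 0) q.1.2 q.2 k)) (W q) κ a b} ≤
        2 * Real.exp (-x) := by
  let Φ : OG n → Vec n → Cfg n → (ℕ → Vec n) → Vec n := fun O y x ω =>
    Ψ (capS lam t O b y) x (rotN O⁻¹ ω)
  have hΦm : Measurable fun r : (OG n × Vec n) × (Cfg n × (ℕ → Vec n)) =>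
      Φ r.1.1 r.1.2 r.2.1 r.2.2 := by
    have h0 : Measurable fun p : (St n × (ℕ → Vec n)) × Cfg n => Ψ p.1.1 p.2 p.1.2 :=
      measurable_from_prod_countable_left fun x => hΨ x
    have h1 : Measurable fun r : (OG n × Vec n) × (Cfg n × (ℕ → Vec n)) => r.1.1 :=
      measurable_fst.comp measurable_fst
    have h2 : Measurable fun r : (OG n × Vec n) × (Cfg n × (ℕ → Vec n)) =>
        capS lam t r.1.1 b r.1.2 := meas_capS lam t b h1 (measurable_snd.comp measurable_fst)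
    have h3 : Measurable fun r : (OG n × Vec n) × (Cfg n × (ℕ → Vec n)) =>
        (r.1.1⁻¹, r.2.2) := h1.inv.prodMk (measurable_snd.comp measurable_snd)
    have h4 := measurable_rotN2.comp h3
    have h5 := (h2.prodMk h4).prodMk
      (measurable_fst.comp (measurable_snd (α := OG n × Vec n) (β := Cfg n × (ℕ → Vec n))))
    have h6 := h0.comp h5
    exact h6
  have hΦ : ∀ R ∈ HG (PF lam (t b)), ∀ O y x ω, Φ (R * O) y x (rotN R ω) = Φ O y x ω := by
    intro R hR O y x ω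
    show Ψ (capS lam t (R * O) b y) x (rotN (R * O)⁻¹ (rotN R ω)) =
      Ψ (capS lam t O b y) x (rotN O⁻¹ ω)
    rw [capS_rot h.mono (isProj_PF lam (t b)).symm (isProj_PF lam (t b)).idem hR O le_rfl,
      _root_.mul_inv_rev, rotN_mul, rotN_inv]
  have key := comp_tail h hab ht hΦm hΦ
    (W := fun q _ => Φ q.1.1 (q.1.1.1ᵀ *ᵥ yF lam t (xt q.1.1 q.1.2) q.2 b) q.1.2 (shS b q.2))
    (fun _ => rfl) hx hb hκ
  refine le_trans ?_ key
  refine ENNReal.toReal_mono (measure_ne_top _ _) (le_trans (measure_mono fun q hq => ?_)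
    (plN_rot_le _ _ _))
  have e1 : W q b = Φ q.1.1 (q.1.1.1ᵀ *ᵥ yF lam t (xt q.1.1 q.1.2) (rotN q.1.1 q.2) b) q.1.2
      (shS b (rotN q.1.1 q.2)) := by
    rw [hW, h.traj_cap, shS_rotN]
    show _ = Ψ _ _ (rotN q.1.1⁻¹ (rotN q.1.1 (shS b q.2)))
    rw [rotN_inv]
  intro hc
  exact hq ((comp_congr hab (fun k _ _ => (sy_traj h q.1.1 q.1.2 q.2 k).symm) e1.symm).1 hc)

/-- the same for the tracking functional of the soft part -/
theorem comp_Wf (h : Grid lam t dl) {a b N : ℕ} (hab : a ≤ b) (ht : ∀ k, a ≤ k → 0 < t k)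
    {A : St n → Mat n} {e : St n → Cfg n → Vec n} {rem : St n → Cfg n → Vec n → Vec n}
    (hA : ∀ i j, BM fun s => A s i j) (he : ∀ x i, BM fun s => e s x i)
    (hr : ∀ x i, BM fun p : St n × Vec n => rem p.1 x p.2 i)
    {κ x : ℝ} (hx : 0 ≤ x) (hb : 1 < Edge.cnt lam (t b))
    (hκ : 2 * √(Edge.cnt lam (t a)) + 6 * √x ≤ κ * √(Edge.cnt lam (t b) - 1)) :
    (plN n (diagonal lam) 0).real {q | ¬ Comp t (capP lam t q.1.1)
      (fun k => sy ((up n h.steps).traj (capS lam t q.1.1 0 0) q.1.2 q.2 k))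
      (fun k => A1.Wf (up n h.steps) A e rem (N - k)
        ((up n h.steps).traj (capS lam t q.1.1 0 0) q.1.2 q.2 k) q.1.2 (shS k q.2)) κ a b} ≤
        2 * Real.exp (-x) :=
  comp_cap h hab ht (Ψ := fun s x ω => A1.Wf (up n h.steps) A e rem (N - b) s x ω)
    (fun x => measurable_pi_lambda _ fun i =>
      (A1.bm_Wf (up n h.steps) hA he hr (N - b) x i).1) (fun _ => rfl) hx hb hκ

/-! ### the size of `κ` -/

/-- if the counts are `c s^(3/2)` up to a factor two, `κ` is of order `ρ^(-3/4)` -/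
theorem kappa_ok {ka kb x κ : ℝ} (hkb : 2 ≤ kb) (hx : 0 ≤ x) (hxa : x ≤ ka) (hκ : 0 ≤ κ)
    (h : 128 * ka ≤ κ ^ 2 * kb) : 2 * √ka + 6 * √x ≤ κ * √(kb - 1) := by
  have h1 : √x ≤ √ka := Real.sqrt_le_sqrt hxa
  have h2 : 8 * √ka ≤ κ * √(kb - 1) := by
    have hka : 0 ≤ ka := hx.trans hxa
    refine (sq_le_sq₀ (by positivity) (by positivity)).1 ?_
    rw [mul_pow, mul_pow, Real.sq_sqrt hka, Real.sq_sqrt (by linarith)]
    nlinarith [sq_nonneg κ]
  linarith

end Vale.Agent.N150.Rec
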