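import Vale.Agent.N150.Rec2
import Vale.Agent.N150.RecCM
import Vale.Agent.N150.Fib2
import Vale.Agent.N150.Tail3
import Vale.Agent.N150.EdgeDef

set_option linter.all false

/-! P150 at the critical point: the compression event of the recursion has small planted
probability (symmetry under the rotations of the capped block which fix the field). -/

open MeasureTheory Matrix Finset
open scoped ENNReal

namespace Vale.Agent.N150.Rec

open Vale.Agent.P150 Vale.Agent.P150.F Vale.Agent.N150.Plant Vale.Agent.N150.Cap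
  Vale.Agent.N150.CM

variable {n : ℕ}

/-! ### change of coordinates -/

theorem nv_orth {A : Mat n} (hA : Aᵀ * A = 1) (v : Vec n) : nv (A *ᵥ v) = nv v := by
  rw [nv_eq_sqrt, nv_eq_sqrt, sq_mulVec_orth hA]

theorem ip_orth {A : Mat n} (hA : Aᵀ * A = 1) (u v : Vec n) : ip (A *ᵥ u) (A *ᵥ v) = ip u v := by
  rw [ip_mulVec_tr, Matrix.mulVec_mulVec, hA, Matrix.one_mulVec]

theorem stp_conj {A : Mat n} (hA : Aᵀ * A = 1) (c : ℝ) (y v : Vec n) :
    stp c (A *ᵥ y) *ᵥ (A *ᵥ v) = A *ᵥ (stp c y *ᵥ v) := by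
  rw [stp_mulVec, stp_mulVec, sq_mulVec_orth hA, ip_orth hA, Matrix.mulVec_sub,
    Matrix.mulVec_smul]

theorem stp_transpose (c : ℝ) (y : Vec n) : (stp c y)ᵀ = stp c y := by
  rw [stp, Matrix.transpose_sub, Matrix.transpose_one, Matrix.transpose_smul,
    Matrix.transpose_vecMulVec]

theorem prop_tr_conj {A : Mat n} (hA : Aᵀ * A = 1) (t : ℕ → ℝ) (y : ℕ → Vec n) (a j : ℕ)
    (v : Vec n) : (prop t (fun k => A *ᵥ y k) a j)ᵀ *ᵥ (A *ᵥ v) =
      A *ᵥ ((prop t y a j)ᵀ *ᵥ v) := by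
  induction j generalizing v with
  | zero => simp [prop]
  | succ j ih =>
    rw [prop, prop, Matrix.transpose_mul, Matrix.transpose_mul, ← Matrix.mulVec_mulVec,
      ← Matrix.mulVec_mulVec, stp_transpose, stp_transpose, stp_conj hA, ih]

theorem perp_conj {A : Mat n} (hA : Aᵀ * A = 1) (y w : Vec n) :
    perp (A *ᵥ y) (A *ᵥ w) = A *ᵥ perp y w := by
  rw [perp, perp, sq_mulVec_orth hA, ip_orth hA, Matrix.mulVec_sub, Matrix.mulVec_smul]

theorem conj_mulVec {A : Mat n} (hA : Aᵀ * A = 1) (P : Mat n) (v : Vec n) :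
    (A * P * Aᵀ) *ᵥ (A *ᵥ v) = A *ᵥ (P *ᵥ v) := by
  rw [Matrix.mulVec_mulVec, Matrix.mul_assoc, hA, Matrix.mul_one, Matrix.mulVec_mulVec]

theorem comp_conj {A : Mat n} (hA : Aᵀ * A = 1) {t : ℕ → ℝ} {P : ℕ → Mat n} {y W W' : ℕ → Vec n}
    {κ : ℝ} {a b : ℕ} (hW : W' b = A *ᵥ W b) :
    Comp t (fun k => A * P k * Aᵀ) (fun k => A *ᵥ y k) W' κ a b ↔ Comp t P y W κ a b := by
  unfold Comp
  rw [hW, conj_mulVec hA, perp_conj hA, prop_tr_conj hA, conj_mulVec hA, nv_orth hA, nv_orth hA]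

theorem Rad.conj {A : Mat n} (hA : Aᵀ * A = 1) {t : ℕ → ℝ} {P : ℕ → Mat n} {y : ℕ → Vec n}
    {κ η₁ : ℝ} {a b : ℕ} (h : Rad t P y κ η₁ a b) :
    Rad t (fun k => A * P k * Aᵀ) (fun k => A *ᵥ y k) κ η₁ a b := by
  refine ⟨fun j k h1 h2 h3 => ?_, ?_, ?_⟩
  · rw [ip_orth hA, sq_mulVec_orth hA]; exact h.h1 j k h1 h2 h3
  · obtain ⟨z, hz⟩ := h.h3
    refine ⟨A *ᵥ z, fun k h1 h2 => ?_⟩
    rw [← Matrix.mulVec_smul, ← Matrix.mulVec_sub, conj_mulVec hA, sq_mulVec_orth hA,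
      sq_mulVec_orth hA]
    exact hz k h1 h2
  · rw [sq_mulVec_orth hA, sq_mulVec_orth hA]; exact h.h4

theorem prop_congr (t : ℕ → ℝ) {y y' : ℕ → Vec n} {a : ℕ} (j : ℕ)
    (h : ∀ k, a ≤ k → k < a + j → y k = y' k) : prop t y a j = prop t y' a j := by
  induction j with
  | zero => rfl
  | succ j ih =>
    rw [prop, prop, ih fun k h1 h2 => h k h1 (by omega), h (a + j) (by omega) (by omega)]

theorem comp_congr {t : ℕ → ℝ} {P : ℕ → Mat n} {y y' W W' : ℕ → Vec n} {κ : ℝ} {a b : ℕ}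
    (hab : a ≤ b) (hy : ∀ k, a ≤ k → k ≤ b → y k = y' k) (hW : W b = W' b) :
    Comp t P y W κ a b ↔ Comp t P y' W' κ a b := by
  unfold Comp
  rw [prop_congr t (b - a) fun k h1 h2 => hy k h1 (by omega), hy b hab le_rfl, hW]

/-! ### the flags of the cap flow -/

/-- the projection on the capped modes in the eigenframe -/
noncomputable def PF (lam : Vec n) (s : ℝ) : Mat n := diagonal (dI lam s)

theorem PF_mul_of_le (lam : Vec n) {s s' : ℝ} (h : s ≤ s') : PF lam s * PF lam s' = PF lam s := by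
  unfold PF
  rw [Matrix.diagonal_mul_diagonal]
  simp only [dI_mul_of_le lam h]

theorem isProj_PF (lam : Vec n) (s : ℝ) : Fib.IsProj (PF lam s) :=
  ⟨Matrix.diagonal_transpose _, PF_mul_of_le lam le_rfl⟩

theorem PC_eq (lam : Vec n) (O : OG n) (s : ℝ) : PC lam O s = O.1ᵀ * PF lam s * O.1ᵀᵀ := by
  rw [Matrix.transpose_transpose]; rfl

theorem trace_PF (lam : Vec n) (s : ℝ) : (PF lam s).trace = Edge.cnt lam s := by
  unfold PF Edge.cnt dI
  rw [Matrix.trace_diagonal, Finset.card_filter]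
  push_cast
  refine Finset.sum_congr rfl fun a _ => ?_
  by_cases h : 2 - s ≤ lam a
  · rw [if_pos h, if_pos (by linarith)]
  · rw [if_neg h, if_neg (by intro h'; exact h (by linarith))]

theorem flag_PF (lam : Vec n) {t : ℕ → ℝ} (ht : ∀ k, t k ≤ t (k + 1)) :
    Flag fun k => PF lam (t k) :=
  ⟨fun _ => (isProj_PF lam _).symm, fun _ => (isProj_PF lam _).idem,
    fun k => PF_mul_of_le lam (ht k)⟩

theorem flag_PC (lam : Vec n) (O : OG n) {t : ℕ → ℝ} (ht : ∀ k, t k ≤ t (k + 1)) :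
    Flag fun k => PC lam O (t k) :=
  ⟨fun _ => PC_transpose lam O _, fun _ => PC_mul_self lam O _,
    fun k => PC_mul_of_le lam O (ht k)⟩

theorem tr_orth (O : OG n) : O.1ᵀᵀ * O.1ᵀ = 1 := by
  rw [Matrix.transpose_transpose]; exact OG.mul_transpose O

/-- path events in the eigenframe give the path events in site coordinates -/
theorem Rad.site {lam : Vec n} (O : OG n) {t : ℕ → ℝ} {y : ℕ → Vec n} {κ η₁ : ℝ} {a b : ℕ}
    (h : Rad t (fun k => PF lam (t k)) y κ η₁ a b) :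
    Rad t (fun k => PC lam O (t k)) (fun k => O.1ᵀ *ᵥ y k) κ η₁ a b := by
  simp only [PC_eq]
  exact h.conj (tr_orth O)

theorem comp_site {lam : Vec n} (O : OG n) {t : ℕ → ℝ} {y W : ℕ → Vec n} {κ : ℝ} {a b : ℕ} :
    Comp t (fun k => PC lam O (t k)) (fun k => O.1ᵀ *ᵥ y k) W κ a b ↔
      Comp t (fun k => PF lam (t k)) y (fun _ => O.1 *ᵥ W b) κ a b := by
  simp only [PC_eq]
  exact comp_conj (tr_orth O) (OG.tr_mulVec_mulVec O _).symm

/-! ### measurability -/

theorem measurable_nv2 {α : Type*} [MeasurableSpace α] {u : α → Vec n} (hu : Measurable u) :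
    Measurable fun a => nv (u a) := by
  simp only [nv_eq_sqrt]
  exact (measurable_sq2 hu).sqrt

theorem mm_prop {α : Type*} [MeasurableSpace α] (t : ℕ → ℝ) {y : α → ℕ → Vec n}
    (hy : ∀ k, Measurable fun q => y q k) (a j : ℕ) : Fib.MM fun q => prop t (y q) a j := by
  induction j with
  | zero => exact Fib.MM.const 1
  | succ j ih =>
    refine Fib.MM.mul ?_ ih
    exact (Fib.MM.const 1).sub (Fib.MM.smul (measurable_const.div (measurable_sq2 (hy _)))
      (Fib.MM.vecMulVec (hy _) (hy _)))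

theorem measurableSet_comp {α : Type*} [MeasurableSpace α] (t : ℕ → ℝ) {P : α → ℕ → Mat n}
    {y W : α → ℕ → Vec n} (κ : ℝ) (a b : ℕ) (hP : ∀ k, Fib.MM fun q => P q k)
    (hy : ∀ k, Measurable fun q => y q k) (hW : Measurable fun q => W q b) :
    MeasurableSet {q | Comp t (P q) (y q) (W q) κ a b} := by
  have h1 := (hP b).mulVec hW
  have h2 : Measurable fun q => perp (y q b) (P q b *ᵥ W q b) :=
    h1.sub (((measurable_ip2 (hy b) h1).div (measurable_sq2 (hy b))).smul (hy b))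
  exact measurableSet_le
    (measurable_nv2 ((hP a).mulVec ((mm_prop t hy a (b - a)).transpose.mulVec h2)))
    ((measurable_nv2 h1).const_mul κ)

theorem measurable_yF (lam : Vec n) (t : ℕ → ℝ) {α : Type*} [MeasurableSpace α] {u : α → Vec n}
    {ω : α → ℕ → Vec n} (hu : Measurable u) (hω : Measurable ω) (k : ℕ) :
    Measurable fun q => yF lam t (u q) (ω q) k := by
  induction k with
  | zero => exact measurable_const
  | succ k ih =>
    refine measurable_pi_lambda _ fun a => ?_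
    have h1 : Measurable fun q => yF lam t (u q) (ω q) k a := (measurable_pi_apply a).comp ih
    have h2 : Measurable fun q => u q a := (measurable_pi_apply a).comp hu
    have h3 : Measurable fun q => ω q k a :=
      (measurable_pi_apply a).comp ((measurable_pi_apply k).comp hω)
    exact h1.add (((h2.const_mul _).add (h3.const_mul _)).const_mul _)

/-! ### the tail on one orbit -/

theorem perp_eq_rm {P : Mat n} (hP : Fib.IsProj P) {y : Vec n} (hy : P *ᵥ y = y) (u : Vec n) :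
    perp y (P *ᵥ u) = Fib.rm P y *ᵥ u := by
  have h1 : ip y (P *ᵥ u) = y ⬝ᵥ u := by
    rw [ip_eq_dot, ← hP.dot, hy]
  rw [perp, Fib.rm, hy, Matrix.sub_mulVec, Fib.pj_mulVec, h1]

theorem orbit_tail {t : ℕ → ℝ} {P : ℕ → Mat n} (hP : Flag P) {y : ℕ → Vec n} {a b : ℕ}
    (ht : ∀ k, a ≤ k → 0 < t k) (hmono : ∀ k, t k ≤ t (k + 1)) (hy : P b *ᵥ y b = y b)
    {κ x : ℝ} (hx : 0 ≤ x) (hb : 1 < (P b).trace)
    (hκ : 2 * √(P a).trace + 6 * √x ≤ κ * √((P b).trace - 1)) (w : Vec n) :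
    haarH (Fib.rm (P b) (y b)) {U | ¬ Comp t P y (fun _ => U.1 *ᵥ w) κ a b} ≤
      ENNReal.ofReal (2 * Real.exp (-x)) := by
  have hPb : Fib.IsProj (P b) := ⟨hP.symm b, hP.idem b⟩
  set Q := Fib.rm (P b) (y b) with hQ
  have hQp : Fib.IsProj Q := hPb.rm _
  have htr : (P b).trace - 1 ≤ Q.trace := Fib.trace_rm_ge _ _
  have htr0 : 0 < Q.trace := by linarith
  have hs1 : 0 < √((P b).trace - 1) := Real.sqrt_pos.2 (by linarith)
  have hκ0 : 0 ≤ κ := by
    by_contra h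
    push Not at h
    have h1 := mul_neg_of_neg_of_pos h hs1
    have h2 : 0 ≤ 2 * √(P a).trace + 6 * √x := by positivity
    linarith
  set X := prop t y a (b - a) with hX
  set B := P a * Xᵀ with hB
  have hXo : OpLe X 1 := opLe_of_nv fun v => by
    rw [one_mul]; exact nv_prop_le y ht hmono _ v
  have hBo : OpLe B 1 := by
    have h1 := (Tail.opLe_proj (hP.symm a) (hP.idem a)).mulN (DB.opLe_transpose hXo zero_le_one)
      zero_le_one zero_le_one
    rwa [one_mul] at h1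
  have hBs : hsq (B * Q) ≤ √(P a).trace ^ 2 := by
    rw [Real.sq_sqrt (Tail.trace_proj_nonneg (hP.symm a) (hP.idem a))]
    refine (Tail.hsq_mul_proj hQp.symm hQp.idem B).trans ?_
    rw [← Tail.hsq_transpose, hB, Matrix.transpose_mul, Matrix.transpose_transpose,
      (hP.symm a).eq, ← Tail.hsq_proj (hP.symm a) (hP.idem a)]
    simpa using Tail.hsq_mul_le (C := P a) hXo
  set ρ := F.sq (Q *ᵥ w) with hρ
  have hρ0 : 0 ≤ ρ := sqN_nonneg _
  have key := Tail.mat_rp_tail hQp.symm hQp.idem htr0 ρ hBo one_pos hx (Real.sqrt_nonneg _) hBs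
  have hS : MeasurableSet {u : Vec n | ¬ Comp t P y (fun _ => u) κ a b} :=
    (measurableSet_comp t (P := fun _ => P) (y := fun _ => y) (W := fun u _ => u) κ a b
      (fun k => Fib.MM.const _) (fun _ => measurable_const) measurable_id).compl
  have h1 := Fib.meas_site (invOn_haarH Q) le_rfl hQp (Fib.trans_HG hQp) 1 w hS
  simp only [one_mul, OneMemClass.coe_one, Matrix.one_mul, Matrix.transpose_one, Matrix.mul_one,
    Set.mem_setOf_eq] at h1
  rw [h1, ← ofReal_measureReal (measure_ne_top _ _)]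
  refine ENNReal.ofReal_le_ofReal ((measureReal_mono fun g hg => ?_).trans key)
  set u := Fib.rs ((1 - Q) *ᵥ w) ρ Q g with hu
  have e1 : Q *ᵥ u = rp ρ (Q *ᵥ g) := by
    rw [hu, Fib.rs, Matrix.mulVec_add, Matrix.mulVec_mulVec, hQp.mul_compl, Matrix.zero_mulVec,
      zero_add, Fib.mulVec_rp hQp]
  have hg' : κ * nv (P b *ᵥ u) < nv (B *ᵥ rp ρ (Q *ᵥ g)) := by
    have h2 : ¬ Comp t P y (fun _ => u) κ a b := hg
    unfold Comp at h2
    rw [perp_eq_rm hPb hy, ← hQ, e1, Matrix.mulVec_mulVec] at h2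
    exact not_le.1 h2
  have h3 : nv (rp ρ (Q *ᵥ g)) ≤ nv (P b *ᵥ u) := by
    have h4 : Q *ᵥ u = Q *ᵥ (P b *ᵥ u) := by rw [Matrix.mulVec_mulVec, hQ, hPb.rm_mul]
    rw [← e1, h4]
    exact Tail.nv_proj_le hQp.symm hQp.idem _
  by_cases h0 : Q *ᵥ g = 0
  · exfalso
    rw [h0, Tail.rp_eq, smul_zero, Matrix.mulVec_zero, nv_zero] at hg'
    exact absurd hg' (not_lt.2 (mul_nonneg hκ0 (nv_nonneg _)))
  · rw [nv_eq_sqrt (rp _ _), sq_rp hρ0 h0] at h3
    show √ρ / √Q.trace * (2 * √(P a).trace + 6 * 1 * √x) < nv (B *ᵥ rp ρ (Q *ᵥ g))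
    refine lt_of_le_of_lt ?_ (lt_of_le_of_lt (mul_le_mul_of_nonneg_left h3 hκ0) hg')
    have h5 : 0 < √Q.trace := Real.sqrt_pos.2 htr0
    have h6 : κ * √((P b).trace - 1) ≤ κ * √Q.trace :=
      mul_le_mul_of_nonneg_left (Real.sqrt_le_sqrt htr) hκ0
    rw [div_mul_eq_mul_div, div_le_iff₀ h5, mul_one]
    calc √ρ * (2 * √(P a).trace + 6 * √x) ≤ √ρ * (κ * √Q.trace) :=
          mul_le_mul_of_nonneg_left (hκ.trans h6) (Real.sqrt_nonneg _)
      _ = _ := by ring

/-! ### the planted bound -/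

variable {lam : Vec n} {t : ℕ → ℝ} {dl : ℝ}

theorem PF_nz (h : Grid lam t dl) (η : ℕ → Vec n) (k : ℕ) :
    PF lam (t k) *ᵥ nz lam t η k = nz lam t η k := by
  funext a
  rw [PF, Matrix.mulVec_diagonal, dI_mul_nz h]

theorem sym_state (h : Grid lam t dl) (η : ℕ → Vec n) (b : ℕ) {R : OG n}
    (hR : R ∈ HG (Fib.rm (PF lam (t b)) (nz lam t η b))) :
    Sym (diagonal (lamC lam (t b))) (nz lam t η b) R := by
  have hp := isProj_PF lam (t b)
  have hq := hp.rm (nz lam t η b)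
  have e : diagonal (lamC lam (t b)) * PF lam (t b) = (2 - t b) • PF lam (t b) := by
    unfold PF
    rw [Matrix.diagonal_mul_diagonal, ← Matrix.diagonal_smul]
    congr 1
    funext a
    rw [mul_comm, dI_mul_lamC]
    rfl
  have e1 : diagonal (lamC lam (t b)) * Fib.rm (PF lam (t b)) (nz lam t η b) =
      (2 - t b) • Fib.rm (PF lam (t b)) (nz lam t η b) := by
    rw [← hp.mul_rm, ← Matrix.mul_assoc, e, Matrix.smul_mul]
  have e2 : Fib.rm (PF lam (t b)) (nz lam t η b) * diagonal (lamC lam (t b)) =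
      (2 - t b) • Fib.rm (PF lam (t b)) (nz lam t η b) := by
    have h1 := congrArg Matrix.transpose e1
    rwa [Matrix.transpose_mul, Matrix.transpose_smul, hq.symm, Matrix.diagonal_transpose] at h1
  exact sym_of_HG hq.symm e1 e2 (hp.rm_mulVec_self _) hR

/-- the failure of the compression event, in the eigenframe -/
def BadC (lam : Vec n) (t : ℕ → ℝ) (w : (OG n × Cfg n) × (ℕ → Vec n) → Vec n) (κ : ℝ) (a b : ℕ) :
    Set ((OG n × Cfg n) × (ℕ → Vec n)) :=
  {q | ¬ Comp t (fun k => PF lam (t k)) (fun k => yF lam t (xt q.1.1 q.1.2) q.2 k)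
    (fun _ => w q) κ a b}

theorem measurable_yFq (lam : Vec n) (t : ℕ → ℝ) (k : ℕ) :
    Measurable fun q : (OG n × Cfg n) × (ℕ → Vec n) => yF lam t (xt q.1.1 q.1.2) q.2 k :=
  measurable_yF lam t (u := fun q : (OG n × Cfg n) × (ℕ → Vec n) => xt q.1.1 q.1.2)
    (ω := fun q => q.2) (measurable_xt.comp measurable_fst) measurable_snd k

theorem measurableSet_BadC (lam : Vec n) (t : ℕ → ℝ) {w : (OG n × Cfg n) × (ℕ → Vec n) → Vec n}
    (hw : Measurable w) (κ : ℝ) (a b : ℕ) : MeasurableSet (BadC lam t w κ a b) := by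
  have h1 : ∀ k, Fib.MM fun _ : (OG n × Cfg n) × (ℕ → Vec n) => PF lam (t k) :=
    fun _ => Fib.MM.const _
  have h2 := measurable_yFq lam t
  have h := @measurableSet_comp n ((OG n × Cfg n) × (ℕ → Vec n)) _ t (fun _ k => PF lam (t k))
    (fun q k => yF lam t (xt q.1.1 q.1.2) q.2 k) (fun q _ => w q) κ a b h1 h2 hw
  exact h.compl

theorem lift_mem_BadC (h : Grid lam t dl) {a b : ℕ} (hab : a ≤ b)
    {w : (OG n × Cfg n) × (ℕ → Vec n) → Vec n} {κ : ℝ} (η : ℕ → Vec n)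
    (q : (OG n × Cfg n) × (ℕ → Vec n)) : lift lam t b η q ∈ BadC lam t w κ a b ↔
      ¬ Comp t (fun k => PF lam (t k)) (fun k => nz lam t η k)
        (fun _ => w (lift lam t b η q)) κ a b :=
  not_congr (comp_congr hab (fun _ _ h2 => yF_lift h h2 η q) rfl)

theorem badC_orbit (h : Grid lam t dl) {a b : ℕ} (hab : a ≤ b) (ht : ∀ k, a ≤ k → 0 < t k)
    {w : (OG n × Cfg n) × (ℕ → Vec n) → Vec n} (η : ℕ → Vec n)
    (q : (OG n × Cfg n) × (ℕ → Vec n))
    (heq : ∀ R ∈ HG (Fib.rm (PF lam (t b)) (nz lam t η b)),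
        w (lift lam t b η ((R * q.1.1, q.1.2), rotN R q.2)) = R.1 *ᵥ w (lift lam t b η q))
    {κ x : ℝ} (hx : 0 ≤ x) (hb : 1 < Edge.cnt lam (t b))
    (hκ : 2 * √(Edge.cnt lam (t a)) + 6 * √x ≤ κ * √(Edge.cnt lam (t b) - 1)) :
    haarH (Fib.rm (PF lam (t b)) (nz lam t η b))
      {R | ((R * q.1.1, q.1.2), rotN R q.2) ∈ lift lam t b η ⁻¹' BadC lam t w κ a b} ≤
        ENNReal.ofReal (2 * Real.exp (-x)) := by
  have hmono : ∀ k, t k ≤ t (k + 1) := fun k => (h.lt k).le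
  have hν : ∀ᵐ R ∂haarH (Fib.rm (PF lam (t b)) (nz lam t η b)),
      R ∈ HG (Fib.rm (PF lam (t b)) (nz lam t η b)) := (invOn_haarH _).ae
  have hb' : 1 < (PF lam (t b)).trace := by rw [trace_PF]; exact hb
  have hκ' : 2 * √(PF lam (t a)).trace + 6 * √x ≤ κ * √((PF lam (t b)).trace - 1) := by
    rw [trace_PF, trace_PF]; exact hκ
  have key := orbit_tail (P := fun k => PF lam (t k)) (flag_PF lam hmono)
    (y := fun k => nz lam t η k) ht hmono (PF_nz h η b) hx hb' hκ' (w (lift lam t b η q))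
  have hsub : ∀ R ∈ HG (Fib.rm (PF lam (t b)) (nz lam t η b)),
      lift lam t b η ((R * q.1.1, q.1.2), rotN R q.2) ∈ BadC lam t w κ a b →
      ¬ Comp t (fun k => PF lam (t k)) (fun k => nz lam t η k)
        (fun _ => R.1 *ᵥ w (lift lam t b η q)) κ a b := by
    intro R hR hq'
    rw [lift_mem_BadC h hab, heq R hR] at hq'
    exact hq'
  refine le_trans (measure_mono_ae ?_) key
  exact hν.mono hsub

/-- the compression event for an equivariant frame vector -/
theorem badC_le (h : Grid lam t dl) {a b : ℕ} (hab : a ≤ b) (ht : ∀ k, a ≤ k → 0 < t k)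
    {w : (OG n × Cfg n) × (ℕ → Vec n) → Vec n} (hw : Measurable w)
    (heq : ∀ η (q : (OG n × Cfg n) × (ℕ → Vec n)),
      ∀ R ∈ HG (Fib.rm (PF lam (t b)) (nz lam t η b)),
        w (lift lam t b η ((R * q.1.1, q.1.2), rotN R q.2)) = R.1 *ᵥ w (lift lam t b η q))
    {κ x : ℝ} (hx : 0 ≤ x) (hb : 1 < Edge.cnt lam (t b))
    (hκ : 2 * √(Edge.cnt lam (t a)) + 6 * √x ≤ κ * √(Edge.cnt lam (t b) - 1)) :
    plN n (diagonal lam) 0 (BadC lam t w κ a b) ≤ ENNReal.ofReal (2 * Real.exp (-x)) := by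
  have hBm := measurableSet_BadC lam t hw κ a b
  refine plN_le_of_state h b hBm fun η => ?_
  have hl0 := (measurable_lift lam t b).comp (measurable_prodMk_left (x := η))
  have hl : Measurable (lift lam t b η) := hl0
  have hq : MeasurableSet (lift lam t b η ⁻¹' BadC lam t w κ a b) := hl hBm
  have hν : ∀ᵐ R ∂haarH (Fib.rm (PF lam (t b)) (nz lam t η b)),
      R ∈ HG (Fib.rm (PF lam (t b)) (nz lam t η b)) := (invOn_haarH _).ae
  have hS : ∀ᵐ R ∂haarH (Fib.rm (PF lam (t b)) (nz lam t η b)),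
      Sym (diagonal (lamC lam (t b))) (nz lam t η b) R := hν.mono fun R hR => sym_state h η b hR
  have hT : Measurable fun R : OG n => R := measurable_id
  exact sym_le (haarH (Fib.rm (PF lam (t b)) (nz lam t η b))) hS hT hq
    fun q => badC_orbit h hab ht η q (heq η q) hx hb hκ

/-- **E3**: the compression event. `Φ O y x ω` is the site vector `W b` as a function of the
rotation, the site field at index `b`, the spins and the future noise. -/
theorem comp_tail (h : Grid lam t dl) {a b : ℕ} (hab : a ≤ b) (ht : ∀ k, a ≤ k → 0 < t k)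
    {Φ : OG n → Vec n → Cfg n → (ℕ → Vec n) → Vec n}
    (hΦm : Measurable fun r : (OG n × Vec n) × (Cfg n × (ℕ → Vec n)) => Φ r.1.1 r.1.2 r.2.1 r.2.2)
    (hΦ : ∀ R ∈ HG (PF lam (t b)), ∀ O y x ω, Φ (R * O) y x (rotN R ω) = Φ O y x ω)
    {W : (OG n × Cfg n) × (ℕ → Vec n) → ℕ → Vec n}
    (hW : ∀ q, W q b = Φ q.1.1 (q.1.1.1ᵀ *ᵥ yF lam t (xt q.1.1 q.1.2) q.2 b) q.1.2 (shS b q.2))
    {κ x : ℝ} (hx : 0 ≤ x) (hb : 1 < Edge.cnt lam (t b))
    (hκ : 2 * √(Edge.cnt lam (t a)) + 6 * √x ≤ κ * √(Edge.cnt lam (t b) - 1)) :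
    (plN n (diagonal lam) 0).real {q | ¬ Comp t (fun k => PC lam q.1.1 (t k))
      (fun k => q.1.1.1ᵀ *ᵥ yF lam t (xt q.1.1 q.1.2) q.2 k) (W q) κ a b} ≤
        2 * Real.exp (-x) := by
  have hO : Measurable fun q : (OG n × Cfg n) × (ℕ → Vec n) => q.1.1 :=
    measurable_fst.comp measurable_fst
  have h1 : Measurable fun q : (OG n × Cfg n) × (ℕ → Vec n) =>
      ((q.1.1, q.1.1.1ᵀ *ᵥ yF lam t (xt q.1.1 q.1.2) q.2 b), (q.1.2, shS b q.2)) :=
    (hO.prodMk ((Fib.MM.val hO).transpose.mulVec (measurable_yFq lam t b))).prodMk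
      ((measurable_snd.comp measurable_fst).prodMk ((measurable_shS b).comp measurable_snd))
  have h2 := hΦm.comp h1
  have h3 : Measurable fun q => W q b := by
    have e : (fun q => W q b) = _ := funext hW
    rw [e]
    exact h2
  have hWm : Measurable fun q : (OG n × Cfg n) × (ℕ → Vec n) => q.1.1.1 *ᵥ W q b :=
    (Fib.MM.val hO).mulVec h3
  have e : {q : (OG n × Cfg n) × (ℕ → Vec n) | ¬ Comp t (fun k => PC lam q.1.1 (t k))
      (fun k => q.1.1.1ᵀ *ᵥ yF lam t (xt q.1.1 q.1.2) q.2 k) (W q) κ a b} =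
      BadC lam t (fun q => q.1.1.1 *ᵥ W q b) κ a b := by
    ext q
    exact not_congr (comp_site q.1.1)
  rw [e]
  refine ENNReal.toReal_le_of_le_ofReal (by positivity)
    (badC_le h hab ht hWm (fun η q R hR => ?_) hx hb hκ)
  have hR' : R ∈ HG (PF lam (t b)) := Fib.HG_mono ((isProj_PF lam _).rm_mul _) hR
  have e1 : ∀ q' : (OG n × Cfg n) × (ℕ → Vec n), W (lift lam t b η q') b =
      Φ q'.1.1 (q'.1.1.1ᵀ *ᵥ nz lam t η b) q'.1.2 q'.2 := fun q' => by
    rw [hW, yF_lift h le_rfl, shS_lift]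
    rfl
  show (R * q.1.1).1 *ᵥ W (lift lam t b η ((R * q.1.1, q.1.2), rotN R q.2)) b =
    R.1 *ᵥ (q.1.1.1 *ᵥ W (lift lam t b η q) b)
  rw [e1, e1]
  dsimp only
  rw [hΦ R hR', OG.coe_mul, Matrix.transpose_mul, ← Matrix.mulVec_mulVec,
    ← Matrix.mulVec_mulVec, (sym_state h η b hR).2]

/-- the matrices of the cap flow after index `b` do not see the rotations of the capped block -/
theorem JO_rot {s : ℝ} {R : OG n} (hR : R ∈ HG (PF lam s)) {u : Vec n} {c : ℝ}
    (hu : ∀ a, dI lam s a * u a = c * dI lam s a) (O : OG n) :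
    Sp.JO u (R * O) = Sp.JO u O := by
  have hp := isProj_PF lam s
  have e : diagonal u * PF lam s = c • PF lam s := by
    unfold PF
    rw [Matrix.diagonal_mul_diagonal, ← Matrix.diagonal_smul]
    congr 1
    funext a
    rw [mul_comm, hu]
    rfl
  have e2 : PF lam s * diagonal u = c • PF lam s := by
    have h1 := congrArg Matrix.transpose e
    rwa [Matrix.transpose_mul, Matrix.transpose_smul, hp.symm, Matrix.diagonal_transpose] at h1
  have h1 := (sym_of_HG (y := 0) hp.symm e e2 (Matrix.mulVec_zero _) hR).1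
  have h2 : Sp.JO u (R * O) = Jr O (Jr R (diagonal u)) := Jr_mul R O _
  rw [h2, h1]
  rfl

theorem JC_rot {s s' : ℝ} (hs : s ≤ s') {R : OG n} (hR : R ∈ HG (PF lam s)) (O : OG n) :
    JC lam (R * O) s' = JC lam O s' :=
  JO_rot hR (c := 2 - s') (fun a => by
    have h1 := dI_mul_of_le lam hs a
    have h2 := dI_mul_lamC lam s' a
    linear_combination (-(lamC lam s' a) + (2 - s')) * h1 + dI lam s a * h2) O

theorem PC_rot {s s' : ℝ} (hs : s ≤ s') {R : OG n} (hR : R ∈ HG (PF lam s)) (O : OG n) :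
    PC lam (R * O) s' = PC lam O s' :=
  JO_rot hR (c := 1) (fun a => by rw [dI_mul_of_le lam hs, one_mul]) O

theorem RC_rot {s s' : ℝ} (hs : s ≤ s') {R : OG n} (hR : R ∈ HG (PF lam s)) (O : OG n)
    (ξ : Vec n) : RC lam (R * O) s' *ᵥ (R.1 *ᵥ ξ) = RC lam O s' *ᵥ ξ := by
  have hR' : R ∈ HG (PF lam s') := Fib.HG_mono (PF_mul_of_le lam hs) hR
  have h1 := HG_comm (isProj_PF lam s').symm hR'
  have e : RC lam (R * O) s' * R.1 = RC lam O s' := by
    show (R * O).1ᵀ * PF lam s' * R.1 = O.1ᵀ * PF lam s'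
    rw [OG.coe_mul, Matrix.transpose_mul, Matrix.mul_assoc, ← h1, Matrix.mul_assoc,
      ← Matrix.mul_assoc R.1ᵀ, OG.transpose_mul, Matrix.one_mul]
  rw [Matrix.mulVec_mulVec, e]

end Vale.Agent.N150.Rec
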