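import Vale.Agent.N150.RecCap
import Vale.Agent.N150.AsmNum
import Vale.Agent.N150.Path
import Vale.Agent.N150.CapRef

set_option linter.all false

/-! P150 at the critical point: the window events (radial part and compression) along the
universal process, from the rigidity of the spectrum. -/

open MeasureTheory Matrix Finset
open scoped ENNReal

namespace Vale.Agent.N150.Rec

open Vale.Agent.P150 Vale.Agent.P150.F Vale.Agent.N150.Plant Vale.Agent.N150.Cap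
  Vale.Agent.N150.CM Vale.Agent.N150.Edge Vale.Agent.N150.Asm

variable {n : ℕ} {lam : Vec n} {t : ℕ → ℝ} {dl w : ℝ}

theorem le_of_kap (hw : 0 < w) (hk : Edge.kap w ≤ 1 / 100) : 100 ≤ w := by
  by_contra h
  push Not at h
  have h1 : (100 : ℝ) ^ (-(3 / 5 : ℝ)) ≤ Edge.kap w :=
    Real.rpow_le_rpow_of_nonpos hw h.le (by norm_num)
  have h2 : (100 : ℝ) ^ (-(1 : ℝ)) < (100 : ℝ) ^ (-(3 / 5 : ℝ)) :=
    Real.rpow_lt_rpow_of_exponent_lt (by norm_num) (by norm_num)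
  rw [Real.rpow_neg_one] at h2
  norm_num at h2
  linarith

theorem le_uu (hn : 0 < n) (hw : 0 < w) (hk : Edge.kap w ≤ 1 / 100) {s : ℝ} (hs : sc0 n w ≤ s) :
    100 ≤ Path.uu n s := by
  have h1 := le_of_kap hw hk
  have h2 : Path.uu n (sc0 n w) = w * √w := n_sc0 hn hw.le
  have h3 := Path.uu_mono n (sc0_pos hn hw).le hs
  have h4 : 1 ≤ √w := Real.one_le_sqrt.2 (by linarith)
  nlinarith

/-- the hypotheses of the compression bound from the rigidity -/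
theorem cnt_kap (h : Rigid w lam) (hn : 0 < n) (hw : 0 < w) (hk : Edge.kap w ≤ 1 / 100)
    {ta tb κ x : ℝ} (ha : sc0 n w ≤ ta) (hab : ta ≤ tb) (hb : tb ≤ 1) (hκ0 : 0 ≤ κ)
    (hκ : 800 * (ta * √ta) ≤ κ ^ 2 * (tb * √tb)) (hx0 : 0 ≤ x) (hx : x ≤ Path.uu n ta) :
    1 < cnt lam tb ∧ 2 * √(cnt lam ta) + 6 * √x ≤ κ * √(cnt lam tb - 1) := by
  have s0 := sc0_pos hn hw
  have k0 := kap_pos hw
  have u1 := le_uu hn hw hk ha
  have u2 := Path.uu_mono n (by linarith : 0 ≤ ta) hab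
  have h1 : cnt lam ta ≤ Path.uu n ta := by
    refine (h.cnt_upper hn hw ha (by linarith)).trans ?_
    have h2 : c0 + Edge.kap w ≤ 1 := by linarith [c0_le]
    exact mul_le_of_le_one_left (show 0 ≤ Path.uu n ta by linarith) h2
  have h2 : 1 / 6 * Path.uu n tb ≤ cnt lam tb := by
    refine le_trans ?_ (h.cnt_lower hn hw (ha.trans hab) (by linarith) (by linarith))
    refine mul_le_mul_of_nonneg_right ?_ (show 0 ≤ Path.uu n tb by linarith)
    have h3 : c0 * (17 / 20) ≤ c0 * (1 - 3 / 20 * tb) :=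
      mul_le_mul_of_nonneg_left (by linarith) c0_pos.le
    linarith [le_c0]
  have h3 : 128 * Path.uu n ta ≤ κ ^ 2 * cnt lam tb := by
    have h4 := mul_le_mul_of_nonneg_left hκ (Nat.cast_nonneg n : (0 : ℝ) ≤ n)
    have h5 := mul_le_mul_of_nonneg_left h2 (sq_nonneg κ)
    unfold Path.uu at h5 u1 ⊢
    nlinarith
  refine ⟨by linarith, le_trans ?_ (kappa_ok (by linarith) hx0 hx hκ0 h3)⟩
  linarith [Real.sqrt_le_sqrt h1]

/-- the ratio condition from the window ratio -/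
theorem ratio_kap {ta tb ρ κ : ℝ} (ha : 0 ≤ ta) (hρ : 0 ≤ ρ) (hab : ρ / 2 * ta ≤ tb)
    (hκ : 2300 ≤ κ ^ 2 * (ρ * √ρ)) : 800 * (ta * √ta) ≤ κ ^ 2 * (tb * √tb) := by
  have h0 : 0 ≤ ρ / 2 * ta := by positivity
  have h1 : 7 / 10 * √ρ * √ta ≤ √tb := by
    refine le_trans ?_ (Real.sqrt_le_sqrt hab)
    refine Real.le_sqrt_of_sq_le ?_
    rw [mul_pow, mul_pow, Real.sq_sqrt hρ, Real.sq_sqrt ha]
    nlinarith [mul_nonneg hρ ha]
  have h2 : ρ / 2 * ta * (7 / 10 * √ρ * √ta) ≤ tb * √tb :=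
    mul_le_mul hab h1 (by positivity) (h0.trans hab)
  have h3 := mul_le_mul_of_nonneg_left h2 (sq_nonneg κ)
  have h4 := mul_le_mul_of_nonneg_right hκ (by positivity : 0 ≤ ta * √ta)
  have h5 : 0 ≤ ta * √ta := by positivity
  nlinarith

/-- the trajectory of the universal process along the cap flow -/
noncomputable abbrev trC (h : Grid lam t dl) (q : (OG n × Cfg n) × (ℕ → Vec n)) (k : ℕ) : St n :=
  (up n h.steps).traj (capS lam t q.1.1 0 0) q.1.2 q.2 k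

variable {dl' sK ρ R₂ T η η₁ κ : ℝ} {J : ℕ}

theorem par_kap (hP : Par t dl' sK ρ R₂ T η η₁ κ J) (hκ : 2300 ≤ κ ^ 2 * (ρ * √ρ)) {j : ℕ}
    (hj : j < J) : 800 * (t (wa t T ρ (j + 1)) * √(t (wa t T ρ (j + 1)))) ≤
      κ ^ 2 * (t (wa t T ρ j) * √(t (wa t T ρ j))) :=
  ratio_kap (hP.t_pos (hP.k0_le_wa hj)).le (by linarith [hP.rho]) (hP.le_ratio hj) hκ

/-- **compression on all windows**; `Ψ b` is any measurable function of the state at index `b`,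
of the spins and of the future noise -/
theorem comp_win (h : Grid lam t dl) (hR : Rigid w lam) (hn : 0 < n) (hw : 0 < w)
    (hk : Edge.kap w ≤ 1 / 100) (hP : Par t dl' sK ρ R₂ T η η₁ κ J) (hs : sc0 n w ≤ sK)
    (hκ : 2300 ≤ κ ^ 2 * (ρ * √ρ)) {Ψ : ℕ → St n → Cfg n → (ℕ → Vec n) → Vec n}
    (hΨ : ∀ b x, Measurable fun p : St n × (ℕ → Vec n) => Ψ b p.1 x p.2) {x : ℝ} (hx0 : 0 ≤ x)
    (hx : x ≤ Path.uu n (T / ρ ^ J)) :
    (plN n (diagonal lam) 0).real {q | ¬ ∀ j, j < J → Comp t (capP lam t q.1.1)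
      (fun k => sy (trC h q k)) (fun k => Ψ k (trC h q k) q.1.2 (shS k q.2)) κ
      (wa t T ρ (j + 1)) (wa t T ρ j)} ≤ 2 * J * Real.exp (-x) := by
  have e : {q : (OG n × Cfg n) × (ℕ → Vec n) | ¬ ∀ j, j < J → Comp t (capP lam t q.1.1)
      (fun k => sy (trC h q k)) (fun k => Ψ k (trC h q k) q.1.2 (shS k q.2)) κ
      (wa t T ρ (j + 1)) (wa t T ρ j)} = ⋃ j ∈ range J, {q | ¬ Comp t (capP lam t q.1.1)
      (fun k => sy (trC h q k)) (fun k => Ψ k (trC h q k) q.1.2 (shS k q.2)) κ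
      (wa t T ρ (j + 1)) (wa t T ρ j)} := by
    ext q
    simp only [Set.mem_setOf_eq, Set.mem_iUnion, Finset.mem_range, not_forall, exists_prop]
  rw [e]
  refine (measureReal_biUnion_finset_le _ _).trans ?_
  refine (Finset.sum_le_card_nsmul _ _ (2 * Real.exp (-x)) fun j hj => ?_).trans ?_
  · have hj' := Finset.mem_range.1 hj
    have h1 := hP.k0_le_wa (j := j + 1) hj'
    have h2 : T / ρ ^ J ≤ t (wa t T ρ (j + 1)) := (hP.div_anti hj').trans (hP.le_wa (j + 1))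
    have h3 : t (wa t T ρ j) ≤ 1 :=
      (hP.tm.mono' (hP.wa_le_N j)).trans (hP.t_N_le.trans hP.T_le)
    have h4 := hP.wa_anti (Nat.le_succ j)
    have h5 : 0 ≤ T / ρ ^ J := hP.sK_pos.le.trans hP.low
    obtain ⟨c1, c2⟩ := cnt_kap hR hn hw hk (hs.trans (hP.sK_le_t h1)) (hP.tm.mono' h4) h3 hP.kap
      (par_kap hP hκ hj') hx0 (hx.trans (Path.uu_mono n h5 h2))
    exact comp_cap h h4 (fun k hk => hP.t_pos (h1.trans hk)) (hΨ _)
      (W := fun q k => Ψ k (trC h q k) q.1.2 (shS k q.2)) (fun _ => rfl) hx0 c1 c2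
  · rw [Finset.card_range, nsmul_eq_mul]
    exact le_of_eq (by ring)

theorem Rad.mono_eta {P : ℕ → Mat n} {y : ℕ → Vec n} {κ η₁ η₂ : ℝ} {a b : ℕ}
    (h : Rad t P y κ η₁ a b) (ht : ∀ k, a ≤ k → 0 ≤ t k) (hη : η₁ ≤ η₂) : Rad t P y κ η₂ a b :=
  ⟨fun j k h1 h2 h3 => (h.h1 j k h1 h2 h3).trans (mul_le_mul_of_nonneg_right hη
    (mul_nonneg (ht k (h1.trans h2)) (sqN_nonneg _))), h.h3, h.h4⟩

/-- the radial part on all windows, from the path event in the eigenframe -/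
theorem rad_win (h : Grid lam t dl) (hP : Par t dl' sK ρ R₂ T η η₁ κ J)
    (hκ : 2300 ≤ κ ^ 2 * (ρ * √ρ)) {ε : ℝ} (hε : ε ≤ 1 / 1000) (hη : 81 * ε ≤ η₁) {k₀ N : ℕ}
    (hk₀ : fi t sK ≤ k₀) (hkJ : k₀ ≤ wa t T ρ J) (hN : fi t T ≤ N)
    {q : (OG n × Cfg n) × (ℕ → Vec n)}
    (hq : Path.CapGood lam ε t k₀ N (xt q.1.1 q.1.2) (yF lam t (xt q.1.1 q.1.2) (rotN q.1.1 q.2)))
    {j : ℕ} (hj : j < J) :
    Rad t (capP lam t q.1.1) (fun k => sy (trC h q k)) κ η₁ (wa t T ρ (j + 1)) (wa t T ρ j) := by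
  have h1 := par_kap hP hκ hj
  have h2 := hP.t_pos (hP.k0_le_wa (j := j + 1) hj)
  have h3 := hq.rad hε (fun k hk => hP.t_pos (hk₀.trans hk)) q.1.1 (κ := κ)
    (hkJ.trans (hP.wa_anti hj)) (hP.wa_anti (Nat.le_succ j)) ((hP.wa_le_N j).trans hN)
    (le_trans (by nlinarith [mul_nonneg h2.le (Real.sqrt_nonneg (t (wa t T ρ (j + 1))))]) h1)
  simp only [trC, sy_traj h]
  exact h3.mono_eta (fun k hk => (hP.t_pos ((hP.k0_le_wa (j := j + 1) hj).trans hk)).le) hη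

/-- **the field `win` of `WOK`** on the path event, up to a set of small planted measure -/
theorem win_tail (h : Grid lam t dl) (hR : Rigid w lam) (hn : 0 < n) (hw : 0 < w)
    (hk : Edge.kap w ≤ 1 / 100) (hP : Par t dl' sK ρ R₂ T η η₁ κ J) (hs : sc0 n w ≤ sK)
    (hκ : 2300 ≤ κ ^ 2 * (ρ * √ρ)) {ε : ℝ} (hε : ε ≤ 1 / 1000) (hη : 81 * ε ≤ η₁) {k₀ N : ℕ}
    (hk₀ : fi t sK ≤ k₀) (hkJ : k₀ ≤ wa t T ρ J) (hN : fi t T ≤ N)
    {Ψ : ℕ → St n → Cfg n → (ℕ → Vec n) → Vec n}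
    (hΨ : ∀ b x, Measurable fun p : St n × (ℕ → Vec n) => Ψ b p.1 x p.2) {x : ℝ} (hx0 : 0 ≤ x)
    (hx : x ≤ Path.uu n (T / ρ ^ J)) :
    (plN n (diagonal lam) 0).real {q | Path.CapGood lam ε t k₀ N (xt q.1.1 q.1.2)
      (yF lam t (xt q.1.1 q.1.2) (rotN q.1.1 q.2)) ∧ ¬ ∀ j, j < J →
        Rad t (capP lam t q.1.1) (fun k => sy (trC h q k)) κ η₁ (wa t T ρ (j + 1)) (wa t T ρ j) ∧
        Comp t (capP lam t q.1.1) (fun k => sy (trC h q k))
          (fun k => Ψ k (trC h q k) q.1.2 (shS k q.2)) κ (wa t T ρ (j + 1)) (wa t T ρ j)} ≤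
      2 * J * Real.exp (-x) := by
  refine le_trans (measureReal_mono (fun q hq => ?_)) (comp_win h hR hn hw hk hP hs hκ hΨ hx0 hx)
  exact fun hc => hq.2 fun j hj => ⟨rad_win h hP hκ hε hη hk₀ hkJ hN hq.1 hj, hc j hj⟩

/-- the tracking functional of a reference family is admissible -/
theorem meas_refW (h : Grid lam t dl) {r : Ref n n (St n)} {K d L τ : ℝ}
    (hr : r.OK (up n h.steps) K d) (hL : 0 ≤ L) (hτ : 0 < τ) (hτ1 : τ ≤ 1) (N b : ℕ) (x : Cfg n) :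
    Measurable fun p : St n × (ℕ → Vec n) => r.W (up n h.steps) K L τ (N - b) p.1 x p.2 :=
  measurable_pi_lambda _ fun i => (hr.bm_W hL hτ hτ1 (N - b) x i).1

/-- the path event in site coordinates -/
theorem cap_tail_site (h : Grid lam t dl) (hR : Rigid w lam) (hn : 0 < n) (hw : 0 < w)
    {ε z : ℝ} {k₀ N : ℕ} (hε : ε ≤ 1 / 1000) (hk : 20 * Edge.kap w ≤ ε) (h0 : 30 * sc0 n w ≤ ε * t k₀)
    (hN : t N ≤ ε) (hz : 0 ≤ z) (hz1 : z ≤ ε ^ 2 * Path.uu n (t k₀)) :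
    (plN n (diagonal lam) 0).real {q | ¬ Path.CapGood lam ε t k₀ N (xt q.1.1 q.1.2)
      (yF lam t (xt q.1.1 q.1.2) (rotN q.1.1 q.2))} ≤
      31500 * n ^ 8 * (N + 1) ^ 2 * Real.exp (-z) :=
  (Path.plN_rot_le (diagonal lam) 0
    {q | ¬ Path.CapGood lam ε t k₀ N q.1 (yF lam t q.1 q.2)}).trans
    (Path.cap_tail hR hn hw h hε hk h0 hN hz hz1)

end Vale.Agent.N150.Rec
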