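import Mathlib
import Vale.Agent.N150.EndDefs
import Vale.Agent.N150.EndGauss
import Vale.Agent.N150.EdgeMain
import Vale.Agent.N150.Plant
import Vale.Agent.N150.SphAnn
import Vale.Agent.N150.Tail2

/-! P150: reduction from the disorder to a fixed spectrum and a Haar distributed eigenbasis.
Measurable sets of matrices, a measurable square root, the law of the full GOE matrix. -/

open MeasureTheory ProbabilityTheory Matrix Filter Topology
open scoped ENNReal

namespace Vale.Agent.N150.Rd

open Vale.Agent.P150 Vale.Agent.P150.F Vale.Agent.P150.F.Ms Vale.Agent.N150.Edge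
open Vale.Agent.N150.Sp Vale.Agent.N150.Plant Vale.Agent.N150.End

variable {n : ℕ}

/-! ### measurable sets of matrices -/

/-- matrices as functions -/
abbrev MF (n : ℕ) := Fin n → Fin n → ℝ

/-- measurable sets of matrices -/
def MS (S : Set (Mat n)) : Prop := MeasurableSet {A : MF n | Matrix.of A ∈ S}

/-- measurable sets of pairs of matrices -/
def MS2 (S : Set (Mat n × Mat n)) : Prop :=
  MeasurableSet {p : MF n × MF n | (Matrix.of p.1, Matrix.of p.2) ∈ S}

section meas
variable {α : Type*} [MeasurableSpace α]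

theorem meas_MF {J : α → Mat n} (hJ : ∀ i j, Measurable fun a => J a i j) :
    Measurable fun a => (fun i j => J a i j : MF n) :=
  measurable_pi_lambda _ fun i => measurable_pi_lambda _ fun j => hJ i j

theorem mm_of : ∀ i j, Measurable fun A : MF n => (Matrix.of A : Mat n) i j := fun i j =>
  (measurable_pi_apply j).comp (measurable_pi_apply i)

theorem mm_of1 : ∀ i j, Measurable fun p : MF n × MF n => (Matrix.of p.1 : Mat n) i j :=
  fun i j => (mm_of i j).comp measurable_fst

theorem mm_of2 : ∀ i j, Measurable fun p : MF n × MF n => (Matrix.of p.2 : Mat n) i j :=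
  fun i j => (mm_of i j).comp measurable_snd

theorem MS.pre {S : Set (Mat n)} (hS : MS S) {J : α → Mat n}
    (hJ : ∀ i j, Measurable fun a => J a i j) : MeasurableSet {a | J a ∈ S} :=
  meas_MF hJ hS

theorem MS2.pre {S : Set (Mat n × Mat n)} (hS : MS2 S) {J W : α → Mat n}
    (hJ : ∀ i j, Measurable fun a => J a i j) (hW : ∀ i j, Measurable fun a => W a i j) :
    MeasurableSet {a | (J a, W a) ∈ S} :=
  ((meas_MF hJ).prodMk (meas_MF hW)) hS

theorem MS.compl {S : Set (Mat n)} (h : MS S) : MS Sᶜ := MeasurableSet.compl h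

theorem MS.inter {S T : Set (Mat n)} (h : MS S) (h' : MS T) : MS (S ∩ T) :=
  MeasurableSet.inter h h'

theorem MS.union {S T : Set (Mat n)} (h : MS S) (h' : MS T) : MS (S ∪ T) :=
  MeasurableSet.union h h'

theorem MS2.compl {S : Set (Mat n × Mat n)} (h : MS2 S) : MS2 Sᶜ := MeasurableSet.compl h

theorem MS2.inter {S T : Set (Mat n × Mat n)} (h : MS2 S) (h' : MS2 T) : MS2 (S ∩ T) :=
  MeasurableSet.inter h h'

theorem MS2.union {S T : Set (Mat n × Mat n)} (h : MS2 S) (h' : MS2 T) : MS2 (S ∪ T) :=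
  MeasurableSet.union h h'

theorem MS.fst {S : Set (Mat n)} (h : MS S) : MS2 {p | p.1 ∈ S} := h.pre mm_of1

theorem MS.snd {S : Set (Mat n)} (h : MS S) : MS2 {p | p.2 ∈ S} := h.pre mm_of2

theorem continuous_of : Continuous fun A : MF n => (Matrix.of A : Mat n) :=
  continuous_matrix fun i j => (continuous_apply j).comp (continuous_apply i)

theorem MS.of_isClosed {S : Set (Mat n)} (h : IsClosed S) : MS S :=
  (h.preimage continuous_of).measurableSet

theorem mm_lin (b c : ℝ) {J W : α → Mat n} (hJ : ∀ i j, Measurable fun a => J a i j)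
    (hW : ∀ i j, Measurable fun a => W a i j) :
    ∀ i j, Measurable fun a => (b • J a + c • W a) i j := fun i j =>
  ((hJ i j).const_mul b).add ((hW i j).const_mul c)

theorem mm_lin' (b c : ℝ) {J W : α → Mat n} (hJ : ∀ i j, Measurable fun a => J a i j)
    (hW : ∀ i j, Measurable fun a => W a i j) :
    ∀ i j, Measurable fun a => (b • J a - c • W a) i j := fun i j =>
  ((hJ i j).const_mul b).sub ((hW i j).const_mul c)

theorem mm_Jr {O : α → OG n} {J : α → Mat n} (hO : Measurable O)
    (hJ : ∀ i j, Measurable fun a => J a i j) : ∀ i j, Measurable fun a => Jr (O a) (J a) i j := by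
  intro i j
  unfold Jr
  simp only [Matrix.mul_apply, Matrix.transpose_apply]
  exact Finset.measurable_fun_sum _ fun k _ => (Finset.measurable_fun_sum _ fun l _ =>
    ((measurable_entry l i).comp hO).mul (hJ l k)).mul ((measurable_entry k j).comp hO)

/-- an integral of a function bounded by one, small off an arbitrary set -/
theorem lint_le_add {μ : Measure α} [IsProbabilityMeasure μ] {f : α → ℝ≥0∞} (B : Set α) {δ : ℝ≥0∞}
    (hf : ∀ a, f a ≤ 1) (h : ∀ a, a ∉ B → f a ≤ δ) : ∫⁻ a, f a ∂μ ≤ μ B + δ := by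
  have hm := measurableSet_toMeasurable μ B
  calc ∫⁻ a, f a ∂μ ≤ ∫⁻ a, (toMeasurable μ B).indicator 1 a + δ ∂μ := by
        refine lintegral_mono fun a => ?_
        by_cases ha : a ∈ toMeasurable μ B
        · rw [Set.indicator_of_mem ha]
          exact (hf a).trans le_self_add
        · exact (h a fun hb => ha (subset_toMeasurable μ B hb)).trans le_add_self
    _ = μ B + δ := by
        rw [lintegral_add_right _ measurable_const, lintegral_indicator_one hm, lintegral_const,
          measure_univ, mul_one, measure_toMeasurable]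

/-- a measurable set with small slices off an arbitrary set -/
theorem prod_le_add {β : Type*} [MeasurableSpace β] {μ : Measure α} {ν : Measure β}
    [IsProbabilityMeasure μ] [IsProbabilityMeasure ν] {S : Set (α × β)} (hS : MeasurableSet S)
    (B : Set α) {δ : ℝ≥0∞} (h : ∀ a, a ∉ B → ν {b | (a, b) ∈ S} ≤ δ) :
    (μ.prod ν) S ≤ μ B + δ := by
  rw [Measure.prod_apply hS]
  exact lint_le_add B (fun a => prob_le_one) h

end meas

/-! ### a measurable square root -/

section root
open scoped MatrixOrder Matrix.Norms.L2Operator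

/-- the positive square root of a positive semidefinite matrix, zero otherwise -/
noncomputable def rt (Q : Mat n) : Mat n := CFC.sqrt Q

theorem rt_symm (Q : Mat n) : (rt Q)ᵀ = rt Q := by
  have h : (rt Q).PosSemidef := (CFC.sqrt_nonneg Q).posSemidef
  have h1 := h.isHermitian
  rwa [Matrix.IsHermitian, Matrix.conjTranspose_eq_transpose_of_trivial] at h1

theorem rt_mul {Q : Mat n} (hQ : Q.PosSemidef) : rt Q * (rt Q)ᵀ = Q := by
  rw [rt_symm]
  exact CFC.sqrt_mul_sqrt_self Q hQ.nonneg

theorem rt_of_not {Q : Mat n} (hQ : ¬ Q.PosSemidef) : rt Q = 0 := by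
  unfold rt
  rw [CFC.sqrt_eq_cfc]
  exact cfc_apply_of_not_predicate Q fun h => hQ (LE.le.posSemidef h)

theorem continuousOn_rt : ContinuousOn (rt : Mat n → Mat n) {Q | Q.PosSemidef} := by
  have h := ContinuousOn.cfc_nnreal_of_mem_nhdsSet (A := Mat n) (s := Set.univ) NNReal.sqrt
    (a := fun Q : Mat n => Q) (t := {Q | Q.PosSemidef}) univ_mem continuousOn_id
    (fun Q hQ => Matrix.PosSemidef.nonneg hQ) NNReal.continuous_sqrt.continuousOn
  refine h.congr fun Q _ => ?_
  unfold rt
  rw [CFC.sqrt_eq_cfc]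

end root

theorem posSemidef_iff {Q : Mat n} : Q.PosSemidef ↔ Qᵀ = Q ∧ ∀ v, 0 ≤ qf Q v := by
  constructor
  · intro h
    refine ⟨?_, fun v => ?_⟩
    · have h1 := h.isHermitian
      rwa [Matrix.IsHermitian, Matrix.conjTranspose_eq_transpose_of_trivial] at h1
    · have := h.dotProduct_mulVec_nonneg v
      rwa [star_trivial] at this
  · rintro ⟨h1, h2⟩
    refine Matrix.PosSemidef.of_dotProduct_mulVec_nonneg ?_ fun v => ?_
    · rwa [Matrix.IsHermitian, Matrix.conjTranspose_eq_transpose_of_trivial]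
    · rw [star_trivial]
      exact h2 v

theorem continuous_qf' (v : Vec n) : Continuous fun W : Mat n => qf W v := by
  unfold qf ip Matrix.mulVec dotProduct
  exact continuous_finsetSum _ fun i _ => continuous_const.mul
    (continuous_finsetSum _ fun j _ => (continuous_apply_apply i j).mul continuous_const)

theorem isClosed_psd : IsClosed {Q : Mat n | Q.PosSemidef} := by
  simp only [posSemidef_iff, Set.ofPred_and, Set.ofPred_forall]
  exact (isClosed_eq continuous_id.matrix_transpose continuous_id).inter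
    (isClosed_iInter fun v => isClosed_le continuous_const (continuous_qf' v))

theorem psd_mul_transpose {m : Type*} [Fintype m] (R : Matrix (Fin n) m ℝ) :
    (R * Rᵀ).PosSemidef := by
  have := Matrix.posSemidef_self_mul_conjTranspose R
  rwa [Matrix.conjTranspose_eq_transpose_of_trivial] at this

theorem mm_rt {α : Type*} [MeasurableSpace α] {Q : α → Mat n}
    (hQ : ∀ i j, Measurable fun a => Q a i j) : ∀ i j, Measurable fun a => rt (Q a) i j := by
  classical
  intro i j
  have hs : MeasurableSet {A : MF n | (Matrix.of A : Mat n).PosSemidef} :=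
    MS.of_isClosed isClosed_psd
  have hc : ContinuousOn (fun A : MF n => rt (Matrix.of A) i j)
      {A : MF n | (Matrix.of A : Mat n).PosSemidef} :=
    (continuous_apply_apply i j).comp_continuousOn
      (continuousOn_rt.comp continuous_of.continuousOn fun A hA => hA)
  have h1 := hc.measurable_piecewise (g := fun _ => (0 : ℝ)) continuousOn_const hs
  have h2 : Measurable fun A : MF n => rt (Matrix.of A) i j := by
    have e : (fun A : MF n => rt (Matrix.of A) i j) = Set.piecewise
        {A : MF n | (Matrix.of A : Mat n).PosSemidef} (fun A : MF n => rt (Matrix.of A) i j)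
        fun _ => (0 : ℝ) := by
      funext A
      by_cases hA : A ∈ {A : MF n | (Matrix.of A : Mat n).PosSemidef}
      · rw [Set.piecewise_eq_of_mem _ _ _ hA]
      · rw [Set.piecewise_eq_of_notMem _ _ _ hA, rt_of_not hA, Matrix.zero_apply]
    rw [e]
    exact h1
  exact h2.comp (meas_MF hQ)


/-! ### the law of a label depends only on the precision, measurably -/

/-- probability that the label with precision `Q` lies in `B` -/
noncomputable def PYq (μ : Cfg n → ℝ) (Q : Mat n) (s : ℝ) (B : Set (Vec n)) : ℝ := PY μ (rt Q) s B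

theorem obs_eq (R : Mat n) (s : ℝ) (x : Cfg n) (ξ : Vec n) :
    obs R s x ξ = s • (R * Rᵀ) *ᵥ sv x + √s • R *ᵥ ξ := rfl

theorem PY_congr (μ : Cfg n → ℝ) {R R' : Mat n} (h : R * Rᵀ = R' * R'ᵀ) (s : ℝ)
    {B : Set (Vec n)} (hB : MeasurableSet B) : PY μ R s B = PY μ R' s B := by
  unfold PY
  refine Finset.sum_congr rfl fun x _ => ?_
  congr 1
  have hm : MeasurableSet {v : Vec n | s • (R * Rᵀ) *ᵥ sv x + √s • v ∈ B} :=
    (by fun_prop : Measurable fun v : Vec n => s • (R * Rᵀ) *ᵥ sv x + √s • v) hB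
  have h1 := Measure.map_apply (μ := gpi (Fin n)) (measurable_matVec R) hm
  have h2 := Measure.map_apply (μ := gpi (Fin n)) (measurable_matVec R') hm
  rw [Law.map_mulVec_eq h, h2] at h1
  unfold Measure.real
  congr 1
  simp only [obs_eq, ← h]
  exact h1.symm

theorem PY_eq (μ : Cfg n → ℝ) (R : Mat n) (s : ℝ) {B : Set (Vec n)} (hB : MeasurableSet B) :
    PY μ R s B = PYq μ (R * Rᵀ) s B :=
  PY_congr μ (rt_mul (psd_mul_transpose R)).symm s hB

theorem PY_mono {μ : Cfg n → ℝ} (hμ : ∀ x, 0 ≤ μ x) (R : Mat n) (s : ℝ) {B B' : Set (Vec n)}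
    (h : B ⊆ B') : PY μ R s B ≤ PY μ R s B' :=
  Finset.sum_le_sum fun x _ => mul_le_mul_of_nonneg_left
    (measureReal_mono fun _ hξ => h hξ) (hμ x)

section meas2
variable {α : Type*} [MeasurableSpace α]

theorem measurable_PY {μ : α → Cfg n → ℝ} {R : α → Mat n} {B : α → Set (Vec n)} (s : ℝ)
    (hμ : ∀ x, Measurable fun a => μ a x) (hR : ∀ i j, Measurable fun a => R a i j)
    (hB : MeasurableSet {p : α × Vec n | p.2 ∈ B p.1}) :
    Measurable fun a => PY (μ a) (R a) s (B a) := by
  unfold PY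
  refine Finset.measurable_fun_sum _ fun x _ => (hμ x).mul ?_
  have h1 : Measurable fun p : α × Vec n => (p.1, obs (R p.1) s x p.2) := by
    refine measurable_fst.prodMk (measurable_pi_lambda _ fun i => ?_)
    have hR' : ∀ i j, Measurable fun p : α × Vec n => R p.1 i j := fun i j =>
      (hR i j).comp measurable_fst
    unfold obs
    simp only [Matrix.mulVec, dotProduct, Matrix.mul_apply, Matrix.transpose_apply]
    exact ((Finset.measurable_fun_sum _ fun j _ => (Finset.measurable_fun_sum _ fun k _ =>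
      (hR' i k).mul (hR' j k)).mul_const _).const_mul _).add
      ((Finset.measurable_fun_sum _ fun j _ => (hR' i j).mul
        ((measurable_pi_apply j).comp measurable_snd)).const_mul _)
  exact (measurable_measure_prodMk_left (ν := gpi (Fin n)) (h1 hB)).ennreal_toReal

theorem measurable_PYq {μ : α → Cfg n → ℝ} {Q : α → Mat n} {B : α → Set (Vec n)} (s : ℝ)
    (hμ : ∀ x, Measurable fun a => μ a x) (hQ : ∀ i j, Measurable fun a => Q a i j)
    (hB : MeasurableSet {p : α × Vec n | p.2 ∈ B p.1}) :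
    Measurable fun a => PYq (μ a) (Q a) s (B a) := measurable_PY s hμ (mm_rt hQ) hB

theorem continuous_gM (x : Cfg n) : Continuous fun p : Mat n × Vec n => gM p.1 p.2 x := by
  have h : ∀ x : Cfg n, Continuous fun p : Mat n × Vec n =>
      Real.exp (qf p.1 (sv x) / 2 + ip p.2 (sv x)) := by
    intro x
    refine Real.continuous_exp.comp
      ((((continuous_qf' (sv x)).comp continuous_fst).div_const 2).add ?_)
    unfold ip
    fun_prop
  unfold gM
  exact (h x).div (continuous_finsetSum _ fun x' _ => h x') fun p =>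
    (Finset.sum_pos (fun x' _ => Real.exp_pos _) Finset.univ_nonempty).ne'

/-- closed conditions on the Gibbs measure are measurable in the couplings and the field -/
theorem ms_of_isClosed {S : Set (Mat n × Vec n)} (hS : IsClosed S) {J : α → Mat n} {y : α → Vec n}
    (hJ : ∀ i j, Measurable fun a => J a i j) (hy : Measurable y) :
    MeasurableSet {a | (J a, y a) ∈ S} := by
  have h : MeasurableSet {p : MF n × Vec n | ((Matrix.of p.1 : Mat n), p.2) ∈ S} :=
    (hS.preimage ((continuous_of.comp continuous_fst).prodMk continuous_snd)).measurableSet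
  exact ((meas_MF hJ).prodMk hy) h

theorem measurable_gM {J : α → Mat n} {y : α → Vec n} (hJ : ∀ i j, Measurable fun a => J a i j)
    (hy : Measurable y) (x : Cfg n) : Measurable fun a => gM (J a) (y a) x := by
  have h0 : Continuous fun p : MF n × Vec n => ((Matrix.of p.1 : Mat n), p.2) :=
    (continuous_of.comp continuous_fst).prodMk continuous_snd
  have h := ((continuous_gM x).comp h0).measurable.comp ((meas_MF hJ).prodMk hy)
  exact h

end meas2

section closed
variable {X : Type*} [TopologicalSpace X] {ρ : X → Cfg n → ℝ}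

theorem continuous_Ex (hρ : ∀ x, Continuous fun a => ρ a x) (f : Cfg n → ℝ) :
    Continuous fun a => Ex (ρ a) f :=
  continuous_finsetSum _ fun x _ => (hρ x).mul continuous_const

theorem Ex_pos {μ f : Cfg n → ℝ} (hμ : ∀ x, 0 < μ x) (hf : ∀ x, 0 < f x) : 0 < Ex μ f :=
  Finset.sum_pos (fun x _ => mul_pos (hμ x) (hf x)) Finset.univ_nonempty

theorem continuous_DirW (hρ : ∀ x, Continuous fun a => ρ a x) (h0 : ∀ a x, 0 < ρ a x)
    (f g : Cfg n → ℝ) : Continuous fun a => DirW (ρ a) f g := by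
  unfold DirW
  exact continuous_const.mul (continuous_finsetSum _ fun i _ => continuous_finsetSum _ fun x _ =>
    (((hρ _).mul (hρ _)).div ((hρ _).add (hρ _)) fun a => (add_pos (h0 a _) (h0 a _)).ne').mul
      continuous_const)

theorem continuous_mean (hρ : ∀ x, Continuous fun a => ρ a x) (i : Fin n) :
    Continuous fun a => mean (ρ a) i :=
  continuous_finsetSum _ fun x _ => (hρ x).mul continuous_const

theorem isClosed_term (hρ : ∀ x, Continuous fun a => ρ a x) (h0 : ∀ a x, 0 < ρ a x) (C θ : ℝ) :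
    IsClosed {a | Term C θ (ρ a)} := by
  unfold Term
  simp only [Set.ofPred_forall]
  refine isClosed_iInter fun f => isClosed_iInter fun A => isClosed_iInter fun _ =>
    isClosed_iInter fun hf => isClosed_iInter fun _ => ?_
  have hE := continuous_Ex hρ f
  have hE0 : ∀ a, Ex (ρ a) f ≠ 0 := fun a => (Ex_pos (h0 a) hf).ne'
  have hD : Continuous fun a => C * DirW (ρ a) f (fun x => Real.log (f x)) + A ^ 2 * θ :=
    (continuous_const.mul (continuous_DirW hρ h0 _ _)).add continuous_const
  refine IsClosed.and (isClosed_le ?_ hD) (isClosed_le (hE.mul ?_) hD)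
  · unfold EntX
    exact (continuous_Ex hρ _).sub (hE.mul (hE.log hE0))
  · unfold F.sq
    refine continuous_finsetSum _ fun i _ => Continuous.pow (Continuous.sub ?_
      (continuous_mean hρ i)) 2
    exact continuous_mean (ρ := fun a x => ρ a x * f x / Ex (ρ a) f)
      (fun x => ((hρ x).mul continuous_const).div hE hE0) i

end closed

theorem ms_term {α : Type*} [MeasurableSpace α] (C θ : ℝ) {J : α → Mat n} {y : α → Vec n}
    (hJ : ∀ i j, Measurable fun a => J a i j) (hy : Measurable y) :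
    MeasurableSet {a | Term C θ (gM (J a) (y a))} :=
  ms_of_isClosed (isClosed_term (ρ := fun p : Mat n × Vec n => gM p.1 p.2) continuous_gM
    (fun _ x => gM_pos _ _ x) C θ) hJ hy

theorem measurable_mean {α : Type*} [MeasurableSpace α] {J : α → Mat n} {y : α → Vec n}
    (hJ : ∀ i j, Measurable fun a => J a i j) (hy : Measurable y) :
    Measurable fun a => mean (gM (J a) (y a)) :=
  measurable_pi_lambda _ fun _ => Finset.measurable_fun_sum _ fun x _ =>
    (measurable_gM hJ hy x).mul_const _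

/-- the canonical set of good terminal fields for the couplings `J` and the centre `c` -/
def Bc (C θ : ℝ) (J : Mat n) (c : Vec n → Vec n) : Set (Vec n) :=
  {y | nv (mean (gM J y) - c y) ≤ C ∧ Term C θ (gM J y)}

theorem ms_Bc {α : Type*} [MeasurableSpace α] (C θ : ℝ) {J : α → Mat n} {y : α → Vec n}
    {c : α → Vec n → Vec n} (hJ : ∀ i j, Measurable fun a => J a i j) (hy : Measurable y)
    (hc : Measurable fun a => c a (y a)) : MeasurableSet {a | y a ∈ Bc C θ (J a) (c a)} := by
  have h := (measurable_mean hJ hy).sub hc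
  have h1 : Measurable fun a => nv (mean (gM (J a) (y a)) - c a (y a)) := by
    have hc : Continuous (nv : Vec n → ℝ) := by unfold nv; fun_prop
    exact hc.measurable.comp h
  exact (measurableSet_le h1 measurable_const).inter (ms_term C θ hJ hy)

theorem LibOut.sub_Bc {C θ b s : ℝ} {J S0 : Mat n} {G B : Set (Vec n)} {cen : Vec n → Vec n}
    (h : LibOut C θ b s J S0 G cen B) : B ⊆ Bc C θ ((b - s) • J) cen :=
  fun y hy => ⟨h.near y hy, h.term y hy⟩

/-! ### the full GOE matrix -/

/-- index set of the Gaussian coordinates -/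
abbrev GI (n : ℕ) := Pairs n ⊕ Fin n

/-- sample space of the full matrix -/
abbrev WS (n : ℕ) := (Pairs n → ℝ) × Vec n

/-- the matrices attached to the coordinates -/
noncomputable def gA (n : ℕ) : GI n → Mat n
  | Sum.inl p => skM (Pi.single p 1)
  | Sum.inr c => Matrix.diagonal fun a => √(2 / (n : ℝ)) * (Pi.single c 1 : Vec n) a

/-- splitting of the coordinates -/
def spl (ω : GI n → ℝ) : WS n := (fun p => ω (Sum.inl p), fun c => ω (Sum.inr c))

instance : IsProbabilityMeasure (PW n) := by unfold PW disorder; infer_instance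

theorem mp_spl : MeasurePreserving (spl : (GI n → ℝ) → WS n) (gpi (GI n)) (PW n) :=
  measurePreserving_sumPiEquivProdPi (X := fun _ : GI n => ℝ) fun _ => gaussianReal 0 1

theorem goe_spl (ω : GI n → ℝ) : goe (spl ω) = goeM (gA n) ω := by
  ext a b
  rw [Law.goeM_apply, Fintype.sum_sum_type]
  unfold goe
  rw [Matrix.add_apply]
  congr 1
  · unfold spl gA skM gsym
    simp only
    split_ifs with h1 h2
    · simp [Pi.single_apply, ← Finset.sum_div, mul_div_assoc']
    · simp [Pi.single_apply, ← Finset.sum_div, mul_div_assoc']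
    · simp
  · unfold spl gA
    simp only [Matrix.diagonal_apply]
    split_ifs with h1
    · simp [Pi.single_apply, mul_comm]
    · simp

theorem goeFam_gA : GoeFam (gA n) := by
  refine ⟨fun i a b => ?_, fun a b c d => ?_⟩
  · rcases i with p | c
    · exact skM_symm _ a b
    · unfold gA
      simp only [Matrix.diagonal_apply]
      by_cases h : a = b
      · subst h; rfl
      · rw [if_neg h, if_neg (Ne.symm h)]
  · have hn : (0 : ℝ) < n := by exact_mod_cast Fin.pos a
    have e1 : √(n : ℝ) * √(n : ℝ) = n := Real.mul_self_sqrt hn.le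
    have e2 : √(2 / (n : ℝ)) * √(2 / (n : ℝ)) = 2 / n := Real.mul_self_sqrt (by positivity)
    have k1 : ∀ p q : Pairs n, ∑ r : Pairs n, (Pi.single r 1 : Pairs n → ℝ) p / √(n : ℝ) *
        ((Pi.single r 1 : Pairs n → ℝ) q / √(n : ℝ)) = (if p = q then 1 else 0) / n := by
      intro p q
      simp only [div_mul_div_comm, e1, ← Finset.sum_div]
      congr 1
      simp [Pi.single_apply]
    have k2 : ∀ p q : Fin n, ∑ r : Fin n, √(2 / (n : ℝ)) * (Pi.single r 1 : Vec n) p *
        (√(2 / (n : ℝ)) * (Pi.single r 1 : Vec n) q) = (if p = q then 2 else 0) / n := by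
      intro p q
      simp only [mul_mul_mul_comm, e2, ← Finset.mul_sum]
      by_cases h : p = q
      · subst h
        simp [Pi.single_apply]
      · simp [Pi.single_apply, h]
    rw [Fintype.sum_sum_type]
    unfold gA skM gsym
    simp only [Matrix.diagonal_apply]
    have z : ∀ {p q : Prop} [Decidable p] [Decidable q], ¬ p → ¬ q →
        (0 : ℝ) = ((if p then 1 else 0) + if q then 1 else 0) / n := by
      intro p q _ _ hp hq
      rw [if_neg hp, if_neg hq, add_zero, zero_div]
    by_cases h1 : a = b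
    · subst h1
      simp only [lt_irrefl, dite_false, zero_div, zero_mul, Finset.sum_const_zero, zero_add,
        if_true]
      by_cases h2 : c = d
      · subst h2
        simp only [if_true, k2, and_self]
        split_ifs <;> norm_num
      · simp only [if_neg h2, mul_zero, Finset.sum_const_zero]
        exact z (fun h => h2 (h.1.symm.trans h.2)) fun h => h2 (h.2.symm.trans h.1)
    simp only [if_neg h1, zero_mul, Finset.sum_const_zero, add_zero]
    by_cases h2 : c = d
    · subst h2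
      simp only [lt_irrefl, dite_false, zero_div, mul_zero, Finset.sum_const_zero]
      exact z (fun h => h1 (h.1.trans h.2.symm)) fun h => h1 (h.1.trans h.2.symm)
    rcases lt_or_gt_of_ne h1 with h1 | h1 <;> rcases lt_or_gt_of_ne h2 with h2 | h2
    all_goals
      simp only [h1, h2, h1.not_gt, h2.not_gt, dite_true, dite_false, k1, Subtype.mk.injEq,
        Prod.mk.injEq]
      congr 1
      split_ifs <;> first | omega | norm_num

theorem goe_symm (w : WS n) : (goe w)ᵀ = goe w := by
  unfold goe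
  rw [Matrix.transpose_add, Matrix.diagonal_transpose]
  congr 1
  ext a b
  exact skM_symm _ b a

theorem continuous_goe : Continuous (goe : WS n → Mat n) := by
  have e : (goe : WS n → Mat n) = fun w => goeM (gA n) (Sum.elim w.1 w.2) := by
    funext w
    rw [← goe_spl]
    rfl
  rw [e]
  refine (Law.continuous_goeM _).comp (continuous_pi fun i => ?_)
  rcases i with p | c
  · exact (continuous_apply p).comp continuous_fst
  · exact (continuous_apply c).comp continuous_snd

theorem mm_goe : ∀ i j, Measurable fun w : WS n => goe w i j := fun i j =>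
  ((continuous_apply_apply i j).comp continuous_goe).measurable

theorem goe_lin (b c : ℝ) (w w' : WS n) : goe (b • w + c • w') = b • goe w + c • goe w' := by
  ext i j
  unfold goe
  simp only [Matrix.add_apply, Matrix.smul_apply, Matrix.diagonal_apply]
  unfold skM gsym
  simp only [Prod.fst_add, Prod.smul_fst, Prod.snd_add, Prod.smul_snd, Pi.add_apply, Pi.smul_apply,
    smul_eq_mul]
  split_ifs <;> ring

/-- the diagonal of the couplings does not matter -/
theorem gM_add_diagonal (M : Mat n) (D y : Vec n) : gM (M + Matrix.diagonal D) y = gM M y := by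
  have h : ∀ x : Cfg n, Real.exp (qf (M + Matrix.diagonal D) (sv x) / 2 + ip y (sv x))
      = Real.exp ((∑ i, D i) / 2) * Real.exp (qf M (sv x) / 2 + ip y (sv x)) := by
    intro x
    rw [← Real.exp_add]
    congr 1
    have e : qf (M + Matrix.diagonal D) (sv x) = qf M (sv x) + ∑ i, D i := by
      unfold qf
      rw [Matrix.add_mulVec, ip_add_right]
      congr 1
      unfold ip
      refine Finset.sum_congr rfl fun i _ => ?_
      rw [Matrix.mulVec_diagonal]
      unfold sv sp
      split_ifs <;> ring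
    rw [e]
    ring
  funext x
  unfold gM
  simp only [h, ← Finset.mul_sum]
  exact mul_div_mul_left _ _ (Real.exp_pos _).ne'

theorem gM_goe (w : WS n) (y : Vec n) : gM (goe w) y = gM (skM w.1) y := gM_add_diagonal _ _ _

theorem gM_smul_goe (b : ℝ) (w : WS n) (M : Mat n) (y : Vec n) :
    gM (b • goe w + M) y = gM (b • skM w.1 + M) y := by
  unfold goe
  rw [smul_add, ← Matrix.diagonal_smul, add_right_comm, gM_add_diagonal]

theorem lint_goe {G : Mat n → ℝ≥0∞} (hG : Measurable fun A : MF n => G (Matrix.of A)) :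
    ∫⁻ w, G (goe w) ∂PW n = ∫⁻ ω, G (goeM (gA n) ω) ∂gpi (GI n) := by
  have h := mp_spl.lintegral_comp (f := fun w : WS n => G (goe w)) (hG.comp (meas_MF mm_goe))
  simp only [goe_spl] at h
  exact h.symm

theorem meas_toM {G : Mat n → ℝ≥0∞} (hG : Measurable fun A : MF n => G (Matrix.of A)) :
    Measurable fun v => G (Law.toM v) :=
  hG.comp (meas_MF (J := Law.toM) fun i j => measurable_pi_apply (i, j))

/-- the law of the full matrix is the law of any GOE family -/
theorem lint_goe_fam {ι : Type} [Fintype ι] {A : ι → Mat n} (hA : GoeFam A) {G : Mat n → ℝ≥0∞}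
    (hG : Measurable fun A : MF n => G (Matrix.of A)) :
    ∫⁻ w, G (goe w) ∂PW n = ∫⁻ ω, G (goeM A ω) ∂gpi ι := by
  rw [lint_goe hG]
  exact Law.lintegral_goe_eq goeFam_gA hA (meas_toM hG)

/-- orthogonal invariance -/
theorem lint_goe_conj (O : OG n) {G : Mat n → ℝ≥0∞}
    (hG : Measurable fun A : MF n => G (Matrix.of A)) :
    ∫⁻ w, G (Jr O (goe w)) ∂PW n = ∫⁻ w, G (goe w) ∂PW n := by
  rw [lint_goe hG, lint_goe (G := fun M => G (Jr O M))
    (hG.comp (meas_MF (mm_Jr measurable_const mm_of)))]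
  have h := Law.lintegral_goe_conj goeFam_gA (O := O.1ᵀ)
    (by rw [Matrix.transpose_transpose]; exact OG.mul_transpose O) (meas_toM hG)
  rw [Matrix.transpose_transpose] at h
  exact h

/-- events of the full matrix, for arbitrary sets -/
theorem PW_le (S : Set (Mat n)) :
    PW n {w | goe w ∈ S} ≤ gpi (GI n) {ω | goeM (gA n) ω ∈ S} := by
  have he : MeasurableEmbedding (spl : (GI n → ℝ) → WS n) :=
    (MeasurableEquiv.sumPiEquivProdPi fun _ : GI n => ℝ).measurableEmbedding
  rw [← mp_spl.map_eq, he.map_apply]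
  exact measure_mono fun ω hω => by simpa only [Set.mem_preimage, Set.mem_ofPred_eq, goe_spl] using hω

/-- rigidity of the full matrix -/
theorem rigid_PW : ∃ C : ℝ, 0 < C ∧ ∀ (w : ℝ) (n : ℕ), 1 ≤ w → w * (n : ℝ) ^ (-(2 / 3 : ℝ)) ≤ 1 →
    0 < n → PW n {p | ¬ RigidM w (goe p)} ≤ ENNReal.ofReal (C * w ^ (-(1 / 4 : ℝ))) := by
  obtain ⟨C, hC, h⟩ := rigid_stmt
  exact ⟨C, hC, fun w n h1 h2 h3 =>
    (PW_le {J | ¬ RigidM w J}).trans (h w n h1 h2 h3 _ _ goeFam_gA)⟩

/-! ### rotation of a pair -/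

/-- the rotated pair -/
def rotW (b σ : ℝ) (p : WS n × WS n) : WS n × WS n := (b • p.1 + (-σ) • p.2, σ • p.1 + b • p.2)

theorem mp_rotW {b σ : ℝ} (h : b ^ 2 + σ ^ 2 = 1) :
    MeasurePreserving (rotW b σ : WS n × WS n → WS n × WS n) ((PW n).prod (PW n))
      ((PW n).prod (PW n)) := by
  let T : (GI n ⊕ GI n → ℝ) →ₗ[ℝ] (GI n ⊕ GI n → ℝ) :=
    { toFun := fun ω => Sum.elim (fun i => b * ω (Sum.inl i) + (-σ) * ω (Sum.inr i))
        fun i => σ * ω (Sum.inl i) + b * ω (Sum.inr i)
      map_add' := fun ω ω' => by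
        funext i
        rcases i with i | i <;> simp only [Sum.elim_inl, Sum.elim_inr, Pi.add_apply] <;> ring
      map_smul' := fun c ω => by
        funext i
        rcases i with i | i <;> simp only [Sum.elim_inl, Sum.elim_inr, Pi.smul_apply, smul_eq_mul,
          RingHom.id_apply] <;> ring }
  have hT : MeasurePreserving T (gpi _) (gpi _) := by
    refine mp_of_isometry T fun ω => ?_
    rw [Fintype.sum_sum_type (fun i => T ω i ^ 2), Fintype.sum_sum_type (fun i => ω i ^ 2),
      ← Finset.sum_add_distrib, ← Finset.sum_add_distrib]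
    refine Finset.sum_congr rfl fun i _ => ?_
    change (b * ω (Sum.inl i) + (-σ) * ω (Sum.inr i)) ^ 2
      + (σ * ω (Sum.inl i) + b * ω (Sum.inr i)) ^ 2 = _
    linear_combination (ω (Sum.inl i) ^ 2 + ω (Sum.inr i) ^ 2) * h
  have h1 : MeasurePreserving (fun ω : GI n ⊕ GI n → ℝ =>
      ((fun i => ω (Sum.inl i), fun i => ω (Sum.inr i)) : (GI n → ℝ) × (GI n → ℝ)))
      (gpi _) ((gpi _).prod (gpi _)) :=
    measurePreserving_sumPiEquivProdPi (X := fun _ : GI n ⊕ GI n => ℝ) fun _ => gaussianReal 0 1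
  have h2 := (mp_spl.prod mp_spl).comp h1
  have hm : Measurable (rotW b σ : WS n × WS n → WS n × WS n) := by unfold rotW; fun_prop
  refine ⟨hm, ?_⟩
  have h3 := (h2.comp hT).map_eq
  rw [← h2.map_eq, Measure.map_map hm h2.measurable, h2.map_eq, ← h3]
  rfl

theorem goe_rotW1 (b σ : ℝ) (p : WS n × WS n) :
    goe (rotW b σ p).1 = b • goe p.1 - σ • goe p.2 := by
  unfold rotW
  rw [goe_lin, neg_smul, sub_eq_add_neg]

theorem goe_rotW2 (b σ : ℝ) (p : WS n × WS n) :
    goe (rotW b σ p).2 = σ • goe p.1 + b • goe p.2 := goe_lin _ _ _ _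

/-- the law of a rotated pair of full matrices -/
theorem pair_rot {b σ : ℝ} (h : b ^ 2 + σ ^ 2 = 1) {A : Set (Mat n × Mat n)} (hA : MS2 A) :
    ((PW n).prod (PW n)) {p | (b • goe p.1 - σ • goe p.2, σ • goe p.1 + b • goe p.2) ∈ A}
      = ((PW n).prod (PW n)) {p | (goe p.1, goe p.2) ∈ A} := by
  have hm : MeasurableSet {p : WS n × WS n | (goe p.1, goe p.2) ∈ A} :=
    hA.pre (fun i j => (mm_goe i j).comp measurable_fst)
      fun i j => (mm_goe i j).comp measurable_snd
  rw [← (mp_rotW h).measure_preimage hm.nullMeasurableSet]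
  congr 1
  ext p
  simp only [Set.mem_ofPred_eq, Set.mem_preimage, goe_rotW1, goe_rotW2]


/-! ### from the full matrix to a fixed spectrum and a Haar distributed frame -/

theorem Jr_mul (U O : OG n) (M : Mat n) : Jr (U * O) M = Jr O (Jr U M) := by
  unfold Jr
  rw [OG.coe_mul, Matrix.transpose_mul]
  simp only [Matrix.mul_assoc]

theorem Jr_inv (U : OG n) (M : Mat n) : Jr U (Jr U⁻¹ M) = M := by
  rw [← Jr_mul, inv_mul_cancel]
  unfold Jr
  rw [OG.coe_one, Matrix.transpose_one, Matrix.one_mul, Matrix.mul_one]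

theorem Jr_symm (U : OG n) {M : Mat n} (h : Mᵀ = M) : (Jr U M)ᵀ = Jr U M := by
  unfold Jr
  rw [Matrix.transpose_mul, Matrix.transpose_mul, Matrix.transpose_transpose, h, Matrix.mul_assoc]

theorem exists_JO {J : Mat n} (hJ : Jᵀ = J) :
    ∃ (U : OG n) (lam : Vec n), IsEig J U.1 lam ∧ J = JO lam U := by
  obtain ⟨U, lam, h1, h2, h3⟩ := Tail.exists_eig J hJ
  refine ⟨OG.mk' Uᵀ (by rw [Matrix.transpose_transpose, h2]), lam, ⟨?_, ?_⟩, ?_⟩
  · exact h1
  · exact h3
  · exact h3

theorem mm_JO (lam : Vec n) : ∀ i j, Measurable fun O : OG n => JO lam O i j :=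
  mm_Jr (J := fun _ => Matrix.diagonal lam) measurable_id fun _ _ => measurable_const

theorem JO_mul (lam : Vec n) (U O : OG n) : JO lam (U * O) = Jr O (JO lam U) :=
  Jr_mul U O (Matrix.diagonal lam)

theorem PW_conj (O : OG n) {S : Set (Mat n)} (hS : MS S) :
    PW n {w | Jr O (goe w) ∈ S} = PW n {w | goe w ∈ S} := by
  have h1 := lint_goe_conj O (G := S.indicator 1) (measurable_one.indicator hS)
  rw [← lintegral_indicator_one (hS.pre (mm_Jr (O := fun _ => O) measurable_const mm_goe)),
    ← lintegral_indicator_one (hS.pre mm_goe)]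
  exact h1

/-- averaging a function of the full matrix over the frame -/
theorem lint_single_le {φ : Mat n → ℝ≥0∞} (hφ : Measurable fun A : MF n => φ (Matrix.of A))
    (h0 : ∀ J, φ J ≤ 1) (T : Set (Vec n)) {δ : ℝ≥0∞}
    (h : ∀ lam ∈ T, ∫⁻ O, φ (JO lam O) ∂haar n ≤ δ) :
    ∫⁻ w, φ (goe w) ∂PW n ≤ PW n {w | ¬ ∀ O lam, IsEig (goe w) O lam → lam ∈ T} + δ := by
  have hφ2 : Measurable fun q : WS n × OG n => φ (Jr q.2 (goe q.1)) :=
    hφ.comp (meas_MF (mm_Jr measurable_snd fun i j => (mm_goe i j).comp measurable_fst))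
  have e1 : ∫⁻ w, φ (goe w) ∂PW n = ∫⁻ w, ∫⁻ O, φ (Jr O (goe w)) ∂haar n ∂PW n := by
    rw [lintegral_lintegral_swap hφ2.aemeasurable]
    simp only [lint_goe_conj _ hφ, lintegral_const, measure_univ, mul_one]
  rw [e1]
  refine lint_le_add _ (fun w => ?_) fun w hw => ?_
  · calc _ ≤ ∫⁻ _O, 1 ∂haar n := lintegral_mono fun O => h0 _
      _ = 1 := by simp
  obtain ⟨U, lam, h3, h4⟩ := exists_JO (goe_symm w)
  have hφ3 : Measurable fun O : OG n => φ (JO lam O) := hφ.comp (meas_MF (mm_JO lam))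
  have h5 := h lam (not_not.1 hw _ _ h3)
  rw [← invOn_haar.lint_left (Subgroup.mem_top U) hφ3] at h5
  simp only [JO_mul, ← h4] at h5
  exact h5

/-- one matrix -/
theorem single_le {S : Set (Mat n)} (hS : MS S) (T : Set (Vec n)) {δ : ℝ≥0∞}
    (h : ∀ lam ∈ T, haar n {O | JO lam O ∈ S} ≤ δ) :
    PW n {w | goe w ∈ S} ≤ PW n {w | ¬ ∀ O lam, IsEig (goe w) O lam → lam ∈ T} + δ := by
  have h1 := lint_single_le (φ := S.indicator 1) (measurable_one.indicator hS)
    (fun J => Set.indicator_le_self' (fun _ _ => zero_le_one) J) T (δ := δ) fun lam hl => by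
      have h2 := h lam hl
      rw [← lintegral_indicator_one (hS.pre (mm_JO lam))] at h2
      exact h2
  rw [← lintegral_indicator_one (hS.pre mm_goe)]
  exact h1

theorem slice_le {S : Set (Mat n × Mat n)} (hS : MS2 S) (lam : Vec n) (Gd : Set (Mat n))
    {δ : ℝ≥0∞} (h2 : ∀ Jp ∈ Gd, Jpᵀ = Jp → haar n {O | (JO lam O, Jr O Jp) ∈ S} ≤ δ) :
    ∫⁻ O, PW n {w | (JO lam O, goe w) ∈ S} ∂haar n ≤ PW n {w | goe w ∉ Gd} + δ := by
  have a1 : ∀ i j, Measurable fun q : WS n × OG n => JO lam q.2 i j :=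
    fun i j => (mm_JO lam i j).comp measurable_snd
  have a2 : ∀ i j, Measurable fun q : WS n × OG n => goe q.1 i j :=
    fun i j => (mm_goe i j).comp measurable_fst
  have a3 : ∀ i j, Measurable fun q : WS n × OG n => Jr q.2 (goe q.1) i j :=
    mm_Jr measurable_snd a2
  have hm2 := hS.pre a1 a3
  have h3 := prod_le_add (μ := PW n) (ν := haar n) hm2 {w | goe w ∉ Gd} (δ := δ) fun w' hw' =>
    h2 (goe w') (not_not.1 hw') (goe_symm w')
  rw [Measure.prod_apply_symm hm2] at h3
  refine le_trans (le_of_eq (lintegral_congr fun O => ?_)) h3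
  have hS' : MS {W | (JO lam O, W) ∈ S} :=
    hS.pre (J := fun _ => JO lam O) (fun _ _ => measurable_const) mm_of
  exact (PW_conj O hS').symm

/-- a pair of independent matrices -/
theorem pair_le {S : Set (Mat n × Mat n)} (hS : MS2 S) (T : Set (Vec n))
    (Gd : Vec n → Set (Mat n)) {δ₁ δ₂ : ℝ≥0∞} (h1 : ∀ lam ∈ T, PW n {w | goe w ∉ Gd lam} ≤ δ₁)
    (h2 : ∀ lam ∈ T, ∀ Jp ∈ Gd lam, Jpᵀ = Jp → haar n {O | (JO lam O, Jr O Jp) ∈ S} ≤ δ₂) :
    ((PW n).prod (PW n)) {p | (goe p.1, goe p.2) ∈ S}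
      ≤ PW n {w | ¬ ∀ O lam, IsEig (goe w) O lam → lam ∈ T} + (δ₁ + δ₂) := by
  have hφm : Measurable fun A : MF n => PW n {w | ((Matrix.of A : Mat n), goe w) ∈ S} :=
    measurable_measure_prodMk_left (s := {q : MF n × WS n | (Matrix.of q.1, goe q.2) ∈ S})
      (hS.pre (fun i j => (mm_of i j).comp measurable_fst)
        fun i j => (mm_goe i j).comp measurable_snd)
  have hm : MeasurableSet {p : WS n × WS n | (goe p.1, goe p.2) ∈ S} :=
    hS.pre (fun i j => (mm_goe i j).comp measurable_fst)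
      fun i j => (mm_goe i j).comp measurable_snd
  rw [Measure.prod_apply hm]
  exact lint_single_le (φ := fun J => PW n {w | (J, goe w) ∈ S}) hφm (fun _ => prob_le_one) T
    fun lam hl => (slice_le hS lam (Gd lam) (h2 lam hl)).trans (add_le_add (h1 lam hl) le_rfl)

theorem disorder_eq {S : Set (Pairs n → ℝ)} :
    ((PW n).prod (PW n)) {p | p.1.1 ∈ S} = disorder n S := by
  have e : {p : WS n × WS n | p.1.1 ∈ S} = (S ×ˢ Set.univ) ×ˢ Set.univ := by
    ext p
    simp
  have : IsProbabilityMeasure (disorder n) := by unfold disorder; infer_instance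
  rw [e, Measure.prod_prod, measure_univ, mul_one]
  unfold PW
  rw [Measure.prod_prod, measure_univ, mul_one]

/-- **master reduction**, finite `n` -/
theorem master {b σ : ℝ} (hbσ : b ^ 2 + σ ^ 2 = 1) {Pr : (Cfg n → ℝ) → Prop}
    (hPr : MS {J | Pr (gM J 0)}) {A : Set (Mat n × Mat n)} (hA : MS2 A) (T : Set (Vec n))
    (Gd : Vec n → Set (Mat n)) {δ₁ δ₂ : ℝ≥0∞} (h1 : ∀ lam ∈ T, PW n {w | goe w ∉ Gd lam} ≤ δ₁)
    (h2 : ∀ lam ∈ T, ∀ Jp ∈ Gd lam, Jpᵀ = Jp → haar n {O |
      (b • JO lam O - σ • Jr O Jp, σ • JO lam O + b • Jr O Jp) ∉ A ∧ ¬ Pr (gM (JO lam O) 0)} ≤ δ₂) :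
    disorder n {g | ¬ Pr (gM (skM g) 0)} ≤ ((PW n).prod (PW n)) {p | (goe p.1, goe p.2) ∈ A}
      + (PW n {w | ¬ ∀ O lam, IsEig (goe w) O lam → lam ∈ T} + (δ₁ + δ₂)) := by
  have hA' : MS2 {p : Mat n × Mat n | (b • p.1 - σ • p.2, σ • p.1 + b • p.2) ∈ A} :=
    hA.pre (mm_lin' b σ mm_of1 mm_of2) (mm_lin σ b mm_of1 mm_of2)
  have h3 := pair_le (hA'.compl.inter hPr.compl.fst) T Gd h1 h2
  rw [← disorder_eq, ← pair_rot hbσ hA]
  refine le_trans (measure_mono fun p hp => ?_) ((measure_union_le _ _).trans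
    (add_le_add le_rfl h3))
  by_cases h4 : (b • goe p.1 - σ • goe p.2, σ • goe p.1 + b • goe p.2) ∈ A
  · exact Or.inl h4
  · refine Or.inr ⟨h4, ?_⟩
    have h5 : ¬ Pr (gM (skM p.1.1) 0) := hp
    rw [← gM_goe] at h5
    exact h5

theorem le_ofReal_of_real {α : Type*} [MeasurableSpace α] {μ : Measure α} [IsFiniteMeasure μ]
    {S : Set α} {δ : ℝ} (h : μ.real S ≤ δ) : μ S ≤ ENNReal.ofReal δ := by
  rw [← ofReal_measureReal]
  exact ENNReal.ofReal_le_ofReal h

/-- the hypothesis of the reduction at a fixed size, with tolerance `δ` -/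
def HaarAt (n : ℕ) (w δ : ℝ) (Pr : (Cfg n → ℝ) → Prop) : Prop :=
  ∃ (b σ : ℝ) (A : Set (Mat n × Mat n)), b ^ 2 + σ ^ 2 = 1 ∧ MS2 A ∧
    ((PW n).prod (PW n)).real {p | (goe p.1, goe p.2) ∈ A} ≤ δ ∧
    ∀ lam, Rigid w lam → ∃ Gd : Set (Mat n), (PW n).real {p | goe p ∉ Gd} ≤ δ ∧
      ∀ Jp ∈ Gd, Jpᵀ = Jp → (haar n).real {O |
        (b • JO lam O - σ • Jr O Jp, σ • JO lam O + b • Jr O Jp) ∉ A ∧
          ¬ Pr (gM (JO lam O) 0)} ≤ δ

theorem HaarAt.mono {w δ : ℝ} {Pr Pr' : (Cfg n → ℝ) → Prop} (h : HaarAt n w δ Pr)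
    (h' : ∀ μ, Pr μ → Pr' μ) : HaarAt n w δ Pr' := by
  obtain ⟨b, σ, A, h1, h2, h3, h4⟩ := h
  refine ⟨b, σ, A, h1, h2, h3, fun lam hl => ?_⟩
  obtain ⟨Gd, h5, h6⟩ := h4 lam hl
  refine ⟨Gd, h5, fun Jp hJ hs => le_trans (measureReal_mono fun O hO => ?_) (h6 Jp hJ hs)⟩
  exact ⟨hO.1, fun h7 => hO.2 (h' _ h7)⟩

theorem HaarAt.le {w δ : ℝ} {Pr : (Cfg n → ℝ) → Prop} (h : HaarAt n w δ Pr)
    (hPr : MS {J | Pr (gM J 0)}) : disorder n {g | ¬ Pr (gM (skM g) 0)}
      ≤ PW n {p | ¬ RigidM w (goe p)} + 3 * ENNReal.ofReal δ := by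
  obtain ⟨b, σ, A, h1, h2, h3, h4⟩ := h
  choose! Gd h5 h6 using h4
  refine (master h1 hPr h2 {lam | Rigid w lam} Gd (fun lam hl => le_ofReal_of_real (h5 lam hl))
    (fun lam hl Jp hJ hs => le_ofReal_of_real (h6 lam hl Jp hJ hs))).trans ?_
  refine (add_le_add (le_ofReal_of_real h3) le_rfl).trans (le_of_eq ?_)
  change _ + (PW n {p | ¬ RigidM w (goe p)} + _) = _
  ring

theorem rigid_tendsto {w : ℕ → ℝ} (hw : Tendsto w atTop atTop)
    (hw' : ∀ᶠ n : ℕ in atTop, w n * (n : ℝ) ^ (-(2 / 3 : ℝ)) ≤ 1) :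
    Tendsto (fun n => PW n {p | ¬ RigidM (w n) (goe p)}) atTop (𝓝 0) := by
  obtain ⟨C, _, h⟩ := rigid_PW
  have h1 : Tendsto (fun n => ENNReal.ofReal (C * w n ^ (-(1 / 4 : ℝ)))) atTop (𝓝 0) := by
    have h2 := ((tendsto_rpow_neg_atTop (y := 1 / 4) (by norm_num)).comp hw).const_mul C
    rw [mul_zero] at h2
    simpa using ENNReal.tendsto_ofReal h2
  refine tendsto_of_tendsto_of_tendsto_of_le_of_le' tendsto_const_nhds h1
    (Eventually.of_forall fun _ => bot_le) ?_
  filter_upwards [hw.eventually_ge_atTop 1, hw', eventually_gt_atTop 0] with n a b c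
  exact h _ _ a b c

/-- **master reduction** -/
theorem whp_of {Pr : ∀ n, (Cfg n → ℝ) → Prop} (hPr : ∀ n, MS {J : Mat n | Pr n (gM J 0)})
    {w : ℕ → ℝ} (hw : Tendsto w atTop atTop)
    (hw' : ∀ᶠ n : ℕ in atTop, w n * (n : ℝ) ^ (-(2 / 3 : ℝ)) ≤ 1)
    (h : ∀ δ > 0, ∀ᶠ n : ℕ in atTop, HaarAt n (w n) δ (Pr n)) :
    WHP fun n => {g | Pr n (gM (skM g) 0)} := by
  unfold WHP
  rw [ENNReal.tendsto_nhds_zero]
  intro ε hε
  obtain ⟨r, hr0, hr⟩ : ∃ r : ℝ, 0 < r ∧ 4 * ENNReal.ofReal r ≤ ε := by
    rcases eq_or_ne ε ∞ with rfl | he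
    · exact ⟨1, one_pos, le_top⟩
    · refine ⟨ε.toReal / 4, by have := ENNReal.toReal_pos hε.ne' he; positivity, le_of_eq ?_⟩
      rw [← ENNReal.ofReal_ofNat, ← ENNReal.ofReal_mul (by norm_num), mul_div_cancel₀ _
        (by norm_num), ENNReal.ofReal_toReal he]
  filter_upwards [h r hr0, (ENNReal.tendsto_nhds_zero.1 (rigid_tendsto hw hw')) _
    (ENNReal.ofReal_pos.2 hr0)] with n h1 h2
  refine ((h1.le (hPr n)).trans (add_le_add h2 le_rfl)).trans (le_trans (le_of_eq ?_) hr)
  ring

end Vale.Agent.N150.Rd
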