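import Mathlib
import Vale.Agent.N150.EdgeLaw
import Vale.Agent.N150.ECAux
import Vale.Agent.N150.HcMat

/-!
# P150 at `β = 1`: the self-consistent equation of the GOE resolvent on the real axis

With high probability, for all real `z ∈ [2 + 2 δ, 21]`, `w = tr (z - J)⁻¹ / n` satisfies
`|z w - 1 - w ^ 2| ≤ C / √n`, and the same for the derivative in `z`.
-/

set_option linter.all false

open MeasureTheory ProbabilityTheory Filter Topology
open scoped Matrix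

namespace Vale.Agent.N150.Res

open Vale.Agent.P150 Vale.Agent.P150.F Vale.Agent.N150.Edge Vale.Agent.N150.EC
open Vale.Agent.N150.HC

variable {n : ℕ}

/-! ### spectral averages -/

/-- the spectrum lies in `[-3, 2 + δ]` -/
def Bd (δ : ℝ) (lam : Fin n → ℝ) : Prop := ∀ a, -3 ≤ lam a ∧ lam a ≤ 2 + δ

/-- Stieltjes transform -/
noncomputable def m1 (lam : Fin n → ℝ) (z : ℝ) : ℝ := (∑ a, (z - lam a)⁻¹) / n

/-- minus its derivative -/
noncomputable def m2 (lam : Fin n → ℝ) (z : ℝ) : ℝ := (∑ a, (z - lam a)⁻¹ ^ 2) / n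

theorem avg_le (hn : 0 < n) {f : Fin n → ℝ} {c : ℝ} (h : ∀ a, f a ≤ c) : (∑ a, f a) / n ≤ c := by
  have hn' : (0 : ℝ) < n := by exact_mod_cast hn
  rw [div_le_iff₀ hn']
  have := Finset.sum_le_card_nsmul Finset.univ f c fun a _ => h a
  simpa [mul_comm] using this

theorem le_avg (hn : 0 < n) {f : Fin n → ℝ} {c : ℝ} (h : ∀ a, c ≤ f a) : c ≤ (∑ a, f a) / n := by
  have := avg_le hn (f := fun a => -f a) (c := -c) fun a => neg_le_neg (h a)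
  rw [Finset.sum_neg_distrib, neg_div] at this
  linarith

section spec

variable {δ z z' : ℝ} {lam : Fin n → ℝ}

theorem Bd.inv_le (h : Bd δ lam) (hδ : 0 < δ) (hz : 2 + 2 * δ ≤ z) (a : Fin n) :
    (z - lam a)⁻¹ ≤ δ⁻¹ := inv_anti₀ hδ (by linarith [(h a).2])

theorem Bd.pos (h : Bd δ lam) (hδ : 0 < δ) (hz : 2 + 2 * δ ≤ z) (a : Fin n) : 0 < z - lam a := by
  linarith [(h a).2]

theorem Bd.le_inv (h : Bd δ lam) (hδ : 0 < δ) (hz : 2 + 2 * δ ≤ z) (hz' : z ≤ 21) (a : Fin n) :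
    (24 : ℝ)⁻¹ ≤ (z - lam a)⁻¹ := inv_anti₀ (h.pos hδ hz a) (by linarith [(h a).1])

theorem Bd.m1_le (h : Bd δ lam) (hn : 0 < n) (hδ : 0 < δ) (hz : 2 + 2 * δ ≤ z) :
    m1 lam z ≤ δ⁻¹ := avg_le hn (h.inv_le hδ hz)

theorem Bd.le_m1 (h : Bd δ lam) (hn : 0 < n) (hδ : 0 < δ) (hz : 2 + 2 * δ ≤ z) (hz' : z ≤ 21) :
    (24 : ℝ)⁻¹ ≤ m1 lam z := le_avg hn (h.le_inv hδ hz hz')

theorem Bd.m2_le (h : Bd δ lam) (hn : 0 < n) (hδ : 0 < δ) (hz : 2 + 2 * δ ≤ z) :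
    m2 lam z ≤ δ⁻¹ ^ 2 :=
  avg_le hn fun a => pow_le_pow_left₀ (inv_nonneg.2 (h.pos hδ hz a).le) (h.inv_le hδ hz a) 2

theorem Bd.le_m2 (h : Bd δ lam) (hn : 0 < n) (hδ : 0 < δ) (hz : 2 + 2 * δ ≤ z) (hz' : z ≤ 21) :
    (24 : ℝ)⁻¹ ^ 2 ≤ m2 lam z :=
  le_avg hn fun a => pow_le_pow_left₀ (by norm_num) (h.le_inv hδ hz hz' a) 2

/-- first order expansion in `z` -/
theorem Bd.m1_sub (h : Bd δ lam) (hn : 0 < n) (hδ : 0 < δ) (hz : 2 + 2 * δ ≤ z) {t : ℝ}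
    (ht : 0 ≤ t) : 0 ≤ m1 lam z - m1 lam (z + t) ∧ m1 lam z - m1 lam (z + t) ≤ t * δ⁻¹ ^ 2 := by
  have e : m1 lam z - m1 lam (z + t) = (∑ a, t * ((z - lam a)⁻¹ * (z + t - lam a)⁻¹)) / n := by
    unfold m1
    rw [← sub_div, ← Finset.sum_sub_distrib]
    congr 1
    refine Finset.sum_congr rfl fun a _ => ?_
    have h1 := h.pos hδ hz a
    have h2 : 0 < z + t - lam a := by linarith
    field_simp
    ring
  have hz2 : 2 + 2 * δ ≤ z + t := by linarith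
  rw [e]
  refine ⟨le_avg hn fun a => ?_, avg_le hn fun a => ?_⟩
  · have h1 := h.pos hδ hz a
    have h2 := h.pos hδ hz2 a
    positivity
  · refine mul_le_mul_of_nonneg_left ?_ ht
    rw [pow_two]
    exact mul_le_mul (h.inv_le hδ hz a) (h.inv_le hδ hz2 a) (inv_nonneg.2 (h.pos hδ hz2 a).le)
      (inv_nonneg.2 hδ.le)

theorem Bd.m2_sub (h : Bd δ lam) (hn : 0 < n) (hδ : 0 < δ) (hz : 2 + 2 * δ ≤ z) {t : ℝ}
    (ht : 0 ≤ t) : 0 ≤ m2 lam z - m2 lam (z + t) ∧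
      m2 lam z - m2 lam (z + t) ≤ t * (2 * δ⁻¹ ^ 3) := by
  have e : m2 lam z - m2 lam (z + t) = (∑ a, t * ((z - lam a)⁻¹ * (z + t - lam a)⁻¹ *
      ((z - lam a)⁻¹ + (z + t - lam a)⁻¹))) / n := by
    unfold m2
    rw [← sub_div, ← Finset.sum_sub_distrib]
    congr 1
    refine Finset.sum_congr rfl fun a _ => ?_
    have h1 := h.pos hδ hz a
    have h2 : 0 < z + t - lam a := by linarith
    field_simp
    ring
  have hz2 : 2 + 2 * δ ≤ z + t := by linarith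
  rw [e]
  refine ⟨le_avg hn fun a => ?_, avg_le hn fun a => mul_le_mul_of_nonneg_left ?_ ht⟩
  · have h1 := h.pos hδ hz a
    have h2 := h.pos hδ hz2 a
    positivity
  · have h1 := h.inv_le hδ hz a
    have h2 := h.inv_le hδ hz2 a
    have p1 := inv_nonneg.2 (h.pos hδ hz a).le
    have p2 := inv_nonneg.2 (h.pos hδ hz2 a).le
    calc (z - lam a)⁻¹ * (z + t - lam a)⁻¹ * ((z - lam a)⁻¹ + (z + t - lam a)⁻¹)
        ≤ δ⁻¹ * δ⁻¹ * (δ⁻¹ + δ⁻¹) := by gcongr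
      _ = 2 * δ⁻¹ ^ 3 := by ring

/-- the defect of the self-consistent equation -/
noncomputable def q1 (lam : Fin n → ℝ) (z : ℝ) : ℝ := z * m1 lam z - 1 - m1 lam z ^ 2

theorem Bd.q1_sub (h : Bd δ lam) (hn : 0 < n) (hδ : 0 < δ) (hz : 2 + 2 * δ ≤ z) {t : ℝ}
    (ht : 0 ≤ t) (hz' : z + t ≤ 21) :
    |q1 lam (z + t) - q1 lam z| ≤ t * (δ⁻¹ + (21 + 2 * δ⁻¹) * δ⁻¹ ^ 2) := by
  obtain ⟨h1, h2⟩ := h.m1_sub hn hδ hz ht
  have hz2 : 2 + 2 * δ ≤ z + t := by linarith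
  have a1 := h.m1_le hn hδ hz
  have a2 := h.m1_le hn hδ hz2
  have b1 := h.le_m1 hn hδ hz (by linarith)
  have b2 := h.le_m1 hn hδ hz2 hz'
  have e : q1 lam (z + t) - q1 lam z = t * m1 lam (z + t) -
      (z - m1 lam z - m1 lam (z + t)) * (m1 lam z - m1 lam (z + t)) := by unfold q1; ring
  have c1 : |z - m1 lam z - m1 lam (z + t)| ≤ 21 + 2 * δ⁻¹ := by
    rw [abs_le]; constructor <;> linarith
  rw [e]
  refine (abs_sub _ _).trans ?_
  rw [abs_mul, abs_mul, abs_of_nonneg ht, abs_of_nonneg h1, abs_of_nonneg (by linarith)]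
  have c2 := mul_le_mul c1 h2 h1 (by positivity)
  have c3 := mul_le_mul_of_nonneg_left a2 ht
  nlinarith

/-- the derivative of the defect -/
noncomputable def d1 (lam : Fin n → ℝ) (z : ℝ) : ℝ := m1 lam z - (z - 2 * m1 lam z) * m2 lam z

theorem Bd.d1_sub (h : Bd δ lam) (hn : 0 < n) (hδ : 0 < δ) (hz : 2 + 2 * δ ≤ z) {t : ℝ}
    (ht : 0 ≤ t) (hz' : z + t ≤ 21) :
    |d1 lam (z + t) - d1 lam z| ≤
      t * (2 * δ⁻¹ ^ 2 + 2 * δ⁻¹ ^ 4 + (21 + 2 * δ⁻¹) * (2 * δ⁻¹ ^ 3)) := by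
  obtain ⟨h1, h2⟩ := h.m1_sub hn hδ hz ht
  obtain ⟨h3, h4⟩ := h.m2_sub hn hδ hz ht
  have hz2 : 2 + 2 * δ ≤ z + t := by linarith
  have a1 := h.m1_le hn hδ hz
  have b1 := h.le_m1 hn hδ hz (by linarith)
  have a2 := h.m2_le hn hδ hz2
  have b2 := h.le_m2 hn hδ hz2 hz'
  have u0 : 0 ≤ m2 lam (z + t) := le_trans (by positivity) b2
  have e : d1 lam (z + t) - d1 lam z = (z - 2 * m1 lam z) * (m2 lam z - m2 lam (z + t)) -
      ((m1 lam z - m1 lam (z + t)) + t * m2 lam (z + t) +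
        2 * ((m1 lam z - m1 lam (z + t)) * m2 lam (z + t))) := by unfold d1; ring
  have c1 : |z - 2 * m1 lam z| ≤ 21 + 2 * δ⁻¹ := by rw [abs_le]; constructor <;> linarith
  have c2 := mul_le_mul c1 h4 h3 (by positivity)
  have c3 := mul_le_mul_of_nonneg_left a2 ht
  have c4 := mul_le_mul h2 a2 u0 (by positivity)
  have c5 := mul_nonneg h1 u0
  have c6 := mul_nonneg ht u0
  rw [e]
  refine (abs_sub _ _).trans ?_
  rw [abs_mul, abs_of_nonneg h3, abs_of_nonneg (a := _ + _ + _) (by linarith)]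
  nlinarith

/-- comparison with the complex defect at height `η` -/
theorem Bd.re_QS (h : Bd δ lam) (hn : 0 < n) (hδ : 0 < δ) (hz : 2 + 2 * δ ≤ z) (hz' : z ≤ 21)
    {M O : Mat n} (hM : IsEig M O lam) {η : ℝ} (hη : 0 < η) (hη1 : η ≤ 1) :
    |q1 lam z| ≤ ‖QS ⟨z, η⟩ M‖ + ((21 + 2 * δ⁻¹) * δ⁻¹ ^ 3 + δ⁻¹ ^ 2 + δ⁻¹ ^ 4) * η ^ 2 := by
  have hn' : (0 : ℝ) < n := by exact_mod_cast hn
  have him : 0 < (⟨z, η⟩ : ℂ).im := hη
  have h2 : ((n : ℂ)⁻¹) = (((n : ℝ)⁻¹ : ℝ) : ℂ) := by push_cast; rfl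
  set k := δ⁻¹ with hk
  have k0 : 0 < k := inv_pos.2 hδ
  have hre : (mS ⟨z, η⟩ M).re = (∑ a, (z - lam a) / ((z - lam a) ^ 2 + η ^ 2)) / n := by
    rw [hM.mS_eq him, h2, Complex.re_ofReal_mul, Complex.re_sum, div_eq_inv_mul]
    congr 1
    refine Finset.sum_congr rfl fun a _ => ?_
    rw [Complex.inv_re, Complex.normSq_apply]
    simp [pow_two]
  have hi : -(mS ⟨z, η⟩ M).im = (∑ a, η / ((z - lam a) ^ 2 + η ^ 2)) / n := by
    rw [hM.mS_eq him, h2, Complex.im_ofReal_mul, Complex.im_sum, div_eq_inv_mul, ← mul_neg,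
      ← Finset.sum_neg_distrib]
    congr 1
    refine Finset.sum_congr rfl fun a _ => ?_
    rw [Complex.inv_im, Complex.normSq_apply]
    simp [pow_two, neg_div]
  set a := (mS ⟨z, η⟩ M).re with ha
  set b := -(mS ⟨z, η⟩ M).im with hb
  have b0 : 0 ≤ b := by rw [hi]; positivity
  have b1 : b ≤ η * k ^ 2 := by
    rw [hi]
    refine avg_le hn fun i => ?_
    have p := h.pos hδ hz i
    have q := h.inv_le hδ hz i
    calc η / ((z - lam i) ^ 2 + η ^ 2) ≤ η / (z - lam i) ^ 2 := by gcongr; nlinarith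
      _ = η * (z - lam i)⁻¹ ^ 2 := by rw [div_eq_mul_inv, inv_pow]
      _ ≤ η * k ^ 2 := by gcongr
  have e1 : m1 lam z - a = (∑ i, η ^ 2 * ((z - lam i)⁻¹ / ((z - lam i) ^ 2 + η ^ 2))) / n := by
    rw [hre]
    unfold m1
    rw [← sub_div, ← Finset.sum_sub_distrib]
    congr 1
    refine Finset.sum_congr rfl fun i _ => ?_
    have p := h.pos hδ hz i
    field_simp
    ring
  have d0 : 0 ≤ m1 lam z - a := by
    rw [e1]
    refine le_avg hn fun i => ?_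
    have p := h.pos hδ hz i
    positivity
  have d1 : m1 lam z - a ≤ η ^ 2 * k ^ 3 := by
    rw [e1]
    refine avg_le hn fun i => mul_le_mul_of_nonneg_left ?_ (sq_nonneg η)
    have p := h.pos hδ hz i
    have q := h.inv_le hδ hz i
    calc (z - lam i)⁻¹ / ((z - lam i) ^ 2 + η ^ 2) ≤ (z - lam i)⁻¹ / (z - lam i) ^ 2 := by
          gcongr; nlinarith
      _ = (z - lam i)⁻¹ ^ 3 := by field_simp
      _ ≤ k ^ 3 := by gcongr
  have a0 : 0 ≤ a := by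
    rw [hre]
    refine le_avg hn fun i => ?_
    have p := h.pos hδ hz i
    positivity
  have a1 := h.m1_le hn hδ hz
  rw [← hk] at a1
  have hQ : (QS ⟨z, η⟩ M).re = z * a + η * b - 1 - a ^ 2 + b ^ 2 := by
    unfold QS
    simp only [Complex.sub_re, Complex.mul_re, Complex.one_re, pow_two, ha, hb]
    ring
  have e2 : q1 lam z = (QS ⟨z, η⟩ M).re + (z - m1 lam z - a) * (m1 lam z - a) - η * b - b ^ 2 := by
    rw [hQ]; unfold q1; ring
  have c1 : |z - m1 lam z - a| ≤ 21 + 2 * k := by rw [abs_le]; constructor <;> linarith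
  have c2 : |(z - m1 lam z - a) * (m1 lam z - a)| ≤ (21 + 2 * k) * (η ^ 2 * k ^ 3) := by
    rw [abs_mul, abs_of_nonneg d0]; exact mul_le_mul c1 d1 d0 (by positivity)
  have c3 : b ^ 2 ≤ (η * k ^ 2) ^ 2 := pow_le_pow_left₀ b0 b1 2
  have c4 : η * b ≤ η * (η * k ^ 2) := mul_le_mul_of_nonneg_left b1 hη.le
  have c5 := Complex.abs_re_le_norm (QS ⟨z, η⟩ M)
  have c6 : 0 ≤ η * b := mul_nonneg hη.le b0
  rw [e2, abs_le]
  have := abs_le.1 c2
  have := abs_le.1 c5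
  constructor <;> nlinarith [sq_nonneg b]

/-- the constant of the expansion of the imaginary part -/
noncomputable def KR (δ : ℝ) : ℝ :=
  δ⁻¹ ^ 5 + 21 * δ⁻¹ ^ 6 + 2 * (δ⁻¹ ^ 7 + δ⁻¹ ^ 7 + (δ⁻¹ + δ⁻¹ ^ 3) * δ⁻¹ ^ 6)

theorem im_alg {k z η a B w u m3 m4 rA rB : ℝ} (k0 : 0 < k) (z0 : 0 ≤ z) (hz' : z ≤ 21)
    (hη : 0 < η) (hη1 : η ≤ 1) (a1 : w ≤ k) (b1 : 0 ≤ w) (a3 : m3 ≤ k ^ 3) (b3 : 0 ≤ m3)
    (a4 : m4 ≤ k ^ 4) (b4 : 0 ≤ m4) (r0 : 0 ≤ rA) (r1 : rA ≤ η ^ 4 * k ^ (3 + 2)) (s0 : 0 ≤ rB)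
    (s1 : rB ≤ η ^ 4 * k ^ (4 + 2)) (B0 : 0 ≤ B) (B1 : B ≤ k ^ 2)
    (eA : a = w - η ^ 2 * m3 + rA) (eB : B = u - η ^ 2 * m4 + rB) :
    |a - (z - 2 * a) * B - (w - (z - 2 * w) * u) -
      η ^ 2 * (-m3 + z * m4 - 2 * (m3 * u + w * m4))| ≤
      (k ^ 5 + 21 * k ^ 6 + 2 * (k ^ 7 + k ^ 7 + (k + k ^ 3) * k ^ 6)) * η ^ 4 := by
  have e : a - (z - 2 * a) * B - (w - (z - 2 * w) * u) -
      η ^ 2 * (-m3 + z * m4 - 2 * (m3 * u + w * m4)) =
      rA - z * rB + 2 * (η ^ 4 * (m3 * m4) + rA * B + (w - η ^ 2 * m3) * rB) := by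
    have : u = B + η ^ 2 * m4 - rB := by rw [eB]; ring
    rw [eA, this]
    ring
  have η2 : η ^ 2 ≤ 1 := pow_le_one₀ hη.le hη1
  have c0 : η ^ 2 * m3 ≤ 1 * k ^ 3 := mul_le_mul η2 a3 b3 zero_le_one
  have c0' : 0 ≤ η ^ 2 * m3 := by positivity
  have c1 : |w - η ^ 2 * m3| ≤ k + k ^ 3 := by
    have := pow_pos k0 3
    rw [abs_le]; constructor <;> linarith
  have c2 : |(w - η ^ 2 * m3) * rB| ≤ (k + k ^ 3) * (η ^ 4 * k ^ (4 + 2)) := by
    rw [abs_mul, abs_of_nonneg s0]; exact mul_le_mul c1 s1 s0 (by positivity)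
  have c3 : η ^ 4 * (m3 * m4) ≤ η ^ 4 * (k ^ 3 * k ^ 4) :=
    mul_le_mul_of_nonneg_left (mul_le_mul a3 a4 b4 (by positivity)) (by positivity)
  have c4 : rA * B ≤ η ^ 4 * k ^ (3 + 2) * k ^ 2 := mul_le_mul r1 B1 B0 (by positivity)
  have c5 : z * rB ≤ 21 * (η ^ 4 * k ^ (4 + 2)) := mul_le_mul hz' s1 s0 (by norm_num)
  have c6 : 0 ≤ z * rB := mul_nonneg z0 s0
  have c7 : 0 ≤ rA * B := mul_nonneg r0 B0
  have c8 : 0 ≤ η ^ 4 * (m3 * m4) := by positivity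
  have e2 : (k ^ 5 + 21 * k ^ 6 + 2 * (k ^ 7 + k ^ 7 + (k + k ^ 3) * k ^ 6)) * η ^ 4 =
      η ^ 4 * k ^ (3 + 2) + 21 * (η ^ 4 * k ^ (4 + 2)) +
      2 * (η ^ 4 * (k ^ 3 * k ^ 4) + η ^ 4 * k ^ (3 + 2) * k ^ 2 +
        (k + k ^ 3) * (η ^ 4 * k ^ (4 + 2))) := by ring
  rw [e, e2, abs_le]
  have := abs_le.1 c2
  have : 0 ≤ η ^ 4 * k ^ (3 + 2) := by positivity
  have : 0 ≤ η ^ 4 * (k ^ 3 * k ^ 4) := by positivity
  have : 0 ≤ η ^ 4 * k ^ (3 + 2) * k ^ 2 := by positivity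
  constructor <;> linarith

theorem Bd.rem (h : Bd δ lam) (hn : 0 < n) (hδ : 0 < δ) (hz : 2 + 2 * δ ≤ z) (η : ℝ) (j : ℕ) :
    0 ≤ (∑ i, η ^ 4 * ((z - lam i)⁻¹ ^ j / ((z - lam i) ^ 2 + η ^ 2))) / n ∧
      (∑ i, η ^ 4 * ((z - lam i)⁻¹ ^ j / ((z - lam i) ^ 2 + η ^ 2))) / n ≤
        η ^ 4 * δ⁻¹ ^ (j + 2) :=
  ⟨le_avg hn fun i => by have := h.pos hδ hz i; positivity, avg_le hn fun i => by
    refine mul_le_mul_of_nonneg_left ?_ (by positivity)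
    have := h.pos hδ hz i
    calc (z - lam i)⁻¹ ^ j / ((z - lam i) ^ 2 + η ^ 2) ≤ (z - lam i)⁻¹ ^ j / (z - lam i) ^ 2 := by
          gcongr; nlinarith
      _ = (z - lam i)⁻¹ ^ (j + 2) := by rw [div_eq_mul_inv, ← inv_pow, ← pow_add]
      _ ≤ δ⁻¹ ^ (j + 2) := pow_le_pow_left₀ (inv_pos.2 this).le (h.inv_le hδ hz i) _⟩

theorem im_eq {M O : Mat n} (hM : IsEig M O lam) {η : ℝ} (hη : 0 < η) :
    (QS ⟨z, η⟩ M).im / η = (∑ a, (z - lam a) / ((z - lam a) ^ 2 + η ^ 2)) / n -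
      (z - 2 * ((∑ a, (z - lam a) / ((z - lam a) ^ 2 + η ^ 2)) / n)) *
        ((∑ a, ((z - lam a) ^ 2 + η ^ 2)⁻¹) / n) := by
  have him : 0 < (⟨z, η⟩ : ℂ).im := hη
  have h2 : ((n : ℂ)⁻¹) = (((n : ℝ)⁻¹ : ℝ) : ℂ) := by push_cast; rfl
  have hre : (mS ⟨z, η⟩ M).re = (∑ a, (z - lam a) / ((z - lam a) ^ 2 + η ^ 2)) / n := by
    rw [hM.mS_eq him, h2, Complex.re_ofReal_mul, Complex.re_sum, div_eq_inv_mul]
    congr 1
    refine Finset.sum_congr rfl fun a _ => ?_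
    rw [Complex.inv_re, Complex.normSq_apply]
    simp [pow_two]
  have hi : (mS ⟨z, η⟩ M).im = -(η * ((∑ a, ((z - lam a) ^ 2 + η ^ 2)⁻¹) / n)) := by
    rw [hM.mS_eq him, h2, Complex.im_ofReal_mul, Complex.im_sum, ← mul_div_assoc,
      Finset.mul_sum Finset.univ _ η, div_eq_inv_mul, ← mul_neg, ← Finset.sum_neg_distrib]
    congr 1
    refine Finset.sum_congr rfl fun a _ => ?_
    rw [Complex.inv_im, Complex.normSq_apply]
    simp [pow_two, neg_div, div_eq_mul_inv]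
  rw [← hre, div_eq_iff hη.ne']
  generalize (∑ a, ((z - lam a) ^ 2 + η ^ 2)⁻¹) / n = B at hi ⊢
  unfold QS
  simp only [Complex.sub_im, Complex.mul_im, Complex.one_im, pow_two, hi]
  ring

/-- expansion of the imaginary part of the complex defect -/
theorem Bd.im_QS (h : Bd δ lam) (hn : 0 < n) (hδ : 0 < δ) (hz : 2 + 2 * δ ≤ z) (hz' : z ≤ 21)
    {M O : Mat n} (hM : IsEig M O lam) : ∃ E : ℝ, ∀ η : ℝ, 0 < η → η ≤ 1 →
      |(QS ⟨z, η⟩ M).im / η - d1 lam z - η ^ 2 * E| ≤ KR δ * η ^ 4 := by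
  have p := h.pos hδ hz
  have q := h.inv_le hδ hz
  have p' : ∀ a, 0 ≤ (z - lam a)⁻¹ := fun a => (inv_pos.2 (p a)).le
  refine ⟨-((∑ a, (z - lam a)⁻¹ ^ 3) / n) + z * ((∑ a, (z - lam a)⁻¹ ^ 4) / n) -
    2 * ((∑ a, (z - lam a)⁻¹ ^ 3) / n * m2 lam z + m1 lam z * ((∑ a, (z - lam a)⁻¹ ^ 4) / n)),
    fun η hη hη1 => ?_⟩
  rw [im_eq hM hη]
  refine im_alg (inv_pos.2 hδ) (by linarith) hz' hη hη1 (h.m1_le hn hδ hz)
    (le_trans (by norm_num) (h.le_m1 hn hδ hz hz'))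
    (avg_le hn fun a => pow_le_pow_left₀ (p' a) (q a) 3) (le_avg hn fun a => pow_nonneg (p' a) 3)
    (avg_le hn fun a => pow_le_pow_left₀ (p' a) (q a) 4) (le_avg hn fun a => pow_nonneg (p' a) 4)
    (h.rem hn hδ hz η 3).1 (h.rem hn hδ hz η 3).2 (h.rem hn hδ hz η 4).1 (h.rem hn hδ hz η 4).2
    (le_avg hn fun i => by positivity) (avg_le hn fun i => ?_) ?_ ?_
  · have := p i
    calc ((z - lam i) ^ 2 + η ^ 2)⁻¹ ≤ ((z - lam i) ^ 2)⁻¹ := by gcongr; nlinarith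
      _ = (z - lam i)⁻¹ ^ 2 := by rw [inv_pow]
      _ ≤ δ⁻¹ ^ 2 := pow_le_pow_left₀ (p' i) (q i) _
  · unfold m1
    rw [← mul_div_assoc, ← sub_div, ← add_div, Finset.mul_sum, ← Finset.sum_sub_distrib,
      ← Finset.sum_add_distrib]
    congr 1
    refine Finset.sum_congr rfl fun i _ => ?_
    have := p i
    field_simp
    ring
  · unfold m2
    rw [← mul_div_assoc, ← sub_div, ← add_div, Finset.mul_sum, ← Finset.sum_sub_distrib,
      ← Finset.sum_add_distrib]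
    congr 1
    refine Finset.sum_congr rfl fun i _ => ?_
    have := p i
    field_simp
    ring

theorem KR_pos (hδ : 0 < δ) : 0 < KR δ := by unfold KR; positivity

end spec

/-! ### matrices -/

theorem eig_G0 {J O : Mat n} {lam : Fin n → ℝ} (h : IsEig J O lam) {z : ℝ}
    (hz : ∀ a, z - lam a ≠ 0) : G0 J z = Oᵀ * Matrix.diagonal (fun a => (z - lam a)⁻¹) * O := by
  have hO := orth_comm h.1
  unfold G0 Nm
  apply Matrix.inv_eq_left_inv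
  have e : z • (1 : Mat n) - J = Oᵀ * Matrix.diagonal (fun a => z - lam a) * O := by
    have : Matrix.diagonal (fun a => z - lam a) = z • (1 : Mat n) - Matrix.diagonal lam := by
      rw [Matrix.smul_one_eq_diagonal, Matrix.diagonal_sub]
    rw [this, Matrix.mul_sub, Matrix.sub_mul, Matrix.mul_smul, Matrix.mul_one, Matrix.smul_mul,
      h.1, ← h.2]
  rw [e]
  calc Oᵀ * Matrix.diagonal (fun a => (z - lam a)⁻¹) * O *
        (Oᵀ * Matrix.diagonal (fun a => z - lam a) * O)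
      = Oᵀ * (Matrix.diagonal (fun a => (z - lam a)⁻¹) * (O * Oᵀ) *
          Matrix.diagonal (fun a => z - lam a)) * O := by simp only [Matrix.mul_assoc]
    _ = 1 := by
      rw [hO, Matrix.mul_one, Matrix.diagonal_mul_diagonal]
      have : (fun a => (z - lam a)⁻¹ * (z - lam a)) = fun _ => (1 : ℝ) :=
        funext fun a => inv_mul_cancel₀ (hz a)
      rw [this, Matrix.diagonal_one, Matrix.mul_one, h.1]

theorem trace_frame {O : Mat n} (hO : Oᵀ * O = 1) (f : Fin n → ℝ) :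
    (Oᵀ * Matrix.diagonal f * O).trace = ∑ a, f a := by
  rw [Matrix.trace_mul_comm, ← Matrix.mul_assoc, orth_comm hO, Matrix.one_mul,
    Matrix.trace_diagonal]

theorem eig_trace {J O : Mat n} {lam : Fin n → ℝ} (h : IsEig J O lam) {z : ℝ}
    (hz : ∀ a, z - lam a ≠ 0) : (G0 J z).trace / n = m1 lam z := by
  rw [eig_G0 h hz, trace_frame h.1, m1]

theorem eig_T2 {J O : Mat n} {lam : Fin n → ℝ} (h : IsEig J O lam) {z : ℝ}
    (hz : ∀ a, z - lam a ≠ 0) : T2 J z / n = m2 lam z := by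
  unfold T2 m2
  rw [eig_G0 h hz]
  have e : Oᵀ * Matrix.diagonal (fun a => (z - lam a)⁻¹) * O *
      (Oᵀ * Matrix.diagonal (fun a => (z - lam a)⁻¹) * O) =
      Oᵀ * Matrix.diagonal (fun a => (z - lam a)⁻¹ ^ 2) * O := by
    calc _ = Oᵀ * (Matrix.diagonal (fun a => (z - lam a)⁻¹) * (O * Oᵀ) *
          Matrix.diagonal (fun a => (z - lam a)⁻¹)) * O := by simp only [Matrix.mul_assoc]
      _ = _ := by
        rw [orth_comm h.1, Matrix.mul_one, Matrix.diagonal_mul_diagonal]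
        simp only [pow_two]
  rw [e, trace_frame h.1]

theorem qf_eig {J O : Mat n} {lam : Fin n → ℝ} (h : IsEig J O lam) (v : Vec n) :
    qf J v = ∑ a, lam a * (O *ᵥ v) a ^ 2 := by
  have h1 : qf J v = v ⬝ᵥ (J *ᵥ v) := rfl
  rw [h1, h.2, Matrix.mul_assoc, ← Matrix.mulVec_mulVec, Matrix.dotProduct_mulVec,
    Matrix.vecMul_transpose, ← Matrix.mulVec_mulVec]
  unfold dotProduct
  refine Finset.sum_congr rfl fun a _ => ?_
  rw [Matrix.mulVec_diagonal]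
  ring

theorem sq_eig {O : Mat n} (hO : Oᵀ * O = 1) (v : Vec n) : ∑ a, (O *ᵥ v) a ^ 2 = F.sq v := by
  have h1 : (O *ᵥ v) ⬝ᵥ (O *ᵥ v) = v ⬝ᵥ v := by
    rw [Matrix.dotProduct_mulVec, ← Matrix.mulVec_transpose, Matrix.mulVec_mulVec, hO,
      Matrix.one_mulVec]
  simpa only [dotProduct, ← pow_two, F.sq] using h1

/-- the spectrum lies in `[-3, 2 + δ]`, quadratic form version -/
def Sp (δ : ℝ) (J : Mat n) : Prop := ∀ v, -3 * F.sq v ≤ qf J v ∧ qf J v ≤ (2 + δ) * F.sq v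

theorem sp_of_bd {δ : ℝ} {J O : Mat n} {lam : Fin n → ℝ} (h : IsEig J O lam) (hb : Bd δ lam) :
    Sp δ J := by
  intro v
  rw [qf_eig h, ← sq_eig h.1, Finset.mul_sum, Finset.mul_sum]
  exact ⟨Finset.sum_le_sum fun a _ => mul_le_mul_of_nonneg_right (hb a).1 (sq_nonneg _),
    Finset.sum_le_sum fun a _ => mul_le_mul_of_nonneg_right (hb a).2 (sq_nonneg _)⟩

theorem Sp.bd {δ : ℝ} {J O : Mat n} {lam : Fin n → ℝ} (hs : Sp δ J) (h : IsEig J O lam) :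
    Bd δ lam := by
  intro a
  have h1 := hs (Oᵀ *ᵥ Pi.single a 1)
  rw [qf_eig h, ← sq_eig h.1, Matrix.mulVec_mulVec, orth_comm h.1, Matrix.one_mulVec] at h1
  simpa [Pi.single_apply] using h1

theorem Sp.low {δ z : ℝ} {J : Mat n} (hs : Sp δ J) (hδ : 0 < δ) (hz : 2 + 2 * δ ≤ z) (w : Vec n) :
    nv w ≤ δ⁻¹ * nv (Nm J z *ᵥ w) := by
  refine low_of_pos (inv_nonneg.2 hδ.le) (fun w => ?_) w
  have h1 : qf (Nm J z) w = z * F.sq w - qf J w := by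
    unfold qf Nm
    rw [Matrix.sub_mulVec, ip_sub_right, Matrix.smul_mulVec, Matrix.one_mulVec, ip_smul_right,
      ipN_self]
  rw [h1, le_inv_mul_iff₀ hδ]
  nlinarith [(hs w).2, sqN_nonneg w]

theorem abs_trace_mul_le (A B : Mat n) : |(A * B).trace| ≤ fn A * fn B := by
  have h1 : (A * B).trace = ∑ p : Fin n × Fin n, A p.1 p.2 * B p.2 p.1 := by
    rw [Fintype.sum_prod_type]
    simp [Matrix.trace, Matrix.mul_apply]
  have h2 : hsq A = ∑ p : Fin n × Fin n, A p.1 p.2 ^ 2 := by rw [Fintype.sum_prod_type]; rfl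
  have h3 : hsq B = ∑ p : Fin n × Fin n, B p.2 p.1 ^ 2 := by
    rw [Fintype.sum_prod_type, Finset.sum_comm]; rfl
  rw [fn, fn, ← Real.sqrt_mul (hsq_nn' A), h1, h2, h3]
  exact Real.abs_le_sqrt (Finset.sum_mul_sq_le_sq_mul_sq _ _ _)

theorem fn_op_mul {A : Mat n} {C : ℝ} (hA : OpLe A C) (hC : 0 ≤ C) (B : Mat n) :
    fn (A * B) ≤ C * fn B := by
  have h := hsq_mul_le_nv (B := B) hA
  rw [← fn_sq, ← fn_sq, ← mul_pow] at h
  exact (pow_le_pow_iff_left₀ (fn_nonneg _) (mul_nonneg hC (fn_nonneg _)) two_ne_zero).1 h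

theorem Sp.trace_sub {δ z : ℝ} {J J' : Mat n} (hs : Sp δ J) (hs' : Sp δ J') (hδ : 0 < δ)
    (hz : 2 + 2 * δ ≤ z) :
    |(G0 J z).trace - (G0 J' z).trace| ≤ fn (J - J') * (δ⁻¹ ^ 2 * Real.sqrt n) := by
  have u1 := isUnit_of_low (hs.low hδ hz)
  have u2 := isUnit_of_low (hs'.low hδ hz)
  have o1 : OpLe (G0 J z) δ⁻¹ := opLe_inv_of_low (hs.low hδ hz)
  have o2 : OpLe (G0 J' z) δ⁻¹ := opLe_inv_of_low (hs'.low hδ hz)
  have k0 : 0 ≤ δ⁻¹ := inv_nonneg.2 hδ.le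
  have e : G0 J z - G0 J' z = G0 J z * (J - J') * G0 J' z := by
    have a1 : G0 J z * Nm J z = 1 := Matrix.nonsing_inv_mul _ u1
    have a2 : Nm J' z * G0 J' z = 1 := Matrix.mul_nonsing_inv _ u2
    have a3 : J - J' = Nm J' z - Nm J z := by unfold Nm; abel
    rw [a3, Matrix.mul_sub, Matrix.sub_mul, Matrix.mul_assoc, a2, a1, Matrix.mul_one,
      Matrix.one_mul]
  rw [← Matrix.trace_sub, e, Matrix.mul_assoc, Matrix.trace_mul_comm, Matrix.mul_assoc]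
  refine (abs_trace_mul_le _ _).trans (mul_le_mul_of_nonneg_left ?_ (fn_nonneg _))
  have b1 := fn_op_mul o2 k0 (G0 J z)
  have b2 := fn_op_mul o1 k0 1
  rw [Matrix.mul_one, fn_orth (Q := (1 : Mat n)) (by simp)] at b2
  calc fn (G0 J' z * G0 J z) ≤ δ⁻¹ * (δ⁻¹ * Real.sqrt n) :=
        b1.trans (mul_le_mul_of_nonneg_left b2 k0)
    _ = _ := by ring

theorem Sp.T2_sub {δ z : ℝ} {J J' : Mat n} (hs : Sp δ J) (hs' : Sp δ J') (hδ : 0 < δ)
    (hz : 2 + 2 * δ ≤ z) :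
    |T2 J z - T2 J' z| ≤ fn (J - J') * (2 * δ⁻¹ ^ 3 * Real.sqrt n) := by
  have u1 := isUnit_of_low (hs.low hδ hz)
  have u2 := isUnit_of_low (hs'.low hδ hz)
  have o1 : OpLe (G0 J z) δ⁻¹ := opLe_inv_of_low (hs.low hδ hz)
  have o2 : OpLe (G0 J' z) δ⁻¹ := opLe_inv_of_low (hs'.low hδ hz)
  have k0 : 0 ≤ δ⁻¹ := inv_nonneg.2 hδ.le
  have e : G0 J z - G0 J' z = G0 J z * (J - J') * G0 J' z := by
    have a1 : G0 J z * Nm J z = 1 := Matrix.nonsing_inv_mul _ u1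
    have a2 : Nm J' z * G0 J' z = 1 := Matrix.mul_nonsing_inv _ u2
    have a3 : J - J' = Nm J' z - Nm J z := by unfold Nm; abel
    rw [a3, Matrix.mul_sub, Matrix.sub_mul, Matrix.mul_assoc, a2, a1, Matrix.mul_one,
      Matrix.one_mul]
  have b : ∀ G : Mat n, OpLe G δ⁻¹ → |((G0 J z - G0 J' z) * G).trace| ≤
      fn (J - J') * (δ⁻¹ ^ 3 * Real.sqrt n) := fun G hG => by
    rw [e, Matrix.mul_assoc, Matrix.mul_assoc, Matrix.trace_mul_comm, Matrix.mul_assoc]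
    refine (abs_trace_mul_le _ _).trans (mul_le_mul_of_nonneg_left ?_ (fn_nonneg _))
    have b1 := fn_op_mul o2 k0 (G * G0 J z)
    have b3 := fn_op_mul hG k0 (G0 J z)
    have b2 := fn_op_mul o1 k0 1
    rw [Matrix.mul_one, fn_orth (Q := (1 : Mat n)) (by simp)] at b2
    rw [Matrix.mul_assoc]
    calc fn (G0 J' z * (G * G0 J z)) ≤ δ⁻¹ * (δ⁻¹ * (δ⁻¹ * Real.sqrt n)) :=
          b1.trans (mul_le_mul_of_nonneg_left (b3.trans (mul_le_mul_of_nonneg_left b2 k0)) k0)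
      _ = _ := by ring
  have e2 : T2 J z - T2 J' z =
      ((G0 J z - G0 J' z) * G0 J z).trace + ((G0 J z - G0 J' z) * G0 J' z).trace := by
    unfold T2
    rw [Matrix.sub_mul, Matrix.sub_mul, Matrix.trace_sub, Matrix.trace_sub,
      Matrix.trace_mul_comm (G0 J' z) (G0 J z)]
    ring
  rw [e2]
  refine (abs_add_le _ _).trans ((add_le_add (b _ o1) (b _ o2)).trans_eq (by ring))

/-- the defect of the self-consistent equation of a matrix at a real point -/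
noncomputable def QR (J : Mat n) (z : ℝ) : ℝ :=
  z * ((G0 J z).trace / n) - 1 - ((G0 J z).trace / n) ^ 2

theorem QR_eq {δ z : ℝ} {J O : Mat n} {lam : Fin n → ℝ} (h : IsEig J O lam) (hb : Bd δ lam)
    (hδ : 0 < δ) (hz : 2 + 2 * δ ≤ z) : QR J z = q1 lam z := by
  unfold QR q1
  rw [eig_trace h fun a => (hb.pos hδ hz a).ne']

theorem Sp.QR_sub {δ z : ℝ} {J J' : Mat n} (hn : 0 < n) (hJ : Jᵀ = J) (hJ' : J'ᵀ = J')
    (hs : Sp δ J) (hs' : Sp δ J') (hδ : 0 < δ) (hz : 2 + 2 * δ ≤ z) (hz' : z ≤ 21) :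
    |QR J z - QR J' z| ≤ (21 + 2 * δ⁻¹) * (fn (J - J') * (δ⁻¹ ^ 2 * Real.sqrt n) / n) := by
  have hn' : (0 : ℝ) < n := by exact_mod_cast hn
  obtain ⟨O, lam, h⟩ := exists_isEig hJ
  obtain ⟨O', lam', h'⟩ := exists_isEig hJ'
  have hb := hs.bd h
  have hb' := hs'.bd h'
  have e1 := eig_trace h fun a => (hb.pos hδ hz a).ne'
  have e2 := eig_trace h' fun a => (hb'.pos hδ hz a).ne'
  have a1 := hb.m1_le hn hδ hz
  have a2 := hb'.m1_le hn hδ hz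
  have b1 := hb.le_m1 hn hδ hz hz'
  have b2 := hb'.le_m1 hn hδ hz hz'
  have d : |m1 lam z - m1 lam' z| ≤ fn (J - J') * (δ⁻¹ ^ 2 * Real.sqrt n) / n := by
    rw [← e1, ← e2, ← sub_div, abs_div, abs_of_pos hn']
    exact div_le_div_of_nonneg_right (hs.trace_sub hs' hδ hz) hn'.le
  have e : QR J z - QR J' z = (z - m1 lam z - m1 lam' z) * (m1 lam z - m1 lam' z) := by
    unfold QR; rw [e1, e2]; ring
  have c1 : |z - m1 lam z - m1 lam' z| ≤ 21 + 2 * δ⁻¹ := by rw [abs_le]; constructor <;> linarith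
  rw [e, abs_mul]
  exact mul_le_mul c1 d (abs_nonneg _) (by positivity)

/-- the derivative of the defect of a matrix -/
noncomputable def DR (J : Mat n) (z : ℝ) : ℝ :=
  (G0 J z).trace / n - (z - 2 * ((G0 J z).trace / n)) * (T2 J z / n)

theorem DR_eq {δ z : ℝ} {J O : Mat n} {lam : Fin n → ℝ} (h : IsEig J O lam) (hb : Bd δ lam)
    (hδ : 0 < δ) (hz : 2 + 2 * δ ≤ z) : DR J z = d1 lam z := by
  unfold DR d1
  rw [eig_trace h fun a => (hb.pos hδ hz a).ne', eig_T2 h fun a => (hb.pos hδ hz a).ne']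

theorem Sp.DR_sub {δ z : ℝ} {J J' : Mat n} (hn : 0 < n) (hJ : Jᵀ = J) (hJ' : J'ᵀ = J')
    (hs : Sp δ J) (hs' : Sp δ J') (hδ : 0 < δ) (hz : 2 + 2 * δ ≤ z) (hz' : z ≤ 21) :
    |DR J z - DR J' z| ≤ ((1 + 2 * δ⁻¹ ^ 2) * δ⁻¹ ^ 2 + (21 + 2 * δ⁻¹) * (2 * δ⁻¹ ^ 3)) *
      (fn (J - J') * Real.sqrt n / n) := by
  have hn' : (0 : ℝ) < n := by exact_mod_cast hn
  obtain ⟨O, lam, h⟩ := exists_isEig hJ
  obtain ⟨O', lam', h'⟩ := exists_isEig hJ'
  have hb := hs.bd h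
  have hb' := hs'.bd h'
  have e1 := eig_trace h fun a => (hb.pos hδ hz a).ne'
  have e2 := eig_trace h' fun a => (hb'.pos hδ hz a).ne'
  have e3 := eig_T2 h fun a => (hb.pos hδ hz a).ne'
  have e4 := eig_T2 h' fun a => (hb'.pos hδ hz a).ne'
  have a2 := hb'.m1_le hn hδ hz
  have b2 := hb'.le_m1 hn hδ hz hz'
  have a3 := hb.m2_le hn hδ hz
  have b3 := hb.le_m2 hn hδ hz hz'
  have u0 : 0 ≤ m2 lam z := le_trans (by positivity) b3
  have d : |m1 lam z - m1 lam' z| ≤ fn (J - J') * (δ⁻¹ ^ 2 * Real.sqrt n) / n := by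
    rw [← e1, ← e2, ← sub_div, abs_div, abs_of_pos hn']
    exact div_le_div_of_nonneg_right (hs.trace_sub hs' hδ hz) hn'.le
  have d' : |m2 lam z - m2 lam' z| ≤ fn (J - J') * (2 * δ⁻¹ ^ 3 * Real.sqrt n) / n := by
    rw [← e3, ← e4, ← sub_div, abs_div, abs_of_pos hn']
    exact div_le_div_of_nonneg_right (hs.T2_sub hs' hδ hz) hn'.le
  have e : DR J z - DR J' z = (1 + 2 * m2 lam z) * (m1 lam z - m1 lam' z) -
      (z - 2 * m1 lam' z) * (m2 lam z - m2 lam' z) := by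
    unfold DR; rw [e1, e2, e3, e4]; ring
  have c1 : |z - 2 * m1 lam' z| ≤ 21 + 2 * δ⁻¹ := by rw [abs_le]; constructor <;> linarith
  have c2 : |1 + 2 * m2 lam z| ≤ 1 + 2 * δ⁻¹ ^ 2 := by rw [abs_le]; constructor <;> linarith
  rw [e]
  refine (abs_sub _ _).trans ?_
  rw [abs_mul, abs_mul]
  refine (add_le_add (mul_le_mul c2 d (abs_nonneg _) (by positivity))
    (mul_le_mul c1 d' (abs_nonneg _) (by positivity))).trans_eq (by ring)

/-! ### Gaussian tools -/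

/-- McShane extension for the Euclidean distance -/
theorem lip_extend {ι : Type*} [Fintype ι] {S : Set (ι → ℝ)} {f : (ι → ℝ) → ℝ} {L : ℝ}
    (hL : 0 ≤ L) (h : ∀ w ∈ S, ∀ w' ∈ S, |f w - f w'| ≤ L * ed w w') :
    ∃ F, Lip L F ∧ ∀ w ∈ S, F w = f w := by
  have hd : ∀ x y : EuclideanSpace ℝ ι, dist x y = ed x.ofLp y.ofLp := fun x y => by
    rw [EuclideanSpace.dist_eq, ed]
    simp only [Real.dist_eq, sq_abs]
  have h1 : LipschitzOnWith (Real.toNNReal L) (fun x : EuclideanSpace ℝ ι => f x.ofLp)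
      {x | x.ofLp ∈ S} := by
    refine LipschitzOnWith.of_dist_le_mul fun x hx y hy => ?_
    rw [Real.dist_eq, Real.coe_toNNReal _ hL, hd]
    exact h _ hx _ hy
  obtain ⟨g, hg, he⟩ := h1.extend_real
  refine ⟨fun w => g (WithLp.toLp 2 w), fun w w' => ?_, fun w hw => ?_⟩
  · have := hg.dist_le_mul (WithLp.toLp 2 w) (WithLp.toLp 2 w')
    rwa [Real.dist_eq, Real.coe_toNNReal _ hL, hd] at this
  · exact (he (x := WithLp.toLp 2 w) hw).symm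

section goe

variable {ι : Type} [Fintype ι] {A : ι → Mat n} (hA : GoeFam A)
include hA

theorem fn_goeM_le (ω : ι → ℝ) :
    fn (goeM A ω) ≤ Real.sqrt (2 / n) * Real.sqrt (∑ i, ω i ^ 2) := by
  set M := goeM A ω with hM
  have hs : ∀ a b, M b a = M a b := fun a b => congrFun (congrFun (hA.goeM_tr ω) a) b
  set c : ι → ℝ := fun i => ∑ a, ∑ b, A i a b * M a b with hc
  have h1 : hsq M = ∑ i, ω i * c i := by
    have e : ∀ a b, M a b ^ 2 = ∑ i, ω i * (A i a b * M a b) := fun a b => by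
      have : M a b = ∑ i, ω i * A i a b := by simp [hM, goeM, Matrix.sum_apply]
      rw [pow_two]
      nth_rewrite 1 [this]
      rw [Finset.sum_mul]
      exact Finset.sum_congr rfl fun i _ => by ring
    unfold hsq
    simp only [e, hc, Finset.mul_sum]
    calc ∑ a, ∑ b, ∑ i, ω i * (A i a b * M a b) = ∑ a, ∑ i, ∑ b, ω i * (A i a b * M a b) :=
          Finset.sum_congr rfl fun a _ => Finset.sum_comm
      _ = _ := Finset.sum_comm
  have h2 : ∑ i, c i ^ 2 = 2 / n * hsq M := by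
    have e : ∀ i, c i ^ 2 = ∑ a, ∑ b, ∑ a', ∑ b', A i a b * A i a' b' * (M a b * M a' b') :=
      fun i => by
        rw [pow_two, hc]
        simp only
        rw [Finset.sum_mul]
        refine Finset.sum_congr rfl fun a _ => ?_
        rw [Finset.sum_mul]
        refine Finset.sum_congr rfl fun b _ => ?_
        rw [Finset.mul_sum]
        refine Finset.sum_congr rfl fun a' _ => ?_
        rw [Finset.mul_sum]
        exact Finset.sum_congr rfl fun b' _ => by ring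
    simp only [e]
    rw [Finset.sum_comm]
    unfold hsq
    rw [Finset.mul_sum]
    refine Finset.sum_congr rfl fun a _ => ?_
    rw [Finset.sum_comm, Finset.mul_sum]
    refine Finset.sum_congr rfl fun b _ => ?_
    rw [Finset.sum_comm]
    have e2 : ∀ a', ∑ i, ∑ b', A i a b * A i a' b' * (M a b * M a' b') =
        ∑ b', ((if a = a' ∧ b = b' then 1 else 0) + (if a = b' ∧ b = a' then 1 else 0)) / (n : ℝ) *
          (M a b * M a' b') := fun a' => by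
      rw [Finset.sum_comm]
      exact Finset.sum_congr rfl fun b' _ => by rw [← Finset.sum_mul, hA.cov]
    simp only [e2, add_div, add_mul, Finset.sum_add_distrib, ite_and, ite_div, ite_mul, zero_div,
      zero_mul, Finset.sum_ite_eq, Finset.sum_ite_irrel, Finset.mem_univ, if_true,
      Finset.sum_const_zero]
    rw [hs a b]
    ring
  have h3 : hsq M ^ 2 ≤ (∑ i, ω i ^ 2) * (2 / n * hsq M) := by
    rw [← h2]
    nth_rewrite 1 [h1]
    exact Finset.sum_mul_sq_le_sq_mul_sq _ _ _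
  have w0 : 0 ≤ ∑ i, ω i ^ 2 := Finset.sum_nonneg fun i _ => sq_nonneg _
  rw [fn, ← Real.sqrt_mul (by positivity)]
  refine Real.sqrt_le_sqrt ?_
  rcases (hsq_nn' M).eq_or_lt with h0 | h0
  · rw [← h0]; positivity
  · have : hsq M * hsq M ≤ hsq M * (2 / n * ∑ i, ω i ^ 2) := by nlinarith
    exact le_of_mul_le_mul_left this h0

theorem fn_goeM_sub (ω ω' : ι → ℝ) :
    fn (goeM A ω - goeM A ω') ≤ Real.sqrt (2 / n) * ed ω ω' := by
  have e : goeM A ω - goeM A ω' = goeM A (ω - ω') := by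
    unfold goeM
    rw [← Finset.sum_sub_distrib]
    exact Finset.sum_congr rfl fun i _ => by rw [Pi.sub_apply, sub_smul]
  rw [e]
  exact fn_goeM_le hA _

/-- crude second moment of the complex defect -/
theorem moment_two (hn : 0 < n) {z η : ℝ} (hz : |z| ≤ 21) (hη : 0 < η) (hη1 : η ≤ 1) :
    ∫ ω, ‖QS ⟨z, η⟩ (goeM A ω)‖ ^ 2 ∂gpi ι ≤ 98 * (((n : ℝ) * η)⁻¹ * η⁻¹) ^ 2 := by
  have hn' : (0 : ℝ) < n := by exact_mod_cast hn
  have him : 0 < (⟨z, η⟩ : ℂ).im := hη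
  have hnorm : ‖(⟨z, η⟩ : ℂ)‖ ≤ 22 := by
    refine (Complex.norm_le_abs_re_add_abs_im _).trans ?_
    show |z| + |η| ≤ 22
    rw [abs_of_pos hη]; linarith
  have h := hA.moment_step hn him 0 (B := 49 * (((n : ℝ) * η)⁻¹ * η⁻¹) ^ 2) fun M hM => by
    have h1 := norm_mS_le hM him
    have h2 := neg_im_mS_nonneg hM him
    have h3 : -(mS ⟨z, η⟩ M).im ≤ η⁻¹ :=
      ((neg_le_abs _).trans (Complex.abs_im_le_norm _)).trans h1
    have h4 : ‖(⟨z, η⟩ : ℂ) - 2 * mS ⟨z, η⟩ M‖ ≤ 24 * η⁻¹ := by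
      refine (norm_sub_le _ _).trans ?_
      rw [norm_mul]
      simp only [Complex.norm_ofNat]
      have : 1 ≤ η⁻¹ := (one_le_inv₀ hη).2 hη1
      have h1' : ‖mS ⟨z, η⟩ M‖ ≤ η⁻¹ := h1
      linarith
    show ‖QS ⟨z, η⟩ M‖ * ((n * η)⁻¹ * -(mS ⟨z, η⟩ M).im) +
      (2 * ((0 : ℕ) : ℝ) + 1) * (‖(⟨z, η⟩ : ℂ) - 2 * mS ⟨z, η⟩ M‖ *
        (2 * (n * η)⁻¹ ^ 2 * -(mS ⟨z, η⟩ M).im)) ≤
          ‖QS ⟨z, η⟩ M‖ ^ 2 / 2 + 49 * (((n : ℝ) * η)⁻¹ * η⁻¹) ^ 2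
    have a0 : 0 < ((n : ℝ) * η)⁻¹ := by positivity
    have b1 : ((n : ℝ) * η)⁻¹ * -(mS ⟨z, η⟩ M).im ≤ ((n : ℝ) * η)⁻¹ * η⁻¹ :=
      mul_le_mul_of_nonneg_left h3 a0.le
    have b2 := mul_le_mul_of_nonneg_left b1 (norm_nonneg (QS ⟨z, η⟩ M))
    have b3 : ‖(⟨z, η⟩ : ℂ) - 2 * mS ⟨z, η⟩ M‖ * (2 * ((n : ℝ) * η)⁻¹ ^ 2 * -(mS ⟨z, η⟩ M).im) ≤
        24 * η⁻¹ * (2 * ((n : ℝ) * η)⁻¹ ^ 2 * η⁻¹) :=
      mul_le_mul h4 (mul_le_mul_of_nonneg_left h3 (by positivity)) (by positivity) (by positivity)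
    have e2 : 24 * η⁻¹ * (2 * ((n : ℝ) * η)⁻¹ ^ 2 * η⁻¹) = 48 * (((n : ℝ) * η)⁻¹ * η⁻¹) ^ 2 := by
      ring
    rw [e2] at b3
    push_cast
    nlinarith [sq_nonneg (‖QS ⟨z, η⟩ M‖ - ((n : ℝ) * η)⁻¹ * η⁻¹),
      sq_nonneg (((n : ℝ) * η)⁻¹ * η⁻¹)]
  simp only [zero_add, mul_one, mul_zero, pow_zero, integral_const, probReal_univ, smul_eq_mul]
    at h
  refine h.trans (le_of_eq ?_)
  ring

theorem QS_tail (hn : 0 < n) {z η : ℝ} (hz : |z| ≤ 21) (hη : 0 < η) (hη1 : η ≤ 1) :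
    (gpi ι).real {ω | 56 * (((n : ℝ) * η)⁻¹ * η⁻¹) ≤ ‖QS ⟨z, η⟩ (goeM A ω)‖} ≤ 1 / 32 := by
  have hn' : (0 : ℝ) < n := by exact_mod_cast hn
  have him : 0 < (⟨z, η⟩ : ℂ).im := hη
  set x := ((n : ℝ) * η)⁻¹ * η⁻¹ with hx
  have x0 : 0 < x := by positivity
  have hM := (mul_meas_ge_le_integral_of_nonneg (μ := gpi ι)
    (f := fun ω => ‖QS ⟨z, η⟩ (goeM A ω)‖ ^ 2) (ae_of_all _ fun ω => by positivity)
    (hA.integrable_QS him 2) ((56 * x) ^ 2)).trans (moment_two hA hn hz hη hη1)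
  have h1 : (gpi ι).real {ω | (56 * x) ^ 2 ≤ ‖QS ⟨z, η⟩ (goeM A ω)‖ ^ 2} ≤ 1 / 32 := by
    refine le_of_mul_le_mul_left (hM.trans_eq ?_) (by positivity : 0 < (56 * x) ^ 2)
    ring
  refine le_trans (measureReal_mono fun ω hω => ?_) h1
  have hω' : 56 * x ≤ ‖QS ⟨z, η⟩ (goeM A ω)‖ := hω
  exact pow_le_pow_left₀ (by positivity) hω' 2

/-- concentration around a typical value for functions which are Lipschitz on `Sp δ` -/
theorem tail_of_med (hn : 0 < n) {δ L b : ℝ} (hL : 0 < L) {f : Mat n → ℝ}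
    (hf : ∀ J J' : Mat n, Jᵀ = J → J'ᵀ = J' → Sp δ J → Sp δ J' →
      |f J - f J'| ≤ L * (fn (J - J') * Real.sqrt n / n))
    (hS : (gpi ι).real {ω | ¬ Sp δ (goeM A ω)} ≤ 1 / 8) {E : Set (ι → ℝ)}
    (hE : (gpi ι).real E ≤ 1 / 8) (hb : ∀ ω, Sp δ (goeM A ω) → ω ∉ E → |f (goeM A ω)| ≤ b) :
    (gpi ι).real {ω | Sp δ (goeM A ω) ∧ b + 8 * L / Real.sqrt n < |f (goeM A ω)|} ≤
      2 * Real.exp (-n) := by
  have hn' : (0 : ℝ) < n := by exact_mod_cast hn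
  have hn1 : (1 : ℝ) ≤ n := by exact_mod_cast hn
  have s0 : 0 < Real.sqrt n := Real.sqrt_pos.2 hn'
  obtain ⟨F, hF, hFe⟩ := lip_extend (S := {ω | Sp δ (goeM A ω)}) (f := fun ω => f (goeM A ω))
    (L := 2 * L / n) (by positivity) fun w hw w' hw' => by
      refine (hf _ _ (hA.goeM_tr w) (hA.goeM_tr w') hw hw').trans ?_
      have h1 := fn_goeM_sub hA w w'
      have h2 : Real.sqrt (2 / n) * Real.sqrt n ≤ 2 := by
        rw [← Real.sqrt_mul (by positivity), div_mul_cancel₀ _ hn'.ne', Real.sqrt_le_left (by norm_num)]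
        norm_num
      have e0 := ed_nonneg w w'
      have h3 : fn (goeM A w - goeM A w') * Real.sqrt n ≤ 2 * ed w w' := by
        calc _ ≤ Real.sqrt (2 / n) * ed w w' * Real.sqrt n := mul_le_mul_of_nonneg_right h1 s0.le
          _ = Real.sqrt (2 / n) * Real.sqrt n * ed w w' := by ring
          _ ≤ _ := mul_le_mul_of_nonneg_right h2 e0
      calc L * (fn (goeM A w - goeM A w') * Real.sqrt n / n)
          = L / n * (fn (goeM A w - goeM A w') * Real.sqrt n) := by ring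
        _ ≤ L / n * (2 * ed w w') := mul_le_mul_of_nonneg_left h3 (by positivity)
        _ = _ := by ring
  have ht := hF.tail_abs (by positivity) (t := 4 * L / Real.sqrt n) (by positivity)
  have e1 : (4 * L / Real.sqrt n) ^ 2 / (4 * (2 * L / n) ^ 2) = n := by
    rw [div_pow, Real.sq_sqrt hn'.le]; field_simp; ring
  rw [e1] at ht
  set E0 := ∫ w', F w' ∂gpi ι with hE0
  have hex : ∃ ω, Sp δ (goeM A ω) ∧ ω ∉ E ∧ ¬ (4 * L / Real.sqrt n ≤ |F ω - E0|) := by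
    by_contra hc
    have hsub : (Set.univ : Set (ι → ℝ)) ⊆ {ω | ¬ Sp δ (goeM A ω)} ∪
        (E ∪ {ω | 4 * L / Real.sqrt n ≤ |F ω - E0|}) := by
      intro ω _
      by_contra h
      simp only [Set.mem_union, Set.mem_setOf_eq, not_or, not_not] at h
      exact hc ⟨ω, h.1, h.2.1, h.2.2⟩
    have h1 := (measureReal_mono (μ := gpi ι) hsub).trans ((measureReal_union_le _ _).trans
      (add_le_add le_rfl (measureReal_union_le _ _)))
    rw [probReal_univ] at h1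
    have h2 : Real.exp (-n) ≤ Real.exp (-1) := Real.exp_le_exp.2 (by linarith)
    have h3 := Real.exp_neg_one_lt_d9
    linarith
  obtain ⟨ω₀, h1, h2, h3⟩ := hex
  have h4 := hb ω₀ h1 h2
  rw [← hFe ω₀ h1] at h4
  refine le_trans (measureReal_mono fun ω hω => ?_) ht
  have h6 := hω.2
  rw [← hFe ω hω.1] at h6
  show 4 * L / Real.sqrt n ≤ |F ω - E0|
  have h7 := abs_sub_abs_le_abs_sub (F ω) E0
  have h8 := abs_sub_abs_le_abs_sub E0 (F ω₀)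
  rw [abs_sub_comm E0] at h8
  have e2 : 8 * L / Real.sqrt n = 2 * (4 * L / Real.sqrt n) := by ring
  push Not at h3
  linarith

/-- the estimate at one real point -/
theorem point_tail (hn : 0 < n) {δ z : ℝ} (hδ : 0 < δ) (hz : 2 + 2 * δ ≤ z) (hz' : z ≤ 21)
    (hS : (gpi ι).real {ω | ¬ Sp δ (goeM A ω)} ≤ 1 / 8) :
    (gpi ι).real {ω | Sp δ (goeM A ω) ∧
      (56 + ((21 + 2 * δ⁻¹) * δ⁻¹ ^ 3 + δ⁻¹ ^ 2 + δ⁻¹ ^ 4) + 8 * ((21 + 2 * δ⁻¹) * δ⁻¹ ^ 2))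
        / Real.sqrt n < |QR (goeM A ω) z|} ≤ 2 * Real.exp (-n) := by
  have hn' : (0 : ℝ) < n := by exact_mod_cast hn
  have hn1 : (1 : ℝ) ≤ n := by exact_mod_cast hn
  have s0 : 0 < Real.sqrt n := Real.sqrt_pos.2 hn'
  have ss : Real.sqrt n * Real.sqrt n = n := Real.mul_self_sqrt hn'.le
  set C1 := (21 + 2 * δ⁻¹) * δ⁻¹ ^ 3 + δ⁻¹ ^ 2 + δ⁻¹ ^ 4 with hC1
  set η := Real.sqrt (Real.sqrt n)⁻¹ with hη
  have η0 : 0 < η := Real.sqrt_pos.2 (inv_pos.2 s0)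
  have η2 : η ^ 2 = (Real.sqrt n)⁻¹ := Real.sq_sqrt (inv_nonneg.2 s0.le)
  have η1 : η ≤ 1 := Real.sqrt_le_one.2 (inv_le_one_of_one_le₀ (Real.one_le_sqrt.2 hn1))
  have ex : ((n : ℝ) * η)⁻¹ * η⁻¹ = (Real.sqrt n)⁻¹ := by
    rw [← mul_inv, mul_assoc, ← pow_two, η2]
    congr 1
    rw [mul_inv_eq_iff_eq_mul₀ s0.ne', ss]
  have hE := QS_tail hA hn (z := z) (by rw [abs_le]; constructor <;> linarith) η0 η1
  rw [ex] at hE
  rw [add_div]
  refine tail_of_med hA hn (f := fun J => QR J z) (by positivity) (fun J J' hJ hJ' hs hs' =>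
    (Sp.QR_sub hn hJ hJ' hs hs' hδ hz hz').trans_eq (by ring)) hS (hE.trans (by norm_num))
    fun ω h1 h2 => ?_
  obtain ⟨O, lam, hO⟩ := exists_isEig (hA.goeM_tr ω)
  have hb := h1.bd hO
  have h4 := hb.re_QS hn hδ hz hz' hO η0 η1
  rw [← QR_eq hO hb hδ hz, η2, ← hC1] at h4
  have h5 : ‖QS ⟨z, η⟩ (goeM A ω)‖ < 56 * (Real.sqrt n)⁻¹ := not_le.1 h2
  have e2 : (56 + C1) / Real.sqrt n = 56 * (Real.sqrt n)⁻¹ + C1 * (Real.sqrt n)⁻¹ := by ring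
  linarith

/-- the estimate of the derivative at one real point -/
theorem point_tail' (hn : 0 < n) {δ z : ℝ} (hδ : 0 < δ) (hz : 2 + 2 * δ ≤ z) (hz' : z ≤ 21)
    (hS : (gpi ι).real {ω | ¬ Sp δ (goeM A ω)} ≤ 1 / 8) :
    (gpi ι).real {ω | Sp δ (goeM A ω) ∧
      (616 + KR δ + 8 * ((1 + 2 * δ⁻¹ ^ 2) * δ⁻¹ ^ 2 + (21 + 2 * δ⁻¹) * (2 * δ⁻¹ ^ 3)))
        / Real.sqrt n < |DR (goeM A ω) z|} ≤ 2 * Real.exp (-n) := by
  have hn' : (0 : ℝ) < n := by exact_mod_cast hn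
  have hn1 : (1 : ℝ) ≤ n := by exact_mod_cast hn
  have s0 : 0 < Real.sqrt n := Real.sqrt_pos.2 hn'
  have ss : Real.sqrt n * Real.sqrt n = n := Real.mul_self_sqrt hn'.le
  set η := Real.sqrt (Real.sqrt (Real.sqrt n)⁻¹) with hη
  have η0 : 0 < η := Real.sqrt_pos.2 (Real.sqrt_pos.2 (inv_pos.2 s0))
  have η4 : η ^ 4 = (Real.sqrt n)⁻¹ := by
    rw [show η ^ 4 = (η ^ 2) ^ 2 by ring, hη, Real.sq_sqrt (Real.sqrt_nonneg _),
      Real.sq_sqrt (inv_nonneg.2 s0.le)]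
  have η1 : η ≤ 1 := Real.sqrt_le_one.2
    (Real.sqrt_le_one.2 (inv_le_one_of_one_le₀ (Real.one_le_sqrt.2 hn1)))
  have en : (n : ℝ) = (η ^ 8)⁻¹ := by
    rw [show η ^ 8 = η ^ 4 * η ^ 4 by ring, η4, ← mul_inv, inv_inv, ss]
  have hz0 : |z| ≤ 21 := by rw [abs_le]; constructor <;> linarith
  have hE := QS_tail hA hn hz0 η0 η1
  have hE' := QS_tail hA hn hz0 (η := η / 2) (by positivity) (by linarith)
  have ex : ((n : ℝ) * η)⁻¹ * η⁻¹ = η ^ 6 := by rw [en]; field_simp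
  have ex' : ((n : ℝ) * (η / 2))⁻¹ * (η / 2)⁻¹ = 4 * η ^ 6 := by rw [en]; field_simp; ring
  rw [ex] at hE
  rw [ex'] at hE'
  rw [add_div]
  refine tail_of_med hA hn (f := fun J => DR J z) (by positivity) (fun J J' hJ hJ' hs hs' =>
    Sp.DR_sub hn hJ hJ' hs hs' hδ hz hz') hS
    (((measureReal_union_le _ _).trans (add_le_add hE hE')).trans (by norm_num)) fun ω h1 h2 => ?_
  obtain ⟨O, lam, hO⟩ := exists_isEig (hA.goeM_tr ω)
  have hb := h1.bd hO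
  obtain ⟨E, hE2⟩ := hb.im_QS hn hδ hz hz' hO
  have a1 := abs_le.1 (hE2 η η0 η1)
  have a2 := abs_le.1 (hE2 (η / 2) (by positivity) (by linarith))
  simp only [Set.mem_union, Set.mem_setOf_eq, not_or, not_le] at h2
  have η5 : η ^ 5 ≤ η ^ 4 := pow_le_pow_of_le_one η0.le η1 (by norm_num)
  have b1 : |(QS ⟨z, η⟩ (goeM A ω)).im / η| ≤ 56 * η ^ 5 := by
    rw [abs_div, abs_of_pos η0, div_le_iff₀ η0]
    exact (Complex.abs_im_le_norm _).trans (h2.1.le.trans_eq (by ring))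
  have b2 : |(QS ⟨z, η / 2⟩ (goeM A ω)).im / (η / 2)| ≤ 448 * η ^ 5 := by
    rw [abs_div, abs_of_pos (by positivity : 0 < η / 2), div_le_iff₀ (by positivity)]
    exact (Complex.abs_im_le_norm _).trans (h2.2.le.trans_eq (by ring))
  have b3 := abs_le.1 b1
  have b4 := abs_le.1 b2
  have K0 : 0 ≤ KR δ * η ^ 4 := mul_nonneg (KR_pos hδ).le (by positivity)
  have e1 : KR δ * (η / 2) ^ 4 = KR δ * η ^ 4 / 16 := by ring
  have e2 : (η / 2) ^ 2 * E = η ^ 2 * E / 4 := by ring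
  have e3 : (616 + KR δ) / Real.sqrt n = 616 * η ^ 4 + KR δ * η ^ 4 := by rw [η4]; ring
  rw [e1, e2] at a2
  show |DR (goeM A ω) z| ≤ _
  rw [DR_eq hO hb hδ hz, e3, abs_le]
  constructor <;> linarith [a1.1, a1.2, a2.1, a2.2, b3.1, b3.2, b4.1, b4.2]

omit hA in
theorem exists_grid (hn : 0 < n) {a z : ℝ} (ha : 2 ≤ a) (h1 : a ≤ z) (h2 : z ≤ 21) :
    ∃ j ∈ Finset.range (19 * n + 1), ∃ t : ℝ, 0 ≤ t ∧ t ≤ 1 / n ∧ z = a + j / n + t := by
  have hn' : (0 : ℝ) < n := by exact_mod_cast hn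
  have h0 : 0 ≤ (z - a) * n := mul_nonneg (by linarith) hn'.le
  refine ⟨⌊(z - a) * n⌋₊, ?_, z - a - ⌊(z - a) * n⌋₊ / n, ?_, ?_, by ring⟩
  · rw [Finset.mem_range, Nat.lt_succ_iff]
    refine Nat.floor_le_of_le ?_
    push_cast
    nlinarith
  · have := Nat.floor_le h0
    rw [sub_nonneg, div_le_iff₀ hn']
    exact this
  · have := (Nat.lt_floor_add_one ((z - a) * n)).le
    rw [sub_le_iff_le_add, ← add_div, le_div_iff₀ hn']
    linarith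

/-- from points to the whole interval -/
theorem unif_of_point (hn : 0 < n) {δ C0 C3 p : ℝ} (hδ : 0 < δ) (C30 : 0 ≤ C3) (hp : 0 ≤ p)
    {f : Mat n → ℝ → ℝ} (hpt : ∀ z, 2 + 2 * δ ≤ z → z ≤ 21 →
      (gpi ι).real {ω | Sp δ (goeM A ω) ∧ C0 / Real.sqrt n < |f (goeM A ω) z|} ≤ p)
    (hf : ∀ J : Mat n, Jᵀ = J → Sp δ J → ∀ z t, 2 + 2 * δ ≤ z → 0 ≤ t → z + t ≤ 21 →
      |f J (z + t) - f J z| ≤ t * C3) :
    (gpi ι).real {ω | Sp δ (goeM A ω) ∧ ¬ ∀ z, 2 + 2 * δ ≤ z → z ≤ 21 →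
      |f (goeM A ω) z| ≤ (C0 + C3) / Real.sqrt n} ≤ (19 * n + 1) * p := by
  have hn' : (0 : ℝ) < n := by exact_mod_cast hn
  have hn1 : (1 : ℝ) ≤ n := by exact_mod_cast hn
  have s0 : 0 < Real.sqrt n := Real.sqrt_pos.2 hn'
  set B : ℕ → Set (ι → ℝ) := fun j => {ω | 2 + 2 * δ + j / n ≤ 21 ∧ Sp δ (goeM A ω) ∧
    C0 / Real.sqrt n < |f (goeM A ω) (2 + 2 * δ + j / n)|} with hB
  have hsub : {ω | Sp δ (goeM A ω) ∧ ¬ ∀ z, 2 + 2 * δ ≤ z → z ≤ 21 →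
      |f (goeM A ω) z| ≤ (C0 + C3) / Real.sqrt n} ⊆ ⋃ j ∈ Finset.range (19 * n + 1), B j := by
    rintro ω ⟨h1, h2⟩
    by_contra hc
    simp only [Set.mem_iUnion, not_exists] at hc
    refine h2 fun z hz hz' => ?_
    obtain ⟨j, hj, t, t0, t1, e⟩ := exists_grid hn (by linarith : 2 ≤ 2 + 2 * δ) hz hz'
    have hj0 : (0 : ℝ) ≤ j / n := by positivity
    have h3 : |f (goeM A ω) (2 + 2 * δ + j / n)| ≤ C0 / Real.sqrt n := by
      by_contra h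
      exact hc j hj ⟨by linarith, h1, not_le.1 h⟩
    have h4 := hf _ (hA.goeM_tr ω) h1 (2 + 2 * δ + j / n) t (by linarith) t0 (by linarith)
    rw [← e] at h4
    have h5 : t ≤ 1 / Real.sqrt n := by
      refine t1.trans (one_div_le_one_div_of_le s0 ?_)
      rw [Real.sqrt_le_left hn'.le]
      nlinarith
    have h6 := mul_le_mul_of_nonneg_right h5 C30
    have h7 := abs_sub_abs_le_abs_sub (f (goeM A ω) z) (f (goeM A ω) (2 + 2 * δ + j / n))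
    have e2 : (C0 + C3) / Real.sqrt n = C0 / Real.sqrt n + 1 / Real.sqrt n * C3 := by ring
    linarith
  refine (measureReal_mono hsub (measure_ne_top _ _)).trans
    ((measureReal_biUnion_finset_le _ _).trans ?_)
  refine (Finset.sum_le_card_nsmul _ _ p fun j _ => ?_).trans (by simp)
  by_cases hj : 2 + 2 * δ + j / n ≤ 21
  · have hj0 : (0 : ℝ) ≤ j / n := by positivity
    exact (measureReal_mono fun ω hω => hω.2).trans (hpt _ (by linarith) hj)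
  · have : B j = ∅ := Set.eq_empty_of_forall_notMem fun ω hω => hj hω.1
    rw [this, measureReal_empty]
    exact hp

end goe

/-- the spectrum is in `[-3, 2 + δ]` and the self-consistent equation and its derivative hold up
to `C / √n` for all real `z ∈ [2 + 2 δ, 21]` -/
structure ResOK (δ C : ℝ) (J : Mat n) : Prop where
  symm : Jᵀ = J
  sp : Sp δ J
  q : ∀ z, 2 + 2 * δ ≤ z → z ≤ 21 → |QR J z| ≤ C / Real.sqrt n
  dq : ∀ z, 2 + 2 * δ ≤ z → z ≤ 21 → |DR J z| ≤ C / Real.sqrt n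

theorem ResOK.mono {δ C C' : ℝ} {J : Mat n} (h : ResOK δ C J) (hC : C ≤ C') : ResOK δ C' J :=
  ⟨h.symm, h.sp, fun z hz hz' => (h.q z hz hz').trans
    (div_le_div_of_nonneg_right hC (Real.sqrt_nonneg _)), fun z hz hz' => (h.dq z hz hz').trans
    (div_le_div_of_nonneg_right hC (Real.sqrt_nonneg _))⟩

/-- uniform version -/
theorem unif_tail {δ : ℝ} (hδ : 0 < δ) : ∃ C : ℝ, 0 < C ∧ ∀ (n : ℕ), 0 < n →
    ∀ (ι : Type) [Fintype ι] (A : ι → Mat n), GoeFam A →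
      (gpi ι).real {ω | ¬ Sp δ (goeM A ω)} ≤ 1 / 8 →
      (gpi ι).real {ω | Sp δ (goeM A ω) ∧ ¬ ResOK δ C (goeM A ω)} ≤
        2 * ((19 * n + 1) * (2 * Real.exp (-n))) := by
  set C0 := 56 + ((21 + 2 * δ⁻¹) * δ⁻¹ ^ 3 + δ⁻¹ ^ 2 + δ⁻¹ ^ 4) + 8 * ((21 + 2 * δ⁻¹) * δ⁻¹ ^ 2)
    with hC0
  set C3 := δ⁻¹ + (21 + 2 * δ⁻¹) * δ⁻¹ ^ 2 with hC3
  set D0 := 616 + KR δ + 8 * ((1 + 2 * δ⁻¹ ^ 2) * δ⁻¹ ^ 2 + (21 + 2 * δ⁻¹) * (2 * δ⁻¹ ^ 3))
    with hD0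
  set D3 := 2 * δ⁻¹ ^ 2 + 2 * δ⁻¹ ^ 4 + (21 + 2 * δ⁻¹) * (2 * δ⁻¹ ^ 3) with hD3
  have K0 := KR_pos hδ
  have p1 : 0 < C0 + C3 := by positivity
  have p2 : 0 < D0 + D3 := by positivity
  refine ⟨C0 + C3 + (D0 + D3), by positivity, fun n hn ι _ A hA hS => ?_⟩
  have a1 := unif_of_point hA hn (C0 := C0) (C3 := C3) (f := QR) hδ (by positivity)
    (by positivity) (fun z hz hz' => point_tail hA hn hδ hz hz' hS) fun J hJ hs z t hz ht hz' => by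
      obtain ⟨O, lam, hO⟩ := exists_isEig hJ
      have hb := hs.bd hO
      rw [QR_eq hO hb hδ hz, QR_eq hO hb hδ (by linarith)]
      exact hb.q1_sub hn hδ hz ht hz'
  have a2 := unif_of_point hA hn (C0 := D0) (C3 := D3) (f := DR) hδ (by positivity)
    (by positivity) (fun z hz hz' => point_tail' hA hn hδ hz hz' hS) fun J hJ hs z t hz ht hz' => by
      obtain ⟨O, lam, hO⟩ := exists_isEig hJ
      have hb := hs.bd hO
      rw [DR_eq hO hb hδ hz, DR_eq hO hb hδ (by linarith)]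
      exact hb.d1_sub hn hδ hz ht hz'
  refine le_trans (measureReal_mono fun ω hω => ?_)
    (((measureReal_union_le _ _).trans (add_le_add a1 a2)).trans_eq (by ring))
  by_contra hc
  simp only [Set.mem_union, Set.mem_setOf_eq, not_or, not_and, not_not] at hc
  exact hω.2 ⟨hA.goeM_tr ω, hω.1, fun z hz hz' => (hc.1 hω.1 z hz hz').trans
    (div_le_div_of_nonneg_right (by linarith) (Real.sqrt_nonneg _)),
    fun z hz hz' => (hc.2 hω.1 z hz hz').trans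
    (div_le_div_of_nonneg_right (by linarith) (Real.sqrt_nonneg _))⟩

theorem sp_tail {δ : ℝ} (hδ : 0 < δ) : ∃ C : ℝ, 0 < C ∧ ∀ (n : ℕ), 0 < n → C ≤ Real.sqrt n →
    ∀ (ι : Type) [Fintype ι] (A : ι → Mat n), GoeFam A →
      (gpi ι).real {ω | ¬ Sp δ (goeM A ω)} ≤ C / Real.sqrt n := by
  set y := Real.sqrt (Real.sqrt δ) with hy
  have y0 : 0 < y := Real.sqrt_pos.2 (Real.sqrt_pos.2 hδ)
  have y4 : y ^ 4 = δ := by
    rw [show y ^ 4 = (y ^ 2) ^ 2 by ring, hy, Real.sq_sqrt (Real.sqrt_nonneg _), Real.sq_sqrt hδ.le]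
  set K : ℝ := 248 * (4096 * 62 ^ 2) with hK
  have K0 : 256 ≤ K := by rw [hK]; norm_num
  refine ⟨K / y ^ 3 + K, by positivity, fun n hn hC ι _ A hA => ?_⟩
  have s0 : 0 < Real.sqrt n := Real.sqrt_pos.2 (by exact_mod_cast hn)
  have p3 : 0 < y ^ 3 := by positivity
  have a1 : K / y ^ 3 ≤ Real.sqrt n := by linarith
  have a2 : K ≤ Real.sqrt n := by
    have : 0 < K / y ^ 3 := by positivity
    linarith
  have h1 := hA.top_tail hn y0 (by rw [div_le_iff₀ p3] at a1; linarith)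
  have h2 := hA.bot_tail hn one_pos (by simpa using K0.trans a2)
  have hsub : {ω | ¬ Sp δ (goeM A ω)} ⊆
      {ω | ∃ O lam a, IsEig (goeM A ω) O lam ∧ 2 + y ^ 4 ≤ lam a} ∪
        {ω | ∃ O lam a, IsEig (goeM A ω) O lam ∧ lam a ≤ -2 - (1 : ℝ) ^ 4} := by
    intro ω hω
    obtain ⟨O, lam, hO⟩ := exists_isEig (hA.goeM_tr ω)
    by_contra hc
    simp only [Set.mem_union, Set.mem_setOf_eq, not_or, not_exists, not_and, not_le] at hc
    refine hω (sp_of_bd hO fun a => ⟨?_, ?_⟩)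
    · have := hc.2 O lam a hO
      linarith
    · have := hc.1 O lam a hO
      linarith
  refine (measureReal_mono hsub).trans ((measureReal_union_le _ _).trans ?_)
  have b1 := ENNReal.toReal_le_of_le_ofReal (by positivity) h1
  have b2 := ENNReal.toReal_le_of_le_ofReal (by positivity) h2
  rw [← hK] at b1 b2
  have e : (K / y ^ 3 + K) / Real.sqrt n =
      K / (Real.sqrt n * y ^ 3) + K / (Real.sqrt n * (1 : ℝ) ^ 3) := by field_simp
  rw [e]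
  exact add_le_add b1 b2

/-- **[RES]** the self-consistent equation on the real axis, with high probability -/
theorem res_whp {δ : ℝ} (hδ : 0 < δ) : ∃ C : ℝ, 0 < C ∧ ∃ N : ℕ, ∀ n ≥ N,
    ∀ (ι : Type) [Fintype ι] (A : ι → Mat n), GoeFam A →
      (gpi ι).real {ω | ¬ ResOK δ C (goeM A ω)} ≤ C / Real.sqrt n := by
  obtain ⟨C1, hC1, H1⟩ := unif_tail hδ
  obtain ⟨C2, hC2, H2⟩ := sp_tail hδ
  obtain ⟨N, hN⟩ := exists_nat_ge ((8 * C2) ^ 2 + 1)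
  refine ⟨C1 + C2 + 480, by positivity, N, fun n hn ι _ A hA => ?_⟩
  have h0 : (8 * C2) ^ 2 + 1 ≤ (n : ℝ) := hN.trans (by exact_mod_cast hn)
  have hn1 : (1 : ℝ) ≤ n := by nlinarith [sq_nonneg (8 * C2)]
  have hn' : (0 : ℝ) < n := by linarith
  have hn0 : 0 < n := by exact_mod_cast hn'
  have s0 : 0 < Real.sqrt n := Real.sqrt_pos.2 hn'
  have s1 : 8 * C2 ≤ Real.sqrt n := Real.le_sqrt_of_sq_le (by linarith)
  have a1 := H2 n hn0 (by linarith) ι A hA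
  have a2 := H1 n hn0 ι A hA (a1.trans (by rw [div_le_iff₀ s0]; linarith))
  have hsub : {ω | ¬ ResOK δ (C1 + C2 + 480) (goeM A ω)} ⊆
      {ω | ¬ Sp δ (goeM A ω)} ∪ {ω | Sp δ (goeM A ω) ∧ ¬ ResOK δ C1 (goeM A ω)} := by
    intro ω hω
    by_cases h : Sp δ (goeM A ω)
    · exact Or.inr ⟨h, fun h2 => hω (h2.mono (by linarith))⟩
    · exact Or.inl h
  refine (measureReal_mono hsub).trans ((measureReal_union_le _ _).trans ?_)
  have a3 : 2 * ((19 * n + 1) * (2 * Real.exp (-n))) ≤ 480 / Real.sqrt n := by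
    have e1 := Real.pow_div_factorial_le_exp (n : ℝ) hn'.le 3
    norm_num [Nat.factorial] at e1
    have e2 : Real.sqrt n ≤ n := by rw [Real.sqrt_le_left hn'.le]; nlinarith
    have e3 := Real.exp_pos (n : ℝ)
    have e5 : 2 * ((19 * n + 1) * (2 * Real.exp (-n))) = (19 * n + 1) * 4 / Real.exp n := by
      rw [Real.exp_neg]; ring
    rw [e5, div_le_div_iff₀ e3 s0]
    have e4 : (19 * n + 1) * 4 * Real.sqrt n ≤ 80 * (n : ℝ) ^ 3 := by
      have : (19 * n + 1) * 4 * Real.sqrt n ≤ (80 * n) * n :=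
        mul_le_mul (by linarith) e2 s0.le (by positivity)
      have h3 : (n : ℝ) * n * 1 ≤ n * n * n := mul_le_mul_of_nonneg_left hn1 (by positivity)
      nlinarith [h3]
    linarith
  have e : (C1 + C2 + 480) / Real.sqrt n =
      C1 / Real.sqrt n + C2 / Real.sqrt n + 480 / Real.sqrt n := by ring
  have : 0 ≤ C1 / Real.sqrt n := by positivity
  linarith

/-! ### deterministic consequences -/

/-- output at scale one: `w = tr (z - J)⁻¹ / n`, `u = tr (z - J)⁻² / n` -/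
theorem res_out {δ C : ℝ} (hδ : 0 < δ) (hC : 0 ≤ C) : ∃ C' : ℝ, 0 < C' ∧ ∀ (n : ℕ), 0 < n →
    ∀ J : Mat n, ResOK δ C J → ∀ z w u : ℝ, 2 + 2 * δ ≤ z → z ≤ 21 → w = (G0 J z).trace / n →
      u = T2 J z / n → 24⁻¹ ≤ w ∧ w ≤ δ⁻¹ ∧ 576⁻¹ ≤ u ∧ u ≤ δ⁻¹ ^ 2 ∧
        |z - w⁻¹ - w| ≤ C' / Real.sqrt n ∧ |u⁻¹ - (w ^ 2)⁻¹ + 1| ≤ C' / Real.sqrt n := by
  set C5 := δ⁻¹ * C + C * δ⁻¹ ^ 2 with hC5
  have C50 : 0 ≤ C5 := by positivity
  refine ⟨24 * C + 576 ^ 2 * C5 + 1, by positivity, fun n hn J h z w u hz hz' hw hu => ?_⟩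
  have hn' : (0 : ℝ) < n := by exact_mod_cast hn
  have s0 : 0 < Real.sqrt n := Real.sqrt_pos.2 hn'
  obtain ⟨O, lam, hO⟩ := exists_isEig h.symm
  have hb := h.sp.bd hO
  have q0 := h.q z hz hz'
  have q1' := h.dq z hz hz'
  unfold QR at q0
  unfold DR at q1'
  rw [← hw] at q0 q1'
  rw [← hu] at q1'
  rw [eig_trace hO fun a => (hb.pos hδ hz a).ne'] at hw
  rw [eig_T2 hO fun a => (hb.pos hδ hz a).ne'] at hu
  have a1 := hb.m1_le hn hδ hz
  have b1 := hb.le_m1 hn hδ hz hz'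
  have a2 := hb.m2_le hn hδ hz
  have b2 := hb.le_m2 hn hδ hz hz'
  rw [← hw] at a1 b1
  rw [← hu] at a2 b2
  have w0 : 0 < w := by linarith
  have u0 : 0 < u := by linarith
  have d : |w ^ 2 - (1 - w ^ 2) * u| ≤ C5 / Real.sqrt n := by
    have e2 : w ^ 2 - (1 - w ^ 2) * u = w * (w - (z - 2 * w) * u) + (z * w - 1 - w ^ 2) * u := by
      ring
    rw [e2]
    refine (abs_add_le _ _).trans ?_
    rw [abs_mul, abs_mul, abs_of_pos w0, abs_of_pos u0]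
    refine (add_le_add (mul_le_mul a1 q1' (abs_nonneg _) (by positivity))
      (mul_le_mul q0 a2 u0.le (by positivity))).trans_eq ?_
    rw [hC5]; ring
  have iw : w⁻¹ ≤ 24 := by rw [inv_le_comm₀ w0 (by norm_num)]; exact b1
  have iu : u⁻¹ ≤ 576 := by rw [inv_le_comm₀ u0 (by norm_num)]; linarith
  refine ⟨b1, a1, by linarith, a2, ?_, ?_⟩
  · have e : z - w⁻¹ - w = w⁻¹ * (z * w - 1 - w ^ 2) := by field_simp
    rw [e, abs_mul, abs_of_pos (inv_pos.2 w0)]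
    calc w⁻¹ * |z * w - 1 - w ^ 2| ≤ 24 * (C / Real.sqrt n) :=
          mul_le_mul iw q0 (abs_nonneg _) (by norm_num)
      _ = 24 * C / Real.sqrt n := by ring
      _ ≤ _ := div_le_div_of_nonneg_right
          (by linarith [mul_nonneg (by norm_num : (0:ℝ) ≤ 576 ^ 2) C50]) s0.le
  · have e : u⁻¹ - (w ^ 2)⁻¹ + 1 = (u⁻¹ * w⁻¹ ^ 2) * (w ^ 2 - (1 - w ^ 2) * u) := by
      field_simp; ring
    have i2 : u⁻¹ * w⁻¹ ^ 2 ≤ 576 * 24 ^ 2 :=
      mul_le_mul iu (pow_le_pow_left₀ (inv_nonneg.2 w0.le) iw 2) (by positivity) (by norm_num)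
    rw [e, abs_mul, abs_of_pos (by positivity)]
    calc u⁻¹ * w⁻¹ ^ 2 * |w ^ 2 - (1 - w ^ 2) * u| ≤ 576 * 24 ^ 2 * (C5 / Real.sqrt n) :=
          mul_le_mul i2 d (abs_nonneg _) (by norm_num)
      _ = 576 ^ 2 * C5 / Real.sqrt n := by ring
      _ ≤ _ := div_le_div_of_nonneg_right (by linarith) s0.le

theorem G0_scale {J : Mat n} {r κ z : ℝ} (hr : r ≠ 0)
    (hu : IsUnit (Nm J ((z + κ) / r)).det) :
    G0 (r • J - κ • (1 : Mat n)) z = r⁻¹ • G0 J ((z + κ) / r) := by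
  have e : Nm (r • J - κ • (1 : Mat n)) z = r • Nm J ((z + κ) / r) := by
    unfold Nm
    rw [smul_sub, smul_smul, mul_div_cancel₀ _ hr, add_smul]
    abel
  unfold G0
  rw [e]
  apply Matrix.inv_eq_left_inv
  rw [Matrix.smul_mul, Matrix.mul_smul, smul_smul, inv_mul_cancel₀ hr, one_smul]
  exact Matrix.nonsing_inv_mul _ hu

/-- output for the couplings `r J - κ`: Onsager term and rank one coefficient -/
theorem res_scaled {δ C : ℝ} (hδ : 0 < δ) (hC : 0 ≤ C) : ∃ C' : ℝ, 0 < C' ∧ ∀ (n : ℕ), 0 < n →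
    ∀ J : Mat n, ResOK δ C J → ∀ r κ z w : ℝ, 0 < r → r ≤ 1 → r * (2 + 2 * δ) ≤ z + κ →
      z + κ ≤ 21 * r → w = (G0 (r • J - κ • (1 : Mat n)) z).trace / n →
        24⁻¹ ≤ w ∧ |z + κ - w⁻¹ - r ^ 2 * w| ≤ C' / Real.sqrt n ∧
        |2 / T2 (r • J - κ • (1 : Mat n)) z - 2 / (n * w ^ 2) + 2 * r ^ 2 / n| ≤
          C' / (n * Real.sqrt n) := by
  obtain ⟨C', hC', H⟩ := res_out hδ hC
  refine ⟨2 * C', by positivity, fun n hn J h r κ z w hr hr1 hz hz' hw => ?_⟩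
  have hn' : (0 : ℝ) < n := by exact_mod_cast hn
  have s0 : 0 < Real.sqrt n := Real.sqrt_pos.2 hn'
  have h1 : 2 + 2 * δ ≤ (z + κ) / r := by rw [le_div_iff₀ hr]; linarith
  have h2 : (z + κ) / r ≤ 21 := by rw [div_le_iff₀ hr]; linarith
  have hG := G0_scale (κ := κ) (z := z) hr.ne' (isUnit_of_low (h.sp.low hδ h1))
  obtain ⟨a1, -, a2, -, a3, a4⟩ := H n hn J h _ _ _ h1 h2 rfl rfl
  set w' := (G0 J ((z + κ) / r)).trace / n with hw'
  set u' := T2 J ((z + κ) / r) / n with hu'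
  have e1 : w = r⁻¹ * w' := by
    rw [hw, hG, Matrix.trace_smul, smul_eq_mul, hw']; ring
  have e2 : T2 (r • J - κ • (1 : Mat n)) z = n * (r⁻¹ ^ 2 * u') := by
    unfold T2 at hu' ⊢
    rw [hG, Matrix.smul_mul, Matrix.mul_smul, smul_smul, Matrix.trace_smul, smul_eq_mul, hu']
    field_simp
  have w0 : 0 < w' := by linarith
  have u0 : 0 < u' := by linarith
  have i1 : 1 ≤ r⁻¹ := (one_le_inv₀ hr).2 hr1
  refine ⟨by rw [e1]; nlinarith, ?_, ?_⟩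
  · have e : z + κ - w⁻¹ - r ^ 2 * w = r * ((z + κ) / r - w'⁻¹ - w') := by
      rw [e1]; field_simp
    rw [e, abs_mul, abs_of_pos hr]
    calc r * |(z + κ) / r - w'⁻¹ - w'| ≤ 1 * (C' / Real.sqrt n) :=
          mul_le_mul hr1 a3 (abs_nonneg _) zero_le_one
      _ ≤ _ := by rw [one_mul]; exact div_le_div_of_nonneg_right (by linarith) s0.le
  · have e : 2 / T2 (r • J - κ • (1 : Mat n)) z - 2 / (n * w ^ 2) + 2 * r ^ 2 / n =
        (2 * r ^ 2 / n) * (u'⁻¹ - (w' ^ 2)⁻¹ + 1) := by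
      rw [e1, e2]; field_simp
    have b : 2 * r ^ 2 / n ≤ 2 / n := div_le_div_of_nonneg_right (by nlinarith) hn'.le
    rw [e, abs_mul, abs_of_pos (by positivity)]
    calc 2 * r ^ 2 / n * |u'⁻¹ - (w' ^ 2)⁻¹ + 1| ≤ 2 / n * (C' / Real.sqrt n) :=
          mul_le_mul b a4 (abs_nonneg _) (by positivity)
      _ = _ := by field_simp

end Vale.Agent.N150.Res
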