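import Vale.Agent.N150.SmDef

/-! Low temperature, one site calculus: Gaussian moments, Taylor bounds, smoothing. -/

open MeasureTheory ProbabilityTheory Filter Topology

namespace Vale.Agent.N150.Sc

open Vale.Agent.P150 Vale.Agent.P150.F
open Vale.Agent.N150.Sm2 (gam)

/-! ### Moments -/

theorem int_pow (k : ℕ) : Integrable (fun x : ℝ => x ^ k) gam := by
  have h := (memLp_id_gaussianReal (μ := 0) (v := 1) (k : NNReal)).integrable_norm_pow'
    (p := k)
  refine h.mono' (by fun_prop) (Eventually.of_forall fun x => ?_)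
  simp

theorem mom_succ (k : ℕ) : ∫ x, x ^ (k + 2) ∂gam = (k + 1) * ∫ x, x ^ k ∂gam := by
  have h := stein_one (g := fun x => x ^ (k + 1)) (g' := fun x => ((k + 1 : ℕ) : ℝ) * x ^ k)
    (fun t => by simpa using hasDerivAt_pow (k + 1) t)
    ((int_pow (k + 2)).congr (Eventually.of_forall fun x => by simp only; ring))
    ((int_pow k).const_mul _) (int_pow (k + 1))
  rw [integral_const_mul] at h
  push_cast at h
  rw [← h]
  refine integral_congr_ae (Eventually.of_forall fun x => ?_)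
  simp only; ring

theorem mom0 : ∫ x : ℝ, x ^ 0 ∂gam = 1 := by simp
theorem mom1 : ∫ x : ℝ, x ^ 1 ∂gam = 0 := by simp
theorem mom2 : ∫ x : ℝ, x ^ 2 ∂gam = 1 := by rw [mom_succ 0, mom0]; norm_num
theorem mom3 : ∫ x : ℝ, x ^ 3 ∂gam = 0 := by rw [mom_succ 1, mom1]; norm_num
theorem mom4 : ∫ x : ℝ, x ^ 4 ∂gam = 3 := by rw [mom_succ 2, mom2]; norm_num
theorem mom6 : ∫ x : ℝ, x ^ 6 ∂gam = 15 := by rw [mom_succ 4, mom4]; norm_num
theorem mom8 : ∫ x : ℝ, x ^ 8 ∂gam = 105 := by rw [mom_succ 6, mom6]; norm_num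

theorem int_env (C : ℝ) (k : ℕ) : Integrable (fun x : ℝ => C * (1 + x ^ k)) gam :=
  ((integrable_const 1).add (int_pow k)).const_mul C

theorem env_eq (C : ℝ) (k : ℕ) :
    ∫ x, C * (1 + x ^ k) ∂gam = C * (1 + ∫ x, x ^ k ∂gam) := by
  rw [integral_const_mul, integral_add (integrable_const 1) (int_pow k)]
  simp

theorem int8 {h : ℝ → ℝ} (hc : Continuous h) {C : ℝ} (hb : ∀ x, |h x| ≤ C * (1 + x ^ 8)) :
    Integrable h gam :=
  (int_env C 8).mono' hc.aestronglyMeasurable (Eventually.of_forall hb)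

theorem le8 {h : ℝ → ℝ} {C : ℝ} (hb : ∀ x, |h x| ≤ C * (1 + x ^ 8)) :
    |∫ x, h x ∂gam| ≤ 106 * C := by
  have h1 := norm_integral_le_of_norm_le (int_env C 8) (f := h) (Eventually.of_forall hb)
  rw [env_eq, mom8, Real.norm_eq_abs] at h1
  linarith

theorem near8 {h p : ℝ → ℝ} (hh : Integrable h gam) (hp : Integrable p gam) {C : ℝ}
    (hb : ∀ x, |h x - p x| ≤ C * (1 + x ^ 8)) :
    |∫ x, h x ∂gam - ∫ x, p x ∂gam| ≤ 106 * C := by
  rw [← integral_sub hh hp]
  exact le8 hb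

theorem abs_pow_le (x : ℝ) {k : ℕ} (hk : k ≤ 8) : |x| ^ k ≤ 1 + x ^ 8 := by
  have h8 : 0 ≤ x ^ 8 := by positivity
  rcases le_total |x| 1 with h | h
  · have := pow_le_one₀ (abs_nonneg x) h (n := k)
    linarith
  · have h1 := pow_le_pow_right₀ h hk
    have h2 : |x| ^ 8 = x ^ 8 := by rw [← abs_pow]; exact abs_of_nonneg h8
    linarith

theorem abs_pow_le4 (x : ℝ) {k : ℕ} (hk : k ≤ 4) : |x| ^ k ≤ 1 + x ^ 4 := by
  have h8 : 0 ≤ x ^ 4 := by positivity
  rcases le_total |x| 1 with h | h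
  · have := pow_le_one₀ (abs_nonneg x) h (n := k)
    linarith
  · have h1 := pow_le_pow_right₀ h hk
    have h2 : |x| ^ 4 = x ^ 4 := by rw [← abs_pow]; exact abs_of_nonneg h8
    linarith

/-- functions with linear growth -/
theorem int_lin {h : ℝ → ℝ} (hc : Continuous h) {A B : ℝ} (hB : 0 ≤ B)
    (hb : ∀ x, |h x| ≤ A + B * |x|) (y a : ℝ) : Integrable (fun z => h (y + a * z)) gam := by
  refine int8 (by fun_prop) (C := |A| + B * |y| + B * |a|) fun z => (hb _).trans ?_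
  have h1 : |y + a * z| ≤ |y| + |a| * |z| := by
    rw [← abs_mul]; exact abs_add_le _ _
  have h2 := abs_pow_le z (k := 1) (by norm_num)
  rw [pow_one] at h2
  have h3 : 0 ≤ z ^ 8 := by positivity
  have h4 : B * (|a| * |z|) ≤ B * (|a| * (1 + z ^ 8)) := by gcongr
  have h5 : 0 ≤ (|A| + B * |y|) * z ^ 8 := by positivity
  nlinarith [le_abs_self A, mul_le_mul_of_nonneg_left h1 hB]

/-! ### Sums of Gaussian variables -/

theorem map_mul (a : ℝ) :
    gam.map (fun z => a * z) = gaussianReal 0 (NNReal.mk (a ^ 2) (sq_nonneg a)) := by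
  have h := gaussianReal_map_const_mul (μ := 0) (v := 1) a
  rw [mul_zero, mul_one] at h
  exact h

theorem gsum {h : ℝ → ℝ} (hc : Continuous h) {A B : ℝ} (hB : 0 ≤ B)
    (hb : ∀ x, |h x| ≤ A + B * |x|) (y a b c : ℝ) (hc2 : c ^ 2 = a ^ 2 + b ^ 2) :
    ∫ z, ∫ g, h (y + a * z + b * g) ∂gam ∂gam = ∫ z, h (y + c * z) ∂gam := by
  have e : (gam.map fun z => a * z) ∗ (gam.map fun z => b * z) = gam.map fun z => c * z := by
    rw [map_mul, map_mul, map_mul, gaussianReal_conv_gaussianReal, add_zero]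
    congr 1
    ext
    simp [hc2]
  have hm : Continuous fun x => h (y + x) := by fun_prop
  have hi : Integrable (fun x => h (y + x)) (gam.map fun z => c * z) := by
    rw [integrable_map_measure hm.aestronglyMeasurable (by fun_prop)]
    exact int_lin hc hB hb y c
  have h1 := integral_conv (μ := gam.map fun z => a * z) (ν := gam.map fun z => b * z)
    (f := fun x => h (y + x)) (by rw [e]; exact hi)
  rw [e, integral_map (by fun_prop) hm.aestronglyMeasurable] at h1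
  rw [h1, integral_map (by fun_prop)]
  · refine integral_congr_ae (Eventually.of_forall fun z => ?_)
    simp only
    rw [integral_map (by fun_prop) (by fun_prop)]
    simp only [add_assoc]
  · refine StronglyMeasurable.aestronglyMeasurable ?_
    refine StronglyMeasurable.integral_prod_right' (f := fun p : ℝ × ℝ => h (y + (p.1 + p.2))) ?_
    exact (by fun_prop : Continuous fun p : ℝ × ℝ => h (y + (p.1 + p.2))).stronglyMeasurable

/-! ### Taylor bounds -/

theorem mv {g g1 : ℝ → ℝ} (hd : ∀ y, HasDerivAt g (g1 y) y) (h0 : g 0 = 0) {B : ℝ} (hB : 0 ≤ B)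
    {n : ℕ} (hb : ∀ y, |g1 y| ≤ B * |y| ^ n) (x : ℝ) : |g x| ≤ B * |x| ^ (n + 1) := by
  have h := Convex.norm_image_sub_le_of_norm_hasDerivWithin_le (s := Set.Icc (-|x|) |x|)
    (f := g) (f' := g1) (C := B * |x| ^ n) (x := 0) (y := x)
    (fun y _ => (hd y).hasDerivWithinAt)
    (fun y hy => by
      rw [Real.norm_eq_abs]
      refine (hb y).trans (mul_le_mul_of_nonneg_left ?_ hB)
      exact pow_le_pow_left₀ (abs_nonneg y) (abs_le.2 hy) n) (convex_Icc _ _)
    ⟨neg_nonpos.2 (abs_nonneg x), abs_nonneg x⟩ ⟨neg_abs_le x, le_abs_self x⟩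
  rw [Real.norm_eq_abs, Real.norm_eq_abs, sub_zero, h0, sub_zero] at h
  rw [pow_succ, ← mul_assoc]
  exact h

theorem tay1 {g0 g1 : ℝ → ℝ} (d0 : ∀ y, HasDerivAt g0 (g1 y) y) {K : ℝ}
    (hb : ∀ y, |g1 y| ≤ K) (x h : ℝ) : |g0 (x + h) - g0 x| ≤ K * |h| := by
  have hK : 0 ≤ K := (abs_nonneg _).trans (hb 0)
  have := mv (g := fun h => g0 (x + h) - g0 x) (g1 := fun h => g1 (x + h))
    (fun y => by simpa using ((d0 (x + y)).comp_const_add x y).sub_const (g0 x)) (by simp) hK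
    (n := 0) (fun y => by simpa using hb _) h
  simpa using this

theorem tay2 {g0 g1 g2 : ℝ → ℝ} (d0 : ∀ y, HasDerivAt g0 (g1 y) y)
    (d1 : ∀ y, HasDerivAt g1 (g2 y) y) {K : ℝ} (hb : ∀ y, |g2 y| ≤ K) (x h : ℝ) :
    |g0 (x + h) - g0 x - g1 x * h| ≤ K * |h| ^ 2 := by
  have hK : 0 ≤ K := (abs_nonneg _).trans (hb 0)
  exact mv (g := fun h => g0 (x + h) - g0 x - g1 x * h) (g1 := fun h => g1 (x + h) - g1 x)
    (fun y => ((((d0 (x + y)).comp_const_add x y).sub_const (g0 x)).sub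
        ((hasDerivAt_id y).const_mul (g1 x))).congr_deriv (by ring)) (by simp) hK
    (n := 1) (fun y => by simpa using tay1 d1 hb x y) h

theorem tay3 {g0 g1 g2 g3 : ℝ → ℝ} (d0 : ∀ y, HasDerivAt g0 (g1 y) y)
    (d1 : ∀ y, HasDerivAt g1 (g2 y) y) (d2 : ∀ y, HasDerivAt g2 (g3 y) y) {K : ℝ}
    (hb : ∀ y, |g3 y| ≤ K) (x h : ℝ) :
    |g0 (x + h) - g0 x - g1 x * h - g2 x * h ^ 2 / 2| ≤ K * |h| ^ 3 := by
  have hK : 0 ≤ K := (abs_nonneg _).trans (hb 0)
  refine mv (g := fun h => g0 (x + h) - g0 x - g1 x * h - g2 x * h ^ 2 / 2)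
    (g1 := fun h => g1 (x + h) - g1 x - g2 x * h) (fun y => ?_) (by simp) hK
    (n := 2) (fun y => tay2 d1 d2 hb x y) h
  have h1 := ((((d0 (x + y)).comp_const_add x y).sub_const (g0 x)).sub
    ((hasDerivAt_id y).const_mul (g1 x))).sub
    (((hasDerivAt_pow 2 y).const_mul (g2 x)).div_const 2)
  refine h1.congr_deriv ?_
  simp only [Nat.cast_ofNat]
  ring

theorem tay4 {g0 g1 g2 g3 g4 : ℝ → ℝ} (d0 : ∀ y, HasDerivAt g0 (g1 y) y)
    (d1 : ∀ y, HasDerivAt g1 (g2 y) y) (d2 : ∀ y, HasDerivAt g2 (g3 y) y)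
    (d3 : ∀ y, HasDerivAt g3 (g4 y) y) {K : ℝ} (hb : ∀ y, |g4 y| ≤ K) (x h : ℝ) :
    |g0 (x + h) - g0 x - g1 x * h - g2 x * h ^ 2 / 2 - g3 x * h ^ 3 / 6| ≤ K * |h| ^ 4 := by
  have hK : 0 ≤ K := (abs_nonneg _).trans (hb 0)
  refine mv (g := fun h => g0 (x + h) - g0 x - g1 x * h - g2 x * h ^ 2 / 2 - g3 x * h ^ 3 / 6)
    (g1 := fun h => g1 (x + h) - g1 x - g2 x * h - g3 x * h ^ 2 / 2) (fun y => ?_) (by simp) hK
    (n := 3) (fun y => tay3 d1 d2 d3 hb x y) h
  have h1 := (((((d0 (x + y)).comp_const_add x y).sub_const (g0 x)).sub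
    ((hasDerivAt_id y).const_mul (g1 x))).sub
    (((hasDerivAt_pow 2 y).const_mul (g2 x)).div_const 2)).sub
    (((hasDerivAt_pow 3 y).const_mul (g3 x)).div_const 6)
  refine h1.congr_deriv ?_
  simp only [Nat.cast_ofNat]
  ring

theorem par {g g1 : ℝ → ℝ} (hd : ∀ y, HasDerivAt g (g1 y) y) {e : ℝ}
    (h : ∀ x, g (-x) = e * g x) (x : ℝ) : g1 (-x) = -e * g1 x := by
  have h1 : HasDerivAt (fun y => g (-y)) (g1 (-x) * -1) x :=
    (hd (-x)).comp x (hasDerivAt_neg x)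
  have h2 : HasDerivAt (fun y => g (-y)) (e * g1 x) x := by
    simp only [h]
    exact (hd x).const_mul e
  have := h1.unique h2
  linarith

/-! ### The class -/

/-- a function with five derivatives -/
structure Ch (K : ℝ) (f : ℕ → ℝ → ℝ) : Prop where
  one : 1 ≤ K
  der : ∀ j, j < 5 → ∀ x, HasDerivAt (f j) (f (j + 1) x) x
  c5 : Continuous (f 5)
  even : ∀ x, f 0 (-x) = f 0 x
  b1 : ∀ x, |f 1 x| ≤ 1
  p2 : ∀ x, 0 ≤ f 2 x
  b2 : ∀ x, f 2 x ≤ 1
  b3 : ∀ x, |f 3 x| ≤ K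
  b4 : ∀ x, |f 4 x| ≤ K
  b5 : ∀ x, |f 5 x| ≤ K

/-- the class of the functions of the recursion -/
structure Cls (K k : ℝ) (f : ℕ → ℝ → ℝ) : Prop where
  ch : Ch K f
  k4 : f 4 0 ≤ -k

namespace Ch

variable {K : ℝ} {f : ℕ → ℝ → ℝ} (h : Ch K f)
include h

theorem d0 (x : ℝ) : HasDerivAt (f 0) (f 1 x) x := h.der 0 (by norm_num) x
theorem d1 (x : ℝ) : HasDerivAt (f 1) (f 2 x) x := h.der 1 (by norm_num) x
theorem d2 (x : ℝ) : HasDerivAt (f 2) (f 3 x) x := h.der 2 (by norm_num) x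
theorem d3 (x : ℝ) : HasDerivAt (f 3) (f 4 x) x := h.der 3 (by norm_num) x
theorem d4 (x : ℝ) : HasDerivAt (f 4) (f 5 x) x := h.der 4 (by norm_num) x

theorem a2 (x : ℝ) : |f 2 x| ≤ 1 := by
  rw [abs_of_nonneg (h.p2 x)]; exact h.b2 x

theorem cont {j : ℕ} (hj : j ≤ 5) : Continuous (f j) := by
  rcases hj.eq_or_lt with rfl | hj
  · exact h.c5
  · exact continuous_iff_continuousAt.2 fun x => (h.der j hj x).continuousAt

theorem odd1 (x : ℝ) : f 1 (-x) = -f 1 x := by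
  have := par h.d0 (e := 1) (fun x => by rw [h.even, one_mul]) x
  linarith

theorem even2 (x : ℝ) : f 2 (-x) = f 2 x := by
  have := par h.d1 (e := -1) (fun x => by rw [h.odd1]; ring) x
  linarith

theorem odd3 (x : ℝ) : f 3 (-x) = -f 3 x := by
  have := par h.d2 (e := 1) (fun x => by rw [h.even2, one_mul]) x
  linarith

theorem z1 : f 1 0 = 0 := by
  have := h.odd1 0
  rw [neg_zero] at this
  linarith

theorem z3 : f 3 0 = 0 := by
  have := h.odd3 0
  rw [neg_zero] at this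
  linarith

theorem lin {j : ℕ} (hj : j ≤ 5) (x : ℝ) : |f j x| ≤ (|f 0 0| + K) + 1 * |x| := by
  have hK := h.one
  have h0 := abs_nonneg (f 0 0)
  have h1 := abs_nonneg x
  interval_cases j
  · have h2 := tay1 h.d0 h.b1 0 x
    rw [zero_add] at h2
    have h3 := abs_add_le (f 0 x - f 0 0) (f 0 0)
    rw [sub_add_cancel] at h3
    linarith
  · linarith [h.b1 x]
  · linarith [h.a2 x]
  · linarith [h.b3 x]
  · linarith [h.b4 x]
  · linarith [h.b5 x]

theorem bdd {j : ℕ} (hj1 : 1 ≤ j) (hj : j ≤ 5) (x : ℝ) : |f j x| ≤ K := by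
  have hK := h.one
  interval_cases j
  · linarith [h.b1 x]
  · linarith [h.a2 x]
  · exact h.b3 x
  · exact h.b4 x
  · exact h.b5 x

theorem int {j : ℕ} (hj : j ≤ 5) (y a : ℝ) : Integrable (fun z => f j (y + a * z)) gam :=
  int_lin (h.cont hj) zero_le_one (h.lin hj) y a

theorem int0 {j : ℕ} (hj : j ≤ 5) (a : ℝ) : Integrable (fun z => f j (a * z)) gam := by
  simpa using h.int hj 0 a

theorem sum {j : ℕ} (hj : j ≤ 5) (y a b c : ℝ) (hc2 : c ^ 2 = a ^ 2 + b ^ 2) :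
    ∫ z, ∫ g, f j (y + a * z + b * g) ∂gam ∂gam = ∫ z, f j (y + c * z) ∂gam :=
  gsum (h.cont hj) zero_le_one (h.lin hj) y a b c hc2

theorem t1 (x : ℝ) : |f 1 x - f 2 0 * x - f 4 0 * x ^ 3 / 6| ≤ K * |x| ^ 4 := by
  have := tay4 h.d1 h.d2 h.d3 h.d4 h.b5 0 x
  rw [h.z1, h.z3] at this
  simpa using this

theorem t2 (x : ℝ) : |f 2 x - f 2 0 - f 4 0 * x ^ 2 / 2| ≤ K * |x| ^ 3 := by
  have := tay3 h.d2 h.d3 h.d4 h.b5 0 x
  rw [h.z3] at this
  simpa using this

theorem le1 (x : ℝ) : |f 1 x| ≤ |x| := by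
  have := tay1 h.d1 h.a2 0 x
  rw [h.z1] at this
  simpa using this

end Ch

/-- Gaussian smoothing -/
noncomputable def conv (a : ℝ) (f : ℕ → ℝ → ℝ) : ℕ → ℝ → ℝ :=
  fun j y => ∫ z, f j (y + a * z) ∂gam

theorem abs_int_le {g : ℝ → ℝ} {C : ℝ} (hb : ∀ x, |g x| ≤ C) : |∫ x, g x ∂gam| ≤ C := by
  have h1 := norm_integral_le_of_norm_le (μ := gam) (integrable_const C) (f := g)
    (Eventually.of_forall hb)
  simpa using h1

theorem int_neg (g : ℝ → ℝ) : ∫ z, g (-z) ∂gam = ∫ z, g z ∂gam := by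
  have h1 : gam.map (fun x : ℝ => -x) = gam := by
    rw [gaussianReal_map_neg, neg_zero]
  conv_rhs => rw [← h1]
  exact ((MeasurableEquiv.neg ℝ).measurableEmbedding.integral_map g).symm

theorem Ch.conv {K : ℝ} {f : ℕ → ℝ → ℝ} (h : Ch K f) (a : ℝ) : Ch K (conv a f) where
  one := h.one
  der := fun j hj x => by
    refine (hasDerivAt_integral_of_dominated_loc_of_deriv_le (μ := gam) (s := Set.univ)
      (F := fun y z => f j (y + a * z)) (F' := fun y z => f (j + 1) (y + a * z))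
      (bound := fun _ => K) Filter.univ_mem
      (Eventually.of_forall fun y => (h.int hj.le y a).aestronglyMeasurable) (h.int hj.le x a)
      (h.int hj x a).aestronglyMeasurable
      (Eventually.of_forall fun z y _ => h.bdd (by omega) hj _) (integrable_const K)
      (Eventually.of_forall fun z y _ => ?_)).2
    exact (h.der j hj (y + a * z)).comp_add_const y (a * z)
  c5 := by
    refine continuous_of_dominated (μ := gam) (F := fun y z => f 5 (y + a * z))
      (bound := fun _ => K) (fun y => (h.int le_rfl y a).aestronglyMeasurable)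
      (fun y => Eventually.of_forall fun z => h.b5 _) (integrable_const K)
      (Eventually.of_forall fun z => ?_)
    have := h.c5
    fun_prop
  even := fun x => by
    unfold Sc.conv
    rw [← int_neg (fun z => f 0 (x + a * z))]
    refine integral_congr_ae (Eventually.of_forall fun z => ?_)
    simp only
    rw [← h.even]
    congr 1
    ring
  b1 := fun x => abs_int_le fun z => h.b1 _
  p2 := fun x => integral_nonneg fun z => h.p2 _
  b2 := fun x => (le_abs_self _).trans (abs_int_le fun z => h.a2 _)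
  b3 := fun x => abs_int_le fun z => h.b3 _
  b4 := fun x => abs_int_le fun z => h.b4 _
  b5 := fun x => abs_int_le fun z => h.b5 _

theorem Ch.conv4 {K : ℝ} {f : ℕ → ℝ → ℝ} (h : Ch K f) (a : ℝ) :
    |Sc.conv a f 4 0 - f 4 0| ≤ 106 * (K * |a|) := by
  have h1 := near8 (h.int (j := 4) (by norm_num) 0 a) (integrable_const (f 4 0))
    (C := K * |a|) fun z => (tay1 h.d4 h.b5 0 (a * z)).trans (by
      have h2 := abs_pow_le z (k := 1) (by norm_num)
      rw [pow_one] at h2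
      have hK : 0 ≤ K := by linarith [h.one]
      rw [abs_mul, ← mul_assoc]
      gcongr)
  simpa [Sc.conv] using h1

theorem Ch.conv_conv {K : ℝ} {f : ℕ → ℝ → ℝ} (h : Ch K f) {j : ℕ} (hj : j ≤ 5) (y a b c : ℝ)
    (hc2 : c ^ 2 = a ^ 2 + b ^ 2) : ∫ z, Sc.conv b f j (y + a * z) ∂gam = Sc.conv c f j y :=
  h.sum hj y a b c hc2

end Vale.Agent.N150.Sc
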