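import Vale.Agent.N150.ScDef

/-! Low temperature, one site calculus: the Gaussian expansions. -/

open MeasureTheory ProbabilityTheory Filter Topology

namespace Vale.Agent.N150.Sc

open Vale.Agent.P150 Vale.Agent.P150.F
open Vale.Agent.N150.Sm2 (gam)

theorem prod_near {u v p p' A B A' B' z : ℝ} (hA : 0 ≤ A) (hB : 0 ≤ B) (hA' : 0 ≤ A')
    (hB' : 0 ≤ B') (h1 : |u - p| ≤ A * (1 + z ^ 4)) (h2 : |p| ≤ B * (1 + z ^ 4))
    (h3 : |v - p'| ≤ A' * (1 + z ^ 4)) (h4 : |p'| ≤ B' * (1 + z ^ 4)) :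
    |u * v - p * p'| ≤ 2 * (A * B' + B * A' + A * A') * (1 + z ^ 8) := by
  have e : u * v - p * p' = (u - p) * p' + p * (v - p') + (u - p) * (v - p') := by ring
  have hz : 0 ≤ 1 + z ^ 4 := by positivity
  have a1 : |(u - p) * p'| ≤ A * (1 + z ^ 4) * (B' * (1 + z ^ 4)) := by
    rw [abs_mul]; exact mul_le_mul h1 h4 (abs_nonneg _) (by positivity)
  have a2 : |p * (v - p')| ≤ B * (1 + z ^ 4) * (A' * (1 + z ^ 4)) := by
    rw [abs_mul]; exact mul_le_mul h2 h3 (abs_nonneg _) (by positivity)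
  have a3 : |(u - p) * (v - p')| ≤ A * (1 + z ^ 4) * (A' * (1 + z ^ 4)) := by
    rw [abs_mul]; exact mul_le_mul h1 h3 (abs_nonneg _) (by positivity)
  have a4 : (1 + z ^ 4) ^ 2 ≤ 2 * (1 + z ^ 8) := by nlinarith [sq_nonneg (1 - z ^ 4)]
  have a5 := mul_le_mul_of_nonneg_left a4 (by positivity : 0 ≤ A * B' + B * A' + A * A')
  rw [e]
  refine (abs_add_three _ _ _).trans ?_
  nlinarith

theorem int_poly3 (a0 a1 a2 a3 : ℝ) :
    Integrable (fun z : ℝ => a0 + a1 * z + a2 * z ^ 2 + a3 * z ^ 3) gam ∧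
      ∫ z, (a0 + a1 * z + a2 * z ^ 2 + a3 * z ^ 3) ∂gam = a0 + a2 := by
  have i0 : Integrable (fun _ : ℝ => a0) gam := integrable_const _
  have i1 : Integrable (fun z : ℝ => a1 * z) gam := by
    simpa using (int_pow 1).const_mul a1
  have i2 := (int_pow 2).const_mul a2
  have i3 := (int_pow 3).const_mul a3
  have i01 : Integrable (fun z : ℝ => a0 + a1 * z) gam := i0.add i1
  have i012 : Integrable (fun z : ℝ => a0 + a1 * z + a2 * z ^ 2) gam := i01.add i2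
  refine ⟨i012.add i3, ?_⟩
  rw [integral_add i012 i3, integral_add i01 i2, integral_add i0 i1, integral_const_mul,
    integral_const_mul, integral_const_mul, mom2, mom3]
  simp

theorem int_even (a0 a2 a4 a6 : ℝ) :
    Integrable (fun z : ℝ => a0 + a2 * z ^ 2 + a4 * z ^ 4 + a6 * z ^ 6) gam ∧
      ∫ z, (a0 + a2 * z ^ 2 + a4 * z ^ 4 + a6 * z ^ 6) ∂gam = a0 + a2 + 3 * a4 + 15 * a6 := by
  have i0 : Integrable (fun _ : ℝ => a0) gam := integrable_const _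
  have i1 := (int_pow 2).const_mul a2
  have i2 := (int_pow 4).const_mul a4
  have i3 := (int_pow 6).const_mul a6
  have i01 : Integrable (fun z : ℝ => a0 + a2 * z ^ 2) gam := i0.add i1
  have i012 : Integrable (fun z : ℝ => a0 + a2 * z ^ 2 + a4 * z ^ 4) gam := i01.add i2
  refine ⟨i012.add i3, ?_⟩
  rw [integral_add i012 i3, integral_add i01 i2, integral_add i0 i1, integral_const_mul,
    integral_const_mul, integral_const_mul, mom2, mom4, mom6]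
  simp
  ring

/-- `m1 = E f''(s z)` -/
noncomputable def m1 (f : ℕ → ℝ → ℝ) (s : ℝ) : ℝ := ∫ z, f 2 (s * z) ∂gam

/-- the nonlinear part -/
noncomputable def Nn (f : ℕ → ℝ → ℝ) (s z : ℝ) : ℝ := f 1 (s * z) - m1 f s * s * z

/-- its second moment -/
noncomputable def nu (f : ℕ → ℝ → ℝ) (s : ℝ) : ℝ := ∫ z, Nn f s z ^ 2 ∂gam

namespace Ch

variable {K : ℝ} {f : ℕ → ℝ → ℝ} (h : Ch K f)
include h

theorem K0 : 0 ≤ K := by linarith [h.one]

theorem int_z1 (a : ℝ) : Integrable (fun z => z * f 1 (a * z)) gam := by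
  have hc := h.cont (j := 1) (by norm_num)
  refine int8 (by fun_prop) (C := 1) fun z => ?_
  have h2 := abs_pow_le z (k := 1) (by norm_num)
  rw [abs_mul]
  nlinarith [h.b1 (a * z), abs_nonneg z, abs_nonneg (f 1 (a * z))]

theorem stein (a : ℝ) : ∫ z, z * f 1 (a * z) ∂gam = a * m1 f a := by
  have := stein_one (g := fun z => f 1 (a * z)) (g' := fun z => a * f 2 (a * z))
    (fun t => ((h.d1 (a * t)).comp t ((hasDerivAt_id t).const_mul a)).congr_deriv (by ring))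
    (h.int_z1 a) ((h.int0 (j := 2) (by norm_num) a).const_mul a) (h.int0 (by norm_num) a)
  rw [this, integral_const_mul]
  rfl

theorem m1_nonneg (s : ℝ) : 0 ≤ m1 f s := integral_nonneg fun _ => h.p2 _

theorem m1_le (s : ℝ) : m1 f s ≤ 1 := (le_abs_self _).trans (abs_int_le fun _ => h.a2 _)

theorem e1 {s : ℝ} (hs : 0 ≤ s) : |m1 f s - (f 2 0 + f 4 0 * s ^ 2 / 2)| ≤ 106 * (K * s ^ 3) := by
  obtain ⟨i1, i2⟩ := int_poly3 (f 2 0) 0 (f 4 0 * s ^ 2 / 2) 0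
  rw [← i2]
  refine near8 (h.int0 (by norm_num) s) i1 fun z => ?_
  have h1 := h.t2 (s * z)
  have h2 := abs_pow_le z (k := 3) (by norm_num)
  have hK := h.K0
  rw [abs_mul, abs_of_nonneg hs, mul_pow, mul_pow] at h1
  have e : f 2 (s * z) - (f 2 0 + 0 * z + f 4 0 * s ^ 2 / 2 * z ^ 2 + 0 * z ^ 3) =
      f 2 (s * z) - f 2 0 - f 4 0 * (s ^ 2 * z ^ 2) / 2 := by ring
  rw [e]
  refine h1.trans ?_
  rw [← mul_assoc]
  gcongr

theorem e2 {s : ℝ} (hs : 0 ≤ s) (z : ℝ) :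
    |Nn f s z - f 4 0 * s ^ 3 * (z ^ 3 - 3 * z) / 6| ≤ 107 * K * s ^ 4 * (1 + z ^ 4) := by
  have h1 := h.t1 (s * z)
  have h2 := h.e1 hs
  have hK := h.K0
  have h3 := abs_pow_le4 z (k := 4) le_rfl
  have h4 := abs_pow_le4 z (k := 1) (by norm_num)
  rw [pow_one] at h4
  rw [abs_mul, abs_of_nonneg hs, mul_pow, mul_pow] at h1
  have e : Nn f s z - f 4 0 * s ^ 3 * (z ^ 3 - 3 * z) / 6 =
      (f 1 (s * z) - f 2 0 * (s * z) - f 4 0 * (s ^ 3 * z ^ 3) / 6) -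
        (m1 f s - (f 2 0 + f 4 0 * s ^ 2 / 2)) * (s * z) := by
    unfold Nn; ring
  rw [e]
  refine (abs_sub _ _).trans ?_
  rw [abs_mul, abs_mul, abs_of_nonneg hs]
  have h5 : K * (s ^ 4 * |z| ^ 4) ≤ K * (s ^ 4 * (1 + z ^ 4)) := by gcongr
  have h6 : |m1 f s - (f 2 0 + f 4 0 * s ^ 2 / 2)| * (s * |z|) ≤
      106 * (K * s ^ 3) * (s * (1 + z ^ 4)) := by gcongr
  linarith

theorem e2' {s : ℝ} (hs : 0 ≤ s) (z : ℝ) :
    |f 2 (s * z) - m1 f s - f 4 0 * s ^ 2 * (z ^ 2 - 1) / 2| ≤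
      107 * K * s ^ 3 * (1 + z ^ 4) := by
  have h1 := h.t2 (s * z)
  have h2 := h.e1 hs
  have hK := h.K0
  have h3 := abs_pow_le4 z (k := 3) (by norm_num)
  rw [abs_mul, abs_of_nonneg hs, mul_pow, mul_pow] at h1
  have e : f 2 (s * z) - m1 f s - f 4 0 * s ^ 2 * (z ^ 2 - 1) / 2 =
      (f 2 (s * z) - f 2 0 - f 4 0 * (s ^ 2 * z ^ 2) / 2) -
        (m1 f s - (f 2 0 + f 4 0 * s ^ 2 / 2)) := by ring
  rw [e]
  refine (abs_sub _ _).trans ?_
  have h5 : K * (s ^ 3 * |z| ^ 3) ≤ K * (s ^ 3 * (1 + z ^ 4)) := by gcongr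
  have h6 : 0 ≤ K * s ^ 3 * z ^ 4 := by positivity
  linarith

theorem p3 {s : ℝ} (hs : 0 ≤ s) (z : ℝ) :
    |f 4 0 * s ^ 3 * (z ^ 3 - 3 * z) / 6| ≤ K * s ^ 3 * (1 + z ^ 4) := by
  have hK := h.K0
  have h3 := abs_pow_le4 z (k := 3) (by norm_num)
  have h4 := abs_pow_le4 z (k := 1) (by norm_num)
  rw [pow_one] at h4
  have h5 : |z ^ 3 - 3 * z| ≤ 4 * (1 + z ^ 4) := by
    refine (abs_sub _ _).trans ?_
    rw [abs_pow, abs_mul, abs_of_nonneg (by norm_num : (0 : ℝ) ≤ 3)]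
    linarith
  rw [abs_div, abs_mul, abs_mul, abs_of_nonneg (pow_nonneg hs 3),
    abs_of_nonneg (by norm_num : (0 : ℝ) ≤ 6)]
  have h6 : |f 4 0| * s ^ 3 * |z ^ 3 - 3 * z| ≤ K * s ^ 3 * (4 * (1 + z ^ 4)) := by
    gcongr
    exact h.b4 0
  have h7 : 0 ≤ K * s ^ 3 * (1 + z ^ 4) := by positivity
  linarith

theorem cN (s : ℝ) : Continuous (Nn f s) := by
  have hc := h.cont (j := 1) (by norm_num)
  unfold Nn
  fun_prop

theorem bN (s z : ℝ) : |Nn f s z| ≤ 2 * |s| * |z| := by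
  have h1 := h.le1 (s * z)
  have h2 : |m1 f s * s * z| ≤ |s| * |z| := by
    rw [abs_mul, abs_mul, abs_of_nonneg (h.m1_nonneg s), mul_assoc]
    exact mul_le_of_le_one_left (by positivity) (h.m1_le s)
  rw [abs_mul] at h1
  unfold Nn
  linarith [abs_sub (f 1 (s * z)) (m1 f s * s * z)]

/-- products of the nonlinear part with functions of linear growth -/
theorem iN (s : ℝ) {v : ℝ → ℝ} (hv : Continuous v) {A : ℝ} (hb : ∀ z, |v z| ≤ A * |z|) :
    Integrable (fun z => Nn f s z * v z) gam := by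
  have hc := h.cN s
  have hA : 0 ≤ A := by
    have := (abs_nonneg _).trans (hb 1)
    simpa using this
  refine int8 (by fun_prop) (C := 2 * |s| * A) fun z => ?_
  have h2 := abs_pow_le z (k := 2) (by norm_num)
  rw [abs_mul]
  calc |Nn f s z| * |v z| ≤ 2 * |s| * |z| * (A * |z|) :=
        mul_le_mul (h.bN s z) (hb z) (abs_nonneg _) (by positivity)
    _ = 2 * |s| * A * |z| ^ 2 := by ring
    _ ≤ 2 * |s| * A * (1 + z ^ 8) := by gcongr

theorem iNz (s : ℝ) : Integrable (fun z => Nn f s z * z) gam :=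
  h.iN s continuous_id (A := 1) fun z => by simp

theorem iNN (s : ℝ) : Integrable (fun z => Nn f s z ^ 2) gam := by
  simpa only [pow_two] using h.iN s (h.cN s) (h.bN s)

theorem orth (s : ℝ) : ∫ z, Nn f s z * z ∂gam = 0 := by
  have e : (fun z => Nn f s z * z) = fun z => z * f 1 (s * z) - m1 f s * s * z ^ 2 := by
    funext z; unfold Nn; ring
  rw [e, integral_sub (h.int_z1 s) ((int_pow 2).const_mul _), h.stein, integral_const_mul, mom2]
  ring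

theorem nu_nonneg (s : ℝ) : 0 ≤ nu f s := by
  have := h.one
  exact integral_nonneg fun _ => sq_nonneg _

theorem Nf1 (s : ℝ) : ∫ z, Nn f s z * f 1 (s * z) ∂gam = nu f s := by
  have e : (fun z => Nn f s z * f 1 (s * z)) =
      fun z => Nn f s z ^ 2 + m1 f s * s * (Nn f s z * z) := by
    funext z; unfold Nn; ring
  rw [e, integral_add (h.iNN s) ((h.iNz s).const_mul _), integral_const_mul, h.orth]
  simp [nu]

theorem q_eq (s : ℝ) : qq f s = m1 f s ^ 2 * s ^ 2 + nu f s := by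
  have e : (fun z => f 1 (s * z) ^ 2) =
      fun z => (m1 f s * s) ^ 2 * z ^ 2 + (Nn f s z ^ 2 + 2 * (m1 f s * s) * (Nn f s z * z)) := by
    funext z; unfold Nn; ring
  have i2 : Integrable (fun z => Nn f s z ^ 2 + 2 * (m1 f s * s) * (Nn f s z * z)) gam :=
    (h.iNN s).add ((h.iNz s).const_mul _)
  unfold qq
  rw [e, integral_add ((int_pow 2).const_mul _) i2, integral_add (h.iNN s)
    ((h.iNz s).const_mul _), integral_const_mul, integral_const_mul, h.orth, mom2]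
  simp only [nu]
  ring

theorem q_le (s : ℝ) : qq f s ≤ s ^ 2 := by
  have hc := h.cont (j := 1) (by norm_num)
  have h1 : ∀ z, f 1 (s * z) ^ 2 ≤ s ^ 2 * z ^ 2 := fun z => by
    rw [← mul_pow]; exact sq_le_sq.2 (h.le1 _)
  have h2 : qq f s ≤ ∫ z, s ^ 2 * z ^ 2 ∂gam :=
    integral_mono_of_nonneg (Eventually.of_forall fun z => sq_nonneg _)
      ((int_pow 2).const_mul _) (Eventually.of_forall h1)
  rwa [integral_const_mul, mom2, mul_one] at h2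

theorem e3 {s : ℝ} (hs : 0 ≤ s) (hs1 : s ≤ 1) :
    |nu f s - f 4 0 ^ 2 * s ^ 6 / 6| ≤ 3000000 * K ^ 2 * s ^ 7 := by
  have hK := h.K0
  obtain ⟨i1, i2⟩ := int_even 0 (9 * (f 4 0 * s ^ 3 / 6) ^ 2) (-6 * (f 4 0 * s ^ 3 / 6) ^ 2)
    ((f 4 0 * s ^ 3 / 6) ^ 2)
  have h1 := near8 (h.iNN s) i1 (C := 2 * (107 * K * s ^ 4 * (K * s ^ 3) +
    K * s ^ 3 * (107 * K * s ^ 4) + 107 * K * s ^ 4 * (107 * K * s ^ 4))) fun z => by
      have h2 := prod_near (by positivity) (by positivity) (by positivity) (by positivity)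
        (h.e2 hs z) (h.p3 hs z) (h.e2 hs z) (h.p3 hs z)
      convert h2 using 2
      ring
  rw [i2] at h1
  have e : 0 + 9 * (f 4 0 * s ^ 3 / 6) ^ 2 + 3 * (-6 * (f 4 0 * s ^ 3 / 6) ^ 2) +
      15 * (f 4 0 * s ^ 3 / 6) ^ 2 = f 4 0 ^ 2 * s ^ 6 / 6 := by ring
  rw [e] at h1
  refine h1.trans ?_
  have h3 : K ^ 2 * s ^ 8 ≤ K ^ 2 * s ^ 7 :=
    mul_le_mul_of_nonneg_left (pow_le_pow_of_le_one hs hs1 (by norm_num)) (by positivity)
  have h4 : 0 ≤ K ^ 2 * s ^ 7 := by positivity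
  linarith

theorem e4 {s : ℝ} (hs : 0 ≤ s) (hs1 : s ≤ 1) :
    |∫ z, f 2 (s * z) ^ 2 ∂gam - m1 f s ^ 2 - f 4 0 ^ 2 * s ^ 4 / 2| ≤
      3000000 * K ^ 2 * s ^ 5 := by
  have hK := h.K0
  have hc := h.cont (j := 2) (by norm_num)
  have i2 := h.int0 (j := 2) (by norm_num) s
  have i22 : Integrable (fun z => f 2 (s * z) ^ 2) gam := by
    refine int8 (by fun_prop) (C := 1) fun z => ?_
    have h1 : 0 ≤ z ^ 8 := by positivity
    rw [abs_of_nonneg (sq_nonneg _)]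
    nlinarith [h.p2 (s * z), h.b2 (s * z)]
  have e0 : (fun z => (f 2 (s * z) - m1 f s) ^ 2) =
      fun z => f 2 (s * z) ^ 2 - 2 * m1 f s * f 2 (s * z) + m1 f s ^ 2 := by
    funext z; ring
  have i3 : Integrable (fun z => f 2 (s * z) ^ 2 - 2 * m1 f s * f 2 (s * z)) gam :=
    i22.sub (i2.const_mul _)
  have iv : Integrable (fun z => (f 2 (s * z) - m1 f s) ^ 2) gam := by
    rw [e0]; exact i3.add (integrable_const _)
  have ev : ∫ z, (f 2 (s * z) - m1 f s) ^ 2 ∂gam = ∫ z, f 2 (s * z) ^ 2 ∂gam - m1 f s ^ 2 := by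
    rw [e0, integral_add i3 (integrable_const _), integral_sub i22 (i2.const_mul _),
      integral_const_mul]
    simp only [integral_const, probReal_univ, smul_eq_mul, one_mul]
    unfold m1
    ring
  obtain ⟨i1, i4⟩ := int_even ((f 4 0 * s ^ 2 / 2) ^ 2) (-2 * (f 4 0 * s ^ 2 / 2) ^ 2)
    ((f 4 0 * s ^ 2 / 2) ^ 2) 0
  have hp : ∀ z : ℝ, |f 4 0 * s ^ 2 * (z ^ 2 - 1) / 2| ≤ K * s ^ 2 * (1 + z ^ 4) := fun z => by
    have h5 : |z ^ 2 - 1| ≤ 2 * (1 + z ^ 4) := by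
      rw [abs_le]
      constructor <;> nlinarith [sq_nonneg z, sq_nonneg (z ^ 2 - 1), sq_nonneg (z ^ 2)]
    rw [abs_div, abs_mul, abs_mul, abs_of_nonneg (pow_nonneg hs 2),
      abs_of_nonneg (by norm_num : (0 : ℝ) ≤ 2)]
    have h6 : |f 4 0| * s ^ 2 * |z ^ 2 - 1| ≤ K * s ^ 2 * (2 * (1 + z ^ 4)) := by
      gcongr
      exact h.b4 0
    linarith
  have h1 := near8 iv i1 (C := 2 * (107 * K * s ^ 3 * (K * s ^ 2) +
    K * s ^ 2 * (107 * K * s ^ 3) + 107 * K * s ^ 3 * (107 * K * s ^ 3))) fun z => by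
      have h2 := prod_near (by positivity) (by positivity) (by positivity) (by positivity)
        (h.e2' hs z) (hp z) (h.e2' hs z) (hp z)
      convert h2 using 2
      ring
  rw [i4, ev] at h1
  have e : (f 4 0 * s ^ 2 / 2) ^ 2 + -2 * (f 4 0 * s ^ 2 / 2) ^ 2 + 3 * (f 4 0 * s ^ 2 / 2) ^ 2 +
      15 * 0 = f 4 0 ^ 2 * s ^ 4 / 2 := by ring
  rw [e] at h1
  refine h1.trans ?_
  have h3 : K ^ 2 * s ^ 6 ≤ K ^ 2 * s ^ 5 :=
    mul_le_mul_of_nonneg_left (pow_le_pow_of_le_one hs hs1 (by norm_num)) (by positivity)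
  have h4 : 0 ≤ K ^ 2 * s ^ 5 := by positivity
  linarith

theorem e5 {g : ℕ → ℝ → ℝ} (hg : Ch K g) {s a : ℝ} (hs1 : s ≤ 1) (ha : 0 ≤ a) (has : a ≤ s) :
    |∫ z, Nn f s z * g 1 (a * z) ∂gam - f 4 0 * g 4 0 * s ^ 3 * a ^ 3 / 6| ≤
      3000000 * K ^ 2 * s ^ 7 := by
  have hK := h.K0
  have hs : 0 ≤ s := ha.trans has
  have hc := hg.cont (j := 1) (by norm_num)
  have i0 : Integrable (fun z => Nn f s z * g 1 (a * z)) gam :=
    h.iN s (by fun_prop) (A := |a|) fun z => by rw [← abs_mul]; exact hg.le1 _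
  have e0 : (fun z => Nn f s z * (g 1 (a * z) - g 2 0 * (a * z))) =
      fun z => Nn f s z * g 1 (a * z) - g 2 0 * a * (Nn f s z * z) := by
    funext z; ring
  have iv : Integrable (fun z => Nn f s z * (g 1 (a * z) - g 2 0 * (a * z))) gam := by
    rw [e0]; exact i0.sub ((h.iNz s).const_mul _)
  have ev : ∫ z, Nn f s z * (g 1 (a * z) - g 2 0 * (a * z)) ∂gam =
      ∫ z, Nn f s z * g 1 (a * z) ∂gam := by
    rw [e0, integral_sub i0 ((h.iNz s).const_mul _), integral_const_mul, h.orth]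
    simp
  obtain ⟨i1, i4⟩ := int_even 0 0 (-3 * (f 4 0 * g 4 0 * s ^ 3 * a ^ 3 / 36))
    (f 4 0 * g 4 0 * s ^ 3 * a ^ 3 / 36)
  have hv : ∀ z : ℝ, |g 1 (a * z) - g 2 0 * (a * z) - g 4 0 * (a * z) ^ 3 / 6| ≤
      K * s ^ 4 * (1 + z ^ 4) := fun z => by
    refine (hg.t1 (a * z)).trans ?_
    have h3 := abs_pow_le4 z (k := 4) le_rfl
    rw [abs_mul, abs_of_nonneg ha, mul_pow, mul_assoc]
    gcongr
  have hp : ∀ z : ℝ, |g 4 0 * (a * z) ^ 3 / 6| ≤ K * s ^ 3 * (1 + z ^ 4) := fun z => by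
    have h3 := abs_pow_le4 z (k := 3) (by norm_num)
    rw [abs_div, abs_mul, abs_pow, abs_mul, abs_of_nonneg ha, mul_pow,
      abs_of_nonneg (by norm_num : (0 : ℝ) ≤ 6)]
    have h6 : |g 4 0| * (a ^ 3 * |z| ^ 3) ≤ K * (s ^ 3 * (1 + z ^ 4)) := by
      gcongr
      exact hg.b4 0
    have h7 : 0 ≤ K * s ^ 3 * (1 + z ^ 4) := by positivity
    linarith
  have h1 := near8 iv i1 (C := 2 * (107 * K * s ^ 4 * (K * s ^ 3) +
    K * s ^ 3 * (K * s ^ 4) + 107 * K * s ^ 4 * (K * s ^ 4))) fun z => by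
      have h2 := prod_near (by positivity) (by positivity) (by positivity) (by positivity)
        (h.e2 hs z) (h.p3 hs z) (hv z) (hp z)
      convert h2 using 2
      ring
  rw [i4, ev] at h1
  have e : 0 + 0 + 3 * (-3 * (f 4 0 * g 4 0 * s ^ 3 * a ^ 3 / 36)) +
      15 * (f 4 0 * g 4 0 * s ^ 3 * a ^ 3 / 36) = f 4 0 * g 4 0 * s ^ 3 * a ^ 3 / 6 := by ring
  rw [e] at h1
  refine h1.trans ?_
  have h3 : K ^ 2 * s ^ 8 ≤ K ^ 2 * s ^ 7 :=
    mul_le_mul_of_nonneg_left (pow_le_pow_of_le_one hs hs1 (by norm_num)) (by positivity)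
  have h4 : 0 ≤ K ^ 2 * s ^ 7 := by positivity
  linarith

theorem heat0 (y d : ℝ) :
    |Sc.conv d f 0 y - (f 0 y + f 2 y * d ^ 2 / 2)| ≤ 106 * (K * d ^ 4) := by
  have hK := h.K0
  obtain ⟨i1, i2⟩ := int_poly3 (f 0 y) (f 1 y * d) (f 2 y * d ^ 2 / 2) (f 3 y * d ^ 3 / 6)
  rw [← i2]
  refine near8 (h.int (by norm_num) y d) i1 fun z => ?_
  have h1 := tay4 h.d0 h.d1 h.d2 h.d3 h.b4 y (d * z)
  have h2 := abs_pow_le z (k := 4) (by norm_num)
  have h3 : |d| ^ 4 = d ^ 4 := by rw [← abs_pow]; exact abs_of_nonneg (by positivity)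
  rw [abs_mul, mul_pow |d|, h3] at h1
  have e : f 0 (y + d * z) - (f 0 y + f 1 y * d * z + f 2 y * d ^ 2 / 2 * z ^ 2 +
      f 3 y * d ^ 3 / 6 * z ^ 3) = f 0 (y + d * z) - f 0 y - f 1 y * (d * z) -
        f 2 y * (d * z) ^ 2 / 2 - f 3 y * (d * z) ^ 3 / 6 := by ring
  rw [e]
  refine h1.trans ?_
  rw [← mul_assoc]
  gcongr

theorem heat2 (y d : ℝ) : |Sc.conv d f 2 y - f 2 y| ≤ 106 * (K * d ^ 2) := by
  have hK := h.K0
  obtain ⟨i1, i2⟩ := int_poly3 (f 2 y) (f 3 y * d) 0 0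
  rw [add_zero] at i2
  rw [← i2]
  refine near8 (h.int (by norm_num) y d) i1 fun z => ?_
  have h1 := tay2 h.d2 h.d3 h.b4 y (d * z)
  have h2 := abs_pow_le z (k := 2) (by norm_num)
  rw [abs_mul, mul_pow |d|, sq_abs] at h1
  have e : f 2 (y + d * z) - (f 2 y + f 3 y * d * z + 0 * z ^ 2 + 0 * z ^ 3) =
      f 2 (y + d * z) - f 2 y - f 3 y * (d * z) := by ring
  rw [e]
  refine h1.trans ?_
  rw [← mul_assoc]
  gcongr

theorem sum0 {j : ℕ} (hj : j ≤ 5) (a d c : ℝ) (hc2 : c ^ 2 = a ^ 2 + d ^ 2) :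
    ∫ z, Sc.conv d f j (a * z) ∂gam = ∫ z, f j (c * z) ∂gam := by
  have := h.conv_conv hj 0 a d c hc2
  simpa [Sc.conv] using this

theorem step (a d c : ℝ) (hc2 : c ^ 2 = a ^ 2 + d ^ 2) :
    |∫ z, f 0 (c * z) ∂gam - (∫ z, f 0 (a * z) ∂gam + m1 f a * d ^ 2 / 2)| ≤ 106 * (K * d ^ 4) ∧
      |m1 f c - m1 f a| ≤ 106 * (K * d ^ 2) := by
  have i0 := h.int0 (j := 0) (by norm_num) a
  have i2 := h.int0 (j := 2) (by norm_num) a
  constructor
  · have i3 : Integrable (fun z => f 2 (a * z) * d ^ 2 / 2) gam := (i2.mul_const _).div_const _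
    have e : ∫ z, f 0 (a * z) ∂gam + m1 f a * d ^ 2 / 2 =
        ∫ z, (f 0 (a * z) + f 2 (a * z) * d ^ 2 / 2) ∂gam := by
      rw [integral_add i0 i3, integral_div, integral_mul_const]
      rfl
    have i4 : Integrable (fun z => f 0 (a * z) + f 2 (a * z) * d ^ 2 / 2) gam := i0.add i3
    rw [e, ← h.sum0 (by norm_num) a d c hc2,
      ← integral_sub ((h.conv d).int0 (j := 0) (by norm_num) a) i4]
    exact abs_int_le fun z => h.heat0 _ d
  · unfold m1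
    rw [← h.sum0 (by norm_num) a d c hc2, 
      ← integral_sub ((h.conv d).int0 (j := 2) (by norm_num) a) i2]
    exact abs_int_le fun z => h.heat2 _ d

theorem e6 (x y : ℝ) : ∫ z, f 0 (x * z) ∂gam ≤
    ∫ z, f 0 (y * z) ∂gam + m1 f y * (x ^ 2 - y ^ 2) / 2 + 200 * K * (x ^ 2 - y ^ 2) ^ 2 := by
  have hK := h.K0
  rcases le_total (y ^ 2) (x ^ 2) with hxy | hxy
  · have hd : √(x ^ 2 - y ^ 2) ^ 2 = x ^ 2 - y ^ 2 := Real.sq_sqrt (by linarith)
    have hd4 : √(x ^ 2 - y ^ 2) ^ 4 = (x ^ 2 - y ^ 2) ^ 2 := by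
      rw [show (4 : ℕ) = 2 * 2 from rfl, pow_mul, hd]
    obtain ⟨h1, -⟩ := h.step y (√(x ^ 2 - y ^ 2)) x (by rw [hd]; ring)
    rw [hd, hd4] at h1
    have h2 : 0 ≤ K * (x ^ 2 - y ^ 2) ^ 2 := by positivity
    linarith [(abs_le.1 h1).2]
  · have hd : √(y ^ 2 - x ^ 2) ^ 2 = y ^ 2 - x ^ 2 := Real.sq_sqrt (by linarith)
    have hd4 : √(y ^ 2 - x ^ 2) ^ 4 = (y ^ 2 - x ^ 2) ^ 2 := by
      rw [show (4 : ℕ) = 2 * 2 from rfl, pow_mul, hd]
    obtain ⟨h1, h3⟩ := h.step x (√(y ^ 2 - x ^ 2)) y (by rw [hd]; ring)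
    rw [hd, hd4] at h1
    rw [hd] at h3
    have h2 : 0 ≤ K * (y ^ 2 - x ^ 2) ^ 2 := by positivity
    have h4 := mul_le_mul_of_nonneg_right (abs_le.1 h3).2 (sub_nonneg.2 hxy)
    linarith [(abs_le.1 h1).1]

end Ch

end Vale.Agent.N150.Sc
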