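import Vale.Agent.N150.ScDef
import Vale.Agent.P146.H826.Parm

/-! Low temperature, one site calculus: the class of the functions of the recursion. -/

open MeasureTheory ProbabilityTheory

namespace Vale.Agent.N150.Sc

open Vale.Agent.P157.Par
open Vale.Agent.P146.Gap Vale.Agent.P146.Pw2 Vale.Agent.P146.Sh

theorem cascade_congr {m q q' : ℕ → ℝ} : ∀ (l : ℕ) (F : ℝ → ℝ),
    (∀ j < l, q (j + 1) - q j = q' (j + 1) - q' j) → cascade m q l F = cascade m q' l F := by
  intro l
  induction l with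
  | zero => intro F _; rfl
  | succ l ih =>
    intro F h
    rw [cascade_succ_def, cascade_succ_def, h l (Nat.lt_succ_self l)]
    exact ih _ fun j hj => h j (by omega)

theorem cls : ClsStmt := by
  intro B
  obtain ⟨b, hb⟩ : ∃ b : ℝ, B ≤ b ^ 2 := ⟨√(max B 0), by
    rw [Real.sq_sqrt (le_max_right _ _)]; exact le_max_left _ _⟩
  obtain ⟨c, hc, hkk⟩ := Vale.Agent.P146.H826.kk_gen b
  obtain ⟨K, hK1, hK⟩ := fl_bk b
  obtain ⟨K', hK'⟩ : ∃ K' : ℝ, K' = max K (120 * Real.exp (6 * b ^ 2)) := ⟨_, rfl⟩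
  have hKK : K ≤ K' := hK' ▸ le_max_left _ _
  have hK5 : 120 * Real.exp (6 * b ^ 2) ≤ K' := hK' ▸ le_max_right _ _
  have hK0 : 0 < K' := by linarith
  refine ⟨K', c / 2, (c / (212 * K')) ^ 2, by positivity, by positivity,
    fun n m r hm hr hB => ?_⟩
  obtain ⟨ρ, hρ⟩ : ∃ ρ : ℕ → ℝ, ρ = fun l => r l - r 0 := ⟨_, rfl⟩
  have hbp : BPath b n ρ := by
    subst hρ
    exact ⟨sub_self _, ⟨by simp, fun l hl => sub_le_sub_right (hr.2 l hl) _⟩, hB.trans hb⟩
  have e1 : cascade m r n (fun x => Real.log (Real.cosh x)) = cascade m ρ n lc :=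
    cascade_congr n _ fun j _ => by subst hρ; ring
  have e2 : Fl n m ρ 0 = cascade m ρ n lc := by
    simp only [Fl, Nat.zero_add, Nat.sub_zero]
  have hA := (hK n m ρ hm hbp).1 0 (Nat.zero_le n)
  have h5 := shk5_fl hm hbp.2.1 (Nat.zero_le n)
  have hk := hkk n m ρ hm hbp
  rw [e2] at hA h5
  have hsm := hA.adm.smb.smooth
  have hch : Ch K' (fam n m r) := by
    unfold fam
    rw [e1]
    refine ⟨by linarith, fun j _ x => GoodX.good_hd hsm j x,
      continuous_iff_continuousAt.2 fun x => (GoodX.good_hd hsm 5 x).continuousAt,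
      fun x => by simpa using hA.adm.even x, vari_abs1 hA.adm,
      fun x => (vari_d2_01 hA.adm x).1.le, fun x => (vari_d2_01 hA.adm x).2,
      fun x => ?_, fun x => ?_, fun x => ?_⟩
    · exact (hA.k3 x).trans ((mul_le_of_le_one_right (by linarith) (vari_abs1 hA.adm x)).trans hKK)
    · exact (hA.k4 x).trans
        ((mul_le_of_le_one_right (by linarith) (vari_d2_01 hA.adm x).2).trans hKK)
    · refine (h5 x).trans (le_trans ?_ hK5)
      have h4 : Real.exp (6 * (ρ n - ρ 0)) ≤ Real.exp (6 * b ^ 2) :=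
        Real.exp_le_exp.2 (by linarith [hbp.1, hbp.2.2])
      calc 120 * Real.exp (6 * (ρ n - ρ 0)) * iteratedDeriv 2 (cascade m ρ n lc) x
          ≤ 120 * Real.exp (6 * b ^ 2) * 1 :=
            mul_le_mul (by linarith) (vari_d2_01 hA.adm x).2 (vari_d2_01 hA.adm x).1.le
              (by positivity)
        _ = 120 * Real.exp (6 * b ^ 2) := mul_one _
  refine ⟨hch, fun a ha => ⟨hch.conv a, ?_⟩⟩
  have h1 := (abs_le.1 (hch.conv4 a)).2
  have h2 : |a| ≤ c / (212 * K') := abs_le_of_sq_le_sq ha (by positivity)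
  have h3 : fam n m r 4 0 ≤ -c := by
    unfold fam
    rw [e1]
    exact hk
  have h4 : K' * |a| ≤ K' * (c / (212 * K')) := by gcongr
  have h6 : K' * (c / (212 * K')) = c / 212 := by field_simp
  linarith

end Vale.Agent.N150.Sc
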