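import Vale.Agent.N150.ScB

/-! Low temperature, one site calculus: the shape of the site function and the barrier. -/

open MeasureTheory ProbabilityTheory Filter Topology

namespace Vale.Agent.N150.Sc

open Vale.Agent.P150 Vale.Agent.P150.F
open Vale.Agent.N150.Sm2 (gam Shape Nrm)

/-- the scale free numbers -/
structure Bs (b K k : ℝ) (f : ℕ → ℝ → ℝ) (s eps om mu y : ℝ) : Prop where
  s1 : s ≤ 1 / 2
  c0 : 0 < cc f s eps
  cq : cc f s eps ^ 2 * (1 - eps ^ 2) = qq f s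
  hom : om = f 4 0 ^ 2 * b ^ 2 * s ^ 4 / 6
  hmu : mu = b * m1 f s
  hy : b * cc f s eps = y * s
  o1 : om ≤ 1 / 1000
  olo : k ^ 2 * b ^ 2 / 6 * s ^ 4 ≤ om
  ohi : om ≤ K ^ 2 * b ^ 2 / 6 * s ^ 4
  mu1 : |mu ^ 2 - 1| ≤ 4 * om
  y0 : 0 < y
  y1 : |y ^ 2 - (1 - 2 * om)| ≤ om / 100

theorem base (b K k : ℝ) (hb : 0 < b) (hk : 0 < k) : ∃ eta0 : ℝ, 0 < eta0 ∧
    ∀ (eta : ℝ) (f : ℕ → ℝ → ℝ) (s r eps : ℝ), eta ≤ eta0 → Cls K k f → Hyp b eta f s r eps →
      ∃ om mu y : ℝ, Bs b K k f s eps om mu y := by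
  obtain ⟨w0, hw0⟩ : ∃ w0 : ℝ, w0 = k ^ 2 * b ^ 2 / 6 := ⟨_, rfl⟩
  obtain ⟨w1, hw1⟩ : ∃ w1 : ℝ, w1 = K ^ 2 * b ^ 2 / 6 := ⟨_, rfl⟩
  obtain ⟨C, hC⟩ : ∃ C : ℝ, C = b ^ 2 * (3000000 * K ^ 2) := ⟨_, rfl⟩
  have hw0p : 0 < w0 := by rw [hw0]; positivity
  have hw1p : 0 ≤ w1 := by rw [hw1]; positivity
  have hCp : 0 ≤ C := by rw [hC]; positivity
  refine ⟨min (1 / 2) (min (w0 / (100 * (5 + 2 * C))) (1 / (1000 * (w1 + 1)))), by positivity,
    fun eta f s r eps he hc H => ?_⟩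
  have h := hc.ch
  have hs := H.s0
  have he1 : eta ≤ 1 / 2 := he.trans (min_le_left _ _)
  have he2 : eta * (100 * (5 + 2 * C)) ≤ w0 :=
    (le_div_iff₀ (by positivity)).1 (he.trans ((min_le_right _ _).trans (min_le_left _ _)))
  have he3 : eta * (1000 * (w1 + 1)) ≤ 1 :=
    (le_div_iff₀ (by positivity)).1 (he.trans ((min_le_right _ _).trans (min_le_right _ _)))
  have hs1 : s ≤ 1 / 2 := H.s1.trans he1
  have hs1' : s ≤ 1 := by linarith
  have he0 : 0 < eta := hs.trans_le H.s1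
  obtain ⟨om, hom⟩ : ∃ om : ℝ, om = f 4 0 ^ 2 * b ^ 2 * s ^ 4 / 6 := ⟨_, rfl⟩
  obtain ⟨mu, hmu⟩ : ∃ mu : ℝ, mu = b * m1 f s := ⟨_, rfl⟩
  have hk2 : k ^ 2 ≤ f 4 0 ^ 2 := by nlinarith only [hc.k4, hk]
  have hK2 : f 4 0 ^ 2 ≤ K ^ 2 := by
    rw [← sq_abs]; exact pow_le_pow_left₀ (abs_nonneg _) (h.b4 0) 2
  have hs4 : 0 < s ^ 4 := by positivity
  have olo : w0 * s ^ 4 ≤ om := by
    rw [hw0, hom]
    have := mul_le_mul_of_nonneg_right hk2 (by positivity : 0 ≤ b ^ 2 * s ^ 4 / 6)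
    linarith
  have ohi : om ≤ w1 * s ^ 4 := by
    rw [hw1, hom]
    have := mul_le_mul_of_nonneg_right hK2 (by positivity : 0 ≤ b ^ 2 * s ^ 4 / 6)
    linarith
  have hs41 : s ^ 4 ≤ eta := by
    have := pow_le_pow_of_le_one hs.le hs1' (show 1 ≤ 4 by norm_num)
    linarith [H.s1]
  have o1 : om ≤ 1 / 1000 := by
    have := mul_le_mul_of_nonneg_left hs41 hw1p
    linarith only [this, ohi, he3, he0]
  have o0 : 0 < om := lt_of_lt_of_le (by positivity) olo
  have hs5 : s ^ 5 ≤ eta * s ^ 4 := by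
    have := mul_le_mul_of_nonneg_right H.s1 hs4.le
    linarith
  have hs12 : s ^ 12 ≤ eta * s ^ 4 :=
    (pow_le_pow_of_le_one hs.le hs1' (by norm_num)).trans hs5
  have hCs : C * s ^ 5 ≤ C * (eta * s ^ 4) := mul_le_mul_of_nonneg_left hs5 hCp
  have hE : (5 + 2 * C) * (eta * s ^ 4) ≤ om / 100 := by
    have := mul_le_mul_of_nonneg_right he2 hs4.le
    linarith only [this, olo]
  have hE0 : 0 ≤ eta * s ^ 4 := by positivity
  have hCE : 0 ≤ C * (eta * s ^ 4) := by positivity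
  have b2 : 0 < b ^ 2 := by positivity
  have m4 := abs_le.1 (h.e4 hs.le hs1')
  have m4a := mul_le_mul_of_nonneg_left m4.1 b2.le
  have m4b := mul_le_mul_of_nonneg_left m4.2 b2.le
  have mar := abs_le.1 H.mar
  have u1 : mu ^ 2 - (1 - 3 * om) ≤ eta * s ^ 4 + C * s ^ 5 := by
    rw [hmu, hom, hC]; linarith only [m4a, mar.1]
  have u2 : -(eta * s ^ 4 + C * s ^ 5) ≤ mu ^ 2 - (1 - 3 * om) := by
    rw [hmu, hom, hC]; linarith only [m4b, mar.2]
  obtain ⟨Q, hQ⟩ : ∃ Q : ℝ, Q = b ^ 2 * qq f s / s ^ 2 := ⟨_, rfl⟩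
  have hs2 : 0 < s ^ 2 := by positivity
  have hQs : Q * s ^ 2 = b ^ 2 * qq f s := by rw [hQ]; field_simp
  have m3 := abs_le.1 (h.e3 hs.le hs1')
  have m3a := mul_le_mul_of_nonneg_left m3.1 b2.le
  have m3b := mul_le_mul_of_nonneg_left m3.2 b2.le
  have hq := h.q_eq s
  have v1 : Q - mu ^ 2 - om ≤ C * s ^ 5 := by
    refine le_of_mul_le_mul_right ?_ hs2
    rw [sub_mul, sub_mul, hQs, hq, hmu, hom, hC]
    linarith only [m3b]
  have v2 : -(C * s ^ 5) ≤ Q - mu ^ 2 - om := by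
    refine le_of_mul_le_mul_right ?_ hs2
    rw [sub_mul, sub_mul, hQs, hq, hmu, hom, hC]
    linarith only [m3a]
  have hQ0 : 0 < Q := by linarith only [v2, u2, hCs, hE, hE0, hCE, o1, o0]
  have hQ2 : Q ≤ 2 := by linarith only [v1, u1, hCs, hE, hE0, hCE, o1, o0]
  have hq0 : 0 < qq f s := by
    have : 0 < b ^ 2 * qq f s := by rw [← hQs]; positivity
    by_contra hn
    have h' := mul_nonpos_of_nonneg_of_nonpos b2.le (not_lt.1 hn)
    linarith only [this, h']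
  have he12 := H.e1
  have hs122 : s ^ 12 ≤ 1 / 2 :=
    (pow_le_pow_of_le_one hs.le hs1' (show 1 ≤ 12 by norm_num)).trans (by linarith only [hs1])
  have h1e' : 1 / 2 ≤ 1 - eps ^ 2 := by linarith only [he12, hs122]
  have h1e : 0 < 1 - eps ^ 2 := by linarith only [h1e']
  have c0 : 0 < cc f s eps := Real.sqrt_pos.2 (div_pos hq0 h1e)
  have cq : cc f s eps ^ 2 * (1 - eps ^ 2) = qq f s := by
    unfold cc
    rw [Real.sq_sqrt (div_pos hq0 h1e).le]
    field_simp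
  obtain ⟨y, hy⟩ : ∃ y : ℝ, y = b * cc f s eps / s := ⟨_, rfl⟩
  have hys : b * cc f s eps = y * s := by rw [hy]; field_simp
  have y0 : 0 < y := by rw [hy]; positivity
  have hyQ : y ^ 2 * (1 - eps ^ 2) = Q := by
    refine mul_right_cancel₀ hs2.ne' ?_
    rw [hQs, ← cq]
    have : y ^ 2 * s ^ 2 = b ^ 2 * cc f s eps ^ 2 := by rw [← mul_pow, ← hys, mul_pow]
    linear_combination (1 - eps ^ 2) * this
  have hy4 : y ^ 2 ≤ 4 := by
    have := mul_le_mul_of_nonneg_left h1e' (sq_nonneg y)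
    linarith only [this, hyQ, hQ2]
  have hye : y ^ 2 * eps ^ 2 ≤ 4 * (eta * s ^ 4) :=
    mul_le_mul hy4 (he12.trans hs12) (sq_nonneg _) (by norm_num)
  have hye0 : 0 ≤ y ^ 2 * eps ^ 2 := by positivity
  refine ⟨om, mu, y, hs1, c0, cq, hom, hmu, hys, o1, hw0 ▸ olo, hw1 ▸ ohi, ?_, y0, ?_⟩
  · rw [abs_le]; constructor <;> linarith only [u1, u2, hCs, hE, hE0, hCE, o0]
  · rw [abs_le]
    constructor <;> linarith only [u1, u2, v1, v2, hCs, hE, hE0, hCE, hye, hye0, hyQ]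

theorem num {om mu y : ℝ} (o0 : 0 < om) (o1 : om ≤ 1 / 1000) (mu0 : 0 ≤ mu)
    (mu1 : |mu ^ 2 - 1| ≤ 4 * om) (y0 : 0 < y) (y1 : |y ^ 2 - (1 - 2 * om)| ≤ om / 100) :
    997 / 1000 ≤ mu ∧ mu ≤ 1003 / 1000 ∧ 995 / 1000 * om ≤ 1 - y ∧ 1 - y ≤ 1007 / 1000 * om ∧
      mu * (1 - y) ^ 2 / 2 - (39 / 40) ^ 2 * ((1 - y) * om / mu) + 15 * om ^ 2 / (36 * y ^ 2) ≤
        -(om ^ 2 / 100) := by
  have m := abs_le.1 mu1
  have n := abs_le.1 y1
  have a1 : 997 / 1000 ≤ mu := by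
    by_contra hc
    have hc := not_le.1 hc
    nlinarith
  have a2 : mu ≤ 1003 / 1000 := by
    by_contra hc
    have hc := not_le.1 hc
    nlinarith
  have a3 : 995 / 1000 * om ≤ 1 - y := by
    by_contra hc
    have hc := not_le.1 hc
    nlinarith
  have a4 : 1 - y ≤ 1007 / 1000 * om := by
    by_contra hc
    have hc := not_le.1 hc
    nlinarith
  refine ⟨a1, a2, a3, a4, ?_⟩
  have hx0 : 0 ≤ 1 - y := by linarith
  have b1 : (1 - y) ^ 2 ≤ (1007 / 1000 * om) ^ 2 := pow_le_pow_left₀ hx0 a4 2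
  have b2 : mu * (1 - y) ^ 2 ≤ 1003 / 1000 * (1007 / 1000 * om) ^ 2 :=
    mul_le_mul a2 b1 (sq_nonneg _) (by norm_num)
  have b3 : 99 / 100 * om ^ 2 ≤ (1 - y) * om / mu := by
    rw [le_div_iff₀ (by linarith)]
    have h1 := mul_le_mul_of_nonneg_right a3 o0.le
    have h2 := mul_le_mul_of_nonneg_left a2 (sq_nonneg om)
    nlinarith
  have b4 : 15 * om ^ 2 / (36 * y ^ 2) ≤ 42 / 100 * om ^ 2 := by
    rw [div_le_iff₀ (by positivity)]
    have h1 : 997 / 1000 ≤ y ^ 2 := by linarith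
    have h2 := mul_le_mul_of_nonneg_left h1 (sq_nonneg om)
    nlinarith
  nlinarith [sq_nonneg om]

namespace Bs

variable {b K k s eps om mu y : ℝ} {f : ℕ → ℝ → ℝ}

theorem aa_sq (B : Bs b K k f s eps om mu y) (hb : 0 < b) (hs : 0 < s) :
    aa f s eps ^ 2 = om / (6 * y ^ 2) := by
  have h1 : cc f s eps = y * s / b := by rw [← B.hy]; field_simp
  have := B.y0
  rw [aa, h1, B.hom]
  field_simp

theorem thh_eq (B : Bs b K k f s eps om mu y) (h : Ch K f) (hb : 0 < b) (hs : 0 < s) :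
    thh f s eps = mu / y := by
  have h1 : cc f s eps = y * s / b := by rw [← B.hy]; field_simp
  have := B.y0
  have e : (fun z => z * WW f s eps z) = fun z => z * f 1 (s * z) / cc f s eps := by
    funext z; unfold WW; ring
  rw [thh, e, integral_div, h.stein, h1, B.hmu]
  field_simp

end Bs

theorem shape : ShapeStmt := by
  intro b K k hb hk
  obtain ⟨eta0, he0, hbase⟩ := base b K k hb hk
  refine ⟨2 * b, fun eta1 he1 => ?_⟩
  refine ⟨min (min eta0 (1 / (4 * b + 1))) (min (eta1 * k / (6 * (|K| + 1))) (min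
    (eta1 ^ 2 / (K ^ 2 * b ^ 2 / 6 + 1)) (eta1 * (k ^ 2 * b ^ 2 / 36)))), by positivity,
    fun f s r eps hc H => ?_⟩
  obtain ⟨om, mu, y, B⟩ := hbase _ f s r eps ((min_le_left _ _).trans (min_le_left _ _)) hc H
  have h := hc.ch
  have hs := H.s0
  have hK := h.one
  have hs1 : s ≤ 1 := by linarith [B.s1]
  have s2 : s ≤ eta1 * k / (6 * (|K| + 1)) :=
    H.s1.trans ((min_le_right _ _).trans (min_le_left _ _))
  have s3 : s ≤ eta1 ^ 2 / (K ^ 2 * b ^ 2 / 6 + 1) :=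
    H.s1.trans ((min_le_right _ _).trans ((min_le_right _ _).trans (min_le_left _ _)))
  have s4 : s ≤ eta1 * (k ^ 2 * b ^ 2 / 36) :=
    H.s1.trans ((min_le_right _ _).trans ((min_le_right _ _).trans (min_le_right _ _)))
  rw [abs_of_nonneg h.K0, le_div_iff₀ (by positivity)] at s2
  rw [le_div_iff₀ (by positivity)] at s3
  have o0 : 0 < om := lt_of_lt_of_le (by positivity) B.olo
  have mu0 : 0 ≤ mu := by rw [B.hmu]; exact mul_nonneg hb.le (h.m1_nonneg s)
  obtain ⟨a1, a2, a3, a4, -⟩ := num o0 B.o1 mu0 B.mu1 B.y0 B.y1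
  have o1 := B.o1
  have y0 := B.y0
  have yl : 998 / 1000 ≤ y := by linarith only [a4, o1]
  have yu : y ≤ 1 := by linarith only [a3, o0]
  have c0 := B.c0
  have hc1 : cc f s eps = y * s / b := by rw [← B.hy]; field_simp
  have hs122 : s ^ 12 ≤ 1 / 2 :=
    (pow_le_pow_of_le_one hs.le hs1 (show 1 ≤ 12 by norm_num)).trans (by linarith [B.s1])
  have e2 : eps ^ 2 ≤ 1 / 2 := H.e1.trans hs122
  have haa := B.aa_sq hb hs
  have hth := B.thh_eq h hb hs
  have hy2 : 99 / 100 ≤ y ^ 2 := by nlinarith only [yl]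
  have hy3 : y ^ 2 ≤ 1 := by nlinarith only [yu, y0]
  have au : aa f s eps ^ 2 ≤ om := by
    rw [haa, div_le_iff₀ (by positivity)]
    nlinarith only [hy2, o0]
  have al : om / 6 ≤ aa f s eps ^ 2 := by
    rw [haa]
    exact div_le_div_of_nonneg_left o0.le (by positivity) (by linarith only [hy3])
  have hsc : s / cc f s eps = b / y := by rw [hc1]; field_simp
  refine ⟨by nlinarith only [H.e0, e2], ?_, c0, ?_, B.cq, ?_,
    s / cc f s eps * f 2 0 + 3 * aa f s eps, fun z => s / cc f s eps * f 2 (s * z),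
    ⟨fun z => ?_, fun z => ?_, fun z => ?_, fun z => ?_, fun z => ?_⟩,
    ⟨fun h0 => ?_, ?_, H.e0, ?_, rfl, ?_, ?_, ?_⟩⟩
  · have e : b ^ 2 * qq f s = y ^ 2 * (1 - eps ^ 2) * s ^ 2 := by
      rw [← B.cq, hc1]; field_simp
    have h1 : 1 / 4 ≤ y ^ 2 * (1 - eps ^ 2) := by nlinarith only [hy2, e2]
    have h2 := mul_le_mul_of_nonneg_right h1 (sq_nonneg s)
    linarith only [h2, e]
  · have h1 := h.q_le s
    have h2 := B.cq
    have h3 : s ^ 2 ≤ 1 / 4 := by nlinarith only [B.s1, hs]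
    have h4 := mul_le_mul_of_nonneg_left e2 (sq_nonneg (cc f s eps))
    nlinarith only [h1, h2, h3, h4, c0]
  · have h1 : mu / y ≤ 3 / 2 := by rw [div_le_iff₀ y0]; linarith only [a2, yl]
    have h2 : 0 ≤ mu / y := by positivity
    have h3 : aa f s eps ^ 4 ≤ 1 / 1000 := by
      nlinarith only [sq_nonneg (aa f s eps), au, o1]
    have h4 : 0 ≤ aa f s eps ^ 4 := by positivity
    rw [lam, hth, abs_le]
    constructor <;> linarith only [h1, h2, h3, h4]
  · unfold WW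
    rw [mul_neg, h.odd1, neg_div]
  · exact (((h.d1 (s * z)).comp z ((hasDerivAt_id z).const_mul s)).div_const
      (cc f s eps)).congr_deriv (by ring)
  · exact mul_nonneg (by positivity) (h.p2 _)
  · have h1 : b / y ≤ 2 * b := by rw [div_le_iff₀ y0]; nlinarith only [hb, yl]
    rw [hsc]
    exact (mul_le_of_le_one_right (by positivity) (h.b2 _)).trans h1
  · have e : s / cc f s eps * f 2 (s * z) - (s / cc f s eps * f 2 0 + 3 * aa f s eps) -
        3 * aa f s eps * (z ^ 2 - 1) =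
        s / cc f s eps * (f 2 (s * z) - f 2 0 - f 4 0 * (s * z) ^ 2 / 2) := by
      unfold aa; field_simp; ring
    have h1 := h.t2 (s * z)
    have h2 := abs_pow_le4 z (k := 3) (by norm_num)
    rw [abs_mul s, abs_of_pos hs, mul_pow s |z|] at h1
    have h3 : k * s ^ 3 / (6 * cc f s eps) ≤ |aa f s eps| := by
      rw [aa, abs_div, abs_mul, abs_of_pos (pow_pos hs 3),
        abs_of_pos (by positivity : 0 < 6 * cc f s eps)]
      gcongr
      linarith only [neg_le_abs (f 4 0), hc.k4]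
    have h4 : s / cc f s eps * (K * s ^ 3) ≤ eta1 * (k * s ^ 3 / (6 * cc f s eps)) := by
      have e1 : s / cc f s eps * (K * s ^ 3) = (6 * K * s) * (s ^ 3 / (6 * cc f s eps)) := by
        field_simp
      have e2 : eta1 * (k * s ^ 3 / (6 * cc f s eps)) =
          (eta1 * k) * (s ^ 3 / (6 * cc f s eps)) := by ring
      rw [e1, e2]
      exact mul_le_mul_of_nonneg_right (by linarith only [s2, hs]) (by positivity)
    rw [e, abs_mul, abs_of_pos (div_pos hs c0)]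
    calc s / cc f s eps * |f 2 (s * z) - f 2 0 - f 4 0 * (s * z) ^ 2 / 2|
        ≤ s / cc f s eps * (K * (s ^ 3 * (1 + z ^ 4))) := by
          refine mul_le_mul_of_nonneg_left (h1.trans ?_) (by positivity)
          gcongr
      _ = s / cc f s eps * (K * s ^ 3) * (1 + z ^ 4) := by ring
      _ ≤ eta1 * |aa f s eps| * (1 + z ^ 4) :=
          mul_le_mul_of_nonneg_right (h4.trans (mul_le_mul_of_nonneg_left h3 he1.le))
            (by positivity)
  · rw [h0] at al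
    linarith only [al, o0]
  · refine abs_le_of_sq_le_sq (au.trans (B.ohi.trans ?_)) he1.le
    have h1 : s ^ 4 ≤ s := by simpa using pow_le_pow_of_le_one hs.le hs1 (show 1 ≤ 4 by norm_num)
    have h2 := mul_le_mul_of_nonneg_left h1 (by positivity : 0 ≤ K ^ 2 * b ^ 2 / 6)
    linarith only [h2, s3, hs]
  · have h1 : s ^ 12 ≤ s * s ^ 4 := by
      rw [← pow_succ']; exact pow_le_pow_of_le_one hs.le hs1 (by norm_num)
    have h2 := mul_le_mul_of_nonneg_right s4 (by positivity : 0 ≤ s ^ 4)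
    have h3 := mul_le_mul_of_nonneg_left B.olo he1.le
    have h4 := mul_le_mul_of_nonneg_left al he1.le
    linarith only [H.e1, h1, h2, h3, h4]
  · have e : (fun z => WW f s eps z ^ 2) = fun z => f 1 (s * z) ^ 2 / cc f s eps ^ 2 := by
      funext z; unfold WW; ring
    rw [e, integral_div]
    change qq f s / _ = _
    rw [← B.cq]
    field_simp
  · have : 0 ≤ aa f s eps ^ 4 := by positivity
    unfold lam; linarith only [this]
  · have : 0 ≤ aa f s eps ^ 4 := by positivity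
    unfold lam; linarith only [this]

end Vale.Agent.N150.Sc
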