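import Vale.Agent.N150.ScD

/-! Low temperature, one site calculus: the barrier. -/

open MeasureTheory ProbabilityTheory Filter Topology

namespace Vale.Agent.N150.Sc

open Vale.Agent.P150 Vale.Agent.P150.F
open Vale.Agent.N150.Sm2 (gam)

theorem ident {b s mu y k4 eps r I5 m c q n om t a th T : ℝ} (hb : b ≠ 0) (hmu : mu ≠ 0)
    (hy : y ≠ 0) (hm : m = mu / b) (hc : c = y * s / b) (hq : q = c ^ 2 * (1 - eps ^ 2))
    (hn : n = q - m ^ 2 * s ^ 2) (hom : om = k4 ^ 2 * b ^ 2 * s ^ 4 / 6)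
    (ht : t = b * (1 - y) / mu) (ha : a ^ 2 = om / (6 * y ^ 2)) (hth : th = mu / y) :
    m * (T ^ 2 * s ^ 2 + b ^ 2 * (r - T ^ 2 * q) - s ^ 2) / 2 + T * t * I5 +
        (1 - T ^ 2) * (b / 2 * (c ^ 2 * th - (th - 30 * a ^ 4) * q) + t * q) - t * n =
      (1 - T ^ 2) * (s ^ 2 / b) * (mu * (1 - y) ^ 2 / 2 - T ^ 2 * ((1 - y) * om / mu) +
          15 * om ^ 2 / (36 * y ^ 2) * (1 - eps ^ 2)) + m * b ^ 2 * (r - q) / 2 +
        (1 - T ^ 2) * m * s ^ 2 * eps ^ 2 * (1 - y) * y / 2 +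
        T * (t * (I5 - T ^ 3 * (k4 ^ 2 * s ^ 6 / 6))) - T ^ 2 * (t * (n - k4 ^ 2 * s ^ 6 / 6)) := by
  have ha4 : a ^ 4 = (om / (6 * y ^ 2)) ^ 2 := by rw [← ha]; ring
  rw [ha4]
  subst hth ht hom hn hq hc hm
  field_simp
  ring

theorem fin {b s mu y k4 eps r I5 m c q n om t a th K w0 Ct CD Cn C5 C3 : ℝ} (hb : 0 < b)
    (hs : 0 < s) (hs1 : s ≤ 1) (hK : 0 ≤ K) (hw0 : 0 ≤ w0) (hmu : 0 < mu)
    (hy : 0 < y) (hy1 : y ≤ 1) (hm : m = mu / b) (hm1 : m ≤ 1) (hc : c = y * s / b)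
    (hq : q = c ^ 2 * (1 - eps ^ 2))
    (hn : n = q - m ^ 2 * s ^ 2) (hom : om = k4 ^ 2 * b ^ 2 * s ^ 4 / 6)
    (ht : t = b * (1 - y) / mu) (ha : a ^ 2 = om / (6 * y ^ 2)) (hth : th = mu / y)
    (olo : w0 * s ^ 4 ≤ om)
    (hnum : mu * (1 - y) ^ 2 / 2 - (39 / 40) ^ 2 * ((1 - y) * om / mu) +
      15 * om ^ 2 / (36 * y ^ 2) ≤ -(om ^ 2 / 100))
    (hr : |r - q| ≤ s ^ 12) (he : eps ^ 2 ≤ s ^ 12) (ht1 : |t| ≤ Ct * s ^ 4)
    (hD : |(39 / 40) ^ 2 * s ^ 2 + b ^ 2 * (r - (39 / 40) ^ 2 * q) - s ^ 2| ≤ CD * s ^ 6)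
    (hn0 : 0 ≤ n) (hn1 : n ≤ Cn * s ^ 6)
    (h5 : |I5 - (39 / 40) ^ 3 * (k4 ^ 2 * s ^ 6 / 6)| ≤ C5 * s ^ 7)
    (h3 : |n - k4 ^ 2 * s ^ 6 / 6| ≤ C3 * s ^ 7)
    (hsm : (b ^ 2 + 1 + Ct * C5 + Ct * C3 + 200 * K * CD ^ 2 + 3 * (Ct ^ 2 * Cn)) * s ≤
      w0 ^ 2 / (5000 * b)) :
    m * ((39 / 40) ^ 2 * s ^ 2 + b ^ 2 * (r - (39 / 40) ^ 2 * q) - s ^ 2) / 2 +
        200 * K * ((39 / 40) ^ 2 * s ^ 2 + b ^ 2 * (r - (39 / 40) ^ 2 * q) - s ^ 2) ^ 2 +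
        39 / 40 * t * I5 + t ^ 2 * n +
        (1 - (39 / 40) ^ 2) * (b / 2 * (c ^ 2 * th - (th - 30 * a ^ 4) * q) + t * q) +
        w0 ^ 2 / (5000 * b) * s ^ 10 ≤ t * n - 2 * (t ^ 2 * n) := by
  have hid := ident (r := r) (I5 := I5) (T := 39 / 40) hb.ne' hmu.ne' hy.ne' hm hc hq hn hom ht
    ha hth
  have hm0 : 0 ≤ m := by rw [hm]; positivity
  have hCt : 0 ≤ Ct := by
    by_contra h
    have := mul_neg_of_neg_of_pos (not_le.1 h) (pow_pos hs 4)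
    linarith only [this, ht1, abs_nonneg t]
  have hCn : 0 ≤ Cn := by
    by_contra h
    have := mul_neg_of_neg_of_pos (not_le.1 h) (pow_pos hs 6)
    linarith only [this, hn0, hn1]
  have p12 : s ^ 12 ≤ s ^ 11 := pow_le_pow_of_le_one hs.le hs1 (by norm_num)
  have p14 : s ^ 14 ≤ s ^ 11 := pow_le_pow_of_le_one hs.le hs1 (by norm_num)
  -- the main term
  have m1 : 15 * om ^ 2 / (36 * y ^ 2) * (1 - eps ^ 2) ≤ 15 * om ^ 2 / (36 * y ^ 2) :=
    mul_le_of_le_one_right (by positivity) (by linarith only [sq_nonneg eps])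
  have m2 : (w0 * s ^ 4) ^ 2 ≤ om ^ 2 := pow_le_pow_left₀ (by positivity) olo 2
  have m3 : mu * (1 - y) ^ 2 / 2 - (39 / 40) ^ 2 * ((1 - y) * om / mu) +
      15 * om ^ 2 / (36 * y ^ 2) * (1 - eps ^ 2) ≤ -((w0 * s ^ 4) ^ 2 / 100) := by
    linarith only [m1, m2, hnum]
  have m4 := mul_le_mul_of_nonneg_left m3
    (by positivity : (0 : ℝ) ≤ (1 - (39 / 40) ^ 2) * (s ^ 2 / b))
  have m5 : (1 - (39 / 40) ^ 2) * (s ^ 2 / b) * -((w0 * s ^ 4) ^ 2 / 100) =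
      -(79 / 32 * (w0 ^ 2 / (5000 * b) * s ^ 10)) := by
    field_simp
    ring
  have m6 : 0 ≤ w0 ^ 2 / (5000 * b) * s ^ 10 := by positivity
  -- the errors
  have e1 : m * b ^ 2 * (r - q) ≤ b ^ 2 * s ^ 11 := by
    have h1 : m * (r - q) ≤ s ^ 11 := by
      have h2 := mul_le_mul_of_nonneg_left (le_abs_self (r - q)) hm0
      have h3 := mul_le_of_le_one_left (abs_nonneg (r - q)) hm1
      linarith only [h2, h3, hr, p12]
    have h4 := mul_le_mul_of_nonneg_left h1 (sq_nonneg b)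
    linarith only [h4]
  have e1' : 0 ≤ b ^ 2 * s ^ 11 := by positivity
  have e2 : m * s ^ 2 * eps ^ 2 * (1 - y) * y ≤ s ^ 11 := by
    have h1 : s ^ 2 ≤ 1 := pow_le_one₀ hs.le hs1
    have h2 : 0 ≤ 1 - y := by linarith only [hy1]
    have h4 : 1 - y ≤ 1 := by linarith only [hy]
    calc m * s ^ 2 * eps ^ 2 * (1 - y) * y ≤ 1 * 1 * s ^ 12 * 1 * 1 := by gcongr
      _ ≤ s ^ 11 := by linarith only [p12]
  have e2' : 0 ≤ s ^ 11 := by positivity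
  have e3 : |t * (I5 - (39 / 40) ^ 3 * (k4 ^ 2 * s ^ 6 / 6))| ≤ Ct * C5 * s ^ 11 := by
    rw [abs_mul]
    refine (mul_le_mul ht1 h5 (abs_nonneg _) (by positivity)).trans_eq (by ring)
  have e4 : |t * (n - k4 ^ 2 * s ^ 6 / 6)| ≤ Ct * C3 * s ^ 11 := by
    rw [abs_mul]
    refine (mul_le_mul ht1 h3 (abs_nonneg _) (by positivity)).trans_eq (by ring)
  have e5 : 200 * K * ((39 / 40) ^ 2 * s ^ 2 + b ^ 2 * (r - (39 / 40) ^ 2 * q) - s ^ 2) ^ 2 ≤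
      200 * K * CD ^ 2 * s ^ 11 := by
    have h1 := pow_le_pow_left₀ (abs_nonneg _) hD 2
    rw [sq_abs] at h1
    have h2 : (CD * s ^ 6) ^ 2 ≤ CD ^ 2 * s ^ 11 := by
      have := mul_le_mul_of_nonneg_left p12 (sq_nonneg CD)
      linarith only [this]
    rw [mul_assoc (200 * K)]
    exact mul_le_mul_of_nonneg_left (h1.trans h2) (by positivity)
  have e6 : t ^ 2 * n ≤ Ct ^ 2 * Cn * s ^ 11 := by
    have h1 := pow_le_pow_left₀ (abs_nonneg _) ht1 2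
    rw [sq_abs] at h1
    have h2 := mul_le_mul h1 hn1 hn0 (by positivity)
    have h4 := mul_le_mul_of_nonneg_left p14 (by positivity : 0 ≤ Ct ^ 2 * Cn)
    linarith only [h2, h4]
  have e7 := mul_le_mul_of_nonneg_right hsm (by positivity : 0 ≤ s ^ 10)
  have a3 := le_abs_self (t * (I5 - (39 / 40) ^ 3 * (k4 ^ 2 * s ^ 6 / 6)))
  have a3' := abs_nonneg (t * (I5 - (39 / 40) ^ 3 * (k4 ^ 2 * s ^ 6 / 6)))
  have a4 := neg_le_abs (t * (n - k4 ^ 2 * s ^ 6 / 6))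
  have a4' := abs_nonneg (t * (n - k4 ^ 2 * s ^ 6 / 6))
  linarith only [hid, m4, m5, m6, e1, e1', e2, e2', e3, e4, e5, e6, e7, a3, a3', a4, a4']

namespace Ch

variable {K : ℝ} {f : ℕ → ℝ → ℝ} (h : Ch K f)
include h

theorem int_at {g : ℕ → ℝ → ℝ} (hg : Ch K g) (s a t : ℝ) :
    Integrable (fun z => g 0 (a * z + t * Nn f s z)) gam := by
  have hc := h.cN s
  have hc0 := hg.cont (j := 0) (by norm_num)
  have hK := h.K0
  refine int8 (by fun_prop) (C := |g 0 0| + K + (|a| + |t| * (2 * |s|))) fun z =>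
    (hg.lin (by norm_num) _).trans ?_
  have h1 : |a * z + t * Nn f s z| ≤ (|a| + |t| * (2 * |s|)) * |z| := by
    refine (abs_add_le _ _).trans ?_
    rw [abs_mul, abs_mul]
    have := mul_le_mul_of_nonneg_left (h.bN s z) (abs_nonneg t)
    linarith only [this]
  have h2 := abs_pow_le z (k := 1) (by norm_num)
  rw [pow_one] at h2
  have h3 : (|a| + |t| * (2 * |s|)) * |z| ≤ (|a| + |t| * (2 * |s|)) * (1 + z ^ 8) := by gcongr
  have h4 : 0 ≤ (|g 0 0| + K) * z ^ 8 := by positivity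
  linarith only [h1, h3, h4]

/-- second order expansion in the direction of the nonlinear part -/
theorem expand {g : ℕ → ℝ → ℝ} (hg : Ch K g) (s a t : ℝ) :
    |∫ z, g 0 (a * z + t * Nn f s z) ∂gam - (∫ z, g 0 (a * z) ∂gam +
      t * ∫ z, Nn f s z * g 1 (a * z) ∂gam)| ≤ t ^ 2 * nu f s := by
  have hc := hg.cont (j := 1) (by norm_num)
  have i0 : Integrable (fun z => Nn f s z * g 1 (a * z)) gam :=
    h.iN s (by fun_prop) (A := |a|) fun z => by rw [← abs_mul]; exact hg.le1 _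
  have i1 := hg.int0 (j := 0) (by norm_num) a
  have i2 : Integrable (fun z => t * (Nn f s z * g 1 (a * z))) gam := i0.const_mul t
  have i3 : Integrable (fun z => g 0 (a * z) + t * (Nn f s z * g 1 (a * z))) gam := i1.add i2
  rw [← integral_const_mul, ← integral_add i1 i2, ← integral_sub (h.int_at hg s a t) i3, nu,
    ← integral_const_mul, ← Real.norm_eq_abs]
  refine norm_integral_le_of_norm_le ((h.iNN s).const_mul _) (Eventually.of_forall fun z => ?_)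
  have h1 := tay2 hg.d0 hg.d1 hg.a2 (a * z) (t * Nn f s z)
  rw [sq_abs] at h1
  rw [Real.norm_eq_abs]
  refine le_trans (le_of_eq ?_) (h1.trans_eq (by ring))
  congr 1
  ring

end Ch

theorem slice : SliceStmt := by
  intro b K k hb hk
  obtain ⟨eta0, he0, hbase⟩ := base b K k hb hk
  obtain ⟨w0, hw0⟩ : ∃ w0 : ℝ, w0 = k ^ 2 * b ^ 2 / 6 := ⟨_, rfl⟩
  obtain ⟨w1, hw1⟩ : ∃ w1 : ℝ, w1 = K ^ 2 * b ^ 2 / 6 := ⟨_, rfl⟩
  obtain ⟨C3, hC3⟩ : ∃ C3 : ℝ, C3 = 3000000 * K ^ 2 := ⟨_, rfl⟩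
  obtain ⟨CE, hCE⟩ : ∃ CE : ℝ, CE = b ^ 2 + 1 + 2 * b * w1 * (C3 + 212 * K ^ 2 * b) +
    2 * b * w1 * C3 + 200 * |K| * (3 * w1 + 1 + b ^ 2) ^ 2 +
    3 * ((2 * b * w1) ^ 2 * (K ^ 2 + C3)) := ⟨_, rfl⟩
  have hw0p : 0 < w0 := by rw [hw0]; positivity
  have hw1p : 0 ≤ w1 := by rw [hw1]; positivity
  have hC3p : 0 ≤ C3 := by rw [hC3]; positivity
  have hCEp : 0 < CE := by rw [hCE]; positivity
  refine ⟨min eta0 (min (w0 ^ 2 / (5000 * b) / CE) (min (1 / (100 * b ^ 2))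
    (1 / (2 * b * w1 + 1)))), w0 ^ 2 / (5000 * b), by positivity, by positivity,
    fun f s r eps hc H => ?_⟩
  obtain ⟨om, mu, y, B⟩ := hbase _ f s r eps (min_le_left _ _) hc H
  have h := hc.ch
  have hs := H.s0
  have hK := h.K0
  have hs1 : s ≤ 1 := by linarith only [B.s1]
  have s2 : s ≤ w0 ^ 2 / (5000 * b) / CE :=
    H.s1.trans ((min_le_right _ _).trans (min_le_left _ _))
  have s3 : s ≤ 1 / (100 * b ^ 2) :=
    H.s1.trans ((min_le_right _ _).trans ((min_le_right _ _).trans (min_le_left _ _)))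
  have s4 : s ≤ 1 / (2 * b * w1 + 1) :=
    H.s1.trans ((min_le_right _ _).trans ((min_le_right _ _).trans (min_le_right _ _)))
  rw [le_div_iff₀ hCEp] at s2
  rw [le_div_iff₀ (by positivity)] at s3 s4
  have olo : w0 * s ^ 4 ≤ om := hw0 ▸ B.olo
  have ohi : om ≤ w1 * s ^ 4 := hw1 ▸ B.ohi
  have o0 : 0 < om := lt_of_lt_of_le (by positivity) olo
  have mu0 : 0 ≤ mu := by rw [B.hmu]; exact mul_nonneg hb.le (h.m1_nonneg s)
  obtain ⟨a1, a2, a3, a4, hnum⟩ := num o0 B.o1 mu0 B.mu1 B.y0 B.y1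
  have o1 := B.o1
  have y0 := B.y0
  have mup : 0 < mu := by linarith only [a1]
  have yl : 998 / 1000 ≤ y := by linarith only [a4, o1]
  have yu : y ≤ 1 := by linarith only [a3, o0]
  have hc1 : cc f s eps = y * s / b := by rw [← B.hy]; field_simp
  have hm : m1 f s = mu / b := by rw [B.hmu]; field_simp
  have p12 : s ^ 12 ≤ s ^ 6 := pow_le_pow_of_le_one hs.le hs1 (by norm_num)
  have p124 : s ^ 12 ≤ s ^ 4 := pow_le_pow_of_le_one hs.le hs1 (by norm_num)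
  have p122 : s ^ 12 ≤ s ^ 2 := pow_le_pow_of_le_one hs.le hs1 (by norm_num)
  have p41 : s ^ 4 ≤ s := by simpa using pow_le_pow_of_le_one hs.le hs1 (show 1 ≤ 4 by norm_num)
  have e2 : eps ^ 2 ≤ 1 / 2 := by linarith only [H.e1, p124, p41, B.s1]
  obtain ⟨t, ht⟩ : ∃ t : ℝ, t = b * (1 - y) / mu := ⟨_, rfl⟩
  have ht1 : |t| ≤ 2 * b * w1 * s ^ 4 := by
    have h0 : 0 ≤ 1 - y := by linarith only [yu]
    rw [ht, abs_of_nonneg (by positivity), div_le_iff₀ mup]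
    have h1 : 1 - y ≤ 2 * (w1 * s ^ 4) * mu := by
      have h2 : 0 ≤ w1 * s ^ 4 := by positivity
      have h3 := mul_le_mul_of_nonneg_left a1 h2
      linarith only [h2, h3, a4, ohi]
    have h4 := mul_le_mul_of_nonneg_left h1 hb.le
    linarith only [h4]
  have hbq : b ^ 2 * qq f s = y ^ 2 * (1 - eps ^ 2) * s ^ 2 := by
    rw [← B.cq, hc1]; field_simp
  have hfix := abs_le.1 H.fix
  have hPq : (39 / 40) ^ 2 * qq f s ≤ r := by
    have hy2 : 99 / 100 ≤ y ^ 2 := by nlinarith only [yl]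
    have h1 : 1 / 4 ≤ y ^ 2 * (1 - eps ^ 2) := by nlinarith only [hy2, e2]
    have h2 := mul_le_mul_of_nonneg_right h1 (sq_nonneg s)
    have h3 : s ^ 12 ≤ s * s ^ 2 := by
      rw [← pow_succ']; exact pow_le_pow_of_le_one hs.le hs1 (by norm_num)
    have h4 := mul_le_mul_of_nonneg_right s3 (sq_nonneg s)
    have h5 := mul_le_mul_of_nonneg_left h3 (sq_nonneg b)
    have h6 : b ^ 2 * (25 * s ^ 12) ≤ b ^ 2 * qq f s := by linarith only [h2, h4, h5, hbq]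
    have h7 := le_of_mul_le_mul_left h6 (by positivity)
    have h8 : 0 ≤ s ^ 12 := by positivity
    linarith only [h7, h8, hfix.1]
  refine ⟨t, ?_, hPq, ?_⟩
  · have h1 := mul_le_mul_of_nonneg_left p41 (by positivity : 0 ≤ 2 * b * w1)
    linarith only [ht1, h1, s4, hs]
  obtain ⟨N, hN⟩ : ∃ N : ℝ, N = b ^ 2 * (r - (39 / 40) ^ 2 * qq f s) := ⟨_, rfl⟩
  have hN0 : 0 ≤ N := by rw [hN]; exact mul_nonneg (sq_nonneg b) (sub_nonneg.2 hPq)
  have hq0 : 0 ≤ qq f s := integral_nonneg fun _ => sq_nonneg _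
  have hN1 : √N ≤ 2 * b * s := by
    refine Real.sqrt_le_iff.2 ⟨by positivity, ?_⟩
    have h1 : r - (39 / 40) ^ 2 * qq f s ≤ 4 * s ^ 2 := by
      linarith only [hfix.2, h.q_le s, hq0, p122, sq_nonneg s]
    have h2 := mul_le_mul_of_nonneg_left h1 (sq_nonneg b)
    linarith only [h2, hN]
  have hg := h.conv (√N)
  have hU : ∀ z, UU b f s eps t z = s * z + t * Nn f s z := fun z => by
    unfold UU Nn
    rw [B.hy, hm, ht]
    field_simp
    ring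
  have hU1 : ∀ z, 39 / 40 * UU b f s eps t z = 39 / 40 * s * z + 39 / 40 * t * Nn f s z :=
    fun z => by rw [hU]; ring
  have hU2 : ∀ z, (UU b f s eps t z - s * z) ^ 2 = t ^ 2 * Nn f s z ^ 2 :=
    fun z => by rw [hU]; ring
  rw [← hN]
  simp only [hU1, hU2]
  simp only [hU]
  rw [integral_const_mul]
  have x1 := (abs_le.1 (h.expand hg s (39 / 40 * s) (39 / 40 * t))).2
  have x2 := (abs_le.1 (h.expand h s s t)).1
  rw [h.Nf1] at x2
  have hsig : √((39 / 40 * s) ^ 2 + N) ^ 2 = (39 / 40 * s) ^ 2 + √N ^ 2 := by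
    rw [Real.sq_sqrt (by positivity), Real.sq_sqrt hN0]
  rw [h.sum0 (by norm_num) (39 / 40 * s) (√N) _ hsig] at x1
  have x3 := h.e6 (√((39 / 40 * s) ^ 2 + N)) s
  rw [Real.sq_sqrt (by positivity), mul_pow, hN] at x3
  have x4 := h.e5 hg hs1 (a := 39 / 40 * s) (by positivity) (by linarith only [hs])
  have x5 := h.conv4 (√N)
  rw [abs_of_nonneg (Real.sqrt_nonneg N)] at x5
  have x6 := h.e3 hs.le hs1
  rw [← hC3] at x4 x6
  have hK2 : f 4 0 ^ 2 ≤ K ^ 2 := by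
    rw [← sq_abs]; exact pow_le_pow_left₀ (abs_nonneg _) (h.b4 0) 2
  have p76 : s ^ 7 ≤ s ^ 6 := pow_le_pow_of_le_one hs.le hs1 (by norm_num)
  have key := fin (I5 := ∫ z, Nn f s z * Sc.conv (√N) f 1 (39 / 40 * s * z) ∂gam) (r := r)
    (K := K) (Ct := 2 * b * w1) (CD := 3 * w1 + 1 + b ^ 2) (Cn := K ^ 2 + C3)
    (C5 := C3 + 212 * K ^ 2 * b) (C3 := C3) (n := nu f s) hb hs hs1 hK hw0p.le mup y0 yu hm
    (h.m1_le s) hc1 B.cq.symm (by rw [h.q_eq]; ring) B.hom ht (B.aa_sq hb hs) (B.thh_eq h hb hs)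
    olo hnum H.fix H.e1 ht1 ?_ (h.nu_nonneg s) ?_ ?_ x6 ?_
  · have h1 : (39 / 40 * t) ^ 2 * nu f s ≤ t ^ 2 * nu f s := by
      have := mul_nonneg (sq_nonneg t) (h.nu_nonneg s)
      linarith only [this]
    rw [← hN] at x3 key
    change _ ≤ _ - t ^ 2 * nu f s
    unfold lam
    rw [mul_pow (39 / 40) s] at x1
    linarith only [key, x1, x2, x3, h1]
  · have e : (39 / 40) ^ 2 * s ^ 2 + b ^ 2 * (r - (39 / 40) ^ 2 * qq f s) - s ^ 2 =
        b ^ 2 * (r - qq f s) - (1 - (39 / 40) ^ 2) * ((1 - y ^ 2 * (1 - eps ^ 2)) * s ^ 2) := by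
      linear_combination (1 - (39 / 40) ^ 2) * hbq
    have n := abs_le.1 B.y1
    have hy3 : y ^ 2 ≤ 1 := by nlinarith only [yu, y0]
    have h1 : y ^ 2 * eps ^ 2 ≤ s ^ 4 :=
      (mul_le_of_le_one_left (sq_nonneg _) hy3).trans (H.e1.trans p124)
    have h2 : 0 ≤ y ^ 2 * eps ^ 2 := by positivity
    have h3 : 1 - y ^ 2 * (1 - eps ^ 2) ≤ 3 * (w1 * s ^ 4) + s ^ 4 := by
      linarith only [n.1, h1, ohi, o0]
    have h4 : 0 ≤ 1 - y ^ 2 * (1 - eps ^ 2) := by linarith only [hy3, h2]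
    have h5 := mul_le_mul_of_nonneg_right h3 (sq_nonneg s)
    have h6 := mul_nonneg h4 (sq_nonneg s)
    have h7 := mul_le_mul_of_nonneg_left (hfix.2.trans p12) (sq_nonneg b)
    have h8 := mul_le_mul_of_nonneg_left ((neg_le_neg p12).trans hfix.1) (sq_nonneg b)
    have h9 : 0 ≤ w1 * s ^ 6 := by positivity
    have h10 : 0 ≤ s ^ 6 := by positivity
    rw [e, abs_le]
    constructor <;> linarith only [h5, h6, h7, h8, h9, h10]
  · have h1 := mul_le_mul_of_nonneg_right hK2 (by positivity : 0 ≤ s ^ 6)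
    have h2 := mul_le_mul_of_nonneg_left p76 hC3p
    have h3 : 0 ≤ K ^ 2 * s ^ 6 := by positivity
    linarith only [(abs_le.1 x6).2, h1, h2, h3]
  · have h1 : |f 4 0 * (Sc.conv (√N) f 4 0 - f 4 0)| ≤ K * (106 * (K * (2 * b * s))) := by
      rw [abs_mul]
      refine mul_le_mul (h.b4 0) (x5.trans ?_) (abs_nonneg _) hK
      gcongr
    have h2 := mul_le_mul_of_nonneg_right (abs_le.1 h1).1 (by positivity : 0 ≤ s ^ 6)
    have h3 := mul_le_mul_of_nonneg_right (abs_le.1 h1).2 (by positivity : 0 ≤ s ^ 6)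
    have h4 : 0 ≤ K ^ 2 * b * s ^ 7 := by positivity
    have h5 := abs_le.1 x4
    rw [abs_le]
    constructor <;> linarith only [h2, h3, h4, h5.1, h5.2]
  · rw [hCE, abs_of_nonneg hK] at s2
    linarith only [s2]

end Vale.Agent.N150.Sc
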