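import Vale.Agent.N150.SlFin
import Vale.Agent.P150W51.Disc

/-! Low temperature and typical starts, for the dynamics run by clocks. -/

open Filter Topology

namespace Vale.Agent.N150.Slow

open Vale.Agent.P150 Vale.Agent.P150W

theorem typ_eq {n : ℕ} (J : Fin n → Fin n → ℝ) (b : Fin n → ℝ) {t : ℝ} (ht : 0 ≤ t) (a : ℝ) :
    (mu J b).real {x | tv J b t x < a} =
      ex J b fun x => if tvDist J b t x < a then 1 else 0 := by
  rw [mu_real]
  refine Finset.sum_congr rfl fun x _ => ?_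
  simp only [← tv_eq ht]
  by_cases h : tv J b t x < a <;> simp [h]

/-- the two-sided statement -/
theorem two_clk {β : ℝ} (hβ : 1 < β) (h : ∃ c : ℝ, 0 < c ∧ SlowAt β c) :
    ∃ c : ℝ, 0 < c ∧ ∀ ε : ℝ, 0 < ε → WHP (fun n => {g |
      Real.exp (-((2 * √(Real.log 2) * (β - 1) + ε) * n)) ≤ gapL (skJ β g) (fun _ => 0) ∧
      gapL (skJ β g) (fun _ => 0) ≤ Real.exp (-(c * n)) ∧
      Real.exp (c * n) ≤ mix (skJ β g) (fun _ => 0) ∧
      mix (skJ β g) (fun _ => 0) ≤ Real.exp ((2 * √(Real.log 2) * (β - 1) + ε) * n)}) := by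
  obtain ⟨c, hc, h⟩ := two_sided hβ h
  refine ⟨c, hc, fun ε hε => MainThm.whp_mono (h ε hε) ?_⟩
  filter_upwards [eventually_gt_atTop 0] with n hn g h
  rw [Set.mem_ofPred_eq, gapL_eq (Asm.skJ_symm β g) hn, mix_eq]
  exact h

/-- typical starts -/
theorem typ_clk {β : ℝ} {P Q R : (n : ℕ) → (Pairs n → ℝ) → Prop} {D : ℕ → ℝ → ℝ → Prop}
    {a r : ℕ → ℝ → ℝ → ℝ} (h : WHP (fun n => {g | P n g ∧ Q n g ∧ R n g ∧
      ∀ t η : ℝ, 0 ≤ t → D n t η → ex (skJ β g) (fun _ => 0)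
        (fun x => if tvDist (skJ β g) (fun _ => 0) t x < a n t η then 1 else 0) ≤ r n t η})) :
    WHP (fun n => {g | ∀ t η : ℝ, 0 ≤ t → D n t η → (mu (skJ β g) (fun _ => 0)).real
      {x | tv (skJ β g) (fun _ => 0) t x < a n t η} ≤ r n t η}) :=
  MainThm.whp_mono h (Eventually.of_forall fun _ _ h t η ht hD =>
    (typ_eq _ _ ht _).trans_le (h.2.2.2 t η ht hD))

/-- typical starts, one parameter -/
theorem typ_clk' {β : ℝ} {P Q R S : (n : ℕ) → (Pairs n → ℝ) → Prop} {T a r : ℕ → ℝ}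
    (h : WHP (fun n => {g | P n g ∧ Q n g ∧ R n g ∧
      (∀ t : ℝ, 0 ≤ t → t ≤ T n → ex (skJ β g) (fun _ => 0)
        (fun x => if tvDist (skJ β g) (fun _ => 0) t x < a n then 1 else 0) ≤ r n) ∧ S n g})) :
    WHP (fun n => {g | ∀ t : ℝ, 0 ≤ t → t ≤ T n → (mu (skJ β g) (fun _ => 0)).real
      {x | tv (skJ β g) (fun _ => 0) t x < a n} ≤ r n}) :=
  MainThm.whp_mono h (Eventually.of_forall fun _ _ h t ht hD =>
    (typ_eq _ _ ht _).trans_le (h.2.2.2.1 t ht hD))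

end Vale.Agent.N150.Slow
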