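import Vale.Agent.N150.EndGauss

/-! Gaussian integrals of a soft delta function: exact first moment, dual upper bound for pairs,
the planted law. -/

open MeasureTheory ProbabilityTheory Matrix Real
open scoped ENNReal

namespace Vale.Agent.N150.SlGI

open Vale.Agent.P150 Vale.Agent.P150.F Vale.Agent.N150.Edge Vale.Agent.N150.Law

section general
variable {ι ι₁ ι₂ κ : Type} [Fintype ι] [Fintype ι₁] [Fintype ι₂] [Fintype κ] [DecidableEq κ]
  {ε : ℝ}

/-- the soft delta function -/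
noncomputable def ker (ε : ℝ) (y : κ → ℝ) : ℝ := Real.exp (-(y ⬝ᵥ y) / (2 * ε ^ 2))

/-- its Gaussian mean -/
noncomputable def IG (B : Matrix κ ι ℝ) (ε : ℝ) (a : κ → ℝ) : ℝ :=
  ∫ ω, ker ε (B *ᵥ ω - a) ∂gpi ι

/-- the smoothed covariance -/
noncomputable def CG (B : Matrix κ ι ℝ) (ε : ℝ) : Matrix κ κ ℝ := B * Bᵀ + ε ^ 2 • 1

omit [DecidableEq κ] in
theorem dot_nonneg (y : κ → ℝ) : 0 ≤ y ⬝ᵥ y :=
  Finset.sum_nonneg fun i _ => mul_self_nonneg (y i)

omit [DecidableEq κ] in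
theorem ker_pos (y : κ → ℝ) : 0 < ker ε y := Real.exp_pos _

omit [DecidableEq κ] in
theorem ker_le (y : κ → ℝ) : ker ε y ≤ 1 := by
  refine Real.exp_le_one_iff.2 (div_nonpos_of_nonpos_of_nonneg ?_ (by positivity))
  linarith [dot_nonneg y]

omit [DecidableEq κ] in
theorem continuous_ker : Continuous (ker ε : (κ → ℝ) → ℝ) := by
  unfold ker dotProduct
  fun_prop

omit [DecidableEq κ] in
theorem ms_ker (B : Matrix κ ι ℝ) (a : κ → ℝ) : Measurable fun ω => ker ε (B *ᵥ ω - a) :=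
  continuous_ker.measurable.comp ((measurable_matVec B).sub_const a)

omit [DecidableEq κ] in
theorem int_ker (B : Matrix κ ι ℝ) (a : κ → ℝ) :
    Integrable (fun ω => ker ε (B *ᵥ ω - a)) (gpi ι) :=
  (integrable_const (1 : ℝ)).mono' (ms_ker B a).aestronglyMeasurable
    (ae_of_all _ fun ω => by rw [Real.norm_of_nonneg (ker_pos _).le]; exact ker_le _)

omit [DecidableEq κ] in
theorem IG_nonneg (B : Matrix κ ι ℝ) (a : κ → ℝ) : 0 ≤ IG B ε a :=
  integral_nonneg fun _ => (ker_pos _).le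

omit [DecidableEq κ] in
theorem IG_lint (B : Matrix κ ι ℝ) (a : κ → ℝ) :
    ENNReal.ofReal (IG B ε a) = ∫⁻ ω, ENNReal.ofReal (ker ε (B *ᵥ ω - a)) ∂gpi ι :=
  ofReal_integral_eq_lintegral_ofReal (int_ker B a) (ae_of_all _ fun _ => (ker_pos _).le)

theorem dot_CG (B : Matrix κ ι ℝ) (u : κ → ℝ) :
    u ⬝ᵥ CG B ε *ᵥ u = Bᵀ *ᵥ u ⬝ᵥ Bᵀ *ᵥ u + ε ^ 2 * (u ⬝ᵥ u) := by
  rw [CG, add_mulVec, dotProduct_add, smul_mulVec, one_mulVec, dotProduct_smul, smul_eq_mul,
    ← mulVec_mulVec, dotProduct_mulVec u B, ← mulVec_transpose]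

/-- completing the square -/
theorem IG_shift (hε : 0 < ε) (B : Matrix κ ι ℝ) (a u : κ → ℝ) :
    IG B ε a = IG B ε (a - CG B ε *ᵥ u) * Real.exp (-(a ⬝ᵥ u) + u ⬝ᵥ CG B ε *ᵥ u / 2) := by
  set r := a - CG B ε *ᵥ u with hr
  set c := Real.exp (-(a ⬝ᵥ u) + u ⬝ᵥ CG B ε *ᵥ u / 2) with hc
  have hc0 : 0 ≤ c := (Real.exp_pos _).le
  rw [← ENNReal.ofReal_eq_ofReal_iff (IG_nonneg _ _) (mul_nonneg (IG_nonneg _ _) hc0),
    ENNReal.ofReal_mul (IG_nonneg _ _), IG_lint, IG_lint]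
  have hm : Measurable fun ω => ENNReal.ofReal (ker ε (B *ᵥ ω - r)) := (ms_ker B r).ennreal_ofReal
  have h1 := lintegral_shift (-(Bᵀ *ᵥ u)) hm
  have h2 := lintegral_shift (Bᵀ *ᵥ u) (F := fun ω => ENNReal.ofReal (ker ε
    (B *ᵥ (ω + -(Bᵀ *ᵥ u)) - r))) (hm.comp (measurable_id.add_const _))
  simp only [add_neg_cancel_right] at h2
  rw [h2, ← lintegral_mul_const]
  · refine lintegral_congr fun ω => ?_
    rw [← ENNReal.ofReal_mul (Real.exp_pos _).le,
      ← ENNReal.ofReal_mul (mul_pos (Real.exp_pos _) (ker_pos _)).le]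
    congr 1
    rw [hc, ker, ker, ← Real.exp_add, ← Real.exp_add]
    congr 1
    have e1 : B *ᵥ (ω + -(Bᵀ *ᵥ u)) - r = B *ᵥ ω - a + ε ^ 2 • u := by
      rw [hr, CG, add_mulVec, smul_mulVec, one_mulVec, mulVec_add, mulVec_neg, mulVec_mulVec]
      abel
    have e2 : Bᵀ *ᵥ u ⬝ᵥ ω = u ⬝ᵥ B *ᵥ ω := by rw [dotProduct_mulVec, mulVec_transpose]
    rw [e1, e2, dot_CG]
    have e3 : u ⬝ᵥ B *ᵥ ω = u ⬝ᵥ (B *ᵥ ω - a) + a ⬝ᵥ u := by
      rw [dotProduct_sub, dotProduct_comm u a]; ring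
    rw [e3]
    generalize B *ᵥ ω - a = y
    simp only [add_dotProduct, dotProduct_add, smul_dotProduct, dotProduct_smul, smul_eq_mul]
    rw [dotProduct_comm y u]
    field_simp
    ring
  · refine Measurable.mul ?_ (hm.comp (measurable_id.add_const _))
    unfold dotProduct
    fun_prop

theorem CG_surj (hε : 0 < ε) (B : Matrix κ ι ℝ) (a : κ → ℝ) : ∃ u, CG B ε *ᵥ u = a := by
  have hd : (CG B ε).det ≠ 0 := by
    intro h
    obtain ⟨v, hv, h0⟩ := Matrix.exists_mulVec_eq_zero_iff.2 h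
    have h1 := dot_CG (ε := ε) B v
    rw [h0, dotProduct_zero] at h1
    have h2 := dot_nonneg (Bᵀ *ᵥ v)
    have h3 : 0 < v ⬝ᵥ v := (dot_nonneg v).lt_of_ne fun h => hv (dotProduct_self_eq_zero.1 h.symm)
    have h4 := mul_pos (pow_pos hε 2) h3
    linarith
  exact ⟨(CG B ε)⁻¹ *ᵥ a, by
    rw [mulVec_mulVec, mul_nonsing_inv _ (isUnit_iff_ne_zero.2 hd), one_mulVec]⟩

theorem IG_of (hε : 0 < ε) (B : Matrix κ ι ℝ) {a u : κ → ℝ} (h : CG B ε *ᵥ u = a) :
    IG B ε a = IG B ε 0 * Real.exp (-(a ⬝ᵥ u) / 2) := by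
  rw [IG_shift hε B a u, h, sub_self, dotProduct_comm u a]
  congr 2
  ring

theorem IG_le_zero (hε : 0 < ε) (B : Matrix κ ι ℝ) (a : κ → ℝ) : IG B ε a ≤ IG B ε 0 := by
  obtain ⟨u, hu⟩ := CG_surj hε B a
  rw [IG_of hε B hu]
  refine mul_le_of_le_one_right (IG_nonneg _ _) (Real.exp_le_one_iff.2 ?_)
  have h1 := dot_CG (ε := ε) B u
  rw [hu, dotProduct_comm] at h1
  have h2 := dot_nonneg (Bᵀ *ᵥ u)
  have h3 := mul_nonneg (pow_pos hε 2).le (dot_nonneg u)
  linarith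

/-- the dual upper bound -/
theorem IG_le_dual (hε : 0 < ε) (B : Matrix κ ι ℝ) (a u : κ → ℝ) :
    IG B ε a ≤ IG B ε 0 * Real.exp (-(a ⬝ᵥ u) + u ⬝ᵥ CG B ε *ᵥ u / 2) := by
  rw [IG_shift hε B a u]
  exact mul_le_mul_of_nonneg_right (IG_le_zero hε B _) (Real.exp_pos _).le

theorem IG_ge (hε : 0 < ε) (B : Matrix κ ι ℝ) (a : κ → ℝ) : IG B ε 0 * ker ε a ≤ IG B ε a := by
  obtain ⟨u, hu⟩ := CG_surj hε B a
  rw [IG_of hε B hu]
  refine mul_le_mul_of_nonneg_left (Real.exp_le_exp.2 ?_) (IG_nonneg _ _)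
  have h1 := dot_CG (ε := ε) B u
  rw [hu, dotProduct_comm] at h1
  have h2 := dot_nonneg (Bᵀ *ᵥ u)
  have h3 := dot_nonneg (a - ε ^ 2 • u)
  simp only [sub_dotProduct, dotProduct_sub, smul_dotProduct, dotProduct_smul, smul_eq_mul] at h3
  rw [dotProduct_comm u a] at h3
  have h4 := pow_pos hε 2
  rw [div_le_div_iff₀ (by positivity) (by norm_num)]
  nlinarith

theorem IG_congr {B : Matrix κ ι ℝ} {B' : Matrix κ ι₁ ℝ} (h : B * Bᵀ = B' * B'ᵀ) (a : κ → ℝ) :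
    IG B ε a = IG B' ε a :=
  integral_mulVec_eq h (F := fun y => ker ε (y - a))
    (continuous_ker.measurable.comp (measurable_id.sub_const a))

theorem IG_conv {A : Matrix κ ι ℝ} {A₁ : Matrix κ ι₁ ℝ} {A₂ : Matrix κ ι₂ ℝ}
    (h : A * Aᵀ = A₁ * A₁ᵀ + A₂ * A₂ᵀ) :
    ENNReal.ofReal (IG A ε 0) = ∫⁻ w, ENNReal.ofReal (IG A₁ ε (-(A₂ *ᵥ w))) ∂gpi ι₂ := by
  rw [IG_lint]
  simp only [sub_zero]
  rw [lintegral_mulVec_add h (F := fun y => ENNReal.ofReal (ker ε y))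
    continuous_ker.measurable.ennreal_ofReal]
  refine lintegral_congr fun w => ?_
  rw [IG_lint]
  simp only [sub_neg_eq_add]

theorem IG_add_le (hε : 0 < ε) {A : Matrix κ ι ℝ} {A₁ : Matrix κ ι₁ ℝ} {A₂ : Matrix κ ι₂ ℝ}
    (h : A * Aᵀ = A₁ * A₁ᵀ + A₂ * A₂ᵀ) : IG A ε 0 ≤ IG A₁ ε 0 := by
  rw [← ENNReal.ofReal_le_ofReal_iff (IG_nonneg _ _), IG_conv h]
  calc _ ≤ ∫⁻ _, ENNReal.ofReal (IG A₁ ε 0) ∂gpi ι₂ :=
        lintegral_mono fun w => ENNReal.ofReal_le_ofReal (IG_le_zero hε _ _)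
    _ = _ := by simp

theorem IG_mul_le (hε : 0 < ε) {A : Matrix κ ι ℝ} {A₁ : Matrix κ ι₁ ℝ} {A₂ : Matrix κ ι₂ ℝ}
    (h : A * Aᵀ = A₁ * A₁ᵀ + A₂ * A₂ᵀ) : IG A₁ ε 0 * IG A₂ ε 0 ≤ IG A ε 0 := by
  rw [← ENNReal.ofReal_le_ofReal_iff (IG_nonneg _ _), IG_conv h,
    ENNReal.ofReal_mul (IG_nonneg _ _), IG_lint A₂,
    ← lintegral_const_mul _ (ms_ker A₂ 0).ennreal_ofReal]
  refine lintegral_mono fun w => ?_
  rw [← ENNReal.ofReal_mul (IG_nonneg _ _)]
  refine ENNReal.ofReal_le_ofReal (le_trans (le_of_eq ?_) (IG_ge hε A₁ _))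
  rw [sub_zero, ker, ker, neg_dotProduct_neg]

theorem one_dim {c : ℝ} (hc : 0 ≤ c) :
    ∫ x, Real.exp (-(c * x ^ 2) / 2) ∂gaussianReal 0 1 = (√(1 + c))⁻¹ := by
  rw [integral_gaussianReal_eq_integral_smul (by norm_num)]
  have e : ∀ x : ℝ, gaussianPDFReal 0 1 x • Real.exp (-(c * x ^ 2) / 2) =
      (√(2 * π))⁻¹ * Real.exp (-((1 + c) / 2) * x ^ 2) := by
    intro x
    rw [gaussianPDFReal, smul_eq_mul, mul_assoc, ← Real.exp_add]
    simp only [NNReal.coe_one, mul_one, sub_zero]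
    congr 2
    ring
  simp_rw [e]
  rw [integral_const_mul, integral_gaussian]
  have h1 : π / ((1 + c) / 2) = 2 * π / (1 + c) := by field_simp
  rw [h1, Real.sqrt_div (by positivity), ← mul_div_assoc, inv_mul_cancel₀ (by positivity), one_div]

/-- the centred integral is an inverse square root of a determinant -/
theorem IG_zero (hε : 0 < ε) (B : Matrix κ ι ℝ) :
    IG B ε 0 = (√(1 + (ε ^ 2)⁻¹ • (B * Bᵀ)).det)⁻¹ := by
  have hS : (B * Bᵀ).PosSemidef := by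
    simpa using Matrix.posSemidef_self_mul_conjTranspose B
  have hH := hS.isHermitian
  set U : Matrix κ κ ℝ := (hH.eigenvectorUnitary : Matrix κ κ ℝ) with hU
  set d := hH.eigenvalues with hd
  have hd0 : ∀ k, 0 ≤ d k := hS.eigenvalues_nonneg
  have hUU : Uᵀ * U = 1 := by
    have := (Unitary.mem_iff.1 hH.eigenvectorUnitary.2).1
    simpa [star_eq_conjTranspose] using this
  have hUU' : U * Uᵀ = 1 := mul_eq_one_comm.1 hUU
  have hsp : B * Bᵀ = U * diagonal d * Uᵀ := by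
    have := hH.spectral_theorem
    simpa [star_eq_conjTranspose, Unitary.conjStarAlgAut_apply] using this
  have h1 : B * Bᵀ = U * diagonal (fun k => √(d k)) * (U * diagonal fun k => √(d k))ᵀ := by
    rw [hsp, transpose_mul, diagonal_transpose, Matrix.mul_assoc U (diagonal fun k => √(d k)),
      ← Matrix.mul_assoc (diagonal fun k => √(d k)), diagonal_mul_diagonal, Matrix.mul_assoc]
    congr 3
    funext k
    exact (Real.mul_self_sqrt (hd0 k)).symm
  rw [IG_congr h1, IG]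
  have e : ∀ ω : κ → ℝ, ker ε ((U * diagonal fun k => √(d k)) *ᵥ ω - 0) =
      ∏ k, Real.exp (-(d k / ε ^ 2 * ω k ^ 2) / 2) := by
    intro ω
    rw [sub_zero, ker, ← mulVec_mulVec, dotProduct_mulVec, ← mulVec_transpose, mulVec_mulVec, hUU,
      one_mulVec, ← Real.exp_sum]
    congr 1
    rw [dotProduct, neg_div, Finset.sum_div, ← Finset.sum_neg_distrib]
    refine Finset.sum_congr rfl fun k _ => ?_
    rw [mulVec_diagonal]
    have := Real.mul_self_sqrt (hd0 k)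
    field_simp
    linear_combination (-(ω k ^ 2)) * this
  simp_rw [e]
  unfold gpi
  rw [integral_fintype_prod_eq_prod (𝕜 := ℝ) (μ := fun _ => gaussianReal 0 1)
    (f := fun (k : κ) (x : ℝ) => Real.exp (-(d k / ε ^ 2 * x ^ 2) / 2))]
  have e2 : 1 + (ε ^ 2)⁻¹ • (B * Bᵀ) = U * diagonal (fun k => 1 + d k / ε ^ 2) * Uᵀ := by
    have : (diagonal fun k => 1 + d k / ε ^ 2) = 1 + (ε ^ 2)⁻¹ • diagonal d := by
      rw [← diagonal_one, ← diagonal_smul, diagonal_add]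
      congr 1
      funext k
      simp [div_eq_inv_mul]
    rw [this, Matrix.mul_add, Matrix.add_mul, Matrix.mul_one, hUU', Matrix.mul_smul,
      Matrix.smul_mul, ← hsp]
  have e3 : U.det * Uᵀ.det = 1 := by rw [← det_mul, hUU', det_one]
  rw [e2, det_mul, det_mul, det_diagonal, mul_right_comm, e3, one_mul,
    Real.sqrt_prod _ fun k _ => by have := hd0 k; positivity, ← Finset.prod_inv_distrib]
  exact Finset.prod_congr rfl fun k _ => one_dim (by have := hd0 k; positivity)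

/-- uncorrelated linear images are independent -/
theorem indep {κ' : Type} [Fintype κ'] [DecidableEq κ'] {B₁ : Matrix κ ι ℝ} {B₂ : Matrix κ' ι ℝ}
    (h : B₁ * B₂ᵀ = 0) {H : (κ → ℝ) → (κ' → ℝ) → ℝ≥0∞} (hH : Measurable (Function.uncurry H)) :
    ∫⁻ ω, H (B₁ *ᵥ ω) (B₂ *ᵥ ω) ∂gpi ι = ∫⁻ ω₂, ∫⁻ ω₁, H (B₁ *ᵥ ω₁) (B₂ *ᵥ ω₂) ∂gpi ι ∂gpi ι := by
  have h' : B₂ * B₁ᵀ = 0 := by
    have := congrArg transpose h
    simpa using this
  have e : fromRows B₁ B₂ * (fromRows B₁ B₂)ᵀ = fromRows B₁ (0 : Matrix κ' ι ℝ) *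
      (fromRows B₁ (0 : Matrix κ' ι ℝ))ᵀ + fromRows (0 : Matrix κ ι ℝ) B₂ *
      (fromRows (0 : Matrix κ ι ℝ) B₂)ᵀ := by
    simp only [transpose_fromRows, fromRows_mul_fromCols, h, h', fromBlocks_add]
    simp
  have hm : Measurable fun y : κ ⊕ κ' → ℝ => H (y ∘ Sum.inl) (y ∘ Sum.inr) :=
    hH.comp (Measurable.prodMk (measurable_pi_lambda _ fun k => measurable_pi_apply _)
      (measurable_pi_lambda _ fun k => measurable_pi_apply _))
  have h2 := lintegral_mulVec_add e hm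
  simpa [fromRows_mulVec, Function.comp_def] using h2

end general

section goe
variable {n : ℕ} {ι : Type} [Fintype ι] {A : ι → Mat n} {ε : ℝ}

/-- the soft delta function of the equation `W m = a` -/
noncomputable def L1 (ε : ℝ) (W : Mat n) (m a : Vec n) : ℝ :=
  Real.exp (-F.sq (W *ᵥ m - a) / (2 * ε ^ 2))

/-- its mean -/
noncomputable def E1 (ε : ℝ) (m a : Vec n) : ℝ :=
  √(ε ^ 2 / (F.sq m / n + ε ^ 2)) ^ n * √((F.sq m / n + ε ^ 2) / (2 * (F.sq m / n) + ε ^ 2)) *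
    Real.exp (-F.sq a / (2 * (F.sq m / n + ε ^ 2)) +
      ip m a ^ 2 / (2 * n * (F.sq m / n + ε ^ 2) * (2 * (F.sq m / n) + ε ^ 2)))

/-- the linear map from the coefficients to `W m` -/
def Bm (A : ι → Mat n) (m : Vec n) : Matrix (Fin n) ι ℝ := Matrix.of fun k i => (A i *ᵥ m) k

theorem L1_pos (W : Mat n) (m a : Vec n) : 0 < L1 ε W m a := Real.exp_pos _

theorem L1_eq (W : Mat n) (m a : Vec n) : L1 ε W m a = ker ε (W *ᵥ m - a) := by
  rw [L1, ker, sq_eq_dot]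

theorem L1_le (W : Mat n) (m a : Vec n) : L1 ε W m a ≤ 1 := by rw [L1_eq]; exact ker_le _

theorem Bm_mulVec (A : ι → Mat n) (m : Vec n) (ω : ι → ℝ) : Bm A m *ᵥ ω = goeM A ω *ᵥ m := by
  funext k
  rw [goeM, Matrix.sum_mulVec, Finset.sum_apply]
  refine Finset.sum_congr rfl fun i _ => ?_
  rw [smul_mulVec, Pi.smul_apply, smul_eq_mul, mul_comm]
  rfl

theorem ms_L1 (A : ι → Mat n) (m a : Vec n) : Measurable fun ω => L1 ε (goeM A ω) m a := by
  simp_rw [L1_eq, ← Bm_mulVec]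
  exact ms_ker _ _

theorem int_L1 (A : ι → Mat n) (m a : Vec n) :
    Integrable (fun ω => L1 ε (goeM A ω) m a) (gpi ι) := by
  simp_rw [L1_eq, ← Bm_mulVec]
  exact int_ker _ _

theorem ip_single (k : Fin n) (v : Vec n) : ip (Pi.single k 1) v = v k := by
  simp [ip, Pi.single_apply]

theorem Bm_cov (hA : GoeFam A) (m m' : Vec n) (k l : Fin n) :
    (Bm A m * (Bm A m')ᵀ) k l = ((if k = l then ip m m' else 0) + m' k * m l) / n := by
  have h := goe_bil hA (Pi.single k 1) m (Pi.single l 1) m'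
  simp only [ip_single] at h
  rw [ipN_comm m (Pi.single l 1), ip_single] at h
  rw [Matrix.mul_apply]
  simp only [Bm, Matrix.transpose_apply, Matrix.of_apply]
  rw [h]
  by_cases e : k = l
  · simp [e]
  · simp [e]

theorem Bm_sq (hA : GoeFam A) (m : Vec n) :
    Bm A m * (Bm A m)ᵀ = (F.sq m / n) • (1 : Mat n) + (n : ℝ)⁻¹ • vecMulVec m m := by
  ext k l
  rw [Bm_cov hA, ipN_self]
  by_cases e : k = l
  · simp [e, vecMulVec_apply]; ring
  · simp [e, vecMulVec_apply]; ring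

theorem sqrt_pw {x : ℝ} (hx : 0 ≤ x) (k : ℕ) : √(x ^ k) = √x ^ k := by
  rw [← Real.sqrt_sq (pow_nonneg (Real.sqrt_nonneg x) k), ← pow_mul, mul_comm, pow_mul,
    Real.sq_sqrt hx]

theorem det_rank_one (α c : ℝ) (hα : α ≠ 0) (m : Vec n) :
    (α • (1 : Mat n) + c • vecMulVec m m).det = α ^ n * (1 + c / α * F.sq m) := by
  have e : α • (1 : Mat n) + c • vecMulVec m m = α • (1 + vecMulVec ((c / α) • m) m) := by
    rw [smul_add, smul_vecMulVec, smul_smul, mul_div_cancel₀ _ hα]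
  rw [e, det_smul, Fintype.card_fin, vecMulVec_eq Unit,
    det_one_add_replicateCol_mul_replicateRow, dotProduct_smul, sq_eq_dot, smul_eq_mul]

/-- the exact first moment -/
theorem one_eq (hA : GoeFam A) (hn : 0 < n) (hε : 0 < ε) (m a : Vec n) :
    ∫ ω, L1 ε (goeM A ω) m a ∂gpi ι = E1 ε m a := by
  have hn' : (0 : ℝ) < n := Nat.cast_pos.2 hn
  have he := pow_pos hε 2
  simp_rw [L1_eq, ← Bm_mulVec]
  change IG (Bm A m) ε a = _
  unfold E1
  have hs : F.sq m = n * (F.sq m / n) := by field_simp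
  have hQ : 0 ≤ F.sq m / n := div_nonneg (sqN_nonneg m) hn'.le
  have hB := Bm_sq hA m
  generalize F.sq m / n = Q at *
  have hu : CG (Bm A m) ε *ᵥ ((Q + ε ^ 2)⁻¹ • (a - (ip m a / (n * (2 * Q + ε ^ 2))) • m)) = a := by
    rw [CG, hB, add_mulVec, add_mulVec, smul_mulVec, smul_mulVec, smul_mulVec, one_mulVec,
      vecMulVec_mulVec, ip_smul_right, ip_sub_right, ip_smul_right, ipN_self, hs]
    funext k
    simp only [Pi.add_apply, Pi.smul_apply, Pi.sub_apply, smul_eq_mul]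
    field_simp
    ring
  rw [IG_of hε _ hu, IG_zero hε, hB]
  have e1 : (1 : Mat n) + (ε ^ 2)⁻¹ • (Q • (1 : Mat n) + (n : ℝ)⁻¹ • vecMulVec m m) =
      ((Q + ε ^ 2) / ε ^ 2) • (1 : Mat n) + ((ε ^ 2)⁻¹ * (n : ℝ)⁻¹) • vecMulVec m m := by
    rw [smul_add, smul_smul, smul_smul, ← add_assoc]
    congr 1
    nth_rewrite 1 [← one_smul ℝ (1 : Mat n)]
    rw [← add_smul]
    congr 1
    field_simp
    ring
  rw [e1, det_rank_one _ _ (by positivity), hs]
  congr 1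
  · have e2 : 1 + (ε ^ 2)⁻¹ * (n : ℝ)⁻¹ / ((Q + ε ^ 2) / ε ^ 2) * (n * Q) =
        (2 * Q + ε ^ 2) / (Q + ε ^ 2) := by
      field_simp
      ring
    rw [e2, Real.sqrt_mul (by positivity), mul_inv, ← Real.sqrt_inv, ← Real.sqrt_inv, ← inv_pow,
      inv_div, inv_div, sqrt_pw (by positivity)]
  · congr 1
    rw [dotProduct_smul, dotProduct_sub, dotProduct_smul, ← sq_eq_dot, ← ip_eq_dot, ipN_comm a m,
      smul_eq_mul, smul_eq_mul]
    field_simp
    ring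

theorem E1_pos (hε : 0 < ε) (m a : Vec n) : 0 < E1 ε m a := by
  have hQ : 0 ≤ F.sq m / n := div_nonneg (sqN_nonneg m) (Nat.cast_nonneg n)
  unfold E1
  positivity

theorem det_blocks {α : ℝ} (γ δ : ℝ) (hα : α ≠ 0) :
    (fromBlocks (α • (1 : Mat n)) (γ • (1 : Mat n)) (γ • (1 : Mat n)) (δ • (1 : Mat n))).det =
      (α * δ - γ ^ 2) ^ n := by
  have e : fromBlocks (α • (1 : Mat n)) (γ • (1 : Mat n)) (γ • (1 : Mat n)) (δ • (1 : Mat n)) =
      fromBlocks 1 0 ((γ / α) • (1 : Mat n)) 1 *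
        fromBlocks (α • (1 : Mat n)) (γ • (1 : Mat n)) 0 ((δ - γ ^ 2 / α) • (1 : Mat n)) := by
    rw [fromBlocks_multiply]
    simp only [Matrix.one_mul, Matrix.zero_mul, Matrix.mul_zero, add_zero, Matrix.smul_mul,
      smul_smul, ← add_smul]
    congr 2
    · field_simp
    · field_simp
      ring
  rw [e, det_mul, det_fromBlocks_zero₁₂, det_fromBlocks_zero₂₁, det_one, det_smul, det_smul,
    det_one, Fintype.card_fin, one_mul, one_mul, mul_one, mul_one, ← mul_pow]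
  congr 1
  field_simp

theorem gram_pos (hn : 0 < n) (hε : 0 < ε) (s d : Vec n) :
    0 < (F.sq s / n + ε ^ 2) * (F.sq d / n + ε ^ 2) - (ip s d / n) ^ 2 := by
  have hn' : (0 : ℝ) < n := Nat.cast_pos.2 hn
  have h1 : ip s d ^ 2 ≤ F.sq s * F.sq d := Finset.sum_mul_sq_le_sq_mul_sq _ _ _
  have h2 : (ip s d / n) ^ 2 ≤ F.sq s / n * (F.sq d / n) := by
    rw [div_pow, div_mul_div_comm, ← pow_two]
    exact div_le_div_of_nonneg_right h1 (by positivity)
  have h3 : 0 ≤ F.sq s / n := div_nonneg (sqN_nonneg _) hn'.le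
  have h4 : 0 ≤ F.sq d / n := div_nonneg (sqN_nonneg _) hn'.le
  have he := pow_pos hε 2
  nlinarith [mul_nonneg h3 he.le, mul_nonneg h4 he.le, mul_pos he he]

theorem pair_zero (hA : GoeFam A) (hn : 0 < n) (hε : 0 < ε) (s d : Vec n) :
    IG (fromRows (Bm A s) (Bm A d)) ε 0 ≤
      √((1 + F.sq s / n / ε ^ 2) * (1 + F.sq d / n / ε ^ 2)) *
      √(ε ^ 4 / ((F.sq s / n + ε ^ 2) * (F.sq d / n + ε ^ 2) - (ip s d / n) ^ 2)) ^ n := by
  have hn' : (0 : ℝ) < n := Nat.cast_pos.2 hn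
  have he := pow_pos hε 2
  obtain ⟨c, hc⟩ : ∃ c : ℝ, c * c = (n : ℝ)⁻¹ := ⟨√(n : ℝ)⁻¹, Real.mul_self_sqrt (by positivity)⟩
  set B := fromRows (Bm A s) (Bm A d) with hB
  set B2 : Matrix (Fin n ⊕ Fin n) (Fin 2) ℝ := fromRows (Matrix.of fun k => ![c * d k, 0])
    (Matrix.of fun k => ![0, c * s k]) with hB2
  set B3 : Matrix (Fin n ⊕ Fin n) (Fin 3) ℝ := fromRows (Matrix.of fun k => ![c * s k, 0, c * d k])
    (Matrix.of fun k => ![0, c * d k, c * s k]) with hB3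
  set T : Vec n → Matrix (Fin n) (Fin n × Fin n) ℝ :=
    fun v => Matrix.of fun k p => if p.1 = k then c * v p.2 else 0 with hT
  have hTT : ∀ u v, T u * (T v)ᵀ = (ip u v / n) • (1 : Mat n) := by
    intro u v
    ext k l
    simp only [hT, Matrix.mul_apply, Matrix.transpose_apply, Matrix.of_apply,
      Fintype.sum_prod_type, Matrix.smul_apply, Matrix.one_apply, smul_eq_mul]
    rw [Finset.sum_eq_single k (fun j _ hj => by simp [hj]) (by simp)]
    by_cases e : k = l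
    · simp only [e, if_true, mul_one, ip, Finset.sum_div]
      exact Finset.sum_congr rfl fun j _ => by rw [div_eq_mul_inv, ← hc]; ring
    · simp [e]
  set L := fromRows (T s) (T d) with hL
  have hLL : L * Lᵀ = fromBlocks ((F.sq s / n) • 1) ((ip s d / n) • 1) ((ip s d / n) • 1)
      ((F.sq d / n) • 1) := by
    rw [hL, transpose_fromRows, fromRows_mul_fromCols, hTT, hTT, hTT, hTT, ipN_self, ipN_self,
      ipN_comm d s]
  have h0 : fromCols B B2 * (fromCols B B2)ᵀ = B * Bᵀ + B2 * B2ᵀ := by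
    rw [transpose_fromCols, fromCols_mul_fromRows]
  have h1 : B * Bᵀ + B2 * B2ᵀ = L * Lᵀ + B3 * B3ᵀ := by
    rw [hLL, hB, hB2, hB3]
    simp only [transpose_fromRows, fromRows_mul_fromCols, fromBlocks_add]
    have q : ∀ x y : ℝ, c * x * (c * y) = x * y / n := fun x y => by
      rw [div_eq_mul_inv, ← hc]; ring
    congr 1 <;> ext k l <;> rw [Matrix.add_apply, Bm_cov hA] <;>
      simp only [Matrix.mul_apply, Matrix.transpose_apply, Matrix.of_apply, Fin.sum_univ_two,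
        Fin.sum_univ_three, Matrix.add_apply, Matrix.smul_apply, Matrix.one_apply, smul_eq_mul,
        Matrix.cons_val_zero, Matrix.cons_val_one, Matrix.cons_val_two, Matrix.head_cons,
        Matrix.tail_cons, q, ipN_self, ipN_comm d s] <;> split_ifs <;> ring
  have h2 := (IG_mul_le hε h0).trans (IG_add_le hε (h0.trans h1))
  have hs0 : 0 ≤ F.sq s / n := div_nonneg (sqN_nonneg _) hn'.le
  have hd0 : 0 ≤ F.sq d / n := div_nonneg (sqN_nonneg _) hn'.le
  have h3 : IG B2 ε 0 = (√((1 + F.sq s / n / ε ^ 2) * (1 + F.sq d / n / ε ^ 2)))⁻¹ := by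
    rw [IG_zero hε, ← Matrix.smul_mul, det_one_add_mul_comm, Matrix.mul_smul, det_fin_two]
    have q : ∀ v : Vec n, ∑ k, c * v k * (c * v k) = F.sq v / n := fun v => by
      rw [F.sq, Finset.sum_div]
      exact Finset.sum_congr rfl fun j _ => by rw [div_eq_mul_inv, ← hc]; ring
    simp [hB2, Matrix.mul_apply, Fintype.sum_sum_type, q]
    congr 1
    ring
  have hg := gram_pos hn hε s d
  have h4 : IG L ε 0 =
      √(ε ^ 4 / ((F.sq s / n + ε ^ 2) * (F.sq d / n + ε ^ 2) - (ip s d / n) ^ 2)) ^ n := by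
    have e : (1 : Matrix (Fin n ⊕ Fin n) (Fin n ⊕ Fin n) ℝ) + (ε ^ 2)⁻¹ • (L * Lᵀ) =
        fromBlocks ((1 + F.sq s / n / ε ^ 2) • 1) ((ip s d / n / ε ^ 2) • 1)
          ((ip s d / n / ε ^ 2) • 1) ((1 + F.sq d / n / ε ^ 2) • 1) := by
      rw [hLL, ← fromBlocks_one, fromBlocks_smul, fromBlocks_add]
      simp only [smul_smul, add_smul, one_smul, zero_add, div_eq_inv_mul (_ / _)]
    rw [IG_zero hε, e, det_blocks _ _ (by positivity), ← Real.sqrt_inv, ← inv_pow,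
      ← sqrt_pw (by positivity)]
    congr 2
    rw [← inv_div]
    field_simp
    ring
  rw [h3, h4, ← div_eq_mul_inv, div_le_iff₀ (by positivity), mul_comm] at h2
  exact h2

/-- the dual upper bound for a pair of equations -/
theorem pair_le (hA : GoeFam A) (hn : 0 < n) (hε : 0 < ε) (s d a b x y : Vec n) :
    ∫ ω, L1 ε (goeM A ω) s a * L1 ε (goeM A ω) d b ∂gpi ι ≤
      √((1 + F.sq s / n / ε ^ 2) * (1 + F.sq d / n / ε ^ 2)) *
      √(ε ^ 4 / ((F.sq s / n + ε ^ 2) * (F.sq d / n + ε ^ 2) - (ip s d / n) ^ 2)) ^ n *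
      Real.exp (-ip x a - ip y b + ε ^ 2 * (F.sq x + F.sq y) / 2 +
        (F.sq s * F.sq x + 2 * ip s d * ip x y + F.sq d * F.sq y + ip s x ^ 2 +
          2 * ip d x * ip s y + ip d y ^ 2) / (2 * n)) := by
  have e : ∀ ω, L1 ε (goeM A ω) s a * L1 ε (goeM A ω) d b =
      ker ε (fromRows (Bm A s) (Bm A d) *ᵥ ω - Sum.elim a b) := by
    intro ω
    rw [fromRows_mulVec, Bm_mulVec, Bm_mulVec, L1, L1, ker, ← Real.exp_add, ← add_div]
    congr 2
    simp [dotProduct, Fintype.sum_sum_type, F.sq, pow_two]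
    ring
  simp_rw [e]
  refine (IG_le_dual hε _ _ (Sum.elim x y)).trans (mul_le_mul (pair_zero hA hn hε s d)
    (le_of_eq ?_) (Real.exp_pos _).le (by positivity))
  congr 1
  have e1 : ∀ i, ((fromRows (Bm A s) (Bm A d))ᵀ *ᵥ Sum.elim x y) i =
      ip x (A i *ᵥ s) + ip y (A i *ᵥ d) := by
    intro i
    simp [mulVec, dotProduct, Fintype.sum_sum_type, Bm, ip, mul_comm]
  have e2 : (fromRows (Bm A s) (Bm A d))ᵀ *ᵥ Sum.elim x y ⬝ᵥ
      (fromRows (Bm A s) (Bm A d))ᵀ *ᵥ Sum.elim x y = ∑ i, ip x (A i *ᵥ s) * ip x (A i *ᵥ s) +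
        2 * ∑ i, ip x (A i *ᵥ s) * ip y (A i *ᵥ d) + ∑ i, ip y (A i *ᵥ d) * ip y (A i *ᵥ d) := by
    rw [dotProduct, Finset.mul_sum, ← Finset.sum_add_distrib, ← Finset.sum_add_distrib]
    exact Finset.sum_congr rfl fun i _ => by rw [e1]; ring
  rw [dot_CG, e2, goe_bil hA, goe_bil hA, goe_bil hA, sumElim_dotProduct_sumElim,
    sumElim_dotProduct_sumElim]
  simp only [← ip_eq_dot, ipN_self]
  rw [ipN_comm a x, ipN_comm b y, ipN_comm x s, ipN_comm x d, ipN_comm y d]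
  ring

/-- passage to the sum and difference coordinates -/
theorem pair_pm (W : Mat n) (m m' a a' : Vec n) :
    L1 ε W m a * L1 ε W m' a' = L1 ε W ((√2)⁻¹ • (m + m')) ((√2)⁻¹ • (a + a')) *
      L1 ε W ((√2)⁻¹ • (m - m')) ((√2)⁻¹ • (a - a')) := by
  rw [L1, L1, L1, L1, ← Real.exp_add, ← Real.exp_add, ← add_div, ← add_div]
  congr 2
  have h2 : (√2)⁻¹ * (√2)⁻¹ = 1 / 2 := by
    rw [← mul_inv, Real.mul_self_sqrt (by norm_num), one_div]
  simp only [mulVec_smul, mulVec_add, mulVec_sub, F.sq, ← neg_add, ← Finset.sum_add_distrib,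
    Pi.sub_apply, Pi.add_apply, Pi.smul_apply, smul_eq_mul]
  congr 1
  refine Finset.sum_congr rfl fun k _ => ?_
  linear_combination (-2 * (((W *ᵥ m) k - a k) ^ 2 + ((W *ᵥ m') k - a' k) ^ 2)) * h2

/-- the optimal test vector of one equation -/
noncomputable def tv (ε : ℝ) (s a : Vec n) : Vec n :=
  (F.sq s / n + ε ^ 2)⁻¹ • (a - (ip s a / (n * (2 * (F.sq s / n) + ε ^ 2))) • s)

/-- the exponent of `E1` -/
noncomputable def ex1 (ε : ℝ) (m a : Vec n) : ℝ :=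
  -F.sq a / (2 * (F.sq m / n + ε ^ 2)) +
    ip m a ^ 2 / (2 * n * (F.sq m / n + ε ^ 2) * (2 * (F.sq m / n) + ε ^ 2))

theorem tv_val (hn : 0 < n) (hε : 0 < ε) (s a : Vec n) :
    -ip (tv ε s a) a + ε ^ 2 * F.sq (tv ε s a) / 2 +
      (F.sq s * F.sq (tv ε s a) + ip s (tv ε s a) ^ 2) / (2 * n) = ex1 ε s a := by
  have hn' : (0 : ℝ) < n := Nat.cast_pos.2 hn
  have he := pow_pos hε 2
  have hs : F.sq s = n * (F.sq s / n) := by field_simp
  have hQ : 0 ≤ F.sq s / n := div_nonneg (sqN_nonneg s) hn'.le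
  rw [← ipN_self (tv ε s a)]
  simp only [tv, ex1, ip_smul_left, ip_smul_right, ip_sub_left, ip_sub_right]
  rw [ipN_comm a s, ipN_self, ipN_self]
  generalize F.sq s / n = Q at *
  rw [hs]
  field_simp
  ring

/-- the decoupled bound; the last two terms vanish or have a good sign when `s ⟂ d` and the two
equations have the same type -/
theorem pair_dec (hA : GoeFam A) (hn : 0 < n) (hε : 0 < ε) (s d a b : Vec n) :
    ∫ ω, L1 ε (goeM A ω) s a * L1 ε (goeM A ω) d b ∂gpi ι ≤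
      √((1 + F.sq s / n / ε ^ 2) * (1 + F.sq d / n / ε ^ 2)) *
      √(ε ^ 4 / ((F.sq s / n + ε ^ 2) * (F.sq d / n + ε ^ 2) - (ip s d / n) ^ 2)) ^ n *
      Real.exp (ex1 ε s a + ex1 ε d b +
        (ip s d * ip (tv ε s a) (tv ε d b) + ip d (tv ε s a) * ip s (tv ε d b)) / n) := by
  refine (pair_le hA hn hε s d a b (tv ε s a) (tv ε d b)).trans (le_of_eq ?_)
  rw [← tv_val hn hε, ← tv_val hn hε]
  congr 2
  ring

/-- the orthogonal case -/
theorem pair_orth (hA : GoeFam A) (hn : 0 < n) (hε : 0 < ε) {s d : Vec n} (h : ip s d = 0)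
    (a b : Vec n) :
    ∫ ω, L1 ε (goeM A ω) s a * L1 ε (goeM A ω) d b ∂gpi ι ≤
      √((1 + F.sq s / n / ε ^ 2) * (1 + F.sq d / n / ε ^ 2)) *
      √(ε ^ 4 / ((F.sq s / n + ε ^ 2) * (F.sq d / n + ε ^ 2))) ^ n *
      Real.exp (ex1 ε s a + ex1 ε d b +
        ip d a * ip s b / (n * (F.sq s / n + ε ^ 2) * (F.sq d / n + ε ^ 2))) := by
  refine (pair_dec hA hn hε s d a b).trans (le_of_eq ?_)
  have h' : ip d s = 0 := by rw [ipN_comm, h]
  simp only [tv, ip_smul_right, ip_sub_right, h, h', zero_div, zero_mul, mul_zero, sub_zero,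
    zero_add, ne_eq, OfNat.ofNat_ne_zero, not_false_eq_true, zero_pow]
  congr 3
  rw [div_eq_mul_inv, div_eq_mul_inv _ (_ * _ * _), mul_inv, mul_inv]
  ring

/-- the planted law: `W m` is independent of `P W Pᵀ` when `P m = 0` -/
theorem plant (hA : GoeFam A) {P : Mat n} {m : Vec n} (hP : P *ᵥ m = 0)
    {H : Vec n → Mat n → ℝ≥0∞}
    (hH : Measurable fun p : Vec n × (Fin n × Fin n → ℝ) => H p.1 (toM p.2)) :
    ∫⁻ ω, H (goeM A ω *ᵥ m) (P * goeM A ω * Pᵀ) ∂gpi ι =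
      ∫⁻ ω₂, ∫⁻ ω₁, H (goeM A ω₁ *ᵥ m) (P * goeM A ω₂ * Pᵀ) ∂gpi ι ∂gpi ι := by
  have h0 : Bm A m * (flat fun i => P * A i * Pᵀ)ᵀ = 0 := by
    ext k p
    have h := goe_bil hA (Pi.single k 1) m (P p.1) (P p.2)
    have h1 : ∀ a, ip m (P a) = 0 := fun a => by
      rw [ipN_comm]
      exact congrFun hP a
    simp only [ip_single, h1, mul_zero, add_zero, zero_div] at h
    rw [Matrix.mul_apply, Matrix.zero_apply, ← h]
    exact Finset.sum_congr rfl fun i _ => by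
      simp only [Bm, flat, Matrix.transpose_apply, Matrix.of_apply, conj_apply]
  have h1 := indep h0 (H := fun y v => H y (toM v)) hH
  simpa only [Bm_mulVec, toM_flat, goeM_conj] using h1

theorem E1_two (hn : 0 < n) (hε : 0 < ε) {m : Vec n} (hm : 0 < F.sq m) (a : Vec n) :
    E1 (√2 * ε) m a ≤ E1 ε m a *
      (√2 ^ (n + 1) * Real.exp (F.sq a * ε ^ 2 / (2 * (F.sq m / n) ^ 2))) := by
  have hn' : (0 : ℝ) < n := Nat.cast_pos.2 hn
  have hQ : 0 < F.sq m / n := div_pos hm hn'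
  have he := pow_pos hε 2
  have e : (√2 * ε) ^ 2 = 2 * ε ^ 2 := by rw [mul_pow, Real.sq_sqrt (by norm_num)]
  have ha := sqN_nonneg a
  unfold E1
  rw [e]
  generalize F.sq m / n = Q at *
  generalize ε ^ 2 = v at *
  have h1 : √(2 * v / (Q + 2 * v)) ≤ √(v / (Q + v)) * √2 := by
    rw [← Real.sqrt_mul (by positivity)]
    refine Real.sqrt_le_sqrt ?_
    rw [div_mul_eq_mul_div, mul_comm v]
    gcongr
    linarith
  have h2 : √((Q + 2 * v) / (2 * Q + 2 * v)) ≤ √((Q + v) / (2 * Q + v)) * √2 := by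
    rw [← Real.sqrt_mul (by positivity)]
    refine Real.sqrt_le_sqrt ?_
    rw [div_mul_eq_mul_div, div_le_div_iff₀ (by positivity) (by positivity)]
    nlinarith [mul_pos hQ he, mul_pos he he, mul_pos hQ hQ]
  have h3 : -F.sq a / (2 * (Q + 2 * v)) + ip m a ^ 2 / (2 * n * (Q + 2 * v) * (2 * Q + 2 * v)) ≤
      (-F.sq a / (2 * (Q + v)) + ip m a ^ 2 / (2 * n * (Q + v) * (2 * Q + v))) +
        F.sq a * v / (2 * Q ^ 2) := by
    have h4 : ip m a ^ 2 / (2 * n * (Q + 2 * v) * (2 * Q + 2 * v)) ≤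
        ip m a ^ 2 / (2 * n * (Q + v) * (2 * Q + v)) := by gcongr <;> linarith
    have h5 : -F.sq a / (2 * (Q + 2 * v)) =
        -F.sq a / (2 * (Q + v)) + F.sq a * v / (2 * ((Q + v) * (Q + 2 * v))) := by
      field_simp
      ring
    have h6 : F.sq a * v / (2 * ((Q + v) * (Q + 2 * v))) ≤ F.sq a * v / (2 * Q ^ 2) := by
      gcongr
      nlinarith [mul_pos hQ he, mul_pos he he]
    linarith
  calc _ ≤ (√(v / (Q + v)) * √2) ^ n * (√((Q + v) / (2 * Q + v)) * √2) *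
        Real.exp ((-F.sq a / (2 * (Q + v)) + ip m a ^ 2 / (2 * n * (Q + v) * (2 * Q + v))) +
          F.sq a * v / (2 * Q ^ 2)) := by gcongr
    _ = _ := by rw [Real.exp_add _ (_ / (2 * Q ^ 2)), mul_pow, pow_succ]; ring

/-- under the planted law the equation holds up to an error of order `ε √n` -/
theorem tail (hA : GoeFam A) (hn : 0 < n) (hε : 0 < ε) {m : Vec n} (hm : 0 < F.sq m) (a : Vec n)
    (r : ℝ) :
    ∫ ω in {ω | r ≤ F.sq (goeM A ω *ᵥ m - a)}, L1 ε (goeM A ω) m a ∂gpi ι ≤ E1 ε m a *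
      (√2 ^ (n + 1) * Real.exp (F.sq a * ε ^ 2 / (2 * (F.sq m / n) ^ 2) - r / (4 * ε ^ 2))) := by
  have hε' : 0 < √2 * ε := by positivity
  have e : (√2 * ε) ^ 2 = 2 * ε ^ 2 := by rw [mul_pow, Real.sq_sqrt (by norm_num)]
  have hS : MeasurableSet {ω | r ≤ F.sq (goeM A ω *ᵥ m - a)} := by
    simp_rw [← Bm_mulVec]
    exact measurableSet_le measurable_const
      (continuous_sq.measurable.comp ((measurable_matVec _).sub_const a))
  calc _ ≤ ∫ ω in {ω | r ≤ F.sq (goeM A ω *ᵥ m - a)},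
        L1 (√2 * ε) (goeM A ω) m a * Real.exp (-(r / (4 * ε ^ 2))) ∂gpi ι := by
        refine setIntegral_mono_on (int_L1 A m a).integrableOn
          ((int_L1 A m a).mul_const _).integrableOn hS fun ω hω => ?_
        rw [L1, L1, ← Real.exp_add, e]
        refine Real.exp_le_exp.2 ?_
        have h1 : r / (4 * ε ^ 2) ≤ F.sq (goeM A ω *ᵥ m - a) / (4 * ε ^ 2) :=
          div_le_div_of_nonneg_right hω (by positivity)
        have h2 : -F.sq (goeM A ω *ᵥ m - a) / (2 * ε ^ 2) = -F.sq (goeM A ω *ᵥ m - a) /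
          (2 * (2 * ε ^ 2)) - F.sq (goeM A ω *ᵥ m - a) / (4 * ε ^ 2) := by field_simp; ring
        linarith
    _ ≤ ∫ ω, L1 (√2 * ε) (goeM A ω) m a * Real.exp (-(r / (4 * ε ^ 2))) ∂gpi ι :=
        setIntegral_le_integral ((int_L1 A m a).mul_const _)
          (ae_of_all _ fun ω => (mul_pos (L1_pos _ _ _) (Real.exp_pos _)).le)
    _ = E1 (√2 * ε) m a * Real.exp (-(r / (4 * ε ^ 2))) := by
        rw [integral_mul_const, one_eq hA hn hε']
    _ ≤ _ := by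
        refine (mul_le_mul_of_nonneg_right (E1_two hn hε hm a) (Real.exp_pos _).le).trans
          (le_of_eq ?_)
        rw [sub_eq_add_neg, Real.exp_add]
        ring

theorem E1_eq (m a : Vec n) : E1 ε m a = √(ε ^ 2 / (F.sq m / n + ε ^ 2)) ^ n *
    √((F.sq m / n + ε ^ 2) / (2 * (F.sq m / n) + ε ^ 2)) * Real.exp (ex1 ε m a) := rfl

/-- the projection on the orthogonal complement of `m` -/
noncomputable def Pm (m : Vec n) : Mat n := 1 - (F.sq m)⁻¹ • vecMulVec m m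

theorem Pm_mulVec (m v : Vec n) : Pm m *ᵥ v = v - (ip m v / F.sq m) • m := by
  rw [Pm, sub_mulVec, one_mulVec, smul_mulVec, vecMulVec_mulVec, smul_smul, div_eq_inv_mul]

theorem Pm_self {m : Vec n} (hm : F.sq m ≠ 0) : Pm m *ᵥ m = 0 := by
  rw [Pm_mulVec, ipN_self, div_self hm, one_smul, sub_self]

theorem Pm_tr (m : Vec n) : (Pm m)ᵀ = Pm m := by
  rw [Pm, transpose_sub, transpose_one, transpose_smul, transpose_vecMulVec]

/-- the energy in terms of `P W P` and `W m` -/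
theorem qf_split {W : Mat n} (hW : W.IsSymm) (m x : Vec n) :
    qf W x = qf (Pm m * W * (Pm m)ᵀ) x + 2 * (ip m x / F.sq m) * ip x (W *ᵥ m) -
      (ip m x / F.sq m) ^ 2 * ip m (W *ᵥ m) := by
  have e : qf (Pm m * W * (Pm m)ᵀ) x = qf W (Pm m *ᵥ x) := by
    rw [qf_eq_dot, qf_eq_dot, ← mulVec_mulVec, ← mulVec_mulVec, dotProduct_mulVec x,
      ← mulVec_transpose, Pm_tr]
  have e2 : ip m (W *ᵥ x) = ip x (W *ᵥ m) := by rw [ip_mulVec_comm hW, ipN_comm]
  rw [e, Pm_mulVec]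
  simp only [qf, mulVec_sub, mulVec_smul, ip_sub_left, ip_sub_right, ip_smul_left, ip_smul_right,
    e2]
  ring

/-- the planted law of a function of `P W P` is the null law -/
theorem plant_mul (hA : GoeFam A) (hn : 0 < n) (hε : 0 < ε) {P : Mat n} {m : Vec n}
    (hP : P *ᵥ m = 0) (a : Vec n) {G : Mat n → ℝ≥0∞} (hG : Measurable fun v => G (toM v)) :
    ∫⁻ ω, ENNReal.ofReal (L1 ε (goeM A ω) m a) * G (P * goeM A ω * Pᵀ) ∂gpi ι =
      ENNReal.ofReal (E1 ε m a) * ∫⁻ ω, G (P * goeM A ω * Pᵀ) ∂gpi ι := by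
  have h1 := plant hA hP (H := fun y M => ENNReal.ofReal (ker ε (y - a)) * G M)
    ((continuous_ker.measurable.comp (measurable_fst.sub_const a)).ennreal_ofReal.mul
      (hG.comp measurable_snd))
  simp only [← L1_eq] at h1
  have h2 : ∫⁻ ω, ENNReal.ofReal (L1 ε (goeM A ω) m a) ∂gpi ι = ENNReal.ofReal (E1 ε m a) := by
    rw [← one_eq hA hn hε, ofReal_integral_eq_lintegral_ofReal (int_L1 A m a)
      (ae_of_all _ fun _ => (L1_pos _ _ _).le)]
  rw [h1, ← lintegral_const_mul' _ _ ENNReal.ofReal_ne_top]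
  refine lintegral_congr fun ω => ?_
  rw [lintegral_mul_const _ (ms_L1 A m a).ennreal_ofReal, h2]

end goe

end Vale.Agent.N150.SlGI
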