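import Vale.Agent.N150.SlTop
import Vale.Agent.N150.SlGI

/-! Low temperature: the bottleneck of the conditioned matrix, from free energies of bands. -/

open MeasureTheory ProbabilityTheory Matrix Filter Topology
open scoped ENNReal

namespace Vale.Agent.N150.Slow

open Vale.Agent.P150 Vale.Agent.P150.F Vale.Agent.N150.Edge Vale.Agent.N150.SlGI

variable {n : ℕ} {ι : Type} [Fintype ι] {A : ι → Mat n}

/-- the symmetric matrix of rank two which vanishes on `m^⊥ × m^⊥` and maps `m` to `a` -/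
noncomputable def R2 (m a : Vec n) : Mat n :=
  (F.sq m)⁻¹ • (vecMulVec a m + vecMulVec m a) - (ip m a / F.sq m ^ 2) • vecMulVec m m

/-- the matrix `W` conditioned on `W m = a` -/
noncomputable def Wc (W : Mat n) (m a : Vec n) : Mat n := Pm m * W * (Pm m)ᵀ + R2 m a

/-- the free energy of `S`, centred at `w`, in the field `u` -/
noncomputable def FB (b : ℝ) (A : ι → Mat n) (S : Finset (Cfg n)) (w u : Vec n) : ℝ :=
  ∫ ω, Real.log (∑ x ∈ S, Real.exp (b / 2 * qf (goeM A ω) (sv x - w) + ip u (sv x))) ∂gpi ι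

theorem qf_vmv (a m x : Vec n) : qf (vecMulVec a m) x = ip x a * ip m x := by
  unfold qf
  rw [vecMulVec_mulVec, ip_smul_right, mul_comm]

theorem qf_R2 (m a x : Vec n) : qf (R2 m a) x =
    2 * (ip m x / F.sq m) * ip x a - (ip m x / F.sq m) ^ 2 * ip m a := by
  rw [R2, Win.qf_sub, Win.qf_smul, Win.qf_smul, Win.qf_add, qf_vmv, qf_vmv, qf_vmv, ipN_comm x m,
    ipN_comm a x]
  ring

theorem qf_Wc {W : Mat n} (hW : W.IsSymm) (m a x : Vec n) : qf (Wc W m a) x = qf W x +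
    2 * (ip m x / F.sq m) * ip x (a - W *ᵥ m) - (ip m x / F.sq m) ^ 2 * ip m (a - W *ᵥ m) := by
  rw [Wc, Win.qf_add, qf_R2, qf_split hW m x, ip_sub_right, ip_sub_right]
  ring

theorem sq_smul' (c : ℝ) (m : Vec n) : F.sq (c • m) = c ^ 2 * F.sq m := by
  rw [← ipN_self, ip_smul_left, ip_smul_right, ipN_self]
  ring

theorem Pm_smul {c : ℝ} (hc : c ≠ 0) (m : Vec n) : Pm (c • m) = Pm m := by
  rw [Pm, Pm, sq_smul', smul_vecMulVec, vecMulVec_smul, smul_smul, smul_smul]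
  congr 2
  field_simp

theorem R2_smul {c : ℝ} (hc : c ≠ 0) (m a : Vec n) : R2 (c • m) (c • a) = R2 m a := by
  rw [R2, R2, sq_smul', ip_smul_left, ip_smul_right]
  simp only [smul_vecMulVec, vecMulVec_smul, smul_smul, ← smul_add]
  congr 2
  · field_simp
  · field_simp

theorem Wc_smul {c : ℝ} (hc : c ≠ 0) (W : Mat n) (m a : Vec n) :
    Wc W (c • m) (c • a) = Wc W m a := by
  rw [Wc, Wc, Pm_smul hc, R2_smul hc]

theorem abs_ip_half (u v : Vec n) : |ip u v| ≤ (F.sq u + F.sq v) / 2 := by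
  nlinarith [abs_ip_le u v, nv_sq u, nv_sq v, sq_nonneg (nv u - nv v)]

theorem ip_sq_le (u v : Vec n) : ip u v ^ 2 ≤ F.sq u * F.sq v :=
  Finset.sum_mul_sq_le_sq_mul_sq _ _ _

theorem symm_goe (hA : GoeFam A) (ω : ι → ℝ) : (goeM A ω).IsSymm :=
  Matrix.IsSymm.ext fun a b => Law.goeM_symm hA ω b a

/-- the bottleneck does not feel a small error in the condition -/
theorem Ht_Wc (hn : 0 < n) {b s : ℝ} (hb : 0 ≤ b) (hs : 0 ≤ s) {W : Mat n} (hW : W.IsSymm)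
    {m a : Vec n} (hm : 0 < F.sq m) (h : F.sq (W *ᵥ m - a) ≤ s ^ 2 * F.sq m) :
    Ht b (Wc W m a) ≤ Ht b W + 3 * b * s * n := by
  have hn' : (0 : ℝ) < n := Nat.cast_pos.2 hn
  refine (Ht_le hn b (r := b / 2 * (3 * (s * n))) fun x => ?_).trans (le_of_eq (by ring))
  rw [← mul_sub, abs_mul, abs_of_nonneg (by positivity : 0 ≤ b / 2), qf_Wc hW]
  refine mul_le_mul_of_nonneg_left ?_ (by positivity)
  have hd : F.sq (a - W *ᵥ m) ≤ s ^ 2 * F.sq m := by
    rwa [← nv_sq, nv_sub_comm, nv_sq]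
  generalize a - W *ᵥ m = d at hd ⊢
  have h1 : (ip m (sv x) / F.sq m) ^ 2 * F.sq m ≤ n := by
    have := ip_sq_le m (sv x)
    rw [sq_sv] at this
    rw [div_pow, div_mul_eq_mul_div, div_le_iff₀ (by positivity)]
    nlinarith
  generalize ip m (sv x) / F.sq m = t at h1 ⊢
  have h2 : |t * ip (sv x) d| ≤ s * n := by
    refine abs_le_of_sq_le_sq' ?_ (by positivity) |> abs_le.2
    have h3 := ip_sq_le (sv x) d
    rw [sq_sv] at h3
    calc (t * ip (sv x) d) ^ 2 = t ^ 2 * ip (sv x) d ^ 2 := by ring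
      _ ≤ t ^ 2 * (n * (s ^ 2 * F.sq m)) :=
          mul_le_mul_of_nonneg_left (h3.trans (mul_le_mul_of_nonneg_left hd hn'.le)) (sq_nonneg t)
      _ = t ^ 2 * F.sq m * (n * s ^ 2) := by ring
      _ ≤ n * (n * s ^ 2) := mul_le_mul_of_nonneg_right h1 (by positivity)
      _ = (s * n) ^ 2 := by ring
  have h4 : |ip m d| ≤ s * F.sq m := by
    refine abs_le_of_sq_le_sq' ?_ (by positivity) |> abs_le.2
    calc ip m d ^ 2 ≤ F.sq m * (s ^ 2 * F.sq m) :=
          (ip_sq_le m d).trans (mul_le_mul_of_nonneg_left hd hm.le)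
      _ = (s * F.sq m) ^ 2 := by ring
  have h5 : |t ^ 2 * ip m d| ≤ s * n := by
    rw [abs_mul, abs_of_nonneg (sq_nonneg t)]
    calc t ^ 2 * |ip m d| ≤ t ^ 2 * (s * F.sq m) := mul_le_mul_of_nonneg_left h4 (sq_nonneg t)
      _ = s * (t ^ 2 * F.sq m) := by ring
      _ ≤ s * n := mul_le_mul_of_nonneg_left h1 hs
  rw [abs_le] at h2 h5 ⊢
  constructor <;> nlinarith [h2.1, h2.2, h5.1, h5.2]

theorem lse_le {S : Finset (Cfg n)} (hS : S.Nonempty) {f g : Cfg n → ℝ} {D : ℝ}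
    (h : ∀ x ∈ S, f x ≤ g x + D) :
    Real.log (∑ x ∈ S, Real.exp (f x)) ≤ Real.log (∑ x ∈ S, Real.exp (g x)) + D := by
  have hp : ∀ k : Cfg n → ℝ, 0 < ∑ x ∈ S, Real.exp (k x) := fun k =>
    Finset.sum_pos (fun _ _ => Real.exp_pos _) hS
  have h1 : ∑ x ∈ S, Real.exp (f x) ≤ (∑ x ∈ S, Real.exp (g x)) * Real.exp D := by
    rw [Finset.sum_mul]
    exact Finset.sum_le_sum fun x hx => by
      rw [← Real.exp_add]
      exact Real.exp_le_exp.2 (h x hx)
  have h2 := Real.log_le_log (hp f) h1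
  rwa [Real.log_mul (hp g).ne' (Real.exp_pos _).ne', Real.log_exp] at h2

theorem lip_lse (hA : GoeFam A) {b M : ℝ} (hb : 0 ≤ b) {S : Finset (Cfg n)} (hS : S.Nonempty)
    {v : Cfg n → Vec n} (hM : ∀ x ∈ S, F.sq (v x) ≤ M) (h : Cfg n → ℝ) :
    Lip (b / 2 * (√(2 / n) * M)) fun ω =>
      Real.log (∑ x ∈ S, Real.exp (b / 2 * qf (goeM A ω) (v x) + h x)) := by
  have key : ∀ ω ω' : ι → ℝ, ∀ x ∈ S, b / 2 * qf (goeM A ω) (v x) + h x ≤
      b / 2 * qf (goeM A ω') (v x) + h x + b / 2 * (√(2 / n) * M) * max (ed ω ω') (ed ω' ω) := by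
    intro ω ω' x hx
    have h1 := (abs_le.1 (abs_qf_sub hA (v x) ω ω')).2
    have h2 : √(2 / n) * F.sq (v x) * ed ω ω' ≤ √(2 / n) * M * max (ed ω ω') (ed ω' ω) :=
      mul_le_mul (mul_le_mul_of_nonneg_left (hM x hx) (Real.sqrt_nonneg _)) (le_max_left _ _)
        (ed_nonneg _ _) (mul_nonneg (Real.sqrt_nonneg _) ((sqN_nonneg _).trans (hM x hx)))
    nlinarith
  intro ω ω'
  have e : ed ω' ω = ed ω ω' := by
    unfold ed
    exact congrArg _ (Finset.sum_congr rfl fun i _ => by ring)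
  have h1 := lse_le hS (key ω ω')
  have h2 := lse_le hS (key ω' ω)
  rw [e, max_self] at h1 h2
  exact abs_le.2 ⟨by linarith, by linarith⟩

theorem int_lse (hA : GoeFam A) {b : ℝ} (hb : 0 ≤ b) {S : Finset (Cfg n)} (hS : S.Nonempty)
    (v : Cfg n → Vec n) (h : Cfg n → ℝ) : Integrable (fun ω =>
      Real.log (∑ x ∈ S, Real.exp (b / 2 * qf (goeM A ω) (v x) + h x))) (gpi ι) :=
  (lip_lse hA hb hS (M := ∑ x ∈ S, F.sq (v x))
    (fun _ hx => Finset.single_le_sum (fun y _ => sqN_nonneg (v y)) hx) h).integrable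

theorem qf_Wc' (W : Mat n) (m a x : Vec n) :
    qf (Wc W m a) x = qf W (Pm m *ᵥ x) + qf (R2 m a) x := by
  rw [Wc, Win.qf_add, Law.qf_eq_dot, Law.qf_eq_dot W, ← mulVec_mulVec, ← mulVec_mulVec,
    dotProduct_mulVec x, ← mulVec_transpose, Pm_tr]

theorem ZS_Wc (b : ℝ) (W : Mat n) (m a : Vec n) (S : Finset (Cfg n)) : ZS b (Wc W m a) S =
    ∑ x ∈ S, Real.exp (b / 2 * qf W (Pm m *ᵥ sv x) + b / 2 * qf (R2 m a) (sv x)) :=
  Finset.sum_congr rfl fun x _ => by rw [qf_Wc', mul_add]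

theorem int_ZS (hA : GoeFam A) {b : ℝ} (hb : 0 ≤ b) {S : Finset (Cfg n)} (hS : S.Nonempty)
    (m a : Vec n) : Integrable (fun ω => Real.log (ZS b (Wc (goeM A ω) m a) S)) (gpi ι) := by
  simp_rw [ZS_Wc]
  exact int_lse hA hb hS _ _

theorem sq_Pm_le (m x : Vec n) : F.sq (Pm m *ᵥ x) ≤ F.sq x := by
  rw [Pm_mulVec, sub_eq_add_neg, ← neg_smul, Win.sq_add_smul, ipN_comm x m]
  rcases (sqN_nonneg m).eq_or_lt with h | h
  · simp [← h]
  · have e : (-(ip m x / F.sq m)) ^ 2 * F.sq m = ip m x / F.sq m * ip m x := by field_simp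
    have : 0 ≤ ip m x / F.sq m * ip m x := by rw [← e]; positivity
    linarith

theorem lip_HtWc (hn : 0 < n) (hA : GoeFam A) {b : ℝ} (hb : 0 ≤ b) (m a : Vec n) :
    Lip (b * √(2 * n)) fun ω => Ht b (Wc (goeM A ω) m a) := fun ω ω' => by
  have hn' : (0 : ℝ) < n := Nat.cast_pos.2 hn
  have e : √(2 / n) * (n : ℝ) = √(2 * n) := by
    rw [show (2 * n : ℝ) = 2 / n * n ^ 2 by field_simp, Real.sqrt_mul (by positivity),
      Real.sqrt_sq hn'.le]
  refine (abs_Ht_sub hn b (r := b / 2 * (√(2 * n) * ed ω ω')) fun x => ?_).trans (le_of_eq ?_)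
  · rw [← mul_sub, abs_mul, abs_of_nonneg (by positivity : 0 ≤ b / 2), qf_Wc', qf_Wc',
      add_sub_add_right_eq_sub, ← e]
    refine mul_le_mul_of_nonneg_left ((abs_qf_sub hA _ ω ω').trans ?_) (by positivity)
    exact mul_le_mul_of_nonneg_right (mul_le_mul_of_nonneg_left
      ((sq_Pm_le m _).trans (sq_sv x).le) (Real.sqrt_nonneg _)) (ed_nonneg _ _)
  · ring

theorem int_sq_goe (A : ι → Mat n) (m : Vec n) :
    Integrable (fun ω => F.sq (goeM A ω *ᵥ m)) (gpi ι) := by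
  simp_rw [← SlGI.Bm_mulVec]
  exact integrable_finsetSum _ fun k _ => (Law.memLp_lin fun i => SlGI.Bm A m k i).integrable_sq

theorem mean_sq_goe (hn : 0 < n) (hA : GoeFam A) (m : Vec n) :
    ∫ ω, F.sq (goeM A ω *ᵥ m) ∂gpi ι ≤ 2 * F.sq m := by
  have hn' : (1 : ℝ) ≤ n := Nat.one_le_cast.2 hn
  have h := Law.integral_sq_aff (SlGI.Bm A m) 0
  simp only [zero_add, SlGI.Bm_mulVec] at h
  rw [h, Bm_sq hA, trace_add, trace_smul, trace_smul, trace_one, trace_vecMulVec, Fintype.card_fin,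
    smul_eq_mul, smul_eq_mul, div_mul_cancel₀ _ (by positivity), ← sq_eq_dot]
  have h1 : (n : ℝ)⁻¹ * F.sq m ≤ 1 * F.sq m :=
    mul_le_mul_of_nonneg_right (inv_le_one_of_one_le₀ hn') (sqN_nonneg m)
  have h2 : F.sq (0 : Vec n) = 0 := by simp [F.sq]
  linarith

theorem sq_sub_le (u v : Vec n) : F.sq (u - v) ≤ 2 * F.sq u + 2 * F.sq v := by
  unfold F.sq
  rw [Finset.mul_sum, Finset.mul_sum, ← Finset.sum_add_distrib]
  exact Finset.sum_le_sum fun i _ => by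
    rw [Pi.sub_apply]
    nlinarith [sq_nonneg (u i + v i)]

/-- the energy of the conditioned matrix on a band around `θ w` -/
theorem qf_band {W : Mat n} (hW : W.IsSymm) {w B : Vec n} {θ τ C : ℝ} (hθ0 : 0 ≤ θ) (hθ1 : θ ≤ 1)
    (hτ : τ ≤ 2) (hw : F.sq w ≤ n) (hB : F.sq B ≤ C * n) {x : Cfg n}
    (hx : |ip w (sv x) / F.sq w - θ| ≤ τ) :
    |qf (Wc W w B) (sv x) - (qf W (sv x - θ • w) + 2 * θ * ip B (sv x) - θ ^ 2 * ip w B)| ≤
      6 * τ * ((1 / 2 + C) * n + F.sq (W *ᵥ w)) := by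
  have e1 : qf W (sv x - θ • w) =
      qf W (sv x) - 2 * θ * ip (sv x) (W *ᵥ w) + θ ^ 2 * ip w (W *ᵥ w) := by
    rw [sub_eq_add_neg, ← neg_smul, Win.qf_line hW, ip_mulVec_comm hW w, ipN_comm (W *ᵥ w)]
    unfold qf
    ring
  have h1 := abs_ip_half (sv x) (B - W *ᵥ w)
  have h2 := abs_ip_half w (B - W *ᵥ w)
  have h3 := sq_sub_le B (W *ᵥ w)
  have e2 : qf (Wc W w B) (sv x) - (qf W (sv x - θ • w) + 2 * θ * ip B (sv x) - θ ^ 2 * ip w B) =
      (ip w (sv x) / F.sq w - θ) * (2 * ip (sv x) (B - W *ᵥ w) -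
        (ip w (sv x) / F.sq w - θ + 2 * θ) * ip w (B - W *ᵥ w)) := by
    rw [qf_Wc hW, e1, ip_sub_right, ip_sub_right, ipN_comm B]
    ring
  rw [sq_sv] at h1
  rw [e2, abs_mul]
  generalize ip w (sv x) / F.sq w - θ = t at hx
  have hD : (F.sq w + F.sq (B - W *ᵥ w)) / 2 ≤ (1 / 2 + C) * n + F.sq (W *ᵥ w) := by linarith
  have h4 : |t + 2 * θ| ≤ 4 := by
    rw [abs_le] at hx ⊢
    constructor <;> linarith [hx.1, hx.2]
  have h5 : |(t + 2 * θ) * ip w (B - W *ᵥ w)| ≤ 4 * ((1 / 2 + C) * n + F.sq (W *ᵥ w)) := by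
    rw [abs_mul]
    exact mul_le_mul h4 (h2.trans hD) (abs_nonneg _) (by norm_num)
  have h6 : |2 * ip (sv x) (B - W *ᵥ w) - (t + 2 * θ) * ip w (B - W *ᵥ w)| ≤
      6 * ((1 / 2 + C) * n + F.sq (W *ᵥ w)) := by
    refine (abs_sub _ _).trans ?_
    rw [abs_mul, abs_two]
    linarith
  calc _ ≤ τ * (6 * ((1 / 2 + C) * n + F.sq (W *ᵥ w))) :=
        mul_le_mul hx h6 (abs_nonneg _) ((abs_nonneg _).trans hx)
    _ = _ := by ring

/-- the free energy of the conditioned matrix on a band around `θ w` -/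
theorem ZS_band (hn : 0 < n) (hA : GoeFam A) {b : ℝ} (hb : 0 ≤ b) {w B : Vec n}
    {θ τ C k a r : ℝ} (hθ0 : 0 ≤ θ) (hθ1 : θ ≤ 1) (hτ : τ ≤ 2) (hw : F.sq w ≤ n)
    (hB : F.sq B ≤ C * n) {S : Finset (Cfg n)} (hS : S.Nonempty)
    (hx : ∀ x ∈ S, |ip w (sv x) / F.sq w - θ| ≤ τ) (ha : ∀ x ∈ S, |ip w (sv x) - a| ≤ r) :
    |∫ ω, Real.log (ZS b (Wc (goeM A ω) w B) S) ∂gpi ι -
      (FB b A S (θ • w) ((b * θ) • B + k • w) - k * a - b / 2 * θ ^ 2 * ip w B)| ≤
      3 * b * τ * (5 / 2 + C) * n + |k| * r := by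
  have hτ0 : 0 ≤ τ := by
    obtain ⟨x, h⟩ := hS
    exact (abs_nonneg _).trans (hx x h)
  have key : ∀ ω, ∀ x ∈ S, |b / 2 * qf (Wc (goeM A ω) w B) (sv x) -
      (b / 2 * qf (goeM A ω) (sv x - θ • w) + ip ((b * θ) • B + k • w) (sv x) - k * a -
        b / 2 * θ ^ 2 * ip w B)| ≤
      3 * b * τ * ((1 / 2 + C) * n + F.sq (goeM A ω *ᵥ w)) + |k| * r := by
    intro ω x h
    have h1 := mul_le_mul_of_nonneg_left
      (qf_band (symm_goe hA ω) hθ0 hθ1 hτ hw hB (hx x h)) (by positivity : 0 ≤ b / 2)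
    have h2 := mul_le_mul_of_nonneg_left (ha x h) (abs_nonneg k)
    rw [← abs_of_nonneg (by positivity : 0 ≤ b / 2), ← abs_mul, abs_of_nonneg
      (by positivity : 0 ≤ b / 2)] at h1
    rw [← abs_mul] at h2
    rw [ip_add_left, ip_smul_left, ip_smul_left]
    rw [abs_le] at h1 h2 ⊢
    constructor <;> nlinarith [h1.1, h1.2, h2.1, h2.2]
  have i1 := int_ZS hA hb hS w B
  have i2 := int_lse hA hb hS (fun x => sv x - θ • w) fun x => ip ((b * θ) • B + k • w) (sv x)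
  have i0 : Integrable (fun ω => 3 * b * τ * ((1 / 2 + C) * n + F.sq (goeM A ω *ᵥ w)))
      (gpi ι) := ((integrable_const _).add (int_sq_goe A w)).const_mul _
  have i3 : Integrable (fun ω => 3 * b * τ * ((1 / 2 + C) * n + F.sq (goeM A ω *ᵥ w)) + |k| * r)
      (gpi ι) := i0.add (integrable_const _)
  have i5 : Integrable (fun ω => Real.log (∑ x ∈ S, Real.exp (b / 2 * qf (goeM A ω) (sv x - θ • w)
      + ip ((b * θ) • B + k • w) (sv x))) - (k * a + b / 2 * θ ^ 2 * ip w B)) (gpi ι) :=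
    i2.sub (integrable_const _)
  have i4 : ∫ ω, (3 * b * τ * ((1 / 2 + C) * n + F.sq (goeM A ω *ᵥ w)) + |k| * r) ∂gpi ι ≤
      3 * b * τ * (5 / 2 + C) * n + |k| * r := by
    rw [integral_add i0 (integrable_const _), integral_const_mul, integral_add (integrable_const _) (int_sq_goe A w),
      integral_const, integral_const, probReal_univ, one_smul, one_smul]
    have := mul_le_mul_of_nonneg_left (mean_sq_goe hn hA w) (by positivity : 0 ≤ 3 * b * τ)
    have := mul_le_mul_of_nonneg_left hw (by positivity : 0 ≤ 3 * b * τ)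
    linarith
  have e : FB b A S (θ • w) ((b * θ) • B + k • w) - k * a - b / 2 * θ ^ 2 * ip w B =
      ∫ ω, (Real.log (∑ x ∈ S, Real.exp (b / 2 * qf (goeM A ω) (sv x - θ • w) +
        ip ((b * θ) • B + k • w) (sv x))) - (k * a + b / 2 * θ ^ 2 * ip w B)) ∂gpi ι := by
    rw [integral_sub i2 (integrable_const _), integral_const, probReal_univ, one_smul, FB, sub_sub]
  rw [e, ← integral_sub i1 i5]
  refine le_trans (abs_integral_le_integral_abs.trans (integral_mono (i1.sub i5).abs i3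
    fun ω => ?_)) i4
  have h1 := lse_le hS (f := fun x => b / 2 * qf (Wc (goeM A ω) w B) (sv x))
    (g := fun x => b / 2 * qf (goeM A ω) (sv x - θ • w) + ip ((b * θ) • B + k • w) (sv x))
    (D := 3 * b * τ * ((1 / 2 + C) * n + F.sq (goeM A ω *ᵥ w)) + |k| * r -
      (k * a + b / 2 * θ ^ 2 * ip w B)) fun x h => by linarith [(abs_le.1 (key ω x h)).2]
  have h2 := lse_le hS (g := fun x => b / 2 * qf (Wc (goeM A ω) w B) (sv x))
    (f := fun x => b / 2 * qf (goeM A ω) (sv x - θ • w) + ip ((b * θ) • B + k • w) (sv x))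
    (D := 3 * b * τ * ((1 / 2 + C) * n + F.sq (goeM A ω *ᵥ w)) + |k| * r +
      (k * a + b / 2 * θ ^ 2 * ip w B)) fun x h => by linarith [(abs_le.1 (key ω x h)).1]
  unfold ZS
  exact abs_le.2 ⟨by linarith, by linarith⟩

theorem band_tau {w : Vec n} {r e θ s : ℝ} (hn : 0 < n) (hr : 0 < r) (her : 2 * e ≤ r)
    (hθ0 : 0 ≤ θ) (hθ1 : θ ≤ 1) (hq : |F.sq w - n * r| ≤ e * n) (hs : |s - θ * (n * r)| ≤ e * n) :
    |s / F.sq w - θ| ≤ 4 * e / r := by
  have hn' : (0 : ℝ) < n := Nat.cast_pos.2 hn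
  have h1 : n * r / 2 ≤ F.sq w := by nlinarith [(abs_le.1 hq).1]
  have h0 : 0 < F.sq w := lt_of_lt_of_le (by positivity) h1
  have he : 0 ≤ e * n := (abs_nonneg _).trans hs
  have e1 : s / F.sq w - θ = (s - θ * (n * r) - θ * (F.sq w - n * r)) / F.sq w := by
    field_simp
    ring
  have h2 : |s - θ * (n * r) - θ * (F.sq w - n * r)| ≤ 2 * (e * n) := by
    refine (abs_sub _ _).trans ?_
    rw [abs_mul, abs_of_nonneg hθ0]
    nlinarith [abs_nonneg (F.sq w - n * r)]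
  rw [e1, abs_div, abs_of_pos h0, div_le_div_iff₀ h0 hr]
  have he' : 0 ≤ e := nonneg_of_mul_nonneg_left he hn'
  nlinarith [mul_le_mul_of_nonneg_left h1 he', mul_le_mul_of_nonneg_right h2 hr.le]

/-- the mean height of the bottleneck of the conditioned matrix -/
theorem cond_fix (hn : 0 < n) (hA : GoeFam A) {b : ℝ} (hb : 0 ≤ b) {w B : Vec n}
    {θ r e C κ l X Y : ℝ} (hθ0 : 0 < θ) (hθ1 : θ ≤ 1) (hr : 0 < r) (her : 2 * e ≤ r)
    (heθ : e ≤ (1 - θ) * r) (hen : 2 ≤ e * n) (hw : ∀ i, |w i| ≤ 1)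
    (hq : |F.sq w - n * r| ≤ e * n) (hB : F.sq B ≤ C * n)
    (hne : (slice w (n * r) (e * n)).Nonempty)
    (hX : X ≤ FB b A (slice w (n * r) (e * n)) w (b • B - κ • w))
    (hY : ∀ S : Finset (Cfg n), S.Nonempty →
      (∀ x ∈ S, |ip (θ • w) (sv x) - n * (θ ^ 2 * r)| ≤ e * n) →
      FB b A S (θ • w) ((b * θ) • B + l • w) ≤ Y) :
    X - Y + (κ + l * θ) * r * n - b / 2 * (1 - θ ^ 2) * ip w B -
      (|κ| + |l| + 24 * b * (5 / 2 + C) / r) * e * n ≤
      ∫ ω, Ht b (Wc (goeM A ω) w B) ∂gpi ι := by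
  have hn' : (0 : ℝ) < n := Nat.cast_pos.2 hn
  have hsub : slice w (n * r) (e * n) ⊆ half w (θ * (n * r)) := fun x hx => by
    rw [slice, Finset.mem_filter] at hx
    rw [half, Finset.mem_filter]
    exact ⟨hx.1, by nlinarith [(abs_le.1 hx.2).1]⟩
  have hcut := cut_half hw (by positivity : 0 < θ * (n * r)) (hne.mono hsub)
  have hne2 := hcut.neA hn
  have hw1 : F.sq w ≤ n := by
    have := sq_le_of_nv_le (nv_le_sqrt_n hw)
    rwa [Real.sq_sqrt hn'.le] at this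
  have hτ : 4 * e / r ≤ 2 := by
    rw [div_le_iff₀ hr]
    linarith
  have m1 : ∀ x ∈ slice w (n * r) (e * n), |ip w (sv x) - n * r| ≤ e * n := fun x hx =>
    (Finset.mem_filter.1 hx).2
  have m2 : ∀ x ∈ slice w (θ * (n * r)) 2, |ip w (sv x) - θ * (n * r)| ≤ e * n := fun x hx =>
    (Finset.mem_filter.1 hx).2.trans hen
  have h1 := ZS_band hn hA hb (k := -κ) zero_le_one le_rfl hτ hw1 hB hne
    (fun x hx => band_tau hn hr her zero_le_one le_rfl hq (by rw [one_mul]; exact m1 x hx)) m1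
  have h2 := ZS_band hn hA hb (k := l) hθ0.le hθ1 hτ hw1 hB hne2
    (fun x hx => band_tau hn hr her hθ0.le hθ1 hq (m2 x hx)) m2
  have h3 := hY _ hne2 fun x hx => by
    rw [ip_smul_left, show θ * ip w (sv x) - n * (θ ^ 2 * r) =
      θ * (ip w (sv x) - θ * (n * r)) by ring, abs_mul, abs_of_pos hθ0]
    nlinarith [m2 x hx, abs_nonneg (ip w (sv x) - θ * (n * r))]
  rw [one_smul, mul_one, neg_smul, ← sub_eq_add_neg, abs_neg] at h1
  have h4 : ∫ ω, Real.log (ZS b (Wc (goeM A ω) w B) (slice w (n * r) (e * n))) ∂gpi ι -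
      ∫ ω, Real.log (ZS b (Wc (goeM A ω) w B) (slice w (θ * (n * r)) 2)) ∂gpi ι ≤
      ∫ ω, Ht b (Wc (goeM A ω) w B) ∂gpi ι := by
    rw [← integral_sub (int_ZS hA hb hne w B) (int_ZS hA hb hne2 w B)]
    refine integral_mono ((int_ZS hA hb hne w B).sub (int_ZS hA hb hne2 w B))
      (lip_HtWc hn hA hb w B).integrable fun ω => le_trans ?_ (le_Ht b _ hcut)
    exact sub_le_sub_right (Real.log_le_log (ZS_pos b _ hne) (ZS_mono b _ hsub)) _
  have e1 : (|κ| + |l| + 24 * b * (5 / 2 + C) / r) * e * n =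
      2 * (3 * b * (4 * e / r) * (5 / 2 + C) * n) + |κ| * (e * n) + |l| * (e * n) := by ring
  rw [e1]
  linarith [(abs_le.1 h1).1, (abs_le.1 h2).2]

/-- a Lipschitz function is above its mean minus a little with probability at least one half -/
theorem half_le_prob (hn : 0 < n) (hA : GoeFam A) {b η a : ℝ} (hb : 0 < b) (hη : 0 < η)
    (hηn : 8 * b ^ 2 ≤ η ^ 2 * n) {m v : Vec n}
    (h : a + η * n ≤ ∫ ω, Ht b (Wc (goeM A ω) m v) ∂gpi ι) :
    1 / 2 ≤ (gpi ι).real {ω | a ≤ Ht b (Wc (goeM A ω) m v)} := by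
  have hn' : (0 : ℝ) < n := Nat.cast_pos.2 hn
  have hL := lip_HtWc hn hA hb.le m v
  have h1 := hL.tail_lower (by positivity) (t := η * n) (by positivity)
  have h2 : Real.exp (-((η * n) ^ 2 / (4 * (b * √(2 * n)) ^ 2))) ≤ 1 / 2 := by
    have h3 : 1 ≤ (η * n) ^ 2 / (4 * (b * √(2 * n)) ^ 2) := by
      rw [le_div_iff₀ (by positivity), mul_pow b, Real.sq_sqrt (by positivity)]
      nlinarith
    calc _ ≤ Real.exp (-1) := Real.exp_le_exp.2 (by linarith)
      _ ≤ 1 / 2 := by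
        rw [Real.exp_neg, one_div]
        exact inv_anti₀ two_pos (by linarith [Real.add_one_le_exp (1 : ℝ)])
  have h4 : (gpi ι).real Set.univ ≤ (gpi ι).real {ω | a ≤ Ht b (Wc (goeM A ω) m v)} +
      (gpi ι).real {ω | Ht b (Wc (goeM A ω) m v) ≤
        ∫ ω, Ht b (Wc (goeM A ω) m v) ∂gpi ι - η * n} := by
    refine le_trans (measureReal_mono fun ω _ => ?_) (measureReal_union_le _ _)
    rcases le_total a (Ht b (Wc (goeM A ω) m v)) with h5 | h5
    · exact Or.inl h5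
    · exact Or.inr (h5.trans (le_sub_iff_add_le.2 h))
  rw [probReal_univ] at h4
  linarith

end Vale.Agent.N150.Slow
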