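import Vale.Agent.N150.SlTop
import Vale.Agent.P150.H704.Near

/-! Low temperature: two-sided exponential bounds from slow mixing at some rate. -/

open Filter Topology

namespace Vale.Agent.N150.Slow

open Vale.Agent.P150

/-- the two-sided statement -/
theorem two_sided {β : ℝ} (hβ : 1 < β) (h : ∃ c : ℝ, 0 < c ∧ SlowAt β c) :
    ∃ c : ℝ, 0 < c ∧ ∀ ε : ℝ, 0 < ε → WHP (fun n => {g |
      Real.exp (-((2 * √(Real.log 2) * (β - 1) + ε) * n)) ≤ gap (skJ β g) (fun _ => 0) ∧
      gap (skJ β g) (fun _ => 0) ≤ Real.exp (-(c * n)) ∧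
      Real.exp (c * n) ≤ tmix (skJ β g) (fun _ => 0) ∧
      tmix (skJ β g) (fun _ => 0) ≤ Real.exp ((2 * √(Real.log 2) * (β - 1) + ε) * n)}) := by
  obtain ⟨c, hc, h⟩ := h
  have hd : 0 < β := by linarith
  refine ⟨c / 2, half_pos hc, fun ε hε => MainThm.whp_mono (MainThm.whp_inter h
    (H704.near (ε := ε / β) (by positivity))) ?_⟩
  filter_upwards [eventually_ge_atTop 1, ev_lin (c / 2) (half_pos hc)] with n hn h2 g h
  obtain ⟨⟨a1, a2⟩, a3⟩ := h
  have a4 := a3 β hd.le
  have e : (2 * √(Real.log 2) + ε / β) * (β - 1) + ε / β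
      = 2 * √(Real.log 2) * (β - 1) + ε := by
    field_simp
    ring
  rw [max_eq_left (by linarith), e] at a4
  have h1 : (1 : ℝ) ≤ n := by exact_mod_cast hn
  refine ⟨a4.1, a1.trans (Real.exp_le_exp.2 (by nlinarith)), le_trans ?_ a2, a4.2⟩
  rw [show c * n = c / 2 * n + c / 2 * n by ring, Real.exp_add, ← mul_assoc]
  exact le_mul_of_one_le_left (Real.exp_pos _).le (by nlinarith [Real.log_two_gt_d9])

end Vale.Agent.N150.Slow
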