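import Vale.Agent.N150.SlLowDef
import Vale.Agent.N150.ScDef
import Vale.Agent.N150.PinDef
import Vale.Agent.N150.KktDef

/-! Low temperature: from a pinned reference solution to slow mixing. -/

open MeasureTheory ProbabilityTheory Filter Topology

namespace Vale.Agent.N150.Slow

open Vale.Agent.P150 Vale.Agent.P150.F Vale.Agent.N150.Edge Vale.Agent.N150.Sm2
open Vale.Agent.N150.Sc
open Vale.Agent.N150.Bc (Ph I0 FE ga)
open Vale.Agent.N150.Kkt (dPh mom Ref RefStmt)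
open Vale.Agent.N150.Pin (psi Band PinStmt)
open Vale.Agent.P157.Par (Exponents Path)

/-- a pinned, almost marginal reference solution at a small scale -/
def PinRef (b : ℝ) : Prop :=
  ∀ eta : ℝ, 0 < eta → ∃ s1 : ℝ, 0 < s1 ∧ ∀ e : ℝ, 0 < e →
    ∃ (K : ℕ) (m q : ℕ → ℝ) (r s : ℝ), Exponents K m ∧ Path K q ∧ q 0 ≤ 1 ∧
      b ^ 2 * q K - b ^ 2 * q 0 ≤ b ^ 2 + 1 ∧ 0 ≤ r ∧ r ≤ q 0 ∧
      b ^ 2 * q 0 ≤ eta ∧ s1 ≤ s ∧ s ≤ eta ∧
      |1 - b ^ 2 * ∫ z, dPh b K m q 2 r (s * z) ^ 2 ∂gam| ≤ eta * s ^ 4 ∧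
      |r - ∫ z, dPh b K m q 1 r (s * z) ^ 2 ∂gam| ≤ e ∧
      Band b (Ph b K m q r) (I0 b K m q) s r e

theorem second_diff {K : ℝ} {f : ℕ → ℝ → ℝ} (hf : Ch K f) (y h : ℝ) :
    f 0 (y + h) + f 0 (y - h) - 2 * f 0 y ≤ h ^ 2 := by
  have hd : ∀ x, HasDerivAt (fun x => x ^ 2 - f 0 (y + x) - f 0 (y - x))
      (2 * x - f 1 (y + x) + f 1 (y - x)) x := fun x => by
    have h1 := ((hasDerivAt_pow 2 x).sub ((hf.d0 (y + x)).comp_const_add y x)).sub
      ((hf.d0 (y - x)).comp_const_sub y x)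
    refine h1.congr_deriv ?_
    simp only [Nat.cast_ofNat]
    ring
  have hm : MonotoneOn (fun x => x ^ 2 - f 0 (y + x) - f 0 (y - x)) (Set.Ici 0) := by
    refine monotoneOn_of_deriv_nonneg (convex_Ici 0)
      (fun x _ => (hd x).continuousAt.continuousWithinAt)
      (fun x _ => (hd x).differentiableAt.differentiableWithinAt) fun x hx => ?_
    rw [interior_Ici] at hx
    have hx0 : 0 < x := hx
    have h2 := tay1 hf.d1 hf.a2 (y - x) (2 * x)
    rw [show y - x + 2 * x = y + x by ring, one_mul, abs_of_pos (by linarith : 0 < 2 * x)] at h2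
    rw [(hd x).deriv]
    linarith [(abs_le.1 h2).2]
  rcases le_total 0 h with h0 | h0
  · have := hm (Set.mem_Ici.2 le_rfl) (Set.mem_Ici.2 h0) h0
    simp only [add_zero, sub_zero] at this
    linarith
  · have := hm (Set.mem_Ici.2 le_rfl) (Set.mem_Ici.2 (neg_nonneg.2 h0)) (neg_nonneg.2 h0)
    simp only [add_zero, sub_zero, sub_neg_eq_add, ← sub_eq_add_neg] at this
    nlinarith

theorem int_fld {K K' : ℝ} {f g : ℕ → ℝ → ℝ} (hf : Ch K f) (hg : Ch K' g) (α β s : ℝ) :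
    Integrable (fun z => g 0 (α * z + β * f 1 (s * z))) gam := by
  have h1 := hf.cont (j := 1) (by norm_num)
  have h2 := hg.cont (j := 0) (by norm_num)
  have h := int_lin (h := fun z => g 0 (α * z + β * f 1 (s * z))) (by fun_prop)
    (A := |g 0 0| + K' + |β|) (abs_nonneg α) (fun z => (hg.lin (by norm_num) _).trans (by
      have h3 := abs_add_le (α * z) (β * f 1 (s * z))
      rw [abs_mul, abs_mul] at h3
      have h4 := mul_le_mul_of_nonneg_left (hf.b1 (s * z)) (abs_nonneg β)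
      linarith)) 0 1
  simpa using h

theorem int_fld_sq {K : ℝ} {f : ℕ → ℝ → ℝ} (hf : Ch K f) (α β s : ℝ) :
    Integrable (fun z => (α * z + β * f 1 (s * z) - s * z) ^ 2) gam := by
  have h1 := hf.cont (j := 1) (by norm_num)
  refine (((int_pow 2).const_mul (2 * (α - s) ^ 2)).add (integrable_const (2 * β ^ 2))).mono'
    (by fun_prop) (Eventually.of_forall fun z => ?_)
  have h2 : f 1 (s * z) ^ 2 ≤ 1 := by
    rw [← sq_abs]
    exact pow_le_one₀ (abs_nonneg _) (hf.b1 _)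
  rw [Real.norm_eq_abs, abs_of_nonneg (sq_nonneg _)]
  simp only [Pi.add_apply]
  nlinarith [sq_nonneg ((α - s) * z - β * f 1 (s * z)), mul_le_mul_of_nonneg_left h2 (sq_nonneg β)]

theorem band_at {K b I s r q e : ℝ} {f : ℕ → ℝ → ℝ} (hf : Ch K f) (hq : |r - q| ≤ e)
    (h : Band b (f 0) I s r e) {w U : ℝ → ℝ} (hw : ∀ z, w z = f 1 (s * z)) :
    BandAt b q (2 * e) w U fun z => f 0 (U z) - (U z - s * z) ^ 2 + I - e := by
  have hd : deriv (f 0) = f 1 := funext fun x => (hf.d0 x).deriv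
  obtain rfl : w = fun z => f 1 (s * z) := funext hw
  unfold Band at h
  rw [hd] at h
  filter_upwards [h] with n h ι _ A hA
  refine (h ι A hA).trans (measureReal_mono fun z hz => ?_)
  have hsub : Pin.band (fun i => f 1 (s * z i)) (n * r) (e * n) ⊆
      slice (fun i => f 1 (s * z i)) (n * q) (2 * e * n) := fun x hx => by
    simp only [Pin.band, slice, Finset.mem_filter, Finset.mem_univ, true_and] at hx ⊢
    have h0 : (0 : ℝ) ≤ n := Nat.cast_nonneg n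
    have h1 := abs_le.1 hx
    have h2 := abs_le.1 hq
    rw [abs_le]
    constructor <;> nlinarith [mul_le_mul_of_nonneg_left h2.1 h0,
      mul_le_mul_of_nonneg_left h2.2 h0]
  refine ⟨hz.1.mono hsub, ?_⟩
  have h1 := (hz.2 (U ∘ z)).trans (Bc.FE_mono hz.1 hsub _ (t := 0) fun x _ => (add_zero _).ge)
  rw [add_zero, Bc.FE_ga] at h1
  refine le_trans (Finset.sum_le_sum fun i _ => ?_) h1
  have h2 := second_diff hf (s * z i) (U (z i) - s * z i)
  rw [show s * z i + (U (z i) - s * z i) = U (z i) by ring,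
    show s * z i - (U (z i) - s * z i) = 2 * (s * z i) - U (z i) by ring] at h2
  simp only [Function.comp]
  linarith

theorem band_mono {b I s r e e' : ℝ} {F : ℝ → ℝ} (he : e ≤ e') (h : Band b F I s r e) :
    Band b F I s r e' := by
  filter_upwards [h] with n h ι _ A hA
  refine (h ι A hA).trans (measureReal_mono fun z hz => ?_)
  have hsub : Pin.band (fun i => deriv F (s * z i)) (n * r) (e * n) ⊆
      Pin.band (fun i => deriv F (s * z i)) (n * r) (e' * n) := fun x hx => by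
    simp only [Pin.band, Finset.mem_filter, Finset.mem_univ, true_and] at hx ⊢
    exact hx.trans (mul_le_mul_of_nonneg_right he (Nat.cast_nonneg n))
  refine ⟨hz.1.mono hsub, fun u => ?_⟩
  have h1 := (hz.2 u).trans (Bc.FE_mono hz.1 hsub _ (t := 0) fun x _ => (add_zero _).ge)
  rw [add_zero] at h1
  exact le_trans (Finset.sum_le_sum fun i _ => by linarith) h1

theorem ph_eq (b : ℝ) (K : ℕ) (m q : ℕ → ℝ) (r : ℝ) :
    Ph b K m q r = conv (√(b ^ 2 * (q 0 - r))) (fam K m fun l => b ^ 2 * q l) 0 := by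
  funext y
  unfold Ph conv fam Bc.Phi
  rw [iteratedDeriv_zero]

theorem dph_eq (b : ℝ) (K : ℕ) (m q : ℕ → ℝ) (j : ℕ) (r : ℝ) :
    dPh b K m q j r = conv (√(b ^ 2 * (q 0 - r))) (fam K m fun l => b ^ 2 * q l) j := rfl

theorem gu_ph (b : ℝ) {K : ℕ} {m q : ℕ → ℝ} (hm : Exponents K m) (hq : Path K q) (hK : q 0 ≤ 1)
    {r : ℝ} (h0 : 0 ≤ r) (h1 : r ≤ q 0) : Gu b r (I0 b K m q) (11 * b ^ 2) (Ph b K m q r) :=
  fun _ _ _ _ _ _ u _ hn hA hS he hw hx => Bc.guerra_goe hA hn hS (Bc.WM.of_exp hm) hq.2 h1 h0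
    (h1.trans hK) he b hw hx u

theorem path_mul (b : ℝ) {K : ℕ} {q : ℕ → ℝ} (hq : Path K q) : Path K fun l => b ^ 2 * q l :=
  ⟨mul_nonneg (sq_nonneg b) hq.1, fun l hl => mul_le_mul_of_nonneg_left (hq.2 l hl) (sq_nonneg b)⟩

/-- the reference solution, then the pinning -/
theorem pin_ref (hC : ClsStmt) (hR : RefStmt) (hP : PinStmt) {b : ℝ} (hb : 1 < b) :
    PinRef b := by
  intro eta heta
  obtain ⟨K, k, v0, -, -, hC⟩ := hC (b ^ 2 + 1)
  obtain ⟨a, C, W0, ha, hC1, hW0, -, hR⟩ := hR b hb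
  have C0 : 0 < C := by linarith
  obtain ⟨x, hx, x1, x2⟩ : ∃ x : ℝ, 0 < x ∧ x ≤ eta ∧ x ≤ eta ^ 2 :=
    ⟨min eta (eta ^ 2), by positivity, min_le_left _ _, min_le_right _ _⟩
  obtain ⟨W, hW, w1, w2⟩ : ∃ W : ℝ, 0 < W ∧ W ≤ W0 ∧ W ≤ x ^ 3 / C :=
    ⟨min W0 (x ^ 3 / C), by positivity, min_le_left _ _, min_le_right _ _⟩
  refine ⟨√(W / 2), by positivity, fun e he => ?_⟩
  obtain ⟨d, hd⟩ : ∃ d, d = eta * (W / 2) ^ 2 / (2 * C) := ⟨_, rfl⟩
  have d0 : 0 < d := by rw [hd]; positivity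
  obtain ⟨e1, he1, e2, e3⟩ : ∃ e1 : ℝ, 0 < e1 ∧ e1 ≤ e ∧ e1 ≤ a * d ^ 3 / 2 :=
    ⟨min e (a * d ^ 3 / 2), by positivity, min_le_left _ _, min_le_right _ _⟩
  obtain ⟨η1, hη1, hP⟩ := hP b e1 he1
  obtain ⟨η, hη, n1, n2, n3⟩ : ∃ η : ℝ, 0 < η ∧ η ≤ η1 ∧ η ≤ a * d ^ 3 / 2 ∧ η ≤ C * d :=
    ⟨min η1 (min (a * d ^ 3 / 2) (C * d)), by positivity, min_le_left _ _,
      (min_le_right _ _).trans (min_le_left _ _), (min_le_right _ _).trans (min_le_right _ _)⟩
  obtain ⟨N, m, q, V, hR⟩ := hR W hW w1 η hη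
  have hF := (hC N m _ hR.exps (path_mul b hR.path) hR.span).1
  have hps : ∀ r, psi b N m q V r = mom b N m q V 1 r := fun r => by
    unfold psi mom
    simp only [ph_eq, dph_eq, ((hF.conv _).d0 _).deriv]
  have V0 : 0 < V := by linarith [hR.low]
  obtain ⟨r, r0, r1, r2, r3, hB⟩ := hP N m q V hR.exps hR.path hR.le_one V0.le
    (by rw [hps, hR.fix]) (by
      filter_upwards [hR.start] with n h ι _ A hA
      refine le_trans (mul_le_mul_of_nonneg_left (by linarith) (Nat.cast_nonneg n)) (h ι A hA))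
  rw [hps] at r2 r3
  have hb2 : 0 < b ^ 2 := by positivity
  have s1 : V + b ^ 2 * q 0 ≤ x := by
    refine le_of_pow_le_pow_left₀ (n := 3) (by norm_num) hx.le (hR.small.trans ?_)
    rwa [le_div_iff₀ C0, mul_comm] at w2
  have s2 : b ^ 2 * r ≤ b ^ 2 * q 0 := mul_le_mul_of_nonneg_left r1 hb2.le
  have s3 : W / 2 ≤ V + b ^ 2 * r := by linarith [hR.low, mul_nonneg hb2.le r0]
  have s4 : q 0 - r ≤ d := by
    refine le_of_pow_le_pow_left₀ (n := 3) (by norm_num) d0.le (le_of_mul_le_mul_left ?_ ha)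
    linarith [hR.grow r ⟨r0, r1⟩]
  refine ⟨N, m, q, r, √(V + b ^ 2 * r), hR.exps, hR.path, hR.le_one, hR.span, r0, r1,
    by linarith, Real.sqrt_le_sqrt s3, Real.sqrt_le_iff.2 ⟨heta.le, by linarith⟩, ?_, ?_, ?_⟩
  · rw [abs_sub_comm]
    refine (hR.marg r ⟨r0, r1⟩).trans ?_
    rw [show √(V + b ^ 2 * r) ^ 4 = (√(V + b ^ 2 * r) ^ 2) ^ 2 by ring,
      Real.sq_sqrt (by linarith)]
    have h1 := mul_le_mul_of_nonneg_left (pow_le_pow_left₀ (by positivity) s3 2) heta.le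
    have h2 : 2 * (C * d) = eta * (W / 2) ^ 2 := by
      rw [hd]
      field_simp
    linarith [mul_le_mul_of_nonneg_left s4 C0.le]
  · exact abs_le.2 ⟨by unfold mom at r3; linarith, by unfold mom at r2; linarith⟩
  · exact band_mono e2 hB

theorem num_low {b t ρ lm th q q1 eps e c c0 s1 s M I x1 x2 x3 : ℝ} (hb : 0 < b) (t1 : |t| ≤ 1)
    (g2 : 0 < ρ) (g3 : ρ ≤ 1) (g4 : ρ ^ 2 * (1 - eps ^ 2) = q) (g5 : |lm| ≤ 2) (q10 : 0 < q1)
    (g6 : q1 ≤ q) (he : 0 < e) (hc0 : 0 < c0) (hs1 : 0 < s1) (s0 : s1 ≤ s)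
    (hc : c = c0 * s1 ^ 10 / 2) (hM : M = 4 * b + 2 + 11 * b ^ 2 + 348 * b / q1)
    (e3 : e ≤ c / (4 * (2 * M + 1))) (p3 : eps ≤ c / (108 * b))
    (t3 : x3 + (1 - (39 / 40) ^ 2) * (b / 2 * (ρ ^ 2 * th - lm * q) + t * q) + c0 * s ^ 10 ≤
      x1 - x2) :
    c + (|b * lm - t| + |-(39 / 40 * (b * lm - t))| + 11 * b ^ 2 +
        24 * b * (5 / 2 + 4 * ρ ^ 2 + 2 * lm ^ 2) / q) * (2 * e) + 27 * b * eps <
      x1 - x2 + I - e - x3 - I - b / 2 * (1 - (39 / 40) ^ 2) * (ρ ^ 2 * (th + lm * (1 - eps ^ 2))) +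
        (b * lm - t + -(39 / 40 * (b * lm - t)) * (39 / 40)) * q := by
  have M0 : 0 < M := by rw [hM]; positivity
  have c1 : 0 < c := by rw [hc]; positivity
  have a1 : |b * lm - t| ≤ 2 * b + 1 := by
    refine (abs_sub _ _).trans ?_
    rw [abs_mul, abs_of_pos hb]
    linarith [mul_le_mul_of_nonneg_left g5 hb.le]
  have a2 : |-(39 / 40 * (b * lm - t))| ≤ 2 * b + 1 := by
    rw [abs_neg, abs_mul, abs_of_pos (by norm_num : (0 : ℝ) < 39 / 40)]
    linarith [abs_nonneg (b * lm - t)]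
  have a3 : 24 * b * (5 / 2 + 4 * ρ ^ 2 + 2 * lm ^ 2) / q ≤ 348 * b / q1 := by
    have a4 := pow_le_pow_left₀ (abs_nonneg lm) g5 2
    rw [sq_abs] at a4
    have a5 : ρ ^ 2 ≤ 1 := pow_le_one₀ g2.le g3
    refine div_le_div₀ (by positivity) ?_ q10 g6
    have := mul_le_mul_of_nonneg_left
      (show 5 / 2 + 4 * ρ ^ 2 + 2 * lm ^ 2 ≤ 29 / 2 by linarith) hb.le
    linarith
  have a6 : (|b * lm - t| + |-(39 / 40 * (b * lm - t))| + 11 * b ^ 2 +
      24 * b * (5 / 2 + 4 * ρ ^ 2 + 2 * lm ^ 2) / q) * (2 * e) ≤ M * (2 * e) :=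
    mul_le_mul_of_nonneg_right (by linarith) (by linarith)
  have a7 := mul_le_mul_of_nonneg_left (pow_le_pow_left₀ hs1.le s0 10) hc0.le
  rw [le_div_iff₀ (by positivity)] at e3 p3
  rw [show ρ ^ 2 * (th + lm * (1 - eps ^ 2)) = ρ ^ 2 * th + lm * q by rw [← g4]; ring]
  linarith

/-- **the glue** -/
theorem slow_pin (hC : ClsStmt) (hS : ShapeStmt) (hT : SliceStmt) (hM : TwoMWStmt)
    (hL : LowStmt) {b : ℝ} (hb : 0 < b) (hP : PinRef b) : ∃ c : ℝ, 0 < c ∧ SlowAt b c := by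
  obtain ⟨K, k, v0, hk, hv0, hC⟩ := hC (b ^ 2 + 1)
  obtain ⟨L, hS⟩ := hS b K k hb hk
  obtain ⟨eta1, he1, hM⟩ := hM L
  obtain ⟨etaS, heS, hS⟩ := hS eta1 he1
  obtain ⟨etaT, c0, heT, hc0, hT⟩ := hT b K k hb hk
  obtain ⟨eta, heta, k1, k2, k3⟩ : ∃ eta : ℝ, 0 < eta ∧ eta ≤ etaS ∧ eta ≤ etaT ∧ eta ≤ v0 :=
    ⟨min etaS (min etaT v0), lt_min heS (lt_min heT hv0), min_le_left _ _,
      (min_le_right _ _).trans (min_le_left _ _), (min_le_right _ _).trans (min_le_right _ _)⟩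
  obtain ⟨s1, hs1, hP⟩ := hP eta heta
  obtain ⟨q1, hq1⟩ : ∃ q1, q1 = s1 ^ 2 / (4 * b ^ 2) := ⟨_, rfl⟩
  obtain ⟨c, hc⟩ : ∃ c, c = c0 * s1 ^ 10 / 2 := ⟨_, rfl⟩
  have q10 : 0 < q1 := by rw [hq1]; positivity
  have c1 : 0 < c := by rw [hc]; positivity
  obtain ⟨M, hM0⟩ : ∃ M, M = 4 * b + 2 + 11 * b ^ 2 + 348 * b / q1 := ⟨_, rfl⟩
  have M0 : 0 < M := by rw [hM0]; positivity
  obtain ⟨e, he, e1, e2, e3⟩ : ∃ e : ℝ, 0 < e ∧ e ≤ s1 ^ 12 ∧ e ≤ q1 / 80 ∧
      e ≤ c / (4 * (2 * M + 1)) :=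
    ⟨min (s1 ^ 12) (min (q1 / 80) (c / (4 * (2 * M + 1)))), by positivity, min_le_left _ _,
      (min_le_right _ _).trans (min_le_left _ _), (min_le_right _ _).trans (min_le_right _ _)⟩
  obtain ⟨eps, hp, p1, p2, p3⟩ : ∃ eps : ℝ, 0 < eps ∧ eps ≤ s1 ^ 6 ∧ eps ≤ 1 / 2 ∧
      eps ≤ c / (108 * b) :=
    ⟨min (s1 ^ 6) (min (1 / 2) (c / (108 * b))), by positivity, min_le_left _ _,
      (min_le_right _ _).trans (min_le_left _ _), (min_le_right _ _).trans (min_le_right _ _)⟩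
  obtain ⟨N, m, q, r, s, hm, hq, hK, hsp, r0, r1, hq0, s0, s2, hmar, hfix, hB⟩ := hP e he
  have hb2 : 0 < b ^ 2 := by positivity
  obtain ⟨hF, hC⟩ := hC N m (fun l => b ^ 2 * q l) hm (path_mul b hq) hsp
  have ha : √(b ^ 2 * (q 0 - r)) ^ 2 = b ^ 2 * (q 0 - r) :=
    Real.sq_sqrt (mul_nonneg hb2.le (sub_nonneg.2 r1))
  have hf := hC (√(b ^ 2 * (q 0 - r))) (by rw [ha]; linarith [mul_nonneg hb2.le r0])
  rw [ph_eq] at hB
  rw [dph_eq] at hmar hfix
  generalize hfd : conv (√(b ^ 2 * (q 0 - r))) (fam N m fun l => b ^ 2 * q l) = f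
    at hf hmar hfix hB
  have s3 : 0 < s := hs1.trans_le s0
  have s4 : s1 ^ 12 ≤ s ^ 12 := pow_le_pow_left₀ hs1.le s0 12
  have hH : ∀ η, eta ≤ η → Hyp b η f s r eps := fun η hη =>
    ⟨s3, s2.trans hη, hmar.trans (mul_le_mul_of_nonneg_right hη (by positivity)),
      hfix.trans (e1.trans s4), hp, le_trans (by
        have := pow_le_pow_left₀ hp.le p1 2
        rwa [← pow_mul] at this) s4⟩
  obtain ⟨-, g1, g2, g3, g4, g5, th0, W1, hsh, hn⟩ := hS f s r eps hf (hH _ k1)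
  obtain ⟨t, t1, t2, t3⟩ := hT f s r eps hf (hH _ k2)
  have g6 : q1 ≤ qq f s := by
    rw [hq1, div_le_iff₀ (by positivity)]
    linarith [pow_le_pow_left₀ hs1.le s0 2]
  have g7 : qq f s ≤ 1 := by
    rw [← g4]
    exact mul_le_one₀ (pow_le_one₀ g2.le g3) (by linarith [pow_le_pow_left₀ hp.le p2 2])
      (by linarith [sq_nonneg eps])
  have hw : ∀ z, cc f s eps * WW f s eps z = f 1 (s * z) := fun z => by
    unfold WW
    field_simp
  have hU : ∀ z, b * (cc f s eps * (z + lam f s eps * WW f s eps z)) -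
      (b * lam f s eps - t) * (cc f s eps * WW f s eps z) = UU b f s eps t z := fun z => by
    unfold UU
    rw [← hw]
    ring
  have hU2 : ∀ z, b * (39 / 40) * (cc f s eps * (z + lam f s eps * WW f s eps z)) +
      -(39 / 40 * (b * lam f s eps - t)) * (cc f s eps * WW f s eps z) =
        39 / 40 * UU b f s eps t z := fun z => by
    rw [← hU]
    ring
  have hr2 : (39 / 40) ^ 2 * qq f s ≤ q 0 := t2.trans r1
  have hsg : ∀ y, conv (√(b ^ 2 * (r - (39 / 40) ^ 2 * qq f s))) f 0 y =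
      Ph b N m q ((39 / 40) ^ 2 * qq f s) y := fun y => by
    generalize (39 / 40) ^ 2 * qq f s = r2 at t2 hr2
    rw [ph_eq, ← hF.conv_conv (by norm_num) y (√(b ^ 2 * (r - r2))) (√(b ^ 2 * (q 0 - r))) _ (by
      rw [ha, Real.sq_sqrt (mul_nonneg hb2.le (sub_nonneg.2 hr2)),
        Real.sq_sqrt (mul_nonneg hb2.le (sub_nonneg.2 t2))]
      ring), hfd]
    rfl
  simp only [hsg] at t3
  have i1 : Integrable (fun z => f 0 (UU b f s eps t z)) gam := int_fld hf.ch hf.ch _ _ _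
  have i2 : Integrable (fun z => (UU b f s eps t z - s * z) ^ 2) gam := int_fld_sq hf.ch _ _ _
  have hlow := hL b eps (lam f s eps) (thh f s eps) (cc f s eps) L (qq f s) (2 * e) (39 / 40)
    (b * lam f s eps - t) (-(39 / 40 * (b * lam f s eps - t))) (I0 b N m q) (11 * b ^ 2) c
    (WW f s eps)
    (fun z => f 0 (UU b f s eps t z) - (UU b f s eps t z - s * z) ^ 2 + I0 b N m q - e)
    (Ph b N m q ((39 / 40) ^ 2 * qq f s)) hb (hM _ _ _ _ _ _ _ hsh hn)
    (continuous_iff_continuousAt.2 fun z => (hsh.der z).continuousAt)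
    (fun z => by
      have h1 := tay1 hsh.der (fun y => (abs_of_nonneg (hsh.pos y)).trans_le (hsh.lip y)) 0 z
      have h2 := hsh.odd 0
      rw [neg_zero] at h2
      rwa [zero_add, show WW f s eps 0 = 0 by linarith, sub_zero] at h1)
    hn.hth hn.hQ hp p2 g5 g2 (fun z => by rw [hw]; exact hf.ch.b1 _) (by norm_num) (by norm_num)
    (by linarith) (by linarith) (by linarith) (by linarith) (by linarith)
    (by rw [g4, sub_self, abs_zero]; linarith)
    (gu_ph b hm hq hK (by linarith) hr2)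
    (by simp only [hU]; exact band_at hf.ch hfix hB hw)
    (((i1.sub i2).add (integrable_const _)).sub (integrable_const _))
    (by
      simp only [hU2, ← hsg]
      simp only [UU, mul_add, ← mul_assoc (39 / 40 : ℝ)]
      exact int_fld hf.ch (hf.ch.conv _) _ _ _)
    (by
      simp only [hU2]
      have i3 : Integrable (fun z => f 0 (UU b f s eps t z) - (UU b f s eps t z - s * z) ^ 2) gam :=
        i1.sub i2
      have i4 : Integrable (fun z => f 0 (UU b f s eps t z) - (UU b f s eps t z - s * z) ^ 2 +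
        I0 b N m q) gam := i3.add (integrable_const _)
      rw [integral_sub i4 (integrable_const _), integral_add i3 (integrable_const _),
        integral_sub i1 i2]
      simp only [integral_const, probReal_univ, smul_eq_mul, one_mul]
      exact num_low hb t1 g2 g3 g4 g5 q10 g6 he hc0 hs1 s0 hc hM0 e3 p3 t3)
    (c ^ 2 / (256 * b ^ 2)) (by positivity)
  refine ⟨c / 4, by positivity, slow_of hb c1 ?_ hlow⟩
  rw [show 128 * b ^ 2 * (c ^ 2 / (256 * b ^ 2)) = c ^ 2 / 2 by field_simp; ring]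
  linarith [pow_pos c1 2]

/-- slow mixing for every `b > 1`, from the blocks -/
theorem slow_blocks (hC : ClsStmt) (hS : ShapeStmt) (hT : SliceStmt) (hM : TwoMWStmt)
    (hL : LowStmt) (hR : RefStmt) (hP : PinStmt) {b : ℝ} (hb : 1 < b) :
    ∃ c : ℝ, 0 < c ∧ SlowAt b c :=
  slow_pin hC hS hT hM hL (by linarith) (pin_ref hC hR hP hb)

end Vale.Agent.N150.Slow
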