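import Vale.Agent.N150.SmDef

/-! The weak law of large numbers for integrable functions of independent Gaussians. -/

open MeasureTheory ProbabilityTheory Filter Topology
open scoped ENNReal

namespace Vale.Agent.N150.Slow

open Vale.Agent.P150 Vale.Agent.P150.F Vale.Agent.N150.Sm2

theorem mp_ev {n : ℕ} (i : Fin n) :
    MeasurePreserving (fun z : Fin n → ℝ => z i) (gpi (Fin n)) gam :=
  measurePreserving_eval (fun _ : Fin n => gam) i

theorem int_site {g : ℝ → ℝ} (hg : Integrable g gam) {n : ℕ} (i : Fin n) :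
    Integrable (fun z : Fin n → ℝ => g (z i)) (gpi (Fin n)) :=
  (mp_ev i).integrable_comp_of_integrable hg

theorem mean_site {g : ℝ → ℝ} (hg : Integrable g gam) (n : ℕ) :
    ∫ z, ∑ i, g (z i) ∂gpi (Fin n) = n * ∫ x, g x ∂gam := by
  have e : ∀ i : Fin n, ∫ z, g (z i) ∂gpi (Fin n) = ∫ x, g x ∂gam := fun i => by
    have h := integral_map (μ := gpi (Fin n)) (mp_ev i).measurable.aemeasurable (f := g)
      (by rw [(mp_ev i).map_eq]; exact hg.aestronglyMeasurable)
    rw [(mp_ev i).map_eq] at h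
    exact h.symm
  rw [integral_finsetSum _ fun i _ => int_site hg i]
  simp [e]

theorem wlln2 {g : ℝ → ℝ} (hg : MemLp g 2 gam) {η p : ℝ} (hη : 0 < η) (hp : 0 < p) :
    ∀ᶠ n : ℕ in atTop,
      (gpi (Fin n)).real {z | η * n ≤ |∑ i, g (z i) - n * ∫ x, g x ∂gam|} ≤ p := by
  filter_upwards [eventually_gt_atTop 0,
    tendsto_natCast_atTop_atTop.eventually_ge_atTop (Var[g; gam] / (η ^ 2 * p))] with n hn h
  have hn' : (0 : ℝ) < n := Nat.cast_pos.2 hn
  have h1 : MemLp (fun z : Fin n → ℝ => ∑ i, g (z i)) 2 (gpi (Fin n)) :=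
    memLp_finsetSum _ fun i _ => hg.comp_measurePreserving (mp_ev i)
  have h2 := meas_ge_le_variance_div_sq h1 (c := η * n) (by positivity)
  have h3 := variance_sum_pi (μ := fun _ : Fin n => gam) (X := fun _ => g) fun _ => hg
  have e : (∑ i : Fin n, fun z : Fin n → ℝ => g (z i)) = fun z => ∑ i, g (z i) := by
    funext z
    rw [Finset.sum_apply]
  rw [e, Finset.sum_const, Finset.card_univ, Fintype.card_fin, nsmul_eq_mul] at h3
  rw [mean_site (hg.integrable one_le_two), h3] at h2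
  refine ENNReal.toReal_le_of_le_ofReal hp.le (h2.trans (ENNReal.ofReal_le_ofReal ?_))
  rw [div_le_iff₀ (by positivity)] at h ⊢
  nlinarith

/-- **the weak law of large numbers** -/
theorem wlln {g : ℝ → ℝ} (hg : Integrable g gam) {η p : ℝ} (hη : 0 < η) (hp : 0 < p) :
    ∀ᶠ n : ℕ in atTop,
      (gpi (Fin n)).real {z | η * n ≤ |∑ i, g (z i) - n * ∫ x, g x ∂gam|} ≤ p := by
  obtain ⟨k, hk, ik⟩ := hg.exists_boundedContinuous_integral_sub_le
    (ε := min (η / 3) (η / 3 * (p / 2))) (by positivity)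
  have h1 : MemLp k 2 gam := MemLp.of_bound ik.aestronglyMeasurable ‖k‖
    (ae_of_all _ fun x => k.norm_coe_le_norm x)
  have i1 : Integrable (fun x => |g x - k x|) gam := (hg.sub ik).abs
  have h2 : |∫ x, g x ∂gam - ∫ x, k x ∂gam| ≤ η / 3 := by
    rw [← integral_sub hg ik]
    exact abs_integral_le_integral_abs.trans (hk.trans (min_le_left _ _))
  filter_upwards [eventually_gt_atTop 0, wlln2 h1 (η := η / 3) (p := p / 2) (by positivity)
    (by positivity)] with n hn h3
  have hn' : (0 : ℝ) < n := Nat.cast_pos.2 hn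
  have h4 := mul_meas_ge_le_integral_of_nonneg (μ := gpi (Fin n))
    (f := fun z => ∑ i, |g (z i) - k (z i)|)
    (ae_of_all _ fun z => Finset.sum_nonneg fun i _ => abs_nonneg _)
    (integrable_finsetSum _ fun i _ => int_site i1 i) (η / 3 * n)
  rw [mean_site i1] at h4
  have h5 : (gpi (Fin n)).real {z | η / 3 * n ≤ ∑ i, |g (z i) - k (z i)|} ≤ p / 2 := by
    have h6 : ∫ x, |g x - k x| ∂gam ≤ η / 3 * (p / 2) := hk.trans (min_le_right _ _)
    refine le_of_mul_le_mul_left (h4.trans ?_) (by positivity : 0 < η / 3 * n)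
    nlinarith
  refine le_trans (le_trans (measureReal_mono fun z hz => ?_) (measureReal_union_le _ _))
    (by linarith : (gpi (Fin n)).real {z | η / 3 * n ≤ |∑ i, k (z i) - n * ∫ x, k x ∂gam|} +
      (gpi (Fin n)).real {z | η / 3 * n ≤ ∑ i, |g (z i) - k (z i)|} ≤ p)
  by_contra hc
  rw [Set.mem_union, not_or] at hc
  have h7 : |∑ i, k (z i) - n * ∫ x, k x ∂gam| < η / 3 * n := not_le.1 hc.1
  have h8 : ∑ i, |g (z i) - k (z i)| < η / 3 * n := not_le.1 hc.2
  have h9 : |∑ i, g (z i) - ∑ i, k (z i)| ≤ ∑ i, |g (z i) - k (z i)| := by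
    rw [← Finset.sum_sub_distrib]
    exact Finset.abs_sum_le_sum_abs _ _
  have h10 : η * n ≤ |∑ i, g (z i) - n * ∫ x, g x ∂gam| := hz
  have h11 := mul_le_mul_of_nonneg_left (abs_le.1 h2).1 hn'.le
  have h12 := mul_le_mul_of_nonneg_left (abs_le.1 h2).2 hn'.le
  rw [abs_lt] at h7
  rw [abs_le] at h9
  rcases le_abs'.1 h10 with h | h <;> nlinarith [h7.1, h7.2, h9.1, h9.2]

end Vale.Agent.N150.Slow
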