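import Vale.Agent.N150.Red2
import Vale.Agent.P150.H357.Bot

/-! Low temperature, top reduction: a bottleneck which exists with probability `exp (-δ n)`, `δ`
small, exists with high probability; the second moment inequality for planted laws. -/

open MeasureTheory Matrix Filter Topology
open scoped ENNReal

namespace Vale.Agent.N150.Slow

open Vale.Agent.P150 Vale.Agent.P150.F Vale.Agent.N150.Edge

variable {n : ℕ}

/-- the partition function of a set of configurations -/
noncomputable def ZS (b : ℝ) (W : Mat n) (S : Finset (Cfg n)) : ℝ :=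
  ∑ x ∈ S, Real.exp (b / 2 * qf W (sv x))

/-- the half space `a ≤ x · w` -/
noncomputable def half (w : Vec n) (a : ℝ) : Finset (Cfg n) :=
  Finset.univ.filter fun x => a ≤ ip w (sv x)

/-- the slice `|x · w - a| ≤ r` -/
noncomputable def slice (w : Vec n) (a r : ℝ) : Finset (Cfg n) :=
  Finset.univ.filter fun x => |ip w (sv x) - a| ≤ r

/-- a barrier of height `c n` -/
def Bar (b c : ℝ) (W : Mat n) : Prop :=
  ∃ (w : Vec n) (a : ℝ), (∀ i, |w i| ≤ 1) ∧ 0 < a ∧ (half w a).Nonempty ∧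
    ZS b W (slice w a 2) ≤ Real.exp (-(c * n)) * ZS b W (half w a)

/-- `S` is disjoint from its mirror image, `A` contains its inner boundary -/
structure Cut (S A : Finset (Cfg n)) : Prop where
  ne : S.Nonempty
  neg : ∀ x ∈ S, H357.neg x ∉ S
  bd : ∀ x ∈ S, ∀ i s, Function.update x i s ∉ S → x ∈ A

theorem ZS_nonneg (b : ℝ) (W : Mat n) (S : Finset (Cfg n)) : 0 ≤ ZS b W S :=
  Finset.sum_nonneg fun _ _ => (Real.exp_pos _).le

theorem ZS_pos (b : ℝ) (W : Mat n) {S : Finset (Cfg n)} (h : S.Nonempty) : 0 < ZS b W S :=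
  Finset.sum_pos (fun _ _ => Real.exp_pos _) h

theorem ZS_mono (b : ℝ) (W : Mat n) {S T : Finset (Cfg n)} (h : S ⊆ T) : ZS b W S ≤ ZS b W T :=
  Finset.sum_le_sum_of_subset_of_nonneg h fun _ _ _ => (Real.exp_pos _).le

theorem ip_neg (w : Vec n) (x : Cfg n) : ip w (sv (H357.neg x)) = -ip w (sv x) := by
  unfold ip sv H357.neg
  rw [← Finset.sum_neg_distrib]
  exact Finset.sum_congr rfl fun i _ => by rw [H357.sp_not]; ring

theorem ip_update {w : Vec n} (hw : ∀ i, |w i| ≤ 1) (x : Cfg n) (i : Fin n) (s : Bool) :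
    |ip w (sv (Function.update x i s)) - ip w (sv x)| ≤ 2 := by
  unfold ip sv
  rw [← Finset.sum_sub_distrib, Finset.sum_eq_single i]
  · rw [Function.update_self, ← mul_sub, abs_mul]
    have h1 := abs_sub (sp s) (sp (x i))
    rw [H357.abs_sp, H357.abs_sp] at h1
    nlinarith [hw i, abs_nonneg (w i), abs_nonneg (sp s - sp (x i))]
  · intro j _ hj
    rw [Function.update_of_ne hj, sub_self]
  · intro h
    exact absurd (Finset.mem_univ i) h

theorem cut_half {w : Vec n} {a : ℝ} (hw : ∀ i, |w i| ≤ 1) (ha : 0 < a)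
    (hne : (half w a).Nonempty) : Cut (half w a) (slice w a 2) := by
  refine ⟨hne, fun x hx h => ?_, fun x hx i s h => ?_⟩
  · simp only [half, Finset.mem_filter, Finset.mem_univ, true_and, ip_neg] at hx h
    linarith
  · simp only [half, slice, Finset.mem_filter, Finset.mem_univ, true_and, not_le] at hx h ⊢
    have := abs_le.1 (ip_update hw x i s)
    rw [abs_of_nonneg (by linarith)]
    linarith

theorem ex_ind (b : ℝ) {W : Mat n} (hW : W.IsSymm) (S : Finset (Cfg n)) :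
    ex (b • W) (fun _ => 0) (fun x => if x ∈ S then 1 else 0) =
      ZS b W S / ZS b W Finset.univ := by
  have e : ∀ x : Cfg n, qf (b • W) (sv x) / 2 + ip 0 (sv x) = b / 2 * qf W (sv x) := fun x => by
    unfold qf
    rw [smul_mulVec, ip_smul_right]
    simp [ip]
    ring
  unfold ex ZS
  rw [Red.gibbs_eq_gM (hW.smul b), Finset.sum_div]
  simp only [gM, e, mul_ite, mul_one, mul_zero]
  rw [Finset.sum_ite_mem, Finset.univ_inter]

theorem gap_ex {J : Fin n → Fin n → ℝ} (hJ : ∀ i j, J i j = J j i) {S A : Finset (Cfg n)}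
    (h : Cut S A) : gap J (fun _ => 0) * ex J (fun _ => 0) (fun x => if x ∈ S then 1 else 0) ≤
      2 * n * ex J (fun _ => 0) fun x => if x ∈ A then 1 else 0 := by
  have f01 : ∀ x : Cfg n, (if x ∈ S then (1 : ℝ) else 0) = 0 ∨ (if x ∈ S then (1 : ℝ) else 0) = 1 :=
    fun x => by split_ifs <;> simp
  have h1 := H357.dir_le (J := J) (fun _ => 0) (fun x => if x ∈ S then 1 else 0)
    (fun x => if x ∈ A then 1 else 0) f01 (fun x => by split_ifs <;> norm_num)
    fun x hx i s hs => by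
      have k1 : x ∈ S := by
        by_contra k
        simp [k] at hx
      have k2 : Function.update x i s ∉ S := fun k => by simp [k] at hs
      rw [if_pos (h.bd x k1 i s k2)]
  have h2 := Semi.gap_mul_var_le (J := J) (fun _ => 0) hJ fun x => if x ∈ S then 1 else 0
  rw [Semi.var_eq, H357.sq_eq f01] at h2
  have h3 : ex J (fun _ => 0) (fun x => (if x ∈ S then (1 : ℝ) else 0) +
      if H357.neg x ∈ S then 1 else 0) ≤ ex J (fun _ => 0) fun _ => 1 :=
    Semi.ex_mono _ fun x => by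
      by_cases k : x ∈ S
      · rw [if_pos k, if_neg (h.neg x k), add_zero]
      · rw [if_neg k, zero_add]
        split_ifs <;> norm_num
  rw [Semi.ex_add, Semi.ex_const, H357.ex_neg fun x => if x ∈ S then (1 : ℝ) else 0] at h3
  have hA : 0 ≤ ex J (fun _ => 0) fun x => if x ∈ A then 1 else 0 :=
    Semi.ex_nonneg _ fun x => by split_ifs <;> norm_num
  have hm : 0 ≤ ex J (fun _ => 0) fun x => if x ∈ S then 1 else 0 :=
    Semi.ex_nonneg _ fun x => by split_ifs <;> norm_num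
  generalize ex J (fun _ => 0) (fun x => if x ∈ S then 1 else 0) = m at h2 h3 hm
  rcases le_or_gt (gap J fun _ => 0) 0 with hg | hg
  · exact (mul_nonpos_of_nonpos_of_nonneg hg hm).trans (by positivity)
  have k : gap J (fun _ => 0) * (m / 2) ≤ gap J (fun _ => 0) * (m - m ^ 2) :=
    mul_le_mul_of_nonneg_left (by nlinarith) hg.le
  linarith

/-- the gap is bounded by the flow through a cut -/
theorem gap_cut (b : ℝ) {W : Mat n} (hW : W.IsSymm) {S A : Finset (Cfg n)} (h : Cut S A) :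
    gap (b • W) (fun _ => 0) * ZS b W S ≤ 2 * n * ZS b W A := by
  have h1 := gap_ex (J := (b • W : Mat n)) (fun i j => (hW.smul b).apply j i) h
  have hZ := ZS_pos b W (Finset.univ_nonempty (α := Cfg n))
  rw [ex_ind b hW, ex_ind b hW, ← mul_div_assoc, ← mul_div_assoc] at h1
  exact (div_le_div_iff_of_pos_right hZ).1 h1

theorem Cut.neA (hn : 0 < n) {S A : Finset (Cfg n)} (h : Cut S A) : A.Nonempty := by
  rcases A.eq_empty_or_nonempty with rfl | h'
  · have h1 := gap_cut 0 (W := (0 : Mat n)) isSymm_zero h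
    have h2 := gap_pos hn (J := (0 : ℝ) • (0 : Mat n)) (fun i j => by simp) fun _ => 0
    have h3 := mul_pos h2 (ZS_pos 0 (0 : Mat n) h.ne)
    rw [show ZS 0 (0 : Mat n) ∅ = 0 from Finset.sum_empty, mul_zero] at h1
    linarith
  · exact h'

/-- all cuts -/
abbrev Cuts (n : ℕ) := {p : Finset (Cfg n) × Finset (Cfg n) // Cut p.1 p.2}

theorem cuts_ne (hn : 0 < n) : Nonempty (Cuts n) :=
  ⟨⟨({fun _ => true}, {fun _ => true}), Finset.singleton_nonempty _, fun x hx h => by
    rw [Finset.mem_singleton] at hx h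
    have := congrFun h ⟨0, hn⟩
    simp [hx, H357.neg] at this, fun _ hx _ _ _ => hx⟩⟩

/-- the height of the best bottleneck -/
noncomputable def Ht (b : ℝ) (W : Mat n) : ℝ :=
  ⨆ p : Cuts n, (Real.log (ZS b W p.1.1) - Real.log (ZS b W p.1.2))

theorem le_Ht (b : ℝ) (W : Mat n) {S A : Finset (Cfg n)} (h : Cut S A) :
    Real.log (ZS b W S) - Real.log (ZS b W A) ≤ Ht b W :=
  le_ciSup (f := fun p : Cuts n => Real.log (ZS b W p.1.1) - Real.log (ZS b W p.1.2))
    (Finite.bddAbove_range _) ⟨(S, A), h⟩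

theorem Bar.le_Ht (hn : 0 < n) {b c : ℝ} {W : Mat n} (h : Bar b c W) : c * n ≤ Ht b W := by
  obtain ⟨w, a, hw, ha, hne, h⟩ := h
  have hc := cut_half hw ha hne
  refine le_trans ?_ (Slow.le_Ht b W hc)
  have h1 := Real.log_le_log (ZS_pos b W (hc.neA hn)) h
  rw [Real.log_mul (Real.exp_pos _).ne' (ZS_pos b W hne).ne', Real.log_exp] at h1
  linarith

theorem gap_le_Ht (hn : 0 < n) (b : ℝ) {W : Mat n} (hW : W.IsSymm) :
    gap (b • W) (fun _ => 0) ≤ 2 * n * Real.exp (-Ht b W) := by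
  have := cuts_ne hn
  obtain ⟨p, hp⟩ := exists_eq_ciSup_of_finite
    (f := fun p : Cuts n => Real.log (ZS b W p.1.1) - Real.log (ZS b W p.1.2))
  have h1 := ZS_pos b W p.2.ne
  rw [Ht, ← hp, neg_sub, Real.exp_sub, Real.exp_log h1, Real.exp_log (ZS_pos b W (p.2.neA hn)),
    ← mul_div_assoc, le_div_iff₀ h1]
  exact gap_cut b hW p.2

theorem log_ZS_le (b : ℝ) {W W' : Mat n} {r : ℝ} {S : Finset (Cfg n)} (hS : S.Nonempty)
    (h : ∀ x ∈ S, b / 2 * qf W (sv x) ≤ b / 2 * qf W' (sv x) + r) :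
    Real.log (ZS b W S) ≤ Real.log (ZS b W' S) + r := by
  have h1 : ZS b W S ≤ ZS b W' S * Real.exp r := by
    unfold ZS
    rw [Finset.sum_mul]
    exact Finset.sum_le_sum fun x hx => by
      rw [← Real.exp_add]
      exact Real.exp_le_exp.2 (h x hx)
  have h2 := Real.log_le_log (ZS_pos b W hS) h1
  rwa [Real.log_mul (ZS_pos b W' hS).ne' (Real.exp_pos _).ne', Real.log_exp] at h2

theorem Ht_le (hn : 0 < n) (b : ℝ) {W W' : Mat n} {r : ℝ}
    (h : ∀ x : Cfg n, |b / 2 * qf W (sv x) - b / 2 * qf W' (sv x)| ≤ r) :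
    Ht b W ≤ Ht b W' + 2 * r := by
  have := cuts_ne hn
  refine ciSup_le fun p => ?_
  have h1 := log_ZS_le b (W := W) (W' := W') (r := r) p.2.ne fun x _ => by
    linarith [(abs_le.1 (h x)).2]
  have h2 := log_ZS_le b (W := W') (W' := W) (r := r) (p.2.neA hn) fun x _ => by
    linarith [(abs_le.1 (h x)).1]
  linarith [le_Ht b W' p.2]

theorem abs_Ht_sub (hn : 0 < n) (b : ℝ) {W W' : Mat n} {r : ℝ}
    (h : ∀ x : Cfg n, |b / 2 * qf W (sv x) - b / 2 * qf W' (sv x)| ≤ r) :
    |Ht b W - Ht b W'| ≤ 2 * r :=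
  abs_le.2 ⟨by linarith [Ht_le hn b (W := W') (W' := W) fun x => (abs_sub_comm _ _).trans_le (h x)],
    by linarith [Ht_le hn b h]⟩

theorem continuous_ZS (b : ℝ) (S : Finset (Cfg n)) :
    Continuous fun W : Fin n → Fin n → ℝ => ZS b W S :=
  continuous_finsetSum _ fun x _ => by
    unfold qf ip Matrix.mulVec dotProduct
    fun_prop

theorem measurable_Ht (b : ℝ) : Measurable fun W : Fin n → Fin n → ℝ => Ht b W :=
  Measurable.iSup fun _ =>
    (continuous_ZS b _).measurable.log.sub (continuous_ZS b _).measurable.log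

theorem sq_sv (x : Cfg n) : F.sq (sv x) = n := by
  simp [F.sq, sv, pow_two, sp_sq]

variable {ι : Type} [Fintype ι] {A : ι → Mat n}

/-- a quadratic form of the matrix is Lipschitz in the Gaussian coordinates -/
theorem abs_qf_sub (hA : GoeFam A) (v : Vec n) (ω ω' : ι → ℝ) :
    |qf (goeM A ω) v - qf (goeM A ω') v| ≤ √(2 / n) * F.sq v * ed ω ω' := by
  unfold qf
  rw [Law.ip_goeM, Law.ip_goeM, ← Finset.sum_sub_distrib]
  simp only [← mul_sub]
  have h1 := Finset.sum_mul_sq_le_sq_mul_sq Finset.univ (fun i => ip v (A i *ᵥ v))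
    fun i => ω i - ω' i
  have h2 := Law.goe_bil hA v v v v
  simp only [← pow_two, ipN_self] at h2
  refine Real.abs_le_sqrt h1 |>.trans (le_of_eq ?_)
  rw [h2, Real.sqrt_mul (by positivity), ed, show (F.sq v ^ 2 + F.sq v ^ 2) / n =
    2 / n * F.sq v ^ 2 by ring, Real.sqrt_mul (by positivity), Real.sqrt_sq (sqN_nonneg v)]

theorem lip_Ht (hn : 0 < n) (hA : GoeFam A) {b : ℝ} (hb : 0 ≤ b) :
    Lip (b * √(2 * n)) fun ω => Ht b (goeM A ω) := fun ω ω' => by
  have hn' : (0 : ℝ) < n := Nat.cast_pos.2 hn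
  have e : √(2 / n) * (n : ℝ) = √(2 * n) := by
    rw [show (2 * n : ℝ) = 2 / n * n ^ 2 by field_simp, Real.sqrt_mul (by positivity),
      Real.sqrt_sq hn'.le]
  refine (abs_Ht_sub hn b (r := b / 2 * (√(2 * n) * ed ω ω')) fun x => ?_).trans (le_of_eq ?_)
  · rw [← mul_sub, abs_mul, abs_of_nonneg (by positivity : 0 ≤ b / 2)]
    refine mul_le_mul_of_nonneg_left ?_ (by positivity)
    have := abs_qf_sub hA (sv x) ω ω'
    rwa [sq_sv, e] at this
  · ring

/-- **the concentration step** -/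
theorem boost {f : (ι → ℝ) → ℝ} {L a t : ℝ} (hf : Lip L f) (hL : 0 < L) (ht : 0 ≤ t)
    (h : Real.exp (-(t ^ 2 / (4 * L ^ 2))) < (gpi ι).real {ω | a ≤ f ω}) :
    (gpi ι).real {ω | f ω ≤ a - 2 * t} ≤ Real.exp (-(t ^ 2 / (4 * L ^ 2))) := by
  have h1 : a < (∫ ω, f ω ∂gpi ι) + t := by
    by_contra hc
    exact absurd (le_trans (measureReal_mono fun ω (hω : a ≤ f ω) => (not_lt.1 hc).trans hω)
      (hf.tail hL ht)) (not_le.2 h)
  exact le_trans (measureReal_mono fun ω (hω : f ω ≤ a - 2 * t) => by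
    show f ω ≤ _
    linarith) (hf.tail_lower hL ht)

theorem goe_set_eq {ι' : Type} [Fintype ι'] {A' : ι' → Mat n} (hA : GoeFam A) (hA' : GoeFam A')
    {T : Set (Fin n → Fin n → ℝ)} (hT : MeasurableSet T) :
    gpi ι {ω | Red.ent (goeM A ω) ∈ T} = gpi ι' {ω | Red.ent (goeM A' ω) ∈ T} := by
  have h := Law.lintegral_goe_eq hA hA' (G := fun W => T.indicator 1 (Red.ent W))
    ((measurable_one.indicator hT).comp
      (measurable_pi_iff.2 fun a => measurable_pi_iff.2 fun b => measurable_pi_apply (a, b)))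
  exact (lintegral_indicator_one (Red.measurable_ent (Law.continuous_goeM A) hT)).symm.trans
    (h.trans (lintegral_indicator_one (Red.measurable_ent (Law.continuous_goeM A') hT)))

theorem gap_goeF (b : ℝ) (g : Pairs n → ℝ) (d : Vec n) :
    gap (skJ b g) (fun _ => 0) = gap (b • Red.goeF g d) fun _ => 0 := by
  have h : ∀ i j, i ≠ j → skJ b g i j = (b • Red.goeF g d) i j := fun i j hij => by
    rw [Matrix.smul_apply, Red.goeF_off g d i j hij, skJ, skJ, smul_eq_mul]
    ring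
  unfold gap var dir
  rw [Red.ex_congr h, Red.gen_congr h]

theorem goeF_symm (g : Pairs n → ℝ) (d : Vec n) : (Red.goeF g d).IsSymm := by
  ext i j
  rcases eq_or_ne i j with rfl | h
  · rfl
  · rw [transpose_apply, Red.goeF_off g d i j h, Red.goeF_off g d j i h.symm, Asm.skJ_symm]

/-- finite `n` form -/
theorem disorder_gap (hn : 0 < n) (hA : GoeFam A) {b c : ℝ} (hb : 0 < b) (hc : 0 < c)
    (h : Real.exp (-(c ^ 2 / (32 * b ^ 2) * n)) < (gpi ι).real {ω | 2 * c * n ≤ Ht b (goeM A ω)}) :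
    disorder n {g | 2 * n * Real.exp (-(c * n)) < gap (skJ b g) fun _ => 0} ≤
      ENNReal.ofReal (Real.exp (-(c ^ 2 / (32 * b ^ 2) * n))) := by
  have hn' : (0 : ℝ) < n := Nat.cast_pos.2 hn
  have e : (c * n / 2) ^ 2 / (4 * (b * √(2 * n)) ^ 2) = c ^ 2 / (32 * b ^ 2) * n := by
    rw [mul_pow b, Real.sq_sqrt (by positivity)]
    field_simp
    ring
  have h1 := boost (lip_Ht hn hA hb.le) (by positivity) (t := c * n / 2) (by positivity)
    (e ▸ h)
  rw [e] at h1
  have hT : MeasurableSet {W : Fin n → Fin n → ℝ | Ht b W ≤ 2 * c * n - 2 * (c * n / 2)} :=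
    measurableSet_le (measurable_Ht b) measurable_const
  refine (Red.disorder_le hT fun g hg d => ?_).trans ?_
  · have h2 := gap_le_Ht hn b (goeF_symm g d)
    rw [← gap_goeF] at h2
    have h3 := Real.exp_lt_exp.1 (lt_of_mul_lt_mul_left (lt_of_lt_of_le hg h2) (by positivity))
    show Ht b (Red.goeF g d) ≤ _
    linarith
  · rw [← goe_set_eq hA Red.goeFam_famA hT]
    exact (ENNReal.le_ofReal_iff_toReal_le (measure_ne_top _ _) (Real.exp_pos _).le).2 h1

/-- the barrier exists with probability at least `exp (-δ n)` -/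
def Low (b c δ : ℝ) : Prop := ∀ᶠ n : ℕ in atTop, ∃ (ι : Type) (_ : Fintype ι) (A : ι → Mat n),
  GoeFam A ∧ Real.exp (-(δ * n)) ≤ (gpi ι).real {ω | c * n ≤ Ht b (goeM A ω)}

/-- exponentially slow mixing at the rate `c` -/
def SlowAt (b c : ℝ) : Prop := WHP fun n => {g |
  gap (skJ b g) (fun _ => 0) ≤ Real.exp (-(c * n)) ∧
    Real.log 2 * Real.exp (c * n) ≤ tmix (skJ b g) fun _ => 0}

theorem ev_lin (c : ℝ) (hc : 0 < c) : ∀ᶠ n : ℕ in atTop, 2 * (n : ℝ) ≤ Real.exp (c * n) := by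
  filter_upwards [tendsto_natCast_atTop_atTop.eventually_ge_atTop (4 / c ^ 2)] with n hn
  have h1 := Real.quadratic_le_exp_of_nonneg (x := c * n) (by positivity)
  rw [div_le_iff₀ (by positivity)] at hn
  have h2 : (0 : ℝ) ≤ n := Nat.cast_nonneg n
  nlinarith [mul_nonneg hc.le h2]

/-- **top reduction** -/
theorem slow_of {b c δ : ℝ} (hb : 0 < b) (hc : 0 < c) (hδ : 128 * b ^ 2 * δ < c ^ 2)
    (h : Low b c δ) : SlowAt b (c / 4) := by
  have hk : δ < (c / 2) ^ 2 / (32 * b ^ 2) := by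
    rw [lt_div_iff₀ (by positivity)]
    linarith
  have hk0 : 0 < (c / 2) ^ 2 / (32 * b ^ 2) := by positivity
  have h1 : Tendsto (fun n : ℕ => ENNReal.ofReal (Real.exp (-((c / 2) ^ 2 / (32 * b ^ 2) * n))))
      atTop (𝓝 0) := by
    have h2 := Real.tendsto_exp_neg_atTop_nhds_zero.comp
      (tendsto_natCast_atTop_atTop.const_mul_atTop hk0)
    simpa using ENNReal.tendsto_ofReal h2
  refine tendsto_of_tendsto_of_tendsto_of_le_of_le' tendsto_const_nhds h1
    (Eventually.of_forall fun n => zero_le) ?_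
  filter_upwards [h, eventually_gt_atTop 0, ev_lin (c / 4) (by positivity)] with n h hn h4
  obtain ⟨ι, _, A, hA, h⟩ := h
  have hn' : (0 : ℝ) < n := Nat.cast_pos.2 hn
  refine le_trans (measure_mono fun g hg => ?_) (disorder_gap hn hA hb (half_pos hc) ?_)
  · by_contra hc
    have h5 : gap (skJ b g) (fun _ => 0) ≤ Real.exp (-(c / 4 * n)) := by
      refine (not_lt.1 hc).trans ?_
      rw [show -(c / 4 * n) = c / 4 * n + -(c / 2 * n) by ring, Real.exp_add]
      exact mul_le_mul_of_nonneg_right h4 (Real.exp_pos _).le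
    refine hg ⟨h5, ?_⟩
    have h6 := tmix_ge hn (Asm.skJ_symm b g) (fun _ => 0) (Real.exp_pos _) h5
    rwa [Real.exp_neg, div_inv_eq_mul] at h6
  · rw [show 2 * (c / 2) = c by ring]
    exact lt_of_lt_of_le (Real.exp_lt_exp.2 (neg_lt_neg (mul_lt_mul_of_pos_right hk hn'))) h

/-! ### planted laws -/

/-- Cauchy-Schwarz: an event which is likely under the density `N` is not too unlikely -/
theorem plant_cs {Ω : Type*} [MeasurableSpace Ω] {P : Measure Ω} {N : Ω → ℝ≥0∞}
    (hN : AEMeasurable N P) {E : Set Ω} (hE : MeasurableSet E) :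
    (∫⁻ ω in E, N ω ∂P) ^ 2 ≤ P E * ∫⁻ ω, N ω ^ 2 ∂P := by
  have h := ENNReal.lintegral_mul_le_Lp_mul_Lq P Real.HolderConjugate.two_two
    (f := E.indicator 1) (g := N) (measurable_one.indicator hE).aemeasurable hN
  have e1 : ∫⁻ ω, (E.indicator (1 : Ω → ℝ≥0∞) * N) ω ∂P = ∫⁻ ω in E, N ω ∂P := by
    rw [← lintegral_indicator hE]
    refine lintegral_congr fun ω => ?_
    by_cases h : ω ∈ E <;> simp [h]
  have e2 : ∫⁻ ω, E.indicator (1 : Ω → ℝ≥0∞) ω ^ (2 : ℝ) ∂P = P E := by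
    rw [← lintegral_indicator_one hE]
    refine lintegral_congr fun ω => ?_
    by_cases h : ω ∈ E <;> simp [h]
  rw [e1, e2] at h
  refine (pow_le_pow_left' h 2).trans (le_of_eq ?_)
  rw [mul_pow, ← ENNReal.rpow_natCast, ← ENNReal.rpow_natCast, ← ENNReal.rpow_mul,
    ← ENNReal.rpow_mul]
  simp

/-- the second moment of a mixture -/
theorem mix_sq {Ω U : Type*} [MeasurableSpace Ω] [MeasurableSpace U] (P : Measure Ω) [SFinite P]
    (ν : Measure U) [SFinite ν] {L : U → Ω → ℝ≥0∞} (hL : Measurable (Function.uncurry L)) :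
    ∫⁻ ω, (∫⁻ u, L u ω ∂ν) ^ 2 ∂P = ∫⁻ p, ∫⁻ ω, L p.1 ω * L p.2 ω ∂P ∂ν.prod ν := by
  have m1 : ∀ ω, Measurable fun u => L u ω := fun ω => hL.comp (measurable_id.prodMk measurable_const)
  have m2 : Measurable (Function.uncurry fun (ω : Ω) (p : U × U) => L p.1 ω * L p.2 ω) :=
    (hL.comp (measurable_snd.fst.prodMk measurable_fst)).mul
      (hL.comp (measurable_snd.snd.prodMk measurable_fst))
  rw [← lintegral_lintegral_swap m2.aemeasurable]
  refine lintegral_congr fun ω => ?_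
  rw [pow_two, lintegral_prod_mul (m1 ω).aemeasurable (m1 ω).aemeasurable]

/-- **planted mixtures**: mass `a` of `E` under the mixture, second moment `M` -/
theorem plant_mix {Ω U : Type*} [MeasurableSpace Ω] [MeasurableSpace U] (P : Measure Ω)
    [IsFiniteMeasure P] (ν : Measure U) [SFinite ν] {L : U → Ω → ℝ≥0∞}
    (hL : Measurable (Function.uncurry L)) {E : Set Ω} (hE : MeasurableSet E) {a M : ℝ}
    (ha : 0 ≤ a) (hM : 0 < M) (h1 : ENNReal.ofReal a ≤ ∫⁻ u, ∫⁻ ω in E, L u ω ∂P ∂ν)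
    (h2 : ∫⁻ p, ∫⁻ ω, L p.1 ω * L p.2 ω ∂P ∂ν.prod ν ≤ ENNReal.ofReal M) :
    a ^ 2 / M ≤ P.real E := by
  have h3 := plant_cs (P := P) (N := fun ω => ∫⁻ u, L u ω ∂ν)
    hL.lintegral_prod_left.aemeasurable hE
  rw [mix_sq P ν hL, ← lintegral_lintegral_swap hL.aemeasurable] at h3
  have h4 := (pow_le_pow_left' h1 2).trans (h3.trans (mul_le_mul_right h2 _))
  rw [← ENNReal.ofReal_pow ha, ← ofReal_measureReal (measure_ne_top P E),
    ← ENNReal.ofReal_mul measureReal_nonneg,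
    ENNReal.ofReal_le_ofReal_iff (mul_nonneg measureReal_nonneg hM.le)] at h4
  rwa [div_le_iff₀ hM]

end Vale.Agent.N150.Slow
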