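import Vale.Agent.N150.SmDef

/-! Low temperature, second moment: the weak form of the statement (any typical set). -/

open MeasureTheory ProbabilityTheory Filter Topology
open scoped ENNReal

namespace Vale.Agent.N150.Sm2

open Vale.Agent.P150 Vale.Agent.P150.F

/-- `z` is typical for finitely many site functions -/
def TypF (kap : ℝ) {J : ℕ} (f : Fin J → ℝ → ℝ) {n : ℕ} (z : Vec n) : Prop :=
  ∀ j, |(∑ i, f j (z i)) / n - ∫ x, f j x ∂gam| ≤ kap

/-- the second moment bound on vectors that are also typical for finitely many further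
measurable integrable site functions -/
def TwoMW (eps lam th : ℝ) (W : ℝ → ℝ) : Prop :=
  ∀ del : ℝ, 0 < del → ∃ (kap C : ℝ) (J : ℕ) (f : Fin J → ℝ → ℝ), 0 < kap ∧
    (∀ j, Measurable (f j)) ∧ (∀ j, Integrable (f j) gam) ∧ ∀ n : ℕ, 0 < n →
    ∫⁻ p in {p : Vec n × Vec n | (Typ kap eps th W p.1 ∧ TypF kap f p.1) ∧
        (Typ kap eps th W p.2 ∧ TypF kap f p.2)},
      ENNReal.ofReal (Real.exp (n * pairE eps lam th W p.1 p.2))
        ∂((gpi (Fin n)).prod (gpi (Fin n))) ≤ ENNReal.ofReal (C * Real.exp (del * n))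

/-- the weak statement of the block -/
def TwoMWStmt : Prop :=
  ∀ L : ℝ, ∃ eta : ℝ, 0 < eta ∧ ∀ (a th0 eps lam th : ℝ) (W W1 : ℝ → ℝ),
    Shape L eta a th0 W W1 → Nrm a eta eps lam th W → TwoMW eps lam th W

theorem TwoM.weak {eps lam th : ℝ} {W : ℝ → ℝ} (h : TwoM eps lam th W) :
    TwoMW eps lam th W := by
  intro del hdel
  obtain ⟨kap, C, hk, h⟩ := h del hdel
  refine ⟨kap, C, 0, fun j => j.elim0, hk, fun j => j.elim0, fun j => j.elim0, fun n hn => ?_⟩
  refine le_trans (lintegral_mono_set ?_) (h n hn)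
  intro p hp
  exact ⟨hp.1.1, hp.2.1⟩

theorem TwoMStmt.weak (h : TwoMStmt) : TwoMWStmt := by
  intro L
  obtain ⟨eta, he, h⟩ := h L
  exact ⟨eta, he, fun a th0 eps lam th W W1 hS hN => (h a th0 eps lam th W W1 hS hN).weak⟩

end Vale.Agent.N150.Sm2
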