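import Vale.Agent.N150.SlGI
import Vale.Agent.N150.SlTop
import Vale.Agent.N150.SmW

/-! From the second moment bound to the existence of planted solutions. -/

open MeasureTheory ProbabilityTheory Matrix Real Filter Topology
open scoped ENNReal

namespace Vale.Agent.N150.SlGI

open Vale.Agent.P150 Vale.Agent.P150.F Vale.Agent.N150.Edge Vale.Agent.N150.Law
open Vale.Agent.N150.Sm2

variable {n : ℕ} {ι : Type} [Fintype ι] {A : ι → Mat n} {ε lam th kap : ℝ}

theorem sq_add' (u v : Vec n) : F.sq (u + v) = F.sq u + 2 * ip u v + F.sq v := by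
  rw [← ipN_self, ip_add_left, ip_add_right, ip_add_right, ipN_self, ipN_self, ipN_comm v u]
  ring

theorem sq_sub' (u v : Vec n) : F.sq (u - v) = F.sq u - 2 * ip u v + F.sq v := by
  rw [← ipN_self, ip_sub_left, ip_sub_right, ip_sub_right, ipN_self, ipN_self, ipN_comm v u]
  ring

theorem ip_sq (u v : Vec n) : ip u v ^ 2 ≤ F.sq u * F.sq v := Finset.sum_mul_sq_le_sq_mul_sq _ _ _

theorem ex1_eq (hn : 0 < n) (hε : 0 < ε) (z m : Vec n) :
    √(ε ^ 2 / (F.sq m / n + ε ^ 2)) ^ n * Real.exp (ex1 ε m (z + lam • m)) =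
      ε ^ n * Real.exp (n * (Sm2.gE ε lam (F.sq z / n) (ip z m / n) (F.sq m / n) - lam ^ 2 / 2)) := by
  have hn' : (0 : ℝ) < n := Nat.cast_pos.2 hn
  have he := pow_pos hε 2
  have hQ : 0 ≤ F.sq m / n := div_nonneg (sqN_nonneg m) hn'.le
  have h1 : √(ε ^ 2 / (F.sq m / n + ε ^ 2)) =
      ε * Real.exp (-(1 / 2) * Real.log (F.sq m / n + ε ^ 2)) := by
    rw [Real.sqrt_div he.le, Real.sqrt_sq hε.le, div_eq_mul_inv, Real.sqrt_eq_rpow,
      ← Real.rpow_neg (by positivity), Real.rpow_def_of_pos (by positivity), mul_comm (Real.log _)]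
  rw [h1, mul_pow, mul_assoc, ← Real.exp_nat_mul, ← Real.exp_add]
  congr 2
  have hs : F.sq m = n * (F.sq m / n) := by field_simp
  rw [ex1, Sm2.gE, sq_add', ip_add_right, ip_smul_right, ip_smul_right, sq_smul', ipN_self,
    ipN_comm m z]
  generalize F.sq m / n = Q at *
  rw [hs]
  field_simp
  ring

theorem E1_ge (hn : 0 < n) (hε : 0 < ε) (z m : Vec n) :
    ε ^ n * Real.exp (n * (Sm2.gE ε lam (F.sq z / n) (ip z m / n) (F.sq m / n) - lam ^ 2 / 2)) / 2 ≤
      E1 ε m (z + lam • m) := by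
  have hQ : 0 ≤ F.sq m / n := div_nonneg (sqN_nonneg m) (Nat.cast_nonneg n)
  have he := pow_pos hε 2
  rw [← ex1_eq hn hε, E1_eq, mul_right_comm, div_eq_mul_one_div]
  refine mul_le_mul_of_nonneg_left (Real.le_sqrt_of_sq_le ?_) (by positivity)
  rw [le_div_iff₀ (by positivity)]
  linarith

/-- the error terms of the decoupled bound -/
theorem err_le (hn : 0 < n) (hε : 0 < ε) (hε1 : ε ≤ 1) {s d a b : Vec n} {k : ℝ} (hk : 0 ≤ k)
    (h0 : |ip s d| ≤ k * n) (h1 : |ip d a + ip s b| ≤ 6 * k * n) (ha : F.sq a ≤ 25 * n)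
    (hb : F.sq b ≤ 25 * n) :
    (ip s d * ip (tv ε s a) (tv ε d b) + ip d (tv ε s a) * ip s (tv ε d b)) / n ≤
      n * ((25 * k + 64 * k ^ 2) / ε ^ 6) := by
  have hn' : (0 : ℝ) < n := Nat.cast_pos.2 hn
  have he := pow_pos hε 2
  have he1 : ε ^ 2 ≤ 1 := pow_le_one₀ hε.le hε1
  have key : ∀ s a : Vec n, F.sq a ≤ 25 * n → F.sq (tv ε s a) ≤ 25 * n / ε ^ 4 ∧
      |ip s a / (n * (2 * (F.sq s / n) + ε ^ 2))| ≤ 5 / ε := by
    intro s a ha
    have hs : F.sq s = n * (F.sq s / n) := by field_simp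
    have hQ : 0 ≤ F.sq s / n := div_nonneg (sqN_nonneg s) hn'.le
    have hc := ip_sq s a
    have ha0 := sqN_nonneg a
    rw [tv, sq_smul', sq_sub', ip_smul_right, sq_smul', ipN_comm a s]
    generalize F.sq s / n = Q at *
    rw [hs] at hc ⊢
    have hD : 0 < n * (2 * Q + ε ^ 2) := by positivity
    constructor
    · have h2 : F.sq a - 2 * (ip s a / (n * (2 * Q + ε ^ 2)) * ip s a) +
          (ip s a / (n * (2 * Q + ε ^ 2))) ^ 2 * (n * Q) ≤ 25 * n := by
        obtain ⟨κ, hκ⟩ : ∃ κ, κ = ip s a / (n * (2 * Q + ε ^ 2)) := ⟨_, rfl⟩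
        have h3 : ip s a = κ * (n * (2 * Q + ε ^ 2)) := by rw [hκ]; field_simp
        rw [← hκ, h3]
        nlinarith [mul_nonneg (sq_nonneg κ) (mul_nonneg hn'.le hQ),
          mul_nonneg (sq_nonneg κ) (mul_nonneg hn'.le he.le)]
      have h4 : (Q + ε ^ 2)⁻¹ ^ 2 ≤ (ε ^ 4)⁻¹ := by
        rw [inv_pow]
        refine inv_anti₀ (by positivity) ?_
        nlinarith [mul_nonneg hQ he.le, sq_nonneg Q]
      rw [div_eq_inv_mul (25 * n : ℝ)]
      exact (mul_le_mul_of_nonneg_left h2 (by positivity)).trans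
        (mul_le_mul_of_nonneg_right h4 (by positivity))
    · rw [abs_div, abs_of_pos hD, div_le_div_iff₀ hD hε]
      refine abs_le_of_sq_le_sq' ?_ (by positivity) |>.2
      have h5 : ip s a ^ 2 ≤ n * Q * (25 * n) :=
        hc.trans (mul_le_mul_of_nonneg_left ha (by positivity))
      have h6 : Q * ε ^ 2 ≤ (2 * Q + ε ^ 2) ^ 2 := by nlinarith [mul_nonneg hQ he.le, sq_nonneg Q]
      calc (|ip s a| * ε) ^ 2 = ip s a ^ 2 * ε ^ 2 := by rw [mul_pow, sq_abs]
        _ ≤ n * Q * (25 * n) * ε ^ 2 := by gcongr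
        _ = 25 * n ^ 2 * (Q * ε ^ 2) := by ring
        _ ≤ 25 * n ^ 2 * (2 * Q + ε ^ 2) ^ 2 := by gcongr
        _ = _ := by ring
  obtain ⟨h2, h3⟩ := key s a ha
  obtain ⟨h4, h5⟩ := key d b hb
  have h6 : |ip (tv ε s a) (tv ε d b)| ≤ 25 * n / ε ^ 4 := by
    refine abs_le_of_sq_le_sq' ?_ (by positivity) |> abs_le.2
    rw [pow_two (25 * n / ε ^ 4 : ℝ)]
    exact (ip_sq _ _).trans (mul_le_mul h2 h4 (sqN_nonneg _) (by positivity))
  have h7 : ip s d * ip (tv ε s a) (tv ε d b) ≤ k * n * (25 * n / ε ^ 4) := by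
    refine (le_abs_self _).trans ?_
    rw [abs_mul]
    exact mul_le_mul h0 h6 (abs_nonneg _) (by positivity)
  have hQs : 0 ≤ F.sq s / n := div_nonneg (sqN_nonneg s) hn'.le
  have hQd : 0 ≤ F.sq d / n := div_nonneg (sqN_nonneg d) hn'.le
  have h8 : ip d (tv ε s a) * ip s (tv ε d b) ≤ (8 * k * n / ε) ^ 2 / ε ^ 4 := by
    simp only [tv, ip_smul_right, ip_sub_right]
    rw [ipN_comm d s]
    generalize ip s a / (n * (2 * (F.sq s / n) + ε ^ 2)) = κ at *
    generalize ip d b / (n * (2 * (F.sq d / n) + ε ^ 2)) = κ' at *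
    have h9 : ∀ κ : ℝ, |κ| ≤ 5 / ε → |κ * ip s d| ≤ 5 / ε * (k * n) := fun κ h => by
      rw [abs_mul]
      exact mul_le_mul h h0 (abs_nonneg _) (by positivity)
    have h10 : 6 * k * n ≤ 6 / ε * (k * n) := by
      rw [mul_assoc]
      exact mul_le_mul_of_nonneg_right (le_div_self (by norm_num) hε hε1) (by positivity)
    have h11 : |(ip d a - κ * ip s d + (ip s b - κ' * ip s d)) / 2| ≤ 8 * k * n / ε := by
      have e : 8 * k * n / ε = (6 / ε * (k * n) + 5 / ε * (k * n) + 5 / ε * (k * n)) / 2 := by ring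
      have h12 := abs_le.1 (h9 _ h3)
      have h13 := abs_le.1 (h9 _ h5)
      have h14 := abs_le.1 h1
      rw [e, abs_le]
      constructor <;> linarith
    have h15 : (ip d a - κ * ip s d) * (ip s b - κ' * ip s d) ≤ (8 * k * n / ε) ^ 2 := by
      have h16 := sq_le_sq' (abs_le.1 h11).1 (abs_le.1 h11).2
      nlinarith [sq_nonneg (ip d a - κ * ip s d - (ip s b - κ' * ip s d))]
    have h17 : (F.sq s / n + ε ^ 2)⁻¹ * (F.sq d / n + ε ^ 2)⁻¹ ≤ (ε ^ 4)⁻¹ := by
      rw [← mul_inv]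
      refine inv_anti₀ (by positivity) ?_
      nlinarith [mul_nonneg hQs he.le, mul_nonneg hQd he.le, mul_nonneg hQs hQd]
    calc _ = (F.sq s / n + ε ^ 2)⁻¹ * (F.sq d / n + ε ^ 2)⁻¹ *
          ((ip d a - κ * ip s d) * (ip s b - κ' * ip s d)) := by ring
      _ ≤ (F.sq s / n + ε ^ 2)⁻¹ * (F.sq d / n + ε ^ 2)⁻¹ * (8 * k * n / ε) ^ 2 := by gcongr
      _ ≤ (ε ^ 4)⁻¹ * (8 * k * n / ε) ^ 2 := by gcongr
      _ = _ := by ring
  have h18 : 25 * k / ε ^ 4 ≤ 25 * k / ε ^ 6 := by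
    refine div_le_div_of_nonneg_left (by positivity) (by positivity) ?_
    exact pow_le_pow_of_le_one hε.le hε1 (by norm_num)
  rw [div_le_iff₀ hn']
  calc _ ≤ k * n * (25 * n / ε ^ 4) + (8 * k * n / ε) ^ 2 / ε ^ 4 := add_le_add h7 h8
    _ = n * (25 * k / ε ^ 4 + 64 * k ^ 2 / ε ^ 6) * n := by field_simp; ring
    _ ≤ n * (25 * k / ε ^ 6 + 64 * k ^ 2 / ε ^ 6) * n := by gcongr
    _ = _ := by ring

theorem pre_le (hε : 0 < ε) {P Q c k : ℝ} (hP : 0 ≤ P) (hQ : 0 ≤ Q) (hc : |c| ≤ k)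
    (hk : 2 * k ^ 2 ≤ ε ^ 4) :
    √(ε ^ 4 / ((P + ε ^ 2) * (Q + ε ^ 2) - c ^ 2)) ≤
      √(ε ^ 2 / (P + ε ^ 2)) * √(ε ^ 2 / (Q + ε ^ 2)) * Real.exp (k ^ 2 / ε ^ 4) := by
  have he := pow_pos hε 2
  have h4 := pow_pos hε 4
  have h1 : c ^ 2 ≤ k ^ 2 := sq_le_sq' (abs_le.1 hc).1 (abs_le.1 hc).2
  have h2 : ε ^ 4 ≤ (P + ε ^ 2) * (Q + ε ^ 2) := by
    nlinarith [mul_nonneg hP he.le, mul_nonneg hQ he.le, mul_nonneg hP hQ]
  rw [← Real.sqrt_mul (by positivity), ← Real.sqrt_sq (Real.exp_pos _).le,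
    ← Real.sqrt_mul (by positivity)]
  refine Real.sqrt_le_sqrt ?_
  have h3 : 1 + 2 * (k ^ 2 / ε ^ 4) ≤ Real.exp (k ^ 2 / ε ^ 4) ^ 2 := by
    rw [← Real.exp_nat_mul]
    push_cast
    linarith [Real.add_one_le_exp (2 * (k ^ 2 / ε ^ 4))]
  refine le_trans ?_ (mul_le_mul_of_nonneg_left h3 (by positivity))
  obtain ⟨x, hx⟩ : ∃ x, x = k ^ 2 / ε ^ 4 := ⟨_, rfl⟩
  have h5 : k ^ 2 = x * ε ^ 4 := by rw [hx]; field_simp
  have h6 : 0 ≤ x := by rw [hx]; positivity
  have h7 : x ≤ 1 / 2 := by rw [hx, div_le_iff₀ h4]; linarith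
  rw [← hx, div_mul_div_comm, ← pow_add, div_mul_eq_mul_div]
  generalize (P + ε ^ 2) * (Q + ε ^ 2) = D at *
  have h8 : c ^ 2 ≤ x * D := by nlinarith
  have hD : 0 < D := by linarith
  rw [div_le_div_iff₀ (by nlinarith) hD, mul_assoc]
  refine mul_le_mul_of_nonneg_left ?_ h4.le
  nlinarith [mul_nonneg (mul_nonneg h6 hD.le) (sub_nonneg.2 h7)]

variable {W : ℝ → ℝ}

theorem Typ.mono {k k' : ℝ} {z : Vec n} (h : Typ k ε th W z) (hk : k ≤ k') : Typ k' ε th W z :=
  ⟨h.1.trans hk, h.2.1.trans hk, h.2.2.trans hk⟩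

theorem typ_sq (hn : 0 < n) (hl : |lam| ≤ 2) (hk : kap ≤ 1 / 4) {z : Vec n}
    (h : Typ kap ε th W z) : F.sq (W ∘ z) ≤ 5 / 4 * n ∧ F.sq (z + lam • W ∘ z) ≤ 25 / 2 * n := by
  have hn' : (0 : ℝ) < n := Nat.cast_pos.2 hn
  have h1 : F.sq z / n ≤ 5 / 4 := by linarith [(abs_le.1 h.1).2]
  have h2 : F.sq (W ∘ z) / n ≤ 5 / 4 := by linarith [(abs_le.1 h.2.2).2, sq_nonneg ε]
  rw [div_le_iff₀ hn'] at h1 h2
  refine ⟨h2, ?_⟩
  have h3 := sqN_nonneg (z - lam • W ∘ z)
  have h4 : lam ^ 2 ≤ 2 ^ 2 := sq_le_sq' (abs_le.1 hl).1 (abs_le.1 hl).2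
  rw [sq_sub', sq_smul'] at h3
  rw [sq_add', sq_smul']
  nlinarith [mul_le_mul h4 h2 (sqN_nonneg _) (by norm_num)]

/-- the pair integral of two typical vectors -/
theorem pair_typ (hA : GoeFam A) (hn : 0 < n) (hε : 0 < ε) (hε1 : ε ≤ 1) (hl : |lam| ≤ 2)
    (hk0 : 0 ≤ kap) (hk : kap ≤ 1 / 4) (hk2 : 2 * kap ^ 2 ≤ ε ^ 4) {z y : Vec n}
    (hz : Typ kap ε th W z) (hy : Typ kap ε th W y) :
    ∫ ω, L1 ε (goeM A ω) (W ∘ z) (z + lam • W ∘ z) * L1 ε (goeM A ω) (W ∘ y) (y + lam • W ∘ y)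
      ∂gpi ι ≤ (1 + 3 / ε ^ 2) * (ε ^ n * Real.exp (n * (Sm2.gE ε lam 1 th (1 - ε ^ 2) -
        lam ^ 2 / 2))) ^ 2 * Real.exp (n * pairE ε lam th W z y) *
          Real.exp (n * ((25 * kap + 65 * kap ^ 2) / ε ^ 6)) := by
  have hn' : (0 : ℝ) < n := Nat.cast_pos.2 hn
  have he := pow_pos hε 2
  have h2 : (√2)⁻¹ * (√2)⁻¹ = 1 / 2 := by
    rw [← mul_inv, Real.mul_self_sqrt (by norm_num), one_div]
  have h2' : (√2)⁻¹ ^ 2 = 1 / 2 := by rw [pow_two, h2]
  simp_rw [pair_pm _ (W ∘ z) (W ∘ y)]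
  refine (pair_dec hA hn hε _ _ _ _).trans ?_
  obtain ⟨z1, z2⟩ := typ_sq hn hl hk hz
  obtain ⟨y1, y2⟩ := typ_sq hn hl hk hy
  have e1 : (√2)⁻¹ • (z + lam • W ∘ z + (y + lam • W ∘ y)) =
      (√2)⁻¹ • (z + y) + lam • (√2)⁻¹ • (W ∘ z + W ∘ y) := by
    funext i; simp only [Pi.smul_apply, Pi.add_apply, smul_eq_mul]; ring
  have e2 : (√2)⁻¹ • (z + lam • W ∘ z - (y + lam • W ∘ y)) =
      (√2)⁻¹ • (z - y) + lam • (√2)⁻¹ • (W ∘ z - W ∘ y) := by
    funext i; simp only [Pi.smul_apply, Pi.add_apply, Pi.sub_apply, smul_eq_mul]; ring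
  have par : ∀ u v : Vec n, F.sq ((√2)⁻¹ • (u + v)) ≤ F.sq u + F.sq v ∧
      F.sq ((√2)⁻¹ • (u - v)) ≤ F.sq u + F.sq v := fun u v => by
    have h3 := sqN_nonneg (u + v)
    have h4 := sqN_nonneg (u - v)
    rw [sq_smul', sq_smul', h2']
    rw [sq_add'] at h3 ⊢
    rw [sq_sub'] at h4 ⊢
    constructor <;> linarith
  have c0 : |ip ((√2)⁻¹ • (W ∘ z + W ∘ y)) ((√2)⁻¹ • (W ∘ z - W ∘ y))| ≤ kap * n := by
    rw [ip_smul_left, ip_smul_right, ← mul_assoc, h2, ip_add_left, ip_sub_right, ip_sub_right,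
      ipN_self, ipN_self, ipN_comm (W ∘ y)]
    have h5 := abs_le.1 hz.2.2
    have h6 := abs_le.1 hy.2.2
    have h7 : |(F.sq (W ∘ z) - F.sq (W ∘ y)) / 2 / n| ≤ kap := by
      rw [div_right_comm, sub_div, abs_le]
      constructor <;> linarith
    rw [abs_div, abs_of_pos hn', div_le_iff₀ hn'] at h7
    refine le_of_eq_of_le (congrArg abs ?_) h7
    ring
  have c1 : |ip ((√2)⁻¹ • (W ∘ z - W ∘ y)) ((√2)⁻¹ • (z + lam • W ∘ z + (y + lam • W ∘ y))) +
      ip ((√2)⁻¹ • (W ∘ z + W ∘ y)) ((√2)⁻¹ • (z + lam • W ∘ z - (y + lam • W ∘ y)))| ≤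
      6 * kap * n := by
    simp only [ip_smul_left, ip_smul_right, ip_add_left, ip_sub_left,
      ip_add_right, ip_sub_right, ipN_self]
    have h5 := abs_le.1 hz.2.1
    have h6 := abs_le.1 hy.2.1
    have h7 : |F.sq (W ∘ z) / n - F.sq (W ∘ y) / n| ≤ 2 * kap := by
      have h8 := abs_le.1 hz.2.2
      have h9 := abs_le.1 hy.2.2
      rw [abs_le]
      constructor <;> linarith
    have h8 : |lam * (F.sq (W ∘ z) / n - F.sq (W ∘ y) / n)| ≤ 2 * (2 * kap) := by
      rw [abs_mul]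
      exact mul_le_mul hl h7 (abs_nonneg _) (by norm_num)
    have h9 := abs_le.1 h8
    have h10 : |(ip z (W ∘ z) - ip y (W ∘ y) + lam * (F.sq (W ∘ z) - F.sq (W ∘ y))) / n| ≤
        6 * kap := by
      rw [add_div, sub_div, mul_div_assoc, sub_div, abs_le]
      constructor <;> linarith
    rw [abs_div, abs_of_pos hn', div_le_iff₀ hn'] at h10
    rw [ipN_comm (W ∘ z) z, ipN_comm (W ∘ y) y]
    refine le_of_eq_of_le (congrArg abs ?_) h10
    linear_combination (2 * (ip z (W ∘ z) - ip y (W ∘ y) +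
      lam * (F.sq (W ∘ z) - F.sq (W ∘ y)))) * h2
  have c2 := err_le hn hε hε1 hk0 c0 c1 ((par _ _).1.trans (by linarith))
    ((par _ _).2.trans (by linarith))
  have c3 : |ip ((√2)⁻¹ • (W ∘ z + W ∘ y)) ((√2)⁻¹ • (W ∘ z - W ∘ y)) / n| ≤ kap := by
    rwa [abs_div, abs_of_pos hn', div_le_iff₀ hn']
  have p1 := (par (W ∘ z) (W ∘ y)).1
  have p2 := (par (W ∘ z) (W ∘ y)).2
  have q1 := ex1_eq (lam := lam) hn hε ((√2)⁻¹ • (z + y)) ((√2)⁻¹ • (W ∘ z + W ∘ y))
  have q2 := ex1_eq (lam := lam) hn hε ((√2)⁻¹ • (z - y)) ((√2)⁻¹ • (W ∘ z - W ∘ y))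
  rw [← e1] at q1
  rw [← e2] at q2
  have g1 : ∀ u : Vec n, F.sq ((√2)⁻¹ • u) / n = F.sq u / (2 * n) := fun u => by
    rw [sq_smul', h2']; ring
  have g2 : ∀ u v : Vec n, ip ((√2)⁻¹ • u) ((√2)⁻¹ • v) / n = ip u v / (2 * n) := fun u v => by
    rw [ip_smul_left, ip_smul_right, ← mul_assoc, h2]; ring
  have q3 : Sm2.gE ε lam (F.sq ((√2)⁻¹ • (z + y)) / n)
      (ip ((√2)⁻¹ • (z + y)) ((√2)⁻¹ • (W ∘ z + W ∘ y)) / n)
      (F.sq ((√2)⁻¹ • (W ∘ z + W ∘ y)) / n) + Sm2.gE ε lam (F.sq ((√2)⁻¹ • (z - y)) / n)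
      (ip ((√2)⁻¹ • (z - y)) ((√2)⁻¹ • (W ∘ z - W ∘ y)) / n)
      (F.sq ((√2)⁻¹ • (W ∘ z - W ∘ y)) / n) =
      pairE ε lam th W z y + 2 * Sm2.gE ε lam 1 th (1 - ε ^ 2) := by
    simp only [g1, g2, pairE]
    ring
  generalize (√2)⁻¹ • (W ∘ z + W ∘ y) = s at *
  generalize (√2)⁻¹ • (W ∘ z - W ∘ y) = d at *
  generalize (√2)⁻¹ • (z + lam • W ∘ z + (y + lam • W ∘ y)) = a at *
  generalize (√2)⁻¹ • (z + lam • W ∘ z - (y + lam • W ∘ y)) = b at *
  have hs : 0 ≤ F.sq s / n := div_nonneg (sqN_nonneg s) hn'.le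
  have hd : 0 ≤ F.sq d / n := div_nonneg (sqN_nonneg d) hn'.le
  have c4 := pre_le hε hs hd c3 hk2
  have c5 : √((1 + F.sq s / n / ε ^ 2) * (1 + F.sq d / n / ε ^ 2)) ≤ 1 + 3 / ε ^ 2 := by
    have h3 : F.sq s / n ≤ 3 := by rw [div_le_iff₀ hn']; linarith
    have h4 : F.sq d / n ≤ 3 := by rw [div_le_iff₀ hn']; linarith
    rw [Real.sqrt_le_left (by positivity), pow_two (1 + _)]
    gcongr
  have c6 : kap ^ 2 / ε ^ 4 ≤ kap ^ 2 / ε ^ 6 :=
    div_le_div_of_nonneg_left (by positivity) (by positivity)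
      (pow_le_pow_of_le_one hε.le hε1 (by norm_num))
  calc _ ≤ (1 + 3 / ε ^ 2) * (√(ε ^ 2 / (F.sq s / n + ε ^ 2)) * √(ε ^ 2 / (F.sq d / n + ε ^ 2)) *
        Real.exp (kap ^ 2 / ε ^ 6)) ^ n * Real.exp (ex1 ε s a + ex1 ε d b +
          n * ((25 * kap + 64 * kap ^ 2) / ε ^ 6)) := by
        gcongr
        exact c4.trans (by gcongr)
    _ = (1 + 3 / ε ^ 2) * ((√(ε ^ 2 / (F.sq s / n + ε ^ 2)) ^ n * Real.exp (ex1 ε s a)) *
        (√(ε ^ 2 / (F.sq d / n + ε ^ 2)) ^ n * Real.exp (ex1 ε d b))) *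
        Real.exp (n * (kap ^ 2 / ε ^ 6) + n * ((25 * kap + 64 * kap ^ 2) / ε ^ 6)) := by
        rw [mul_pow, mul_pow, ← Real.exp_nat_mul, Real.exp_add, Real.exp_add, Real.exp_add]
        ring
    _ = _ := by
        rw [q1, q2, mul_pow, ← Real.exp_nat_mul]
        have hx : ∀ {K e a b c d f g : ℝ}, a + b + c = d + f + g →
            K * (e * Real.exp a * (e * Real.exp b)) * Real.exp c =
              K * (e ^ 2 * Real.exp d) * Real.exp f * Real.exp g := by
          intro K e a b c d f g h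
          have : Real.exp a * Real.exp b * Real.exp c = Real.exp d * Real.exp f * Real.exp g := by
            simp only [← Real.exp_add, h]
          linear_combination K * e ^ 2 * this
        refine hx ?_
        push_cast
        linear_combination n * q3

theorem gE_cont (lam th ε : ℝ) {d : ℝ} (hd : 0 < d) : ∃ k : ℝ, 0 < k ∧ ∀ X p Q : ℝ, |X - 1| ≤ k →
    |p - th| ≤ k → |Q - (1 - ε ^ 2)| ≤ k → ε ^ 2 ≤ 1 →
      Sm2.gE ε lam 1 th (1 - ε ^ 2) - d ≤ Sm2.gE ε lam X p Q := by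
  by_cases he : ε ^ 2 ≤ 1
  swap
  · exact ⟨1, one_pos, fun _ _ _ _ _ _ h => absurd h he⟩
  have hc : ContinuousAt (fun x : ℝ × ℝ × ℝ => Sm2.gE ε lam x.1 x.2.1 x.2.2) (1, th, 1 - ε ^ 2) := by
    unfold Sm2.gE
    refine ((continuousAt_const.mul (ContinuousAt.log (by fun_prop) (by simp))).sub
      (ContinuousAt.div (by fun_prop) (by fun_prop) (by simp))).add
      (ContinuousAt.div (by fun_prop) (by fun_prop) ?_)
    have : 0 < 2 * (1 - ε ^ 2) + ε ^ 2 := by linarith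
    simp only [sub_add_cancel, mul_one]
    positivity
  obtain ⟨k, hk, h⟩ := Metric.continuousAt_iff.1 hc d hd
  refine ⟨k / 2, half_pos hk, fun X p Q h1 h2 h3 _ => ?_⟩
  have h4 := @h (X, p, Q) (by
    simp only [Prod.dist_eq, Real.dist_eq, max_lt_iff]
    exact ⟨by linarith, by linarith, by linarith⟩)
  rw [Real.dist_eq] at h4
  linarith [(abs_lt.1 h4).1]

theorem lln {f : ℝ → ℝ} (hf : MemLp f 2 gam) {k η : ℝ} (hk : 0 < k) (hη : 0 < η) :
    ∀ᶠ n : ℕ in atTop, (gpi (Fin n)).real {z | k < |(∑ i, f (z i)) / n - ∫ x, f x ∂gam|} ≤ η := by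
  filter_upwards [eventually_gt_atTop 0,
    tendsto_natCast_atTop_atTop.eventually_ge_atTop (Var[f; gam] / (k ^ 2 * η))] with n hn h
  have hn' : (0 : ℝ) < n := Nat.cast_pos.2 hn
  have hp := fun i : Fin n => measurePreserving_eval (fun _ : Fin n => gam) i
  have h1 : MemLp (fun z : Vec n => ∑ i, f (z i)) 2 (gpi (Fin n)) :=
    memLp_finsetSum _ fun i _ => hf.comp_measurePreserving (hp i)
  have h2 := variance_sum_pi (μ := fun _ : Fin n => gam) (X := fun _ => f) fun _ => hf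
  have e : (∑ i : Fin n, fun z : Vec n => f (z i)) = fun z : Vec n => ∑ i, f (z i) := by
    funext z; simp
  rw [e] at h2
  have h3 : ∫ z, ∑ i, f (z i) ∂gpi (Fin n) = n * ∫ x, f x ∂gam := by
    have i1 : ∀ i : Fin n, Integrable (fun z : Vec n => f (z i)) (gpi (Fin n)) := fun i =>
      (hf.comp_measurePreserving (hp i)).integrable one_le_two
    rw [integral_finsetSum _ fun i _ => i1 i]
    have : ∀ i : Fin n, ∫ z : Vec n, f (z i) ∂gpi (Fin n) = ∫ x, f x ∂gam := fun i => by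
      rw [← (hp i).map_eq, integral_map (hp i).measurable.aemeasurable
        (by rw [(hp i).map_eq]; exact hf.aestronglyMeasurable)]
    simp [this]
  have h4 := meas_ge_le_variance_div_sq h1 (c := k * n) (by positivity)
  rw [h3] at h4
  have h5 : Var[fun z : Vec n => ∑ i, f (z i); gpi (Fin n)] / (k * n) ^ 2 ≤ η := by
    have h6 : Var[fun z : Vec n => ∑ i, f (z i); gpi (Fin n)] = n * Var[f; gam] := by
      simpa using h2
    rw [div_le_iff₀ (by positivity)] at h ⊢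
    rw [h6]
    nlinarith
  refine ENNReal.toReal_le_of_le_ofReal hη.le (le_trans (measure_mono fun z hz => ?_)
    (h4.trans (ENNReal.ofReal_le_ofReal h5)))
  have h7 : k < |(∑ i, f (z i) - n * ∫ x, f x ∂gam) / n| := by
    rw [sub_div, mul_div_cancel_left₀ _ hn'.ne']
    exact hz
  rw [abs_div, abs_of_pos hn', lt_div_iff₀ hn'] at h7
  exact h7.le

theorem int_avg {f : ℝ → ℝ} (hf : Integrable f gam) :
    Integrable (fun z : Vec n => ∑ i, f (z i)) (gpi (Fin n)) ∧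
      ∫ z, ∑ i, f (z i) ∂gpi (Fin n) = n * ∫ x, f x ∂gam := by
  have hp := fun i : Fin n => measurePreserving_eval (fun _ : Fin n => gam) i
  have i1 : ∀ i : Fin n, Integrable (fun z : Vec n => f (z i)) (gpi (Fin n)) := fun i =>
    (hp i).integrable_comp_of_integrable hf
  refine ⟨integrable_finsetSum _ fun i _ => i1 i, ?_⟩
  rw [integral_finsetSum _ fun i _ => i1 i]
  have : ∀ i : Fin n, ∫ z : Vec n, f (z i) ∂gpi (Fin n) = ∫ x, f x ∂gam := fun i => by
    rw [← (hp i).map_eq, integral_map (hp i).measurable.aemeasurable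
      (by rw [(hp i).map_eq]; exact hf.aestronglyMeasurable)]
  simp [this]

/-- the weak law of large numbers for integrable site functions -/
theorem wlln {f : ℝ → ℝ} (hf : Integrable f gam) {k η : ℝ} (hk : 0 < k) (hη : 0 < η) :
    ∀ᶠ n : ℕ in atTop, (gpi (Fin n)).real {z | k < |(∑ i, f (z i)) / n - ∫ x, f x ∂gam|} ≤ η := by
  obtain ⟨g, hg, ig⟩ := hf.exists_boundedContinuous_integral_sub_le
    (ε := k / 3 * min 1 (η / 2)) (by positivity)
  have hg2 : MemLp g 2 gam := g.memLp_top.mono_exponent le_top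
  have i1 : Integrable (fun x => ‖f x - g x‖) gam := (hf.sub ig).norm
  have h1 : |∫ x, g x ∂gam - ∫ x, f x ∂gam| ≤ k / 3 := by
    rw [abs_sub_comm, ← integral_sub hf ig]
    refine (norm_integral_le_integral_norm fun x => f x - g x).trans (hg.trans ?_)
    exact mul_le_of_le_one_right (by positivity) (min_le_left _ _)
  filter_upwards [eventually_gt_atTop 0, lln hg2 (k := k / 3) (by positivity) (half_pos hη)]
    with n hn h2
  have hn' : (0 : ℝ) < n := Nat.cast_pos.2 hn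
  obtain ⟨i2, e2⟩ := int_avg (n := n) i1
  have h3 := mul_meas_ge_le_integral_of_nonneg
    (ae_of_all _ fun z => Finset.sum_nonneg fun i _ => norm_nonneg _) i2 (k / 3 * n)
  have h4 : (gpi (Fin n)).real {z | k / 3 * n ≤ ∑ i, ‖f (z i) - g (z i)‖} ≤ η / 2 := by
    rw [e2] at h3
    have h5 : (n : ℝ) * ∫ x, ‖f x - g x‖ ∂gam ≤ k / 3 * n * (η / 2) := by
      have := hg.trans (mul_le_mul_of_nonneg_left (min_le_right _ _) (by positivity))
      nlinarith
    exact le_of_mul_le_mul_left (h3.trans h5) (by positivity)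
  refine le_trans (measureReal_mono fun z hz => ?_) ((measureReal_union_le _ _).trans
    ((add_le_add h2 h4).trans (by linarith)))
  by_contra hc
  simp only [Set.mem_union, Set.mem_ofPred_eq, not_or, not_lt, not_le] at hc hz
  have h5 : |(∑ i, f (z i)) / n - (∑ i, g (z i)) / n| ≤ k / 3 := by
    rw [← sub_div, ← Finset.sum_sub_distrib, abs_div, abs_of_pos hn', div_le_iff₀ hn']
    exact (Finset.abs_sum_le_sum_abs _ _).trans hc.2.le
  have h6 := abs_le.1 hc.1
  have h7 := abs_le.1 h1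
  have h8 := abs_le.1 h5
  exact absurd hz (not_lt.2 (abs_le.2 ⟨by linarith, by linarith⟩))

theorem typF_whp {J : ℕ} {f : Fin J → ℝ → ℝ} (hf : ∀ j, Integrable (f j) gam) {η : ℝ}
    (hk : 0 < kap) (hη : 0 < η) :
    ∀ᶠ n : ℕ in atTop, (gpi (Fin n)).real {z | ¬ TypF kap f z} ≤ η := by
  have h1 : 0 < η / (J + 1) := by positivity
  filter_upwards [eventually_all.2 fun j => wlln (hf j) hk h1] with n h
  have e : {z : Vec n | ¬ TypF kap f z} =
      ⋃ j, {z | kap < |(∑ i, f j (z i)) / n - ∫ x, f j x ∂gam|} := by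
    ext z
    simp [TypF]
  rw [e]
  refine (measureReal_iUnion_fintype_le _).trans ((Finset.sum_le_sum fun j _ => h j).trans ?_)
  rw [Finset.sum_const, Finset.card_univ, Fintype.card_fin, nsmul_eq_mul, ← mul_div_assoc,
    div_le_iff₀ (by positivity)]
  nlinarith

theorem measurableSet_typF {J : ℕ} {f : Fin J → ℝ → ℝ} (hf : ∀ j, Measurable (f j)) :
    MeasurableSet {z : Vec n | TypF kap f z} := by
  have e : {z : Vec n | TypF kap f z} =
      ⋂ j, {z | |(∑ i, f j (z i)) / n - ∫ x, f j x ∂gam| ≤ kap} := by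
    ext z
    simp [TypF]
  rw [e]
  exact MeasurableSet.iInter fun j => measurableSet_le ((((Finset.measurable_fun_sum _ fun i _ =>
    (hf j).comp (measurable_pi_apply i)).div_const _).sub_const _).abs) measurable_const

theorem memLp_sq {f g : ℝ → ℝ} {L M : ℝ} (hf : Continuous f) (hg : Continuous g)
    (h1 : ∀ x, |f x| ≤ L * |x|) (h2 : ∀ x, |g x| ≤ M * |x|) :
    MemLp (fun x => f x * g x) 2 gam := by
  have h4 : MemLp (fun x : ℝ => x) 4 gam := memLp_id_gaussianReal 4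
  have : ENNReal.HolderTriple 4 4 2 := ⟨by
    rw [← two_mul, show (4 : ℝ≥0∞) = 2 * 2 by norm_num,
      ENNReal.mul_inv (by simp) (by simp), ← mul_assoc, ENNReal.mul_inv_cancel (by simp) (by simp),
      one_mul]⟩
  exact (h4.of_le_mul hg.aestronglyMeasurable (ae_of_all _ h2)).mul'
    (h4.of_le_mul hf.aestronglyMeasurable (ae_of_all _ h1))

/-- typical vectors are likely -/
theorem typ_whp {L η : ℝ} (hW : Continuous W) (hL : ∀ x, |W x| ≤ L * |x|)
    (hth : ∫ z, z * W z ∂gam = th) (hQ : ∫ z, W z ^ 2 ∂gam = 1 - ε ^ 2) (hk : 0 < kap)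
    (hη : 0 < η) : ∀ᶠ n : ℕ in atTop, (gpi (Fin n)).real {z | ¬ Typ kap ε th W z} ≤ η := by
  have h1 : ∀ x : ℝ, |x| ≤ 1 * |x| := fun x => by rw [one_mul]
  have h3 : 0 < η / 3 := by positivity
  have e : ∫ x, x ^ 2 ∂gam = 1 := by
    have := variance_id_gaussianReal (μ := 0) (v := 1)
    rw [variance_of_integral_eq_zero measurable_id.aemeasurable (by simp)] at this
    simpa using this
  filter_upwards [lln (memLp_sq continuous_id continuous_id h1 h1) hk h3,
    lln (memLp_sq continuous_id hW h1 hL) hk h3, lln (memLp_sq hW hW hL hL) hk h3] with n a b c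
  simp only [id, e, hth, ← pow_two, hQ] at a b c
  refine le_trans (measureReal_mono fun z hz => ?_) ((measureReal_union_le _ _).trans
    ((add_le_add ((measureReal_union_le _ _).trans (add_le_add a b)) c).trans (by linarith)))
  by_contra hc
  simp only [Set.mem_union, Set.mem_ofPred_eq, not_or, not_lt] at hc
  exact hz ⟨hc.1.1, hc.1.2, hc.2⟩

theorem continuous_comp (hW : Continuous W) : Continuous fun z : Vec n => W ∘ z :=
  continuous_pi fun i => hW.comp (continuous_apply i)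

theorem measurableSet_typ (hW : Continuous W) : MeasurableSet {z : Vec n | Typ kap ε th W z} := by
  have h1 := continuous_comp (n := n) hW
  have h2 : Continuous fun z : Vec n => ip z (W ∘ z) :=
    continuous_finsetSum _ fun i _ => (continuous_apply i).mul (hW.comp (continuous_apply i))
  refine IsClosed.measurableSet (IsClosed.and ?_ (IsClosed.and ?_ ?_))
  · exact isClosed_le (by fun_prop) continuous_const
  · exact isClosed_le ((h2.div_const _).sub continuous_const).abs continuous_const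
  · exact isClosed_le (((continuous_sq.comp h1).div_const _).sub continuous_const).abs
      continuous_const

theorem ms_LE (hW : Continuous W) (A : ι → Mat n) : Measurable fun p : Vec n × (ι → ℝ) =>
    L1 ε (goeM A p.2) (W ∘ p.1) (p.1 + lam • W ∘ p.1) / E1 ε (W ∘ p.1) (p.1 + lam • W ∘ p.1) := by
  have h1 : Continuous fun p : Vec n × (ι → ℝ) => W ∘ p.1 := (continuous_comp hW).comp continuous_fst
  have h2 : Continuous fun p : Vec n × (ι → ℝ) => p.1 + lam • W ∘ p.1 :=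
    continuous_fst.add (h1.const_smul lam)
  have h3 : Continuous fun p : Vec n × (ι → ℝ) => goeM A p.2 *ᵥ (W ∘ p.1) :=
    ((continuous_goeM A).comp continuous_snd).matrix_mulVec h1
  have h4 : Measurable fun p : Vec n × (ι → ℝ) => F.sq (W ∘ p.1) / n :=
    (continuous_sq.comp h1).measurable.div_const _
  have h5 : Measurable fun p : Vec n × (ι → ℝ) => F.sq (p.1 + lam • W ∘ p.1) :=
    (continuous_sq.comp h2).measurable
  have h6 : Measurable fun p : Vec n × (ι → ℝ) =>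
      F.sq (goeM A p.2 *ᵥ (W ∘ p.1) - (p.1 + lam • W ∘ p.1)) :=
    (continuous_sq.comp (h3.sub h2)).measurable
  have h7 : Measurable fun p : Vec n × (ι → ℝ) => ip (W ∘ p.1) (p.1 + lam • W ∘ p.1) :=
    (continuous_finsetSum _ fun i _ => ((continuous_apply i).comp h1).mul
      ((continuous_apply i).comp h2)).measurable
  have h8 := h4.add_const (ε ^ 2)
  have h9 := (h4.const_mul 2).add_const (ε ^ 2)
  exact (h6.neg.div_const _).exp.div ((((measurable_const.div h8).sqrt.pow_const n).mul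
    (h8.div h9).sqrt).mul ((h5.neg.div (h8.const_mul 2)).add
      ((h7.pow_const 2).div ((h8.const_mul _).mul h9))).exp)

/-- the planted probability of `E` -/
theorem one_typ (hA : GoeFam A) (hn : 2 ≤ n) (hε : 0 < ε) (hε1 : ε ≤ 1 / 2) (hl : |lam| ≤ 2)
    (hk : kap ≤ 1 / 4) {z : Vec n} (hz : Typ kap ε th W z) {G : Set (Mat n)}
    (hG : MeasurableSet (toM ⁻¹' G))
    (h1 : 1 / 2 ≤ (gpi ι).real {ω | Pm (W ∘ z) * goeM A ω * (Pm (W ∘ z))ᵀ ∈ G})
    {E : Set (ι → ℝ)} (hE : MeasurableSet E)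
    (h2 : ∀ ω, Pm (W ∘ z) * goeM A ω * (Pm (W ∘ z))ᵀ ∈ G →
      F.sq (goeM A ω *ᵥ (W ∘ z) - (z + lam • W ∘ z)) ≤ 40 * ε ^ 2 * n → ω ∈ E) :
    ENNReal.ofReal (E1 ε (W ∘ z) (z + lam • W ∘ z) / 4) ≤
      ∫⁻ ω in E, ENNReal.ofReal (L1 ε (goeM A ω) (W ∘ z) (z + lam • W ∘ z)) ∂gpi ι := by
  have hn0 : 0 < n := by omega
  have hn' : (2 : ℝ) ≤ n := by exact_mod_cast hn
  have he := pow_pos hε 2
  have he1 : ε ^ 2 ≤ 1 / 4 := by nlinarith
  have hQ : 1 / 2 ≤ F.sq (W ∘ z) / n := by linarith [(abs_le.1 hz.2.2).1]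
  have hm : 0 < F.sq (W ∘ z) := by
    rw [le_div_iff₀ (by positivity)] at hQ
    linarith
  have ha := (typ_sq hn0 hl hk hz).2
  generalize z + lam • W ∘ z = a at *
  generalize W ∘ z = m at *
  have h3 := tail hA hn0 hε hm a (40 * ε ^ 2 * n)
  have h4 : √2 ^ (n + 1) * Real.exp (F.sq a * ε ^ 2 / (2 * (F.sq m / n) ^ 2) -
      40 * ε ^ 2 * n / (4 * ε ^ 2)) ≤ 1 / 4 := by
    have h5 : F.sq a * ε ^ 2 / (2 * (F.sq m / n) ^ 2) ≤ 25 / 2 * n * (1 / 4) / (2 * (1 / 2) ^ 2) := by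
      gcongr
    have h6 : 40 * ε ^ 2 * n / (4 * ε ^ 2) = 10 * n := by field_simp; ring
    have h7 : √2 ≤ Real.exp 1 := by
      rw [Real.sqrt_le_left (by positivity)]
      nlinarith [Real.add_one_le_exp 1]
    have h8 : Real.exp (-3) ≤ 1 / 4 := by
      rw [Real.exp_neg, inv_le_comm₀ (by positivity) (by norm_num)]
      linarith [Real.add_one_le_exp 3]
    refine le_trans (mul_le_mul_of_nonneg_right (pow_le_pow_left₀ (by positivity) h7 _)
      (Real.exp_pos _).le) (le_trans ?_ h8)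
    rw [← Real.exp_nat_mul, ← Real.exp_add, h6]
    refine Real.exp_le_exp.2 ?_
    push_cast
    generalize F.sq a * ε ^ 2 / (2 * (F.sq m / n) ^ 2) = x at *
    norm_num at h5
    linarith
  have hE1 := E1_pos hε m a
  have h5 := plant_mul hA hn0 hε (Pm_self hm.ne') a (G := G.indicator 1)
    (measurable_one.indicator hG)
  set S := {ω : ι → ℝ | Pm m * goeM A ω * (Pm m)ᵀ ∈ G} with hS
  have hSm : MeasurableSet S := by
    have e : S = (fun ω => flat (fun i => Pm m * A i * (Pm m)ᵀ) *ᵥ ω) ⁻¹' (toM ⁻¹' G) := by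
      ext ω
      simp only [hS, Set.mem_ofPred_eq, Set.mem_preimage, toM_flat, goeM_conj]
    rw [e]
    exact measurable_matVec _ hG
  have h6 : ∫⁻ ω, G.indicator (1 : Mat n → ℝ≥0∞) (Pm m * goeM A ω * (Pm m)ᵀ) ∂gpi ι = gpi ι S :=
    lintegral_indicator_one hSm
  set B := {ω : ι → ℝ | 40 * ε ^ 2 * n ≤ F.sq (goeM A ω *ᵥ m - a)} with hB
  have hBm : MeasurableSet B := by
    simp_rw [hB, ← Bm_mulVec]
    exact measurableSet_le measurable_const
      (continuous_sq.measurable.comp ((measurable_matVec _).sub_const a))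
  have h7 : ∫⁻ ω in B, ENNReal.ofReal (L1 ε (goeM A ω) m a) ∂gpi ι ≤
      ENNReal.ofReal (E1 ε m a / 4) := by
    rw [← ofReal_integral_eq_lintegral_ofReal (int_L1 A m a).integrableOn
      (ae_of_all _ fun _ => (L1_pos _ _ _).le)]
    refine ENNReal.ofReal_le_ofReal (h3.trans ?_)
    linarith [mul_le_mul_of_nonneg_left h4 hE1.le]
  have h8 : ENNReal.ofReal (E1 ε m a / 4) + ENNReal.ofReal (E1 ε m a / 4) ≤
      ∫⁻ ω in E, ENNReal.ofReal (L1 ε (goeM A ω) m a) ∂gpi ι +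
        ∫⁻ ω in B, ENNReal.ofReal (L1 ε (goeM A ω) m a) ∂gpi ι := by
    calc _ ≤ ENNReal.ofReal (E1 ε m a) * gpi ι S := by
          rw [← ENNReal.ofReal_add (by positivity) (by positivity),
            ← ofReal_measureReal (measure_ne_top _ S), ← ENNReal.ofReal_mul hE1.le]
          exact ENNReal.ofReal_le_ofReal (by nlinarith)
      _ = _ := by rw [← h6, ← h5]
      _ ≤ _ := by
          rw [← lintegral_indicator hE, ← lintegral_indicator hBm,
            ← lintegral_add_left ((ms_L1 A m a).ennreal_ofReal.indicator hE)]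
          refine lintegral_mono fun ω => ?_
          by_cases h : Pm m * goeM A ω * (Pm m)ᵀ ∈ G
          · rw [Set.indicator_of_mem h, Pi.one_apply, mul_one]
            by_cases hb : ω ∈ B
            · rw [Set.indicator_of_mem hb]
              exact le_add_self
            · rw [Set.indicator_of_mem (h2 ω h (not_le.1 hb).le)]
              exact le_self_add
          · rw [Set.indicator_of_notMem h, mul_zero]
            exact zero_le
  exact ENNReal.le_of_add_le_add_right ENNReal.ofReal_ne_top (h8.trans (add_le_add le_rfl h7))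

/-- **existence of planted solutions** -/
theorem exist_of {L : ℝ} (h : TwoMW ε lam th W) (hW : Continuous W) (hL : ∀ x, |W x| ≤ L * |x|)
    (hth : ∫ z, z * W z ∂gam = th) (hQ : ∫ z, W z ^ 2 ∂gam = 1 - ε ^ 2) (hε : 0 < ε)
    (hε1 : ε ≤ 1 / 2) (hl : |lam| ≤ 2) {del : ℝ} (hd : 0 < del) : ∀ᶠ n : ℕ in atTop,
      ∀ (ι : Type) [Fintype ι] (A : ι → Mat n), GoeFam A → ∀ T : Set (Vec n),
      3 / 4 ≤ (gpi (Fin n)).real T → ∀ E : Set (ι → ℝ), MeasurableSet E →
      (∀ z ∈ T, ∃ G : Set (Mat n), MeasurableSet (toM ⁻¹' G) ∧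
        1 / 2 ≤ (gpi ι).real {ω | Pm (W ∘ z) * goeM A ω * (Pm (W ∘ z))ᵀ ∈ G} ∧
        ∀ ω, Pm (W ∘ z) * goeM A ω * (Pm (W ∘ z))ᵀ ∈ G →
          F.sq (goeM A ω *ᵥ (W ∘ z) - (z + lam • W ∘ z)) ≤ 40 * ε ^ 2 * n → ω ∈ E) →
      Real.exp (-(del * n)) ≤ (gpi ι).real E := by
  have hd4 : 0 < del / 4 := by positivity
  have hd8 : 0 < del / 8 := by positivity
  obtain ⟨k1, C, J, f, hk1, mf, hf, h1⟩ := h _ hd4
  obtain ⟨k2, hk2, h2⟩ := gE_cont lam th ε hd8
  have he := pow_pos hε 2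
  have he1 : ε ^ 2 ≤ 1 := by nlinarith
  have he6 := pow_pos hε 6
  have he4 := pow_pos hε 4
  obtain ⟨k, hk0, hk⟩ : ∃ k : ℝ, 0 < k ∧ k ≤ k1 ∧ k ≤ k2 ∧ k ≤ 1 / 4 ∧ k ≤ ε ^ 4 ∧
      k ≤ del * ε ^ 6 / 360 := ⟨min (min k1 k2) (min (1 / 4) (min (ε ^ 4) (del * ε ^ 6 / 360))),
    by positivity, by simp only [← le_min_iff, min_assoc, le_refl]⟩
  obtain ⟨l1, l2, l3, l4, l5⟩ := hk
  have l6 : (25 * k + 65 * k ^ 2) / ε ^ 6 ≤ del / 4 := by
    rw [div_le_iff₀ he6]
    nlinarith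
  have hK : 0 < 4 * (1 + 3 / ε ^ 2) * (|C| + 1) := by positivity
  filter_upwards [eventually_ge_atTop 2, tendsto_natCast_atTop_atTop.eventually_ge_atTop
    (64 * (4 * (1 + 3 / ε ^ 2) * (|C| + 1)) / (del / 4)),
    typ_whp hW hL hth hQ hk0 (η := 1 / 8) (by norm_num),
    typF_whp hf hk1 (η := 1 / 8) (by norm_num)] with n hn hn2 hw1 hw2 ι _ A hA T₀ hpT E hE hG
  have hn0 : 0 < n := by omega
  set T := {z : Vec n | Typ k ε th W z ∧ TypF k1 f z} with hTd
  have hT : MeasurableSet T := (measurableSet_typ hW).inter (measurableSet_typF mf)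
  have hty : ∀ z ∈ T, Typ k ε th W z := fun z hz => hz.1
  have mL : Measurable (Function.uncurry fun (z : Vec n) (ω : ι → ℝ) => T.indicator
      (fun z => ENNReal.ofReal (L1 ε (goeM A ω) (W ∘ z) (z + lam • W ∘ z) /
        E1 ε (W ∘ z) (z + lam • W ∘ z))) z) :=
    (ms_LE (ε := ε) (lam := lam) hW A).ennreal_ofReal.indicator (measurable_fst hT)
  have h3 := Slow.plant_mix (gpi ι) (gpi (Fin n)) mL hE (a := 1 / 8) (by norm_num)
    (M := 4 * (1 + 3 / ε ^ 2) * (|C| + 1) * Real.exp (3 * (del / 4) * n)) (by positivity) ?_ ?_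
  · refine le_trans ?_ h3
    rw [le_div_iff₀ (by positivity), mul_left_comm, ← Real.exp_add]
    rw [div_le_iff₀ hd4] at hn2
    have h4 := Real.add_one_le_exp (del / 4 * n)
    rw [show -(del * n) + 3 * (del / 4) * n = -(del / 4 * n) by ring, Real.exp_neg,
      ← div_eq_mul_inv, div_le_iff₀ (Real.exp_pos _)]
    linarith
  · have m1 := (Measurable.lintegral_prod_right (ν := (gpi ι).restrict E) mL).aemeasurable
      (μ := gpi (Fin n))
    refine le_trans ?_ (mul_meas_ge_le_lintegral₀ m1 (ENNReal.ofReal (1 / 4)))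
    have h5 : 1 / 2 ≤ (gpi (Fin n)).real (T₀ ∩ T) := by
      have h6 : (gpi (Fin n)).real T₀ ≤ (gpi (Fin n)).real (T₀ ∩ T ∪ {z | ¬ Typ k ε th W z} ∪
          {z | ¬ TypF k1 f z}) := measureReal_mono fun z hz => by
        by_cases a : Typ k ε th W z
        · by_cases b : TypF k1 f z
          · exact Or.inl (Or.inl ⟨hz, a, b⟩)
          · exact Or.inr b
        · exact Or.inl (Or.inr a)
      have h7 := h6.trans ((measureReal_union_le _ _).trans
        (add_le_add (measureReal_union_le _ _) le_rfl))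
      linarith
    refine le_trans ?_ (mul_le_mul_right (measure_mono (s := T₀ ∩ T) fun z ⟨hz0, hz⟩ => ?_) _)
    · rw [← ofReal_measureReal (measure_ne_top _ _), ← ENNReal.ofReal_mul (by norm_num)]
      exact ENNReal.ofReal_le_ofReal (by linarith)
    · obtain ⟨G, g1, g2, g3⟩ := hG z hz0
      have h4 := one_typ hA hn hε hε1 hl l3 (hty z hz) g1 g2 hE g3
      have h5 := E1_pos hε (W ∘ z) (z + lam • W ∘ z)
      simp only [Set.mem_ofPred_eq, Set.indicator_of_mem hz, div_eq_mul_inv (L1 _ _ _ _),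
        ENNReal.ofReal_mul (L1_pos _ _ _).le]
      rw [lintegral_mul_const' _ _ ENNReal.ofReal_ne_top]
      refine le_trans (le_of_eq ?_) (mul_le_mul_left h4 _)
      rw [← ENNReal.ofReal_mul (by positivity)]
      congr 1
      field_simp
  · have hS0 : MeasurableSet {z : Vec n | Typ k1 ε th W z ∧ TypF k1 f z} :=
      (measurableSet_typ hW).inter (measurableSet_typF mf)
    have hS : MeasurableSet {p : Vec n × Vec n | (Typ k1 ε th W p.1 ∧ TypF k1 f p.1) ∧
        (Typ k1 ε th W p.2 ∧ TypF k1 f p.2)} := (measurable_fst hS0).inter (measurable_snd hS0)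
    calc _ ≤ ∫⁻ p in {p : Vec n × Vec n | (Typ k1 ε th W p.1 ∧ TypF k1 f p.1) ∧
          (Typ k1 ε th W p.2 ∧ TypF k1 f p.2)},
          ENNReal.ofReal (4 * (1 + 3 / ε ^ 2) * Real.exp (2 * (del / 4) * n)) *
            ENNReal.ofReal (Real.exp (n * pairE ε lam th W p.1 p.2))
              ∂(gpi (Fin n)).prod (gpi (Fin n)) := by
          rw [← lintegral_indicator hS]
          refine lintegral_mono fun p => ?_
          by_cases hz : p.1 ∈ T
          swap
          · simp [Set.indicator_of_notMem hz]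
          by_cases hy : p.2 ∈ T
          swap
          · simp [Set.indicator_of_notMem hy]
          have tz := hty _ hz
          have ty := hty _ hy
          rw [Set.indicator_of_mem (show p ∈ {p : Vec n × Vec n | (Typ k1 ε th W p.1 ∧
            TypF k1 f p.1) ∧ (Typ k1 ε th W p.2 ∧ TypF k1 f p.2)} from
            ⟨⟨Typ.mono tz l1, hz.2⟩, Typ.mono ty l1, hy.2⟩)]
          simp only [Set.indicator_of_mem hz, Set.indicator_of_mem hy]
          obtain ⟨z, y⟩ := p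
          have e1 := E1_pos hε (W ∘ z) (z + lam • W ∘ z)
          have e2 := E1_pos hε (W ∘ y) (y + lam • W ∘ y)
          have i1 : Integrable (fun ω => L1 ε (goeM A ω) (W ∘ z) (z + lam • W ∘ z) *
              L1 ε (goeM A ω) (W ∘ y) (y + lam • W ∘ y)) (gpi ι) :=
            (int_L1 A _ _).mono' ((ms_L1 A _ _).mul (ms_L1 A _ _)).aestronglyMeasurable
              (ae_of_all _ fun ω => by
                rw [Real.norm_of_nonneg (mul_pos (L1_pos _ _ _) (L1_pos _ _ _)).le]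
                exact mul_le_of_le_one_right (L1_pos _ _ _).le (L1_le _ _ _))
          have h4 := pair_typ hA hn0 hε (by linarith) hl hk0.le l3 (by nlinarith) tz ty
          have h5 : ∀ z : Vec n, Typ k ε th W z → ε ^ n * Real.exp (n * (Sm2.gE ε lam 1 th
              (1 - ε ^ 2) - lam ^ 2 / 2)) * Real.exp (-(del / 8 * n)) / 2 ≤
              E1 ε (W ∘ z) (z + lam • W ∘ z) := fun z t => by
            refine le_trans ?_ (E1_ge hn0 hε z (W ∘ z))
            have h6 := h2 _ _ _ (t.1.trans l2) (t.2.1.trans l2) (t.2.2.trans l2) he1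
            rw [mul_assoc, ← Real.exp_add]
            gcongr
            nlinarith [mul_le_mul_of_nonneg_left h6 (Nat.cast_nonneg (α := ℝ) n)]
          have h6 := mul_le_mul (h5 z tz) (h5 y ty) (by positivity) e1.le
          simp only [← ENNReal.ofReal_mul (div_pos (L1_pos _ _ _) e1).le, div_mul_div_comm]
          rw [← ofReal_integral_eq_lintegral_ofReal (i1.div_const _) (ae_of_all _ fun ω =>
            (div_pos (mul_pos (L1_pos _ _ _) (L1_pos _ _ _)) (mul_pos e1 e2)).le),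
            ← ENNReal.ofReal_mul (by positivity), integral_div]
          refine ENNReal.ofReal_le_ofReal ?_
          rw [div_le_iff₀ (mul_pos e1 e2)]
          refine h4.trans (le_trans ?_ (mul_le_mul_of_nonneg_left h6 (by positivity)))
          have h7 : Real.exp (n * ((25 * k + 65 * k ^ 2) / ε ^ 6)) ≤ Real.exp (2 * (del / 4) * n) *
              (Real.exp (-(del / 8 * n)) * Real.exp (-(del / 8 * n))) := by
            rw [← Real.exp_add, ← Real.exp_add]
            refine Real.exp_le_exp.2 ?_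
            nlinarith [mul_le_mul_of_nonneg_left l6 (Nat.cast_nonneg (α := ℝ) n)]
          refine (mul_le_mul_of_nonneg_left h7 (by positivity)).trans (le_of_eq ?_)
          ring
      _ ≤ ENNReal.ofReal (4 * (1 + 3 / ε ^ 2) * Real.exp (2 * (del / 4) * n)) *
            ENNReal.ofReal ((|C| + 1) * Real.exp (del / 4 * n)) := by
          rw [lintegral_const_mul' _ _ ENNReal.ofReal_ne_top]
          refine mul_le_mul_right ((h1 n hn0).trans (ENNReal.ofReal_le_ofReal ?_)) _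
          exact mul_le_mul_of_nonneg_right (by linarith [le_abs_self C]) (Real.exp_pos _).le
      _ = _ := by
          rw [← ENNReal.ofReal_mul (by positivity), mul_mul_mul_comm, ← Real.exp_add]
          congr 3
          ring

/-- the output of this file as a statement -/
def ExistStmt : Prop :=
  ∀ (L ε lam th del : ℝ) (W : ℝ → ℝ), TwoMW ε lam th W → Continuous W → (∀ x, |W x| ≤ L * |x|) →
    ∫ z, z * W z ∂gam = th → ∫ z, W z ^ 2 ∂gam = 1 - ε ^ 2 → 0 < ε → ε ≤ 1 / 2 → |lam| ≤ 2 →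
    0 < del → ∀ᶠ n : ℕ in atTop,
      ∀ (ι : Type) [Fintype ι] (A : ι → Mat n), GoeFam A → ∀ T : Set (Vec n),
      3 / 4 ≤ (gpi (Fin n)).real T → ∀ E : Set (ι → ℝ), MeasurableSet E →
      (∀ z ∈ T, ∃ G : Set (Mat n), MeasurableSet (toM ⁻¹' G) ∧
        1 / 2 ≤ (gpi ι).real {ω | Pm (W ∘ z) * goeM A ω * (Pm (W ∘ z))ᵀ ∈ G} ∧
        ∀ ω, Pm (W ∘ z) * goeM A ω * (Pm (W ∘ z))ᵀ ∈ G →
          F.sq (goeM A ω *ᵥ (W ∘ z) - (z + lam • W ∘ z)) ≤ 40 * ε ^ 2 * n → ω ∈ E) →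
      Real.exp (-(del * n)) ≤ (gpi ι).real E

theorem existStmt : ExistStmt := fun _ _ _ _ _ _ h hW hL hth hQ hε hε1 hl hd =>
  exist_of h hW hL hth hQ hε hε1 hl hd

end Vale.Agent.N150.SlGI
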