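import Vale.Agent.N150.SlLowDef
import Vale.Agent.N150.SlLln
import Vale.Agent.N150.SlMom

/-! Low temperature: the assembly of the band bounds and the second moment. -/

open MeasureTheory ProbabilityTheory Matrix Filter Topology
open scoped ENNReal

namespace Vale.Agent.N150.Slow

open Vale.Agent.P150 Vale.Agent.P150.F Vale.Agent.N150.Edge Vale.Agent.N150.Sm2

theorem real_inter {Ω : Type*} [MeasurableSpace Ω] (P : Measure Ω) [IsFiniteMeasure P]
    {S T : Set Ω} {a p : ℝ} (hS : a ≤ P.real S) (hT : P.real T ≤ p) :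
    a - p ≤ P.real (S ∩ Tᶜ) := by
  have h1 : P.real S ≤ P.real (S ∩ Tᶜ) + P.real T := by
    refine le_trans (measureReal_mono fun z hz => ?_) (measureReal_union_le _ _)
    by_cases hz' : z ∈ T
    · exact Or.inr hz'
    · exact Or.inl ⟨hz, hz'⟩
  linarith

theorem int_sq_gam : Integrable (fun z : ℝ => z ^ 2) gam :=
  (memLp_id_gaussianReal (μ := 0) (v := 1) 2).integrable_sq

theorem mean_sq_gam : ∫ z, z ^ 2 ∂gam = 1 := by
  have h := variance_id_gaussianReal (μ := 0) (v := 1)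
  rw [variance_eq_integral measurable_id.aemeasurable] at h
  simpa using h

theorem sq_fld {n : ℕ} {ρ lam : ℝ} {w z : Vec n} (hw : ∀ i, |ρ * w i| ≤ 1)
    (hz : F.sq z ≤ 2 * n) : F.sq (ρ • (z + lam • w)) ≤ (4 * ρ ^ 2 + 2 * lam ^ 2) * n := by
  have b3 : F.sq (ρ • (z + lam • w)) ≤ ∑ i, (2 * ρ ^ 2 * z i ^ 2 + 2 * lam ^ 2) :=
    Finset.sum_le_sum fun i _ => by
      simp only [Pi.smul_apply, Pi.add_apply, smul_eq_mul]
      have b4 : (ρ * w i) ^ 2 ≤ 1 := (sq_le_one_iff_abs_le_one _).2 (hw _)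
      nlinarith [sq_nonneg (ρ * z i - lam * (ρ * w i)),
        mul_le_mul_of_nonneg_left b4 (sq_nonneg lam)]
  rw [Finset.sum_add_distrib, ← Finset.mul_sum, Finset.sum_const, Finset.card_univ,
    Fintype.card_fin, nsmul_eq_mul] at b3
  unfold F.sq at hz
  nlinarith [sq_nonneg ρ]

theorem sq_cen {n : ℕ} {θ r e : ℝ} {w : Vec n} (hθ0 : 0 < θ) (hθ1 : θ ≤ 1)
    (h : |F.sq w - n * r| ≤ e * n) : |F.sq (θ • w) - n * (θ ^ 2 * r)| ≤ e * n := by
  rw [sq_smul', show θ ^ 2 * F.sq w - n * (θ ^ 2 * r) = θ ^ 2 * (F.sq w - n * r) by ring,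
    abs_mul, abs_of_nonneg (sq_nonneg θ)]
  have : θ ^ 2 ≤ 1 := by nlinarith
  nlinarith [abs_nonneg (F.sq w - n * r)]

/-- for most `z` the conditioned matrix has a high bottleneck with probability one half -/
theorem cond_of {b eps lam th ρ r e θ κ l I Cg c : ℝ} {W G Φ : ℝ → ℝ} (hb : 0 < b)
    (hW : Continuous W) (hth : ∫ z, z * W z ∂gam = th) (hQ : ∫ z, W z ^ 2 ∂gam = 1 - eps ^ 2)
    (he0 : 0 < eps) (he1 : eps ≤ 1 / 2) (hρ : 0 < ρ) (hw : ∀ z, |ρ * W z| ≤ 1) (hθ0 : 0 < θ)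
    (hθ1 : θ ≤ 1) (hr : 0 < r) (he : 0 < e) (he2 : e ≤ 1) (her : 2 * e ≤ r)
    (heθ : e ≤ (1 - θ) * r) (hq : |ρ ^ 2 * (1 - eps ^ 2) - r| < e) (hG : Gu b (θ ^ 2 * r) I Cg Φ)
    (hB : BandAt b r e (fun z => ρ * W z)
      (fun z => b * (ρ * (z + lam * W z)) - κ * (ρ * W z)) G)
    (iG : Integrable G gam)
    (iΦ : Integrable (fun z => Φ (b * θ * (ρ * (z + lam * W z)) + l * (ρ * W z))) gam)
    (hc : c + (|κ| + |l| + Cg + 24 * b * (5 / 2 + 4 * ρ ^ 2 + 2 * lam ^ 2) / r) * e <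
      ∫ z, G z ∂gam - ∫ z, Φ (b * θ * (ρ * (z + lam * W z)) + l * (ρ * W z)) ∂gam - I -
        b / 2 * (1 - θ ^ 2) * (ρ ^ 2 * (th + lam * (1 - eps ^ 2))) + (κ + l * θ) * r) :
    ∀ᶠ n : ℕ in atTop, ∀ (ι : Type) [Fintype ι] (A : ι → Mat n), GoeFam A →
      3 / 4 ≤ (gpi (Fin n)).real {z | (n : ℝ) / 2 ≤ F.sq (W ∘ z) ∧ 1 / 2 ≤ (gpi ι).real
        {ω | c * n ≤ Ht b (Wc (goeM A ω) (W ∘ z) (z + lam • W ∘ z))}} := by
  have hQ0 : 3 / 4 ≤ 1 - eps ^ 2 := by nlinarith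
  have i2 : Integrable (fun z => W z ^ 2) gam :=
    Integrable.of_integral_ne_zero (by rw [hQ]; linarith)
  have i3 : Integrable (fun z => z * W z) gam :=
    (int_sq_gam.add i2).mono' (continuous_id.mul hW).aestronglyMeasurable
      (ae_of_all _ fun z => by
        rw [Real.norm_eq_abs, Pi.add_apply, abs_le]
        constructor <;> nlinarith [sq_nonneg (z + W z), sq_nonneg (z - W z)])
  have i4 : Integrable (fun z => lam * W z ^ 2) gam := i2.const_mul _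
  have i5 : Integrable (fun z => z * W z + lam * W z ^ 2) gam := i3.add i4
  have i6 : Integrable (fun z => b / 2 * (1 - θ ^ 2) * (ρ ^ 2 * (z * W z + lam * W z ^ 2))) gam :=
    (i5.const_mul _).const_mul _
  have i7 : Integrable
      (fun z => G z - Φ (b * θ * (ρ * (z + lam * W z)) + l * (ρ * W z))) gam := iG.sub iΦ
  have i8 : Integrable (fun z => G z - Φ (b * θ * (ρ * (z + lam * W z)) + l * (ρ * W z)) -
      b / 2 * (1 - θ ^ 2) * (ρ ^ 2 * (z * W z + lam * W z ^ 2))) gam := i7.sub i6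
  obtain ⟨η, hη, hc⟩ : ∃ η : ℝ, 0 < η ∧
      c + (|κ| + |l| + Cg + 24 * b * (5 / 2 + (4 * ρ ^ 2 + 2 * lam ^ 2)) / r) * e + 2 * η =
      ∫ z, (G z - Φ (b * θ * (ρ * (z + lam * W z)) + l * (ρ * W z)) -
        b / 2 * (1 - θ ^ 2) * (ρ ^ 2 * (z * W z + lam * W z ^ 2))) ∂gam - I + (κ + l * θ) * r := by
    rw [integral_sub i7 i6, integral_sub iG iΦ, integral_const_mul, integral_const_mul,
      integral_add i3 i4, integral_const_mul, hth, hQ, ← add_assoc (5 / 2 : ℝ)]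
    exact ⟨_, half_pos (sub_pos.2 hc), by ring⟩
  have hp : (0 : ℝ) < 1 / 32 := by norm_num
  filter_upwards [eventually_gt_atTop 0, hB, wlln i8 hη hp,
    wlln (i2.const_mul (ρ ^ 2)) (sub_pos.2 hq) hp, wlln i2 (η := 1 / 4) (by norm_num) hp,
    wlln int_sq_gam one_pos hp, tendsto_natCast_atTop_atTop.eventually_ge_atTop (2 / e),
    tendsto_natCast_atTop_atTop.eventually_ge_atTop (8 * b ^ 2 / η ^ 2)]
    with n hn h0 h1 h2 h3 h4 h5 h6 ι _ A hA
  have hn' : (0 : ℝ) < n := Nat.cast_pos.2 hn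
  have k := real_inter _ (real_inter _ (real_inter _ (real_inter _ (h0 ι A hA) h1) h2) h3) h4
  refine le_trans (by norm_num) (k.trans (measureReal_mono ?_))
  rintro z ⟨⟨⟨⟨⟨a0, a1⟩, a2⟩, a3⟩, a4⟩, a5⟩
  simp only [Set.mem_compl_iff, Set.mem_ofPred_eq, not_le] at a2 a3 a4 a5
  rw [integral_const_mul, hQ] at a3
  rw [hQ] at a4
  rw [mean_sq_gam] at a5
  rw [div_le_iff₀ he] at h5
  rw [div_le_iff₀ (by positivity)] at h6
  have e1 : (fun z => ρ * W z) ∘ z = ρ • W ∘ z := rfl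
  have e2 : (fun z => b * (ρ * (z + lam * W z)) - κ * (ρ * W z)) ∘ z =
      b • ρ • (z + lam • W ∘ z) - κ • ρ • W ∘ z := rfl
  have e3 : F.sq (ρ • W ∘ z) = ∑ i, ρ ^ 2 * W (z i) ^ 2 :=
    Finset.sum_congr rfl fun i _ => mul_pow _ _ _
  have e4 : ip (ρ • W ∘ z) (ρ • (z + lam • W ∘ z)) =
      ∑ i, ρ ^ 2 * (z i * W (z i) + lam * W (z i) ^ 2) :=
    Finset.sum_congr rfl fun i _ => by
      simp only [Pi.smul_apply, Pi.add_apply, Function.comp_apply, smul_eq_mul]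
      ring
  have b1 : |F.sq (ρ • W ∘ z) - n * r| ≤ e * n := by
    rw [e3]
    have := abs_add_le (∑ i, ρ ^ 2 * W (z i) ^ 2 - n * (ρ ^ 2 * (1 - eps ^ 2)))
      (n * (ρ ^ 2 * (1 - eps ^ 2) - r))
    rw [abs_mul, abs_of_pos hn', mul_sub (n : ℝ), sub_add_sub_cancel] at this
    linarith
  have b2 := sq_fld (lam := lam) (w := W ∘ z) (fun i => hw (z i)) (z := z)
    (by unfold F.sq; linarith [(abs_lt.1 a5).2])
  rw [e1] at a0
  rw [e1, e2] at a1
  have k1 := cond_fix hn hA hb.le (κ := κ) (l := l) hθ0 hθ1 hr her heθ (by linarith)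
    (w := ρ • W ∘ z) (fun i => hw (z i)) b1 b2 a0 a1 fun S hS hx => hG n ι A S _ _ e hn hA hS he2
      (sq_cen hθ0 hθ1 b1) hx
  simp only [Wc_smul hρ.ne'] at k1
  have b5 := mul_le_mul_of_nonneg_left hQ0 hn'.le
  refine ⟨show (n : ℝ) / 2 ≤ ∑ i, W (z i) ^ 2 by linarith [(abs_lt.1 a4).1],
    half_le_prob hn hA hb hη (by linarith) (le_trans ?_ k1)⟩
  have e5 : ∑ i, Φ (((b * θ) • ρ • (z + lam • W ∘ z) + l • ρ • W ∘ z) i) =
      ∑ i, Φ (b * θ * (ρ * (z i + lam * W (z i))) + l * (ρ * W (z i))) := rfl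
  rw [Finset.sum_sub_distrib, Finset.sum_sub_distrib, ← Finset.mul_sum] at a2
  rw [e4, e5]
  have := congrArg (· * (n : ℝ)) hc
  linarith [(abs_lt.1 a2).1]

theorem ms_Ht {n : ℕ} (b : ℝ) (R : Mat n) :
    Measurable fun v : Fin n × Fin n → ℝ => Ht b (Law.toM v + R) :=
  (measurable_Ht b).comp (f := fun (v : Fin n × Fin n → ℝ) i j => v (i, j) + R i j)
    (measurable_pi_iff.2 fun i => measurable_pi_iff.2 fun j =>
      (measurable_pi_apply (i, j)).add_const _)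

theorem Ht_back {n : ℕ} (hn : 0 < n) {b c eps : ℝ} (hb : 0 < b) (he : 0 < eps) {J : Mat n}
    (hJ : J.IsSymm) {m a : Vec n} (hm : (n : ℝ) / 2 ≤ F.sq m)
    (h3 : (c + 27 * b * eps) * n ≤ Ht b (Wc J m a))
    (h4 : F.sq (J *ᵥ m - a) ≤ 40 * eps ^ 2 * n) : c * n ≤ Ht b J := by
  have hn' : (0 : ℝ) < n := Nat.cast_pos.2 hn
  have h5 := Ht_Wc hn hb.le (s := 9 * eps) (by positivity) hJ
    (lt_of_lt_of_le (by positivity) hm) (h4.trans (by nlinarith [sq_nonneg eps]))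
  linarith

/-- **the assembly** -/
theorem low_of : LowStmt := by
  intro b eps lam th ρ L r e θ κ l I Cg c W G Φ hb hM hW hL hth hQ he0 he1 hl hρ hw hθ0 hθ1 hr he
    he2 her heθ hq hG hB iG iΦ hc del hdel
  have k1 := cond_of (c := c + 27 * b * eps) hb hW hth hQ he0 he1 hρ hw hθ0 hθ1 hr he he2 her heθ
    hq hG hB iG iΦ (by linarith)
  filter_upwards [eventually_gt_atTop 0, SlGI.exist_of hM hW hL hth hQ he0 he1 hl hdel, k1]
    with n hn h1 h2
  have hA := Red.goeFam_famA (n := n)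
  refine ⟨_, _, _, hA, h1 _ _ hA _ (h2 _ _ hA) _ (measurableSet_le measurable_const
    (lip_Ht hn hA hb.le).measurable) fun z hz => ?_⟩
  exact ⟨{V | (c + 27 * b * eps) * n ≤ Ht b (V + R2 (W ∘ z) (z + lam • W ∘ z))},
    measurableSet_le measurable_const (ms_Ht b _), hz.2,
    fun ω h3 h4 => Ht_back hn hb he0 (symm_goe hA ω) hz.1 h3 h4⟩

end Vale.Agent.N150.Slow
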