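import Vale.Agent.N150.SlCond
import Vale.Agent.N150.SmW

/-! Low temperature: the statement of the assembly block. -/

open MeasureTheory ProbabilityTheory Matrix Filter Topology
open scoped ENNReal

namespace Vale.Agent.N150.Slow

open Vale.Agent.P150 Vale.Agent.P150.F Vale.Agent.N150.Edge Vale.Agent.N150.Sm2

/-- the upper bound for the free energy of a band around a centre of squared norm `n r` -/
def Gu (b r I Cg : ℝ) (Φ : ℝ → ℝ) : Prop :=
  ∀ (n : ℕ) (ι : Type) [Fintype ι] (A : ι → Mat n) (S : Finset (Cfg n)) (w u : Vec n) (e : ℝ),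
    0 < n → GoeFam A → S.Nonempty → e ≤ 1 → |F.sq w - n * r| ≤ e * n →
    (∀ x ∈ S, |ip w (sv x) - n * r| ≤ e * n) →
    FB b A S w u ≤ ∑ i, Φ (u i) + n * I + Cg * e * n

/-- the lower bound for the free energy of the band around the centre `w ∘ z` in the field
`h ∘ z`, for most Gaussian vectors `z` -/
def BandAt (b r e : ℝ) (w h G : ℝ → ℝ) : Prop :=
  ∀ᶠ n : ℕ in atTop, ∀ (ι : Type) [Fintype ι] (A : ι → Mat n), GoeFam A →
    7 / 8 ≤ (gpi (Fin n)).real {z | (slice (w ∘ z) (n * r) (e * n)).Nonempty ∧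
      ∑ i, G (z i) ≤ FB b A (slice (w ∘ z) (n * r) (e * n)) (w ∘ z) (h ∘ z)}

/-- the statement of the block: the planted equation is `J w = B`, `w = ρ W`,
`B = ρ (z + lam W)` -/
def LowStmt : Prop :=
  ∀ (b eps lam th ρ L r e θ κ l I Cg c : ℝ) (W G Φ : ℝ → ℝ), 0 < b →
    TwoMW eps lam th W → Continuous W → (∀ z, |W z| ≤ L * |z|) →
    ∫ z, z * W z ∂gam = th → ∫ z, W z ^ 2 ∂gam = 1 - eps ^ 2 → 0 < eps → eps ≤ 1 / 2 →
    |lam| ≤ 2 →
    0 < ρ → (∀ z, |ρ * W z| ≤ 1) → 0 < θ → θ ≤ 1 → 0 < r → 0 < e → e ≤ 1 → 2 * e ≤ r →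
    e ≤ (1 - θ) * r → |ρ ^ 2 * (1 - eps ^ 2) - r| < e → Gu b (θ ^ 2 * r) I Cg Φ →
    BandAt b r e (fun z => ρ * W z) (fun z => b * (ρ * (z + lam * W z)) - κ * (ρ * W z)) G →
    Integrable G gam →
    Integrable (fun z => Φ (b * θ * (ρ * (z + lam * W z)) + l * (ρ * W z))) gam →
    c + (|κ| + |l| + Cg + 24 * b * (5 / 2 + 4 * ρ ^ 2 + 2 * lam ^ 2) / r) * e + 27 * b * eps <
      ∫ z, G z ∂gam - ∫ z, Φ (b * θ * (ρ * (z + lam * W z)) + l * (ρ * W z)) ∂gam - I -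
        b / 2 * (1 - θ ^ 2) * (ρ ^ 2 * (th + lam * (1 - eps ^ 2))) + (κ + l * θ) * r →
    ∀ del : ℝ, 0 < del → Low b c del

end Vale.Agent.N150.Slow
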