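import Vale.Agent.N150.SmS

/-! Low temperature, second moment: assembly of the certificate. -/

open MeasureTheory ProbabilityTheory Filter Topology

namespace Vale.Agent.N150.Sm2

theorem sp_eq {eps lam X k Q : ℝ} (th : ℝ) (he : 0 < eps) (hX : 0 < X) (hQ : 0 ≤ Q) :
    1 / 2 * Real.log X + X / (2 * X) + gE eps lam X k Q =
      Sp (th - lam) lam ((Q + eps ^ 2) / X - 1) (eps ^ 2 / X) (k / X - th) := by
  unfold gE Sp
  have hq : 0 < Q + eps ^ 2 := by positivity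
  have hr : 0 < 2 * Q + eps ^ 2 := by positivity
  have h1 : 1 + ((Q + eps ^ 2) / X - 1) = (Q + eps ^ 2) / X := by ring
  have h2 : 2 + 2 * ((Q + eps ^ 2) / X - 1) - eps ^ 2 / X = (2 * Q + eps ^ 2) / X := by
    field_simp
    ring
  rw [h1, h2, Real.log_div hq.ne' hX.ne']
  field_simp
  ring

theorem log_far {v c : ℝ} (hc : 0 < c) (hc1 : c ≤ 1 / 100) (hv : 1 + 20 * c ≤ v) :
    1 + Real.log v - v ≤ -(81 * c ^ 2) := by
  have hv0 : 0 < v := by linarith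
  obtain ⟨r, hr0, hr⟩ : ∃ r : ℝ, 0 < r ∧ v = r ^ 2 :=
    ⟨√v, Real.sqrt_pos.2 hv0, (Real.sq_sqrt hv0.le).symm⟩
  have h1 : 1 + 9 * c ≤ r := by
    by_contra h
    push Not at h
    nlinarith
  have h2 := Real.log_le_sub_one_of_pos hr0
  rw [hr, Real.log_pow]
  push_cast
  nlinarith

theorem good_near {e lam th X k q c : ℝ} (hc : 0 < c) (hc1 : c ≤ 1 / 100) (hq0 : 0 < q)
    (hX0 : 0 < X) (hXq : (1 - 10 * c) * q ≤ X) (h5 : X ≤ (1 + 20 * c) * q) (hx : e ≤ c * q)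
    (hD4 : |k - lam * q| ≤ 4 * c * q) (hl : |1 - lam| ≤ c) (ht : |th - lam| ≤ c) :
    |q / X - 1| ≤ 20 * c ∧ e / X ≤ 2 * c ∧ |k / X - th| ≤ 30 * c := by
  obtain ⟨hl1, hl2⟩ := abs_le.1 hl
  obtain ⟨ht1, ht2⟩ := abs_le.1 ht
  have h7 : 0 ≤ 1 - 20 * c := by linarith
  have hcc : c * c ≤ c * (1 / 100) := by gcongr
  have hw1 : q / X ≤ 1 + 20 * c := by
    rw [div_le_iff₀ hX0]
    have h8 : (1 + 20 * c) * ((1 - 10 * c) * q) ≤ (1 + 20 * c) * X := by gcongr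
    have h6 : 0 ≤ c * (1 - 20 * c) * q := by positivity
    linarith
  have hw2 : 1 - 20 * c ≤ q / X := by
    rw [le_div_iff₀ hX0]
    have h8 : (1 - 20 * c) * X ≤ (1 - 20 * c) * ((1 + 20 * c) * q) := by gcongr
    have h6 : 0 ≤ c ^ 2 * q := by positivity
    linarith
  have hw : |q / X - 1| ≤ 20 * c := abs_le.2 ⟨by linarith, by linarith⟩
  have h3 : c * (q / X) ≤ c * (1 + 20 * c) := by gcongr
  refine ⟨hw, ?_, ?_⟩
  · have h1 : e / X ≤ c * (q / X) := by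
      rw [← mul_div_assoc]
      gcongr
    linarith
  · have e4 : k / X - th = (k - lam * q) / X + lam * (q / X - 1) - (th - lam) := by
      field_simp
      ring
    have h1 : |(k - lam * q) / X| ≤ 4 * c * (q / X) := by
      rw [abs_div, abs_of_pos hX0, ← mul_div_assoc]
      gcongr
    have h2 : |lam * (q / X - 1)| ≤ (1 + c) * (20 * c) := by
      rw [abs_mul]
      have : |lam| ≤ 1 + c := abs_le.2 ⟨by linarith, by linarith⟩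
      gcongr
    obtain ⟨h11, h12⟩ := abs_le.1 h1
    obtain ⟨h21, h22⟩ := abs_le.1 h2
    rw [e4]
    refine abs_le.2 ⟨?_, ?_⟩ <;> linarith

theorem good_sector {eps lam th X k Q c : ℝ} (he : 0 < eps) (hX : 0 ≤ X) (hQ : 0 ≤ Q)
    (hcs : k ^ 2 ≤ X * Q) (hx : eps ^ 2 / (Q + eps ^ 2) ≤ c)
    (hD : |(k - lam * (Q + eps ^ 2)) / (2 * Q + eps ^ 2)| ≤ 2 * c) (hl : |1 - lam| ≤ c)
    (ht : |th - lam| ≤ c) (hc : 0 < c) (hc1 : c ≤ 1 / 100) :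
    0 < X ∧ 1 / 2 * Real.log X + X / (2 * X) + gE eps lam X k Q ≤ 4 * c ^ 2 ∧
      (1 / 2 * Real.log X + X / (2 * X) + gE eps lam X k Q ≤ -(4 * c ^ 2) ∨
        (|(Q + eps ^ 2) / X - 1| ≤ 20 * c ∧ eps ^ 2 / X ≤ 2 * c ∧ |k / X - th| ≤ 30 * c)) := by
  have he2 : 0 < eps ^ 2 := by positivity
  unfold gE
  obtain ⟨q, hq⟩ : ∃ q, q = Q + eps ^ 2 := ⟨_, rfl⟩
  obtain ⟨r, hr⟩ : ∃ r, r = 2 * Q + eps ^ 2 := ⟨_, rfl⟩
  rw [← hq, ← hr] at hD ⊢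
  rw [← hq] at hx
  have hq0 : 0 < q := by rw [hq]; positivity
  have hr0 : 0 < r := by rw [hr]; positivity
  have hrq : r ≤ 2 * q := by rw [hq, hr]; linarith
  have hQle : Q ≤ q := by rw [hq]; linarith
  rw [abs_div, abs_of_pos hr0, div_le_iff₀ hr0] at hD
  rw [div_le_iff₀ hq0] at hx
  obtain ⟨hl1, hl2⟩ := abs_le.1 hl
  obtain ⟨ht1, ht2⟩ := abs_le.1 ht
  have hD4 : |k - lam * q| ≤ 4 * c * q := hD.trans (by nlinarith)
  obtain ⟨hD1, hD2⟩ := abs_le.1 hD4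
  have hk : (1 - 5 * c) * q ≤ k := by nlinarith
  have hk0 : 0 ≤ (1 - 5 * c) * q := mul_nonneg (by linarith) hq0.le
  have hXq : (1 - 10 * c) * q ≤ X := by
    have h1 : ((1 - 5 * c) * q) ^ 2 ≤ k ^ 2 := pow_le_pow_left₀ hk0 hk 2
    have h2 : X * Q ≤ X * q := mul_le_mul_of_nonneg_left hQle hX
    have h3 : ((1 - 10 * c) * q) * q ≤ X * q := by nlinarith [sq_nonneg (c * q)]
    exact le_of_mul_le_mul_right h3 hq0
  have hX0 : 0 < X := lt_of_lt_of_le (mul_pos (by linarith) hq0) hXq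
  have hT : (k - lam * q) ^ 2 / (2 * q * r) ≤ 4 * c ^ 2 := by
    rw [div_le_iff₀ (by positivity)]
    have h1 : (k - lam * q) ^ 2 ≤ (2 * c * r) ^ 2 := by
      rw [← sq_abs]
      exact pow_le_pow_left₀ (abs_nonneg _) hD 2
    have h2 : 4 * c ^ 2 * (r * r) ≤ 4 * c ^ 2 * (2 * q * r) := by gcongr
    nlinarith
  have hv : 0 < X / q := div_pos hX0 hq0
  have e1 : Real.log X = Real.log (X / q) + Real.log q := by
    rw [Real.log_div hX0.ne' hq0.ne']; ring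
  have e2 : X / (2 * X) = 1 / 2 := by field_simp
  have e3 : X / (2 * q) = X / q / 2 := by field_simp
  have h4 := Real.log_le_sub_one_of_pos hv
  rw [e1, e2, e3]
  refine ⟨hX0, by linarith, ?_⟩
  rcases le_total (1 + 20 * c) (X / q) with h5 | h5
  · left
    have := log_far hc hc1 h5
    nlinarith
  · right
    rw [div_le_iff₀ hq0] at h5
    exact good_near hc hc1 hq0 hX0 hXq h5 hx hD4 hl ht

theorem ex_mult {M K : ℝ} (hM : 0 ≤ M) (hK : 0 ≤ K) (b : ℝ) :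
    ∃ m, |m| ≤ M + 2 * K * |b| ∧ m * b = M * |b| + 2 * K * b ^ 2 ∧
      m ^ 2 ≤ 2 * M ^ 2 + 8 * K ^ 2 * b ^ 2 := by
  rcases le_total 0 b with h | h
  · refine ⟨M + 2 * K * b, ?_, ?_, ?_⟩
    · rw [abs_of_nonneg h, abs_of_nonneg (by positivity)]
    · rw [abs_of_nonneg h]; ring
    · nlinarith [sq_nonneg (M - 2 * K * b)]
  · refine ⟨-M + 2 * K * b, ?_, ?_, ?_⟩
    · have : 0 ≤ K * -b := mul_nonneg hK (by linarith)
      rw [abs_of_nonpos h, abs_of_nonpos (by linarith)]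
      linarith
    · rw [abs_of_nonpos h]; ring
    · nlinarith [sq_nonneg (M + 2 * K * b)]

theorem near_fin {K R u G rho : ℝ} (hK : 0 < K) (hR : 0 ≤ R) (hu : 0 ≤ u) (hG : 0 ≤ G)
    (hrho : 0 ≤ rho) (h1 : 8 * R * K ≤ 1) (h2 : 4 * R * K ^ 2 * (u + G) ≤ 1 / 400) (b H : ℝ) :
    ∃ m1 m2, |m1| ≤ K * (u + G) * G + 2 * K * |b| ∧ |m2| ≤ K * (u + G) * G + 2 * K * |H| ∧
      -(1 / 400) * ((u + G) * G ^ 2) + K * ((u + G) * G * (|b| + |H|) + b ^ 2 + H ^ 2) -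
        (m1 * ((1 + rho) * b) + m2 * ((1 + rho) * H)) + R * (m1 ^ 2 + m2 ^ 2) ≤ 0 := by
  have hM : 0 ≤ K * (u + G) * G := by positivity
  obtain ⟨m1, a1, a2, a3⟩ := ex_mult hM hK.le b
  obtain ⟨m2, b1, b2, b3⟩ := ex_mult hM hK.le H
  refine ⟨m1, m2, a1, b1, ?_⟩
  have c1 : 0 ≤ rho * (m1 * b) := by rw [a2]; positivity
  have c2 : 0 ≤ rho * (m2 * H) := by rw [b2]; positivity
  have c3 : R * (m1 ^ 2 + m2 ^ 2) ≤ R * (2 * (K * (u + G) * G) ^ 2 + 8 * K ^ 2 * b ^ 2 +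
      (2 * (K * (u + G) * G) ^ 2 + 8 * K ^ 2 * H ^ 2)) := by gcongr
  have c4 : 8 * R * K * (K * (b ^ 2 + H ^ 2)) ≤ 1 * (K * (b ^ 2 + H ^ 2)) := by gcongr
  have c5 : 4 * R * K ^ 2 * (u + G) * ((u + G) * G ^ 2) ≤ 1 / 400 * ((u + G) * G ^ 2) := by gcongr
  nlinarith

theorem ex_half {X : ℝ} (hX : 0 < X) : ∃ p : ℝ, 0 < p ∧ X = 2 * p ^ 2 :=
  ⟨√(X / 2), Real.sqrt_pos.2 (by positivity), by rw [Real.sq_sqrt (by positivity)]; ring⟩

theorem yn_psi (W : ℝ → ℝ) (a th g m1 m2 : ℝ) {p q : ℝ} (hp : 0 < p) (hq : 0 < q) (z : ℝ × ℝ) :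
    Yn W a th p q g m1 m2 z =
      psi W ((-(q ^ 2 * g * th) + 3 * a * (p ^ 2 - q ^ 2) * g * p ^ 2) / (2 * p ^ 2))
        (q ^ 2 * g / (2 * p ^ 2)) 0
        ((p ^ 2 * g * th + 3 * a * (p ^ 2 - q ^ 2) * g * q ^ 2 - m1 * th - m2 * G2 W p q) /
          (2 * q ^ 2)) ((-(p ^ 2 * g) + m1) / (2 * q ^ 2)) (m2 / (2 * q ^ 2))
        (p * z.1 + q * z.2, p * z.1 - q * z.2) + -(3 * a * (p ^ 2 - q ^ 2) * g) := by
  simp only [Yn, psi, sS, sD]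
  field_simp
  ring

theorem pair_eq {a th g b m1 m2 p q rho H T X1 k1 Q1 X2 k2 Q2 : ℝ} (hp : 0 < p) (hq : 0 < q)
    (ep : X1 = 2 * p ^ 2) (eq : X2 = 2 * q ^ 2) (e1 : X1 = 1 + rho) (e2 : X2 = 1 - rho)
    (fk1 : k1 = X1 * (th - (1 - rho) * b)) (fk2 : k2 = X2 * (th + (1 + rho) * b))
    (fQ2 : Q2 = X2 * ((1 + rho) * H + T)) :
    -(3 * a * (p ^ 2 - q ^ 2) * g) +
      ((-(q ^ 2 * g * th) + 3 * a * (p ^ 2 - q ^ 2) * g * p ^ 2) / (2 * p ^ 2) * X1 +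
        q ^ 2 * g / (2 * p ^ 2) * k1 + 0 * Q1 +
        (p ^ 2 * g * th + 3 * a * (p ^ 2 - q ^ 2) * g * q ^ 2 - m1 * th - m2 * T) /
          (2 * q ^ 2) * X2 + (-(p ^ 2 * g) + m1) / (2 * q ^ 2) * k2 + m2 / (2 * q ^ 2) * Q2) =
      -((1 + rho ^ 2) * g * b) + (m1 * ((1 + rho) * b) + m2 * ((1 + rho) * H)) := by
  have z1 : (-(q ^ 2 * g * th) + 3 * a * (p ^ 2 - q ^ 2) * g * p ^ 2) / (2 * p ^ 2) * X1 =
      -(q ^ 2 * g * th) + 3 * a * (p ^ 2 - q ^ 2) * g * p ^ 2 := by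
    rw [ep]; field_simp
  have z2 : q ^ 2 * g / (2 * p ^ 2) * k1 = q ^ 2 * g * (th - (1 - rho) * b) := by
    rw [fk1, ep]; field_simp
  have z3 : (p ^ 2 * g * th + 3 * a * (p ^ 2 - q ^ 2) * g * q ^ 2 - m1 * th - m2 * T) /
      (2 * q ^ 2) * X2 =
      p ^ 2 * g * th + 3 * a * (p ^ 2 - q ^ 2) * g * q ^ 2 - m1 * th - m2 * T := by
    rw [eq]; field_simp
  have z4 : (-(p ^ 2 * g) + m1) / (2 * q ^ 2) * k2 =
      (-(p ^ 2 * g) + m1) * (th + (1 + rho) * b) := by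
    rw [fk2, eq]; field_simp
  have z5 : m2 / (2 * q ^ 2) * Q2 = m2 * ((1 + rho) * H + T) := by
    rw [fQ2, eq]; field_simp
  have p2 : p ^ 2 = (1 + rho) / 2 := by linarith
  have q2 : q ^ 2 = (1 - rho) / 2 := by linarith
  rw [z1, z2, z3, z4, z5, p2, q2]
  ring

theorem G_bd {e u s c rho A G : ℝ} (he : 0 ≤ e) (hu0 : 0 ≤ u) (hu : u ≤ c) (hs : s ≤ 1)
    (r0 : 0 ≤ rho) (r1 : rho < 1) (hy2 : e / (1 - rho) ≤ 2 * c)
    (hA1 : |A - rho * u| ≤ s * u * rho) (hGd : G = A + e * rho / (1 - rho ^ 2)) :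
    0 ≤ G ∧ G ≤ 4 * c := by
  have r2 : 0 < 1 + rho := by linarith
  have r3 : 0 < 1 - rho := by linarith
  have eG : e * rho / (1 - rho ^ 2) = e / (1 - rho) * (rho / (1 + rho)) := by
    rw [show 1 - rho ^ 2 = (1 - rho) * (1 + rho) by ring]
    field_simp
  have t0 : 0 ≤ rho / (1 + rho) := by positivity
  have t1 : rho / (1 + rho) ≤ 1 := by rw [div_le_one r2]; linarith
  have t2 : 0 ≤ e / (1 - rho) := by positivity
  obtain ⟨hA2, hA3⟩ := abs_le.1 hA1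
  have t3 : s * u * rho ≤ 1 * u * rho := by gcongr
  have t4 : u * rho ≤ u * 1 := by gcongr
  have t5 : e / (1 - rho) * (rho / (1 + rho)) ≤ 2 * c * 1 :=
    mul_le_mul hy2 t1 t0 (t2.trans hy2)
  have := mul_nonneg t2 t0
  rw [hGd, eG]
  constructor <;> linarith

theorem shrink {rho x y : ℝ} (r0 : 0 ≤ rho) (h : |(1 + rho) * x| ≤ y) : |x| ≤ y := by
  rw [abs_mul, abs_of_pos (by linarith : 0 < 1 + rho)] at h
  nlinarith [abs_nonneg x]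

theorem cert_near {eps lam th a K R m0 s c : ℝ} {W : ℝ → ℝ} (hW : Continuous W) (he : 0 < eps)
    {X1 k1 Q1 X2 k2 Q2 : ℝ} (hF : Feas eps th X1 k1 Q1 X2 k2 Q2) (hX2 : 0 < X2) (hle : X2 ≤ X1)
    (hw : |(Q2 + eps ^ 2) / X2 - 1| ≤ 20 * c) (hy : eps ^ 2 / X2 ≤ 2 * c)
    (hd : |k2 / X2 - th| ≤ 30 * c)
    (hN : ∀ rho A G g b : ℝ, 0 ≤ rho → rho < 1 → eps ^ 2 / (1 - rho) ≤ s →
      |A - rho * (6 * a ^ 2)| ≤ s * (6 * a ^ 2) * rho → G = A + eps ^ 2 * rho / (1 - rho ^ 2) →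
      |g| ≤ s → |b| ≤ s →
      Sp (th - lam) lam (-(1 - rho) * g) (eps ^ 2 / (1 + rho)) (-(1 - rho) * b) +
        Sp (th - lam) lam ((1 + rho) * g) (eps ^ 2 / (1 - rho)) ((1 + rho) * b) -
        (th - lam) ^ 2 / (2 - eps ^ 2) + (1 + rho ^ 2) * g * b +
        (1 + s) * (6 * a ^ 2) * g ^ 2 * (3 * rho ^ 2 + (1 - rho ^ 2) ^ 2 / 4) +
        s * (6 * a ^ 2) * g ^ 2 ≤
      -(1 / 400) * ((6 * a ^ 2 + G) * G ^ 2) +
        K * ((6 * a ^ 2 + G) * G * (|b| + |g - G|) + b ^ 2 + (g - G) ^ 2))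
    (hG : ∀ p q : ℝ, 0 < p → 0 < q → p ^ 2 + q ^ 2 = 1 → q ≤ p →
      |G2 W p q - 1 + eps ^ 2 - 6 * a ^ 2 * (p ^ 2 - q ^ 2) * (1 + (p ^ 2 - q ^ 2))| ≤
        s * (6 * a ^ 2) * (p ^ 2 - q ^ 2))
    (hM : ∀ p q g m1 m2 : ℝ, 0 < q → q ≤ p → p ^ 2 + q ^ 2 = 1 → |g| ≤ m0 → |m1| ≤ m0 →
      |m2| ≤ m0 → Integrable (fun z => Real.exp (Yn W a th p q g m1 m2 z)) (gam.prod gam) ∧
      ∫ z, Real.exp (Yn W a th p q g m1 m2 z) ∂(gam.prod gam) ≤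
        Real.exp ((1 + s) * (6 * a ^ 2) * g ^ 2 *
          (3 * (p ^ 2 - q ^ 2) ^ 2 + (1 - (p ^ 2 - q ^ 2) ^ 2) ^ 2 / 4) +
          s * (6 * a ^ 2) * g ^ 2 + R * a ^ 2 * (m1 ^ 2 + m2 ^ 2)))
    (hK : 0 < K) (hR : 0 < R) (hc : 0 < c) (hcs : 30 * c ≤ s) (hs : s ≤ 1)
    (hu : 6 * a ^ 2 ≤ c) (hm : (64 * K + 20) * c ≤ m0) (h1 : 8 * (R * a ^ 2) * K ≤ 1)
    (h2 : 4 * (R * a ^ 2) * K ^ 2 ≤ 1 / 400) : CertAt eps lam th W X1 k1 Q1 X2 k2 Q2 := by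
  have hX1 : 0 < X1 := hX2.trans_le hle
  obtain ⟨p, hp, ep⟩ := ex_half hX1
  obtain ⟨q, hq, eq⟩ := ex_half hX2
  have hpq : p ^ 2 + q ^ 2 = 1 := by linarith [hF.sX]
  have hqp : q ≤ p := by
    by_contra h
    push Not at h
    nlinarith
  obtain ⟨rho, hrho⟩ : ∃ rho, rho = p ^ 2 - q ^ 2 := ⟨_, rfl⟩
  have e1 : X1 = 1 + rho := by linarith
  have e2 : X2 = 1 - rho := by linarith
  have r0 : 0 ≤ rho := by linarith
  have r1 : rho < 1 := by linarith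
  have r2 : 0 < 1 + rho := by linarith
  have r3 : 0 < 1 - rho := by linarith
  obtain ⟨g, hg⟩ : ∃ g, (Q2 + eps ^ 2) / X2 - 1 = (1 + rho) * g :=
    ⟨((Q2 + eps ^ 2) / X2 - 1) / (1 + rho), by field_simp⟩
  obtain ⟨b, hb⟩ : ∃ b, k2 / X2 - th = (1 + rho) * b :=
    ⟨(k2 / X2 - th) / (1 + rho), by field_simp⟩
  obtain ⟨A, hA⟩ : ∃ A, G2 W p q - 1 + eps ^ 2 = (1 + rho) * A :=
    ⟨(G2 W p q - 1 + eps ^ 2) / (1 + rho), by field_simp⟩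
  obtain ⟨G, hGd⟩ : ∃ G, G = A + eps ^ 2 * rho / (1 - rho ^ 2) := ⟨_, rfl⟩
  have fQ2 : Q2 + eps ^ 2 = X2 * (1 + (1 + rho) * g) := by
    rw [← hg]; field_simp; ring
  have fk2 : k2 = X2 * (th + (1 + rho) * b) := by
    rw [← hb]; field_simp; ring
  have fQ1 : (Q1 + eps ^ 2) / X1 - 1 = -(1 - rho) * g := by
    have h3 : Q1 + eps ^ 2 = X1 * (1 - (1 - rho) * g) := by
      have := hF.sQ
      rw [e2] at fQ2
      rw [e1]
      linear_combination this - fQ2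
    rw [h3]; field_simp; ring
  have fk1' : k1 = X1 * (th - (1 - rho) * b) := by
    have := hF.sk
    rw [e2] at fk2
    rw [e1]
    linear_combination this - fk2
  have fk1 : k1 / X1 - th = -(1 - rho) * b := by
    rw [fk1']; field_simp; ring
  have hg1 : |g| ≤ 20 * c := shrink r0 (hg ▸ hw)
  have hb1 : |b| ≤ 30 * c := shrink r0 (hb ▸ hd)
  have hu0 : 0 ≤ 6 * a ^ 2 := by positivity
  have hA1 : |A - rho * (6 * a ^ 2)| ≤ s * (6 * a ^ 2) * rho := by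
    have h3 := hG p q hp hq hpq hqp
    rw [← hrho] at h3
    refine shrink r0 ?_
    rw [show (1 + rho) * (A - rho * (6 * a ^ 2)) =
      G2 W p q - 1 + eps ^ 2 - 6 * a ^ 2 * rho * (1 + rho) by rw [hA]; ring]
    exact h3
  have hy2 : eps ^ 2 / (1 - rho) ≤ 2 * c := e2 ▸ hy
  obtain ⟨G0, G1⟩ := G_bd (by positivity) hu0 hu hs r0 r1 hy2 hA1 hGd
  have uG : 6 * a ^ 2 + G ≤ 1 := by linarith
  have hRa : 0 ≤ R * a ^ 2 := by positivity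
  obtain ⟨m1, m2, n1, n2, n3⟩ := near_fin hK hRa hu0 G0 r0 h1
    (le_trans (mul_le_of_le_one_right (by positivity) uG) h2) b (g - G)
  have n4 : K * (6 * a ^ 2 + G) * G ≤ K * 1 * (4 * c) := by gcongr
  have n5 : |g - G| ≤ 30 * c := by
    obtain ⟨x1, x2⟩ := abs_le.1 hg1
    exact abs_le.2 ⟨by linarith, by linarith⟩
  have n6 : 2 * K * |b| ≤ 2 * K * (30 * c) := by gcongr
  have n7 : 2 * K * |g - G| ≤ 2 * K * (30 * c) := by gcongr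
  have n8 : 0 ≤ K * c := by positivity
  obtain ⟨hI, hI2⟩ := hM p q g m1 m2 hq hqp hpq (by linarith) (by linarith) (by linarith)
  have hfin := hN rho A G g b r0 r1 (by linarith) hA1 hGd (by linarith) (by linarith)
  have fQ2' : Q2 = X2 * ((1 + rho) * (g - G) + G2 W p q) := by
    have h3 : (1 - rho) * ((1 + rho) * G) = (1 - rho) * ((1 + rho) * A) + eps ^ 2 * rho := by
      rw [hGd, show 1 - rho ^ 2 = (1 - rho) * (1 + rho) by ring]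
      field_simp
    rw [e2] at fQ2 ⊢
    linear_combination fQ2 + h3 - (1 - rho) * hA
  refine cert_base hW hp hq ep eq hF.sX _ _ _ _ _ _ _ _ (yn_psi W a th g m1 m2 hp hq) hI hI2 ?_
  rw [pair_eq hp hq ep eq e1 e2 fk1' fk2 fQ2', sp_eq th he hX1 hF.hQ1, sp_eq th he hX2 hF.hQ2,
    hg, hb, fQ1, fk1, ← hrho, e1, e2]
  linarith only [hfin, n3]

theorem cert_far {eps lam th M : ℝ} {W : ℝ → ℝ} (hW : Continuous W) (he : eps ^ 2 ≤ 1)
    {X1 k1 Q1 X2 k2 Q2 : ℝ} (hX : X1 + X2 = 2)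
    (hM : ∀ p q a1 a2 b1 b2 : ℝ, 0 < p → 0 < q → p ^ 2 ≤ 1 → q ^ 2 ≤ 1 → Co a1 a2 → Co b1 b2 →
      Integrable (fun z => Real.exp (Yf W p q a1 a2 b1 b2 z)) (gam.prod gam) ∧
      ∫ z, Real.exp (Yf W p q a1 a2 b1 b2 z) ∂(gam.prod gam) ≤ Real.exp M)
    {s1 a1 a2 s2 b1 b2 : ℝ} (h1 : 0 < s1) (h1' : s1 ≤ 2) (ha : Co a1 a2) (h2 : 0 < s2)
    (h2' : s2 ≤ 2) (hb : Co b1 b2)
    (h : val eps lam X1 k1 Q1 s1 a1 a2 + val eps lam X2 k2 Q2 s2 b1 b2 + M ≤ 0) :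
    CertAt eps lam th W X1 k1 Q1 X2 k2 Q2 := by
  obtain ⟨p, hp, ep⟩ := ex_half h1
  obtain ⟨q, hq, eq⟩ := ex_half h2
  obtain ⟨hI, hI2⟩ := hM p q a1 a2 b1 b2 hp hq (by linarith) (by linarith) ha hb
  refine cert_base hW hp hq ep eq hX (a1 / s1) ((a2 - a1) / s1) (-a2 / s1) (b1 / s2)
    ((b2 - b1) / s2) (-b2 / s2) 0 M (fun z => ?_) hI hI2 ?_
  · simp only [Yf, psi, sS, sD, ep, eq]
    field_simp
    ring
  · have h0 : 0 ≤ (th - lam) ^ 2 / (2 - eps ^ 2) := div_nonneg (sq_nonneg _) (by linarith)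
    unfold val at h
    have e1 : (a1 * X1 + (a2 - a1) * k1 - a2 * Q1) / s1 =
      a1 / s1 * X1 + (a2 - a1) / s1 * k1 + -a2 / s1 * Q1 := by ring
    have e2 : (b1 * X2 + (b2 - b1) * k2 - b2 * Q2) / s2 =
      b1 / s2 * X2 + (b2 - b1) / s2 * k2 + -b2 / s2 * Q2 := by ring
    rw [e1, e2] at h
    linarith

theorem cert_zero {eps lam th : ℝ} {W : ℝ → ℝ} (hW : Continuous W) (he : eps ^ 2 ≤ 1)
    {X1 k1 Q1 X2 k2 Q2 : ℝ} (hX : X1 + X2 = 2) (h1 : 0 < X1) (h2 : 0 < X2)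
    (h : (1 / 2 * Real.log X1 + X1 / (2 * X1) + gE eps lam X1 k1 Q1) +
      (1 / 2 * Real.log X2 + X2 / (2 * X2) + gE eps lam X2 k2 Q2) ≤ 0) :
    CertAt eps lam th W X1 k1 Q1 X2 k2 Q2 := by
  obtain ⟨p, hp, ep⟩ := ex_half h1
  obtain ⟨q, hq, eq⟩ := ex_half h2
  refine cert_base hW hp hq ep eq hX 0 0 0 0 0 0 0 0 (Y := fun _ => 0) (fun z => ?_) ?_ ?_ ?_
  · simp [psi]
  · simp
  · simp
  · have h0 : 0 ≤ (th - lam) ^ 2 / (2 - eps ^ 2) := div_nonneg (sq_nonneg _) (by linarith)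
    linarith

theorem Feas.swap {eps th X1 k1 Q1 X2 k2 Q2 : ℝ} (h : Feas eps th X1 k1 Q1 X2 k2 Q2) :
    Feas eps th X2 k2 Q2 X1 k1 Q1 :=
  ⟨h.hX2, h.hX1, h.hk2, h.hk1, h.hQ2, h.hQ1, h.cs2, h.cs1, by linarith [h.sX], by linarith [h.sk],
    by linarith [h.sQ]⟩

theorem small (C : ℝ) {r : ℝ} (hr : 0 < r) : ∀ᶠ x in 𝓝[>] (0 : ℝ), C * x ≤ r := by
  have h : Tendsto (fun x : ℝ => C * x) (𝓝 0) (𝓝 (C * 0)) := by
    exact (continuous_const.mul continuous_id).tendsto 0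
  rw [mul_zero] at h
  exact (h.eventually (ge_mem_nhds hr)).filter_mono nhdsWithin_le_nhds

theorem sizes {eta a th0 lam th K : ℝ} (ha : |a| ≤ eta) (h1 : eta ≤ 1)
    (hKe : K * eta ≤ 1) (t0 : 0 ≤ th) (t1 : |th - th0| ≤ K * eta * |a|)
    (t2 : |1 - th ^ 2 - 6 * a ^ 2| ≤ K * eta * a ^ 2) (lo : 29 * a ^ 4 ≤ th - lam)
    (hi : th - lam ≤ 36 * a ^ 4) :
    a ^ 2 ≤ eta ∧ |1 - lam| ≤ 43 * eta ∧ |th - lam| ≤ 43 * eta ∧ |1 - th0| ≤ 8 * eta := by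
  have a0 := abs_nonneg a
  have a2 : a ^ 2 ≤ eta := by
    rw [← sq_abs]
    nlinarith
  have a3 := sq_nonneg a
  have a4 : a ^ 4 ≤ eta := by
    rw [show a ^ 4 = a ^ 2 * a ^ 2 by ring]
    nlinarith
  have a5 : 0 ≤ a ^ 4 := by positivity
  have b1 : K * eta * a ^ 2 ≤ 1 * a ^ 2 := by gcongr
  have b2 : K * eta * |a| ≤ 1 * |a| := by gcongr
  obtain ⟨c1, c2⟩ := abs_le.1 t2
  obtain ⟨d1, d2⟩ := abs_le.1 t1
  have e1 : 1 - th ≤ 7 * eta := by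
    rcases le_total th 1 with h | h
    · nlinarith
    · linarith
  have e2 : th - 1 ≤ 7 * eta := by nlinarith
  exact ⟨a2, abs_le.2 ⟨by linarith, by linarith⟩, abs_le.2 ⟨by linarith, by linarith⟩,
    abs_le.2 ⟨by linarith, by linarith⟩⟩

/-- the certificate exists for all statistics -/
def CertStmt : Prop :=
  ∀ L : ℝ, ∃ eta : ℝ, 0 < eta ∧ ∀ (a th0 eps lam th : ℝ) (W W1 : ℝ → ℝ),
    Shape L eta a th0 W W1 → Nrm a eta eps lam th W → Cert eps lam th W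

theorem cert_of (hFar : FarStmt) (hNear : NearStmt) (hGauss : GaussStmt) (hMgf : MgfStmt)
    (hFm : FarMgfStmt) : CertStmt := by
  intro L
  obtain ⟨K, s0, hK, hs0, hNear⟩ := hNear
  obtain ⟨s, hs, hss, hs1⟩ : ∃ s : ℝ, 0 < s ∧ s ≤ s0 ∧ s ≤ 1 :=
    ⟨min s0 1, lt_min hs0 one_pos, min_le_left _ _, min_le_right _ _⟩
  obtain ⟨R, m0, eM, hR, hm0, heM, hMgf⟩ := hMgf L s hs
  obtain ⟨KG, eG, hKG, heG, hGauss⟩ := hGauss L
  obtain ⟨KF, hKF, hFm⟩ := hFm L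
  obtain ⟨c, ⟨⟨c1, c2⟩, c3⟩, hc⟩ := ((((small 30 hs).and (small (64 * K + 20) hm0)).and
    (small 100 one_pos)).and self_mem_nhdsWithin).exists
  replace hc : 0 < c := hc
  have hc4 : 0 < c ^ 4 / 112 := by positivity
  obtain ⟨eta, ⟨⟨⟨⟨⟨⟨x1, x2⟩, x3⟩, x4⟩, x5⟩, x6⟩, x7⟩, heta⟩ :=
    ((((((((small 1 heM).and (small 1 heG)).and (small 43 hc)).and (small KG hs)).and
    (small (172 + 8 * KF) hc4)).and (small (8 * R * K) one_pos)).and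
    (small (1600 * R * K ^ 2) one_pos)).and self_mem_nhdsWithin).exists
  replace heta : 0 < eta := heta
  refine ⟨eta, heta, fun a th0 eps lam th W W1 hS hN => ?_⟩
  obtain ⟨⟨t0, t1, t2⟩, hG⟩ := hGauss eta a th0 eps lam th W W1 (by linarith) hS hN
  obtain ⟨a2, l1, l2, l3⟩ := sizes hN.sm (by linarith) (by linarith) t0 t1 t2 hN.lo hN.hi
  have a0 : 0 < a ^ 2 := by have := hN.a0; positivity
  have hW := hS.cont
  have he := hN.eps0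
  have he1 : eps ^ 2 ≤ s * (6 * a ^ 2) := by
    have h1 : eta * a ^ 2 ≤ s * a ^ 2 := by gcongr; linarith
    have h2 : 0 ≤ s * a ^ 2 := by positivity
    linarith [hN.eps1]
  have he2 : eps ^ 2 ≤ 1 := by
    have h1 : s * (6 * a ^ 2) ≤ 1 * (6 * a ^ 2) := by gcongr
    linarith
  have hKs : KG * eta * a ^ 2 ≤ s * (6 * a ^ 2) := by
    have h1 : KG * eta * a ^ 2 ≤ s * a ^ 2 := by gcongr
    have h2 : 0 ≤ s * a ^ 2 := by positivity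
    linarith
  have main : ∀ X1 k1 Q1 X2 k2 Q2 : ℝ, Feas eps th X1 k1 Q1 X2 k2 Q2 → X2 ≤ X1 →
      CertAt eps lam th W X1 k1 Q1 X2 k2 Q2 := by
    intro X1 k1 Q1 X2 k2 Q2 hF hle
    have f1 := hF.hX1
    have f2 := hF.hX2
    have f3 := hF.hQ1
    have f4 := hF.hQ2
    have f5 := hF.sX
    have f6 := hF.sQ
    have f7 := sq_nonneg eps
    obtain ⟨s1, a1, a2', p1, p2, p3, p4, p5, p6, p7, p8, p9⟩ := hFar eps lam X1 k1 Q1 (43 * eta) c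
      he f1 (by linarith) hF.hk1 f3 hF.cs1 (by linarith) l1 (by linarith) hc (by linarith)
    obtain ⟨s2, b1, b2, q1, q2, q3, q4, q5, q6, q7, q8, q9⟩ := hFar eps lam X2 k2 Q2 (43 * eta) c
      he f2 (by linarith) hF.hk2 f4 hF.cs2 (by linarith) l1 (by linarith) hc (by linarith)
    have far := cert_far (lam := lam) (th := th) (k1 := k1) (Q1 := Q1) (k2 := k2) (Q2 := Q2) hW he2
      f5 (hFm eta a th0 (8 * eta) W W1 (by linarith) hS l3 (by linarith [hN.sm])) p1 p2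
      ⟨p3, p4, p5, p6, p7⟩ q1 q2 ⟨q3, q4, q5, q6, q7⟩
    by_cases g1 : c < eps ^ 2 / (Q1 + eps ^ 2) ∨
        2 * c < |(k1 - lam * (Q1 + eps ^ 2)) / (2 * Q1 + eps ^ 2)|
    · exact far (by linarith [p9 g1])
    by_cases g2 : c < eps ^ 2 / (Q2 + eps ^ 2) ∨
        2 * c < |(k2 - lam * (Q2 + eps ^ 2)) / (2 * Q2 + eps ^ 2)|
    · exact far (by linarith [q9 g2])
    push Not at g1 g2
    obtain ⟨u1, u2, _⟩ := good_sector (th := th) he f1 f3 hF.cs1 g1.1 g1.2 (by linarith)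
      (by linarith) hc (by linarith)
    obtain ⟨v1, _, v3⟩ := good_sector (th := th) he f2 f4 hF.cs2 g2.1 g2.2 (by linarith)
      (by linarith) hc (by linarith)
    rcases v3 with v3 | ⟨v3, v4, v5⟩
    · exact cert_zero hW he2 f5 u1 v1 (by linarith)
    have y1 : 8 * (R * a ^ 2) * K ≤ 1 := by
      have h1 : 8 * R * K * a ^ 2 ≤ 8 * R * K * eta := by gcongr
      linarith
    have y2 : 4 * (R * a ^ 2) * K ^ 2 ≤ 1 / 400 := by
      have h1 : 1600 * R * K ^ 2 * a ^ 2 ≤ 1600 * R * K ^ 2 * eta := by gcongr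
      linarith
    refine cert_near (a := a) (K := K) (R := R) (m0 := m0) (s := s) hW he hF v1 hle v3 v4 v5
      (fun rho A G g b r0 r1 r2 r3 r4 r5 r6 => ?_) (fun p q hp hq hpq hqp => ?_)
      (fun p q g m1 m2 => hMgf eta a th0 eps lam th W W1 (by linarith) hS hN p q g m1 m2)
      hK hR hc c1 hs1 (by linarith) c2 y1 y2
    · exact hNear s (6 * a ^ 2) (eps ^ 2) th lam (th - lam) rho A G g b hss (by positivity)
        (by linarith) (by positivity) he1 t0 (t2.trans hKs) rfl (by linarith [hN.lo])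
        (by linarith [hN.hi]) r0 r1 r2 r3 r4 r5 r6
    · refine ((hG p q hp hq hpq).2.2 hqp).trans ?_
      have h1 : q ^ 2 ≤ p ^ 2 := by gcongr
      exact mul_le_mul_of_nonneg_right hKs (by linarith)
  intro X1 k1 Q1 X2 k2 Q2 hF
  rcases le_total X2 X1 with h | h
  · exact main _ _ _ _ _ _ hF h
  · exact CertAt.swap hW hS.odd (main _ _ _ _ _ _ hF.swap h)

theorem twoM_of (hFin : FinStmt) (hFar : FarStmt) (hNear : NearStmt) (hGauss : GaussStmt)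
    (hMgf : MgfStmt) (hFm : FarMgfStmt) : TwoMStmt := by
  intro L
  obtain ⟨eta, he, h⟩ := cert_of hFar hNear hGauss hMgf hFm L
  exact ⟨eta, he, fun a th0 eps lam th W W1 hS hN =>
    hFin eps lam th W hN.eps0 hS.cont hS.mono hS.odd (h a th0 eps lam th W W1 hS hN)⟩

end Vale.Agent.N150.Sm2
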