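import Vale.Agent.N150.SmDef3

/-! Low temperature, second moment: facts about correlated Gaussian pairs. -/

open MeasureTheory ProbabilityTheory Filter Topology

namespace Vale.Agent.N150.Sm2.B

open Vale.Agent.P150

/-- two independent standard Gaussian variables -/
noncomputable abbrev g2 : Measure (ℝ × ℝ) := gam.prod gam

/-! ### Moments -/

theorem int_pow (k : ℕ) : Integrable (fun x : ℝ => x ^ k) gam := by
  have h := (memLp_id_gaussianReal (μ := 0) (v := 1) (k : NNReal)).integrable_norm_pow' (p := k)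
  refine Integrable.mono' h (by fun_prop) (ae_of_all _ fun x => ?_)
  simp

theorem mom_succ (k : ℕ) : ∫ x, x ^ (k + 2) ∂gam = (k + 1) * ∫ x, x ^ k ∂gam := by
  have h := stein_one (g := fun x => x ^ (k + 1)) (g' := fun x => (k + 1) * x ^ k)
    (fun t => by simpa using hasDerivAt_pow (k + 1) t)
    ((int_pow (k + 2)).congr (ae_of_all _ fun x => by simp only; ring))
    ((int_pow k).const_mul _) (int_pow (k + 1))
  rw [integral_const_mul] at h
  rw [← h]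
  exact integral_congr_ae (ae_of_all _ fun x => by simp only; ring)

theorem mom0 : ∫ x, x ^ 0 ∂gam = (1 : ℝ) := by simp
theorem mom1 : ∫ x, x ^ 1 ∂gam = (0 : ℝ) := by simp
theorem mom2 : ∫ x, x ^ 2 ∂gam = (1 : ℝ) := by rw [mom_succ 0, mom0]; norm_num
theorem mom3 : ∫ x, x ^ 3 ∂gam = (0 : ℝ) := by rw [mom_succ 1, mom1]; norm_num
theorem mom4 : ∫ x, x ^ 4 ∂gam = (3 : ℝ) := by rw [mom_succ 2, mom2]; norm_num
theorem mom5 : ∫ x, x ^ 5 ∂gam = (0 : ℝ) := by rw [mom_succ 3, mom3]; norm_num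
theorem mom6 : ∫ x, x ^ 6 ∂gam = (15 : ℝ) := by rw [mom_succ 4, mom4]; norm_num
theorem mom7 : ∫ x, x ^ 7 ∂gam = (0 : ℝ) := by rw [mom_succ 5, mom5]; norm_num
theorem mom8 : ∫ x, x ^ 8 ∂gam = (105 : ℝ) := by rw [mom_succ 6, mom6]; norm_num

/-- the mean of a polynomial of degree at most eight -/
theorem poly8 (c0 c1 c2 c3 c4 c5 c6 c7 c8 : ℝ) :
    ∫ x, (c0 + c1 * x + c2 * x ^ 2 + c3 * x ^ 3 + c4 * x ^ 4 + c5 * x ^ 5 + c6 * x ^ 6 +
      c7 * x ^ 7 + c8 * x ^ 8) ∂gam = c0 + c2 + 3 * c4 + 15 * c6 + 105 * c8 := by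
  have i : ∀ (c : ℝ) (k : ℕ), Integrable (fun x : ℝ => c * x ^ k) gam :=
    fun c k => (int_pow k).const_mul c
  have i0 : Integrable (fun _ : ℝ => c0) gam := integrable_const _
  have i1 : Integrable (fun x : ℝ => c1 * x) gam := by simpa using i c1 1
  have e1 : ∫ x, c1 * x ∂gam = 0 := by rw [integral_const_mul]; simp
  have j1 := i0.add i1
  have j2 := j1.add (i c2 2)
  have j3 := j2.add (i c3 3)
  have j4 := j3.add (i c4 4)
  have j5 := j4.add (i c5 5)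
  have j6 := j5.add (i c6 6)
  have j7 := j6.add (i c7 7)
  rw [integral_add (by exact j7) (i c8 8), integral_add (by exact j6) (i c7 7),
    integral_add (by exact j5) (i c6 6), integral_add (by exact j4) (i c5 5),
    integral_add (by exact j3) (i c4 4), integral_add (by exact j2) (i c3 3),
    integral_add (by exact j1) (i c2 2), integral_add i0 i1, e1]
  simp only [integral_const_mul, mom2, mom3, mom4, mom5, mom6, mom7, mom8, integral_const]
  simp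
  ring

/-! ### Functions of polynomial growth -/

/-- the weight -/
def wt (p : ℝ × ℝ) : ℝ := 1 + p.1 ^ 2 + p.2 ^ 2

theorem one_le_wt (p : ℝ × ℝ) : 1 ≤ wt p := by unfold wt; nlinarith [sq_nonneg p.1, sq_nonneg p.2]

theorem wt_pos (p : ℝ × ℝ) : 0 < wt p := lt_of_lt_of_le one_pos (one_le_wt p)

theorem int_wt1 (k : ℕ) : Integrable (fun x : ℝ => (1 + x ^ 2) ^ k) gam := by
  have h : Integrable (fun x : ℝ => 2 ^ k * (1 + x ^ (2 * k))) gam :=
    ((integrable_const (1 : ℝ)).add (int_pow (2 * k))).const_mul _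
  refine h.mono' (by fun_prop) (ae_of_all _ fun x => ?_)
  rw [Real.norm_eq_abs, abs_of_nonneg (by positivity), pow_mul]
  have h0 : 0 ≤ x ^ 2 := sq_nonneg x
  rcases le_total (x ^ 2) 1 with h1 | h1
  · calc (1 + x ^ 2) ^ k ≤ 2 ^ k := pow_le_pow_left₀ (by positivity) (by linarith) k
      _ ≤ 2 ^ k * (1 + (x ^ 2) ^ k) :=
        le_mul_of_one_le_right (by positivity) (by linarith [pow_nonneg h0 k])
  · calc (1 + x ^ 2) ^ k ≤ (2 * x ^ 2) ^ k := pow_le_pow_left₀ (by positivity) (by linarith) k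
      _ = 2 ^ k * (x ^ 2) ^ k := mul_pow _ _ _
      _ ≤ 2 ^ k * (1 + (x ^ 2) ^ k) := by gcongr; linarith

theorem int_wt (k : ℕ) : Integrable (fun p => wt p ^ k) g2 := by
  have h : Integrable (fun p : ℝ × ℝ => (1 + p.1 ^ 2) ^ k * (1 + p.2 ^ 2) ^ k) g2 :=
    (int_wt1 k).mul_prod (int_wt1 k)
  refine h.mono' (by unfold wt; fun_prop) (ae_of_all _ fun p => ?_)
  rw [Real.norm_eq_abs, abs_of_nonneg (pow_nonneg (wt_pos p).le k), ← mul_pow]
  refine pow_le_pow_left₀ (wt_pos p).le ?_ k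
  unfold wt
  nlinarith [mul_nonneg (sq_nonneg p.1) (sq_nonneg p.2)]

/-- the moments of the weight -/
noncomputable def Mk (k : ℕ) : ℝ := ∫ p, wt p ^ k ∂g2

theorem one_le_Mk (k : ℕ) : 1 ≤ Mk k := by
  have h : ∫ _ : ℝ × ℝ, (1 : ℝ) ∂g2 ≤ ∫ p, wt p ^ k ∂g2 :=
    integral_mono (integrable_const _) (int_wt k) fun p => one_le_pow₀ (one_le_wt p)
  simpa [Mk] using h

/-- measurable functions of polynomial growth on the plane -/
def P2 (f : ℝ × ℝ → ℝ) : Prop := Measurable f ∧ ∃ (C : ℝ) (k : ℕ), ∀ p, |f p| ≤ C * wt p ^ k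

/-- measurable functions of polynomial growth on the line -/
def P1 (f : ℝ → ℝ) : Prop := Measurable f ∧ ∃ (C : ℝ) (k : ℕ), ∀ x, |f x| ≤ C * (1 + x ^ 2) ^ k

theorem P2.integrable {f : ℝ × ℝ → ℝ} (h : P2 f) : Integrable f g2 := by
  obtain ⟨hm, C, k, hC⟩ := h
  exact ((int_wt k).const_mul C).mono' hm.aestronglyMeasurable (ae_of_all _ hC)

theorem P1.integrable {f : ℝ → ℝ} (h : P1 f) : Integrable f gam := by
  obtain ⟨hm, C, k, hC⟩ := h
  exact ((int_wt1 k).const_mul C).mono' hm.aestronglyMeasurable (ae_of_all _ hC)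

theorem abs_int_le {f : ℝ × ℝ → ℝ} {C : ℝ} {k : ℕ} (h : ∀ p, |f p| ≤ C * wt p ^ k) :
    |∫ p, f p ∂g2| ≤ C * Mk k := by
  have h1 := norm_integral_le_of_norm_le (μ := g2) (f := f) ((int_wt k).const_mul C)
    (ae_of_all _ h)
  rwa [integral_const_mul] at h1

theorem P2.const (c : ℝ) : P2 fun _ => c := ⟨measurable_const, |c|, 0, fun _ => by simp⟩

theorem P2.fst : P2 fun p => p.1 := ⟨measurable_fst, 1, 1, fun p => by
  unfold wt
  rw [abs_le]
  constructor <;> nlinarith [sq_nonneg (p.1 - 1), sq_nonneg (p.1 + 1), sq_nonneg p.2]⟩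

theorem P2.snd : P2 fun p => p.2 := ⟨measurable_snd, 1, 1, fun p => by
  unfold wt
  rw [abs_le]
  constructor <;> nlinarith [sq_nonneg (p.2 - 1), sq_nonneg (p.2 + 1), sq_nonneg p.1]⟩

theorem P2.nonneg {f : ℝ × ℝ → ℝ} {C : ℝ} {k : ℕ} (h : ∀ p, |f p| ≤ C * wt p ^ k) : 0 ≤ C := by
  have h1 := (abs_nonneg _).trans (h (0, 0))
  exact nonneg_of_mul_nonneg_left h1 (pow_pos (wt_pos _) k)

theorem P2.add {f g : ℝ × ℝ → ℝ} (hf : P2 f) (hg : P2 g) : P2 fun p => f p + g p := by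
  obtain ⟨mf, C, k, hC⟩ := hf
  obtain ⟨mg, D, l, hD⟩ := hg
  refine ⟨mf.add mg, C + D, k + l, fun p => ?_⟩
  have h1 : wt p ^ k ≤ wt p ^ (k + l) := pow_le_pow_right₀ (one_le_wt p) (by omega)
  have h2 : wt p ^ l ≤ wt p ^ (k + l) := pow_le_pow_right₀ (one_le_wt p) (by omega)
  have h3 := mul_le_mul_of_nonneg_left h1 (P2.nonneg hC)
  have h4 := mul_le_mul_of_nonneg_left h2 (P2.nonneg hD)
  have h5 := abs_add_le (f p) (g p)
  have h6 := hC p
  have h7 := hD p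
  linarith

theorem P2.mul {f g : ℝ × ℝ → ℝ} (hf : P2 f) (hg : P2 g) : P2 fun p => f p * g p := by
  obtain ⟨mf, C, k, hC⟩ := hf
  obtain ⟨mg, D, l, hD⟩ := hg
  refine ⟨mf.mul mg, C * D, k + l, fun p => ?_⟩
  rw [abs_mul, pow_add]
  calc |f p| * |g p| ≤ (C * wt p ^ k) * (D * wt p ^ l) :=
        mul_le_mul (hC p) (hD p) (abs_nonneg _) ((abs_nonneg _).trans (hC p))
    _ = C * D * (wt p ^ k * wt p ^ l) := by ring

theorem P2.cmul (c : ℝ) {f : ℝ × ℝ → ℝ} (hf : P2 f) : P2 fun p => c * f p := (P2.const c).mul hf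

theorem P2.neg {f : ℝ × ℝ → ℝ} (hf : P2 f) : P2 fun p => -f p := by
  simpa using P2.cmul (-1) hf

theorem P2.sub {f g : ℝ × ℝ → ℝ} (hf : P2 f) (hg : P2 g) : P2 fun p => f p - g p := by
  simpa [sub_eq_add_neg] using hf.add hg.neg

theorem P2.pow {f : ℝ × ℝ → ℝ} (hf : P2 f) (k : ℕ) : P2 fun p => f p ^ k := by
  induction k with
  | zero => simpa using P2.const 1
  | succ k ih => simpa [pow_succ] using ih.mul hf

theorem P2.abs {f : ℝ × ℝ → ℝ} (hf : P2 f) : P2 fun p => |f p| := by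
  obtain ⟨mf, C, k, hC⟩ := hf
  exact ⟨mf.abs, C, k, fun p => by rw [abs_abs]; exact hC p⟩

theorem P2.div {f : ℝ × ℝ → ℝ} (hf : P2 f) (c : ℝ) : P2 fun p => f p / c := by
  simpa [div_eq_mul_inv] using hf.mul (P2.const c⁻¹)

theorem P2.of_le {f g : ℝ × ℝ → ℝ} (hg : P2 g) (mf : Measurable f) (h : ∀ p, |f p| ≤ g p) :
    P2 f := by
  obtain ⟨_, C, k, hC⟩ := hg
  exact ⟨mf, C, k, fun p => (h p).trans ((le_abs_self _).trans (hC p))⟩

theorem P1.comp {f : ℝ → ℝ} (hf : P1 f) {u : ℝ × ℝ → ℝ} (hu : P2 u) : P2 fun p => f (u p) := by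
  obtain ⟨mf, C, k, hC⟩ := hf
  exact (P2.cmul C (((P2.const 1).add (hu.pow 2)).pow k)).of_le (mf.comp hu.1) fun p => hC (u p)

theorem P2.lin (A B : ℝ) : P2 fun p => A * p.1 + B * p.2 := (P2.cmul A P2.fst).add (P2.cmul B P2.snd)

theorem P1.of2 {f : ℝ → ℝ} (h : P2 fun p => f p.1) : P1 f := by
  obtain ⟨mf, C, k, hC⟩ := h
  refine ⟨mf.comp (measurable_id.prodMk measurable_const : Measurable fun x : ℝ => (x, (0 : ℝ))),
    C, k, fun x => ?_⟩
  simpa [wt] using hC (x, 0)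

theorem P1.to2 {f : ℝ → ℝ} (h : P1 f) : P2 fun p => f p.1 := h.comp P2.fst

theorem P1.const (c : ℝ) : P1 fun _ => c := P1.of2 (P2.const c)
theorem P1.id : P1 fun x => x := P1.of2 P2.fst
theorem P1.add {f g : ℝ → ℝ} (hf : P1 f) (hg : P1 g) : P1 fun x => f x + g x :=
  P1.of2 (hf.to2.add hg.to2)
theorem P1.sub {f g : ℝ → ℝ} (hf : P1 f) (hg : P1 g) : P1 fun x => f x - g x :=
  P1.of2 (hf.to2.sub hg.to2)
theorem P1.mul {f g : ℝ → ℝ} (hf : P1 f) (hg : P1 g) : P1 fun x => f x * g x :=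
  P1.of2 (hf.to2.mul hg.to2)
theorem P1.cmul (c : ℝ) {f : ℝ → ℝ} (hf : P1 f) : P1 fun x => c * f x := (P1.const c).mul hf
theorem P1.pow {f : ℝ → ℝ} (hf : P1 f) (k : ℕ) : P1 fun x => f x ^ k := P1.of2 (hf.to2.pow k)
theorem P1.scale {f : ℝ → ℝ} (hf : P1 f) (s : ℝ) : P1 fun x => f (s * x) :=
  P1.of2 (hf.comp (P2.cmul s P2.fst))

/-! ### Rotations -/

theorem rot {A B : ℝ} (h : A ^ 2 + B ^ 2 = 1) :
    MeasurePreserving (fun p : ℝ × ℝ => (A * p.1 + B * p.2, -B * p.1 + A * p.2)) g2 g2 := by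
  have hA : -1 ≤ A ∧ A ≤ 1 := by constructor <;> nlinarith [sq_nonneg B]
  obtain ⟨θ, hc, hs⟩ : ∃ θ : ℝ, Real.cos θ = A ∧ Real.sin θ = B := by
    have h1 : Real.sin (Real.arccos A) = |B| := by
      rw [Real.sin_arccos, show 1 - A ^ 2 = B ^ 2 by linarith, Real.sqrt_sq_eq_abs]
    rcases le_total 0 B with hB | hB
    · exact ⟨Real.arccos A, Real.cos_arccos hA.1 hA.2, by rw [h1, abs_of_nonneg hB]⟩
    · exact ⟨-Real.arccos A, by rw [Real.cos_neg, Real.cos_arccos hA.1 hA.2],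
        by rw [Real.sin_neg, h1, abs_of_nonpos hB, neg_neg]⟩
  have h2 := IsGaussian.map_rotation_eq_self (μ := gam) (by simp) θ
  refine ⟨by fun_prop, ?_⟩
  refine Eq.trans ?_ h2
  congr 1
  funext p
  simp [ContinuousLinearMap.rotation_apply, hc, hs]

theorem neg_pres : MeasurePreserving (fun x : ℝ => -x) gam gam :=
  ⟨measurable_neg, by simpa using gaussianReal_map_neg (μ := 0) (v := 1)⟩

theorem flip2 : MeasurePreserving (fun p : ℝ × ℝ => (p.1, -p.2)) g2 g2 :=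
  (MeasurePreserving.id gam).prod neg_pres

theorem int_comp {α β : Type*} [MeasurableSpace α] [MeasurableSpace β] {μ : Measure α}
    {ν : Measure β} {T : α → β} (hT : MeasurePreserving T μ ν) {F : β → ℝ} (hF : Measurable F) :
    ∫ p, F (T p) ∂μ = ∫ p, F p ∂ν := by
  rw [← hT.map_eq, integral_map hT.measurable.aemeasurable hF.aestronglyMeasurable]

theorem int_fst {f : ℝ → ℝ} (hf : Measurable f) : ∫ p, f p.1 ∂g2 = ∫ x, f x ∂gam :=
  int_comp (measurePreserving_fst (μ := gam) (ν := gam)) hf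

theorem int_snd {f : ℝ → ℝ} (hf : Measurable f) : ∫ p, f p.2 ∂g2 = ∫ x, f x ∂gam :=
  int_comp (measurePreserving_snd (μ := gam) (ν := gam)) hf

/-- the law of a unit combination -/
theorem lin_pres {A B : ℝ} (h : A ^ 2 + B ^ 2 = 1) :
    MeasurePreserving (fun p : ℝ × ℝ => A * p.1 + B * p.2) g2 gam :=
  (measurePreserving_fst (μ := gam) (ν := gam)).comp (rot h)

theorem int_lin {A B : ℝ} (h : A ^ 2 + B ^ 2 = 1) {f : ℝ → ℝ} (hf : Measurable f) :
    ∫ p, f (A * p.1 + B * p.2) ∂g2 = ∫ x, f x ∂gam := int_comp (lin_pres h) hf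

/-- the symmetric form of a correlated pair -/
theorem sym {A B : ℝ} (h : A ^ 2 + B ^ 2 = 1) {F : ℝ × ℝ → ℝ} (hF : Measurable F) :
    ∫ p, F (A * p.1 + B * p.2, A * p.1 - B * p.2) ∂g2 =
      ∫ p, F (p.1, (A ^ 2 - B ^ 2) * p.1 + (-(2 * A * B)) * p.2) ∂g2 := by
  rw [← int_comp (rot h) (F := fun p => F (p.1, (A ^ 2 - B ^ 2) * p.1 + (-(2 * A * B)) * p.2))
    (hF.comp (by fun_prop))]
  refine integral_congr_ae (ae_of_all _ fun p => ?_)
  simp only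
  congr 2
  linear_combination (-A * p.1 + B * p.2) * h

/-- the pair is exchangeable -/
theorem swap {ρ σ : ℝ} (h : ρ ^ 2 + σ ^ 2 = 1) {F : ℝ × ℝ → ℝ} (hF : Measurable F) :
    ∫ p, F (ρ * p.1 + σ * p.2, p.1) ∂g2 = ∫ p, F (p.1, ρ * p.1 + σ * p.2) ∂g2 := by
  rw [← int_comp flip2 (F := fun p => F (p.1, ρ * p.1 + σ * p.2)) (hF.comp (by fun_prop)),
    ← int_comp (rot h) (F := fun p => F (p.1, ρ * p.1 + σ * -p.2)) (hF.comp (by fun_prop))]
  refine integral_congr_ae (ae_of_all _ fun p => ?_)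
  simp only
  congr 2
  linear_combination (-p.1) * h

theorem int_odd {f : ℝ → ℝ} (hf : Measurable f) (ho : ∀ x, f (-x) = -f x) : ∫ x, f x ∂gam = 0 := by
  have h := int_comp neg_pres hf
  simp only [ho, integral_neg] at h
  linarith

/-! ### Odd functions with a derivative of quartic growth -/

/-- odd functions with `|f'| ≤ K (1 + x ^ 4)` -/
structure D1 (K : ℝ) (f f1 : ℝ → ℝ) : Prop where
  odd : ∀ x, f (-x) = -f x
  der : ∀ x, HasDerivAt f (f1 x) x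
  bd : ∀ x, |f1 x| ≤ K * (1 + x ^ 4)

theorem D1.nonneg {K : ℝ} {f f1 : ℝ → ℝ} (h : D1 K f f1) : 0 ≤ K := by
  have := (abs_nonneg _).trans (h.bd 0)
  simpa using this

theorem D1.cont {K : ℝ} {f f1 : ℝ → ℝ} (h : D1 K f f1) : Continuous f :=
  continuous_iff_continuousAt.2 fun x => (h.der x).continuousAt

theorem D1.zero {K : ℝ} {f f1 : ℝ → ℝ} (h : D1 K f f1) : f 0 = 0 := by
  have := h.odd 0
  rw [neg_zero] at this
  linarith

theorem D1.secant {K : ℝ} {f f1 : ℝ → ℝ} (h : D1 K f f1) (x y : ℝ) :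
    |f x - f y| ≤ K * (1 + x ^ 4 + y ^ 4) * |x - y| := by
  have h1 := (convex_uIcc y x).norm_image_sub_le_of_norm_hasDerivWithin_le
    (f := f) (f' := f1) (C := K * (1 + x ^ 4 + y ^ 4))
    (fun t _ => (h.der t).hasDerivWithinAt) (fun t ht => by
      refine (h.bd t).trans (mul_le_mul_of_nonneg_left ?_ h.nonneg)
      have h2 : |t| ≤ max |y| |x| := by
        rcases Set.mem_uIcc.1 ht with ⟨a, b⟩ | ⟨a, b⟩
        · exact abs_le_max_abs_abs a b
        · rw [max_comm]; exact abs_le_max_abs_abs a b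
      have h3 : t ^ 4 = |t| ^ 4 := by rw [← abs_pow]; exact (abs_of_nonneg (by positivity)).symm
      have h4 : x ^ 4 = |x| ^ 4 := by rw [← abs_pow]; exact (abs_of_nonneg (by positivity)).symm
      have h5 : y ^ 4 = |y| ^ 4 := by rw [← abs_pow]; exact (abs_of_nonneg (by positivity)).symm
      rw [h3, h4, h5]
      rcases le_max_iff.1 h2 with h6 | h6
      · have := pow_le_pow_left₀ (abs_nonneg t) h6 4
        have := pow_nonneg (abs_nonneg x) 4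
        linarith
      · have := pow_le_pow_left₀ (abs_nonneg t) h6 4
        have := pow_nonneg (abs_nonneg y) 4
        linarith) Set.left_mem_uIcc Set.right_mem_uIcc
  simpa [Real.norm_eq_abs] using h1

theorem D1.abs_le {K : ℝ} {f f1 : ℝ → ℝ} (h : D1 K f f1) (x : ℝ) :
    |f x| ≤ K * (1 + x ^ 4) * |x| := by
  simpa [h.zero] using h.secant x 0

theorem D1.p1 {K : ℝ} {f f1 : ℝ → ℝ} (h : D1 K f f1) : P1 f := by
  refine P1.of2 ((((P2.cmul K ((P2.const 1).add (P2.fst.pow 4)))).mul P2.fst.abs).of_le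
    (h.cont.measurable.comp measurable_fst) fun p => h.abs_le p.1)

theorem D1.mono {K K' : ℝ} {f f1 : ℝ → ℝ} (h : D1 K f f1) (hK : K ≤ K') : D1 K' f f1 :=
  ⟨h.odd, h.der, fun x => (h.bd x).trans (mul_le_mul_of_nonneg_right hK (by positivity))⟩

/-- the third Hermite polynomial -/
def He3 (x : ℝ) : ℝ := x ^ 3 - 3 * x

theorem He3_d1 : D1 5 He3 fun x => 3 * (x ^ 2 - 1) where
  odd := fun x => by unfold He3; ring
  der := fun x => by
    have h := (hasDerivAt_pow 3 x).sub ((hasDerivAt_id x).const_mul 3)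
    exact h.congr_deriv (by simp; ring)
  bd := fun x => by
    rw [abs_le]
    constructor <;> nlinarith [sq_nonneg (x ^ 2 - 1), sq_nonneg x, sq_nonneg (x ^ 2)]

theorem id_d1 : D1 1 (fun x => x) fun _ => 1 where
  odd := fun _ => rfl
  der := fun x => hasDerivAt_id x
  bd := fun x => by rw [abs_one]; nlinarith [sq_nonneg (x ^ 2)]

section pair

variable {ρ σ : ℝ}

theorem y_sq (h : ρ ^ 2 + σ ^ 2 = 1) (u g : ℝ) : (ρ * u + σ * g) ^ 2 ≤ u ^ 2 + g ^ 2 := by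
  have : (ρ * u + σ * g) ^ 2 + (σ * u - ρ * g) ^ 2 = (ρ ^ 2 + σ ^ 2) * (u ^ 2 + g ^ 2) := by ring
  rw [h] at this
  nlinarith [sq_nonneg (σ * u - ρ * g)]

theorem diff_sq (h : ρ ^ 2 + σ ^ 2 = 1) (u g : ℝ) :
    (u - (ρ * u + σ * g)) ^ 2 ≤ 2 * (1 - ρ) * (u ^ 2 + g ^ 2) := by
  have : (u - (ρ * u + σ * g)) ^ 2 + (σ * u + (1 - ρ) * g) ^ 2 =
      ((1 - ρ) ^ 2 + σ ^ 2) * (u ^ 2 + g ^ 2) := by ring
  have h2 : (1 - ρ) ^ 2 + σ ^ 2 = 2 * (1 - ρ) := by linarith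
  rw [h2] at this
  nlinarith [sq_nonneg (σ * u + (1 - ρ) * g)]

theorem rho_le (h : ρ ^ 2 + σ ^ 2 = 1) : -1 ≤ ρ ∧ ρ ≤ 1 := by
  constructor <;> nlinarith [sq_nonneg σ]

theorem quart_le {x y : ℝ} (p : ℝ × ℝ) (hx : x ^ 2 ≤ p.1 ^ 2 + p.2 ^ 2)
    (hy : y ^ 2 ≤ p.1 ^ 2 + p.2 ^ 2) : 1 + x ^ 4 + y ^ 4 ≤ 2 * wt p ^ 2 := by
  unfold wt
  have h1 := pow_le_pow_left₀ (sq_nonneg x) hx 2
  have h2 := pow_le_pow_left₀ (sq_nonneg y) hy 2
  nlinarith [sq_nonneg p.1, sq_nonneg p.2]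

/-- pointwise secant bound along the pair -/
theorem D1.diff_sq {K : ℝ} {f f1 : ℝ → ℝ} (hf : D1 K f f1) (h : ρ ^ 2 + σ ^ 2 = 1) (p : ℝ × ℝ) :
    (f p.1 - f (ρ * p.1 + σ * p.2)) ^ 2 ≤ 8 * K ^ 2 * (1 - ρ) * wt p ^ 5 := by
  have h1 := hf.secant p.1 (ρ * p.1 + σ * p.2)
  have h2 := quart_le p (x := p.1) (by nlinarith [sq_nonneg p.2]) (y_sq h p.1 p.2)
  have h3 := B.diff_sq h p.1 p.2
  have hK := hf.nonneg
  have hρ : 0 ≤ 1 - ρ := by linarith [(rho_le h).2]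
  have h4 : |f p.1 - f (ρ * p.1 + σ * p.2)| ≤ K * (2 * wt p ^ 2) * |p.1 - (ρ * p.1 + σ * p.2)| :=
    h1.trans (by gcongr)
  have h5 := pow_le_pow_left₀ (abs_nonneg _) h4 2
  rw [sq_abs, mul_pow, sq_abs] at h5
  have h6 : p.1 ^ 2 + p.2 ^ 2 ≤ wt p := by unfold wt; linarith
  have h7 : (p.1 - (ρ * p.1 + σ * p.2)) ^ 2 ≤ 2 * (1 - ρ) * wt p := h3.trans (by gcongr)
  calc _ ≤ (K * (2 * wt p ^ 2)) ^ 2 * (2 * (1 - ρ) * wt p) := h5.trans (by gcongr)
    _ = _ := by ring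

/-- near the diagonal -/
theorem near1 {K K' : ℝ} {f f1 k k1 : ℝ → ℝ} (hf : D1 K f f1) (hk : D1 K' k k1)
    (h : ρ ^ 2 + σ ^ 2 = 1) :
    |∫ p, (f p.1 - f (ρ * p.1 + σ * p.2)) * (k p.1 - k (ρ * p.1 + σ * p.2)) ∂g2| ≤
      8 * K * K' * (1 - ρ) * Mk 5 := by
  refine abs_int_le fun p => ?_
  have hρ : 0 ≤ 1 - ρ := by linarith [(rho_le h).2]
  have hK := hf.nonneg
  have hK' := hk.nonneg
  have hw := (wt_pos p).le
  refine abs_le_of_sq_le_sq' ?_ (by positivity) |> abs_le.2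
  rw [mul_pow]
  calc _ ≤ (8 * K ^ 2 * (1 - ρ) * wt p ^ 5) * (8 * K' ^ 2 * (1 - ρ) * wt p ^ 5) :=
        mul_le_mul (hf.diff_sq h p) (hk.diff_sq h p) (sq_nonneg _) (by positivity)
    _ = _ := by ring

theorem four1 {K : ℝ} {f f1 : ℝ → ℝ} (hf : D1 K f f1) (h : ρ ^ 2 + σ ^ 2 = 1) :
    ∫ p, (f p.1 - f (ρ * p.1 + σ * p.2)) ^ 4 ∂g2 ≤ 64 * K ^ 4 * (1 - ρ) ^ 2 * Mk 10 := by
  refine (le_abs_self _).trans (abs_int_le fun p => ?_)
  rw [abs_of_nonneg (by positivity)]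
  have h1 := pow_le_pow_left₀ (sq_nonneg _) (hf.diff_sq h p) 2
  calc _ = ((f p.1 - f (ρ * p.1 + σ * p.2)) ^ 2) ^ 2 := by ring
    _ ≤ _ := h1
    _ = _ := by ring

/-- near independence -/
theorem near0 {K K' : ℝ} {f f1 k k1 : ℝ → ℝ} (hf : D1 K f f1) (hk : D1 K' k k1)
    (h : ρ ^ 2 + σ ^ 2 = 1) :
    |∫ p, f p.1 * k (ρ * p.1 + σ * p.2) ∂g2| ≤ 2 * K * K' * |ρ| * Mk 5 := by
  have i1 : P2 fun p => f p.1 * k (ρ * p.1 + σ * p.2) := hf.p1.to2.mul (hk.p1.comp (P2.lin ρ σ))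
  have i2 : P2 fun p => f p.1 * k (σ * p.2) := hf.p1.to2.mul (hk.p1.comp (P2.cmul σ P2.snd))
  have e0 : ∫ p, f p.1 * k (σ * p.2) ∂g2 = 0 := by
    rw [integral_prod_mul (μ := gam) (ν := gam) f fun y => k (σ * y),
      int_odd hf.cont.measurable hf.odd, zero_mul]
  have e1 : ∫ p, f p.1 * k (ρ * p.1 + σ * p.2) ∂g2 =
      ∫ p, (f p.1 * k (ρ * p.1 + σ * p.2) - f p.1 * k (σ * p.2)) ∂g2 := by
    rw [integral_sub i1.integrable i2.integrable, e0, sub_zero]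
  rw [e1]
  refine abs_int_le fun p => ?_
  have hK := hf.nonneg
  have hK' := hk.nonneg
  have hw := (wt_pos p).le
  rw [← mul_sub, abs_mul]
  have h1 := hf.abs_le p.1
  have h2 := hk.secant (ρ * p.1 + σ * p.2) (σ * p.2)
  have h3 := quart_le p (y_sq h p.1 p.2) (y := σ * p.2) (by
    have : σ ^ 2 ≤ 1 := by nlinarith [sq_nonneg ρ]
    rw [mul_pow]
    nlinarith [sq_nonneg p.1, sq_nonneg p.2])
  have h4 : 1 + p.1 ^ 4 ≤ wt p ^ 2 := by
    unfold wt
    nlinarith [sq_nonneg p.1, sq_nonneg p.2, mul_nonneg (sq_nonneg p.1) (sq_nonneg p.2),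
      sq_nonneg (p.2 ^ 2)]
  have h5 : |p.1| * |p.1| ≤ wt p := by
    rw [abs_mul_abs_self]; unfold wt; nlinarith [sq_nonneg p.2]
  rw [show ρ * p.1 + σ * p.2 - σ * p.2 = ρ * p.1 by ring, abs_mul] at h2
  calc _ ≤ (K * wt p ^ 2 * |p.1|) * (K' * (2 * wt p ^ 2) * (|ρ| * |p.1|)) :=
        mul_le_mul (h1.trans (by gcongr)) (h2.trans (by gcongr)) (abs_nonneg _) (by positivity)
    _ = 2 * K * K' * |ρ| * wt p ^ 4 * (|p.1| * |p.1|) := by ring
    _ ≤ 2 * K * K' * |ρ| * wt p ^ 4 * wt p := by gcongr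
    _ = _ := by ring

/-- iterated integral, the inner variable is the second one -/
theorem iter {F : ℝ × ℝ → ℝ} (hF : P2 F) : ∫ p, F p ∂g2 = ∫ u, ∫ g, F (u, g) ∂gam ∂gam :=
  integral_prod F hF.integrable

theorem cond_lin {f : ℝ → ℝ} (hf : P1 f) (ρ σ : ℝ) :
    ∫ p, f p.1 * (ρ * p.1 + σ * p.2) ∂g2 = ρ * ∫ x, x * f x ∂gam := by
  rw [iter (hf.to2.mul (P2.lin ρ σ)), ← integral_const_mul]
  refine integral_congr_ae (ae_of_all _ fun u => ?_)
  have h := poly8 (f u * (ρ * u)) (f u * σ) 0 0 0 0 0 0 0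
  simp only at h ⊢
  calc _ = _ := integral_congr_ae (ae_of_all _ fun g => by ring)
    _ = _ := h
    _ = _ := by ring

theorem cond_He3 {f : ℝ → ℝ} (hf : P1 f) (h : ρ ^ 2 + σ ^ 2 = 1) :
    ∫ p, f p.1 * He3 (ρ * p.1 + σ * p.2) ∂g2 = ρ ^ 3 * ∫ x, f x * He3 x ∂gam := by
  rw [iter (hf.to2.mul (He3_d1.p1.comp (P2.lin ρ σ))), ← integral_const_mul]
  refine integral_congr_ae (ae_of_all _ fun u => ?_)
  have h1 := poly8 (f u * ((ρ * u) ^ 3 - 3 * (ρ * u))) (f u * (3 * (ρ * u) ^ 2 * σ - 3 * σ))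
    (f u * (3 * (ρ * u) * σ ^ 2)) (f u * σ ^ 3) 0 0 0 0 0
  simp only at h1 ⊢
  calc _ = _ := integral_congr_ae (ae_of_all _ fun g => by simp only [He3]; ring)
    _ = _ := h1
    _ = _ := by
      unfold He3
      rw [show σ ^ 2 = 1 - ρ ^ 2 by linarith]
      ring

theorem He3_sq : ∫ x, He3 x * He3 x ∂gam = 6 := by
  have h := poly8 0 0 9 0 (-6) 0 1 0 0
  calc _ = _ := integral_congr_ae (ae_of_all _ fun g => by simp only [He3]; ring)
    _ = _ := h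
    _ = _ := by norm_num

theorem id_He3 : ∫ x, x * He3 x ∂gam = 0 := by
  have h := poly8 0 0 (-3) 0 1 0 0 0 0
  calc _ = _ := integral_congr_ae (ae_of_all _ fun g => by unfold He3; ring)
    _ = _ := h
    _ = _ := by norm_num

/-- the mean square of the increment along the pair -/
theorem incr_sq {f : ℝ → ℝ} (hf : P1 f) (h : ρ ^ 2 + σ ^ 2 = 1) :
    ∫ p, (f p.1 - f (ρ * p.1 + σ * p.2)) ^ 2 ∂g2 =
      2 * ∫ x, f x ^ 2 ∂gam - 2 * ∫ p, f p.1 * f (ρ * p.1 + σ * p.2) ∂g2 := by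
  have i1 := (hf.to2.pow 2).integrable
  have i2 := ((hf.comp (P2.lin ρ σ)).pow 2).integrable
  have i3 := (P2.cmul 2 (hf.to2.mul (hf.comp (P2.lin ρ σ)))).integrable
  have e : ∀ p : ℝ × ℝ, (f p.1 - f (ρ * p.1 + σ * p.2)) ^ 2 =
      f p.1 ^ 2 + f (ρ * p.1 + σ * p.2) ^ 2 - 2 * (f p.1 * f (ρ * p.1 + σ * p.2)) :=
    fun p => by ring
  simp only [e]
  rw [integral_sub (by exact i1.add i2) i3, integral_add i1 i2, integral_const_mul,
    int_fst (f := fun x => f x ^ 2) (hf.1.pow_const 2),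
    int_lin h (f := fun x => f x ^ 2) (hf.1.pow_const 2)]
  ring

end pair

/-! ### The site function -/

section site

variable {L eta a th0 eps lam th : ℝ} {W W1 : ℝ → ℝ}

theorem W_d1 (h : Shape L eta a th0 W W1) : D1 L W W1 where
  odd := h.odd
  der := h.der
  bd := fun x => by
    have h0 : 0 ≤ L := (h.pos 0).trans (h.lip 0)
    rw [abs_of_nonneg (h.pos x)]
    exact (h.lip x).trans (le_mul_of_one_le_right h0 (by nlinarith [sq_nonneg (x ^ 2)]))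

theorem W1_meas (h : Shape L eta a th0 W W1) : Measurable W1 := by
  have : W1 = deriv W := funext fun x => (h.der x).deriv.symm
  rw [this]
  exact measurable_deriv W

theorem W1_p1 (h : Shape L eta a th0 W W1) : P1 W1 :=
  ⟨W1_meas h, L, 0, fun x => by rw [abs_of_nonneg (h.pos x)]; simpa using h.lip x⟩

theorem ea_nonneg (h : Shape L eta a th0 W W1) : 0 ≤ eta * |a| := by
  have := (abs_nonneg _).trans (h.apx 0)
  simpa using this

theorem stein_W (h : Shape L eta a th0 W W1) : ∫ z, z * W z ∂gam = ∫ z, W1 z ∂gam :=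
  stein_one h.der (P1.id.mul (W_d1 h).p1).integrable (W1_p1 h).integrable (W_d1 h).p1.integrable

theorem th_nonneg (h : Shape L eta a th0 W W1) (hth : ∫ z, z * W z ∂gam = th) : 0 ≤ th := by
  rw [← hth, stein_W h]
  exact integral_nonneg h.pos

theorem th_sub (h : Shape L eta a th0 W W1) (hth : ∫ z, z * W z ∂gam = th) :
    |th - th0| ≤ 4 * (eta * |a|) := by
  have p1 : P1 fun z : ℝ => th0 + 3 * a * (z ^ 2 - 1) :=
    (P1.const _).add (P1.cmul _ ((P1.id.pow 2).sub (P1.const 1)))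
  have e1 : ∫ z, (th0 + 3 * a * (z ^ 2 - 1)) ∂gam = th0 := by
    have h := poly8 (th0 - 3 * a) 0 (3 * a) 0 0 0 0 0 0
    calc _ = _ := integral_congr_ae (ae_of_all _ fun g => by ring)
      _ = _ := h
      _ = _ := by ring
  have e2 : ∫ z, eta * |a| * (1 + z ^ 4) ∂gam = 4 * (eta * |a|) := by
    have h := poly8 (eta * |a|) 0 0 0 (eta * |a|) 0 0 0 0
    calc _ = _ := integral_congr_ae (ae_of_all _ fun g => by ring)
      _ = _ := h
      _ = _ := by ring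
  have e3 : th - th0 = ∫ z, (W1 z - (th0 + 3 * a * (z ^ 2 - 1))) ∂gam := by
    rw [integral_sub (W1_p1 h).integrable p1.integrable, e1, ← stein_W h, hth]
  rw [e3, ← e2, ← Real.norm_eq_abs]
  refine norm_integral_le_of_norm_le (μ := gam)
    (P1.cmul _ ((P1.const 1).add (P1.id.pow 4))).integrable (ae_of_all _ fun z => ?_)
  rw [Real.norm_eq_abs, ← sub_sub]
  exact h.apx z

/-- the remainder -/
def rem (W : ℝ → ℝ) (th a : ℝ) (z : ℝ) : ℝ := W z - th * z - a * He3 z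

theorem rem_d1 (h : Shape L eta a th0 W W1) (hth : ∫ z, z * W z ∂gam = th) :
    D1 (5 * (eta * |a|)) (rem W th a) fun z => W1 z - th - a * (3 * (z ^ 2 - 1)) where
  odd := fun x => by unfold rem; rw [h.odd, He3_d1.odd]; ring
  der := fun x => by
    have h1 := ((h.der x).sub ((hasDerivAt_id x).const_mul th)).sub ((He3_d1.der x).const_mul a)
    exact h1.congr_deriv (by ring)
  bd := fun x => by
    have h1 := h.apx x
    have h2 := th_sub h hth
    have h3 := ea_nonneg h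
    have h4 : W1 x - th - a * (3 * (x ^ 2 - 1)) =
        (W1 x - th0 - 3 * a * (x ^ 2 - 1)) - (th - th0) := by ring
    rw [h4]
    have h5 := abs_sub (W1 x - th0 - 3 * a * (x ^ 2 - 1)) (th - th0)
    have h6 : 0 ≤ eta * |a| * x ^ 4 := mul_nonneg h3 (by positivity)
    nlinarith

/-- the nonlinear part -/
def nl (W : ℝ → ℝ) (th : ℝ) (z : ℝ) : ℝ := W z - th * z

theorem nl_eq (W : ℝ → ℝ) (th a z : ℝ) : nl W th z = a * He3 z + rem W th a z := by
  unfold nl rem; ring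

theorem nl_p1 (h : Shape L eta a th0 W W1) (th : ℝ) : P1 (nl W th) :=
  (W_d1 h).p1.sub (P1.cmul th P1.id)

theorem nl_orth (h : Shape L eta a th0 W W1) (hth : ∫ z, z * W z ∂gam = th) :
    ∫ z, z * nl W th z ∂gam = 0 := by
  have e : ∀ z, z * nl W th z = z * W z - th * z ^ 2 := fun z => by unfold nl; ring
  simp only [e]
  rw [integral_sub (P1.id.mul (W_d1 h).p1).integrable (P1.cmul th (P1.id.pow 2)).integrable, hth,
    integral_const_mul, mom2]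
  ring

variable {ρ σ : ℝ}

/-- the covariance of `f` along the pair -/
noncomputable def cv (f : ℝ → ℝ) (ρ σ : ℝ) : ℝ := ∫ p, f p.1 * f (ρ * p.1 + σ * p.2) ∂g2

theorem cv_one {f : ℝ → ℝ} (hf : Measurable f) : cv f 1 0 = ∫ x, f x ^ 2 ∂gam := by
  unfold cv
  rw [← int_fst (f := fun x => f x ^ 2) (hf.pow_const 2)]
  exact integral_congr_ae (ae_of_all _ fun p => by simp [sq])

theorem cv_W (h : Shape L eta a th0 W W1) (hth : ∫ z, z * W z ∂gam = th)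
    (hρ : ρ ^ 2 + σ ^ 2 = 1) : cv W ρ σ = th ^ 2 * ρ + cv (nl W th) ρ σ := by
  have pn := nl_p1 h th
  have pl := P2.lin ρ σ
  have e : ∀ p : ℝ × ℝ, W p.1 * W (ρ * p.1 + σ * p.2) =
      th ^ 2 * (p.1 * (ρ * p.1 + σ * p.2)) + th * (nl W th p.1 * (ρ * p.1 + σ * p.2)) +
        th * (nl W th (ρ * p.1 + σ * p.2) * p.1) + nl W th p.1 * nl W th (ρ * p.1 + σ * p.2) :=
    fun p => by unfold nl; ring
  have i1 := (P2.cmul (th ^ 2) (P2.fst.mul pl)).integrable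
  have i2 := (P2.cmul th (pn.to2.mul pl)).integrable
  have i3 := (P2.cmul th ((pn.comp pl).mul P2.fst)).integrable
  have i4 := (pn.to2.mul (pn.comp pl)).integrable
  have c1 := cond_lin P1.id ρ σ
  have c2 := cond_lin pn ρ σ
  have c3 := swap hρ (F := fun p => nl W th p.1 * p.2) ((pn.1.comp measurable_fst).mul measurable_snd)
  have c4 : ∫ x, x * x ∂gam = (1 : ℝ) := by simpa [sq] using mom2
  simp only at c1 c3
  rw [nl_orth h hth] at c2
  unfold cv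
  simp only [e]
  rw [integral_add (by exact (i1.add i2).add i3) i4, integral_add (by exact i1.add i2) i3,
    integral_add i1 i2, integral_const_mul, integral_const_mul, integral_const_mul, c3, c2, c1, c4]
  ring

theorem cv_near0 (h : Shape L eta a th0 W W1) (hth : ∫ z, z * W z ∂gam = th) (he : eta ≤ 1)
    (he0 : 0 ≤ eta) (hρ : ρ ^ 2 + σ ^ 2 = 1) :
    |cv (nl W th) ρ σ - 6 * a ^ 2 * ρ ^ 3| ≤ 150 * Mk 5 * eta * a ^ 2 * |ρ| := by
  have dr := rem_d1 h hth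
  have pr := dr.p1
  have pH := He3_d1.p1
  have pl := P2.lin ρ σ
  have e : ∀ p : ℝ × ℝ, nl W th p.1 * nl W th (ρ * p.1 + σ * p.2) =
      a ^ 2 * (He3 p.1 * He3 (ρ * p.1 + σ * p.2)) + a * (He3 p.1 * rem W th a (ρ * p.1 + σ * p.2)) +
        a * (rem W th a p.1 * He3 (ρ * p.1 + σ * p.2)) +
        rem W th a p.1 * rem W th a (ρ * p.1 + σ * p.2) :=
    fun p => by rw [nl_eq W th a, nl_eq W th a]; ring
  have i1 := (P2.cmul (a ^ 2) (pH.to2.mul (pH.comp pl))).integrable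
  have i2 := (P2.cmul a (pH.to2.mul (pr.comp pl))).integrable
  have i3 := (P2.cmul a (pr.to2.mul (pH.comp pl))).integrable
  have i4 := (pr.to2.mul (pr.comp pl)).integrable
  have c1 := cond_He3 pH hρ
  have b2 := near0 He3_d1 dr hρ
  have b3 := near0 dr He3_d1 hρ
  have b4 := near0 dr dr hρ
  rw [He3_sq] at c1
  unfold cv
  simp only [e]
  rw [integral_add (by exact (i1.add i2).add i3) i4, integral_add (by exact i1.add i2) i3,
    integral_add i1 i2, integral_const_mul, integral_const_mul, integral_const_mul, c1]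
  generalize ∫ p, He3 p.1 * rem W th a (ρ * p.1 + σ * p.2) ∂g2 = x2 at b2 ⊢
  generalize ∫ p, rem W th a p.1 * He3 (ρ * p.1 + σ * p.2) ∂g2 = x3 at b3 ⊢
  generalize ∫ p, rem W th a p.1 * rem W th a (ρ * p.1 + σ * p.2) ∂g2 = x4 at b4 ⊢
  have hM : 0 ≤ Mk 5 := zero_le_one.trans (one_le_Mk 5)
  have ha := abs_nonneg a
  have ha2 : |a| * |a| = a ^ 2 := by rw [abs_mul_abs_self, sq]
  have e1 : a ^ 2 * (ρ ^ 3 * 6) + a * x2 + a * x3 + x4 - 6 * a ^ 2 * ρ ^ 3 = a * x2 + a * x3 + x4 := by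
    ring
  rw [e1]
  have t1 : |a * x2| ≤ 50 * Mk 5 * eta * a ^ 2 * |ρ| := by
    rw [abs_mul, ← ha2]
    calc _ ≤ |a| * (2 * 5 * (5 * (eta * |a|)) * |ρ| * Mk 5) := by gcongr
      _ = _ := by ring
  have t2 : |a * x3| ≤ 50 * Mk 5 * eta * a ^ 2 * |ρ| := by
    rw [abs_mul, ← ha2]
    calc _ ≤ |a| * (2 * (5 * (eta * |a|)) * 5 * |ρ| * Mk 5) := by gcongr
      _ = _ := by ring
  have t3 : |x4| ≤ 50 * Mk 5 * eta * a ^ 2 * |ρ| := by
    rw [← ha2]
    calc _ ≤ _ := b4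
      _ = eta * (50 * Mk 5 * eta * (|a| * |a|) * |ρ|) := by ring
      _ ≤ _ := mul_le_of_le_one_left (by positivity) he
  have t4 := abs_add_three (a * x2) (a * x3) x4
  linarith

theorem nl_sq (h : Shape L eta a th0 W W1) (hth : ∫ z, z * W z ∂gam = th) (he : eta ≤ 1)
    (he0 : 0 ≤ eta) : |∫ x, nl W th x ^ 2 ∂gam - 6 * a ^ 2| ≤ 150 * Mk 5 * eta * a ^ 2 := by
  have h1 := cv_near0 (ρ := 1) (σ := 0) h hth he he0 (by norm_num)
  rw [cv_one (nl_p1 h th).1] at h1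
  simpa using h1

theorem cv_near1 (h : Shape L eta a th0 W W1) (hth : ∫ z, z * W z ∂gam = th) (he : eta ≤ 1)
    (he0 : 0 ≤ eta) (hρ : ρ ^ 2 + σ ^ 2 = 1) :
    |∫ x, nl W th x ^ 2 ∂gam - cv (nl W th) ρ σ - 6 * a ^ 2 * (1 - ρ ^ 3)| ≤
      300 * Mk 5 * eta * a ^ 2 * (1 - ρ) := by
  have dr := rem_d1 h hth
  have pr := dr.p1
  have pH := He3_d1.p1
  have pl := P2.lin ρ σ
  have qH := pH.to2.sub (pH.comp pl)
  have qr := pr.to2.sub (pr.comp pl)
  have e : ∀ p : ℝ × ℝ, (nl W th p.1 - nl W th (ρ * p.1 + σ * p.2)) ^ 2 =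
      a ^ 2 * (He3 p.1 - He3 (ρ * p.1 + σ * p.2)) ^ 2 +
        2 * a * ((He3 p.1 - He3 (ρ * p.1 + σ * p.2)) *
          (rem W th a p.1 - rem W th a (ρ * p.1 + σ * p.2))) +
        (rem W th a p.1 - rem W th a (ρ * p.1 + σ * p.2)) *
          (rem W th a p.1 - rem W th a (ρ * p.1 + σ * p.2)) :=
    fun p => by rw [nl_eq W th a, nl_eq W th a]; ring
  have i1 := (P2.cmul (a ^ 2) (qH.pow 2)).integrable
  have i2 := (P2.cmul (2 * a) (qH.mul qr)).integrable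
  have i3 := (qr.mul qr).integrable
  have c0 := incr_sq (nl_p1 h th) hρ
  have c1 := incr_sq pH hρ
  have c2 := cond_He3 pH hρ
  have c3 : ∫ x, He3 x ^ 2 ∂gam = 6 := by simpa [sq] using He3_sq
  rw [He3_sq] at c2
  rw [c2, c3] at c1
  have b2 := near1 He3_d1 dr hρ
  have b3 := near1 dr dr hρ
  simp only [e] at c0
  rw [integral_add (by exact i1.add i2) i3, integral_add i1 i2, integral_const_mul,
    integral_const_mul, c1] at c0
  unfold cv
  generalize ∫ p, (He3 p.1 - He3 (ρ * p.1 + σ * p.2)) *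
    (rem W th a p.1 - rem W th a (ρ * p.1 + σ * p.2)) ∂g2 = x2 at b2 c0
  generalize ∫ p, (rem W th a p.1 - rem W th a (ρ * p.1 + σ * p.2)) *
    (rem W th a p.1 - rem W th a (ρ * p.1 + σ * p.2)) ∂g2 = x3 at b3 c0
  have hM : 0 ≤ Mk 5 := zero_le_one.trans (one_le_Mk 5)
  have hr : 0 ≤ 1 - ρ := by linarith [(rho_le hρ).2]
  have ha := abs_nonneg a
  have ha2 : |a| * |a| = a ^ 2 := by rw [abs_mul_abs_self, sq]
  have e1 : ∫ x, nl W th x ^ 2 ∂gam - ∫ p, nl W th p.1 * nl W th (ρ * p.1 + σ * p.2) ∂g2 -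
      6 * a ^ 2 * (1 - ρ ^ 3) = a * x2 + x3 / 2 := by linarith
  rw [e1]
  have t1 : |a * x2| ≤ 200 * Mk 5 * eta * a ^ 2 * (1 - ρ) := by
    rw [abs_mul, ← ha2]
    calc _ ≤ |a| * (8 * 5 * (5 * (eta * |a|)) * (1 - ρ) * Mk 5) := by gcongr
      _ = _ := by ring
  have t3 : |x3 / 2| ≤ 100 * Mk 5 * eta * a ^ 2 * (1 - ρ) := by
    rw [← ha2, abs_div, abs_two, div_le_iff₀ two_pos]
    calc _ ≤ _ := b3
      _ = eta * (100 * Mk 5 * eta * (|a| * |a|) * (1 - ρ) * 2) := by ring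
      _ ≤ _ := mul_le_of_le_one_left (by positivity) he
  have t4 := abs_add_le (a * x2) (x3 / 2)
  linarith

theorem W_sq (h : Shape L eta a th0 W W1) (hth : ∫ z, z * W z ∂gam = th) :
    ∫ x, W x ^ 2 ∂gam = th ^ 2 + ∫ x, nl W th x ^ 2 ∂gam := by
  have h1 := cv_W (ρ := 1) (σ := 0) h hth (by norm_num)
  rw [cv_one (nl_p1 h th).1, cv_one (W_d1 h).p1.1] at h1
  simpa using h1

/-- the gap of the covariance function, with an error which is relative at `0` and at `1` -/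
theorem cv_gap (h : Shape L eta a th0 W W1) (hth : ∫ z, z * W z ∂gam = th) (he : eta ≤ 1)
    (he0 : 0 ≤ eta) (hρ : ρ ^ 2 + σ ^ 2 = 1) (h0 : 0 ≤ ρ) :
    |ρ * ∫ x, W x ^ 2 ∂gam - cv W ρ σ - 6 * a ^ 2 * (ρ - ρ ^ 3)| ≤
      900 * Mk 5 * eta * a ^ 2 * (ρ * (1 - ρ)) := by
  have h1 := cv_near0 h hth he he0 hρ
  have h2 := cv_near1 h hth he he0 hρ
  have h3 := nl_sq h hth he he0
  rw [W_sq h hth, cv_W h hth hρ]
  rw [abs_of_nonneg h0] at h1
  generalize ∫ x, nl W th x ^ 2 ∂gam = N1 at h1 h2 h3 ⊢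
  generalize cv (nl W th) ρ σ = N at h1 h2 ⊢
  have hM : 0 ≤ Mk 5 := zero_le_one.trans (one_le_Mk 5)
  have hr : 0 ≤ 1 - ρ := by linarith [(rho_le hρ).2]
  obtain ⟨E, hE⟩ : ∃ E, E = Mk 5 * eta * a ^ 2 := ⟨_, rfl⟩
  have hE0 : 0 ≤ E := by rw [hE]; positivity
  have h1' : |N - 6 * a ^ 2 * ρ ^ 3| ≤ 150 * E * ρ := by rw [hE]; linarith
  have h2' : |N1 - N - 6 * a ^ 2 * (1 - ρ ^ 3)| ≤ 300 * E * (1 - ρ) := by rw [hE]; linarith
  have h3' : |N1 - 6 * a ^ 2| ≤ 150 * E := by rw [hE]; linarith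
  have goal : |ρ * (th ^ 2 + N1) - (th ^ 2 * ρ + N) - 6 * a ^ 2 * (ρ - ρ ^ 3)| ≤
      900 * E * (ρ * (1 - ρ)) := by
    rcases le_total ρ (1 / 2) with hh | hh
    · have e : ρ * (th ^ 2 + N1) - (th ^ 2 * ρ + N) - 6 * a ^ 2 * (ρ - ρ ^ 3) =
          ρ * (N1 - 6 * a ^ 2) - (N - 6 * a ^ 2 * ρ ^ 3) := by ring
      have t1 : |ρ * (N1 - 6 * a ^ 2)| ≤ ρ * (150 * E) := by
        rw [abs_mul, abs_of_nonneg h0]; gcongr
      have t2 := abs_sub (ρ * (N1 - 6 * a ^ 2)) (N - 6 * a ^ 2 * ρ ^ 3)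
      have t3 : E * ρ * (1 / 2) ≤ E * ρ * (1 - ρ) :=
        mul_le_mul_of_nonneg_left (by linarith) (by positivity)
      have t4 : 0 ≤ E * ρ := by positivity
      rw [e]
      nlinarith
    · have e : ρ * (th ^ 2 + N1) - (th ^ 2 * ρ + N) - 6 * a ^ 2 * (ρ - ρ ^ 3) =
          (N1 - N - 6 * a ^ 2 * (1 - ρ ^ 3)) - (1 - ρ) * (N1 - 6 * a ^ 2) := by ring
      have t1 : |(1 - ρ) * (N1 - 6 * a ^ 2)| ≤ (1 - ρ) * (150 * E) := by
        rw [abs_mul, abs_of_nonneg hr]; gcongr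
      have t2 := abs_sub (N1 - N - 6 * a ^ 2 * (1 - ρ ^ 3)) ((1 - ρ) * (N1 - 6 * a ^ 2))
      have t3 : E * (1 - ρ) * (1 / 2) ≤ E * (1 - ρ) * ρ :=
        mul_le_mul_of_nonneg_left hh (by positivity)
      rw [e]
      nlinarith
  rw [hE] at goal
  linarith

theorem mean_fst (h : Shape L eta a th0 W W1) (hth : ∫ z, z * W z ∂gam = th)
    (hρ : ρ ^ 2 + σ ^ 2 = 1) : ∫ p, p.1 * W (ρ * p.1 + σ * p.2) ∂g2 = ρ * th := by
  have pW := (W_d1 h).p1
  have c3 := swap hρ (F := fun p => W p.1 * p.2) ((pW.1.comp measurable_fst).mul measurable_snd)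
  simp only at c3
  rw [cond_lin pW, hth] at c3
  rw [← c3]
  exact integral_congr_ae (ae_of_all _ fun p => mul_comm _ _)

theorem mean_snd (h : Shape L eta a th0 W W1) (hth : ∫ z, z * W z ∂gam = th)
    (hρ : ρ ^ 2 + σ ^ 2 = 1) : ∫ p, p.2 * W (ρ * p.1 + σ * p.2) ∂g2 = σ * th := by
  have pW := (W_d1 h).p1
  rw [← mean_fst (ρ := σ) (σ := ρ) h hth (by linarith),
    ← int_comp (Measure.measurePreserving_swap (μ := gam) (ν := gam))
      (F := fun p => p.2 * W (ρ * p.1 + σ * p.2)) (P2.snd.mul (pW.comp (P2.lin ρ σ))).1]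
  exact integral_congr_ae (ae_of_all _ fun p => by simp [add_comm])

end site

/-- **The Gaussian means.** -/
theorem gaussStmt : GaussStmt := by
  intro L
  have hM : 1 ≤ Mk 5 := one_le_Mk 5
  refine ⟨900 * Mk 5, 1, by positivity, one_pos, ?_⟩
  intro eta a th0 eps lam th W W1 he h hN
  have he0 : 0 ≤ eta := (abs_nonneg a).trans hN.sm
  have pW := (W_d1 h).p1
  refine ⟨⟨th_nonneg h hN.hth, ?_, ?_⟩, fun c d hc hd hcd => ⟨?_, ?_, fun hdc => ?_⟩⟩
  · have h1 := th_sub h hN.hth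
    have h2 := ea_nonneg h
    nlinarith
  · have h1 := W_sq h hN.hth
    have h2 := nl_sq h hN.hth he he0
    have h3 := hN.eps1
    rw [hN.hQ] at h1
    have e : 1 - th ^ 2 - 6 * a ^ 2 = (∫ x, nl W th x ^ 2 ∂gam - 6 * a ^ 2) + eps ^ 2 := by linarith
    have h4 := abs_add_le (∫ x, nl W th x ^ 2 ∂gam - 6 * a ^ 2) (eps ^ 2)
    rw [abs_of_nonneg (sq_nonneg eps)] at h4
    have h5 : 0 ≤ eta * a ^ 2 := by positivity
    rw [e]
    nlinarith
  · have h1 := mean_fst (ρ := c) (σ := d) h hN.hth hcd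
    have h2 := mean_fst (ρ := c) (σ := -d) h hN.hth (by linarith)
    have e : ∀ p : ℝ × ℝ, p.1 * sS W c d p =
        p.1 * W (c * p.1 + d * p.2) + p.1 * W (c * p.1 + -d * p.2) := fun p => by
      unfold sS; rw [neg_mul, ← sub_eq_add_neg]; ring
    simp only [e]
    rw [integral_add (P2.fst.mul (pW.comp (P2.lin c d))).integrable
      (P2.fst.mul (pW.comp (P2.lin c (-d)))).integrable, h1, h2]
    ring
  · have h1 := mean_snd (ρ := c) (σ := d) h hN.hth hcd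
    have h2 := mean_snd (ρ := c) (σ := -d) h hN.hth (by linarith)
    have e : ∀ p : ℝ × ℝ, p.2 * sD W c d p =
        p.2 * W (c * p.1 + d * p.2) - p.2 * W (c * p.1 + -d * p.2) := fun p => by
      unfold sD; rw [neg_mul, ← sub_eq_add_neg]; ring
    simp only [e]
    rw [integral_sub (P2.snd.mul (pW.comp (P2.lin c d))).integrable
      (P2.snd.mul (pW.comp (P2.lin c (-d)))).integrable, h1, h2]
    ring
  · have hρ : (c ^ 2 - d ^ 2) ^ 2 + (-(2 * c * d)) ^ 2 = 1 := by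
      have : (c ^ 2 - d ^ 2) ^ 2 + (-(2 * c * d)) ^ 2 = (c ^ 2 + d ^ 2) ^ 2 := by ring
      rw [this, hcd]; norm_num
    have h0 : 0 ≤ c ^ 2 - d ^ 2 := by nlinarith
    have h1 := cv_gap h hN.hth he he0 hρ h0
    have h2 := incr_sq pW hρ
    have h3 := sym hcd (F := fun p => (W p.1 - W p.2) ^ 2)
      (((pW.1.comp measurable_fst).sub (pW.1.comp measurable_snd)).pow_const 2)
    simp only at h3
    have h4 : G2 W c d = (2 * (1 - eps ^ 2) - 2 * cv W (c ^ 2 - d ^ 2) (-(2 * c * d))) / (4 * d ^ 2) := by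
      unfold G2 sD cv
      rw [integral_div, h3, h2, hN.hQ]
    rw [hN.hQ] at h1
    have hd2 : 0 < d ^ 2 := by positivity
    have e1 : 1 - (c ^ 2 - d ^ 2) = 2 * d ^ 2 := by linarith
    rw [h4]
    generalize cv W (c ^ 2 - d ^ 2) (-(2 * c * d)) = ψ at h1 ⊢
    generalize c ^ 2 - d ^ 2 = r at h0 h1 e1 ⊢
    have e2 : (2 * (1 - eps ^ 2) - 2 * ψ) / (4 * d ^ 2) - 1 + eps ^ 2 - 6 * a ^ 2 * r * (1 + r) =
        (r * (1 - eps ^ 2) - ψ - 6 * a ^ 2 * (r - r ^ 3)) / (2 * d ^ 2) := by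
      have : r = 1 - 2 * d ^ 2 := by linarith
      rw [this]
      field_simp
      ring
    rw [e2, abs_div, abs_of_pos (by positivity : (0 : ℝ) < 2 * d ^ 2), div_le_iff₀ (by positivity)]
    rw [e1] at h1
    linarith

end Vale.Agent.N150.Sm2.B
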