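import Vale.Agent.N150.SmDef2

/-! Low temperature, second moment: the far regime of one sector. -/

namespace Vale.Agent.N150.Sm2.Far

/-- the value of the certificate in units of `Q + eps ^ 2` -/
noncomputable def nv (lam v om D sg a1 a2 : ℝ) : ℝ :=
  1 / 2 * Real.log sg + v * (1 / (2 * sg) - 1 / 2 - a1 / sg) + (1 + om) * D ^ 2 / 2 -
    ((a2 - a1) * (lam + (1 + om) * D) - a2 * om) / sg

theorem val_eq {eps lam T v om D sg a1 a2 : ℝ} (hT : 0 < T) (hs : 0 < sg) (ho : 0 ≤ om)
    (he : eps ^ 2 = (1 - om) * T) :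
    val eps lam (v * T) ((lam + (1 + om) * D) * T) (om * T) (sg * T) a1 a2 =
      nv lam v om D sg a1 a2 := by
  have e1 : om * T + eps ^ 2 = T := by rw [he]; ring
  have e2 : 2 * (om * T) + eps ^ 2 = (1 + om) * T := by rw [he]; ring
  have h1 : 0 < 1 + om := by linarith
  rw [val, gE, nv, e1, e2, Real.log_mul hs.ne' hT.ne']
  field_simp
  ring

theorem log_le {om : ℝ} (h0 : 0 < om) (h1 : om ≤ 1) :
    1 / 2 * Real.log om ≤ -((1 - om) / (1 + om)) - ((1 - om) / (1 + om)) ^ 3 / 3 := by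
  have h2 : 0 < 1 + om := by linarith
  have h := Real.sum_range_le_log_div (x := (1 - om) / (1 + om))
    (div_nonneg (by linarith) h2.le) ((div_lt_one h2).2 (by linarith)) 2
  have e : (1 + (1 - om) / (1 + om)) / (1 - (1 - om) / (1 + om)) = om⁻¹ := by
    have : 1 - (1 - om) / (1 + om) = 2 * om / (1 + om) := by field_simp; ring
    rw [this]
    field_simp
    ring
  rw [e, Real.log_inv] at h
  simp only [Finset.sum_range_succ, Finset.sum_range_zero] at h
  norm_num at h
  linarith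

theorem caseA {lam v om D : ℝ} (ho : 0 ≤ om) (ho1 : om ≤ 1) (hl : 9 / 10 ≤ lam) (hD : 3 / 2 ≤ D)
    (_hv0 : 0 ≤ v) (hv : (lam + (1 + om) * D) ^ 2 ≤ v * om) :
    0 < v ∧ nv lam v om D v 0 0 ≤ -1 / 112 := by
  have h1 : 0 ≤ (1 + om) * D := by positivity
  have h2 : 12 / 5 + 3 / 2 * om ≤ lam + (1 + om) * D := by nlinarith
  have h3 : (12 / 5 + 3 / 2 * om) ^ 2 ≤ v * om :=
    (pow_le_pow_left₀ (by positivity) h2 2).trans hv
  have ho0 : 0 < om := by
    rcases ho.lt_or_eq with h | h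
    · exact h
    · subst h
      norm_num at h3
  have h4 : 14 ≤ v := by
    by_contra hc
    push Not at hc
    nlinarith [mul_lt_mul_of_pos_right hc ho0]
  have h5 : ((1 + om) * D) ^ 2 ≤ v * om :=
    (pow_le_pow_left₀ h1 (by linarith) 2).trans hv
  have h6 : 2 * ((1 + om) * D ^ 2) ≤ v := by
    refine le_of_mul_le_mul_right ?_ ho0
    have : 0 ≤ (1 + om) * D ^ 2 * (1 - om) := by
      have : 0 ≤ 1 - om := by linarith
      positivity
    nlinarith
  have hv1 : 0 < v := by linarith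
  refine ⟨hv1, ?_⟩
  have h7 : Real.log v ≤ 2 + (v / 4 - 1) := by
    have e : v = 2 * (2 * (v / 4)) := by ring
    have h8 := Real.log_le_sub_one_of_pos (x := 2) (by norm_num)
    have h9 := Real.log_le_sub_one_of_pos (x := v / 4) (by positivity)
    conv_lhs => rw [e]
    rw [Real.log_mul (by norm_num) (by positivity), Real.log_mul (by norm_num) (by positivity)]
    linarith
  have e : nv lam v om D v 0 0 = 1 / 2 * Real.log v + 1 / 2 - v / 2 + (1 + om) * D ^ 2 / 2 := by
    rw [nv]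
    field_simp
    ring
  rw [e]
  linarith

theorem caseB {lam v om D : ℝ} (_ho : 0 ≤ om) (ho1 : om ≤ 1 / 200) (hD : |D| ≤ 3 / 2) :
    nv lam v om D (1 / 200) (199 / 400) (199 / 400) ≤ -1 / 112 := by
  have e : nv lam v om D (1 / 200) (199 / 400) (199 / 400) =
      1 / 2 * Real.log (1 / 200) + (1 + om) * D ^ 2 / 2 + 199 / 2 * om := by
    rw [nv]
    ring
  have h1 : Real.log (1 / 200) ≤ -(7 * Real.log 2) := by
    have h2 : Real.log (1 / 200) ≤ Real.log ((2 ^ 7)⁻¹) :=
      Real.log_le_log (by norm_num) (by norm_num)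
    rw [Real.log_inv, Real.log_pow] at h2
    exact_mod_cast h2
  have h3 := Real.log_two_gt_d9
  have h4 : D ^ 2 ≤ (3 / 2) ^ 2 := by
    rw [← sq_abs]
    exact pow_le_pow_left₀ (abs_nonneg _) hD 2
  rw [e]
  nlinarith

theorem caseC {lam v om D u : ℝ} (ho : 0 < om) (ho1 : om ≤ 1) (hl : |1 - lam| ≤ u)
    (hD : |D| ≤ 3 / 2) :
    nv lam v om D om ((1 - om) / 2) ((1 - om) / 2 + om * D) ≤
      2 * u - ((1 - om) / (1 + om)) ^ 3 / 3 - (D + (1 - om) / (1 + om)) ^ 2 / 2 := by
  have h2 : 0 < 1 + om := by linarith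
  have e : nv lam v om D om ((1 - om) / 2) ((1 - om) / 2 + om * D) =
      1 / 2 * Real.log om + (1 - om) / (1 + om) -
        (1 + om) * (D + (1 - om) / (1 + om)) ^ 2 / 2 + D * (1 - lam) := by
    rw [nv]
    field_simp
    ring
  have h3 : D * (1 - lam) ≤ 3 / 2 * u :=
    (le_abs_self _).trans (by
      rw [abs_mul]
      exact mul_le_mul hD hl (abs_nonneg _) (by norm_num))
  have h4 := log_le ho ho1
  have h5 : 0 ≤ u := (abs_nonneg _).trans hl
  have h6 := mul_nonneg ho.le (sq_nonneg (D + (1 - om) / (1 + om)))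
  rw [e]
  linarith

theorem caseD {lam v om D u : ℝ} (hl : |1 - lam| ≤ u) (hD0 : 0 < D) (hD : D ≤ 11 / 10)
    (hx : 1 - om ≤ 2 * om * D) :
    nv lam v om (-D) (1 / (1 + 2 * D)) (D / (1 + 2 * D)) 0 ≤ 2 * u - D ^ 4 / 7 := by
  have h2 : 0 < 1 + 2 * D := by linarith
  have e : nv lam v om (-D) (1 / (1 + 2 * D)) (D / (1 + 2 * D)) 0 =
      -(1 / 2) * Real.log (1 + 2 * D) + lam * D - (1 + om) * D ^ 2 / 2 := by
    rw [nv, one_div (1 + 2 * D), Real.log_inv]
    field_simp
    ring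
  have h3 : lam * D ≤ D + 11 / 10 * u := by
    have h4 : lam - 1 ≤ u := by
      have := (abs_le.1 hl).1
      linarith
    have h5 : 0 ≤ u := (abs_nonneg _).trans hl
    nlinarith
  have h4 := Real.le_log_one_add_of_nonneg (x := 2 * D) (by linarith)
  have h5 : 0 ≤ u := (abs_nonneg _).trans hl
  have h6 : (1 + D) / (1 + 2 * D) ≤ (1 + om) / 2 := by
    rw [div_le_div_iff₀ h2 (by norm_num)]
    nlinarith
  have h7 : D - 1 / 2 * (2 * (2 * D) / (2 * D + 2)) - (1 + D) / (1 + 2 * D) * D ^ 2 =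
      -(D ^ 4 / ((1 + D) * (1 + 2 * D))) := by
    field_simp
    ring
  have h8 : D ^ 4 / 7 ≤ D ^ 4 / ((1 + D) * (1 + 2 * D)) :=
    div_le_div_of_nonneg_left (by positivity) (by positivity) (by nlinarith)
  have h9 := mul_le_mul_of_nonneg_right h6 (sq_nonneg D)
  rw [e]
  linarith

theorem core {lam v om D u c : ℝ} (ho : 0 ≤ om) (ho1 : om ≤ 1) (hv0 : 0 ≤ v)
    (hk : 0 ≤ lam + (1 + om) * D) (hv : (lam + (1 + om) * D) ^ 2 ≤ v * om) (hl : |1 - lam| ≤ u)
    (hu : u ≤ 1 / 10) (hc : 0 < c) (hc1 : c ≤ 1) :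
    ∃ sg a1 a2 : ℝ, 0 < sg ∧ (sg ≤ 1 ∨ sg = v) ∧ 0 ≤ a1 ∧ a1 ≤ 1 / 2 ∧ 0 ≤ a2 ∧ a2 ≤ 2 ∧
      a1 + max (a2 - a1) 0 / 4 ≤ 1 / 2 - 1 / 1600 ∧ nv lam v om D sg a1 a2 ≤ 2 * u ∧
      ((c < 1 - om ∨ 2 * c < |D|) → nv lam v om D sg a1 a2 ≤ 2 * u - c ^ 4 / 112) := by
  have hu0 : 0 ≤ u := (abs_nonneg _).trans hl
  obtain ⟨hl1, hl2⟩ := abs_le.1 hl
  have hc4 : c ^ 4 ≤ 1 := pow_le_one₀ hc.le hc1
  rcases le_total (3 / 2) D with hA | hA
  · obtain ⟨h1, h2⟩ := caseA ho ho1 (by linarith) hA hv0 hv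
    exact ⟨v, 0, 0, h1, Or.inr rfl, le_rfl, by norm_num, le_rfl, by norm_num, by norm_num,
      by linarith, fun _ => by linarith⟩
  have hD1 : -(11 / 10) ≤ D := by
    by_contra h
    push Not at h
    nlinarith
  have hD : |D| ≤ 3 / 2 := abs_le.2 ⟨by linarith, hA⟩
  rcases le_total om (1 / 200) with hB | hB
  · have h2 := caseB (lam := lam) (v := v) ho hB hD
    exact ⟨1 / 200, 199 / 400, 199 / 400, by norm_num, Or.inl (by norm_num), by norm_num,
      by norm_num, by norm_num, by norm_num, by norm_num, by linarith, fun _ => by linarith⟩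
  have ho0 : 0 < om := by linarith
  rcases le_total 0 ((1 - om) / 2 + om * D) with hC | hC
  · have h2 := caseC (v := v) ho0 ho1 hl hD
    have h1 : 0 < 1 + om := by linarith
    have ht0 : 0 ≤ (1 - om) / (1 + om) := div_nonneg (by linarith) h1.le
    have ht3 := pow_nonneg ht0 3
    have ht2 := sq_nonneg (D + (1 - om) / (1 + om))
    refine ⟨om, (1 - om) / 2, (1 - om) / 2 + om * D, ho0, Or.inl ho1, by linarith, by linarith, hC,
      by nlinarith, ?_, by linarith, fun h => ?_⟩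
    · have : max ((1 - om) / 2 + om * D - (1 - om) / 2) 0 ≤ 3 / 2 * om :=
        max_le (by nlinarith) (by linarith)
      linarith
    · rcases lt_or_ge c (1 - om) with h3 | h3
      · have h4 : c / 2 ≤ (1 - om) / (1 + om) := by
          rw [le_div_iff₀ h1]
          nlinarith
        have h5 := pow_le_pow_left₀ (by positivity) h4 3
        have h6 : c ^ 4 ≤ c ^ 3 := pow_le_pow_of_le_one hc.le hc1 (by norm_num)
        have h7 := pow_pos hc 3
        nlinarith
      · have h4 : 2 * c < |D| := h.resolve_left (not_lt.2 h3)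
        have h5 : (1 - om) / (1 + om) ≤ c :=
          (div_le_self (by linarith) (by linarith)).trans h3
        have h6 : c ^ 2 ≤ (D + (1 - om) / (1 + om)) ^ 2 := by
          rw [← sq_abs (D + _)]
          refine pow_le_pow_left₀ hc.le ?_ 2
          rcases lt_abs.1 h4 with h7 | h7
          · exact le_abs.2 (Or.inl (by linarith))
          · exact le_abs.2 (Or.inr (by linarith))
        have h7 : c ^ 4 ≤ c ^ 2 := pow_le_pow_of_le_one hc.le hc1 (by norm_num)
        have h8 := pow_pos hc 2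
        linarith
  · rcases le_or_gt 0 D with hD0 | hD0
    · have h2 := caseC (v := v) ho0 ho1 hl hD
      have h3 : om * D = 0 ∧ 1 - om = 0 := by
        have := mul_nonneg ho hD0
        constructor <;> linarith
      have hD2 : D = 0 := (mul_eq_zero.1 h3.1).resolve_left ho0.ne'
      have ho2 : om = 1 := by linarith [h3.2]
      subst hD2 ho2
      refine ⟨1, 0, 0, one_pos, Or.inl le_rfl, le_rfl, by norm_num, le_rfl, by norm_num,
        by norm_num, ?_, fun h => ?_⟩
      · norm_num at h2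
        exact h2
      · norm_num at h
        rcases h with h | h <;> linarith
    · obtain ⟨E, rfl⟩ : ∃ E, D = -E := ⟨-D, by ring⟩
      have hE : 0 < E := by linarith
      have h2 := caseD (v := v) (om := om) hl hE (by linarith) (by linarith)
      have h1 : 0 < 1 + 2 * E := by linarith
      have h3 : E / (1 + 2 * E) ≤ 2 / 5 := by
        rw [div_le_iff₀ h1]
        linarith
      have h4 : 0 ≤ E / (1 + 2 * E) := by positivity
      have h5 := pow_pos hE 4
      refine ⟨1 / (1 + 2 * E), E / (1 + 2 * E), 0, by positivity,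
        Or.inl ((div_le_one h1).2 (by linarith)), h4, by linarith, le_rfl, by norm_num, ?_,
        by linarith, fun h => ?_⟩
      · rw [max_eq_right (by linarith)]
        linarith
      · have h6 : c / 2 ≤ E := by
          rcases h with h | h
          · nlinarith
          · rw [abs_neg, abs_of_pos hE] at h
            linarith
        have h7 := pow_le_pow_left₀ (by positivity) h6 4
        nlinarith

theorem farStmt : FarStmt := by
  intro eps lam X k Q u c he hX hX2 hk hQ hcs hT2 hl hu hc hc1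
  obtain ⟨T, hT⟩ : ∃ T, T = Q + eps ^ 2 := ⟨_, rfl⟩
  have hT0 : 0 < T := by rw [hT]; positivity
  have hQT : 0 < 2 * Q + eps ^ 2 := by positivity
  obtain ⟨v, rfl⟩ : ∃ v, X = v * T := ⟨X / T, by field_simp⟩
  obtain ⟨om, rfl⟩ : ∃ om, Q = om * T := ⟨Q / T, by field_simp⟩
  have ho : 0 ≤ om := nonneg_of_mul_nonneg_left hQ hT0
  have hv0 : 0 ≤ v := nonneg_of_mul_nonneg_left hX hT0
  have he2 : eps ^ 2 = (1 - om) * T := by linarith
  have ho1 : om ≤ 1 := by
    have : 0 ≤ (1 - om) * T := he2 ▸ sq_nonneg eps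
    linarith [nonneg_of_mul_nonneg_left this hT0]
  have h1 : 0 < 1 + om := by linarith
  obtain ⟨D, rfl⟩ : ∃ D, k = (lam + (1 + om) * D) * T :=
    ⟨(k / T - lam) / (1 + om), by field_simp; ring⟩
  have hk' : 0 ≤ lam + (1 + om) * D := nonneg_of_mul_nonneg_left hk hT0
  have hv : (lam + (1 + om) * D) ^ 2 ≤ v * om := by
    refine le_of_mul_le_mul_right ?_ (pow_pos hT0 2)
    calc _ = ((lam + (1 + om) * D) * T) ^ 2 := by ring
      _ ≤ _ := hcs
      _ = _ := by ring
  obtain ⟨sg, a1, a2, h2, h3, h4, h5, h6, h7, h8, h9, h10⟩ := core ho ho1 hv0 hk' hv hl hu hc hc1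
  refine ⟨sg * T, a1, a2, mul_pos h2 hT0, ?_, h4, h5, h6, h7, h8, ?_, fun h => ?_⟩
  · rcases h3 with h3 | h3
    · nlinarith
    · rw [h3]; exact hX2
  · rw [val_eq hT0 h2 ho he2]; exact h9
  · rw [val_eq hT0 h2 ho he2]
    refine h10 ?_
    have e1 : eps ^ 2 / (om * T + eps ^ 2) = 1 - om := by
      rw [← hT, he2]
      field_simp
    have e2 : ((lam + (1 + om) * D) * T - lam * (om * T + eps ^ 2)) / (2 * (om * T) + eps ^ 2) =
        D := by
      rw [← hT, div_eq_iff hQT.ne', he2]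
      ring
    rwa [e1, e2] at h

end Vale.Agent.N150.Sm2.Far

/-- the far regime (second name) -/
theorem Vale.Agent.N150.Sm2.farStmt : Vale.Agent.N150.Sm2.FarStmt :=
  Vale.Agent.N150.Sm2.Far.farStmt
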