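import Vale.Agent.N150.SmDef2

/-! Low temperature, second moment: from the dual certificates to the bound (compactness). -/

open MeasureTheory ProbabilityTheory Filter Topology
open scoped ENNReal

namespace Vale.Agent.N150.Sm2.Fi

open Vale.Agent.P150 Vale.Agent.P150.F Vale.Agent.N150.Sm2

/-- the six statistics -/
abbrev S6 := (ℝ × ℝ × ℝ) × (ℝ × ℝ × ℝ)

/-- the statistics of a pair of vectors -/
noncomputable def st (W : ℝ → ℝ) {n : ℕ} (p : Vec n × Vec n) : S6 :=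
  ((F.sq (p.1 + p.2) / (2 * n), ip (p.1 + p.2) (W ∘ p.1 + W ∘ p.2) / (2 * n),
      F.sq (W ∘ p.1 + W ∘ p.2) / (2 * n)),
    (F.sq (p.1 - p.2) / (2 * n), ip (p.1 - p.2) (W ∘ p.1 - W ∘ p.2) / (2 * n),
      F.sq (W ∘ p.1 - W ∘ p.2) / (2 * n)))

/-- the distance to exact typicality -/
noncomputable def ds (eps th : ℝ) (s : S6) : ℝ :=
  |s.1.1 + s.2.1 - 2| + |s.1.2.1 + s.2.2.1 - 2 * th| + |s.1.2.2 + s.2.2.2 - 2 * (1 - eps ^ 2)|

/-- the compact set of statistics -/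
def KK (R : ℝ) : Set S6 :=
  Set.Icc ((0, 0, 0), (0, 0, 0)) ((R, R, R), (R, R, R)) ∩
    ({s | s.1.2.1 ^ 2 ≤ s.1.1 * s.1.2.2} ∩ {s | s.2.2.1 ^ 2 ≤ s.2.1 * s.2.2.2})

theorem KK_compact (R : ℝ) : IsCompact (KK R) :=
  isCompact_Icc.inter_right
    ((isClosed_le (by fun_prop) (by fun_prop)).inter (isClosed_le (by fun_prop) (by fun_prop)))

/-- the value of a certificate -/
noncomputable def vl (eps lam th A1 B1 C1 A2 B2 C2 l : ℝ) (s : S6) : ℝ :=
  l - (A1 * s.1.1 + B1 * s.1.2.1 + C1 * s.1.2.2 + A2 * s.2.1 + B2 * s.2.2.1 + C2 * s.2.2.2) +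
    gE eps lam s.1.1 s.1.2.1 s.1.2.2 + gE eps lam s.2.1 s.2.2.1 s.2.2.2 -
      2 * gE eps lam 1 th (1 - eps ^ 2)

theorem gE_at {eps lam : ℝ} (he : 0 < eps) {s : ℝ × ℝ × ℝ} (hs : 0 ≤ s.2.2) :
    ContinuousAt (fun t : ℝ × ℝ × ℝ => gE eps lam t.1 t.2.1 t.2.2) s := by
  have h1 : s.2.2 + eps ^ 2 ≠ 0 := by positivity
  have h2 : 2 * (s.2.2 + eps ^ 2) ≠ 0 := by positivity
  have h3 : 2 * (s.2.2 + eps ^ 2) * (2 * s.2.2 + eps ^ 2) ≠ 0 := by positivity
  unfold gE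
  refine ContinuousAt.add (ContinuousAt.sub (continuousAt_const.mul
    (ContinuousAt.log (by fun_prop) h1)) (ContinuousAt.div (by fun_prop) (by fun_prop) h2))
    (ContinuousAt.div (by fun_prop) (by fun_prop) h3)

theorem vl_at {eps lam : ℝ} (th A1 B1 C1 A2 B2 C2 l : ℝ) (he : 0 < eps) {s : S6}
    (h1 : 0 ≤ s.1.2.2) (h2 : 0 ≤ s.2.2.2) :
    ContinuousAt (vl eps lam th A1 B1 C1 A2 B2 C2 l) s := by
  have g1 : ContinuousAt (fun t : S6 => gE eps lam t.1.1 t.1.2.1 t.1.2.2) s :=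
    ContinuousAt.comp (f := fun t : S6 => t.1) (gE_at (lam := lam) he h1) continuousAt_fst
  have g2 : ContinuousAt (fun t : S6 => gE eps lam t.2.1 t.2.2.1 t.2.2.2) s :=
    ContinuousAt.comp (f := fun t : S6 => t.2) (gE_at (lam := lam) he h2) continuousAt_snd
  unfold vl
  exact (((continuousAt_const.sub (by fun_prop)).add g1).add g2).sub continuousAt_const

theorem psi_sum (W : ℝ → ℝ) (A1 B1 C1 A2 B2 C2 : ℝ) {n : ℕ} (hn : 0 < n) (p : Vec n × Vec n) :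
    ∑ i, psi W A1 B1 C1 A2 B2 C2 (p.1 i, p.2 i) =
      n * (A1 * (st W p).1.1 + B1 * (st W p).1.2.1 + C1 * (st W p).1.2.2 + A2 * (st W p).2.1 +
        B2 * (st W p).2.2.1 + C2 * (st W p).2.2.2) := by
  have hn' : (n : ℝ) ≠ 0 := by positivity
  have e : ∀ x : ℝ, (n : ℝ) * (x / (2 * n)) = x / 2 := fun x => by field_simp
  have e' : ∀ a x : ℝ, (n : ℝ) * (a * (x / (2 * n))) = a * (x / 2) := fun a x => by
    rw [mul_left_comm, e]
  simp only [st, mul_add, e', psi, Finset.sum_add_distrib, ← Finset.mul_sum, ← Finset.sum_div,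
    F.sq, ip, Pi.add_apply, Pi.sub_apply, Function.comp_apply]

/-- the product integral -/
theorem prod_int {g : ℝ × ℝ → ℝ} (hm : Measurable g)
    (hi : Integrable (fun p => Real.exp (g p)) (gam.prod gam)) {l : ℝ}
    (hl : ∫ p, Real.exp (g p) ∂(gam.prod gam) ≤ Real.exp l) (n : ℕ) :
    ∫⁻ p : Vec n × Vec n, ENNReal.ofReal (Real.exp (∑ i, g (p.1 i, p.2 i) - n * l))
      ∂((gpi (Fin n)).prod (gpi (Fin n))) ≤ 1 := by
  have hp := measurePreserving_arrowProdEquivProdArrow ℝ ℝ (Fin n) (fun _ => gam) (fun _ => gam)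
  have hm' : Measurable fun p : Vec n × Vec n =>
      ENNReal.ofReal (Real.exp (∑ i, g (p.1 i, p.2 i) - n * l)) := by
    refine ENNReal.measurable_ofReal.comp (Real.measurable_exp.comp (Measurable.sub_const ?_ _))
    exact Finset.measurable_sum _ fun i _ => hm.comp (by fun_prop)
  rw [← hp.lintegral_comp hm']
  have e : ∀ x : Fin n → ℝ × ℝ,
      Real.exp (∑ i, g (((MeasurableEquiv.arrowProdEquivProdArrow ℝ ℝ (Fin n)) x).1 i,
        ((MeasurableEquiv.arrowProdEquivProdArrow ℝ ℝ (Fin n)) x).2 i) - n * l) =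
      (∏ i, Real.exp (g (x i))) * Real.exp (-(n * l)) := fun x => by
    rw [← Real.exp_sum, ← Real.exp_add]
    rfl
  simp only [e]
  have hI : Integrable (fun x : Fin n → ℝ × ℝ => ∏ i, Real.exp (g (x i)))
      (Measure.pi fun _ => gam.prod gam) :=
    Integrable.fintype_prod (f := fun _ y => Real.exp (g y)) fun _ => hi
  rw [← ofReal_integral_eq_lintegral_ofReal (hI.mul_const _)
    (ae_of_all _ fun x => by positivity), integral_mul_const,
    integral_fintype_prod_eq_pow (fun y => Real.exp (g y)), Fintype.card_fin]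
  refine ENNReal.ofReal_le_one.2 ?_
  have h0 : 0 ≤ ∫ p, Real.exp (g p) ∂(gam.prod gam) := integral_nonneg fun _ => by positivity
  calc _ ≤ Real.exp l ^ n * Real.exp (-(n * l)) := by gcongr
    _ = 1 := by rw [← Real.exp_nat_mul, ← Real.exp_add]; simp

/-- the property that is propagated over the compact set -/
def PP (eps lam th del : ℝ) (W : ℝ → ℝ) (S : Set S6) : Prop :=
  ∃ r C : ℝ, 0 < r ∧ 0 ≤ C ∧ ∀ n : ℕ, 0 < n →
    ∫⁻ p in {p : Vec n × Vec n | st W p ∈ S ∧ ds eps th (st W p) ≤ r},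
      ENNReal.ofReal (Real.exp (n * pairE eps lam th W p.1 p.2))
        ∂((gpi (Fin n)).prod (gpi (Fin n))) ≤ ENNReal.ofReal (C * Real.exp (del * n))

theorem PP_vac {eps lam th del : ℝ} {W : ℝ → ℝ} {S : Set S6} {r : ℝ} (hr : 0 < r)
    (h : ∀ s ∈ S, r < ds eps th s) : PP eps lam th del W S := by
  refine ⟨r, 0, hr, le_rfl, fun n _ => ?_⟩
  have : {p : Vec n × Vec n | st W p ∈ S ∧ ds eps th (st W p) ≤ r} = ∅ :=
    Set.eq_empty_of_forall_notMem fun p hp => absurd (h _ hp.1) (not_lt.2 hp.2)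
  rw [this]
  simp

theorem PP_cert {eps lam th del : ℝ} {W : ℝ → ℝ} (hW : Continuous W) {S : Set S6}
    {A1 B1 C1 A2 B2 C2 l : ℝ}
    (hi : Integrable (fun p => Real.exp (psi W A1 B1 C1 A2 B2 C2 p)) (gam.prod gam))
    (hl : ∫ p, Real.exp (psi W A1 B1 C1 A2 B2 C2 p) ∂(gam.prod gam) ≤ Real.exp l)
    (h : ∀ s ∈ S, vl eps lam th A1 B1 C1 A2 B2 C2 l s ≤ del) : PP eps lam th del W S := by
  refine ⟨1, 1, one_pos, zero_le_one, fun n hn => ?_⟩
  have hm : Measurable (psi W A1 B1 C1 A2 B2 C2) := by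
    refine Continuous.measurable ?_
    unfold psi
    fun_prop
  have hm' : Measurable fun p : Vec n × Vec n =>
      ENNReal.ofReal (Real.exp (∑ i, psi W A1 B1 C1 A2 B2 C2 (p.1 i, p.2 i) - n * l)) := by
    refine ENNReal.measurable_ofReal.comp (Real.measurable_exp.comp (Measurable.sub_const ?_ _))
    exact Finset.measurable_sum _ fun i _ => hm.comp (by fun_prop)
  calc _ ≤ ∫⁻ p in {p : Vec n × Vec n | st W p ∈ S ∧ ds eps th (st W p) ≤ 1},
        ENNReal.ofReal (Real.exp (del * n)) *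
          ENNReal.ofReal (Real.exp (∑ i, psi W A1 B1 C1 A2 B2 C2 (p.1 i, p.2 i) - n * l))
          ∂((gpi (Fin n)).prod (gpi (Fin n))) := by
        refine setLIntegral_mono (hm'.const_mul _) fun p hp => ?_
        rw [← ENNReal.ofReal_mul (Real.exp_pos _).le, ← Real.exp_add]
        refine ENNReal.ofReal_le_ofReal (Real.exp_le_exp.2 ?_)
        have h1 := h _ hp.1
        have h2 : (0 : ℝ) ≤ n := by positivity
        have h3 := mul_le_mul_of_nonneg_left h1 h2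
        rw [psi_sum W A1 B1 C1 A2 B2 C2 hn p]
        have h4 : pairE eps lam th W p.1 p.2 = gE eps lam (st W p).1.1 (st W p).1.2.1 (st W p).1.2.2 +
          gE eps lam (st W p).2.1 (st W p).2.2.1 (st W p).2.2.2 -
            2 * gE eps lam 1 th (1 - eps ^ 2) := rfl
        rw [h4]
        unfold vl at h3
        nlinarith
    _ ≤ ∫⁻ p : Vec n × Vec n, ENNReal.ofReal (Real.exp (del * n)) *
          ENNReal.ofReal (Real.exp (∑ i, psi W A1 B1 C1 A2 B2 C2 (p.1 i, p.2 i) - n * l))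
          ∂((gpi (Fin n)).prod (gpi (Fin n))) := setLIntegral_le_lintegral _ _
    _ ≤ ENNReal.ofReal (Real.exp (del * n)) * 1 := by
        rw [lintegral_const_mul _ hm']
        gcongr
        exact prod_int hm hi hl n
    _ = _ := by rw [mul_one, one_mul]

theorem PP_mono {eps lam th del : ℝ} {W : ℝ → ℝ} ⦃S T : Set S6⦄ (hST : S ⊆ T)
    (h : PP eps lam th del W T) : PP eps lam th del W S := by
  obtain ⟨r, C, hr, hC, h⟩ := h
  refine ⟨r, C, hr, hC, fun n hn => le_trans (lintegral_mono_set ?_) (h n hn)⟩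
  intro p hp
  exact ⟨hST hp.1, hp.2⟩

theorem PP_union {eps lam th del : ℝ} {W : ℝ → ℝ} ⦃S T : Set S6⦄
    (h1 : PP eps lam th del W S) (h2 : PP eps lam th del W T) : PP eps lam th del W (S ∪ T) := by
  obtain ⟨r1, C1, hr1, hC1, h1⟩ := h1
  obtain ⟨r2, C2, hr2, hC2, h2⟩ := h2
  refine ⟨min r1 r2, C1 + C2, lt_min hr1 hr2, by positivity, fun n hn => ?_⟩
  have hs : {p : Vec n × Vec n | st W p ∈ S ∪ T ∧ ds eps th (st W p) ≤ min r1 r2} ⊆
      {p : Vec n × Vec n | st W p ∈ S ∧ ds eps th (st W p) ≤ r1} ∪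
        {p : Vec n × Vec n | st W p ∈ T ∧ ds eps th (st W p) ≤ r2} := by
    rintro p ⟨hp | hp, hd⟩
    · exact Or.inl ⟨hp, hd.trans (min_le_left _ _)⟩
    · exact Or.inr ⟨hp, hd.trans (min_le_right _ _)⟩
  refine le_trans (lintegral_mono_set hs) (le_trans (lintegral_union_le _ _ _) ?_)
  rw [add_mul, ENNReal.ofReal_add (by positivity) (by positivity)]
  exact add_le_add (h1 n hn) (h2 n hn)

theorem PP_all {eps lam th del : ℝ} {W : ℝ → ℝ} (he : 0 < eps) (hW : Continuous W)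
    (hc : Cert eps lam th W) (hdel : 0 < del) (R : ℝ) : PP eps lam th del W (KK R) := by
  refine (KK_compact R).induction_on (PP_vac one_pos fun s hs => hs.elim) PP_mono PP_union
    fun s hs => ?_
  obtain ⟨⟨⟨⟨a1, a2, a3⟩, a4, a5, a6⟩, -⟩, c1, c2⟩ := hs
  have hd0 : 0 ≤ ds eps th s := by unfold ds; positivity
  rcases hd0.lt_or_eq with hd | hd
  · have hcont : Continuous (ds eps th) := by unfold ds; fun_prop
    refine ⟨{t | ds eps th s / 2 < ds eps th t}, mem_nhdsWithin_of_mem_nhds ?_,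
      PP_vac (half_pos hd) fun t ht => ht⟩
    exact (isOpen_lt continuous_const hcont).mem_nhds (half_lt_self hd)
  · have b1 := abs_nonneg (s.1.1 + s.2.1 - 2)
    have b2 := abs_nonneg (s.1.2.1 + s.2.2.1 - 2 * th)
    have b3 := abs_nonneg (s.1.2.2 + s.2.2.2 - 2 * (1 - eps ^ 2))
    unfold ds at hd
    have e1 : s.1.1 + s.2.1 - 2 = 0 := abs_eq_zero.1 (by linarith)
    have e2 : s.1.2.1 + s.2.2.1 - 2 * th = 0 := abs_eq_zero.1 (by linarith)
    have e3 : s.1.2.2 + s.2.2.2 - 2 * (1 - eps ^ 2) = 0 := abs_eq_zero.1 (by linarith)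
    obtain ⟨A1, B1, C1, A2, B2, C2, l, hi, hl, hv⟩ := hc s.1.1 s.1.2.1 s.1.2.2 s.2.1 s.2.2.1 s.2.2.2
      ⟨a1, a4, a2, a5, a3, a6, c1, c2, by linarith, by linarith, by linarith⟩
    have hv' : vl eps lam th A1 B1 C1 A2 B2 C2 l s < del := lt_of_le_of_lt hv hdel
    have hev := (vl_at (lam := lam) th A1 B1 C1 A2 B2 C2 l he a3 a6).eventually_lt
      continuousAt_const hv'
    exact ⟨{t | vl eps lam th A1 B1 C1 A2 B2 C2 l t < del}, mem_nhdsWithin_of_mem_nhds hev,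
      PP_cert hW hi hl fun t ht => le_of_lt ht⟩

theorem sq_nn {n : ℕ} (u : Vec n) : 0 ≤ F.sq u := Finset.sum_nonneg fun _ _ => sq_nonneg _

theorem cs {n : ℕ} (hn : 0 < n) (u v : Vec n) :
    (ip u v / (2 * n)) ^ 2 ≤ F.sq u / (2 * n) * (F.sq v / (2 * n)) := by
  have h : ip u v ^ 2 ≤ F.sq u * F.sq v := Finset.sum_mul_sq_le_sq_mul_sq _ _ _
  rw [div_pow, div_mul_div_comm, ← pow_two]
  gcongr

theorem par_sq {n : ℕ} (hn : 0 < n) (u v : Vec n) :
    F.sq (u + v) / (2 * n) + F.sq (u - v) / (2 * n) = F.sq u / n + F.sq v / n := by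
  have hn' : (n : ℝ) ≠ 0 := by positivity
  have : F.sq (u + v) + F.sq (u - v) = 2 * (F.sq u + F.sq v) := by
    simp only [F.sq, Pi.add_apply, Pi.sub_apply, ← Finset.sum_add_distrib, Finset.mul_sum]
    exact Finset.sum_congr rfl fun i _ => by ring
  rw [← add_div, this]
  field_simp

theorem par_ip {n : ℕ} (hn : 0 < n) (u v a b : Vec n) :
    ip (u + v) (a + b) / (2 * n) + ip (u - v) (a - b) / (2 * n) = ip u a / n + ip v b / n := by
  have hn' : (n : ℝ) ≠ 0 := by positivity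
  have : ip (u + v) (a + b) + ip (u - v) (a - b) = 2 * (ip u a + ip v b) := by
    simp only [ip, Pi.add_apply, Pi.sub_apply, ← Finset.sum_add_distrib, Finset.mul_sum]
    exact Finset.sum_congr rfl fun i _ => by ring
  rw [← add_div, this]
  field_simp

theorem mono_nn {W : ℝ → ℝ} (hm : Monotone W) (x y : ℝ) : 0 ≤ (x - y) * (W x - W y) := by
  rcases le_total x y with h | h
  · exact mul_nonneg_of_nonpos_of_nonpos (sub_nonpos.2 h) (sub_nonpos.2 (hm h))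
  · exact mul_nonneg (sub_nonneg.2 h) (sub_nonneg.2 (hm h))

theorem finStmt : FinStmt := by
  intro eps lam th W he hW hm ho hc del hdel
  obtain ⟨r, C, hr, -, h⟩ := PP_all he hW hc hdel (4 + 2 * |th|)
  refine ⟨min (r / 6) 1, C, lt_min (by positivity) one_pos, fun n hn => ?_⟩
  refine le_trans (lintegral_mono_set ?_) (h n hn)
  rintro p ⟨⟨t1, t2, t3⟩, t4, t5, t6⟩
  have k1 : min (r / 6) 1 ≤ r / 6 := min_le_left _ _
  have k2 : min (r / 6) 1 ≤ 1 := min_le_right _ _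
  have e1 := par_sq hn p.1 p.2
  have e2 := par_ip hn p.1 p.2 (W ∘ p.1) (W ∘ p.2)
  have e3 := par_sq hn (W ∘ p.1) (W ∘ p.2)
  have hn' : (0 : ℝ) < 2 * n := by positivity
  have a1 : 0 ≤ F.sq (p.1 + p.2) / (2 * n) := div_nonneg (sq_nn _) hn'.le
  have a2 : 0 ≤ F.sq (p.1 - p.2) / (2 * n) := div_nonneg (sq_nn _) hn'.le
  have a3 : 0 ≤ F.sq (W ∘ p.1 + W ∘ p.2) / (2 * n) := div_nonneg (sq_nn _) hn'.le
  have a4 : 0 ≤ F.sq (W ∘ p.1 - W ∘ p.2) / (2 * n) := div_nonneg (sq_nn _) hn'.le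
  have a5 : 0 ≤ ip (p.1 + p.2) (W ∘ p.1 + W ∘ p.2) / (2 * n) := by
    refine div_nonneg (Finset.sum_nonneg fun i _ => ?_) hn'.le
    have := mono_nn hm (p.1 i) (-p.2 i)
    rw [ho] at this
    simpa [sub_neg_eq_add] using this
  have a6 : 0 ≤ ip (p.1 - p.2) (W ∘ p.1 - W ∘ p.2) / (2 * n) :=
    div_nonneg (Finset.sum_nonneg fun i _ => mono_nn hm (p.1 i) (p.2 i)) hn'.le
  have b0 := le_abs_self th
  have b1 := abs_nonneg th
  have b2 := sq_nonneg eps
  rw [abs_le] at t1 t2 t3 t4 t5 t6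
  refine ⟨⟨⟨⟨⟨a1, a5, a3⟩, a2, a6, a4⟩, ⟨⟨?_, ?_, ?_⟩, ?_, ?_, ?_⟩⟩, cs hn _ _, cs hn _ _⟩, ?_⟩
  · show F.sq (p.1 + p.2) / (2 * n) ≤ _
    linarith [t1.2, t4.2]
  · show ip (p.1 + p.2) (W ∘ p.1 + W ∘ p.2) / (2 * n) ≤ _
    linarith [t2.2, t5.2]
  · show F.sq (W ∘ p.1 + W ∘ p.2) / (2 * n) ≤ _
    linarith [t3.2, t6.2]
  · show F.sq (p.1 - p.2) / (2 * n) ≤ _
    linarith [t1.2, t4.2]
  · show ip (p.1 - p.2) (W ∘ p.1 - W ∘ p.2) / (2 * n) ≤ _
    linarith [t2.2, t5.2]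
  · show F.sq (W ∘ p.1 - W ∘ p.2) / (2 * n) ≤ _
    linarith [t3.2, t6.2]
  · show |F.sq (p.1 + p.2) / (2 * n) + F.sq (p.1 - p.2) / (2 * n) - 2| +
      |ip (p.1 + p.2) (W ∘ p.1 + W ∘ p.2) / (2 * n) +
        ip (p.1 - p.2) (W ∘ p.1 - W ∘ p.2) / (2 * n) - 2 * th| +
      |F.sq (W ∘ p.1 + W ∘ p.2) / (2 * n) + F.sq (W ∘ p.1 - W ∘ p.2) / (2 * n) -
        2 * (1 - eps ^ 2)| ≤ r
    rw [e1, e2, e3]
    have c1 : |F.sq p.1 / n + F.sq p.2 / n - 2| ≤ r / 3 :=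
      abs_le.2 ⟨by linarith [t1.1, t4.1], by linarith [t1.2, t4.2]⟩
    have c2 : |ip p.1 (W ∘ p.1) / n + ip p.2 (W ∘ p.2) / n - 2 * th| ≤ r / 3 :=
      abs_le.2 ⟨by linarith [t2.1, t5.1], by linarith [t2.2, t5.2]⟩
    have c3 : |F.sq (W ∘ p.1) / n + F.sq (W ∘ p.2) / n - 2 * (1 - eps ^ 2)| ≤ r / 3 :=
      abs_le.2 ⟨by linarith [t3.1, t6.1], by linarith [t3.2, t6.2]⟩
    linarith

end Vale.Agent.N150.Sm2.Fi
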