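import Vale.Agent.N150.SmDef3

/-! Low temperature, second moment: the exponential moment of the far regime. -/

open MeasureTheory ProbabilityTheory Filter Topology

namespace Vale.Agent.N150.Sm2.Fm

open Vale.Agent.P150

/-- the secant slope is a value of the derivative -/
theorem sec {W W1 : ℝ → ℝ} (h : ∀ z, HasDerivAt W (W1 z) z) (u v : ℝ) :
    ∃ x, x ^ 2 ≤ u ^ 2 + v ^ 2 ∧ W u - W v = W1 x * (u - v) := by
  have hc : Continuous W := continuous_iff_continuousAt.2 fun z => (h z).continuousAt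
  have key : ∀ u v : ℝ, v < u → ∃ x, x ^ 2 ≤ u ^ 2 + v ^ 2 ∧ W u - W v = W1 x * (u - v) := by
    intro u v huv
    obtain ⟨x, hx, hs⟩ := exists_hasDerivAt_eq_slope W W1 huv hc.continuousOn fun z _ => h z
    refine ⟨x, ?_, ?_⟩
    · rcases le_total 0 x with h0 | h0
      · nlinarith [hx.2, sq_nonneg v]
      · nlinarith [hx.1, sq_nonneg u]
    · rw [hs, div_mul_cancel₀ _ (sub_pos.2 huv).ne']
  rcases lt_trichotomy u v with huv | huv | huv
  · obtain ⟨x, hx, hs⟩ := key v u huv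
    exact ⟨x, by linarith, by linarith⟩
  · subst huv
    exact ⟨u, by nlinarith [sq_nonneg u], by ring⟩
  · exact key u v huv

theorem co_le {a1 a2 r m : ℝ} (h : Co a1 a2) (hr : 0 ≤ r) (hm : |1 - r| ≤ m) :
    a1 + (a2 - a1) * r - a2 * r ^ 2 ≤ 1 / 2 - 1 / 1600 ∧
      a1 + (a2 - a1) * r - a2 * r ^ 2 ≤ 5 / 2 * m := by
  obtain ⟨h1, h2, h3, h4, h5⟩ := h
  have e : a1 + (a2 - a1) * r - a2 * r ^ 2 = (1 - r) * (a1 + a2 * r) := by ring
  have hm0 : 0 ≤ m := (abs_nonneg _).trans hm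
  have hM1 : a2 - a1 ≤ max (a2 - a1) 0 := le_max_left _ _
  have hM0 : 0 ≤ max (a2 - a1) 0 := le_max_right _ _
  rcases le_total r 1 with hr1 | hr1
  · have h6 : 0 ≤ r * (1 - r) := mul_nonneg hr (by linarith)
    have h7 : r * (1 - r) ≤ 1 / 4 := by nlinarith [sq_nonneg (r - 1 / 2)]
    constructor
    · have h8 : (a2 - a1) * (r * (1 - r)) ≤ max (a2 - a1) 0 * (1 / 4) :=
        (mul_le_mul_of_nonneg_right hM1 h6).trans (mul_le_mul_of_nonneg_left h7 hM0)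
      nlinarith [mul_nonneg h1 (sq_nonneg r)]
    · rw [e]
      have h9 : a1 + a2 * r ≤ 5 / 2 := by nlinarith
      have h10 : 0 ≤ a1 + a2 * r := by positivity
      have h11 : 1 - r ≤ m := (le_abs_self _).trans hm
      calc (1 - r) * (a1 + a2 * r) ≤ m * (5 / 2) := mul_le_mul h11 h9 h10 hm0
        _ = _ := by ring
  · have h9 : (1 - r) * (a1 + a2 * r) ≤ 0 :=
      mul_nonpos_of_nonpos_of_nonneg (by linarith) (by positivity)
    rw [e]
    constructor <;> linarith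

theorem slope_le {L eta a th0 M S x : ℝ} {W W1 : ℝ → ℝ} (he : eta ≤ 1)
    (h : Shape L eta a th0 W W1) (h1 : |1 - th0| ≤ M) (h2 : |a| ≤ M) (hS : 0 ≤ S)
    (hx : x ^ 2 ≤ 2 * S) : |1 - W1 x| ≤ 5 * M * (1 + S) ^ 2 := by
  have ha := abs_nonneg a
  have h3 := h.apx x
  have h4 : eta * |a| * (1 + x ^ 4) ≤ M * (1 + x ^ 4) :=
    mul_le_mul_of_nonneg_right (by nlinarith) (by positivity)
  have h5 : |3 * a * (x ^ 2 - 1)| ≤ 3 * M * (x ^ 2 + 1) := by
    rw [abs_mul, abs_mul, abs_of_pos (by norm_num : (0 : ℝ) < 3)]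
    refine mul_le_mul (by linarith) ?_ (abs_nonneg _) (by linarith)
    rw [abs_le]
    constructor <;> nlinarith [sq_nonneg x]
  have h6 : |1 - W1 x| ≤ |1 - th0| + |3 * a * (x ^ 2 - 1)| +
      |W1 x - th0 - 3 * a * (x ^ 2 - 1)| := by
    have e : 1 - W1 x = (1 - th0) - 3 * a * (x ^ 2 - 1) - (W1 x - th0 - 3 * a * (x ^ 2 - 1)) := by
      ring
    rw [e]
    exact (abs_sub _ _).trans (by gcongr; exact abs_sub _ _)
  have h7 : x ^ 4 ≤ 4 * S ^ 2 := by nlinarith [sq_nonneg x]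
  have hM : 0 ≤ M := ha.trans h2
  have h8 : M * (5 + 3 * x ^ 2 + x ^ 4) ≤ M * (5 * (1 + S) ^ 2) :=
    mul_le_mul_of_nonneg_left (by nlinarith [sq_nonneg S]) hM
  nlinarith

theorem Yf_le {L eta a th0 M c d a1 a2 b1 b2 : ℝ} {W W1 : ℝ → ℝ} (he : eta ≤ 1)
    (h : Shape L eta a th0 W W1) (h1 : |1 - th0| ≤ M) (h2 : |a| ≤ M) (hc : 0 < c) (hd : 0 < d)
    (hc1 : c ^ 2 ≤ 1) (hd1 : d ^ 2 ≤ 1) (ha : Co a1 a2) (hb : Co b1 b2) (p : ℝ × ℝ) :
    Yf W c d a1 a2 b1 b2 p ≤ (1 / 2 - 1 / 1600) * (p.1 ^ 2 + p.2 ^ 2) ∧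
      Yf W c d a1 a2 b1 b2 p ≤
        25 / 2 * M * (1 + (p.1 ^ 2 + p.2 ^ 2)) ^ 2 * (p.1 ^ 2 + p.2 ^ 2) := by
  obtain ⟨x, y⟩ := p
  have hx2 := sq_nonneg x
  have hy2 := sq_nonneg y
  have hb1 : (c * x + d * y) ^ 2 + (c * x - d * y) ^ 2 ≤ 2 * (x ^ 2 + y ^ 2) := by
    nlinarith [mul_le_mul_of_nonneg_right hc1 hx2, mul_le_mul_of_nonneg_right hd1 hy2]
  obtain ⟨r, hr, er⟩ := sec h.der (c * x + d * y) (-(c * x - d * y))
  obtain ⟨s, hs, es⟩ := sec h.der (c * x + d * y) (c * x - d * y)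
  rw [h.odd] at er
  have hS : 0 ≤ x ^ 2 + y ^ 2 := by positivity
  have hr' := slope_le he h h1 h2 hS (x := r) (by nlinarith)
  have hs' := slope_le he h h1 h2 hS (x := s) (by nlinarith)
  obtain ⟨ha1, ha2⟩ := co_le ha (h.pos r) hr'
  obtain ⟨hb2, hb3⟩ := co_le hb (h.pos s) hs'
  have e1 : sS W c d (x, y) = W1 r * (2 * c * x) := by
    simp only [sS]
    linarith
  have e2 : sD W c d (x, y) = W1 s * (2 * d * y) := by
    simp only [sD]
    linarith
  have e : Yf W c d a1 a2 b1 b2 (x, y) = x ^ 2 * (a1 + (a2 - a1) * W1 r - a2 * W1 r ^ 2) +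
      y ^ 2 * (b1 + (b2 - b1) * W1 s - b2 * W1 s ^ 2) := by
    simp only [Yf, e1, e2]
    field_simp
    ring
  rw [e]
  constructor
  · linarith only [mul_le_mul_of_nonneg_left ha1 hx2, mul_le_mul_of_nonneg_left hb2 hy2]
  · linarith only [mul_le_mul_of_nonneg_left ha2 hx2, mul_le_mul_of_nonneg_left hb3 hy2]

theorem exp_le {Y A B : ℝ} (hA : Y ≤ A) (hB : Y ≤ B) (hB0 : 0 ≤ B) :
    Real.exp Y ≤ 1 + B * Real.exp A := by
  rcases le_total Y 0 with h | h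
  · have := Real.exp_le_one_iff.2 h
    have := mul_nonneg hB0 (Real.exp_pos A).le
    linarith
  · have h1 : -Y + 1 ≤ Real.exp (-Y) := Real.add_one_le_exp _
    have h2 : Real.exp Y * Real.exp (-Y) = 1 := by rw [← Real.exp_add]; simp
    have h3 := mul_le_mul_of_nonneg_left h1 (Real.exp_pos Y).le
    have h4 : Y * Real.exp Y ≤ B * Real.exp A :=
      mul_le_mul hB (Real.exp_le_exp.2 hA) (Real.exp_pos _).le hB0
    nlinarith

theorem cube_le {S : ℝ} (hS : 0 ≤ S) :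
    (1 + S) ^ 2 * S ≤ 6 * 3200 ^ 3 * Real.exp (1 / 3200) * Real.exp (S / 3200) := by
  have h1 := Real.pow_div_factorial_le_exp ((1 + S) / 3200) (by positivity) 3
  have h2 : ((Nat.factorial 3 : ℕ) : ℝ) = 6 := by norm_num [Nat.factorial]
  rw [h2, add_div, Real.exp_add, div_le_iff₀ (by norm_num)] at h1
  have h3 : (1 / 3200 + S / 3200) ^ 3 = (1 + S) ^ 3 / 3200 ^ 3 := by ring
  rw [h3, div_le_iff₀ (by norm_num)] at h1
  have h4 : (1 + S) ^ 2 * S ≤ (1 + S) ^ 3 := by nlinarith [sq_nonneg (1 + S)]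
  linarith

/-- the dominating function -/
noncomputable def dom (p : ℝ × ℝ) : ℝ :=
  Real.exp ((1 / 2 - 1 / 3200) * p.1 ^ 2) * Real.exp ((1 / 2 - 1 / 3200) * p.2 ^ 2)

theorem integrable_dom : Integrable dom (gam.prod gam) :=
  (integrable_exp_sq_gaussian (by norm_num)).mul_prod (integrable_exp_sq_gaussian (by norm_num))

theorem dom_pos (p : ℝ × ℝ) : 0 < dom p := mul_pos (Real.exp_pos _) (Real.exp_pos _)

theorem exp_Yf_le {L eta a th0 M c d a1 a2 b1 b2 : ℝ} {W W1 : ℝ → ℝ} (he : eta ≤ 1)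
    (h : Shape L eta a th0 W W1) (h1 : |1 - th0| ≤ M) (h2 : |a| ≤ M) (hc : 0 < c) (hd : 0 < d)
    (hc1 : c ^ 2 ≤ 1) (hd1 : d ^ 2 ≤ 1) (ha : Co a1 a2) (hb : Co b1 b2) (p : ℝ × ℝ) :
    Real.exp (Yf W c d a1 a2 b1 b2 p) ≤
      1 + M * (75 * 3200 ^ 3 * Real.exp (1 / 3200)) * dom p := by
  obtain ⟨hA, hB⟩ := Yf_le he h h1 h2 hc hd hc1 hd1 ha hb p
  have hM : 0 ≤ M := (abs_nonneg _).trans h2
  have hS : 0 ≤ p.1 ^ 2 + p.2 ^ 2 := by positivity
  refine (exp_le hA hB (by positivity)).trans ?_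
  have e : dom p = Real.exp ((p.1 ^ 2 + p.2 ^ 2) / 3200) *
      Real.exp ((1 / 2 - 1 / 1600) * (p.1 ^ 2 + p.2 ^ 2)) := by
    rw [dom, ← Real.exp_add, ← Real.exp_add]
    congr 1
    ring
  have h3 := mul_le_mul_of_nonneg_right (mul_le_mul_of_nonneg_left (cube_le hS) hM)
    (Real.exp_pos ((1 / 2 - 1 / 1600) * (p.1 ^ 2 + p.2 ^ 2))).le
  rw [e]
  linarith only [h3]

theorem farMgf : FarMgfStmt := by
  intro L
  have hI : 0 ≤ ∫ p, dom p ∂(gam.prod gam) := integral_nonneg fun p => (dom_pos p).le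
  refine ⟨75 * 3200 ^ 3 * Real.exp (1 / 3200) * ∫ p, dom p ∂(gam.prod gam) + 1, by positivity, ?_⟩
  intro eta a th0 M W W1 he h h1 h2 c d a1 a2 b1 b2 hc hd hc1 hd1 ha hb
  have hW : Continuous W := continuous_iff_continuousAt.2 fun z => (h.der z).continuousAt
  have hM : 0 ≤ M := (abs_nonneg _).trans h2
  have hY : Continuous fun p => Real.exp (Yf W c d a1 a2 b1 b2 p) := by
    unfold Yf sS sD
    fun_prop
  have hD : Integrable (fun p => 1 + M * (75 * 3200 ^ 3 * Real.exp (1 / 3200)) * dom p)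
      (gam.prod gam) := (integrable_const _).add (integrable_dom.const_mul _)
  have hle := exp_Yf_le he h h1 h2 hc hd hc1 hd1 ha hb
  have hY' : Integrable (fun p => Real.exp (Yf W c d a1 a2 b1 b2 p)) (gam.prod gam) :=
    hD.mono' hY.aestronglyMeasurable (Eventually.of_forall fun p => by
      rw [Real.norm_of_nonneg (Real.exp_pos _).le]
      exact hle p)
  refine ⟨hY', (integral_mono hY' hD hle).trans ?_⟩
  rw [integral_add (integrable_const _) (integrable_dom.const_mul _), integral_const_mul]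
  simp only [integral_const, probReal_univ, smul_eq_mul, mul_one]
  refine le_trans ?_ (Real.add_one_le_exp _)
  nlinarith

end Vale.Agent.N150.Sm2.Fm
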