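import Vale.Agent.N150.SmMgf

/-! The exponential moment of the near regime. -/

open MeasureTheory ProbabilityTheory Filter Topology

namespace Vale.Agent.N150.Mgf

open Vale.Agent.N150.Sm2

theorem G_near {K eta a eps th G rho : ℝ} (hK : K * eta ≤ 1) (he : eta ≤ 1) (ha : |a| ≤ 1)
    (hr0 : 0 ≤ rho) (hr1 : rho ≤ 1) (heps : eps ^ 2 ≤ eta * a ^ 2)
    (h1 : |1 - th ^ 2 - 6 * a ^ 2| ≤ K * eta * a ^ 2)
    (h2 : |G - 1 + eps ^ 2 - 6 * a ^ 2 * rho * (1 + rho)| ≤ K * eta * a ^ 2 * rho) :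
    |th ^ 2 - G| ≤ 21 * |a| ∧ th ^ 2 ≤ 2 := by
  have a0 := sq_nonneg a
  have a1 : a ^ 2 ≤ |a| := by
    rw [← sq_abs]; nlinarith [abs_nonneg a]
  have b1 : K * eta * a ^ 2 ≤ a ^ 2 := by nlinarith
  have b0 : 0 ≤ K * eta * a ^ 2 := (abs_nonneg _).trans h1
  have b2 : K * eta * a ^ 2 * rho ≤ a ^ 2 := by nlinarith
  have b3 : eps ^ 2 ≤ a ^ 2 := by nlinarith
  have b4 : 0 ≤ 6 * a ^ 2 * rho * (1 + rho) := by positivity
  have b5 : 6 * a ^ 2 * rho * (1 + rho) ≤ 12 * a ^ 2 := by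
    have : rho * (1 + rho) ≤ 2 := by nlinarith
    nlinarith
  have b6 := sq_nonneg eps
  rw [abs_le] at h1 h2
  refine ⟨?_, by linarith [h1.1]⟩
  rw [abs_le]
  constructor <;> linarith [h1.1, h1.2, h2.1, h2.2]

theorem key {L eta a th0 : ℝ} {W W1 : ℝ → ℝ} (hS : Shape L eta a th0 W W1)
    {K th c d g m1 m2 m0 : ℝ} (hK : 0 < K) (he0 : 0 ≤ eta) (hd : 0 < d) (hdc : d ≤ c)
    (hcd : c ^ 2 + d ^ 2 = 1) (ht0 : 0 ≤ th) (ht2 : th ≤ 2) (hth : |th - th0| ≤ K * eta * |a|)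
    (g21 : |th ^ 2 - G2 W c d| ≤ 21 * |a|) (g25 : |G2 W c d| ≤ 25) (ha1 : |a| ≤ 1)
    (hka1 : (2 + K) * eta * |a| ≤ |a|) (hg : |g| ≤ m0) (hm1 : |m1| ≤ m0) (hm2 : |m2| ≤ m0)
    (hm0 : m0 * (L ^ 2 + 2 * L + 32) ≤ 1 / 4) (p : ℝ × ℝ) :
    |Yn W a th c d g m1 m2 p - a * g * Pol (c ^ 2 * d ^ 2) (c ^ 2 - d ^ 2) p| ≤
      ((2 + K) * eta * |a| * |g| + (4 * L + 29) * |a| * (|m1| + |m2|)) * wt 3 p ∧
    |Pol (c ^ 2 * d ^ 2) (c ^ 2 - d ^ 2) p| ≤ 3 * wt 3 p ∧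
    Yn W a th c d g m1 m2 p ≤ 1 + 1 / 4 * (p.1 ^ 2 + p.2 ^ 2) := by
  have hc : 0 < c := hd.trans_le hdc
  have hdc2 : d ^ 2 ≤ c ^ 2 := pow_le_pow_left₀ hd.le hdc 2
  obtain ⟨r1, r2, q1, q2, a1, a2, a3, a4, b1, b2⟩ := rep hS hcd p
  have w1 : 1 ≤ wt 2 p := one_le_wt 2 p
  have w2 : K * eta * |a| * 1 ≤ K * eta * |a| * wt 2 p :=
    mul_le_mul_of_nonneg_left w1 (by positivity)
  have w3 : (2 + K) * eta * |a| * (1 + p.1 ^ 2 + p.2 ^ 2) ^ 2 =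
      2 * eta * |a| * wt 2 p + K * eta * |a| * wt 2 p := by
    unfold wt; ring
  have c1 : |r1 - th - a * (c ^ 2 * p.1 ^ 2 + 3 * d ^ 2 * p.2 ^ 2 - 3)| ≤
      (2 + K) * eta * |a| * (1 + p.1 ^ 2 + p.2 ^ 2) ^ 2 := by
    rw [w3]
    rw [abs_le] at b1 hth ⊢
    constructor <;> linarith only [b1.1, b1.2, hth.1, hth.2, w2]
  have c2 : |r2 - th - a * (3 * c ^ 2 * p.1 ^ 2 + d ^ 2 * p.2 ^ 2 - 3)| ≤
      (2 + K) * eta * |a| * (1 + p.1 ^ 2 + p.2 ^ 2) ^ 2 := by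
    rw [w3]
    rw [abs_le] at b2 hth ⊢
    constructor <;> linarith only [b2.1, b2.2, hth.1, hth.2, w2]
  rw [Yn_rep hc hd q1 q2, ← Pol_eq hcd p]
  refine ⟨?_, ?_, ?_⟩
  · exact pt_err (g := g) (m1 := m1) (m2 := m2) (sq_nonneg c) (sq_nonneg d) hcd
      (sq_nonneg p.1) (sq_nonneg p.2) a3 a4 ht0 ht2 g21 hka1 c1 c2
  · exact pt_main (sq_nonneg c) (sq_nonneg d) hdc2 hcd (sq_nonneg p.1) (sq_nonneg p.2)
  · exact pt_up (sq_nonneg c) (sq_nonneg d) hdc2 hcd (sq_nonneg p.1) (sq_nonneg p.2) a1 a2 a3 a4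
      ht0 ht2 g25 ha1 hg hm1 hm2 hm0

theorem second {Y : ℝ × ℝ → ℝ} {t b be rho sg : ℝ} (ht : 0 < t)
    (h : ∀ p, |Y p - b * Pol be rho p| ≤ sg * wt 3 p) :
    ∫ p, Y p ^ 2 ∂g2 ≤ (1 + t) * (b ^ 2 * (48 * be ^ 2 + 36 * rho ^ 2)) +
      (1 + 1 / t) * (sg ^ 2 * ∫ p, wt (3 * 2) p ∂g2) := by
  obtain ⟨iP, vP⟩ := Pol_sq be rho
  have j1 := iP.const_mul ((1 + t) * b ^ 2)
  have j2 := (integrable_wt (3 * 2)).const_mul ((1 + 1 / t) * sg ^ 2)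
  have j3 : ∫ p, Y p ^ 2 ∂g2 ≤ ∫ p, ((1 + t) * b ^ 2 * Pol be rho p ^ 2 +
      (1 + 1 / t) * sg ^ 2 * wt (3 * 2) p) ∂g2 := by
    refine integral_mono_of_nonneg (ae_of_all _ fun p => sq_nonneg _) (j1.add j2)
      (ae_of_all _ fun p => ?_)
    have s1 := sq_split (u := b * Pol be rho p) (v := Y p - b * Pol be rho p) ht
    have s2 : (Y p - b * Pol be rho p) ^ 2 ≤ sg ^ 2 * wt (3 * 2) p := by
      rw [wt_mul, ← mul_pow, ← sq_abs]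
      exact pow_le_pow_left₀ (abs_nonneg _) (h p) 2
    have s3 := mul_le_mul_of_nonneg_left s2 (show 0 ≤ 1 + 1 / t by positivity)
    rw [add_sub_cancel] at s1
    calc Y p ^ 2 ≤ _ := s1
      _ ≤ (1 + t) * (b * Pol be rho p) ^ 2 + (1 + 1 / t) * (sg ^ 2 * wt (3 * 2) p) := by
        linarith only [s3]
      _ = _ := by ring
  refine j3.trans (le_of_eq ?_)
  rw [integral_add j1 j2, integral_const_mul, integral_const_mul, vP]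
  ring

theorem core {Y : ℝ × ℝ → ℝ} (hY : Continuous Y) {t K C1 eta a g m1 m2 be rho : ℝ} (ht : 0 < t)
    (hK : 0 < K) (hC4 : 4 ≤ C1) (he0 : 0 ≤ eta) (he1 : eta ≤ 1) (ha : |a| ≤ eta)
    (hka1 : (2 + K) * eta * |a| ≤ |a|) (hg : |g| ≤ 1) (hm1 : |m1| ≤ 1) (hm2 : |m2| ≤ 1)
    (eT1 : eta * ((1 + 1 / t) * (∫ p, wt (3 * 2) p ∂g2) * (2 + K) ^ 2) ≤ 3 * t)
    (eT2 : eta * (9 * (Real.exp 1 * K3 3) * C1 ^ 3) ≤ 3 * t)
    (key : ∀ p, |Y p - a * g * Pol be rho p| ≤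
      ((2 + K) * eta * |a| * |g| + C1 * |a| * (|m1| + |m2|)) * wt 3 p ∧
      |Pol be rho p| ≤ 3 * wt 3 p ∧ Y p ≤ 1 + 1 / 4 * (p.1 ^ 2 + p.2 ^ 2))
    (h0 : ∫ p, Y p ∂g2 = 0) :
    Integrable (fun p => Real.exp (Y p)) g2 ∧ ∫ p, Real.exp (Y p) ∂g2 ≤
      Real.exp ((1 + t) * ((a * g) ^ 2 * (48 * be ^ 2 + 36 * rho ^ 2)) / 2 +
        6 * t * a ^ 2 * g ^ 2 + (2 * (1 + 1 / t) * (∫ p, wt (3 * 2) p ∂g2) * C1 ^ 2 + 3 * t) *
          a ^ 2 * (m1 ^ 2 + m2 ^ 2)) := by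
  have hM0 : 0 ≤ ∫ p, wt (3 * 2) p ∂g2 := integral_nonneg fun p => (wt_pos _ p).le
  have hD0 : 0 ≤ Real.exp 1 * K3 3 := mul_nonneg (Real.exp_pos _).le (K3_nonneg 3)
  have hYb : ∀ p, |Y p| ≤ C1 * |a| * (|g| + |m1| + |m2|) * wt 3 p := by
    intro p
    obtain ⟨k1, k2, -⟩ := key p
    have k3 : |a * g * Pol be rho p| ≤ |a| * |g| * (3 * wt 3 p) :=
      abs_mul_le (abs_mul_le le_rfl le_rfl) k2
    have k4 := abs_add_le (Y p - a * g * Pol be rho p) (a * g * Pol be rho p)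
    rw [sub_add_cancel] at k4
    have k5 : ((2 + K) * eta * |a| * |g| + C1 * |a| * (|m1| + |m2|)) + 3 * (|a| * |g|) ≤
        C1 * |a| * (|g| + |m1| + |m2|) := by
      have u1 : (2 + K) * eta * |a| * |g| ≤ |a| * |g| :=
        mul_le_mul_of_nonneg_right hka1 (abs_nonneg _)
      have u2 : 4 * (|a| * |g|) ≤ C1 * (|a| * |g|) :=
        mul_le_mul_of_nonneg_right hC4 (by positivity)
      linarith only [u1, u2]
    have k6 := mul_le_mul_of_nonneg_right k5 (wt_pos 3 p).le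
    linarith only [k1, k3, k4, k6]
  obtain ⟨hi, hle⟩ := mgf_two hY.aestronglyMeasurable hYb (fun p => (key p).2.2)
  refine ⟨hi, hle.trans ?_⟩
  rw [h0]
  have hV := second ht (fun p => (key p).1)
  have hb := book (V := (a * g) ^ 2 * (48 * be ^ 2 + 36 * rho ^ 2))
    ht hM0 hD0 hC4 hK he0 he1 (abs_nonneg a) ha hg hm1 hm2 eT1 eT2
  refine le_trans ?_ (Real.add_one_le_exp _)
  rw [sq_abs] at hb
  linarith only [hb, hV]

theorem small {eta K T1 T2 t : ℝ} (he0 : 0 ≤ eta) (hK : 0 < K) (h1 : 0 ≤ T1) (h2 : 0 ≤ T2)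
    (e2 : eta ≤ 1 / (2 + K)) (e3 : eta ≤ 3 * t / (T1 + T2 + 1)) :
    K * eta ≤ 1 ∧ eta ≤ 1 ∧ (2 + K) * eta ≤ 1 ∧ eta * T1 ≤ 3 * t ∧ eta * T2 ≤ 3 * t := by
  rw [le_div_iff₀ (by positivity)] at e2 e3
  have a1 := mul_nonneg hK.le he0
  have a2 := mul_nonneg he0 h1
  have a3 := mul_nonneg he0 h2
  refine ⟨by nlinarith, by nlinarith, by nlinarith, by nlinarith, by nlinarith⟩

theorem mgf_of (hG : GaussStmt) : MgfStmt := by
  intro L t ht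
  obtain ⟨K, eg, hK, heg, hG⟩ := hG L
  have hM0 : 0 ≤ ∫ p, wt (3 * 2) p ∂g2 := integral_nonneg fun p => (wt_pos _ p).le
  have hD0 : 0 ≤ Real.exp 1 * K3 3 := mul_nonneg (Real.exp_pos _).le (K3_nonneg 3)
  have hL0 := abs_nonneg L
  have hT10 : 0 ≤ (1 + 1 / t) * (∫ p, wt (3 * 2) p ∂g2) * (2 + K) ^ 2 := by positivity
  have hT20 : 0 ≤ 9 * (Real.exp 1 * K3 3) * (4 * |L| + 29) ^ 3 := by positivity
  refine ⟨2 * (1 + 1 / t) * (∫ p, wt (3 * 2) p ∂g2) * (4 * |L| + 29) ^ 2 + 3 * t,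
    1 / (4 * (|L| ^ 2 + 2 * |L| + 32)),
    min eg (min (1 / (2 + K)) (3 * t / ((1 + 1 / t) * (∫ p, wt (3 * 2) p ∂g2) * (2 + K) ^ 2 +
      9 * (Real.exp 1 * K3 3) * (4 * |L| + 29) ^ 3 + 1))), by positivity, by positivity,
    by positivity, ?_⟩
  intro eta a th0 eps lam th W W1 heta hS hN c d g m1 m2 hd hdc hcd hg hm1 hm2
  have hc : 0 < c := hd.trans_le hdc
  have ha : |a| ≤ eta := hN.sm
  have he0 : 0 ≤ eta := (abs_nonneg _).trans ha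
  obtain ⟨hKe, he1, hK2, eT1, eT2⟩ := small he0 hK hT10 hT20
    (heta.trans ((min_le_right _ _).trans (min_le_left _ _)))
    (heta.trans ((min_le_right _ _).trans (min_le_right _ _)))
  have ha1 : |a| ≤ 1 := ha.trans he1
  obtain ⟨⟨th0', hth, hth2⟩, hG2⟩ := hG eta a th0 eps lam th W W1
    (heta.trans (min_le_left _ _)) hS hN
  obtain ⟨m1', m2', hGG⟩ := hG2 c d hc hd hcd
  have hGG := hGG hdc
  have hdc2 : d ^ 2 ≤ c ^ 2 := pow_le_pow_left₀ hd.le hdc 2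
  obtain ⟨g21, th2⟩ := G_near (rho := c ^ 2 - d ^ 2) hKe he1 ha1 (by linarith only [hdc2])
    (by linarith only [sq_nonneg d, hcd]) hN.eps1 hth2 hGG
  have th2' : th ≤ 2 := by nlinarith only [th2]
  have g25 : |G2 W c d| ≤ 25 := by
    rw [abs_le] at g21 ⊢
    constructor <;> linarith only [g21.1, g21.2, sq_nonneg th, th2, ha1]
  have hL : 0 ≤ L := (hS.pos 0).trans (hS.lip 0)
  have hLa : |L| = L := abs_of_nonneg hL
  have hm0 : 1 / (4 * (|L| ^ 2 + 2 * |L| + 32)) * (L ^ 2 + 2 * L + 32) ≤ 1 / 4 := by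
    rw [hLa]
    refine le_of_eq ?_
    field_simp
  have hm01 : 1 / (4 * (|L| ^ 2 + 2 * |L| + 32)) ≤ 1 := by
    rw [div_le_one (by positivity)]
    linarith only [sq_nonneg |L|, hL0]
  have hka1 : (2 + K) * eta * |a| ≤ |a| := by
    have := mul_le_mul_of_nonneg_right hK2 (abs_nonneg a)
    linarith only [this]
  have hW : Continuous W := continuous_iff_continuousAt.2 fun t => (hS.der t).continuousAt
  have hSc : Continuous (sS W c d) := by unfold sS; fun_prop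
  have hDc : Continuous (sD W c d) := by unfold sD; fun_prop
  have hYc : Continuous (Yn W a th c d g m1 m2) := by unfold Yn; fun_prop
  have hk := key hS hK he0 hd hdc hcd th0' th2' hth g21 g25 ha1 hka1 hg hm1 hm2 hm0
  rw [hLa] at eT2
  obtain ⟨hi, hle⟩ := core hYc ht hK (by linarith only [hL]) he0 he1 ha hka1 (hg.trans hm01)
    (hm1.trans hm01) (hm2.trans hm01) eT1 eT2 hk (Yn_mean hS hc hd hcd m1' m2')
  refine ⟨hi, hle.trans (le_of_eq ?_)⟩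
  rw [hLa]
  congr 1
  have : d ^ 2 = 1 - c ^ 2 := by linarith only [hcd]
  have e48 : (c ^ 2 * d ^ 2) ^ 2 = (1 - (c ^ 2 - d ^ 2) ^ 2) ^ 2 / 16 := by
    rw [this]
    ring
  rw [e48]
  ring

end Vale.Agent.N150.Mgf
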