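import Vale.Agent.N150.SmDef2

/-! Low temperature, second moment: the real inequality of the near regime. -/

namespace Vale.Agent.N150.Sm2.Nq

theorem log_part {w : ℝ} (hw : |w| ≤ 1 / 2) :
    1 / 2 * (w / (1 + w) - Real.log (1 + w)) ≤ -w ^ 2 / 4 + w ^ 3 / 3 + w ^ 4 := by
  have h1 := Real.abs_log_sub_add_sum_range_le (x := -w) (by rw [abs_neg]; linarith) 3
  have h0 : 0 < 1 + w := by linarith [(abs_le.1 hw).1]
  have h2 : |-w| ^ (3 + 1) / (1 - |-w|) ≤ 2 * w ^ 4 := by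
    rw [abs_neg, div_le_iff₀ (by linarith), show |w| ^ (3 + 1) = w ^ 4 from Even.pow_abs ⟨2, rfl⟩ w]
    nlinarith [pow_nonneg (sq_nonneg w) 2]
  have h3 : w / (1 + w) ≤ w - w ^ 2 + w ^ 3 := by
    rw [div_le_iff₀ h0]
    nlinarith [pow_nonneg (sq_nonneg w) 2]
  have h4 := (abs_le.1 (h1.trans h2)).1
  simp only [Finset.sum_range_succ, Finset.sum_range_zero, sub_neg_eq_add] at h4
  norm_num at h4
  nlinarith

theorem inv_part {α β : ℝ} (hα : |α| ≤ 1 / 10) (hβ : |β| ≤ 1 / 10) :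
    1 / ((1 + α) * (1 + β)) ≤ 1 - α - β + 3 * (α ^ 2 + β ^ 2) := by
  obtain ⟨a1, a2⟩ := abs_le.1 hα
  obtain ⟨b1, b2⟩ := abs_le.1 hβ
  have h0 : 4 / 5 ≤ (1 + α) * (1 + β) := by nlinarith
  rw [div_le_iff₀ (by linarith)]
  have h1 := mul_le_mul_of_nonneg_left h0 (by positivity : 0 ≤ 3 * (α ^ 2 + β ^ 2))
  nlinarith [sq_nonneg (α - β), mul_le_mul_of_nonneg_left b2 (sq_nonneg α),
    mul_le_mul_of_nonneg_left a2 (sq_nonneg β)]

theorem sq_part {c g a σ : ℝ} (c1 : 1 ≤ c) (c2 : c ≤ 11 / 10) (s2 : σ ^ 2 ≤ 4) :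
    (σ * g) ^ 2 + (σ * (c * (g - a / 2))) ^ 2 ≤ 16 * (g ^ 2 + a ^ 2) := by
  have k1 : c ^ 2 ≤ 3 / 2 := by nlinarith
  have k2 : (g - a / 2) ^ 2 ≤ 2 * g ^ 2 + a ^ 2 := by nlinarith [sq_nonneg (g + a / 2)]
  have k3 : (c * (g - a / 2)) ^ 2 ≤ 3 / 2 * (2 * g ^ 2 + a ^ 2) := by
    rw [mul_pow]
    exact mul_le_mul k1 k2 (sq_nonneg _) (by norm_num)
  have k4 : σ ^ 2 * (g ^ 2 + (c * (g - a / 2)) ^ 2) ≤ 4 * (g ^ 2 + 3 / 2 * (2 * g ^ 2 + a ^ 2)) :=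
    mul_le_mul s2 (by linarith) (by positivity) (by norm_num)
  rw [mul_pow σ, mul_pow σ, ← mul_add]
  linarith [sq_nonneg a]

theorem rat_part {c N M α β D : ℝ} (c1 : 1 ≤ c) (c2 : c ≤ 11 / 10) (hN : N ^ 2 ≤ 2 * M)
    (hα : |α| ≤ 1 / 10) (hβ : |β| ≤ 1 / 10) (hD : α ^ 2 + β ^ 2 ≤ 16 * D) :
    c / 4 * N ^ 2 * (1 / ((1 + α) * (1 + β))) ≤ c / 4 * (N ^ 2 * (1 - (α + β))) + 40 * M * D := by
  have h8 : c / 4 * N ^ 2 * (3 * (α ^ 2 + β ^ 2)) ≤ 11 / 10 / 4 * (2 * M) * (3 * (16 * D)) := by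
    have : 0 ≤ M := by linarith [sq_nonneg N]
    gcongr
  have h9 := mul_le_mul_of_nonneg_left (inv_part hα hβ) (by positivity : 0 ≤ c / 4 * N ^ 2)
  have h10 : 0 ≤ M * D := mul_nonneg (by linarith [sq_nonneg N])
    (by linarith [sq_nonneg α, sq_nonneg β])
  linarith

/-- one sector -/
theorem sector {e0 lam e c g a b σ : ℝ} (he0 : 0 < e) (he1 : e ≤ 1 / 100) (hc : c = 2 / (2 - e))
    (hσ : |σ| ≤ 2) (hg : |g| ≤ 1 / 100) (ha : |a| ≤ 1 / 100) :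
    Sp e0 lam (σ * g) (e + σ * a) (σ * b) ≤
      -σ ^ 2 * g ^ 2 / 4 + σ ^ 3 * g ^ 3 / 3 + σ ^ 4 * g ^ 4 +
      c / 4 * ((e0 + σ * (b - lam * g)) ^ 2 * (1 - σ * (g + c * (g - a / 2)))) +
      40 * (e0 ^ 2 + 4 * (b - lam * g) ^ 2) * (g ^ 2 + a ^ 2) := by
  have hp : 0 < 2 - e := by linarith
  have c1 : 1 ≤ c := by rw [hc, le_div_iff₀ hp]; linarith
  have c2 : c ≤ 11 / 10 := by rw [hc, div_le_iff₀ hp]; linarith
  have s2 : σ ^ 2 ≤ 4 := by nlinarith [abs_le.1 hσ]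
  have h1 : |σ * g| ≤ 1 / 10 := by
    rw [abs_mul]
    exact (mul_le_mul hσ hg (abs_nonneg _) (by norm_num)).trans (by norm_num)
  have h2 : |g - a / 2| ≤ 2 / 100 := by
    rw [abs_le] at hg ha ⊢
    constructor <;> linarith [hg.1, hg.2, ha.1, ha.2]
  have h3 : |σ * (c * (g - a / 2))| ≤ 1 / 10 := by
    rw [abs_mul, abs_mul, abs_of_pos (by linarith : 0 < c)]
    exact (mul_le_mul hσ (mul_le_mul c2 h2 (abs_nonneg _) (by norm_num)) (by positivity)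
      (by norm_num)).trans (by norm_num)
  have h5 := log_part (w := σ * g) (by linarith)
  have e1 : (e0 + σ * b - lam * (σ * g)) ^ 2 /
      (2 * (1 + σ * g) * (2 + 2 * (σ * g) - (e + σ * a))) = c / 4 * (e0 + σ * (b - lam * g)) ^ 2 *
        (1 / ((1 + σ * g) * (1 + σ * (c * (g - a / 2))))) := by
    have k1 : 1 + σ * g ≠ 0 := by linarith [(abs_le.1 h1).1]
    have k2 : 1 + σ * (c * (g - a / 2)) ≠ 0 := by linarith [(abs_le.1 h3).1]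
    have k3 : 2 + 2 * (σ * g) - (e + σ * a) = 2 / c * (1 + σ * (c * (g - a / 2))) := by
      rw [hc]
      field_simp
      ring
    rw [k3, show e0 + σ * b - lam * (σ * g) = e0 + σ * (b - lam * g) by ring]
    generalize 1 + σ * (c * (g - a / 2)) = y at k2
    generalize 1 + σ * g = x at k1
    field_simp
    ring
  have h6 : (e0 + σ * (b - lam * g)) ^ 2 ≤ 2 * (e0 ^ 2 + 4 * (b - lam * g) ^ 2) := by
    generalize b - lam * g = x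
    linarith [sq_nonneg (e0 - σ * x), mul_le_mul_of_nonneg_right s2 (sq_nonneg x)]
  have h7 := rat_part c1 c2 h6 h1 h3 (sq_part c1 c2 s2)
  rw [← mul_add] at h7
  unfold Sp
  rw [e1]
  generalize b - lam * g = x at h7 ⊢
  linarith

/-- the leading terms -/
theorem lead {s u r G a e0 : ℝ} (hs : 0 ≤ s) (hu : 0 ≤ u) (hr0 : 0 ≤ r) (hr1 : r ≤ 1)
    (hG : 0 ≤ G) (he : 29 / 36 * u ^ 2 ≤ e0) (ha : a ≤ G - r * u + s * u)
    (hG1 : G * (1 - r ^ 2) ≤ 2 * u * (1 - r ^ 2) + s * u) :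
    -r * e0 - (1 + r ^ 2) * u * G / 2 - (r + r ^ 3 / 3) * G ^ 2 + r * a * G +
      u * (3 * r ^ 2 + (1 - r ^ 2) ^ 2 / 4) * G ≤ -(1 / 80) * ((u + G) * G) + 2 * s * (u * G) := by
  have huG := mul_nonneg hu hG
  have t1 : 0 ≤ 1 - r ^ 2 := by nlinarith
  have h1 : r * a * G ≤ r * (G - r * u + s * u) * G :=
    mul_le_mul_of_nonneg_right (mul_le_mul_of_nonneg_left ha hr0) hG
  have h2 : r * (s * (u * G)) ≤ 1 * (s * (u * G)) :=
    mul_le_mul_of_nonneg_right hr1 (by positivity)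
  have h3 := mul_le_mul_of_nonneg_left he hr0
  have h4 : 0 ≤ r * (77 / 240 * (r * G) ^ 2 - 81 / 80 * (u * (r * G)) + 29 / 36 * u ^ 2) :=
    mul_nonneg hr0 (by nlinarith [sq_nonneg (r * G - 243 / 154 * u), sq_nonneg u])
  have h5 : 0 ≤ (1 - r ^ 2) * r ^ 2 * (u * G) := by positivity
  have h6 : 1 - r ^ 3 ≤ 3 / 2 * (1 - r ^ 2) := by
    nlinarith [mul_nonneg (sq_nonneg (1 - r)) hr0, sq_nonneg (1 - r)]
  have h7 := mul_le_mul_of_nonneg_right h6 (sq_nonneg G)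
  have h8 := mul_le_mul_of_nonneg_right hG1 hG
  have h9 : 0 ≤ (1 - r ^ 2) * (u * G) := by positivity
  have h10 : 0 ≤ s * (u * G) := by positivity
  linarith

/-- the error monomials -/
theorem mono {s u G H B : ℝ} (hs : s ≤ 1 / 10 ^ 7) (hu : 0 ≤ u) (hus : u ≤ s) (hG : 0 ≤ G)
    (hH : 0 ≤ H) (hB : 0 ≤ B) (hG1 : G ≤ 3 * s) (hH1 : H ≤ 4 * s) :
    2 * u * G * (2 * B + 3 * u * (G + H) + H) + 6 * u ^ 3 * G * (G + H) +
      (2 * B ^ 2 + 6 * u * (G + H) * B + 2 * (s * u) * (G + H) ^ 2) +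
      12 * u ^ 2 * (B + (G + H)) * (G + H) +
      8 * (2 * (s * u) * (G + H) ^ 3 +
        2 * (G + H) * (B ^ 2 + 2 * B * (G + H) + 6 * u * (G + H) ^ 2)) +
      (17 * (G + H) ^ 4 + 80 * (u ^ 4 + 8 * (B ^ 2 + (G + H) ^ 2)) * (2 * (G + H) ^ 2) +
        5 * (s * u) * (G + H) ^ 2) +
      ((3 * u + G) * (2 * G * H + H ^ 2) + 4 / 3 * (3 * G ^ 2 * H + 3 * G * H ^ 2 + H ^ 3)) +
      2 * s * (u * G) * G ≤
      1 / 100 * ((u + G) * G ^ 2) + 2000 * ((u + G) * G * (B + H) + B ^ 2 + H ^ 2) := by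
  have hs0 : 0 ≤ s := hu.trans hus
  have u1 : u ≤ 1 / 1000 := by linarith
  have G1 : G ≤ 1 / 1000 := by linarith
  have H1 : H ≤ 1 / 1000 := by linarith
  have m1 : 0 ≤ u * G * B := by positivity
  have m2 : 0 ≤ u * G * H := by positivity
  have m3 : 0 ≤ G ^ 2 * B := by positivity
  have m4 : 0 ≤ G ^ 2 * H := by positivity
  have m5 := sq_nonneg B
  have m6 := sq_nonneg H
  have m7 : B * H ≤ B ^ 2 + H ^ 2 := by nlinarith [sq_nonneg (B - H)]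
  have m8 : 0 ≤ B * H := by positivity
  have n1 := mul_le_mul_of_nonneg_right u1 m6
  have n2 := mul_le_mul_of_nonneg_right G1 m6
  have n3 := mul_le_mul_of_nonneg_right H1 m6
  have n4 := mul_le_mul_of_nonneg_right u1 m8
  have n5 := mul_le_mul_of_nonneg_right G1 m8
  have n6 := mul_le_mul_of_nonneg_right H1 m8
  have hΘ : (u + (G + H)) * (G + H) ^ 2 ≤ 2 * ((u + G) * G ^ 2) +
      3 * ((u + G) * G * (B + H) + B ^ 2 + H ^ 2) := by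
    have : (u + (G + H)) * (G + H) ^ 2 ≤ (u + (G + H)) * (2 * G ^ 2 + 2 * H ^ 2) :=
      mul_le_mul_of_nonneg_left (by nlinarith [sq_nonneg (G - H)]) (by positivity)
    linarith
  have hΞ : (u + (G + H)) * (G + H) * B ≤ 2 * ((u + G) * G * (B + H) + B ^ 2 + H ^ 2) := by
    linarith
  have hM : (3 * u + G) * (2 * G * H + H ^ 2) + 4 / 3 * (3 * G ^ 2 * H + 3 * G * H ^ 2 + H ^ 3) +
      2 * u * G * (2 * B + H) ≤ 20 * ((u + G) * G * (B + H) + B ^ 2 + H ^ 2) := by linarith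
  have hP : u * G * G ≤ (u + G) * G ^ 2 := by nlinarith [pow_nonneg hG 3]
  have hZ : B ^ 2 ≤ (u + G) * G * (B + H) + B ^ 2 + H ^ 2 := by linarith
  have hP0 : 0 ≤ (u + G) * G ^ 2 := by positivity
  have hGJ : G ≤ G + H := by linarith
  have hJ : G + H ≤ 7 * s := by linarith
  have hJ0 : 0 ≤ G + H := by linarith
  generalize (u + G) * G * (B + H) + B ^ 2 + H ^ 2 = Z at *
  generalize (u + G) * G ^ 2 = P at *
  generalize (3 * u + G) * (2 * G * H + H ^ 2) +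
    4 / 3 * (3 * G ^ 2 * H + 3 * G * H ^ 2 + H ^ 3) = M at *
  generalize G + H = J at *
  clear m1 m2 m3 m4 m6 m7 m8 n1 n2 n3 n4 n5 n6
  have J1 : J ≤ 1 / 1000 := by linarith
  have p1 : 0 ≤ u * J ^ 2 := by positivity
  have p2 : 0 ≤ J ^ 3 := by positivity
  have p3 : 0 ≤ u * J * B := by positivity
  have p4 : 0 ≤ J ^ 2 * B := by positivity
  have q1 : u * (u * J ^ 2) ≤ s * (u * J ^ 2) := mul_le_mul_of_nonneg_right hus p1
  have q2 : u ^ 2 * J * G ≤ u ^ 2 * J * J := mul_le_mul_of_nonneg_left hGJ (by positivity)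
  have q3 : u * (u ^ 2 * J * G) ≤ 1 / 1000 * (u ^ 2 * J * G) :=
    mul_le_mul_of_nonneg_right u1 (by positivity)
  have q4 := mul_le_mul_of_nonneg_right u1 p3
  have q5 : u * (s * J ^ 3) ≤ 1 / 1000 * (s * J ^ 3) :=
    mul_le_mul_of_nonneg_right u1 (by positivity)
  have q6 := mul_le_mul_of_nonneg_right J1 m5
  have q7 : J * (J * B ^ 2) ≤ 1 / 1000 * (J * B ^ 2) :=
    mul_le_mul_of_nonneg_right J1 (by positivity)
  have q8 := mul_le_mul_of_nonneg_right hJ p1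
  have q9 := mul_le_mul_of_nonneg_right hJ p2
  have q10 : u ^ 2 * (u * (u * J ^ 2)) ≤ 1 * (u * (u * J ^ 2)) :=
    mul_le_mul_of_nonneg_right (by nlinarith) (by positivity)
  have r1 : 0 ≤ s * (u * J ^ 2) := by positivity
  have r2 : 0 ≤ s * J ^ 3 := by positivity
  have r3 := mul_le_mul_of_nonneg_left hΘ hs0
  have r4 := mul_le_mul_of_nonneg_left hP hs0
  have r5 := mul_le_mul_of_nonneg_right hs hP0
  have r6 := mul_le_mul_of_nonneg_right hs (m5.trans hZ)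
  linarith

theorem abs_mul_le {x y X Y : ℝ} (hx : |x| ≤ X) (hy : |y| ≤ Y) : |x * y| ≤ X * Y := by
  rw [abs_mul]
  exact mul_le_mul hx hy (abs_nonneg _) ((abs_nonneg _).trans hx)

theorem mul_le_ab {p x P X : ℝ} (hp : 0 ≤ p) (hP : p ≤ P) (hx : |x| ≤ X) : p * x ≤ P * X :=
  (le_abs_self _).trans (abs_mul_le (by rwa [abs_of_nonneg hp]) hx)

theorem termE {e c lam u r a g b J B : ℝ} (he : 0 ≤ e) (he1 : e ≤ 1 / 100) (c1 : 1 ≤ c)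
    (c2 : c ≤ 1 + e) (l0 : 0 ≤ lam) (l1 : lam ≤ 1) (l2 : 1 - 6 * u ≤ lam ^ 2) (hr0 : 0 ≤ r)
    (hr1 : r ≤ 1) (ha0 : 0 ≤ a) (ha : a ≤ J) (hg : |g| ≤ J) (hb : |b| ≤ B)
    (hγ : |g + c * (g - a / 2)| ≤ 3 * J) :
    (6 * r + 2 * r ^ 3) * (g ^ 3 / 3 - c / 4 * (b - lam * g) ^ 2 * (g + c * (g - a / 2))) ≤
      -(r + r ^ 3 / 3) * g ^ 3 + r * a * g ^ 2 +
      8 * (2 * e * J ^ 3 + 2 * J * (B ^ 2 + 2 * B * J + 6 * u * J ^ 2)) := by
  have hJ : 0 ≤ J := ha0.trans ha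
  have hB : 0 ≤ B := (abs_nonneg _).trans hb
  have g2 : |g ^ 2| ≤ J ^ 2 := by rw [abs_pow]; exact pow_le_pow_left₀ (abs_nonneg _) hg 2
  have b2 : |b ^ 2| ≤ B ^ 2 := by rw [abs_pow]; exact pow_le_pow_left₀ (abs_nonneg _) hb 2
  have r3 : r ^ 3 ≤ r := by nlinarith [mul_nonneg hr0 hr0]
  have k1 : |(2 - c - c ^ 2) / 4| ≤ e := by rw [abs_le]; constructor <;> nlinarith
  have k2 : |(c ^ 2 - 1) / 8| ≤ e := by rw [abs_le]; constructor <;> nlinarith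
  have k3 := abs_le.1 (abs_mul_le g2 (abs_mul_le k1 hg))
  have k4 := abs_le.1 (abs_mul_le g2 (abs_mul_le k2 (show |a| ≤ J by rwa [abs_of_nonneg ha0])))
  have k5 := abs_le.1 (abs_mul_le (show |lam| ≤ 1 by rwa [abs_of_nonneg l0]) (abs_mul_le hb hg))
  have k6 := abs_le.1 (abs_mul_le (show |lam ^ 2 - 1| ≤ 6 * u by
    rw [abs_le]; constructor <;> nlinarith) g2)
  have k7 : |(b - lam * g) ^ 2 - g ^ 2| ≤ B ^ 2 + 2 * B * J + 6 * u * J ^ 2 := by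
    rw [abs_le] at b2 ⊢
    constructor <;> linarith [k5.1, k5.2, k6.1, k6.2, b2.1, b2.2]
  have k8 := abs_le.1 (abs_mul_le (show |c / 4| ≤ 2 / 3 by
    rw [abs_le]; constructor <;> linarith) (abs_mul_le k7 hγ))
  have k9 : |g ^ 3 / 3 - c / 4 * (b - lam * g) ^ 2 * (g + c * (g - a / 2)) + g ^ 3 / 6 -
      a * g ^ 2 / 8| ≤ 2 * e * J ^ 3 + 2 * J * (B ^ 2 + 2 * B * J + 6 * u * J ^ 2) := by
    rw [abs_le]
    constructor <;> linarith [k3.1, k3.2, k4.1, k4.2, k8.1, k8.2]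
  have k10 := mul_le_ab (p := 6 * r + 2 * r ^ 3) (P := 8) (by positivity) (by linarith) k9
  have k11 := mul_le_mul_of_nonneg_right r3 (by positivity : 0 ≤ a * g ^ 2)
  linarith

theorem termM {u r a G h H : ℝ} (hu : 0 ≤ u) (hr0 : 0 ≤ r) (hr1 : r ≤ 1) (ha0 : 0 ≤ a)
    (ha : a ≤ G) (hh : |h| ≤ H) :
    (u * (3 * r ^ 2 + (1 - r ^ 2) ^ 2 / 4 - (1 + r ^ 2) / 2) + r * a) * ((G + h) ^ 2 - G ^ 2) -
      (r + r ^ 3 / 3) * ((G + h) ^ 3 - G ^ 3) ≤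
      (3 * u + G) * (2 * G * H + H ^ 2) + 4 / 3 * (3 * G ^ 2 * H + 3 * G * H ^ 2 + H ^ 3) := by
  have hG : 0 ≤ G := ha0.trans ha
  have t0 : r ^ 2 ≤ 1 := by nlinarith
  have t1 : (1 - r ^ 2) ^ 2 ≤ 1 := by nlinarith [sq_nonneg r]
  have r3 : r ^ 3 ≤ 1 := pow_le_one₀ hr0 hr1
  have h2 : |h ^ 2| ≤ H ^ 2 := by rw [abs_pow]; exact pow_le_pow_left₀ (abs_nonneg _) hh 2
  have h3 : |h ^ 3| ≤ H ^ 3 := by rw [abs_pow]; exact pow_le_pow_left₀ (abs_nonneg _) hh 3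
  have k1 := abs_le.1 (abs_mul_le (abs_of_nonneg hG).le hh)
  have k2 := abs_le.1 (abs_mul_le (abs_of_nonneg (sq_nonneg G)).le hh)
  have k3 := abs_le.1 (abs_mul_le (abs_of_nonneg hG).le h2)
  have k4 : |(G + h) ^ 2 - G ^ 2| ≤ 2 * G * H + H ^ 2 := by
    rw [abs_le] at h2 ⊢
    constructor <;> linarith [k1.1, k1.2, h2.1, h2.2]
  have k5 : |-((G + h) ^ 3 - G ^ 3)| ≤ 3 * G ^ 2 * H + 3 * G * H ^ 2 + H ^ 3 := by
    rw [abs_le] at h3 ⊢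
    constructor <;> linarith [k2.1, k2.2, k3.1, k3.2, h3.1, h3.2]
  have k6 : |3 * r ^ 2 + (1 - r ^ 2) ^ 2 / 4 - (1 + r ^ 2) / 2| ≤ 3 := by
    rw [abs_le]
    constructor <;> linarith [sq_nonneg r, sq_nonneg (1 - r ^ 2)]
  have k7 := abs_le.1 (abs_mul_le (abs_of_nonneg hu).le k6)
  have k8 : r * a ≤ 1 * G := mul_le_mul hr1 ha ha0 zero_le_one
  have k9 : |u * (3 * r ^ 2 + (1 - r ^ 2) ^ 2 / 4 - (1 + r ^ 2) / 2) + r * a| ≤ 3 * u + G := by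
    rw [abs_le]
    constructor <;> linarith [k7.1, k7.2, mul_nonneg hr0 ha0]
  have k10 := (abs_le.1 (abs_mul_le k9 k4)).2
  have k11 := mul_le_ab (p := r + r ^ 3 / 3) (P := 4 / 3) (by positivity) (by linarith) k5
  linarith

theorem termF {s u r e0 lam a g b J B : ℝ} (hs : 0 ≤ s) (hu : 0 ≤ u) (hr0 : 0 ≤ r) (hr1 : r ≤ 1)
    (e1 : 0 ≤ e0) (e2 : e0 ≤ u ^ 2) (l0 : 0 ≤ lam) (l1 : lam ≤ 1) (ha0 : 0 ≤ a) (ha : a ≤ J)
    (hg : |g| ≤ J) (hb : |b| ≤ B) :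
    ((1 - r) ^ 4 + (1 + r) ^ 4) * g ^ 4 + 80 * (e0 ^ 2 + 4 * (b - lam * g) ^ 2) * (g ^ 2 + a ^ 2) +
      s * u * g ^ 2 * (3 * r ^ 2 + (1 - r ^ 2) ^ 2 / 4) + s * u * g ^ 2 ≤
      17 * J ^ 4 + 80 * (u ^ 4 + 8 * (B ^ 2 + J ^ 2)) * (2 * J ^ 2) + 5 * (s * u) * J ^ 2 := by
  have g2 : g ^ 2 ≤ J ^ 2 := sq_le_sq' (abs_le.1 hg).1 (abs_le.1 hg).2
  have b2 : b ^ 2 ≤ B ^ 2 := sq_le_sq' (abs_le.1 hb).1 (abs_le.1 hb).2
  have a2 : a ^ 2 ≤ J ^ 2 := pow_le_pow_left₀ ha0 ha 2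
  have g4 : g ^ 4 ≤ J ^ 4 := by
    have := pow_le_pow_left₀ (sq_nonneg g) g2 2
    linarith
  have t0 : r ^ 2 ≤ 1 := by nlinarith
  have t1 : (1 - r ^ 2) ^ 2 ≤ 1 := by nlinarith [sq_nonneg r]
  have t2 : r ^ 4 ≤ 1 := pow_le_one₀ hr0 hr1
  have k1 : ((1 - r) ^ 4 + (1 + r) ^ 4) * g ^ 4 ≤ 17 * J ^ 4 :=
    mul_le_mul (by linarith) g4 (by positivity) (by norm_num)
  have k2 : e0 ^ 2 ≤ u ^ 4 := by
    have := pow_le_pow_left₀ e1 e2 2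
    linarith
  have k3 : lam ^ 2 * g ^ 2 ≤ 1 * J ^ 2 := mul_le_mul (by nlinarith) g2 (sq_nonneg _) zero_le_one
  have k4 : (e0 ^ 2 + 4 * (b - lam * g) ^ 2) * (g ^ 2 + a ^ 2) ≤
      (u ^ 4 + 8 * (B ^ 2 + J ^ 2)) * (2 * J ^ 2) :=
    mul_le_mul (by linarith [sq_nonneg (b + lam * g)]) (by linarith) (by positivity) (by positivity)
  have k5 : g ^ 2 * (3 * r ^ 2 + (1 - r ^ 2) ^ 2 / 4 + 1) ≤ J ^ 2 * 5 :=
    mul_le_mul g2 (by linarith) (by positivity) (by positivity)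
  have k6 := mul_le_mul_of_nonneg_left k5 (mul_nonneg hs hu)
  linarith

theorem termABCD {s u e c r e0 lam G h b γ H B : ℝ} (hs : 0 ≤ s) (hu : 0 ≤ u)
    (hu1 : u ≤ 1 / 100) (hs1 : s ≤ 1 / 100) (he0 : 0 ≤ e) (he : e ≤ s * u) (c1 : 1 ≤ c)
    (c2 : c ≤ 1 + e)
    (hr0 : 0 ≤ r) (hr1 : r ≤ 1) (e1 : 0 ≤ e0) (e2 : e0 ≤ u ^ 2) (l0 : 1 - 3 * u ≤ lam)
    (l1 : lam ≤ 1) (l2 : lam ^ 2 ≤ 1 - u + s * u) (hG : 0 ≤ G) (hru : r * u ≤ 2 * G)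
    (hh : |h| ≤ H) (hb : |b| ≤ B) (hγ : |γ| ≤ 3 * (G + H)) :
    r * c * e0 * (b - lam * (G + h)) - r * c / 2 * e0 ^ 2 * γ +
      (1 + r ^ 2) * (c / 2 * (b - lam * (G + h)) ^ 2 - (G + h) ^ 2 / 2 + (G + h) * b) -
      (1 + r ^ 2) * c * e0 * ((b - lam * (G + h)) * γ) ≤
      -r * e0 * G - (1 + r ^ 2) * u * (G + h) ^ 2 / 2 +
      (2 * u * G * (2 * B + 3 * u * (G + H) + H) + 6 * u ^ 3 * G * (G + H) +
      (2 * B ^ 2 + 6 * u * (G + H) * B + 2 * (s * u) * (G + H) ^ 2) +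
      12 * u ^ 2 * (B + (G + H)) * (G + H)) := by
  have su : s * u ≤ 1 / 100 * u := mul_le_mul_of_nonneg_right hs1 hu
  have hg : |G + h| ≤ G + H := (abs_add_le _ _).trans (by rw [abs_of_nonneg hG]; linarith)
  have hJ : 0 ≤ G + H := (abs_nonneg _).trans hg
  have hh' := abs_le.1 hh
  have t0 : r ^ 2 ≤ 1 := by nlinarith
  have c3 : c ≤ 2 := by linarith
  have k0 : |1 - c * lam| ≤ 3 * u := by rw [abs_le]; constructor <;> nlinarith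
  have k1 := abs_le.1 (abs_mul_le k0 hg)
  have k2 := abs_le.1 (abs_mul_le (show |c| ≤ 2 by rwa [abs_of_nonneg (by linarith)]) hb)
  have k3 : r * e0 ≤ 2 * u * G := by
    have := mul_le_mul_of_nonneg_left e2 hr0
    have := mul_le_mul_of_nonneg_left hru hu
    linarith
  have kA := mul_le_ab (mul_nonneg hr0 e1) k3
    (x := c * b + (1 - c * lam) * (G + h) - h) (X := 2 * B + 3 * u * (G + H) + H)
    (abs_le.2 ⟨by linarith [k1.1, k2.1, hh'.2], by linarith [k1.2, k2.2, hh'.1]⟩)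
  have k4 : r * e0 * (c / 2 * e0) ≤ 2 * u * G * (1 * u ^ 2) :=
    mul_le_mul k3 (mul_le_mul (by linarith) e2 e1 zero_le_one) (by positivity) (by positivity)
  have kB := mul_le_ab (by positivity) k4 (x := -γ) ((abs_neg _).trans_le hγ)
  have b2 : b ^ 2 ≤ B ^ 2 := sq_le_sq' (abs_le.1 hb).1 (abs_le.1 hb).2
  have g2 : (G + h) ^ 2 ≤ (G + H) ^ 2 := sq_le_sq' (abs_le.1 hg).1 (abs_le.1 hg).2
  have k5 : (1 + r ^ 2) * (c / 2) * b ^ 2 ≤ 2 * 1 * B ^ 2 :=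
    mul_le_mul (mul_le_mul (by linarith) (by linarith) (by positivity) (by norm_num)) b2
      (sq_nonneg _) (by norm_num)
  have k6 := mul_le_ab (p := 1 + r ^ 2) (P := 2) (by positivity) (by linarith)
    (abs_mul_le (abs_mul_le k0 hg) hb)
  have k7 : c * lam ^ 2 ≤ 1 - u + 2 * (s * u) := by
    have := mul_le_mul c2 l2 (sq_nonneg _) (by linarith)
    nlinarith
  have k8 := mul_le_mul_of_nonneg_right k7 (by positivity : 0 ≤ (1 + r ^ 2) * (G + h) ^ 2)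
  have k9 : (1 + r ^ 2) * (G + h) ^ 2 ≤ 2 * (G + H) ^ 2 :=
    mul_le_mul (by linarith) g2 (sq_nonneg _) (by norm_num)
  have k10 := mul_le_mul_of_nonneg_left k9 (mul_nonneg hs hu)
  have k11 := abs_le.1 (abs_mul_le (show |lam| ≤ 1 from abs_le.2 ⟨by linarith, l1⟩) hg)
  have k12 : |b - lam * (G + h)| ≤ B + (G + H) :=
    abs_le.2 ⟨by linarith [k11.2, (abs_le.1 hb).1], by linarith [k11.1, (abs_le.1 hb).2]⟩
  have k13 : (1 + r ^ 2) * c * e0 ≤ 2 * 2 * u ^ 2 :=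
    mul_le_mul (mul_le_mul (by linarith) c3 (by linarith) (by norm_num)) e2 e1 (by norm_num)
  have kD := mul_le_ab (by positivity) k13 (x := -((b - lam * (G + h)) * γ))
    ((abs_neg _).trans_le (abs_mul_le k12 hγ))
  generalize G + H = J at *
  linarith

theorem expand (s u c r e0 g x γ b D : ℝ) :
    -(-(1 - r)) ^ 2 * g ^ 2 / 4 + (-(1 - r)) ^ 3 * g ^ 3 / 3 + (-(1 - r)) ^ 4 * g ^ 4 +
      c / 4 * ((e0 + -(1 - r) * x) ^ 2 * (1 - -(1 - r) * γ)) + 40 * (e0 ^ 2 + 4 * x ^ 2) * D +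
      (-(1 + r) ^ 2 * g ^ 2 / 4 + (1 + r) ^ 3 * g ^ 3 / 3 + (1 + r) ^ 4 * g ^ 4 +
      c / 4 * ((e0 + (1 + r) * x) ^ 2 * (1 - (1 + r) * γ)) + 40 * (e0 ^ 2 + 4 * x ^ 2) * D) -
      c / 2 * e0 ^ 2 + (1 + r ^ 2) * g * b +
      (1 + s) * u * g ^ 2 * (3 * r ^ 2 + (1 - r ^ 2) ^ 2 / 4) + s * u * g ^ 2 =
    (r * c * e0 * x - r * c / 2 * e0 ^ 2 * γ + (1 + r ^ 2) * (c / 2 * x ^ 2 - g ^ 2 / 2 + g * b) -
      (1 + r ^ 2) * c * e0 * (x * γ)) + (6 * r + 2 * r ^ 3) * (g ^ 3 / 3 - c / 4 * x ^ 2 * γ) +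
      (((1 - r) ^ 4 + (1 + r) ^ 4) * g ^ 4 + 80 * (e0 ^ 2 + 4 * x ^ 2) * D +
        s * u * g ^ 2 * (3 * r ^ 2 + (1 - r ^ 2) ^ 2 / 4) + s * u * g ^ 2) +
      u * g ^ 2 * (3 * r ^ 2 + (1 - r ^ 2) ^ 2 / 4) := by
  ring

theorem fin_sum {s u r e0 a G g X1 X2 X3 X4 X5 P Z : ℝ}
    (K3 : (u * (3 * r ^ 2 + (1 - r ^ 2) ^ 2 / 4 - (1 + r ^ 2) / 2) + r * a) * (g ^ 2 - G ^ 2) -
      (r + r ^ 3 / 3) * (g ^ 3 - G ^ 3) ≤ X4)
    (K5 : (-r * e0 - (1 + r ^ 2) * u * G / 2 - (r + r ^ 3 / 3) * G ^ 2 + r * a * G +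
      u * (3 * r ^ 2 + (1 - r ^ 2) ^ 2 / 4) * G) * G ≤ -(1 / 80) * P + 2 * s * (u * G) * G)
    (K6 : X1 + X5 + X3 + X4 + 2 * s * (u * G) * G ≤ 1 / 100 * P + Z) (K7 : X2 ≤ X5) :
    -r * e0 * G - (1 + r ^ 2) * u * g ^ 2 / 2 + X1 + (-(r + r ^ 3 / 3) * g ^ 3 + r * a * g ^ 2 + X2) +
      X3 + u * g ^ 2 * (3 * r ^ 2 + (1 - r ^ 2) ^ 2 / 4) ≤ -(1 / 400) * P + Z := by
  linarith

theorem core {s u e c lam e0 r a G h b : ℝ} (hs : s ≤ 1 / 10 ^ 7) (hu : 0 < u) (hus : u ≤ s)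
    (he : 0 < e) (hes : e ≤ s * u) (hc : c = 2 / (2 - e)) (h3 : 29 / 36 * u ^ 2 ≤ e0)
    (h4 : e0 ≤ u ^ 2) (hr0 : 0 ≤ r) (hr1 : r ≤ 1) (hg : |G + h| ≤ s) (a0 : 0 ≤ a) (aG : a ≤ G)
    (G3 : G ≤ 3 * s) (hru : r * u ≤ 2 * G) (ha : a ≤ G - r * u + s * u)
    (hG1 : G * (1 - r ^ 2) ≤ 2 * u * (1 - r ^ 2) + s * u) (l0 : 1 - 3 * u ≤ lam) (l1 : lam ≤ 1)
    (l2 : lam ^ 2 ≤ 1 - u + s * u) :
    Sp e0 lam (-(1 - r) * (G + h)) (e + -(1 - r) * a) (-(1 - r) * b) +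
        Sp e0 lam ((1 + r) * (G + h)) (e + (1 + r) * a) ((1 + r) * b) - c / 2 * e0 ^ 2 +
        (1 + r ^ 2) * (G + h) * b +
        (1 + s) * u * (G + h) ^ 2 * (3 * r ^ 2 + (1 - r ^ 2) ^ 2 / 4) + s * u * (G + h) ^ 2 ≤
      -(1 / 400) * ((u + G) * G ^ 2) +
        2000 * ((u + G) * G * (|b| + |h|) + |b| ^ 2 + |h| ^ 2) := by
  have hs0 : 0 < s := hu.trans_le hus
  have su : s * u ≤ 1 / 10 ^ 7 * u := mul_le_mul_of_nonneg_right hs hu.le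
  have hG : 0 ≤ G := a0.trans aG
  have e1 : 0 ≤ e0 := le_trans (by positivity) h3
  have l3 : 0 ≤ lam := by linarith
  have l4 : 1 - 6 * u ≤ lam ^ 2 :=
    le_trans (by linarith [sq_nonneg u]) (pow_le_pow_left₀ (by linarith) l0 2)
  have he1 : e ≤ 1 / 100 := by linarith
  have hp : 0 < 2 - e := by linarith
  have c1 : 1 ≤ c := by rw [hc, le_div_iff₀ hp]; linarith
  have c2 : c ≤ 1 + e := by
    rw [hc, div_le_iff₀ hp]
    linarith [mul_le_mul_of_nonneg_left he1 he.le]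
  have ha' : |a| ≤ 1 / 100 := by rw [abs_of_nonneg a0]; linarith
  have S1 := sector (e0 := e0) (lam := lam) (b := b) (σ := -(1 - r)) he he1 hc
    (abs_le.2 ⟨by linarith, by linarith⟩) (hg.trans (by linarith)) ha'
  have S2 := sector (e0 := e0) (lam := lam) (b := b) (σ := 1 + r) he he1 hc
    (abs_le.2 ⟨by linarith, by linarith⟩) (hg.trans (by linarith)) ha'
  refine le_trans (add_le_add (add_le_add (add_le_add (sub_le_sub_right (add_le_add S1 S2) _)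
    le_rfl) le_rfl) le_rfl) ?_
  clear S1 S2
  have hJ : |G + h| ≤ G + |h| := (abs_add_le _ _).trans (by rw [abs_of_nonneg hG])
  have aJ : a ≤ G + |h| := by linarith [abs_nonneg h]
  have hH : |h| ≤ 4 * s :=
    abs_le.2 ⟨by linarith [(abs_le.1 hg).1], by linarith [(abs_le.1 hg).2]⟩
  have hγ : |G + h + c * (G + h - a / 2)| ≤ 3 * (G + |h|) := by
    have k1 : |G + h - a / 2| ≤ 3 / 2 * (G + |h|) :=
      abs_le.2 ⟨by linarith [(abs_le.1 hJ).1], by linarith [(abs_le.1 hJ).2]⟩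
    have k2 := abs_mul_le (show |c| ≤ 4 / 3 from abs_le.2 ⟨by linarith, by linarith⟩) k1
    exact (abs_add_le _ _).trans (by linarith)
  have K1 := termABCD hs0.le hu.le (by linarith) (by linarith) he.le hes c1 c2 hr0 hr1
    e1 h4 l0 l1 l2 hG hru (le_refl |h|) (le_refl |b|) hγ
  have K2 := termE he.le he1 c1 c2 l3 l1 l4 hr0 hr1 a0 aJ hJ (le_refl |b|) hγ
  have K4 := termF hs0.le hu.le hr0 hr1 e1 h4 l3 l1 a0 aJ hJ (le_refl |b|)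
  have K5 := mul_le_mul_of_nonneg_right (lead hs0.le hu.le hr0 hr1 hG h3 ha hG1) hG
  have K7 := mul_le_mul_of_nonneg_right hes (by positivity : 0 ≤ (G + |h|) ^ 3)
  rw [expand]
  refine le_trans (add_le_add (add_le_add (add_le_add K1 K2) K4) le_rfl) ?_
  clear K1 K2 K4
  refine fin_sum (termM hu.le hr0 hr1 a0 aG (le_refl |h|))
    (K5.trans (le_of_eq (by ring))) (mono hs hu.le hus hG (abs_nonneg h) (abs_nonneg b) G3 hH) ?_
  generalize G + |h| = J at K7 ⊢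
  linarith

theorem lam_facts {s u th lam e0 : ℝ} (hs : s ≤ 1 / 10 ^ 7) (hu : 0 < u) (hus : u ≤ s)
    (hth : 0 ≤ th) (h1 : |1 - th ^ 2 - u| ≤ s * u) (h2 : e0 = th - lam) (e1 : 0 ≤ e0)
    (h4 : e0 ≤ u ^ 2) : 1 - 3 * u ≤ lam ∧ lam ≤ 1 ∧ lam ^ 2 ≤ 1 - u + s * u := by
  have su : s * u ≤ 1 / 10 ^ 7 * u := mul_le_mul_of_nonneg_right hs hu.le
  obtain ⟨T1, T2⟩ := abs_le.1 h1
  have u2 : u ^ 2 ≤ 1 / 10 ^ 7 * u := by nlinarith
  have th1 : th ≤ 1 := by nlinarith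
  have th2 : th ^ 2 ≤ th := by nlinarith
  exact ⟨by linarith, by linarith,
    (pow_le_pow_left₀ (by linarith) (by linarith : lam ≤ th) 2).trans (by linarith)⟩

/-- **the near regime** -/
theorem nearStmt : NearStmt := by
  refine ⟨2000, 1 / 10 ^ 7, by norm_num, by norm_num, ?_⟩
  intro s u e th lam e0 r A G g b hs hu hus he hes hth h1 h2 h3 h4 hr0 hr1 h5 h6 h7 hg _
  have hs0 : 0 < s := hu.trans_le hus
  have su : s * u ≤ 1 / 10 ^ 7 * u := mul_le_mul_of_nonneg_right hs hu.le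
  have t1 : 0 < 1 - r ^ 2 := sub_pos.2 (pow_lt_one₀ hr0 hr1 two_ne_zero)
  have r1 : 0 < 1 - r := by linarith
  obtain ⟨a, ha⟩ : ∃ a, a = e * r / (1 - r ^ 2) := ⟨_, rfl⟩
  have a0 : 0 ≤ a := by rw [ha]; positivity
  have a1 : a * (1 - r ^ 2) = e * r := by rw [ha, div_mul_cancel₀ _ t1.ne']
  have y1 : e / (1 + r) = e + -(1 - r) * a := by
    rw [div_eq_iff (by positivity)]
    linarith
  have y2 : e / (1 - r) = e + (1 + r) * a := by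
    rw [div_eq_iff r1.ne']
    linarith
  rw [← ha] at h7
  rw [y2] at h5
  have a2 : a ≤ s := by linarith [mul_nonneg hr0 a0]
  obtain ⟨A1, A2⟩ := abs_le.1 h6
  have sur : s * u * r ≤ s * u * 1 := mul_le_mul_of_nonneg_left hr1.le (by positivity)
  have sur2 : s * u * r ≤ 1 / 10 ^ 7 * u * r := mul_le_mul_of_nonneg_right su hr0
  have ru : r * u ≤ 1 * u := mul_le_mul_of_nonneg_right hr1.le hu.le
  have ru0 : 0 ≤ r * u := by positivity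
  have hG1 : G * (1 - r ^ 2) ≤ 2 * u * (1 - r ^ 2) + s * u := by
    have k1 : A * (1 - r ^ 2) ≤ 2 * u * (1 - r ^ 2) :=
      mul_le_mul_of_nonneg_right (by linarith) t1.le
    have k2 : e * r ≤ e * 1 := mul_le_mul_of_nonneg_left hr1.le he.le
    rw [h7]
    linarith
  obtain ⟨l0, l1, l2⟩ := lam_facts hs hu hus hth h1 h2 (le_trans (by positivity) h3) h4
  obtain ⟨h, rfl⟩ : ∃ h, g = G + h := ⟨g - G, by ring⟩
  rw [y1, y2, add_sub_cancel_left, ← sq_abs b, ← sq_abs h,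
    show e0 ^ 2 / (2 - e) = 2 / (2 - e) / 2 * e0 ^ 2 by ring]
  exact core hs hu hus he hes rfl h3 h4 hr0 hr1.le hg a0 (by linarith) (by linarith) (by linarith)
    (by linarith) hG1 l0 l1 l2

end Vale.Agent.N150.Sm2.Nq
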