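import Vale.Agent.N150.SlMain0
import Vale.Agent.N150.SmAsm
import Vale.Agent.N150.SmFin
import Vale.Agent.N150.SmFar
import Vale.Agent.N150.SmNear2
import Vale.Agent.N150.SmB
import Vale.Agent.N150.SmMgf2
import Vale.Agent.N150.SmFm

/-! Low temperature: exponentially slow mixing for every `b > 1`. -/

namespace Vale.Agent.N150.Slow

/-- the second moment bound -/
theorem twoM : Sm2.TwoMStmt :=
  Sm2.twoM_of Sm2.Fi.finStmt Sm2.Far.farStmt Sm2.Nq.nearStmt Sm2.B.gaussStmt
    (Mgf.mgf_of Sm2.B.gaussStmt) Sm2.Fm.farMgf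

/-- **exponentially slow mixing for every `b > 1`** -/
theorem slow_all {b : ℝ} (hb : 1 < b) : ∃ c : ℝ, 0 < c ∧ SlowAt b c :=
  slow_of_twoM twoM.weak hb

end Vale.Agent.N150.Slow
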