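import Vale.Agent.N150.SlGlue
import Vale.Agent.N150.SlLow
import Vale.Agent.N150.ScC
import Vale.Agent.N150.ScD
import Vale.Agent.N150.ScE
import Vale.Agent.N150.KktC
import Vale.Agent.N150.Pin3

/-! Low temperature: slow mixing from the second moment bound. -/

namespace Vale.Agent.N150.Slow

/-- slow mixing for every `b > 1`, given the second moment bound -/
theorem slow_of_twoM (hM : Sm2.TwoMWStmt) {b : ℝ} (hb : 1 < b) : ∃ c : ℝ, 0 < c ∧ SlowAt b c :=
  slow_blocks Sc.cls Sc.shape Sc.slice hM low_of Kkt.ref Pin.pinStmt hb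

end Vale.Agent.N150.Slow
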