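import Vale.Agent.N150.SmDef

/-! Low temperature, second moment: the pieces. -/

open MeasureTheory ProbabilityTheory Filter Topology

namespace Vale.Agent.N150.Sm2

/-- the tilt of one pair of sites -/
noncomputable def psi (W : ℝ → ℝ) (A1 B1 C1 A2 B2 C2 : ℝ) (p : ℝ × ℝ) : ℝ :=
  A1 * ((p.1 + p.2) ^ 2 / 2) + B1 * ((p.1 + p.2) * (W p.1 + W p.2) / 2) +
    C1 * ((W p.1 + W p.2) ^ 2 / 2) + A2 * ((p.1 - p.2) ^ 2 / 2) +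
    B2 * ((p.1 - p.2) * (W p.1 - W p.2) / 2) + C2 * ((W p.1 - W p.2) ^ 2 / 2)

/-- statistics of a pair of exactly typical vectors -/
structure Feas (eps th X1 k1 Q1 X2 k2 Q2 : ℝ) : Prop where
  hX1 : 0 ≤ X1
  hX2 : 0 ≤ X2
  hk1 : 0 ≤ k1
  hk2 : 0 ≤ k2
  hQ1 : 0 ≤ Q1
  hQ2 : 0 ≤ Q2
  cs1 : k1 ^ 2 ≤ X1 * Q1
  cs2 : k2 ^ 2 ≤ X2 * Q2
  sX : X1 + X2 = 2
  sk : k1 + k2 = 2 * th
  sQ : Q1 + Q2 = 2 * (1 - eps ^ 2)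

/-- a dual certificate for every value of the statistics -/
def Cert (eps lam th : ℝ) (W : ℝ → ℝ) : Prop :=
  ∀ X1 k1 Q1 X2 k2 Q2 : ℝ, Feas eps th X1 k1 Q1 X2 k2 Q2 → ∃ A1 B1 C1 A2 B2 C2 l : ℝ,
    Integrable (fun p => Real.exp (psi W A1 B1 C1 A2 B2 C2 p)) (gam.prod gam) ∧
    ∫ p, Real.exp (psi W A1 B1 C1 A2 B2 C2 p) ∂(gam.prod gam) ≤ Real.exp l ∧
    l - (A1 * X1 + B1 * k1 + C1 * Q1 + A2 * X2 + B2 * k2 + C2 * Q2) +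
      gE eps lam X1 k1 Q1 + gE eps lam X2 k2 Q2 - 2 * gE eps lam 1 th (1 - eps ^ 2) ≤ 0

/-- from the certificates to the second moment (compactness) -/
def FinStmt : Prop :=
  ∀ (eps lam th : ℝ) (W : ℝ → ℝ), 0 < eps → Continuous W → Monotone W → (∀ z, W (-z) = -W z) →
    Cert eps lam th W → TwoM eps lam th W

/-- the value of the certificate of one sector: reference variance `s2`, tilt
`xi ^ 2 (1 - r) (a1 + a2 r)` -/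
noncomputable def val (eps lam X k Q s2 a1 a2 : ℝ) : ℝ :=
  1 / 2 * Real.log s2 + X / (2 * s2) + gE eps lam X k Q - (a1 * X + (a2 - a1) * k - a2 * Q) / s2

/-- the far regime of one sector -/
def FarStmt : Prop :=
  ∀ eps lam X k Q u c : ℝ, 0 < eps → 0 ≤ X → X ≤ 2 → 0 ≤ k → 0 ≤ Q → k ^ 2 ≤ X * Q →
    Q + eps ^ 2 ≤ 2 → |1 - lam| ≤ u → u ≤ 1 / 10 → 0 < c → c ≤ 1 →
    ∃ s2 a1 a2 : ℝ, 0 < s2 ∧ s2 ≤ 2 ∧ 0 ≤ a1 ∧ a1 ≤ 1 / 2 ∧ 0 ≤ a2 ∧ a2 ≤ 2 ∧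
      a1 + max (a2 - a1) 0 / 4 ≤ 1 / 2 - 1 / 1600 ∧ val eps lam X k Q s2 a1 a2 ≤ 2 * u ∧
      ((c < eps ^ 2 / (Q + eps ^ 2) ∨ 2 * c < |(k - lam * (Q + eps ^ 2)) / (2 * Q + eps ^ 2)|) →
        val eps lam X k Q s2 a1 a2 ≤ 2 * u - c ^ 4 / 112)

/-- the exponent of one sector at its own variance -/
noncomputable def Sp (e0 lam w y d : ℝ) : ℝ :=
  1 / 2 * (w / (1 + w) - Real.log (1 + w)) +
    (e0 + d - lam * w) ^ 2 / (2 * (1 + w) * (2 + 2 * w - y))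

/-- the near regime -/
def NearStmt : Prop :=
  ∃ K s0 : ℝ, 0 < K ∧ 0 < s0 ∧ ∀ s u e th lam e0 rho A G g b : ℝ, s ≤ s0 → 0 < u → u ≤ s →
    0 < e → e ≤ s * u → 0 ≤ th → |1 - th ^ 2 - u| ≤ s * u → e0 = th - lam →
    29 / 36 * u ^ 2 ≤ e0 → e0 ≤ u ^ 2 → 0 ≤ rho → rho < 1 → e / (1 - rho) ≤ s →
    |A - rho * u| ≤ s * u * rho → G = A + e * rho / (1 - rho ^ 2) → |g| ≤ s → |b| ≤ s →
    Sp e0 lam (-(1 - rho) * g) (e / (1 + rho)) (-(1 - rho) * b) +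
        Sp e0 lam ((1 + rho) * g) (e / (1 - rho)) ((1 + rho) * b) - e0 ^ 2 / (2 - e) +
        (1 + rho ^ 2) * g * b + (1 + s) * u * g ^ 2 * (3 * rho ^ 2 + (1 - rho ^ 2) ^ 2 / 4) +
        s * u * g ^ 2 ≤
      -(1 / 400) * ((u + G) * G ^ 2) +
        K * ((u + G) * G * (|b| + |g - G|) + b ^ 2 + (g - G) ^ 2)

end Vale.Agent.N150.Sm2
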