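import Vale.Agent.N150.SmW
import Vale.Agent.N150.SmDef2

/-! Low temperature, second moment: from dual certificates to the second moment. -/

open MeasureTheory ProbabilityTheory Filter Topology
open scoped ENNReal

namespace Vale.Agent.N150.Sm2

open Vale.Agent.P150 Vale.Agent.P150.F

/-- statistics of a pair of exactly typical vectors, with the Lipschitz constraints -/
structure FeasL (L eps th X1 k1 Q1 X2 k2 Q2 : ℝ) : Prop extends Feas eps th X1 k1 Q1 X2 k2 Q2 where
  lq1 : Q1 ≤ L * k1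
  lq2 : Q2 ≤ L * k2
  lk1 : k1 ≤ L * X1
  lk2 : k2 ≤ L * X2

/-- one certificate, with a marginal function `f` and an error `del` -/
def Cer (eps lam th del : ℝ) (W : ℝ → ℝ) (X1 k1 Q1 X2 k2 Q2 : ℝ) (f : ℝ → ℝ) : Prop :=
  ∃ A1 B1 C1 A2 B2 C2 l : ℝ,
    ∫⁻ p, ENNReal.ofReal (Real.exp (psi W A1 B1 C1 A2 B2 C2 p + f p.1 + f p.2)) ∂(gam.prod gam) ≤
      ENNReal.ofReal (Real.exp l) ∧
    l - (A1 * X1 + B1 * k1 + C1 * Q1 + A2 * X2 + B2 * k2 + C2 * Q2) - 2 * ∫ x, f x ∂gam +
      gE eps lam X1 k1 Q1 + gE eps lam X2 k2 Q2 - 2 * gE eps lam 1 th (1 - eps ^ 2) ≤ del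

/-- certificates with marginal functions for all feasible statistics -/
def Dual (L eps lam th : ℝ) (W : ℝ → ℝ) : Prop :=
  ∀ del : ℝ, 0 < del → ∀ X1 k1 Q1 X2 k2 Q2 : ℝ, FeasL L eps th X1 k1 Q1 X2 k2 Q2 →
    ∃ f : ℝ → ℝ, Measurable f ∧ Integrable f gam ∧ Cer eps lam th del W X1 k1 Q1 X2 k2 Q2 f

namespace Cov

/-- the six sector statistics -/
noncomputable def stat (W : ℝ → ℝ) {n : ℕ} (z y : Vec n) : Fin 6 → ℝ :=
  ![F.sq (z + y) / (2 * n), ip (z + y) (W ∘ z + W ∘ y) / (2 * n), F.sq (W ∘ z + W ∘ y) / (2 * n),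
    F.sq (z - y) / (2 * n), ip (z - y) (W ∘ z - W ∘ y) / (2 * n), F.sq (W ∘ z - W ∘ y) / (2 * n)]

/-- the exponent as a function of the statistics -/
noncomputable def GG (eps lam th : ℝ) (s : Fin 6 → ℝ) : ℝ :=
  gE eps lam (s 0) (s 1) (s 2) + gE eps lam (s 3) (s 4) (s 5) - 2 * gE eps lam 1 th (1 - eps ^ 2)

lemma pairE_eq (eps lam th : ℝ) (W : ℝ → ℝ) {n : ℕ} (z y : Vec n) :
    pairE eps lam th W z y = GG eps lam th (stat W z y) := by
  simp [pairE, GG, stat]

lemma contAt_gE {eps : ℝ} (he : 0 < eps) (lam : ℝ) (i j k : Fin 6) {s : Fin 6 → ℝ}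
    (hs : 0 ≤ s k) : ContinuousAt (fun t : Fin 6 → ℝ => gE eps lam (t i) (t j) (t k)) s := by
  have h1 : s k + eps ^ 2 ≠ 0 := by positivity
  have h2 : 2 * (s k + eps ^ 2) ≠ 0 := by positivity
  have h3 : 2 * (s k + eps ^ 2) * (2 * s k + eps ^ 2) ≠ 0 := by positivity
  have ci : ContinuousAt (fun t : Fin 6 → ℝ => t i) s := (continuous_apply i).continuousAt
  have cj : ContinuousAt (fun t : Fin 6 → ℝ => t j) s := (continuous_apply j).continuousAt
  have ck : ContinuousAt (fun t : Fin 6 → ℝ => t k) s := (continuous_apply k).continuousAt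
  have c1 : ContinuousAt (fun t : Fin 6 → ℝ => t k + eps ^ 2) s := ck.add continuousAt_const
  unfold gE
  refine ContinuousAt.add (ContinuousAt.sub (ContinuousAt.mul continuousAt_const ?_) ?_) ?_
  · exact c1.log h1
  · exact ci.div (continuousAt_const.mul c1) h2
  · exact ((cj.sub (continuousAt_const.mul c1)).pow 2).div ((continuousAt_const.mul c1).mul
      ((continuousAt_const.mul ck).add continuousAt_const)) h3

/-- the linear part of a certificate -/
def lin6 (c s : Fin 6 → ℝ) : ℝ :=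
  c 0 * s 0 + c 1 * s 1 + c 2 * s 2 + c 3 * s 3 + c 4 * s 4 + c 5 * s 5

lemma sum_psi (W : ℝ → ℝ) (c : Fin 6 → ℝ) {n : ℕ} (hn : 0 < n) (z y : Vec n) :
    ∑ i, psi W (c 0) (c 1) (c 2) (c 3) (c 4) (c 5) (z i, y i) = n * lin6 c (stat W z y) := by
  have hn' : (n : ℝ) ≠ 0 := by positivity
  simp only [psi, lin6, stat, F.sq, ip, Finset.sum_add_distrib, ← Finset.mul_sum,
    ← Finset.sum_div, Matrix.cons_val_zero, Matrix.cons_val_one, Matrix.cons_val, Pi.add_apply,
    Pi.sub_apply, Function.comp_apply]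
  field_simp

lemma lint_prod {n : ℕ} {h : ℝ × ℝ → ℝ} (hm : Measurable h) {l : ℝ}
    (hl : ∫⁻ p, ENNReal.ofReal (Real.exp (h p)) ∂(gam.prod gam) ≤ ENNReal.ofReal (Real.exp l)) :
    ∫⁻ p : Vec n × Vec n, ENNReal.ofReal (Real.exp (∑ i, (h (p.1 i, p.2 i) - l)))
      ∂((gpi (Fin n)).prod (gpi (Fin n))) ≤ 1 := by
  have hmp := measurePreserving_arrowProdEquivProdArrow ℝ ℝ (Fin n) (fun _ => gam) (fun _ => gam)
  have hnn : ∀ p, 0 ≤ Real.exp (h p - l) := fun p => (Real.exp_pos _).le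
  have hme : Measurable fun p => Real.exp (h p - l) := by fun_prop
  have h1 : ∫⁻ p, ENNReal.ofReal (Real.exp (h p - l)) ∂(gam.prod gam) ≤ 1 := by
    have e : ∀ p, ENNReal.ofReal (Real.exp (h p - l)) =
        ENNReal.ofReal (Real.exp (-l)) * ENNReal.ofReal (Real.exp (h p)) := by
      intro p
      rw [← ENNReal.ofReal_mul (Real.exp_pos _).le, ← Real.exp_add]
      congr 2; ring
    simp_rw [e]
    rw [lintegral_const_mul' _ _ ENNReal.ofReal_ne_top]
    calc _ ≤ ENNReal.ofReal (Real.exp (-l)) * ENNReal.ofReal (Real.exp l) := by gcongr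
      _ = 1 := by
        rw [← ENNReal.ofReal_mul (Real.exp_pos _).le, ← Real.exp_add]; simp
  have hi : Integrable (fun p => Real.exp (h p - l)) (gam.prod gam) := by
    refine ⟨hme.aestronglyMeasurable, ?_⟩
    rw [hasFiniteIntegral_iff_ofReal (Eventually.of_forall hnn)]
    exact lt_of_le_of_lt h1 ENNReal.one_lt_top
  have hI : ∫ p, Real.exp (h p - l) ∂(gam.prod gam) ≤ 1 := by
    rw [← ofReal_integral_eq_lintegral_ofReal hi (Eventually.of_forall hnn)] at h1
    exact ENNReal.ofReal_le_one.mp h1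
  rw [← hmp.lintegral_comp_emb (MeasurableEquiv.measurableEmbedding _)]
  have e2 : ∀ x : Fin n → ℝ × ℝ, Real.exp (∑ i, (h
      ((MeasurableEquiv.arrowProdEquivProdArrow ℝ ℝ (Fin n) x).1 i,
        (MeasurableEquiv.arrowProdEquivProdArrow ℝ ℝ (Fin n) x).2 i) - l)) =
      ∏ i, Real.exp (h (x i) - l) := by
    intro x
    rw [Real.exp_sum]
    rfl
  simp_rw [e2]
  have hi2 := Integrable.fintype_prod (ι := Fin n) (f := fun _ p => Real.exp (h p - l))
    (μ := fun _ => gam.prod gam) (fun _ => hi)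
  rw [← ofReal_integral_eq_lintegral_ofReal hi2
    (Eventually.of_forall fun x => Finset.prod_nonneg fun i _ => hnn _)]
  rw [integral_fintype_prod_eq_pow (fun p => Real.exp (h p - l))]
  exact ENNReal.ofReal_le_one.mpr (pow_le_one₀ (integral_nonneg hnn) hI)

lemma meas_psi {W : ℝ → ℝ} (hW : Measurable W) (A1 B1 C1 A2 B2 C2 : ℝ) :
    Measurable (psi W A1 B1 C1 A2 B2 C2) := by
  unfold psi
  have h1 : Measurable fun p : ℝ × ℝ => W p.1 := hW.comp measurable_fst
  have h2 : Measurable fun p : ℝ × ℝ => W p.2 := hW.comp measurable_snd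
  fun_prop

/-- the set of statistics at tolerance `kap` -/
def KK (P : Set (Fin 6 → ℝ)) (eps th kap : ℝ) : Set (Fin 6 → ℝ) :=
  {s | s ∈ P ∧ |s 0 + s 3 - 2| ≤ 2 * kap ∧ |s 1 + s 4 - 2 * th| ≤ 2 * kap ∧
    |s 2 + s 5 - 2 * (1 - eps ^ 2)| ≤ 2 * kap}

lemma KK_closed {P : Set (Fin 6 → ℝ)} (hP : IsClosed P) (eps th kap : ℝ) :
    IsClosed (KK P eps th kap) := by
  have h : ∀ (i j : Fin 6) (a : ℝ), IsClosed {s : Fin 6 → ℝ | |s i + s j - a| ≤ 2 * kap} :=
    fun i j a => isClosed_le (((continuous_apply i).add (continuous_apply j)).sub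
      continuous_const).abs continuous_const
  exact hP.inter ((h 0 3 _).inter ((h 1 4 _).inter (h 2 5 _)))

lemma KK_compact {P : Set (Fin 6 → ℝ)} (hP : IsClosed P) (h0 : ∀ s ∈ P, ∀ i, 0 ≤ s i)
    (eps th kap : ℝ) : IsCompact (KK P eps th kap) := by
  refine IsCompact.of_isClosed_subset (isCompact_Icc (a := fun _ => (0 : ℝ))
    (b := fun _ => 2 + 2 * |th| + 2 * |1 - eps ^ 2| + 2 * kap)) (KK_closed hP eps th kap) ?_
  rintro s ⟨hs, h1, h2, h3⟩
  have a0 := h0 s hs 0
  have a1 := h0 s hs 1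
  have a2 := h0 s hs 2
  have a3 := h0 s hs 3
  have a4 := h0 s hs 4
  have a5 := h0 s hs 5
  have b1 := (abs_le.mp h1).2
  have b2 := (abs_le.mp h2).2
  have b3 := (abs_le.mp h3).2
  have c1 := le_abs_self th
  have c2 := le_abs_self (1 - eps ^ 2)
  have c3 := abs_nonneg th
  have c4 := abs_nonneg (1 - eps ^ 2)
  refine ⟨fun i => h0 s hs i, fun i => ?_⟩
  fin_cases i <;> simp <;> linarith

lemma stat_mem {P : Set (Fin 6 → ℝ)} {eps th kap : ℝ} {W : ℝ → ℝ} {n : ℕ} (hn : 0 < n)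
    {z y : Vec n} (hP : stat W z y ∈ P) (hz : Typ kap eps th W z) (hy : Typ kap eps th W y) :
    stat W z y ∈ KK P eps th kap := by
  have hn' : (n : ℝ) ≠ 0 := by positivity
  obtain ⟨z1, z2, z3⟩ := hz
  obtain ⟨y1, y2, y3⟩ := hy
  have e1 : stat W z y 0 + stat W z y 3 - 2 = (F.sq z / n - 1) + (F.sq y / n - 1) := by
    have : F.sq (z + y) + F.sq (z - y) = 2 * F.sq z + 2 * F.sq y := by
      simp only [F.sq, Finset.mul_sum, ← Finset.sum_add_distrib, Pi.add_apply, Pi.sub_apply]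
      exact Finset.sum_congr rfl fun i _ => by ring
    simp only [stat, Matrix.cons_val_zero, Matrix.cons_val]
    rw [← add_div, this]; field_simp; ring
  have e2 : stat W z y 1 + stat W z y 4 - 2 * th =
      (ip z (W ∘ z) / n - th) + (ip y (W ∘ y) / n - th) := by
    have : ip (z + y) (W ∘ z + W ∘ y) + ip (z - y) (W ∘ z - W ∘ y) =
        2 * ip z (W ∘ z) + 2 * ip y (W ∘ y) := by
      simp only [ip, Finset.mul_sum, ← Finset.sum_add_distrib, Pi.add_apply, Pi.sub_apply]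
      exact Finset.sum_congr rfl fun i _ => by ring
    simp only [stat, Matrix.cons_val_one, Matrix.cons_val_zero, Matrix.cons_val]
    rw [← add_div, this]; field_simp; ring
  have e3 : stat W z y 2 + stat W z y 5 - 2 * (1 - eps ^ 2) =
      (F.sq (W ∘ z) / n - (1 - eps ^ 2)) + (F.sq (W ∘ y) / n - (1 - eps ^ 2)) := by
    have : F.sq (W ∘ z + W ∘ y) + F.sq (W ∘ z - W ∘ y) =
        2 * F.sq (W ∘ z) + 2 * F.sq (W ∘ y) := by
      simp only [F.sq, Finset.mul_sum, ← Finset.sum_add_distrib, Pi.add_apply, Pi.sub_apply]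
      exact Finset.sum_congr rfl fun i _ => by ring
    simp only [stat, Matrix.cons_val]
    rw [← add_div, this]; field_simp; ring
  refine ⟨hP, ?_, ?_, ?_⟩
  · rw [e1]; exact (abs_add_le _ _).trans (by linarith)
  · rw [e2]; exact (abs_add_le _ _).trans (by linarith)
  · rw [e3]; exact (abs_add_le _ _).trans (by linarith)

/-- the compactness argument -/
theorem core {eps lam th del : ℝ} {W : ℝ → ℝ} (he : 0 < eps) (hdel : 0 < del)
    (hW : Measurable W) {P : Set (Fin 6 → ℝ)} (hP : IsClosed P) (h0 : ∀ s ∈ P, ∀ i, 0 ≤ s i)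
    (hst : ∀ (n : ℕ) (z y : Vec n), stat W z y ∈ P) (R : (ℝ → ℝ) → Prop)
    (hR : ∀ f, R f → Measurable f)
    (hc : ∀ s ∈ P, s 0 + s 3 = 2 → s 1 + s 4 = 2 * th → s 2 + s 5 = 2 * (1 - eps ^ 2) →
      ∃ f, R f ∧ Cer eps lam th (del / 4) W (s 0) (s 1) (s 2) (s 3) (s 4) (s 5) f) :
    ∃ (kap C : ℝ) (J : ℕ) (f : Fin J → ℝ → ℝ), 0 < kap ∧ (∀ j, R (f j)) ∧ ∀ n : ℕ, 0 < n →
    ∫⁻ p in {p : Vec n × Vec n | (Typ kap eps th W p.1 ∧ TypF kap f p.1) ∧
        (Typ kap eps th W p.2 ∧ TypF kap f p.2)},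
      ENNReal.ofReal (Real.exp (n * pairE eps lam th W p.1 p.2))
        ∂((gpi (Fin n)).prod (gpi (Fin n))) ≤ ENNReal.ofReal (C * Real.exp (del * n)) := by
  classical
  have hc' : ∀ s : Fin 6 → ℝ, s ∈ KK P eps th 0 → ∃ (f : ℝ → ℝ) (c : Fin 6 → ℝ) (l : ℝ), R f ∧
      ∫⁻ p, ENNReal.ofReal (Real.exp (psi W (c 0) (c 1) (c 2) (c 3) (c 4) (c 5) p + f p.1 + f p.2))
        ∂(gam.prod gam) ≤ ENNReal.ofReal (Real.exp l) ∧
      l - lin6 c s - 2 * ∫ x, f x ∂gam + GG eps lam th s ≤ del / 4 := by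
    rintro s ⟨hs, h1, h2, h3⟩
    rw [mul_zero, abs_nonpos_iff] at h1 h2 h3
    obtain ⟨f, hf, A1, B1, C1, A2, B2, C2, l, hl, hv⟩ :=
      hc s hs (by linarith) (by linarith) (by linarith)
    refine ⟨f, ![A1, B1, C1, A2, B2, C2], l, hf, by simpa using hl, ?_⟩
    simp only [lin6, GG, Matrix.cons_val_zero, Matrix.cons_val_one, Matrix.cons_val]
    linarith
  choose! f c l hfR hl hv using hc'
  let U : (Fin 6 → ℝ) → Set (Fin 6 → ℝ) := fun s =>
    interior {t | l s - lin6 (c s) t - 2 * ∫ x, f s x ∂gam + GG eps lam th t < del / 2}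
  have hU : ∀ s ∈ KK P eps th 0, U s ∈ 𝓝 s := by
    intro s hs
    refine interior_mem_nhds.mpr ?_
    have hct : ContinuousAt
        (fun t => l s - lin6 (c s) t - 2 * ∫ x, f s x ∂gam + GG eps lam th t) s := by
      refine ContinuousAt.add ?_ ?_
      · unfold lin6; fun_prop
      · exact ((contAt_gE he lam 0 1 2 (h0 s hs.1 2)).add
          (contAt_gE he lam 3 4 5 (h0 s hs.1 5))).sub continuousAt_const
    exact hct.eventually_lt continuousAt_const (lt_of_le_of_lt (hv s hs) (by linarith))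
  obtain ⟨T, hT, hcov⟩ := (KK_compact hP h0 eps th 0).elim_nhds_subcover U hU
  have hop : IsOpen (⋃ s ∈ T, U s) := isOpen_biUnion fun s _ => isOpen_interior
  obtain ⟨m, hm⟩ := exists_subset_nhds_of_isCompact'
    (V := fun m : ℕ => KK P eps th (1 / (m + 1 : ℝ))) (U := ⋃ s ∈ T, U s) (by
      refine directed_of_isDirected_le ?_
      intro i j hij s hs
      have : (1 : ℝ) / (j + 1) ≤ 1 / (i + 1) := Nat.one_div_le_one_div hij
      exact ⟨hs.1, hs.2.1.trans (by linarith), hs.2.2.1.trans (by linarith),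
        hs.2.2.2.trans (by linarith)⟩)
    (fun m => KK_compact hP h0 eps th _) (fun m => KK_closed hP eps th _) (by
      intro s hs
      refine hop.mem_nhds (hcov ?_)
      rw [Set.mem_iInter] at hs
      have key : ∀ x : ℝ, (∀ m : ℕ, x ≤ 2 * (1 / (m + 1 : ℝ))) → x ≤ 2 * 0 := by
        intro x hx
        have := (tendsto_one_div_add_atTop_nhds_zero_nat (𝕜 := ℝ)).const_mul 2
        exact ge_of_tendsto' this hx
      exact ⟨(hs 0).1, key _ fun m => (hs m).2.1, key _ fun m => (hs m).2.2.1,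
        key _ fun m => (hs m).2.2.2⟩)
  let e := T.equivFin
  refine ⟨min (1 / (m + 1 : ℝ)) (del / 4), T.card, T.card, fun j => f (e.symm j), by positivity,
    fun j => hfR _ (hT _ (e.symm j).2), fun n hn => ?_⟩
  have hn' : (0 : ℝ) < n := by positivity
  let h : (Fin 6 → ℝ) → ℝ × ℝ → ℝ := fun s p =>
    psi W (c s 0) (c s 1) (c s 2) (c s 3) (c s 4) (c s 5) p + f s p.1 + f s p.2
  have hmh : ∀ s ∈ T, Measurable (h s) := fun s hs =>
    ((meas_psi hW _ _ _ _ _ _).add ((hR _ (hfR s (hT s hs))).comp measurable_fst)).add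
      ((hR _ (hfR s (hT s hs))).comp measurable_snd)
  have hpt : ∀ p ∈ {p : Vec n × Vec n |
      (Typ (min (1 / (m + 1 : ℝ)) (del / 4)) eps th W p.1 ∧
        TypF (min (1 / (m + 1 : ℝ)) (del / 4)) (fun j => f (e.symm j)) p.1) ∧
      (Typ (min (1 / (m + 1 : ℝ)) (del / 4)) eps th W p.2 ∧
        TypF (min (1 / (m + 1 : ℝ)) (del / 4)) (fun j => f (e.symm j)) p.2)},
      ENNReal.ofReal (Real.exp (n * pairE eps lam th W p.1 p.2)) ≤
        ∑ s ∈ T, ENNReal.ofReal (Real.exp (del * n)) *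
          ENNReal.ofReal (Real.exp (∑ i, (h s (p.1 i, p.2 i) - l s))) := by
    rintro ⟨z, y⟩ ⟨⟨hz, fz⟩, hy, fy⟩
    have k1 := min_le_left (1 / (m + 1 : ℝ)) (del / 4)
    have k2 := min_le_right (1 / (m + 1 : ℝ)) (del / 4)
    have hK : stat W z y ∈ KK P eps th (1 / (m + 1 : ℝ)) :=
      stat_mem hn (hst n z y) ⟨hz.1.trans k1, hz.2.1.trans k1, hz.2.2.trans k1⟩
        ⟨hy.1.trans k1, hy.2.1.trans k1, hy.2.2.trans k1⟩
    obtain ⟨s, hs, hsU⟩ := Set.mem_iUnion₂.mp (hm hK)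
    have hlt := interior_subset hsU
    simp only [Set.mem_ofPred_eq] at hlt
    have gz := fz (e ⟨s, hs⟩)
    have gy := fy (e ⟨s, hs⟩)
    simp only [Equiv.symm_apply_apply] at gz gy
    have gz' : n * (∫ x, f s x ∂gam - del / 4) ≤ ∑ i, f s (z i) := by
      have := (abs_le.mp (gz.trans k2)).1
      rw [mul_comm, ← le_div_iff₀ hn']; linarith
    have gy' : n * (∫ x, f s x ∂gam - del / 4) ≤ ∑ i, f s (y i) := by
      have := (abs_le.mp (gy.trans k2)).1
      rw [mul_comm, ← le_div_iff₀ hn']; linarith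
    refine le_trans ?_ (Finset.single_le_sum (f := fun s => ENNReal.ofReal (Real.exp (del * n)) *
      ENNReal.ofReal (Real.exp (∑ i, (h s (z i, y i) - l s)))) (fun _ _ => zero_le) hs)
    rw [← ENNReal.ofReal_mul (Real.exp_pos _).le, ← Real.exp_add]
    refine ENNReal.ofReal_le_ofReal (Real.exp_le_exp.mpr ?_)
    have es : ∑ i, (h s (z i, y i) - l s) = n * lin6 (c s) (stat W z y) + ∑ i, f s (z i) +
        ∑ i, f s (y i) - n * l s := by
      rw [← sum_psi W (c s) hn z y]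
      simp [h, Finset.sum_add_distrib, Finset.sum_sub_distrib]
    rw [es, pairE_eq]
    have := mul_le_mul_of_nonneg_left hlt.le hn'.le
    nlinarith
  have hms : ∀ s ∈ T, Measurable fun p : Vec n × Vec n => ENNReal.ofReal (Real.exp (del * n)) *
      ENNReal.ofReal (Real.exp (∑ i, (h s (p.1 i, p.2 i) - l s))) := by
    intro s hs
    refine Measurable.const_mul (ENNReal.measurable_ofReal.comp (Real.measurable_exp.comp
      (Finset.measurable_sum _ fun i _ => Measurable.sub_const ((hmh s hs).comp ?_) _))) _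
    exact ((measurable_pi_apply i).comp measurable_fst).prodMk
      ((measurable_pi_apply i).comp measurable_snd)
  refine le_trans (setLIntegral_mono (Finset.measurable_sum _ hms) hpt) ?_
  refine le_trans (setLIntegral_le_lintegral _ _) ?_
  rw [lintegral_finsetSum _ hms]
  calc _ ≤ ∑ _s ∈ T, ENNReal.ofReal (Real.exp (del * n)) := by
        refine Finset.sum_le_sum fun s hs => ?_
        rw [lintegral_const_mul' _ _ ENNReal.ofReal_ne_top]
        calc _ ≤ ENNReal.ofReal (Real.exp (del * n)) * 1 := by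
              gcongr
              exact lint_prod (hmh s hs) (hl s (hT s hs))
          _ = _ := mul_one _
    _ = _ := by
        rw [Finset.sum_const, nsmul_eq_mul, ENNReal.ofReal_mul (Nat.cast_nonneg _),
          ENNReal.ofReal_natCast]

lemma cs_sum {n : ℕ} (u v : Vec n) :
    (ip u v / (2 * n)) ^ 2 ≤ F.sq u / (2 * n) * (F.sq v / (2 * n)) := by
  rw [div_pow, div_mul_div_comm, ← pow_two]
  exact div_le_div_of_nonneg_right (Finset.sum_mul_sq_le_sq_mul_sq _ _ _) (by positivity)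

/-- the closed set of statistics of monotone odd site functions -/
def P0 : Set (Fin 6 → ℝ) :=
  {s | (∀ i, 0 ≤ s i) ∧ s 1 ^ 2 ≤ s 0 * s 2 ∧ s 4 ^ 2 ≤ s 3 * s 5}

lemma P0_closed : IsClosed P0 := by
  have h : ∀ i j k : Fin 6, IsClosed {s : Fin 6 → ℝ | s i ^ 2 ≤ s j * s k} :=
    fun i j k => isClosed_le ((continuous_apply i).pow 2)
      ((continuous_apply j).mul (continuous_apply k))
  refine IsClosed.inter ?_ ((h 1 0 2).inter (h 4 3 5))
  exact isClosed_Ici (a := fun _ : Fin 6 => (0 : ℝ))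

lemma mono_mul {W : ℝ → ℝ} (hm : Monotone W) (x y : ℝ) : 0 ≤ (x - y) * (W x - W y) := by
  rcases le_total x y with h | h
  · exact mul_nonneg_of_nonpos_of_nonpos (by linarith) (by linarith [hm h])
  · exact mul_nonneg (by linarith) (by linarith [hm h])

lemma stat_P0 {W : ℝ → ℝ} (hm : Monotone W) (ho : ∀ z, W (-z) = -W z) (n : ℕ) (z y : Vec n) :
    stat W z y ∈ P0 := by
  have hs : ∀ v : Vec n, 0 ≤ F.sq v / (2 * n) := fun v =>
    div_nonneg (Finset.sum_nonneg fun i _ => sq_nonneg _) (by positivity)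
  refine ⟨fun i => ?_, cs_sum _ _, cs_sum _ _⟩
  fin_cases i
  · exact hs _
  · refine div_nonneg (Finset.sum_nonneg fun i _ => ?_) (by positivity)
    have := mono_mul hm (z i) (-y i)
    rw [ho] at this
    simpa using this
  · exact hs _
  · exact hs _
  · exact div_nonneg (Finset.sum_nonneg fun i _ => mono_mul hm _ _) (by positivity)
  · exact hs _

/-- with the Lipschitz constraints -/
def PL (L : ℝ) : Set (Fin 6 → ℝ) :=
  {s | s ∈ P0 ∧ s 2 ≤ L * s 1 ∧ s 5 ≤ L * s 4 ∧ s 1 ≤ L * s 0 ∧ s 4 ≤ L * s 3}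

lemma PL_closed (L : ℝ) : IsClosed (PL L) := by
  have h : ∀ i j : Fin 6, IsClosed {s : Fin 6 → ℝ | s i ≤ L * s j} :=
    fun i j => isClosed_le (continuous_apply i) (continuous_const.mul (continuous_apply j))
  exact P0_closed.inter ((h 2 1).inter ((h 5 4).inter ((h 1 0).inter (h 4 3))))

lemma shape_mono {L eta a th0 : ℝ} {W W1 : ℝ → ℝ} (h : Shape L eta a th0 W W1) : Monotone W :=
  monotone_of_deriv_nonneg (fun x => (h.der x).differentiableAt) fun x => by
    rw [(h.der x).deriv]; exact h.pos x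

lemma shape_mono' {L eta a th0 : ℝ} {W W1 : ℝ → ℝ} (h : Shape L eta a th0 W W1) :
    Monotone fun x => L * x - W x := by
  have hd : ∀ x, HasDerivAt (fun x => L * x - W x) (L * 1 - W1 x) x := fun x =>
    ((hasDerivAt_id x).const_mul L).sub (h.der x)
  exact monotone_of_deriv_nonneg (fun x => (hd x).differentiableAt) fun x => by
    rw [(hd x).deriv]; linarith [h.lip x]

lemma site_L {L eta a th0 : ℝ} {W W1 : ℝ → ℝ} (h : Shape L eta a th0 W W1) (x y : ℝ) :
    (W x - W y) ^ 2 ≤ L * ((x - y) * (W x - W y)) ∧ (x - y) * (W x - W y) ≤ L * (x - y) ^ 2 := by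
  have h1 := shape_mono h
  have h2 := shape_mono' h
  rcases le_total x y with hxy | hxy
  · have a1 := h1 hxy
    have a2 := h2 hxy
    simp only at a2
    constructor <;> nlinarith
  · have a1 := h1 hxy
    have a2 := h2 hxy
    simp only at a2
    constructor <;> nlinarith

lemma stat_PL {L eta a th0 : ℝ} {W W1 : ℝ → ℝ} (h : Shape L eta a th0 W W1) (n : ℕ)
    (z y : Vec n) : stat W z y ∈ PL L := by
  have hp : ∀ i, (W (z i) + W (y i)) ^ 2 ≤ L * ((z i + y i) * (W (z i) + W (y i))) ∧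
      (z i + y i) * (W (z i) + W (y i)) ≤ L * (z i + y i) ^ 2 := by
    intro i
    have := site_L h (z i) (-y i)
    rw [h.odd] at this
    simpa using this
  refine ⟨stat_P0 (shape_mono h) h.odd n z y, ?_, ?_, ?_, ?_⟩ <;>
    simp only [stat, Matrix.cons_val_zero, Matrix.cons_val_one, Matrix.cons_val] <;>
    rw [← mul_div_assoc] <;> refine div_le_div_of_nonneg_right ?_ (by positivity) <;>
    simp only [F.sq, ip, Finset.mul_sum] <;> refine Finset.sum_le_sum fun i _ => ?_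
  · exact (hp i).1
  · exact (site_L h _ _).1
  · exact (hp i).2
  · exact (site_L h _ _).2

end Cov

open Cov in
/-- certificates with marginal functions give the weak second moment bound -/
theorem twoMW_of_dual {L eta a th0 eps lam th : ℝ} {W W1 : ℝ → ℝ} (h : Shape L eta a th0 W W1)
    (he : 0 < eps) (hd : Dual L eps lam th W) : TwoMW eps lam th W := by
  intro del hdel
  have hW : Measurable W :=
    (continuous_iff_continuousAt.mpr fun x => (h.der x).continuousAt).measurable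
  obtain ⟨kap, C, J, f, hk, hf, hb⟩ := core (lam := lam) (th := th) he hdel hW (PL_closed L)
    (fun s hs => hs.1.1) (stat_PL h) (fun f => Measurable f ∧ Integrable f gam) (fun f hf => hf.1)
    (fun s hs h1 h2 h3 => by
      obtain ⟨f, m, i, c⟩ := hd (del / 4) (by positivity) (s 0) (s 1) (s 2) (s 3) (s 4) (s 5)
        ⟨⟨hs.1.1 0, hs.1.1 3, hs.1.1 1, hs.1.1 4, hs.1.1 2, hs.1.1 5, hs.1.2.1, hs.1.2.2, h1, h2,
          h3⟩, hs.2.1, hs.2.2.1, hs.2.2.2.1, hs.2.2.2.2⟩
      exact ⟨f, ⟨m, i⟩, c⟩)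
  exact ⟨kap, C, J, f, hk, fun j => (hf j).1, fun j => (hf j).2, hb⟩

open Cov in
/-- certificates give the second moment bound -/
theorem finStmt : FinStmt := by
  intro eps lam th W he hc hm ho hd del hdel
  obtain ⟨kap, C, J, f, hk, hf, hb⟩ := core (lam := lam) (th := th) he hdel hc.measurable P0_closed
    (fun s hs => hs.1) (stat_P0 hm ho) (fun f => f = fun _ => 0)
    (fun f hf => hf ▸ measurable_const)
    (fun s hs h1 h2 h3 => by
      obtain ⟨A1, B1, C1, A2, B2, C2, l, hi, hl, hv⟩ := hd (s 0) (s 1) (s 2) (s 3) (s 4) (s 5)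
        ⟨hs.1 0, hs.1 3, hs.1 1, hs.1 4, hs.1 2, hs.1 5, hs.2.1, hs.2.2, h1, h2, h3⟩
      refine ⟨_, rfl, A1, B1, C1, A2, B2, C2, l, ?_, ?_⟩
      · simp only [add_zero]
        rw [← ofReal_integral_eq_lintegral_ofReal hi
          (Eventually.of_forall fun p => (Real.exp_pos _).le)]
        exact ENNReal.ofReal_le_ofReal hl
      · simp only [integral_zero]
        linarith)
  refine ⟨kap, C, hk, fun n hn => le_trans (lintegral_mono_set ?_) (hb n hn)⟩
  have ht : ∀ z : Vec n, TypF kap f z := fun z j => by simp [hf j, hk.le]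
  exact fun p hp => ⟨⟨hp.1, ht _⟩, hp.2, ht _⟩

/-- the certificates are symmetric under the exchange of the sectors, for even `f` -/
theorem Cer.symm {eps lam th del : ℝ} {W : ℝ → ℝ} (hW : Measurable W) (ho : ∀ z, W (-z) = -W z)
    {X1 k1 Q1 X2 k2 Q2 : ℝ} {f : ℝ → ℝ} (hf : Measurable f) (he : ∀ z, f (-z) = f z)
    (h : Cer eps lam th del W X1 k1 Q1 X2 k2 Q2 f) : Cer eps lam th del W X2 k2 Q2 X1 k1 Q1 f := by
  obtain ⟨A1, B1, C1, A2, B2, C2, l, hl, hv⟩ := h
  refine ⟨A2, B2, C2, A1, B1, C1, l, ?_, by linarith⟩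
  have hneg : MeasurePreserving (fun x : ℝ => -x) gam gam :=
    ⟨measurable_neg, by simpa using gaussianReal_map_neg (μ := 0) (v := 1)⟩
  have hmp : MeasurePreserving (Prod.map id fun x : ℝ => -x) (gam.prod gam) (gam.prod gam) :=
    (MeasurePreserving.id gam).prod hneg
  have hm : Measurable fun p : ℝ × ℝ =>
      ENNReal.ofReal (Real.exp (psi W A1 B1 C1 A2 B2 C2 p + f p.1 + f p.2)) :=
    ENNReal.measurable_ofReal.comp (Real.measurable_exp.comp
      (((Cov.meas_psi hW _ _ _ _ _ _).add (hf.comp measurable_fst)).add (hf.comp measurable_snd)))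
  rw [← hmp.lintegral_comp hm] at hl
  refine le_trans (le_of_eq (lintegral_congr fun p => ?_)) hl
  simp only [psi, Prod.map_fst, Prod.map_snd, id, ho, he]
  congr 2
  ring

end Vale.Agent.N150.Sm2
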