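import Vale.Agent.P150.Bdl.B1

/-! Low temperature, second moment: the statement. -/

open MeasureTheory ProbabilityTheory Filter Topology
open scoped ENNReal

namespace Vale.Agent.N150.Sm2

open Vale.Agent.P150 Vale.Agent.P150.F

/-- the standard Gaussian law -/
noncomputable abbrev gam : Measure ℝ := gaussianReal 0 1

/-- the exponent of one sector (up to the constant `- lam ^ 2 / 2`); `X = E z ^ 2`,
`k = E z W`, `Q = E W ^ 2` -/
noncomputable def gE (eps lam X k Q : ℝ) : ℝ :=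
  -(1 / 2) * Real.log (Q + eps ^ 2) - X / (2 * (Q + eps ^ 2)) +
    (k - lam * (Q + eps ^ 2)) ^ 2 / (2 * (Q + eps ^ 2) * (2 * Q + eps ^ 2))

/-- the shape of the site function: odd, increasing, `L`-Lipschitz, and close to
`th0 z + a (z ^ 3 - 3 z)` -/
structure Shape (L eta a th0 : ℝ) (W W1 : ℝ → ℝ) : Prop where
  odd : ∀ z, W (-z) = -W z
  der : ∀ z, HasDerivAt W (W1 z) z
  pos : ∀ z, 0 ≤ W1 z
  lip : ∀ z, W1 z ≤ L
  apx : ∀ z, |W1 z - th0 - 3 * a * (z ^ 2 - 1)| ≤ eta * |a| * (1 + z ^ 4)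

/-- the normalisation -/
structure Nrm (a eta eps lam th : ℝ) (W : ℝ → ℝ) : Prop where
  a0 : a ≠ 0
  sm : |a| ≤ eta
  eps0 : 0 < eps
  eps1 : eps ^ 2 ≤ eta * a ^ 2
  hth : ∫ z, z * W z ∂gam = th
  hQ : ∫ z, W z ^ 2 ∂gam = 1 - eps ^ 2
  lo : 29 * a ^ 4 ≤ th - lam
  hi : th - lam ≤ 36 * a ^ 4

/-- typical vectors -/
def Typ (kap eps th : ℝ) (W : ℝ → ℝ) {n : ℕ} (z : Vec n) : Prop :=
  |F.sq z / n - 1| ≤ kap ∧ |ip z (W ∘ z) / n - th| ≤ kap ∧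
    |F.sq (W ∘ z) / n - (1 - eps ^ 2)| ≤ kap

/-- the exponent of a pair, minus twice the exponent of one typical vector -/
noncomputable def pairE (eps lam th : ℝ) (W : ℝ → ℝ) {n : ℕ} (z y : Vec n) : ℝ :=
  gE eps lam (F.sq (z + y) / (2 * n)) (ip (z + y) (W ∘ z + W ∘ y) / (2 * n))
      (F.sq (W ∘ z + W ∘ y) / (2 * n)) +
    gE eps lam (F.sq (z - y) / (2 * n)) (ip (z - y) (W ∘ z - W ∘ y) / (2 * n))
      (F.sq (W ∘ z - W ∘ y) / (2 * n)) -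
    2 * gE eps lam 1 th (1 - eps ^ 2)

/-- the second moment bound -/
def TwoM (eps lam th : ℝ) (W : ℝ → ℝ) : Prop :=
  ∀ del : ℝ, 0 < del → ∃ kap C : ℝ, 0 < kap ∧ ∀ n : ℕ, 0 < n →
    ∫⁻ p in {p : Vec n × Vec n | Typ kap eps th W p.1 ∧ Typ kap eps th W p.2},
      ENNReal.ofReal (Real.exp (n * pairE eps lam th W p.1 p.2))
        ∂((gpi (Fin n)).prod (gpi (Fin n))) ≤ ENNReal.ofReal (C * Real.exp (del * n))

/-- the statement of the block -/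
def TwoMStmt : Prop :=
  ∀ L : ℝ, ∃ eta : ℝ, 0 < eta ∧ ∀ (a th0 eps lam th : ℝ) (W W1 : ℝ → ℝ),
    Shape L eta a th0 W W1 → Nrm a eta eps lam th W → TwoM eps lam th W

end Vale.Agent.N150.Sm2
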