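import Vale.Agent.N150.SmDef2

/-! Low temperature, second moment: the Gaussian pieces. -/

open MeasureTheory ProbabilityTheory Filter Topology

namespace Vale.Agent.N150.Sm2

/-- `W z + W z'` for `z = c x + d y`, `z' = c x - d y` -/
def sS (W : ℝ → ℝ) (c d : ℝ) (p : ℝ × ℝ) : ℝ := W (c * p.1 + d * p.2) + W (c * p.1 - d * p.2)

/-- `W z - W z'` -/
def sD (W : ℝ → ℝ) (c d : ℝ) (p : ℝ × ℝ) : ℝ := W (c * p.1 + d * p.2) - W (c * p.1 - d * p.2)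

/-- the Gaussian mean of the squared slope of the minus sector -/
noncomputable def G2 (W : ℝ → ℝ) (c d : ℝ) : ℝ :=
  ∫ p, sD W c d p ^ 2 / (4 * d ^ 2) ∂(gam.prod gam)

/-- Gaussian means -/
def GaussStmt : Prop :=
  ∀ L : ℝ, ∃ K eta0 : ℝ, 0 < K ∧ 0 < eta0 ∧ ∀ (eta a th0 eps lam th : ℝ) (W W1 : ℝ → ℝ),
    eta ≤ eta0 → Shape L eta a th0 W W1 → Nrm a eta eps lam th W →
    (0 ≤ th ∧ |th - th0| ≤ K * eta * |a| ∧ |1 - th ^ 2 - 6 * a ^ 2| ≤ K * eta * a ^ 2) ∧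
    ∀ c d : ℝ, 0 < c → 0 < d → c ^ 2 + d ^ 2 = 1 →
      ∫ p, p.1 * sS W c d p ∂(gam.prod gam) = 2 * c * th ∧
      ∫ p, p.2 * sD W c d p ∂(gam.prod gam) = 2 * d * th ∧
      (d ≤ c → |G2 W c d - 1 + eps ^ 2 - 6 * a ^ 2 * (c ^ 2 - d ^ 2) * (1 + (c ^ 2 - d ^ 2))| ≤
        K * eta * a ^ 2 * (c ^ 2 - d ^ 2))

/-- the tilt of the near regime -/
noncomputable def Yn (W : ℝ → ℝ) (a th c d g m1 m2 : ℝ) (p : ℝ × ℝ) : ℝ :=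
  d ^ 2 * g * (p.1 * sS W c d p / (2 * c) - th * p.1 ^ 2) -
    c ^ 2 * g * (p.2 * sD W c d p / (2 * d) - th * p.2 ^ 2) +
    3 * a * (c ^ 2 - d ^ 2) * g * (c ^ 2 * p.1 ^ 2 + d ^ 2 * p.2 ^ 2 - 1) +
    m1 * (p.2 * sD W c d p / (2 * d) - th * p.2 ^ 2) +
    m2 * (sD W c d p ^ 2 / (4 * d ^ 2) - G2 W c d * p.2 ^ 2)

/-- the exponential moment of the near regime -/
def MgfStmt : Prop :=
  ∀ L t : ℝ, 0 < t → ∃ K m0 eta0 : ℝ, 0 < K ∧ 0 < m0 ∧ 0 < eta0 ∧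
    ∀ (eta a th0 eps lam th : ℝ) (W W1 : ℝ → ℝ),
    eta ≤ eta0 → Shape L eta a th0 W W1 → Nrm a eta eps lam th W →
    ∀ c d g m1 m2 : ℝ, 0 < d → d ≤ c → c ^ 2 + d ^ 2 = 1 → |g| ≤ m0 → |m1| ≤ m0 → |m2| ≤ m0 →
      Integrable (fun p => Real.exp (Yn W a th c d g m1 m2 p)) (gam.prod gam) ∧
      ∫ p, Real.exp (Yn W a th c d g m1 m2 p) ∂(gam.prod gam) ≤
        Real.exp ((1 + t) * (6 * a ^ 2) * g ^ 2 *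
          (3 * (c ^ 2 - d ^ 2) ^ 2 + (1 - (c ^ 2 - d ^ 2) ^ 2) ^ 2 / 4) +
          t * (6 * a ^ 2) * g ^ 2 + K * a ^ 2 * (m1 ^ 2 + m2 ^ 2))

/-- the tilt of the far regime -/
noncomputable def Yf (W : ℝ → ℝ) (c d a1 a2 b1 b2 : ℝ) (p : ℝ × ℝ) : ℝ :=
  a1 * p.1 ^ 2 + (a2 - a1) * (p.1 * sS W c d p / (2 * c)) - a2 * (sS W c d p ^ 2 / (4 * c ^ 2)) +
    (b1 * p.2 ^ 2 + (b2 - b1) * (p.2 * sD W c d p / (2 * d)) - b2 * (sD W c d p ^ 2 / (4 * d ^ 2)))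

/-- admissible coefficients of the far tilt -/
def Co (a1 a2 : ℝ) : Prop :=
  0 ≤ a1 ∧ a1 ≤ 1 / 2 ∧ 0 ≤ a2 ∧ a2 ≤ 2 ∧ a1 + max (a2 - a1) 0 / 4 ≤ 1 / 2 - 1 / 1600

/-- the exponential moment of the far regime -/
def FarMgfStmt : Prop :=
  ∀ L : ℝ, ∃ K : ℝ, 0 < K ∧ ∀ (eta a th0 M : ℝ) (W W1 : ℝ → ℝ), eta ≤ 1 → Shape L eta a th0 W W1 →
    |1 - th0| ≤ M → |a| ≤ M → ∀ c d a1 a2 b1 b2 : ℝ, 0 < c → 0 < d → c ^ 2 ≤ 1 → d ^ 2 ≤ 1 →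
      Co a1 a2 → Co b1 b2 →
      Integrable (fun p => Real.exp (Yf W c d a1 a2 b1 b2 p)) (gam.prod gam) ∧
      ∫ p, Real.exp (Yf W c d a1 a2 b1 b2 p) ∂(gam.prod gam) ≤ Real.exp (K * M)

end Vale.Agent.N150.Sm2
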