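import Vale.Agent.N150.SmFar
import Vale.Agent.N150.SmDef3

/-! Low temperature, second moment: the far regime including a large ratio `X / Q`. -/

namespace Vale.Agent.N150.Sm2

/-- the far regime with the third alternative `1 + c < X / (Q + eps ^ 2)` -/
theorem far3 {eps lam X k Q u c : ℝ} (he : 0 < eps) (hX : 0 ≤ X) (hX2 : X ≤ 2) (hk : 0 ≤ k)
    (hQ : 0 ≤ Q) (hcs : k ^ 2 ≤ X * Q) (hQ2 : Q + eps ^ 2 ≤ 2) (hl : |1 - lam| ≤ u)
    (hu : u ≤ 1 / 10) (hc : 0 < c) (hc1 : c ≤ 1 / 32) :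
    ∃ s2 a1 a2 : ℝ, 0 < s2 ∧ s2 ≤ 2 ∧ Co a1 a2 ∧ val eps lam X k Q s2 a1 a2 ≤ 2 * u ∧
      ((c < eps ^ 2 / (Q + eps ^ 2) ∨ 2 * c < |(k - lam * (Q + eps ^ 2)) / (2 * Q + eps ^ 2)| ∨
        1 + c < X / (Q + eps ^ 2)) → val eps lam X k Q s2 a1 a2 ≤ 2 * u - c ^ 4 / 112) := by
  have hq : 0 < Q + eps ^ 2 := by positivity
  have h2 : 0 < 2 * Q + eps ^ 2 := by positivity
  have hu0 : 0 ≤ u := (abs_nonneg _).trans hl
  obtain ⟨s2, a1, a2, b1, b2, b3, b4, b5, b6, b7, b8, b9⟩ :=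
    farStmt eps lam X k Q u c he hX hX2 hk hQ hcs hQ2 hl hu hc (by linarith)
  by_cases h : ¬ 2 * c < |(k - lam * (Q + eps ^ 2)) / (2 * Q + eps ^ 2)| ∧
      1 + c < X / (Q + eps ^ 2)
  · obtain ⟨h1, h3⟩ := h
    push Not at h1
    obtain ⟨D, hD⟩ : ∃ D, D = (k - lam * (Q + eps ^ 2)) / (2 * Q + eps ^ 2) := ⟨_, rfl⟩
    rw [← hD] at h1
    have hk' : k - lam * (Q + eps ^ 2) = D * (2 * Q + eps ^ 2) := by rw [hD]; field_simp
    have hD2 : D ^ 2 ≤ (2 * c) ^ 2 := by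
      rw [← sq_abs D]; exact pow_le_pow_left₀ (abs_nonneg _) h1 2
    have ho : Q / (Q + eps ^ 2) ≤ 1 := by rw [div_le_one hq]; nlinarith [pow_pos he 2]
    have ho0 : 0 ≤ Q / (Q + eps ^ 2) := by positivity
    have hv : val eps lam X k Q (Q + eps ^ 2) (1 / 4) (1 / 4) =
        (1 + Q / (Q + eps ^ 2)) * D ^ 2 / 2 - (X / (Q + eps ^ 2) - Q / (Q + eps ^ 2)) / 4 := by
      unfold val gE
      rw [hk']
      field_simp
      ring
    have e1 : (1 + Q / (Q + eps ^ 2)) * D ^ 2 ≤ 2 * (2 * c) ^ 2 :=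
      mul_le_mul (by linarith) hD2 (sq_nonneg _) (by norm_num)
    have e2 : c ^ 4 ≤ c := by
      calc c ^ 4 ≤ c ^ 1 := pow_le_pow_of_le_one hc.le (by linarith) (by norm_num)
        _ = c := pow_one c
    have hb : val eps lam X k Q (Q + eps ^ 2) (1 / 4) (1 / 4) ≤ -(c / 8) := by
      rw [hv]; nlinarith
    refine ⟨Q + eps ^ 2, 1 / 4, 1 / 4, hq, hQ2, ⟨by norm_num, by norm_num, by norm_num,
      by norm_num, by norm_num⟩, by linarith, fun _ => by linarith⟩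
  · refine ⟨s2, a1, a2, b1, b2, ⟨b3, b4, b5, b6, b7⟩, b8, fun h' => b9 ?_⟩
    rcases h' with h' | h' | h'
    · exact Or.inl h'
    · exact Or.inr h'
    · by_contra hn
      exact h ⟨fun hh => hn (Or.inr hh), h'⟩

end Vale.Agent.N150.Sm2
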