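import Vale.Agent.N150.SmDef3

/-! Low temperature, second moment: a kit for two Gaussian variables. -/

open MeasureTheory ProbabilityTheory Filter Topology

namespace Vale.Agent.N150.Sm2

open Vale.Agent.P150

variable {L eta a th0 : ℝ} {W W1 : ℝ → ℝ}

theorem Shape.cont (h : Shape L eta a th0 W W1) : Continuous W :=
  continuous_iff_continuousAt.2 fun z => (h.der z).continuousAt

theorem Shape.mono (h : Shape L eta a th0 W W1) : Monotone W :=
  monotone_of_deriv_nonneg (fun z => (h.der z).differentiableAt) fun z => by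
    rw [(h.der z).deriv]; exact h.pos z

theorem Shape.zero (h : Shape L eta a th0 W W1) : W 0 = 0 := by
  have := h.odd 0
  rw [neg_zero] at this
  linarith

theorem Shape.ea (h : Shape L eta a th0 W W1) : 0 ≤ eta * |a| := by
  have h1 := (abs_nonneg _).trans (h.apx 0)
  simpa using h1

theorem Shape.sec_lt (h : Shape L eta a th0 W W1) {z y : ℝ} (hzy : y < z) :
    ∃ r, W z - W y = r * (z - y) ∧ 0 ≤ r ∧ r ≤ L ∧
      |r - th0 - a * (z ^ 2 + z * y + y ^ 2 - 3)| ≤ eta * |a| * (1 + z ^ 4 + y ^ 4) := by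
  have hne : z - y ≠ 0 := (sub_pos.2 hzy).ne'
  obtain ⟨x, _, hx⟩ := exists_hasDerivAt_eq_slope W W1 hzy h.cont.continuousOn fun x _ => h.der x
  have hE : ∀ t, HasDerivAt (fun t => W t - th0 * t - a * (t ^ 3 - 3 * t))
      (W1 t - th0 - 3 * a * (t ^ 2 - 1)) t := by
    intro t
    have h1 := ((h.der t).sub ((hasDerivAt_id t).const_mul th0)).sub
      (((hasDerivAt_pow 3 t).sub ((hasDerivAt_id t).const_mul 3)).const_mul a)
    refine h1.congr_deriv ?_
    simp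
    ring
  obtain ⟨x2, hx2, hy⟩ := exists_hasDerivAt_eq_slope _ _ hzy
    (continuous_iff_continuousAt.2 fun t => (hE t).continuousAt).continuousOn fun t _ => hE t
  refine ⟨(W z - W y) / (z - y), by field_simp, by rw [← hx]; exact h.pos x,
    by rw [← hx]; exact h.lip x, ?_⟩
  have e : (W z - W y) / (z - y) - th0 - a * (z ^ 2 + z * y + y ^ 2 - 3) =
      W1 x2 - th0 - 3 * a * (x2 ^ 2 - 1) := by
    rw [hy]
    field_simp
    ring
  rw [e]
  refine (h.apx x2).trans (mul_le_mul_of_nonneg_left ?_ h.ea)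
  have h4 : x2 ^ 4 ≤ z ^ 4 + y ^ 4 := by
    have hz4 : 0 ≤ z ^ 4 := by positivity
    have hy4 : 0 ≤ y ^ 4 := by positivity
    rcases le_total 0 x2 with h0 | h0
    · have : x2 ^ 4 ≤ z ^ 4 := pow_le_pow_left₀ h0 hx2.2.le 4
      linarith
    · have h5 : (-x2) ^ 4 ≤ (-y) ^ 4 := pow_le_pow_left₀ (by linarith) (by linarith [hx2.1]) 4
      have e1 : (-x2) ^ 4 = x2 ^ 4 := by ring
      have e2 : (-y) ^ 4 = y ^ 4 := by ring
      linarith
  linarith

/-- the secant slope -/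
theorem Shape.sec (h : Shape L eta a th0 W W1) (z y : ℝ) :
    ∃ r, W z - W y = r * (z - y) ∧ 0 ≤ r ∧ r ≤ L ∧
      |r - th0 - a * (z ^ 2 + z * y + y ^ 2 - 3)| ≤ eta * |a| * (1 + z ^ 4 + y ^ 4) := by
  rcases lt_trichotomy y z with h1 | h1 | h1
  · exact h.sec_lt h1
  · subst h1
    refine ⟨W1 y, by simp, h.pos y, h.lip y, ?_⟩
    have e : W1 y - th0 - a * (y ^ 2 + y * y + y ^ 2 - 3) = W1 y - th0 - 3 * a * (y ^ 2 - 1) := by
      ring
    rw [e]
    refine (h.apx y).trans (mul_le_mul_of_nonneg_left ?_ h.ea)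
    have : 0 ≤ y ^ 4 := by positivity
    linarith
  · obtain ⟨r, h2, h3, h4, h5⟩ := h.sec_lt h1
    refine ⟨r, by linarith, h3, h4, ?_⟩
    have e : z ^ 2 + z * y + y ^ 2 = y ^ 2 + y * z + z ^ 2 := by ring
    have e2 : 1 + z ^ 4 + y ^ 4 = 1 + y ^ 4 + z ^ 4 := by ring
    rw [e, e2]
    exact h5

/-- the slope of the minus sector -/
theorem Shape.secD (h : Shape L eta a th0 W W1) (c d : ℝ) (p : ℝ × ℝ) :
    ∃ r, sD W c d p = r * (2 * d * p.2) ∧ 0 ≤ r ∧ r ≤ L ∧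
      |r - th0 - a * (3 * c ^ 2 * p.1 ^ 2 + d ^ 2 * p.2 ^ 2 - 3)| ≤
        eta * |a| * (1 + (c * p.1 + d * p.2) ^ 4 + (c * p.1 - d * p.2) ^ 4) := by
  obtain ⟨r, h1, h2, h3, h4⟩ := h.sec (c * p.1 + d * p.2) (c * p.1 - d * p.2)
  refine ⟨r, by unfold sD; rw [h1]; ring, h2, h3, ?_⟩
  have e : (c * p.1 + d * p.2) ^ 2 + (c * p.1 + d * p.2) * (c * p.1 - d * p.2) +
      (c * p.1 - d * p.2) ^ 2 - 3 = 3 * c ^ 2 * p.1 ^ 2 + d ^ 2 * p.2 ^ 2 - 3 := by ring
  rwa [e] at h4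

/-- the slope of the plus sector -/
theorem Shape.secS (h : Shape L eta a th0 W W1) (c d : ℝ) (p : ℝ × ℝ) :
    ∃ r, sS W c d p = r * (2 * c * p.1) ∧ 0 ≤ r ∧ r ≤ L ∧
      |r - th0 - a * (c ^ 2 * p.1 ^ 2 + 3 * d ^ 2 * p.2 ^ 2 - 3)| ≤
        eta * |a| * (1 + (c * p.1 + d * p.2) ^ 4 + (c * p.1 - d * p.2) ^ 4) := by
  obtain ⟨r, h1, h2, h3, h4⟩ := h.sec (c * p.1 + d * p.2) (-(c * p.1 - d * p.2))
  rw [h.odd] at h1
  refine ⟨r, by unfold sS; linarith, h2, h3, ?_⟩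
  have e : (c * p.1 + d * p.2) ^ 2 + (c * p.1 + d * p.2) * -(c * p.1 - d * p.2) +
      (-(c * p.1 - d * p.2)) ^ 2 - 3 = c ^ 2 * p.1 ^ 2 + 3 * d ^ 2 * p.2 ^ 2 - 3 := by ring
  have e2 : (-(c * p.1 - d * p.2)) ^ 4 = (c * p.1 - d * p.2) ^ 4 := by ring
  rwa [e, e2] at h4

theorem Shape.abs_le (h : Shape L eta a th0 W W1) (z : ℝ) : |W z| ≤ L * |z| := by
  obtain ⟨r, h1, h2, h3, _⟩ := h.sec z 0
  rw [h.zero, sub_zero, sub_zero] at h1
  rw [h1, abs_mul, abs_of_nonneg h2]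
  exact mul_le_mul_of_nonneg_right h3 (abs_nonneg z)

/-- `1 + x ^ 2 + y ^ 2` -/
def NN (p : ℝ × ℝ) : ℝ := 1 + p.1 ^ 2 + p.2 ^ 2

theorem one_le_NN (p : ℝ × ℝ) : 1 ≤ NN p := by
  unfold NN; nlinarith [sq_nonneg p.1, sq_nonneg p.2]

theorem four_le {c d : ℝ} (h : c ^ 2 + d ^ 2 ≤ 2) (p : ℝ × ℝ) :
    1 + (c * p.1 + d * p.2) ^ 4 + (c * p.1 - d * p.2) ^ 4 ≤ 8 * NN p ^ 2 := by
  have h1 : (c * p.1 + d * p.2) ^ 2 ≤ 2 * (p.1 ^ 2 + p.2 ^ 2) := by
    nlinarith [sq_nonneg (c * p.2 - d * p.1), sq_nonneg p.1, sq_nonneg p.2]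
  have h2 : (c * p.1 - d * p.2) ^ 2 ≤ 2 * (p.1 ^ 2 + p.2 ^ 2) := by
    nlinarith [sq_nonneg (c * p.2 + d * p.1), sq_nonneg p.1, sq_nonneg p.2]
  have h3 := pow_le_pow_left₀ (sq_nonneg _) h1 2
  have h4 := pow_le_pow_left₀ (sq_nonneg _) h2 2
  unfold NN
  nlinarith [sq_nonneg p.1, sq_nonneg p.2]

/-- rotations preserve the two dimensional Gaussian law -/
theorem rot {c s : ℝ} (h : c ^ 2 + s ^ 2 = 1) :
    MeasurePreserving (fun p : ℝ × ℝ => (c * p.1 + s * p.2, -s * p.1 + c * p.2))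
      (gam.prod gam) (gam.prod gam) := by
  have hz : (⟨c, s⟩ : ℂ) ≠ 0 := by
    intro h0
    have h1 : c = 0 := congrArg Complex.re h0
    have h2 : s = 0 := congrArg Complex.im h0
    rw [h1, h2] at h
    norm_num at h
  have hn : ‖(⟨c, s⟩ : ℂ)‖ = 1 := by
    rw [Complex.norm_def, Complex.normSq_mk, ← sq, ← sq, h, Real.sqrt_one]
  have hc : Real.cos (Complex.arg ⟨c, s⟩) = c := by rw [Complex.cos_arg hz, hn]; simp
  have hs : Real.sin (Complex.arg ⟨c, s⟩) = s := by rw [Complex.sin_arg, hn]; simp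
  have h1 := IsGaussian.map_rotation_eq_self (μ := gam) (by simp) (Complex.arg ⟨c, s⟩)
  refine ⟨by fun_prop, ?_⟩
  rw [← h1]
  congr 1
  funext p
  simp [ContinuousLinearMap.rotation_apply, hc, hs]

theorem int_exp_sq {b : ℝ} (hb : b < 1 / 2) : Integrable (fun x => Real.exp (b * x ^ 2)) gam := by
  rw [integrable_gaussianReal_iff]
  have h1 := (integrable_exp_neg_mul_sq (b := 1 / 2 - b) (by linarith)).const_mul
    (√(2 * Real.pi * ((1 : NNReal) : ℝ)))⁻¹
  refine h1.congr (Eventually.of_forall fun x => ?_)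
  simp only [gaussianPDFReal]
  rw [mul_assoc _ (Real.exp _), ← Real.exp_add]
  congr 2
  simp
  ring

/-- the dominating function -/
theorem int_dom (k : ℕ) {b : ℝ} (hb : b < 1 / 2) :
    Integrable (fun p : ℝ × ℝ => NN p ^ k * Real.exp (b * (p.1 ^ 2 + p.2 ^ 2))) (gam.prod gam) := by
  obtain ⟨t, ht⟩ : ∃ t : ℝ, t = (1 / 2 - b) / 2 := ⟨_, rfl⟩
  have ht0 : 0 < t := by rw [ht]; linarith
  have h1 := int_exp_sq (b := b + t) (by rw [ht]; linarith)
  have h2 := (h1.mul_prod h1).const_mul ((k.factorial : ℝ) / t ^ k * Real.exp t)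
  refine h2.mono' (by unfold NN; fun_prop) (Eventually.of_forall fun p => ?_)
  have hN := one_le_NN p
  rw [Real.norm_of_nonneg (by positivity)]
  have h3 := Real.pow_div_factorial_le_exp (t * NN p) (by positivity) k
  have hf : (0 : ℝ) < k.factorial := by exact_mod_cast k.factorial_pos
  rw [div_le_iff₀ hf, mul_pow] at h3
  have h4 : NN p ^ k ≤ (k.factorial : ℝ) / t ^ k * Real.exp (t * NN p) := by
    rw [div_mul_eq_mul_div, le_div_iff₀ (by positivity)]
    linarith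
  have e : (k.factorial : ℝ) / t ^ k * Real.exp t *
      (Real.exp ((b + t) * p.1 ^ 2) * Real.exp ((b + t) * p.2 ^ 2)) =
      (k.factorial : ℝ) / t ^ k * Real.exp (t * NN p) * Real.exp (b * (p.1 ^ 2 + p.2 ^ 2)) := by
    rw [mul_assoc, mul_assoc, ← Real.exp_add, ← Real.exp_add, ← Real.exp_add]
    congr 2
    unfold NN
    ring
  rw [e]
  exact mul_le_mul_of_nonneg_right h4 (Real.exp_pos _).le

theorem int_NN (k : ℕ) : Integrable (fun p : ℝ × ℝ => NN p ^ k) (gam.prod gam) := by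
  simpa using int_dom k (b := 0) (by norm_num)

/-- a measurable function of polynomial growth is integrable -/
theorem int_of_le {f : ℝ × ℝ → ℝ} (hf : AEStronglyMeasurable f (gam.prod gam)) (C : ℝ) (k : ℕ)
    (h : ∀ p, |f p| ≤ C * NN p ^ k) : Integrable f (gam.prod gam) :=
  ((int_NN k).const_mul C).mono' hf (Eventually.of_forall h)

theorem int_pow (k : ℕ) : Integrable (fun x : ℝ => x ^ k) gam := by
  have := (memLp_id_gaussianReal' (μ := 0) (v := 1) k (by simp)).integrable_norm_pow'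
  refine this.mono' (by fun_prop) (Eventually.of_forall fun x => ?_)
  simp

theorem mom_succ (k : ℕ) : ∫ x, x ^ (k + 2) ∂gam = (k + 1) * ∫ x, x ^ k ∂gam := by
  have h := stein_one (g := fun x => x ^ (k + 1)) (g' := fun x => (k + 1) * x ^ k)
    (fun t => by simpa using hasDerivAt_pow (k + 1) t)
    ((int_pow (k + 2)).congr (Eventually.of_forall fun x => by ring))
    ((int_pow k).const_mul _) (int_pow (k + 1))
  rw [integral_const_mul] at h
  rw [← h]
  exact integral_congr_ae (Eventually.of_forall fun x => by ring)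

/-- the even moments -/
def mo : ℕ → ℝ
  | 0 => 1
  | k + 1 => (2 * k + 1) * mo k

theorem mom_even (k : ℕ) : ∫ x, x ^ (2 * k) ∂gam = mo k := by
  induction k with
  | zero => simp [mo]
  | succ k ih =>
    rw [show 2 * (k + 1) = 2 * k + 2 by ring, mom_succ, ih, mo]
    push_cast
    ring

theorem mom_odd (k : ℕ) : ∫ x, x ^ (2 * k + 1) ∂gam = 0 := by
  induction k with
  | zero => simp
  | succ k ih => rw [show 2 * (k + 1) + 1 = 2 * k + 1 + 2 by ring, mom_succ, ih, mul_zero]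

/-- the mean of a polynomial in `x ^ 2`, `y ^ 2`; use it with `Finset.sum_range_succ` -/
theorem int_poly (m : ℕ) (k : ℕ → ℕ → ℝ) :
    Integrable (fun p : ℝ × ℝ => ∑ i ∈ Finset.range m, ∑ j ∈ Finset.range m,
      k i j * (p.1 ^ (2 * i) * p.2 ^ (2 * j))) (gam.prod gam) ∧
    ∫ p : ℝ × ℝ, ∑ i ∈ Finset.range m, ∑ j ∈ Finset.range m,
      k i j * (p.1 ^ (2 * i) * p.2 ^ (2 * j)) ∂(gam.prod gam) =
      ∑ i ∈ Finset.range m, ∑ j ∈ Finset.range m, k i j * (mo i * mo j) := by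
  have h1 : ∀ i j, Integrable (fun p : ℝ × ℝ => k i j * (p.1 ^ (2 * i) * p.2 ^ (2 * j)))
      (gam.prod gam) := fun i j => ((int_pow _).mul_prod (int_pow _)).const_mul _
  refine ⟨integrable_finsetSum _ fun i _ => integrable_finsetSum _ fun j _ => h1 i j, ?_⟩
  rw [integral_finsetSum _ fun i _ => integrable_finsetSum _ fun j _ => h1 i j]
  refine Finset.sum_congr rfl fun i _ => ?_
  rw [integral_finsetSum _ fun j _ => h1 i j]
  refine Finset.sum_congr rfl fun j _ => ?_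
  rw [integral_const_mul, integral_prod_mul (fun x : ℝ => x ^ (2 * i)) (fun x : ℝ => x ^ (2 * j)),
    mom_even, mom_even]

end Vale.Agent.N150.Sm2
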