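import Vale.Agent.N150.SmAsm
import Vale.Agent.N150.SmCov
import Vale.Agent.N150.SmFar
import Vale.Agent.N150.SmB
import Vale.Agent.N150.SmFm
import Vale.Agent.N150.SmMgf2
import Vale.Agent.N150.SmW

/-! Low temperature, second moment: everything except the real inequality of the near regime. -/

namespace Vale.Agent.N150.Sm2

theorem twoM_near (h : NearStmt) : TwoMStmt :=
  twoM_of finStmt Far.farStmt h B.gaussStmt (Mgf.mgf_of B.gaussStmt) Fm.farMgf

theorem twoMW_near (h : NearStmt) : TwoMWStmt := (twoM_near h).weak

end Vale.Agent.N150.Sm2
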