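import Vale.Agent.N150.SmDef3

/-! Moment generating function bounds for functions of two standard Gaussians. -/

open MeasureTheory ProbabilityTheory Filter Topology

namespace Vale.Agent.N150.Mgf

/-- the law of two independent standard Gaussians -/
noncomputable abbrev g2 : Measure (ℝ × ℝ) := (gaussianReal 0 1).prod (gaussianReal 0 1)

/-- the polynomial weight -/
noncomputable def wt (k : ℕ) (p : ℝ × ℝ) : ℝ := (1 + p.1 ^ 2 + p.2 ^ 2) ^ k

theorem exp_le_quad {x : ℝ} (hx : x ≤ 0) : Real.exp x ≤ 1 + x + x ^ 2 / 2 := by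
  have h : ∀ t : ℝ, HasDerivAt (fun t => (1 + t + t ^ 2 / 2) - Real.exp t)
      ((1 + t) - Real.exp t) t := by
    intro t
    have h1 : HasDerivAt (fun t : ℝ => 1 + t + t ^ 2 / 2) (1 + t) t := by
      have := (((hasDerivAt_id t).const_add 1).add ((hasDerivAt_pow 2 t).div_const 2))
      refine this.congr_deriv ?_
      simp
    exact h1.sub (Real.hasDerivAt_exp t)
  have hanti : Antitone (fun t => (1 + t + t ^ 2 / 2) - Real.exp t) := by
    apply antitone_of_deriv_nonpos (fun t => (h t).differentiableAt)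
    intro t
    rw [(h t).deriv]
    have := Real.add_one_le_exp t
    linarith
  have := hanti hx
  simp at this
  linarith

theorem exp_le_cub {x : ℝ} (hx : 0 ≤ x) :
    Real.exp x ≤ 1 + x + x ^ 2 / 2 + x ^ 3 * Real.exp x := by
  have h := exp_le_quad (x := -x) (by linarith)
  have h1 : 1 - x ≤ Real.exp (-x) := by
    have := Real.add_one_le_exp (-x)
    linarith
  have he : Real.exp x * Real.exp (-x) = 1 := by rw [← Real.exp_add]; simp
  have hp := Real.exp_pos x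
  have hp' := Real.exp_pos (-x)
  -- multiply by exp (-x): need 1 ≤ (1 + x + x^2/2) exp(-x) + x^3
  have key : 1 ≤ (1 + x + x ^ 2 / 2) * Real.exp (-x) + x ^ 3 := by
    have h3 : ∀ t : ℝ, HasDerivAt (fun t => (1 + t + t ^ 2 / 2) * Real.exp (-t) + t ^ 3)
        (3 * t ^ 2 - t ^ 2 / 2 * Real.exp (-t)) t := by
      intro t
      have h1 : HasDerivAt (fun t : ℝ => 1 + t + t ^ 2 / 2) (1 + t) t := by
        have := (((hasDerivAt_id t).const_add 1).add ((hasDerivAt_pow 2 t).div_const 2))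
        refine this.congr_deriv ?_
        simp
      have h2 : HasDerivAt (fun t : ℝ => Real.exp (-t)) (-Real.exp (-t)) t := by
        have := (hasDerivAt_neg t).exp
        refine this.congr_deriv ?_
        simp
      refine ((h1.mul h2).add (hasDerivAt_pow 3 t)).congr_deriv ?_
      simp
      ring
    have hmono : MonotoneOn (fun t => (1 + t + t ^ 2 / 2) * Real.exp (-t) + t ^ 3)
        (Set.Ici 0) := by
      apply monotoneOn_of_deriv_nonneg (convex_Ici 0)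
      · exact fun t _ => (h3 t).continuousAt.continuousWithinAt
      · exact fun t _ => (h3 t).differentiableAt.differentiableWithinAt
      · intro t ht
        rw [(h3 t).deriv]
        have ht0 : 0 ≤ t := le_of_lt (by simpa using ht)
        have : Real.exp (-t) ≤ 1 := Real.exp_le_one_iff.2 (by linarith)
        nlinarith [sq_nonneg t, mul_nonneg (sq_nonneg t) (sub_nonneg.2 this)]
    have := hmono (Set.mem_Ici.2 le_rfl) (Set.mem_Ici.2 hx) hx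
    simpa using this
  have : Real.exp x * 1 ≤ Real.exp x * ((1 + x + x ^ 2 / 2) * Real.exp (-x) + x ^ 3) :=
    mul_le_mul_of_nonneg_left key hp.le
  have e2 : Real.exp x * ((1 + x + x ^ 2 / 2) * Real.exp (-x) + x ^ 3)
      = (1 + x + x ^ 2 / 2) * (Real.exp x * Real.exp (-x)) + x ^ 3 * Real.exp x := by ring
  rw [e2, he] at this
  linarith

/-- `exp x ≤ 1 + x + x ^ 2 / 2 + |x| ^ 3 exp y` when `x ≤ y` -/
theorem exp_le_three {x y : ℝ} (h : x ≤ y) :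
    Real.exp x ≤ 1 + x + x ^ 2 / 2 + |x| ^ 3 * Real.exp y := by
  rcases le_total x 0 with hx | hx
  · have := exp_le_quad hx
    have : 0 ≤ |x| ^ 3 * Real.exp y := by positivity
    linarith
  · have h1 := exp_le_cub hx
    rw [abs_of_nonneg hx]
    have : x ^ 3 * Real.exp x ≤ x ^ 3 * Real.exp y :=
      mul_le_mul_of_nonneg_left (Real.exp_le_exp.2 h) (by positivity)
    linarith

theorem integrable_exp_sq {c : ℝ} (hc : c < 1 / 2) :
    Integrable (fun x : ℝ => Real.exp (c * x ^ 2)) (gaussianReal 0 1) := by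
  rw [gaussianReal_of_var_ne_zero _ (by norm_num : (1 : NNReal) ≠ 0)]
  rw [integrable_withDensity_iff_integrable_smul' (measurable_gaussianPDF _ _)
    (ae_of_all _ fun _ => by simp [gaussianPDF])]
  have h := (integrable_exp_neg_mul_sq (b := 1 / 2 - c) (by linarith)).const_mul
    ((√(2 * Real.pi))⁻¹)
  refine h.congr (ae_of_all _ fun x => ?_)
  simp only [gaussianPDF, smul_eq_mul]
  rw [ENNReal.toReal_ofReal (gaussianPDFReal_nonneg _ _ _)]
  simp only [gaussianPDFReal, NNReal.coe_one, mul_one, sub_zero]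
  rw [mul_assoc, ← Real.exp_add]
  congr 2
  ring

theorem integrable_exp_sq2 {c : ℝ} (hc : c < 1 / 2) :
    Integrable (fun p : ℝ × ℝ => Real.exp (c * (p.1 ^ 2 + p.2 ^ 2))) g2 := by
  have := (integrable_exp_sq hc).mul_prod (integrable_exp_sq hc)
  refine this.congr (ae_of_all _ fun p => ?_)
  simp only
  rw [← Real.exp_add]
  congr 1
  ring

theorem wt_pos (k : ℕ) (p : ℝ × ℝ) : 0 < wt k p := by
  unfold wt; positivity

theorem one_le_wt (k : ℕ) (p : ℝ × ℝ) : 1 ≤ wt k p := by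
  unfold wt
  exact one_le_pow₀ (by nlinarith [sq_nonneg p.1, sq_nonneg p.2])

theorem wt_add (k l : ℕ) (p : ℝ × ℝ) : wt (k + l) p = wt k p * wt l p := pow_add _ _ _

theorem wt_mul (k l : ℕ) (p : ℝ × ℝ) : wt (k * l) p = wt k p ^ l := pow_mul _ _ _

theorem continuous_wt (k : ℕ) : Continuous (wt k) := by
  unfold wt; fun_prop

theorem wt_le_exp (k : ℕ) : ∃ C : ℝ, 0 < C ∧ ∀ p : ℝ × ℝ,
    wt k p ≤ C * Real.exp (1 / 8 * (p.1 ^ 2 + p.2 ^ 2)) := by
  refine ⟨8 ^ k * k.factorial * Real.exp (1 / 8), by positivity, fun p => ?_⟩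
  set s := p.1 ^ 2 + p.2 ^ 2 with hs
  have hs0 : 0 ≤ s := by positivity
  have h := Real.pow_div_factorial_le_exp ((1 + s) / 8) (by positivity) k
  have hf : (0 : ℝ) < k.factorial := by positivity
  rw [div_le_iff₀ hf, div_pow, div_le_iff₀ (by positivity)] at h
  have e : wt k p = (1 + s) ^ k := by unfold wt; rw [hs, add_assoc]
  rw [e]
  refine h.trans (le_of_eq ?_)
  rw [show (1 + s) / 8 = 1 / 8 + 1 / 8 * s by ring, Real.exp_add]
  ring

/-- the weight times a Gaussian-type growth is integrable -/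
theorem integrable_wt_exp (k : ℕ) {c : ℝ} (hc : c ≤ 1 / 4) :
    Integrable (fun p : ℝ × ℝ => wt k p * Real.exp (c * (p.1 ^ 2 + p.2 ^ 2))) g2 := by
  obtain ⟨C, hC, h⟩ := wt_le_exp k
  refine ((integrable_exp_sq2 (c := 3 / 8) (by norm_num)).const_mul C).mono' ?_
    (ae_of_all _ fun p => ?_)
  · exact ((continuous_wt k).mul (by fun_prop)).aestronglyMeasurable
  · rw [Real.norm_eq_abs, abs_of_nonneg (mul_nonneg (wt_pos k p).le (Real.exp_pos _).le)]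
    have hs0 : 0 ≤ p.1 ^ 2 + p.2 ^ 2 := by positivity
    calc wt k p * Real.exp (c * (p.1 ^ 2 + p.2 ^ 2))
        ≤ (C * Real.exp (1 / 8 * (p.1 ^ 2 + p.2 ^ 2))) *
            Real.exp (1 / 4 * (p.1 ^ 2 + p.2 ^ 2)) := by
          apply mul_le_mul (h p) (Real.exp_le_exp.2 (mul_le_mul_of_nonneg_right hc hs0))
            (Real.exp_pos _).le (by positivity)
      _ = C * Real.exp (3 / 8 * (p.1 ^ 2 + p.2 ^ 2)) := by
          rw [mul_assoc, ← Real.exp_add]; congr 2; ring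

theorem integrable_wt (k : ℕ) : Integrable (wt k) g2 := by
  have := integrable_wt_exp k (c := 0) (by norm_num)
  simpa using this

/-- a function dominated by a multiple of the weight is integrable -/
theorem integrable_of_wt {H : ℝ × ℝ → ℝ} (hm : AEStronglyMeasurable H g2) {k : ℕ} {t : ℝ}
    (h : ∀ p, |H p| ≤ t * wt k p) : Integrable H g2 :=
  ((integrable_wt k).const_mul t).mono' hm (ae_of_all _ fun p => by
    rw [Real.norm_eq_abs]; exact h p)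

/-- the constant of the third order term -/
noncomputable def K3 (k : ℕ) : ℝ :=
  ∫ p, wt (k * 3) p * Real.exp (1 / 4 * (p.1 ^ 2 + p.2 ^ 2)) ∂g2

theorem K3_nonneg (k : ℕ) : 0 ≤ K3 k :=
  integral_nonneg fun p => mul_nonneg (wt_pos _ p).le (Real.exp_pos _).le

/-- second order bound for the moment generating function -/
theorem mgf_two {H : ℝ × ℝ → ℝ} (hm : AEStronglyMeasurable H g2) {k : ℕ} {t b : ℝ}
    (h : ∀ p, |H p| ≤ t * wt k p) (hb : ∀ p, H p ≤ b + 1 / 4 * (p.1 ^ 2 + p.2 ^ 2)) :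
    Integrable (fun p => Real.exp (H p)) g2 ∧
      ∫ p, Real.exp (H p) ∂g2 ≤ 1 + ∫ p, H p ∂g2 + (∫ p, H p ^ 2 ∂g2) / 2 +
        Real.exp b * K3 k * t ^ 3 := by
  have ht : 0 ≤ t := by
    have h0 := (abs_nonneg _).trans (h 0)
    exact nonneg_of_mul_nonneg_left h0 (wt_pos k 0)
  have hme : AEStronglyMeasurable (fun p => Real.exp (H p)) g2 :=
    Real.continuous_exp.comp_aestronglyMeasurable hm
  have hi : Integrable (fun p => Real.exp (H p)) g2 := by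
    refine ((integrable_exp_sq2 (c := 1 / 4) (by norm_num)).const_mul (Real.exp b)).mono' hme
      (ae_of_all _ fun p => ?_)
    rw [Real.norm_eq_abs, abs_of_pos (Real.exp_pos _), ← Real.exp_add]
    exact Real.exp_le_exp.2 (hb p)
  have h1 : Integrable H g2 := integrable_of_wt hm h
  have h2 : Integrable (fun p => H p ^ 2) g2 := by
    refine integrable_of_wt (k := k * 2) (t := t ^ 2) (hm.pow 2) fun p => ?_
    rw [abs_pow, wt_mul, ← mul_pow]
    exact pow_le_pow_left₀ (abs_nonneg _) (h p) 2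
  have h3 := (integrable_wt_exp (k * 3) (c := 1 / 4) le_rfl).const_mul (Real.exp b * t ^ 3)
  refine ⟨hi, ?_⟩
  have hle : ∫ p, Real.exp (H p) ∂g2 ≤ ∫ p, (1 + H p + H p ^ 2 / 2 + Real.exp b * t ^ 3 *
      (wt (k * 3) p * Real.exp (1 / 4 * (p.1 ^ 2 + p.2 ^ 2)))) ∂g2 := by
    refine integral_mono hi ((((integrable_const 1).add h1).add (h2.div_const 2)).add h3)
      fun p => ?_
    refine (exp_le_three (hb p)).trans ?_
    have : |H p| ^ 3 ≤ t ^ 3 * wt (k * 3) p := by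
      rw [wt_mul, ← mul_pow]
      exact pow_le_pow_left₀ (abs_nonneg _) (h p) 3
    have h4 : |H p| ^ 3 * Real.exp (b + 1 / 4 * (p.1 ^ 2 + p.2 ^ 2)) ≤
        t ^ 3 * wt (k * 3) p * Real.exp (b + 1 / 4 * (p.1 ^ 2 + p.2 ^ 2)) :=
      mul_le_mul_of_nonneg_right this (Real.exp_pos _).le
    rw [Real.exp_add] at h4
    rw [Real.exp_add]
    nlinarith [h4]
  refine hle.trans (le_of_eq ?_)
  have i1 : Integrable (fun p => 1 + H p) g2 := (integrable_const 1).add h1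
  have i2 : Integrable (fun p => H p ^ 2 / 2) g2 := h2.div_const 2
  have i3 : Integrable (fun p => 1 + H p + H p ^ 2 / 2) g2 := i1.add i2
  rw [integral_add i3 h3, integral_add i1 i2,
    integral_add (integrable_const 1) h1, integral_const_mul, integral_div]
  simp only [integral_const, probReal_univ, smul_eq_mul, mul_one, K3]
  ring


/-! ### moments -/

theorem integrable_pow (k : ℕ) : Integrable (fun x : ℝ => x ^ k) (gaussianReal 0 1) := by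
  have h := (memLp_id_gaussianReal (μ := 0) (v := 1) (k : NNReal))
  have h2 : Integrable (fun x : ℝ => ‖id x‖ ^ k) (gaussianReal 0 1) := by
    refine MemLp.integrable_norm_pow' ?_
    simpa using h
  refine h2.mono' (by fun_prop) (ae_of_all _ fun x => ?_)
  simp

theorem mom_step (k : ℕ) : ∫ x, x ^ (k + 2) ∂(gaussianReal 0 1) =
    (k + 1) * ∫ x, x ^ k ∂(gaussianReal 0 1) := by
  have h := Vale.Agent.P150.stein_one (g := fun t => t ^ (k + 1))
    (g' := fun t => ((k + 1 : ℕ) : ℝ) * t ^ k)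
    (fun t => by simpa using hasDerivAt_pow (k + 1) t)
    ((integrable_pow (k + 2)).congr (ae_of_all _ fun x => by simp only; ring))
    ((integrable_pow k).const_mul _) (integrable_pow (k + 1))
  rw [integral_const_mul] at h
  push_cast at h
  rw [← h]
  refine integral_congr_ae (ae_of_all _ fun x => ?_)
  simp only
  ring

theorem mom2 : ∫ x, x ^ 2 ∂(gaussianReal 0 1) = (1 : ℝ) := by
  have := mom_step 0
  simpa using this

theorem mom4 : ∫ x, x ^ 4 ∂(gaussianReal 0 1) = (3 : ℝ) := by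
  have := mom_step 2
  rw [mom2] at this
  norm_num at this
  exact this

theorem mom6 : ∫ x, x ^ 6 ∂(gaussianReal 0 1) = (15 : ℝ) := by
  have := mom_step 4
  rw [mom4] at this
  norm_num at this
  exact this

theorem mom8 : ∫ x, x ^ 8 ∂(gaussianReal 0 1) = (105 : ℝ) := by
  have := mom_step 6
  rw [mom6] at this
  norm_num at this
  exact this

/-- an even polynomial of degree at most eight -/
def ev (c0 c1 c2 c3 c4 x : ℝ) : ℝ := c0 + c1 * x ^ 2 + c2 * x ^ 4 + c3 * x ^ 6 + c4 * x ^ 8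

theorem integrable_ev (c0 c1 c2 c3 c4 : ℝ) :
    Integrable (ev c0 c1 c2 c3 c4) (gaussianReal 0 1) :=
  ((((integrable_const c0).add ((integrable_pow 2).const_mul c1)).add
    ((integrable_pow 4).const_mul c2)).add ((integrable_pow 6).const_mul c3)).add
    ((integrable_pow 8).const_mul c4)

theorem integral_ev (c0 c1 c2 c3 c4 : ℝ) :
    ∫ x, ev c0 c1 c2 c3 c4 x ∂(gaussianReal 0 1) = c0 + c1 + 3 * c2 + 15 * c3 + 105 * c4 := by
  have j1 := (integrable_pow 2).const_mul c1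
  have j2 := (integrable_pow 4).const_mul c2
  have j3 := (integrable_pow 6).const_mul c3
  have j4 := (integrable_pow 8).const_mul c4
  have i1 : Integrable (fun x : ℝ => c0 + c1 * x ^ 2) (gaussianReal 0 1) :=
    (integrable_const c0).add j1
  have i2 : Integrable (fun x : ℝ => c0 + c1 * x ^ 2 + c2 * x ^ 4) (gaussianReal 0 1) := i1.add j2
  have i3 : Integrable (fun x : ℝ => c0 + c1 * x ^ 2 + c2 * x ^ 4 + c3 * x ^ 6)
      (gaussianReal 0 1) := i2.add j3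
  unfold ev
  rw [integral_add i3 j4, integral_add i2 j3, integral_add i1 j2,
    integral_add (integrable_const c0) j1, integral_const_mul, integral_const_mul,
    integral_const_mul, integral_const_mul, mom2, mom4, mom6, mom8]
  simp only [integral_const, probReal_univ, smul_eq_mul, one_mul]
  ring

theorem integrable_ev2 (c0 c1 c2 c3 c4 d0 d1 d2 d3 d4 : ℝ) :
    Integrable (fun p : ℝ × ℝ => ev c0 c1 c2 c3 c4 p.1 * ev d0 d1 d2 d3 d4 p.2) g2 :=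
  (integrable_ev c0 c1 c2 c3 c4).mul_prod (integrable_ev d0 d1 d2 d3 d4)

theorem integral_ev2 (c0 c1 c2 c3 c4 d0 d1 d2 d3 d4 : ℝ) :
    ∫ p : ℝ × ℝ, ev c0 c1 c2 c3 c4 p.1 * ev d0 d1 d2 d3 d4 p.2 ∂g2 =
      (c0 + c1 + 3 * c2 + 15 * c3 + 105 * c4) * (d0 + d1 + 3 * d2 + 15 * d3 + 105 * d4) := by
  rw [integral_prod_mul (ev c0 c1 c2 c3 c4) (ev d0 d1 d2 d3 d4), integral_ev, integral_ev]

/-- the quartic polynomial of the near regime -/
def Pol (be rho : ℝ) (p : ℝ × ℝ) : ℝ :=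
  be * ((p.1 ^ 4 - 6 * p.1 ^ 2) - (p.2 ^ 4 - 6 * p.2 ^ 2)) -
    3 * rho * ((p.1 ^ 2 - 1) * (p.2 ^ 2 - 1))

theorem Pol_sq (be rho : ℝ) : Integrable (fun p => Pol be rho p ^ 2) g2 ∧
    ∫ p, Pol be rho p ^ 2 ∂g2 = 48 * be ^ 2 + 36 * rho ^ 2 := by
  have e : (fun p => Pol be rho p ^ 2) = fun p : ℝ × ℝ =>
      ev (9 * be ^ 2) (-36 * be ^ 2) (42 * be ^ 2) (-12 * be ^ 2) (be ^ 2) p.1 * ev 1 0 0 0 0 p.2 +
      ev (-6 * be ^ 2) (12 * be ^ 2) (-2 * be ^ 2) 0 0 p.1 * ev 3 (-6) 1 0 0 p.2 +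
      ev (be ^ 2) 0 0 0 0 p.1 * ev 9 (-36) 42 (-12) 1 p.2 +
      ev (-3) 9 (-7) 1 0 p.1 * ev (6 * be * rho) (-6 * be * rho) 0 0 0 p.2 +
      ev (-6 * be * rho) (6 * be * rho) 0 0 0 p.1 * ev (-3) 9 (-7) 1 0 p.2 +
      ev (9 * rho ^ 2) (-18 * rho ^ 2) (9 * rho ^ 2) 0 0 p.1 * ev 1 (-2) 1 0 0 p.2 := by
    funext p
    unfold Pol ev
    ring
  have j1 := integrable_ev2 (9 * be ^ 2) (-36 * be ^ 2) (42 * be ^ 2) (-12 * be ^ 2) (be ^ 2)
    1 0 0 0 0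
  have j2 := integrable_ev2 (-6 * be ^ 2) (12 * be ^ 2) (-2 * be ^ 2) 0 0 3 (-6) 1 0 0
  have j3 := integrable_ev2 (be ^ 2) 0 0 0 0 9 (-36) 42 (-12) 1
  have j4 := integrable_ev2 (-3) 9 (-7) 1 0 (6 * be * rho) (-6 * be * rho) 0 0 0
  have j5 := integrable_ev2 (-6 * be * rho) (6 * be * rho) 0 0 0 (-3) 9 (-7) 1 0
  have j6 := integrable_ev2 (9 * rho ^ 2) (-18 * rho ^ 2) (9 * rho ^ 2) 0 0 1 (-2) 1 0 0
  have i2 := j1.add j2
  have i3 := i2.add j3
  have i4 := i3.add j4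
  have i5 := i4.add j5
  rw [e]
  refine ⟨i5.add j6, ?_⟩
  erw [integral_add i5 j6, integral_add i4 j5, integral_add i3 j4, integral_add i2 j3,
    integral_add j1 j2]
  simp only [integral_ev2]
  ring

/-! ### secant slopes -/

open Vale.Agent.N150.Sm2

theorem sec_lt {L eta a th0 : ℝ} {W W1 : ℝ → ℝ} (h : Shape L eta a th0 W W1) {z y : ℝ}
    (hy : y < z) : ∃ r, W z - W y = r * (z - y) ∧ 0 ≤ r ∧ r ≤ L ∧
      |r - th0 - a * (z ^ 2 + z * y + y ^ 2 - 3)| ≤ eta * |a| * (1 + z ^ 4 + y ^ 4) := by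
  have hc : Continuous W := continuous_iff_continuousAt.2 fun t => (h.der t).continuousAt
  obtain ⟨s, _, hs⟩ := exists_hasDerivAt_eq_slope W W1 hy hc.continuousOn (fun t _ => h.der t)
  have hR : ∀ t, HasDerivAt (fun t => W t - th0 * t - a * (t ^ 3 - 3 * t))
      (W1 t - th0 - 3 * a * (t ^ 2 - 1)) t := by
    intro t
    have h1 := ((h.der t).sub ((hasDerivAt_id t).const_mul th0)).sub
      (((hasDerivAt_pow 3 t).sub ((hasDerivAt_id t).const_mul 3)).const_mul a)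
    refine h1.congr_deriv ?_
    simp
    ring
  have hRc : Continuous (fun t => W t - th0 * t - a * (t ^ 3 - 3 * t)) :=
    continuous_iff_continuousAt.2 fun t => (hR t).continuousAt
  obtain ⟨u, hu, hu2⟩ := exists_hasDerivAt_eq_slope _ _ hy hRc.continuousOn (fun t _ => hR t)
  have hne : z - y ≠ 0 := sub_ne_zero.2 hy.ne'
  refine ⟨W1 s, by rw [hs]; field_simp, h.pos s, h.lip s, ?_⟩
  have e : W1 s - th0 - a * (z ^ 2 + z * y + y ^ 2 - 3) = W1 u - th0 - 3 * a * (u ^ 2 - 1) := by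
    rw [hu2, hs]
    field_simp
    ring
  rw [e]
  refine (h.apx u).trans ?_
  have he : 0 ≤ eta * |a| := by
    have h0 := (abs_nonneg _).trans (h.apx 0)
    simpa using h0
  refine mul_le_mul_of_nonneg_left ?_ he
  have h2 : u ^ 2 ≤ z ^ 2 ∨ u ^ 2 ≤ y ^ 2 := by
    rcases le_total 0 u with h0 | h0
    · left; nlinarith [hu.2]
    · right; nlinarith [hu.1]
  rcases h2 with h2 | h2
  · have : (u ^ 2) ^ 2 ≤ (z ^ 2) ^ 2 := pow_le_pow_left₀ (sq_nonneg _) h2 2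
    nlinarith [sq_nonneg (y ^ 2)]
  · have : (u ^ 2) ^ 2 ≤ (y ^ 2) ^ 2 := pow_le_pow_left₀ (sq_nonneg _) h2 2
    nlinarith [sq_nonneg (z ^ 2)]

theorem sec {L eta a th0 : ℝ} {W W1 : ℝ → ℝ} (h : Shape L eta a th0 W W1) (z y : ℝ) :
    ∃ r, W z - W y = r * (z - y) ∧ 0 ≤ r ∧ r ≤ L ∧
      |r - th0 - a * (z ^ 2 + z * y + y ^ 2 - 3)| ≤ eta * |a| * (1 + z ^ 4 + y ^ 4) := by
  rcases lt_trichotomy y z with hy | hy | hy
  · exact sec_lt h hy
  · subst hy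
    refine ⟨W1 y, by simp, h.pos y, h.lip y, ?_⟩
    have e : W1 y - th0 - a * (y ^ 2 + y * y + y ^ 2 - 3) = W1 y - th0 - 3 * a * (y ^ 2 - 1) := by
      ring
    rw [e]
    refine (h.apx y).trans ?_
    have he : 0 ≤ eta * |a| := by
      have h0 := (abs_nonneg _).trans (h.apx 0)
      simpa using h0
    refine mul_le_mul_of_nonneg_left ?_ he
    nlinarith [sq_nonneg (y ^ 2)]
  · obtain ⟨r, h1, h2, h3, h4⟩ := sec_lt h hy
    refine ⟨r, by linarith, h2, h3, ?_⟩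
    have e1 : z ^ 2 + z * y + y ^ 2 = y ^ 2 + y * z + z ^ 2 := by ring
    have e2 : 1 + z ^ 4 + y ^ 4 = 1 + y ^ 4 + z ^ 4 := by ring
    rw [e1, e2]
    exact h4

/-- the two slopes at a point -/
theorem rep {L eta a th0 : ℝ} {W W1 : ℝ → ℝ} (h : Shape L eta a th0 W W1) {c d : ℝ}
    (hcd : c ^ 2 + d ^ 2 = 1) (p : ℝ × ℝ) : ∃ r1 r2 : ℝ,
      sS W c d p = r1 * (2 * c * p.1) ∧ sD W c d p = r2 * (2 * d * p.2) ∧
      0 ≤ r1 ∧ r1 ≤ L ∧ 0 ≤ r2 ∧ r2 ≤ L ∧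
      |r1 - th0 - a * (c ^ 2 * p.1 ^ 2 + 3 * d ^ 2 * p.2 ^ 2 - 3)| ≤ 2 * eta * |a| * wt 2 p ∧
      |r2 - th0 - a * (3 * c ^ 2 * p.1 ^ 2 + d ^ 2 * p.2 ^ 2 - 3)| ≤ 2 * eta * |a| * wt 2 p := by
  obtain ⟨x, y⟩ := p
  obtain ⟨r1, a1, a2, a3, a4⟩ := sec h (c * x + d * y) (-(c * x - d * y))
  obtain ⟨r2, b1, b2, b3, b4⟩ := sec h (c * x + d * y) (c * x - d * y)
  have he : 0 ≤ eta * |a| := by
    have h0 := (abs_nonneg _).trans (h.apx 0)
    simpa using h0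
  have z1 : (c * x + d * y) ^ 2 ≤ x ^ 2 + y ^ 2 := by
    have : (c * x + d * y) ^ 2 + (d * x - c * y) ^ 2 = (c ^ 2 + d ^ 2) * (x ^ 2 + y ^ 2) := by ring
    rw [hcd] at this
    nlinarith [sq_nonneg (d * x - c * y)]
  have z2 : (c * x - d * y) ^ 2 ≤ x ^ 2 + y ^ 2 := by
    have : (c * x - d * y) ^ 2 + (d * x + c * y) ^ 2 = (c ^ 2 + d ^ 2) * (x ^ 2 + y ^ 2) := by ring
    rw [hcd] at this
    nlinarith [sq_nonneg (d * x + c * y)]
  have z3 : 1 + (c * x + d * y) ^ 4 + (c * x - d * y) ^ 4 ≤ 2 * wt 2 (x, y) := by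
    have q1 := pow_le_pow_left₀ (sq_nonneg _) z1 2
    have q2 := pow_le_pow_left₀ (sq_nonneg _) z2 2
    rw [← pow_mul] at q1 q2
    have s0 : 0 ≤ x ^ 2 + y ^ 2 := by positivity
    have : wt 2 (x, y) = (1 + (x ^ 2 + y ^ 2)) ^ 2 := by unfold wt; ring
    rw [this]
    norm_num at q1 q2
    nlinarith
  have z4 : eta * |a| * (1 + (c * x + d * y) ^ 4 + (c * x - d * y) ^ 4) ≤
      2 * eta * |a| * wt 2 (x, y) := by
    have := mul_le_mul_of_nonneg_left z3 he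
    linarith
  refine ⟨r1, r2, ?_, ?_, a2, a3, b2, b3, ?_, ?_⟩
  · rw [h.odd] at a1
    simp only [sS]
    linarith
  · simp only [sD]
    linarith
  · have e1 : (c * x + d * y) ^ 2 + (c * x + d * y) * -(c * x - d * y) + (-(c * x - d * y)) ^ 2
        = c ^ 2 * x ^ 2 + 3 * d ^ 2 * y ^ 2 := by ring
    have e2 : (-(c * x - d * y)) ^ 4 = (c * x - d * y) ^ 4 := by ring
    rw [e1, e2] at a4
    exact a4.trans z4
  · have e1 : (c * x + d * y) ^ 2 + (c * x + d * y) * (c * x - d * y) + (c * x - d * y) ^ 2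
        = 3 * c ^ 2 * x ^ 2 + d ^ 2 * y ^ 2 := by ring
    rw [e1] at b4
    exact b4.trans z4

/-! ### pointwise bounds -/

theorem abs_mul_le {x y X Y : ℝ} (hx : |x| ≤ X) (hy : |y| ≤ Y) : |x * y| ≤ X * Y := by
  rw [abs_mul]
  exact mul_le_mul hx hy (abs_nonneg _) ((abs_nonneg _).trans hx)

theorem pt_err {c2 d2 X Y L r1 r2 th G a g m1 m2 ka : ℝ} (hc : 0 ≤ c2) (hd : 0 ≤ d2)
    (hcd : c2 + d2 = 1) (hX : 0 ≤ X) (hY : 0 ≤ Y) (h2 : 0 ≤ r2) (h2L : r2 ≤ L)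
    (ht : 0 ≤ th) (ht2 : th ≤ 2) (hG : |th ^ 2 - G| ≤ 21 * |a|) (hk : ka ≤ |a|)
    (e1 : |r1 - th - a * (c2 * X + 3 * d2 * Y - 3)| ≤ ka * (1 + X + Y) ^ 2)
    (e2 : |r2 - th - a * (3 * c2 * X + d2 * Y - 3)| ≤ ka * (1 + X + Y) ^ 2) :
    |(d2 * g * ((r1 - th) * X) - c2 * g * ((r2 - th) * Y) +
        3 * a * (c2 - d2) * g * (c2 * X + d2 * Y - 1) + m1 * ((r2 - th) * Y) +
        m2 * ((r2 ^ 2 - G) * Y)) -
      a * g * (d2 * X * (c2 * X + 3 * d2 * Y - 3) - c2 * Y * (3 * c2 * X + d2 * Y - 3) +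
        3 * (c2 - d2) * (c2 * X + d2 * Y - 1))| ≤
      (ka * |g| + (4 * L + 29) * |a| * (|m1| + |m2|)) * (1 + X + Y) ^ 3 := by
  set N := 1 + X + Y with hN
  have hN1 : 1 ≤ N := by linarith
  have hN2 : N ≤ N ^ 2 := by nlinarith
  have hN2' : 1 ≤ N ^ 2 := by nlinarith
  have hA := abs_nonneg a
  have hL : 0 ≤ L := h2.trans h2L
  have hka : 0 ≤ ka := by
    have := (abs_nonneg _).trans e1
    exact nonneg_of_mul_nonneg_left this (by positivity)
  set u1 := r1 - th - a * (c2 * X + 3 * d2 * Y - 3) with hu1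
  set u2 := r2 - th - a * (3 * c2 * X + d2 * Y - 3) with hu2
  have q0 : |3 * c2 * X + d2 * Y - 3| ≤ 3 * N := by
    have b1 : c2 * X ≤ X := by nlinarith
    have b2 : d2 * Y ≤ Y := by nlinarith
    have b3 : 0 ≤ c2 * X := by positivity
    have b4 : 0 ≤ d2 * Y := by positivity
    rw [abs_le]
    constructor <;> nlinarith
  have q1 : |r2 - th| ≤ 4 * |a| * N ^ 2 := by
    have : r2 - th = u2 + a * (3 * c2 * X + d2 * Y - 3) := by rw [hu2]; ring
    rw [this]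
    refine (abs_add_le _ _).trans ?_
    have b1 := abs_mul_le (le_refl |a|) q0
    have b2 : ka * N ^ 2 ≤ |a| * N ^ 2 := mul_le_mul_of_nonneg_right hk (by positivity)
    have b3 : |a| * N ≤ |a| * N ^ 2 := mul_le_mul_of_nonneg_left hN2 hA
    linarith
  have q2 : |r2 ^ 2 - G| ≤ (4 * L + 29) * |a| * N ^ 2 := by
    have : r2 ^ 2 - G = (r2 - th) * (r2 + th) + (th ^ 2 - G) := by ring
    rw [this]
    refine (abs_add_le _ _).trans ?_
    have b0 : |r2 + th| ≤ L + 2 := by rw [abs_of_nonneg (by linarith)]; linarith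
    have b1 := abs_mul_le q1 b0
    have b2 : |a| * 1 ≤ |a| * N ^ 2 := mul_le_mul_of_nonneg_left hN2' hA
    have b3 : (4 * L + 29) * |a| * N ^ 2 = 4 * |a| * N ^ 2 * (L + 2) + 21 * (|a| * N ^ 2) := by
      ring
    rw [b3]
    linarith only [b1, b2, hG]
  have hYa : |Y| ≤ N := by rw [abs_of_nonneg hY]; linarith
  have e : (d2 * g * ((r1 - th) * X) - c2 * g * ((r2 - th) * Y) +
        3 * a * (c2 - d2) * g * (c2 * X + d2 * Y - 1) + m1 * ((r2 - th) * Y) +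
        m2 * ((r2 ^ 2 - G) * Y)) -
      a * g * (d2 * X * (c2 * X + 3 * d2 * Y - 3) - c2 * Y * (3 * c2 * X + d2 * Y - 3) +
        3 * (c2 - d2) * (c2 * X + d2 * Y - 1)) =
      g * (u1 * (d2 * X)) - g * (u2 * (c2 * Y)) + m1 * ((r2 - th) * Y) +
        m2 * ((r2 ^ 2 - G) * Y) := by
    rw [hu1, hu2]; ring
  rw [e]
  have t1 : |g * (u1 * (d2 * X))| ≤ |g| * (ka * N ^ 2 * X) := by
    refine abs_mul_le le_rfl (abs_mul_le e1 ?_)
    rw [abs_of_nonneg (by positivity)]; nlinarith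
  have t2 : |g * (u2 * (c2 * Y))| ≤ |g| * (ka * N ^ 2 * Y) := by
    refine abs_mul_le le_rfl (abs_mul_le e2 ?_)
    rw [abs_of_nonneg (by positivity)]; nlinarith
  have t3 : |m1 * ((r2 - th) * Y)| ≤ |m1| * (4 * |a| * N ^ 2 * N) :=
    abs_mul_le le_rfl (abs_mul_le q1 hYa)
  have t4 : |m2 * ((r2 ^ 2 - G) * Y)| ≤ |m2| * ((4 * L + 29) * |a| * N ^ 2 * N) :=
    abs_mul_le le_rfl (abs_mul_le q2 hYa)
  have s1 := abs_add_le (g * (u1 * (d2 * X)) - g * (u2 * (c2 * Y)) + m1 * ((r2 - th) * Y))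
    (m2 * ((r2 ^ 2 - G) * Y))
  have s2 := abs_add_le (g * (u1 * (d2 * X)) - g * (u2 * (c2 * Y))) (m1 * ((r2 - th) * Y))
  have s3 := abs_sub (g * (u1 * (d2 * X))) (g * (u2 * (c2 * Y)))
  have w1 : |g| * (ka * N ^ 2 * X) + |g| * (ka * N ^ 2 * Y) ≤ ka * |g| * N ^ 3 := by
    have : 0 ≤ ka * |g| * N ^ 2 := by positivity
    have b : ka * |g| * N ^ 2 * (X + Y) ≤ ka * |g| * N ^ 2 * N :=
      mul_le_mul_of_nonneg_left (by linarith) this
    calc |g| * (ka * N ^ 2 * X) + |g| * (ka * N ^ 2 * Y) = ka * |g| * N ^ 2 * (X + Y) := by ring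
      _ ≤ ka * |g| * N ^ 2 * N := b
      _ = ka * |g| * N ^ 3 := by ring
  have w2 : |m1| * (4 * |a| * N ^ 2 * N) ≤ (4 * L + 29) * |a| * |m1| * N ^ 3 := by
    have : 0 ≤ |a| * |m1| * N ^ 3 := by positivity
    calc |m1| * (4 * |a| * N ^ 2 * N) = 4 * (|a| * |m1| * N ^ 3) := by ring
      _ ≤ (4 * L + 29) * (|a| * |m1| * N ^ 3) := mul_le_mul_of_nonneg_right (by linarith) this
      _ = (4 * L + 29) * |a| * |m1| * N ^ 3 := by ring
  have w3 : (ka * |g| + (4 * L + 29) * |a| * (|m1| + |m2|)) * N ^ 3 = ka * |g| * N ^ 3 +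
      (4 * L + 29) * |a| * |m1| * N ^ 3 + |m2| * ((4 * L + 29) * |a| * N ^ 2 * N) := by ring
  rw [w3]
  linarith only [s1, s2, s3, t1, t2, t3, t4, w1, w2]

theorem pt_main {c2 d2 X Y : ℝ} (hc : 0 ≤ c2) (hd : 0 ≤ d2) (hdc : d2 ≤ c2)
    (hcd : c2 + d2 = 1) (hX : 0 ≤ X) (hY : 0 ≤ Y) :
    |d2 * X * (c2 * X + 3 * d2 * Y - 3) - c2 * Y * (3 * c2 * X + d2 * Y - 3) +
        3 * (c2 - d2) * (c2 * X + d2 * Y - 1)| ≤ 3 * (1 + X + Y) ^ 3 := by
  set N := 1 + X + Y with hN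
  have hN1 : 1 ≤ N := by linarith
  have b1 : c2 * X ≤ X := by nlinarith
  have b2 : d2 * Y ≤ Y := by nlinarith
  have b3 : 0 ≤ c2 * X := by positivity
  have b4 : 0 ≤ d2 * Y := by positivity
  have q0 : |3 * c2 * X + d2 * Y - 3| ≤ 3 * N := by
    rw [abs_le]
    constructor <;> nlinarith
  have q1 : |c2 * X + 3 * d2 * Y - 3| ≤ 3 * N := by
    rw [abs_le]
    constructor <;> nlinarith
  have q2 : |c2 * X + d2 * Y - 1| ≤ N := by
    rw [abs_le]
    constructor <;> nlinarith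
  have t1 : |d2 * X * (c2 * X + 3 * d2 * Y - 3)| ≤ X * (3 * N) := by
    refine abs_mul_le ?_ q1
    rw [abs_of_nonneg (by positivity)]; nlinarith
  have t2 : |c2 * Y * (3 * c2 * X + d2 * Y - 3)| ≤ Y * (3 * N) := by
    refine abs_mul_le ?_ q0
    rw [abs_of_nonneg (by positivity)]; nlinarith
  have t3 : |3 * (c2 - d2) * (c2 * X + d2 * Y - 1)| ≤ 3 * N := by
    refine abs_mul_le ?_ q2
    rw [abs_of_nonneg (by linarith)]; linarith
  have s1 := abs_add_le (d2 * X * (c2 * X + 3 * d2 * Y - 3) - c2 * Y * (3 * c2 * X + d2 * Y - 3))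
    (3 * (c2 - d2) * (c2 * X + d2 * Y - 1))
  have s2 := abs_sub (d2 * X * (c2 * X + 3 * d2 * Y - 3)) (c2 * Y * (3 * c2 * X + d2 * Y - 3))
  have w : X * (3 * N) + Y * (3 * N) + 3 * N = 3 * N ^ 2 := by rw [hN]; ring
  have w2 : N ^ 2 ≤ N ^ 3 := pow_le_pow_right₀ hN1 (by norm_num)
  linarith

theorem pt_up {c2 d2 X Y L r1 r2 th G a g m1 m2 m0 : ℝ} (hc : 0 ≤ c2) (hd : 0 ≤ d2)
    (hdc : d2 ≤ c2) (hcd : c2 + d2 = 1) (hX : 0 ≤ X) (hY : 0 ≤ Y) (h1 : 0 ≤ r1) (h1L : r1 ≤ L)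
    (h2 : 0 ≤ r2) (h2L : r2 ≤ L) (ht : 0 ≤ th) (ht2 : th ≤ 2) (hG : |G| ≤ 25) (ha : |a| ≤ 1)
    (hg : |g| ≤ m0) (hm1 : |m1| ≤ m0) (hm2 : |m2| ≤ m0)
    (hm : m0 * (L ^ 2 + 2 * L + 32) ≤ 1 / 4) :
    d2 * g * ((r1 - th) * X) - c2 * g * ((r2 - th) * Y) +
        3 * a * (c2 - d2) * g * (c2 * X + d2 * Y - 1) + m1 * ((r2 - th) * Y) +
        m2 * ((r2 ^ 2 - G) * Y) ≤ 1 + 1 / 4 * (X + Y) := by
  have hL : 0 ≤ L := h2.trans h2L
  have hm0 : 0 ≤ m0 := (abs_nonneg _).trans hg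
  have b1 : c2 * X ≤ X := by nlinarith
  have b2 : d2 * Y ≤ Y := by nlinarith
  have b3 : 0 ≤ c2 * X := by positivity
  have b4 : 0 ≤ d2 * Y := by positivity
  have q1 : |r1 - th| ≤ L + 2 := by rw [abs_le]; constructor <;> linarith
  have q2 : |r2 - th| ≤ L + 2 := by rw [abs_le]; constructor <;> linarith
  have q3 : |r2 ^ 2 - G| ≤ L ^ 2 + 25 := by
    have := pow_le_pow_left₀ h2 h2L 2
    have := sq_nonneg r2
    rw [abs_le] at hG ⊢
    constructor <;> nlinarith [hG.1, hG.2]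
  have q4 : |c2 * X + d2 * Y - 1| ≤ 1 + X + Y := by
    rw [abs_le]
    constructor <;> nlinarith
  have hXa : |X| ≤ X := (abs_of_nonneg hX).le
  have hYa : |Y| ≤ Y := (abs_of_nonneg hY).le
  have hd1 : |d2| ≤ 1 := by rw [abs_of_nonneg hd]; linarith
  have hc1 : |c2| ≤ 1 := by rw [abs_of_nonneg hc]; linarith
  have hr : |c2 - d2| ≤ 1 := by rw [abs_of_nonneg (by linarith)]; linarith
  have h3 : |(3 : ℝ)| ≤ 3 := by norm_num
  have t1 := (le_abs_self _).trans (abs_mul_le (abs_mul_le hd1 hg) (abs_mul_le q1 hXa))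
  have t2 := (neg_le_abs _).trans (abs_mul_le (abs_mul_le hc1 hg) (abs_mul_le q2 hYa))
  have t3 := (le_abs_self _).trans
    (abs_mul_le (abs_mul_le (abs_mul_le (abs_mul_le h3 ha) hr) hg) q4)
  have t4 := (le_abs_self _).trans (abs_mul_le hm1 (abs_mul_le q2 hYa))
  have t5 := (le_abs_self _).trans (abs_mul_le hm2 (abs_mul_le q3 hYa))
  have w1 : m0 * (L ^ 2 + 2 * L + 32) * X ≤ 1 / 4 * X := mul_le_mul_of_nonneg_right hm hX
  have w2 : m0 * (L ^ 2 + 2 * L + 32) * Y ≤ 1 / 4 * Y := mul_le_mul_of_nonneg_right hm hY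
  have w3 : 0 ≤ m0 * (L ^ 2 + 2 * L) := by positivity
  have w4 : 0 ≤ m0 * (L ^ 2 + L + 27) * X := by positivity
  nlinarith

/-! ### the tilt -/

theorem Yn_rep {W : ℝ → ℝ} {a th c d g m1 m2 r1 r2 : ℝ} {p : ℝ × ℝ} (hc : 0 < c) (hd : 0 < d)
    (h1 : sS W c d p = r1 * (2 * c * p.1)) (h2 : sD W c d p = r2 * (2 * d * p.2)) :
    Yn W a th c d g m1 m2 p =
      d ^ 2 * g * ((r1 - th) * p.1 ^ 2) - c ^ 2 * g * ((r2 - th) * p.2 ^ 2) +
        3 * a * (c ^ 2 - d ^ 2) * g * (c ^ 2 * p.1 ^ 2 + d ^ 2 * p.2 ^ 2 - 1) +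
        m1 * ((r2 - th) * p.2 ^ 2) + m2 * ((r2 ^ 2 - G2 W c d) * p.2 ^ 2) := by
  unfold Yn
  rw [h1, h2]
  field_simp
  ring

theorem Pol_eq {c d : ℝ} (hcd : c ^ 2 + d ^ 2 = 1) (p : ℝ × ℝ) :
    d ^ 2 * p.1 ^ 2 * (c ^ 2 * p.1 ^ 2 + 3 * d ^ 2 * p.2 ^ 2 - 3) -
      c ^ 2 * p.2 ^ 2 * (3 * c ^ 2 * p.1 ^ 2 + d ^ 2 * p.2 ^ 2 - 3) +
      3 * (c ^ 2 - d ^ 2) * (c ^ 2 * p.1 ^ 2 + d ^ 2 * p.2 ^ 2 - 1) =
      Pol (c ^ 2 * d ^ 2) (c ^ 2 - d ^ 2) p := by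
  have : d ^ 2 = 1 - c ^ 2 := by linarith
  unfold Pol
  rw [this]
  ring

theorem sq_le_wt1 (p : ℝ × ℝ) : p.1 ^ 2 ≤ wt 1 p := by
  unfold wt; nlinarith [sq_nonneg p.2]

theorem sq_le_wt2 (p : ℝ × ℝ) : p.2 ^ 2 ≤ wt 1 p := by
  unfold wt; nlinarith [sq_nonneg p.1]

theorem integrable_sq1 : Integrable (fun p : ℝ × ℝ => p.1 ^ 2) g2 :=
  integrable_of_wt (k := 1) (t := 1) (by fun_prop) fun p => by
    rw [abs_of_nonneg (sq_nonneg _), one_mul]; exact sq_le_wt1 p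

theorem integrable_sq2 : Integrable (fun p : ℝ × ℝ => p.2 ^ 2) g2 :=
  integrable_of_wt (k := 1) (t := 1) (by fun_prop) fun p => by
    rw [abs_of_nonneg (sq_nonneg _), one_mul]; exact sq_le_wt2 p

theorem integral_sq1 : ∫ p : ℝ × ℝ, p.1 ^ 2 ∂g2 = 1 := by
  have := integral_ev2 0 1 0 0 0 1 0 0 0 0
  simpa [ev] using this

theorem integral_sq2 : ∫ p : ℝ × ℝ, p.2 ^ 2 ∂g2 = 1 := by
  have := integral_ev2 1 0 0 0 0 0 1 0 0 0
  simpa [ev] using this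

theorem Yn_mean {L eta a th0 : ℝ} {W W1 : ℝ → ℝ} (h : Shape L eta a th0 W W1)
    {th c d g m1 m2 : ℝ} (hc : 0 < c) (hd : 0 < d) (hcd : c ^ 2 + d ^ 2 = 1)
    (h1 : ∫ p, p.1 * sS W c d p ∂g2 = 2 * c * th) (h2 : ∫ p, p.2 * sD W c d p ∂g2 = 2 * d * th) :
    ∫ p, Yn W a th c d g m1 m2 p ∂g2 = 0 := by
  have hW : Continuous W := continuous_iff_continuousAt.2 fun t => (h.der t).continuousAt
  have hS : Continuous (sS W c d) := by unfold sS; fun_prop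
  have hD : Continuous (sD W c d) := by unfold sD; fun_prop
  have i1 : Integrable (fun p : ℝ × ℝ => p.1 * sS W c d p) g2 := by
    refine integrable_of_wt (k := 1) (t := L * (2 * c)) (by fun_prop) fun p => ?_
    obtain ⟨r1, r2, e1, e2, a1, a2, a3, a4, -, -⟩ := rep h hcd p
    rw [e1, show p.1 * (r1 * (2 * c * p.1)) = r1 * (2 * c) * p.1 ^ 2 by ring,
      abs_of_nonneg (by positivity)]
    exact mul_le_mul (mul_le_mul_of_nonneg_right a2 (by positivity)) (sq_le_wt1 p) (sq_nonneg _)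
      (mul_nonneg (a1.trans a2) (by positivity))
  have i2 : Integrable (fun p : ℝ × ℝ => p.2 * sD W c d p) g2 := by
    refine integrable_of_wt (k := 1) (t := L * (2 * d)) (by fun_prop) fun p => ?_
    obtain ⟨r1, r2, e1, e2, a1, a2, a3, a4, -, -⟩ := rep h hcd p
    rw [e2, show p.2 * (r2 * (2 * d * p.2)) = r2 * (2 * d) * p.2 ^ 2 by ring,
      abs_of_nonneg (by positivity)]
    exact mul_le_mul (mul_le_mul_of_nonneg_right a4 (by positivity)) (sq_le_wt2 p) (sq_nonneg _)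
      (mul_nonneg (a1.trans a2) (by positivity))
  have i3 : Integrable (fun p : ℝ × ℝ => sD W c d p ^ 2 / (4 * d ^ 2)) g2 := by
    refine integrable_of_wt (k := 1) (t := L ^ 2) (by fun_prop) fun p => ?_
    obtain ⟨r1, r2, e1, e2, a1, a2, a3, a4, -, -⟩ := rep h hcd p
    rw [e2, show (r2 * (2 * d * p.2)) ^ 2 / (4 * d ^ 2) = r2 ^ 2 * p.2 ^ 2 by field_simp; ring,
      abs_of_nonneg (by positivity)]
    exact mul_le_mul (pow_le_pow_left₀ a3 a4 2) (sq_le_wt2 p) (sq_nonneg _) (sq_nonneg _)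
  have e : (fun p => Yn W a th c d g m1 m2 p) = fun p : ℝ × ℝ =>
      d ^ 2 * g / (2 * c) * (p.1 * sS W c d p) +
      (m1 - c ^ 2 * g) / (2 * d) * (p.2 * sD W c d p) +
      m2 * (sD W c d p ^ 2 / (4 * d ^ 2)) +
      (3 * a * (c ^ 2 - d ^ 2) * g * c ^ 2 - d ^ 2 * g * th) * p.1 ^ 2 +
      (c ^ 2 * g * th + 3 * a * (c ^ 2 - d ^ 2) * g * d ^ 2 - m1 * th - m2 * G2 W c d) * p.2 ^ 2 +
      -(3 * a * (c ^ 2 - d ^ 2) * g) := by
    funext p
    unfold Yn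
    ring
  have j1 := i1.const_mul (d ^ 2 * g / (2 * c))
  have j2 := i2.const_mul ((m1 - c ^ 2 * g) / (2 * d))
  have j3 := i3.const_mul m2
  have j4 := integrable_sq1.const_mul (3 * a * (c ^ 2 - d ^ 2) * g * c ^ 2 - d ^ 2 * g * th)
  have j5 := integrable_sq2.const_mul
    (c ^ 2 * g * th + 3 * a * (c ^ 2 - d ^ 2) * g * d ^ 2 - m1 * th - m2 * G2 W c d)
  have j6 : Integrable (fun _ : ℝ × ℝ => -(3 * a * (c ^ 2 - d ^ 2) * g)) g2 := integrable_const _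
  have k2 := j1.add j2
  have k3 := k2.add j3
  have k4 := k3.add j4
  have k5 := k4.add j5
  rw [e]
  erw [integral_add k5 j6, integral_add k4 j5, integral_add k3 j4, integral_add k2 j3,
    integral_add j1 j2]
  rw [integral_const_mul, integral_const_mul, integral_const_mul, integral_const_mul,
    integral_const_mul, h1, h2, integral_sq1, integral_sq2]
  have hG : ∫ p, sD W c d p ^ 2 / (4 * d ^ 2) ∂g2 = G2 W c d := rfl
  rw [hG]
  simp only [integral_const, probReal_univ, smul_eq_mul, one_mul]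
  have : d ^ 2 = 1 - c ^ 2 := by linarith
  field_simp
  rw [this]
  ring

theorem sq_split {u v t : ℝ} (ht : 0 < t) :
    (u + v) ^ 2 ≤ (1 + t) * u ^ 2 + (1 + 1 / t) * v ^ 2 := by
  have h : 0 ≤ (t * u - v) ^ 2 / t := by positivity
  have e : (t * u - v) ^ 2 / t = t * u ^ 2 - 2 * u * v + 1 / t * v ^ 2 := by field_simp; ring
  nlinarith

/-- the final bookkeeping -/
theorem book {t M D C1 K eta A g m1 m2 V : ℝ} (ht : 0 < t) (hM : 0 ≤ M) (hD : 0 ≤ D)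
    (hC : 4 ≤ C1) (hK : 0 < K) (he0 : 0 ≤ eta) (he1 : eta ≤ 1) (_hA0 : 0 ≤ A) (hA : A ≤ eta)
    (hg : |g| ≤ 1) (hm1 : |m1| ≤ 1) (hm2 : |m2| ≤ 1)
    (he2 : eta * ((1 + 1 / t) * M * (2 + K) ^ 2) ≤ 3 * t) (he3 : eta * (9 * D * C1 ^ 3) ≤ 3 * t) :
    ((1 + t) * V + (1 + 1 / t) * (((2 + K) * eta * A * |g| + C1 * A * (|m1| + |m2|)) ^ 2 * M)) / 2 +
        D * (C1 * A * (|g| + |m1| + |m2|)) ^ 3 ≤
      (1 + t) * V / 2 + 6 * t * A ^ 2 * g ^ 2 +
        (2 * (1 + 1 / t) * M * C1 ^ 2 + 3 * t) * A ^ 2 * (m1 ^ 2 + m2 ^ 2) := by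
  have g0 := abs_nonneg g
  have n1 := abs_nonneg m1
  have n2 := abs_nonneg m2
  rw [← sq_abs g, ← sq_abs m1, ← sq_abs m2]
  generalize |g| = x at *
  generalize |m1| = y at *
  generalize |m2| = z at *
  have hT : 0 ≤ (1 + 1 / t) * M := by positivity
  have s1 : ((2 + K) * eta * A * x + C1 * A * (y + z)) ^ 2 ≤
      2 * ((2 + K) ^ 2 * eta * (A ^ 2 * x ^ 2)) + 4 * (C1 ^ 2 * (A ^ 2 * (y ^ 2 + z ^ 2))) := by
    have a1 : ((2 + K) * eta * A * x + C1 * A * (y + z)) ^ 2 ≤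
        2 * ((2 + K) * eta * A * x) ^ 2 + 2 * (C1 * A * (y + z)) ^ 2 := by
      nlinarith [sq_nonneg ((2 + K) * eta * A * x - C1 * A * (y + z))]
    have a2 : ((2 + K) * eta * A * x) ^ 2 ≤ (2 + K) ^ 2 * eta * (A ^ 2 * x ^ 2) := by
      have : eta * eta ≤ eta := by nlinarith
      calc ((2 + K) * eta * A * x) ^ 2 = (eta * eta) * ((2 + K) ^ 2 * (A ^ 2 * x ^ 2)) := by ring
        _ ≤ eta * ((2 + K) ^ 2 * (A ^ 2 * x ^ 2)) :=
          mul_le_mul_of_nonneg_right this (by positivity)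
        _ = (2 + K) ^ 2 * eta * (A ^ 2 * x ^ 2) := by ring
    have a3 : (C1 * A * (y + z)) ^ 2 ≤ 2 * (C1 ^ 2 * (A ^ 2 * (y ^ 2 + z ^ 2))) := by
      have : (y + z) ^ 2 ≤ 2 * (y ^ 2 + z ^ 2) := by nlinarith [sq_nonneg (y - z)]
      calc (C1 * A * (y + z)) ^ 2 = (C1 ^ 2 * A ^ 2) * (y + z) ^ 2 := by ring
        _ ≤ (C1 ^ 2 * A ^ 2) * (2 * (y ^ 2 + z ^ 2)) :=
          mul_le_mul_of_nonneg_left this (by positivity)
        _ = 2 * (C1 ^ 2 * (A ^ 2 * (y ^ 2 + z ^ 2))) := by ring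
    linarith
  have s2 := mul_le_mul_of_nonneg_left s1 hT
  have s3 : eta * ((1 + 1 / t) * M * (2 + K) ^ 2) * (A ^ 2 * x ^ 2) ≤ 3 * t * (A ^ 2 * x ^ 2) :=
    mul_le_mul_of_nonneg_right he2 (by positivity)
  have s4 : (x + y + z) ^ 3 ≤ 9 * (x ^ 2 + y ^ 2 + z ^ 2) := by
    have b1 : (x + y + z) ^ 2 ≤ 3 * (x ^ 2 + y ^ 2 + z ^ 2) := by
      nlinarith [sq_nonneg (x - y), sq_nonneg (y - z), sq_nonneg (x - z)]
    calc (x + y + z) ^ 3 = (x + y + z) * (x + y + z) ^ 2 := by ring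
      _ ≤ 3 * (3 * (x ^ 2 + y ^ 2 + z ^ 2)) :=
        mul_le_mul (by linarith) b1 (by positivity) (by norm_num)
      _ = 9 * (x ^ 2 + y ^ 2 + z ^ 2) := by ring
  have hC0 : 0 ≤ C1 := by linarith
  have s5 : D * (C1 * A * (x + y + z)) ^ 3 ≤ 3 * t * (A ^ 2 * (x ^ 2 + y ^ 2 + z ^ 2)) := by
    calc D * (C1 * A * (x + y + z)) ^ 3 = A * (D * C1 ^ 3 * A ^ 2 * (x + y + z) ^ 3) := by ring
      _ ≤ eta * (D * C1 ^ 3 * A ^ 2 * (9 * (x ^ 2 + y ^ 2 + z ^ 2))) :=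
        mul_le_mul hA (mul_le_mul_of_nonneg_left s4 (by positivity)) (by positivity) he0
      _ = eta * (9 * D * C1 ^ 3) * (A ^ 2 * (x ^ 2 + y ^ 2 + z ^ 2)) := by ring
      _ ≤ 3 * t * (A ^ 2 * (x ^ 2 + y ^ 2 + z ^ 2)) :=
        mul_le_mul_of_nonneg_right he3 (by positivity)
  have e1 : ((1 + t) * V + (1 + 1 / t) *
      (((2 + K) * eta * A * x + C1 * A * (y + z)) ^ 2 * M)) / 2 = (1 + t) * V / 2 +
      (1 + 1 / t) * M * ((2 + K) * eta * A * x + C1 * A * (y + z)) ^ 2 / 2 := by ring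
  have e2 : (1 + 1 / t) * M * (2 * ((2 + K) ^ 2 * eta * (A ^ 2 * x ^ 2)) +
      4 * (C1 ^ 2 * (A ^ 2 * (y ^ 2 + z ^ 2)))) =
      2 * (eta * ((1 + 1 / t) * M * (2 + K) ^ 2) * (A ^ 2 * x ^ 2)) +
      2 * (2 * (1 + 1 / t) * M * C1 ^ 2 * A ^ 2 * (y ^ 2 + z ^ 2)) := by ring
  have e3 : (2 * (1 + 1 / t) * M * C1 ^ 2 + 3 * t) * A ^ 2 * (y ^ 2 + z ^ 2) =
      2 * (1 + 1 / t) * M * C1 ^ 2 * A ^ 2 * (y ^ 2 + z ^ 2) + 3 * t * (A ^ 2 * (y ^ 2 + z ^ 2)) := by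
    ring
  have e4 : 3 * t * (A ^ 2 * (x ^ 2 + y ^ 2 + z ^ 2)) =
      3 * t * (A ^ 2 * x ^ 2) + 3 * t * (A ^ 2 * (y ^ 2 + z ^ 2)) := by ring
  have e5 : 6 * t * A ^ 2 * x ^ 2 = 2 * (3 * t * (A ^ 2 * x ^ 2)) := by ring
  rw [e1, e3, e5]
  rw [e2] at s2
  rw [e4] at s5
  linarith only [s2, s3, s5]

end Vale.Agent.N150.Mgf
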