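import Vale.Agent.N150.SmDef2

/-! Low temperature, second moment: the near regime (a real-variable inequality). -/

namespace Vale.Agent.N150.Sm2

namespace Near

lemma amul {a b A B : ℝ} (ha : |a| ≤ A) (hb : |b| ≤ B) : |a * b| ≤ A * B := by
  rw [abs_mul]; exact mul_le_mul ha hb (abs_nonneg _) ((abs_nonneg _).trans ha)

lemma aadd {a b A B : ℝ} (ha : |a| ≤ A) (hb : |b| ≤ B) : |a + b| ≤ A + B :=
  (abs_add_le _ _).trans (add_le_add ha hb)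

lemma asub {a b A B : ℝ} (ha : |a| ≤ A) (hb : |b| ≤ B) : |a - b| ≤ A + B :=
  (abs_sub _ _).trans (add_le_add ha hb)

lemma aof {a A : ℝ} (h0 : 0 ≤ a) (h : a ≤ A) : |a| ≤ A := by rwa [abs_of_nonneg h0]

lemma ale {a A : ℝ} (h : |a| ≤ A) : a ≤ A := (le_abs_self a).trans h

lemma age {a A : ℝ} (h : |a| ≤ A) : -A ≤ a := (abs_le.1 h).1

lemma phi_le {w : ℝ} (hw : |w| ≤ 1 / 2) :
    1 / 2 * (w / (1 + w) - Real.log (1 + w)) ≤ -(w ^ 2 / 4) + w ^ 3 / 3 + w ^ 4 := by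
  have h := Real.abs_log_sub_add_sum_range_le (x := -w) (by rw [abs_neg]; linarith) 3
  have h1 : 0 < 1 + w := by have := age hw; linarith
  have h4 : |w| ^ 4 = w ^ 4 := by
    rw [show (4 : ℕ) = 2 * 2 from rfl, pow_mul, sq_abs, ← pow_mul]
  have h5 : |-w| ^ (3 + 1) / (1 - |-w|) ≤ 2 * w ^ 4 := by
    rw [abs_neg, show 3 + 1 = 4 from rfl, h4, div_le_iff₀ (by linarith)]
    have : 0 ≤ w ^ 4 := by positivity
    nlinarith
  have h6 := age (h.trans h5)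
  simp only [Finset.sum_range_succ, Finset.sum_range_zero, sub_neg_eq_add] at h6
  have h7 : w / (1 + w) ≤ w - w ^ 2 + w ^ 3 := by
    rw [div_le_iff₀ h1]
    have : 0 ≤ w ^ 4 := by positivity
    nlinarith
  norm_num at h6
  nlinarith

lemma inv_exp {D d : ℝ} (hD : D ≠ 0) (h : D + d ≠ 0) :
    1 / (D + d) = 1 / D - (1 / D) ^ 2 * d + (1 / D) ^ 2 * d ^ 2 * (1 / (D + d)) := by
  field_simp
  ring

lemma psi_exp {e w t Y : ℝ} (he0 : 0 ≤ e) (he : e ≤ 1 / 100) (hw : |w| ≤ Y) (ht : |t| ≤ Y)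
    (hY : Y ≤ 1 / 50) : ∃ R : ℝ, |R| ≤ 4 * Y ^ 2 ∧ 0 < 2 * (1 + w) * (2 + 2 * w - (e + t)) ∧
      1 / (2 * (1 + w) * (2 + 2 * w - (e + t))) =
        1 / (2 * (2 - e)) - (1 / (2 * (2 - e))) ^ 2 * (2 * ((4 - e) * w - t)) + R := by
  have hY0 : 0 ≤ Y := (abs_nonneg _).trans hw
  obtain ⟨p, hp⟩ : ∃ p, p = 1 / (2 * (2 - e)) := ⟨_, rfl⟩
  obtain ⟨d, hd⟩ : ∃ d, d = 2 * ((4 - e) * w - t) + 2 * w * (2 * w - t) := ⟨_, rfl⟩
  have hDd : 2 * (1 + w) * (2 + 2 * w - (e + t)) = 2 * (2 - e) + d := by rw [hd]; ring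
  have h2 : |(2 : ℝ)| ≤ 2 := by norm_num
  have h4 : |4 - e| ≤ 4 := aof (by linarith) (by linarith)
  have hQ : |2 * w * (2 * w - t)| ≤ 2 * Y * (2 * Y + Y) := amul (amul h2 hw) (asub (amul h2 hw) ht)
  have hd1 : |d| ≤ 11 * Y := by
    have := aadd (amul h2 (asub (amul h4 hw) ht)) hQ
    rw [← hd] at this
    nlinarith
  have hD3 : 3 ≤ 2 * (2 - e) + d := by have := age hd1; linarith
  have hp0 : 0 < p := by rw [hp]; apply one_div_pos.2; linarith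
  have hp1 : p ≤ 51 / 200 := by
    rw [hp, div_le_iff₀ (by linarith)]; linarith
  have hp2 : |p ^ 2| ≤ 1 / 15 := aof (by positivity) (by nlinarith)
  have hq : |1 / (2 * (2 - e) + d)| ≤ 1 / 3 :=
    aof (by positivity) (one_div_le_one_div_of_le (by norm_num) hD3)
  have hd2 : |d ^ 2| ≤ 11 * Y * (11 * Y) := by rw [sq]; exact amul hd1 hd1
  refine ⟨p ^ 2 * d ^ 2 * (1 / (2 * (2 - e) + d)) - p ^ 2 * (2 * w * (2 * w - t)), ?_, ?_, ?_⟩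
  · refine (asub (amul (amul hp2 hd2) hq) (amul hp2 hQ)).trans ?_
    nlinarith [sq_nonneg Y]
  · rw [hDd]; linarith
  · rw [hDd]
    have := inv_exp (D := 2 * (2 - e)) (d := d) (by linarith) (by linarith)
    rw [← hp] at this ⊢
    refine this.trans ?_
    generalize 1 / (2 * (2 - e) + d) = q
    rw [hd]; ring

/-- the leading polynomial -/
noncomputable def Mn (u e0 r T g : ℝ) : ℝ :=
  -(r * e0 * g) - u * (1 + r ^ 2) * g ^ 2 / 2 - (3 * r + r ^ 3) * g ^ 3 / 3 +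
    (3 * r + r ^ 3) * T * g ^ 2 / 4 + u * g ^ 2 * (3 * r ^ 2 + (1 - r ^ 2) ^ 2 / 4)

lemma sm {x a : ℝ} (hx : x ≤ 1) (ha : 0 ≤ a) : x * a ≤ a := by
  have := mul_le_mul_of_nonneg_right hx ha; linarith

lemma c1 {r : ℝ} (hr0 : 0 ≤ r) (hr1 : r ≤ 1) : |-(1 - r)| ≤ 2 := by
  rw [abs_neg]; exact aof (by linarith) (by linarith)

lemma c2 {r : ℝ} (hr0 : 0 ≤ r) (hr1 : r ≤ 1) : |1 + r| ≤ 2 := aof (by linarith) (by linarith)

lemma r2 {r : ℝ} (hr0 : 0 ≤ r) (hr1 : r ≤ 1) : |1 + r ^ 2| ≤ 2 :=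
  aof (by positivity) (by have := pow_le_one₀ (n := 2) hr0 hr1; linarith)

lemma r3 {r : ℝ} (hr0 : 0 ≤ r) (hr1 : r ≤ 1) : |3 * r + r ^ 3| ≤ 4 :=
  aof (by positivity) (by have := pow_le_one₀ (n := 3) hr0 hr1; linarith)

lemma rP {r : ℝ} (hr0 : 0 ≤ r) (hr1 : r ≤ 1) : |3 * r ^ 2 + (1 - r ^ 2) ^ 2 / 4| ≤ 4 :=
  aof (by positivity) (by
    have h1 := pow_le_one₀ (n := 2) hr0 hr1
    have h2 := pow_le_one₀ (n := 2) (show 0 ≤ 1 - r ^ 2 by linarith)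
      (show 1 - r ^ 2 ≤ 1 by linarith [sq_nonneg r])
    linarith)

lemma rE {u e0 r X : ℝ} (hu : 0 ≤ u) (he0 : 0 ≤ e0) (he1 : e0 ≤ u ^ 2) (hr0 : 0 ≤ r)
    (hur : u * r ≤ 2 * X) : |r * e0| ≤ 2 * (u * X) := aof (by positivity) (by
  have h1 := mul_le_mul_of_nonneg_left he1 hr0
  have h2 := mul_le_mul_of_nonneg_left hur hu
  linarith)

lemma gA {s u r g X : ℝ} (hs0 : 0 ≤ s) (hu : 0 ≤ u) (hr0 : 0 ≤ r) (hr1 : r ≤ 1) (hXs : X ≤ 3 * s)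
    (hg : |g| ≤ X) :
    (-(1 - r) * g) ^ 4 + ((1 + r) * g) ^ 4 + s * u * g ^ 2 * (3 * r ^ 2 + (1 - r ^ 2) ^ 2 / 4) +
      s * u * g ^ 2 ≤ 96 * (s * X ^ 3) + 5 * (s * u * X ^ 2) := by
  have hX : 0 ≤ X := (abs_nonneg _).trans hg
  have m1 := mul_le_mul_of_nonneg_right hXs (show 0 ≤ X ^ 3 by positivity)
  have hw1 := amul (c1 hr0 hr1) hg
  have hw2 := amul (c2 hr0 hr1) hg
  have t1 := ale (amul (amul hw1 hw1) (amul hw1 hw1))
  have t2 := ale (amul (amul hw2 hw2) (amul hw2 hw2))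
  have hsu : |s * u| ≤ s * u := aof (by positivity) le_rfl
  have t8 := ale (amul (amul hsu (amul hg hg)) (rP hr0 hr1))
  have t9 := ale (amul hsu (amul hg hg))
  linarith only [m1, t1, t2, t8, t9]

lemma gB {s u lam e0 r g b X B p l : ℝ} (hs : s ≤ 1) (hu : 0 ≤ u) (hus : u ≤ s)
    (he0 : 0 ≤ e0) (he1 : e0 ≤ u ^ 2) (hr0 : 0 ≤ r) (hr1 : r ≤ 1)
    (hg : |g| ≤ X) (hur : u * r ≤ 2 * X) (hb : |b| ≤ B)
    (hl1 : |1 - 4 * p * lam| ≤ 4 * u) (hl3 : |lam| ≤ 1) (hp : |p| ≤ 1 / 2) (hl : |l| ≤ X) :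
    2 * r * e0 ^ 2 * l + 4 * r * e0 * (b - lam * g) * p + r * e0 * g +
      4 * (1 + r ^ 2) * e0 * (b - lam * g) * l ≤ 20 * (s * u * X ^ 2) + 12 * (u * X * B) := by
  have hX : 0 ≤ X := (abs_nonneg _).trans hg
  have hB : 0 ≤ B := (abs_nonneg _).trans hb
  have hu1 : u ≤ 1 := hus.trans hs
  have m2 := mul_le_mul_of_nonneg_right hus (show 0 ≤ u * X ^ 2 by positivity)
  have m3 := sm hu1 (show 0 ≤ u ^ 2 * X ^ 2 by positivity)
  have m5 := sm hu1 (show 0 ≤ u * X * B by positivity)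
  have hE : |e0| ≤ u ^ 2 := aof he0 he1
  have hrE := rE hu he0 he1 hr0 hur
  have hz : |b - lam * g| ≤ B + 1 * X := asub hb (amul hl3 hg)
  have t2 := ale (amul (amul hrE hE) hl)
  have t3 := ale (amul (amul hrE hp) hb)
  have t5 := ale (amul (amul hrE hl1) hg)
  have t4 := ale (amul (amul (amul (r2 hr0 hr1) hE) hz) hl)
  linarith only [m2, m3, m5, t2, t3, t5, t4]

lemma gC {s u lam r g b X B p : ℝ} (hu : 0 ≤ u) (hus : u ≤ s) (hr0 : 0 ≤ r) (hr1 : r ≤ 1)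
    (hg : |g| ≤ X) (hb : |b| ≤ B) (hl1 : |1 - 4 * p * lam| ≤ 4 * u)
    (hl2 : 4 * p * lam ^ 2 - 1 + u ≤ 5 * s * u) (hp : |p| ≤ 1 / 2) :
    2 * (1 + r ^ 2) * (b - lam * g) ^ 2 * p - (1 + r ^ 2) * g ^ 2 / 2 + (1 + r ^ 2) * g * b +
      u * (1 + r ^ 2) * g ^ 2 / 2 ≤ 2 * B ^ 2 + 8 * (u * X * B) + 5 * (s * u * X ^ 2) := by
  have hs0 : 0 ≤ s := hu.trans hus
  have hr2 := r2 hr0 hr1
  have t5 := ale (amul (amul hr2 hp) (amul hb hb))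
  have t6 := ale (amul (amul hr2 hl1) (amul hg hb))
  have h1 := mul_le_mul_of_nonneg_left hl2 (show 0 ≤ (1 + r ^ 2) * g ^ 2 by positivity)
  have h2 := mul_le_mul_of_nonneg_right (ale (amul hr2 (amul hg hg)))
    (show 0 ≤ 5 * s * u by positivity)
  linarith only [t5, t6, h1, h2]

lemma gD {s u lam r T g b X B l : ℝ} (hus : u ≤ s) (hr0 : 0 ≤ r) (hr1 : r ≤ 1) (hX1 : X ≤ 1)
    (hg : |g| ≤ X) (hb : |b| ≤ B) (hl3 : |lam| ≤ 1) (hl4 : |lam ^ 2 - 1| ≤ 2 * u) (hl : |l| ≤ X)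
    (hl5 : |l - (-g / 2 + T / 8)| ≤ s * X) :
    2 * (3 * r + r ^ 3) * ((b - lam * g) ^ 2 * l - g ^ 2 * (-g / 2 + T / 8)) ≤
      8 * B ^ 2 + 16 * (X ^ 2 * B) + 24 * (s * X ^ 3) := by
  have hX : 0 ≤ X := (abs_nonneg _).trans hg
  have m6 : u * X ^ 3 ≤ s * X ^ 3 := mul_le_mul_of_nonneg_right hus (by positivity)
  have m7 := sm hX1 (sq_nonneg B)
  have hr3 := r3 hr0 hr1
  have t6 := ale (amul hr3 (amul (amul hb hb) hl))
  have t7 := age (amul hr3 (amul (amul (amul hl3 hb) hg) hl))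
  have t8 := ale (amul hr3 (amul (amul hl4 (amul hg hg)) hl))
  have t9 := ale (amul hr3 (amul (amul hg hg) hl5))
  linarith only [m6, m7, t6, t7, t8, t9]

lemma gF {s u lam e0 c g b X B R : ℝ} (hs : s ≤ 1 / 3) (hu : 0 ≤ u) (hus : u ≤ s)
    (he0 : 0 ≤ e0) (he1 : e0 ≤ u ^ 2) (hc : |c| ≤ 2) (hXs : X ≤ 3 * s)
    (hg : |g| ≤ X) (hb : |b| ≤ B) (hl3 : |lam| ≤ 1) (hR : |R| ≤ 16 * X ^ 2) :
    (e0 + c * b - lam * (c * g)) ^ 2 * R ≤
      48 * (s * u * X ^ 2) + 192 * B ^ 2 + 576 * (s * X ^ 3) := by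
  have hX : 0 ≤ X := (abs_nonneg _).trans hg
  have hu1 : u ≤ 1 := by linarith
  have hX1 : X ≤ 1 := by linarith
  have m1 := mul_le_mul_of_nonneg_right hXs (show 0 ≤ X ^ 3 by positivity)
  have m2 := mul_le_mul_of_nonneg_right hus (show 0 ≤ u * X ^ 2 by positivity)
  have m3 := sm hu1 (show 0 ≤ u ^ 2 * X ^ 2 by positivity)
  have m4 := sm hu1 (show 0 ≤ u ^ 3 * X ^ 2 by positivity)
  have m7 := sm hX1 (sq_nonneg B)
  have m8 := sm hX1 (show 0 ≤ X * B ^ 2 by positivity)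
  have hz : |b - lam * g| ≤ B + 1 * X := asub hb (amul hl3 hg)
  have hy1 := aadd (aof he0 he1) (amul hc hz)
  have h3 : (u ^ 2 + 2 * (B + 1 * X)) * (u ^ 2 + 2 * (B + 1 * X)) ≤
      3 * (u ^ 4 + 4 * B ^ 2 + 4 * X ^ 2) := by
    linarith only [sq_nonneg (u ^ 2 - 2 * B), sq_nonneg (u ^ 2 - 2 * X), sq_nonneg (B - X)]
  have hy := mul_le_mul_of_nonneg_right h3 (show 0 ≤ 16 * X ^ 2 by positivity)
  have t7 := (ale (amul (amul hy1 hy1) hR)).trans hy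
  linarith only [m1, m2, m3, m4, m7, m8, t7]

lemma core {s u lam e0 r T g b X B p l R1 R2 : ℝ} (hs : s ≤ 1 / 1000) (hu : 0 ≤ u) (hus : u ≤ s)
    (he0 : 0 ≤ e0) (he1 : e0 ≤ u ^ 2) (hr0 : 0 ≤ r) (hr1 : r ≤ 1) (hXs : X ≤ 3 * s)
    (hg : |g| ≤ X) (hur : u * r ≤ 2 * X) (hb : |b| ≤ B)
    (hl1 : |1 - 4 * p * lam| ≤ 4 * u) (hl2 : 4 * p * lam ^ 2 - 1 + u ≤ 5 * s * u)
    (hl3 : |lam| ≤ 1) (hl4 : |lam ^ 2 - 1| ≤ 2 * u) (hp : |p| ≤ 1 / 2) (hl : |l| ≤ X)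
    (hl5 : |l - (-g / 2 + T / 8)| ≤ s * X) (hR1 : |R1| ≤ 16 * X ^ 2) (hR2 : |R2| ≤ 16 * X ^ 2) :
    (-((-(1 - r) * g) ^ 2 / 4) + (-(1 - r) * g) ^ 3 / 3 + (-(1 - r) * g) ^ 4 +
        (e0 + -(1 - r) * b - lam * (-(1 - r) * g)) ^ 2 * (p + -(1 - r) * l + R1)) +
      (-(((1 + r) * g) ^ 2 / 4) + ((1 + r) * g) ^ 3 / 3 + ((1 + r) * g) ^ 4 +
        (e0 + (1 + r) * b - lam * ((1 + r) * g)) ^ 2 * (p + (1 + r) * l + R2)) - 2 * e0 ^ 2 * p +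
      (1 + r ^ 2) * g * b + (1 + s) * u * g ^ 2 * (3 * r ^ 2 + (1 - r ^ 2) ^ 2 / 4) +
      s * u * g ^ 2 ≤
    Mn u e0 r T g + 2000 * (s * (u + X) * X ^ 2 + (u + X) * X * B + B ^ 2) := by
  have hX : 0 ≤ X := (abs_nonneg _).trans hg
  have hB : 0 ≤ B := (abs_nonneg _).trans hb
  have hs0 : 0 ≤ s := hu.trans hus
  have a1 : 0 ≤ s * u * X ^ 2 := by positivity
  have a2 : 0 ≤ s * X ^ 3 := by positivity
  have a3 : 0 ≤ u * X * B := by positivity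
  have a4 : 0 ≤ X ^ 2 * B := by positivity
  have a5 : 0 ≤ B ^ 2 := by positivity
  have hA := gA hs0 hu hr0 hr1 hXs hg
  have hB1 := gB (by linarith only [hs]) hu hus he0 he1 hr0 hr1 hg hur hb hl1 hl3 hp hl
  have hC := gC hu hus hr0 hr1 hg hb hl1 hl2 hp
  have hD := gD hus hr0 hr1 (by linarith only [hs, hXs]) hg hb hl3 hl4 hl hl5
  have hE1 := gF (by linarith only [hs]) hu hus he0 he1 (c1 hr0 hr1) hXs hg hb hl3 hR1
  have hE2 := gF (by linarith only [hs]) hu hus he0 he1 (c2 hr0 hr1) hXs hg hb hl3 hR2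
  unfold Mn
  linarith only [a1, a2, a3, a4, a5, hA, hB1, hC, hD, hE1, hE2]

lemma Mn_lip {u e0 r T g G X H : ℝ} (hu : 0 ≤ u) (he0 : 0 ≤ e0) (he1 : e0 ≤ u ^ 2) (hr0 : 0 ≤ r)
    (hr1 : r ≤ 1) (hg : |g| ≤ X) (hG : |G| ≤ X) (hT : |T| ≤ X) (hur : u * r ≤ 2 * X)
    (hH : |g - G| ≤ H) : Mn u e0 r T g ≤ Mn u e0 r T G + 20 * ((u + X) * X * H) := by
  have hX : 0 ≤ X := (abs_nonneg _).trans hg
  have hH0 : 0 ≤ H := (abs_nonneg _).trans hH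
  have a1 : 0 ≤ u * X * H := by positivity
  have a2 : 0 ≤ X ^ 2 * H := by positivity
  have hU : |u| ≤ u := aof hu le_rfl
  have h2 := amul hH (aadd hg hG)
  have t1 := age (amul (rE hu he0 he1 hr0 hur) hH)
  have t2 := age (amul (amul hU (r2 hr0 hr1)) h2)
  have t3 := ale (amul (amul hU (rP hr0 hr1)) h2)
  have t4 := age (amul (r3 hr0 hr1)
    (amul hH (aadd (aadd (amul hg hg) (amul hg hG)) (amul hG hG))))
  have t5 := ale (amul (amul (r3 hr0 hr1) hT) h2)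
  unfold Mn
  linarith only [a1, a2, t1, t2, t3, t4, t5]

lemma Mn_neg {s u e0 r T G : ℝ} (hs0 : 0 ≤ s) (hu : 0 ≤ u) (he : 29 / 36 * u ^ 2 ≤ e0)
    (hr0 : 0 ≤ r) (hr1 : r ≤ 1) (hG : 0 ≤ G) (hT : T ≤ G - r * u + s * u)
    (hGu : G * (1 - r) ≤ 2 * u) :
    Mn u e0 r T G ≤ -(1 / 200) * ((u + G) * G ^ 2) + s * u * G ^ 2 := by
  have hr2 : 0 ≤ 1 - r ^ 2 := by have := pow_le_one₀ (n := 2) hr0 hr1; linarith
  have h1 := mul_le_mul_of_nonneg_left he (show 0 ≤ r * G by positivity)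
  have h2 := mul_le_mul_of_nonneg_left hT (show 0 ≤ (3 * r + r ^ 3) * G ^ 2 by positivity)
  have h3 := mul_le_mul_of_nonneg_right (ale (r3 hr0 hr1)) (show 0 ≤ s * u * G ^ 2 by positivity)
  have h4 := mul_le_mul_of_nonneg_left hGu (sq_nonneg G)
  have h5 : 0 ≤ (1 - r ^ 2) * (u * G ^ 2) := by positivity
  have h6 : 0 ≤ r * G * (u - 63 / 100 * r * G) ^ 2 := by positivity
  have h7 : 0 ≤ (1 - r ^ 2) * (r * G ^ 3) := by positivity
  have h8 : 0 ≤ r * G ^ 3 := by positivity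
  unfold Mn
  linarith only [h1, h2, h3, h4, h5, h6, h7, h8]

lemma n1 {s u G X H : ℝ} (hs0 : 0 ≤ s) (hs : s ≤ 1) (hu : 0 ≤ u) (hG : 0 ≤ G) (hH : 0 ≤ H)
    (hX : 0 ≤ X) (hXG : X ≤ G + H) (h1 : u + 3 * G + H ≤ 1) :
    s * (u + X) * X ^ 2 ≤ s * ((u + G) * G ^ 2) + 3 * ((u + G) * G * H) + H ^ 2 := by
  have a : s * (u + X) * X ^ 2 ≤ s * (u + (G + H)) * (G + H) ^ 2 := by gcongr
  have b1 := sm h1 (sq_nonneg H)
  have b2 : 0 ≤ u * G * H := by positivity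
  have b3 := sm hs (show 0 ≤ (u + G) * (2 * G * H + H ^ 2) + H * (G + H) ^ 2 by positivity)
  linarith only [a, b1, b2, b3]

lemma n2 {u G X H Y : ℝ} (hu : 0 ≤ u) (hG : 0 ≤ G) (hH : 0 ≤ H) (hY : 0 ≤ Y)
    (hX : 0 ≤ X) (hXG : X ≤ G + H) (h1 : u + 3 * G + H ≤ 1) :
    (u + X) * X * Y ≤ (u + G) * G * Y + (H ^ 2 + Y ^ 2) / 2 := by
  have a : (u + X) * X * Y ≤ (u + (G + H)) * (G + H) * Y := by gcongr
  have b1 := sm (show u + 2 * G + H ≤ 1 by linarith) (show 0 ≤ H * Y by positivity)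
  linarith only [a, b1, sq_nonneg (H - Y)]

lemma lamf {s u th lam e0 : ℝ} (hs : s ≤ 1 / 1000) (hu : 0 ≤ u) (hus : u ≤ s) (hth : 0 ≤ th)
    (h : |1 - th ^ 2 - u| ≤ s * u) (hl : e0 = th - lam) (he0 : 0 ≤ e0) (he1 : e0 ≤ u ^ 2) :
    0 ≤ lam ∧ lam ≤ 1 ∧ 1 - lam ≤ 2 * u ∧ lam ^ 2 - 1 + u ≤ s * u ∧ 1 - lam ^ 2 ≤ 2 * u := by
  have h1 := ale h
  have h2 := age h
  have h3 := mul_le_mul_of_nonneg_right hs hu
  have h4 := mul_le_mul_of_nonneg_right (hus.trans hs) hu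
  have h5 : th ≤ 1 := by nlinarith
  have h6 : 1 - th ≤ 1 - th ^ 2 := by nlinarith
  have h7 := sm h5 he0
  have h8 : 0 ≤ e0 * (2 * th - e0) := mul_nonneg he0 (by nlinarith)
  obtain rfl : lam = th - e0 := by linarith
  refine ⟨by nlinarith, by linarith, by nlinarith, by nlinarith, by nlinarith [sq_nonneg e0]⟩

lemma pf {e p : ℝ} (he0 : 0 ≤ e) (he : e ≤ 1 / 1000) (hp : p = 1 / (2 * (2 - e))) :
    1 ≤ 4 * p ∧ 4 * p ≤ 1 + e := by
  have h : p * (2 * (2 - e)) = 1 := by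
    rw [hp]; exact one_div_mul_cancel (by linarith)
  have h0 : 0 < p := by rw [hp]; apply one_div_pos.2; linarith
  have h1 : p ≤ 1 / 2 := by nlinarith
  constructor <;> nlinarith

lemma lf {s e p g T X : ℝ} (he0 : 0 ≤ e) (he : e ≤ 1 / 1000) (hes : 3 * e ≤ s) (h1 : 1 ≤ 4 * p)
    (h2 : 4 * p ≤ 1 + e) (hg : |g| ≤ X) (hT : |T| ≤ X) :
    |-(p ^ 2 * (2 * ((4 - e) * g - T)))| ≤ X ∧
      |-(p ^ 2 * (2 * ((4 - e) * g - T))) - (-g / 2 + T / 8)| ≤ s * X := by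
  have hX : 0 ≤ X := (abs_nonneg _).trans hg
  have a1 : 1 ≤ 16 * p ^ 2 := by nlinarith
  have a2 : 16 * p ^ 2 ≤ 1 + 3 * e := by nlinarith
  have a3 : 0 ≤ p ^ 2 * e := by positivity
  have a4 : p ^ 2 * e ≤ e / 8 := by nlinarith
  constructor
  · rw [abs_neg]
    have b1 : |p ^ 2| ≤ 1 / 10 := aof (sq_nonneg p) (by linarith)
    have b2 : |(2 : ℝ)| ≤ 2 := by norm_num
    have b3 : |4 - e| ≤ 4 := aof (by linarith) (by linarith)
    refine (amul b1 (amul b2 (asub (amul b3 hg) hT))).trans ?_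
    linarith
  · have b1 : |1 / 2 - 8 * p ^ 2 + 2 * p ^ 2 * e| ≤ 2 * e := abs_le.2 ⟨by linarith, by linarith⟩
    have b2 : |2 * p ^ 2 - 1 / 8| ≤ e := abs_le.2 ⟨by linarith, by linarith⟩
    have b3 := aadd (amul b1 hg) (amul b2 hT)
    have b4 := mul_le_mul_of_nonneg_right hes hX
    have b5 : -(p ^ 2 * (2 * ((4 - e) * g - T))) - (-g / 2 + T / 8) =
        (1 / 2 - 8 * p ^ 2 + 2 * p ^ 2 * e) * g + (2 * p ^ 2 - 1 / 8) * T := by ring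
    rw [b5]
    linarith

lemma sp_le {e0 lam e c g T b X : ℝ} (he0 : 0 ≤ e) (he : e ≤ 1 / 100) (hc : |c| ≤ 2)
    (hg : |g| ≤ X) (hT : |T| ≤ X) (hX : X ≤ 1 / 100) : ∃ R : ℝ, |R| ≤ 16 * X ^ 2 ∧
      Sp e0 lam (c * g) (e + c * T) (c * b) ≤
        -((c * g) ^ 2 / 4) + (c * g) ^ 3 / 3 + (c * g) ^ 4 + (e0 + c * b - lam * (c * g)) ^ 2 *
          (1 / (2 * (2 - e)) + c * -((1 / (2 * (2 - e))) ^ 2 * (2 * ((4 - e) * g - T))) + R) := by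
  have hw := amul hc hg
  obtain ⟨R, h1, -, h3⟩ := psi_exp he0 he hw (amul hc hT) (by linarith)
  refine ⟨R, by linarith, ?_⟩
  have h4 := phi_le (hw.trans (by linarith))
  unfold Sp
  rw [div_eq_mul_one_div ((e0 + c * b - lam * (c * g)) ^ 2), h3]
  generalize 1 / (2 * (2 - e)) = p
  linarith only [h4]

end Near

open Near in
theorem nearStmt : NearStmt := by
  refine ⟨7000, 1 / 1000000, by norm_num, by norm_num, ?_⟩
  intro s u e th lam e0 r A G g b hs hu0 hus he hes hth hthu hl hlo hhi hr0 hr1 hey hA hG hg hb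
  have hu := hu0.le
  have hs0 : 0 ≤ s := hu.trans hus
  have hs3 : s ≤ 1 / 1000 := by linarith
  have he0 : 0 ≤ e0 := le_trans (by positivity) hlo
  have hsu := mul_le_mul_of_nonneg_right hs3 hu
  have hsu2 := mul_le_mul_of_nonneg_left (hus.trans hs3) hs0
  have he3 : e ≤ 1 / 1000 := by linarith
  obtain ⟨T, hT⟩ : ∃ T, T = e * r / (1 - r ^ 2) := ⟨_, rfl⟩
  have hm : 0 < 1 - r := by linarith
  have hpl : 0 < 1 + r := by linarith
  have hr2 : 1 - r ^ 2 = (1 - r) * (1 + r) := by ring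
  have y1 : e / (1 + r) = e + -(1 - r) * T := by rw [hT, hr2]; field_simp; ring
  have y2 : e / (1 - r) = e + (1 + r) * T := by rw [hT, hr2]; field_simp; ring
  have hT0 : 0 ≤ T := by rw [hT, hr2]; positivity
  have hrT : 0 ≤ r * T := by positivity
  have hTs : T ≤ s := by linarith
  have hTe : (1 - r) * T ≤ e := by
    have : 0 ≤ e / (1 + r) := by positivity
    linarith
  rw [← hT] at hG
  have hru : 0 ≤ r * u := by positivity
  have hru1 := sm hr1.le hu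
  have hsur := mul_le_mul_of_nonneg_right hs3 hru
  have hsur1 := sm hr1.le (show 0 ≤ s * u by positivity)
  have hA1 := ale hA
  have hA2 := age hA
  have hA0 : 0 ≤ A := by linarith
  have hrA : 0 ≤ r * A := by positivity
  have hG0 : 0 ≤ G := by linarith
  have hGs : G ≤ 3 * s := by linarith
  have hGu : G * (1 - r) ≤ 2 * u := by rw [hG]; linarith
  have hTG : T ≤ G - r * u + s * u := by linarith
  obtain ⟨X, hX1, hX2, hX3, hX4⟩ : ∃ X, |g| ≤ X ∧ G ≤ X ∧ X ≤ G + |g - G| ∧ X ≤ 3 * s := by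
    refine ⟨max |g| G, le_max_left _ _, le_max_right _ _, max_le ?_ ?_, max_le (by linarith) hGs⟩
    · have := aadd (aof hG0 le_rfl) (le_refl |g - G|)
      rwa [add_sub_cancel] at this
    · linarith [abs_nonneg (g - G)]
  have hX0 : 0 ≤ X := hG0.trans hX2
  have hTX : |T| ≤ X := aof hT0 (by linarith)
  have hur : u * r ≤ 2 * X := by linarith
  have hH : |g - G| ≤ s + 3 * s := asub hg (aof hG0 hGs)
  have hone : u + 3 * G + |g - G| ≤ 1 := by linarith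
  obtain ⟨l0, l1, l2, l3, l4⟩ := lamf hs3 hu hus hth hthu hl he0 hhi
  obtain ⟨R1, hR1, S1⟩ := sp_le (e0 := e0) (lam := lam) (b := b) he.le (by linarith)
    (c1 hr0 hr1.le) hX1 hTX (by linarith)
  obtain ⟨R2, hR2, S2⟩ := sp_le (e0 := e0) (lam := lam) (b := b) he.le (by linarith)
    (c2 hr0 hr1.le) hX1 hTX (by linarith)
  have hee : e0 ^ 2 / (2 - e) = 2 * e0 ^ 2 * (1 / (2 * (2 - e))) := by
    have : 2 - e ≠ 0 := by linarith
    field_simp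
  obtain ⟨p, hp⟩ : ∃ p, p = 1 / (2 * (2 - e)) := ⟨_, rfl⟩
  rw [← hp] at S1 S2 hee
  obtain ⟨p1, p2⟩ := pf he.le he3 hp
  obtain ⟨q1, q2⟩ := lf (s := s) he.le he3 (by linarith) p1 p2 hX1 hTX
  have k1 := mul_le_mul_of_nonneg_right p1 l0
  have k2 := mul_le_mul_of_nonneg_right p2 l0
  have k3 := sm l1 he.le
  have k4 := mul_le_mul_of_nonneg_right p2 (sq_nonneg lam)
  have k5 : lam ^ 2 ≤ 1 := pow_le_one₀ l0 l1
  have k6 := sm k5 he.le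
  have k7 : 0 ≤ s * u := by positivity
  have hc := core (T := T) (p := p) (lam := lam) hs3 hu hus he0 hhi hr0 hr1.le hX4 hX1 hur (le_refl |b|)
    (abs_le.2 ⟨by linarith only [k2, k3, l1, hes, hsu, hu], by linarith only [k1, l2, hu]⟩)
    (by linarith only [k4, k6, l3, hes, k7]) (aof l0 l1)
    (abs_le.2 ⟨by linarith only [l4], by linarith only [k5, hu]⟩)
    (aof (by linarith only [p1]) (by linarith only [p2, he3])) q1 q2 hR1 hR2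
  have hlip := Mn_lip hu he0 hhi hr0 hr1.le hX1 (aof hG0 hX2) hTX hur (le_refl |g - G|)
  have hneg := Mn_neg hs0 hu hlo hr0 hr1.le hG0 hTG hGu
  have z1 := n1 hs0 (by linarith only [hs3]) hu hG0 (abs_nonneg _) hX0 hX3 hone
  have z2 := n2 hu hG0 (abs_nonneg _) (abs_nonneg b) hX0 hX3 hone
  have z3 := n2 hu hG0 (abs_nonneg _) (abs_nonneg (g - G)) hX0 hX3 hone
  have z4 := mul_le_mul_of_nonneg_right hs (show 0 ≤ (u + G) * G ^ 2 by positivity)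
  have z5 : 0 ≤ s * G ^ 3 := by positivity
  have z6 : 0 ≤ (u + G) * G ^ 2 := by positivity
  have z7 : 0 ≤ (u + G) * G * |b| := by positivity
  have z8 : 0 ≤ (u + G) * G * |g - G| := by positivity
  rw [y1, y2, hee, ← sq_abs b, ← sq_abs (g - G)]
  generalize -(p ^ 2 * (2 * ((4 - e) * g - T))) = l at S1 S2 hc
  generalize |b| = B at *
  generalize |g - G| = H at *
  have hN : Mn u e0 r T g + 2000 * (s * (u + X) * X ^ 2 + (u + X) * X * B + B ^ 2) ≤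
      -(1 / 400) * ((u + G) * G ^ 2) + 7000 * ((u + G) * G * (B + H) + B ^ 2 + H ^ 2) := by
    linarith only [hlip, hneg, z1, z2, z3, z4, z5, z6, z7, z8, sq_nonneg B, sq_nonneg H]
  refine le_trans ?_ (hc.trans hN)
  gcongr

end Vale.Agent.N150.Sm2
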