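import Vale.Agent.N150.SmK

/-! Low temperature, second moment: change of scale and the basic certificate. -/

open MeasureTheory ProbabilityTheory Filter Topology

namespace Vale.Agent.N150.Sm2

/-- density of the scaled Gaussian -/
noncomputable def rd (s x : ℝ) : ℝ := s⁻¹ * Real.exp ((1 - 1 / s ^ 2) / 2 * x ^ 2)

theorem rd_nonneg {s : ℝ} (hs : 0 < s) (x : ℝ) : 0 ≤ rd s x := by unfold rd; positivity

theorem rd_meas (s : ℝ) : Measurable fun x => ENNReal.ofReal (rd s x) := by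
  unfold rd; fun_prop

theorem map_scale {s : ℝ} (hs : 0 < s) :
    gam.map (fun x => s * x) = gam.withDensity fun x => ENNReal.ofReal (rd s x) := by
  have hv : NNReal.mk (s ^ 2) (sq_nonneg s) * 1 ≠ 0 := by
    rw [mul_one]
    intro h
    have h1 : s ^ 2 = 0 := congrArg NNReal.toReal h
    exact (pow_pos hs 2).ne' h1
  rw [gaussianReal_map_const_mul, gaussianReal_of_var_ne_zero _ hv,
    show gam = volume.withDensity (gaussianPDF 0 1) from gaussianReal_of_var_ne_zero _ one_ne_zero,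
    ← withDensity_mul _ (measurable_gaussianPDF _ _) (rd_meas s)]
  congr 1
  funext x
  rw [Pi.mul_apply, gaussianPDF, gaussianPDF,
    ← ENNReal.ofReal_mul (gaussianPDFReal_nonneg _ _ _)]
  congr 1
  simp only [gaussianPDFReal, rd, mul_zero, sub_zero, mul_one, NNReal.coe_mk, NNReal.coe_one]
  have h1 : √(2 * Real.pi * s ^ 2) = √(2 * Real.pi) * s := by
    rw [Real.sqrt_mul (by positivity), Real.sqrt_sq hs.le]
  have h2 : Real.exp (-x ^ 2 / (2 * s ^ 2)) =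
      Real.exp (-x ^ 2 / 2) * Real.exp ((1 - 1 / s ^ 2) / 2 * x ^ 2) := by
    rw [← Real.exp_add]
    congr 1
    field_simp
    ring
  rw [h1, h2, mul_inv]
  ring

theorem map_scale2 {s t : ℝ} (hs : 0 < s) (ht : 0 < t) :
    (gam.prod gam).map (fun p : ℝ × ℝ => (s * p.1, t * p.2)) =
      (gam.prod gam).withDensity fun p => ENNReal.ofReal (rd s p.1 * rd t p.2) := by
  have h1 := Measure.map_prod_map gam gam (f := fun x => s * x) (g := fun x => t * x)
    (by fun_prop) (by fun_prop)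
  rw [map_scale hs, map_scale ht, prod_withDensity (rd_meas s) (rd_meas t)] at h1
  refine Eq.trans (b := (gam.prod gam).map (Prod.map (fun x => s * x) fun x => t * x)) rfl ?_
  rw [← h1]
  congr 1
  funext p
  rw [ENNReal.ofReal_mul (rd_nonneg hs _)]

theorem scale2 {s t : ℝ} (hs : 0 < s) (ht : 0 < t) {F : ℝ × ℝ → ℝ} (hF : Continuous F)
    (hI : Integrable (fun p : ℝ × ℝ => F (s * p.1, t * p.2)) (gam.prod gam)) :
    Integrable (fun p => F p * (rd s p.1 * rd t p.2)) (gam.prod gam) ∧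
      ∫ p, F p * (rd s p.1 * rd t p.2) ∂(gam.prod gam) =
        ∫ p, F (s * p.1, t * p.2) ∂(gam.prod gam) := by
  have hm : Measurable fun p : ℝ × ℝ => (s * p.1, t * p.2) := by fun_prop
  have hd : Measurable fun p : ℝ × ℝ => ENNReal.ofReal (rd s p.1 * rd t p.2) := by
    unfold rd; fun_prop
  have hn : ∀ p : ℝ × ℝ, (ENNReal.ofReal (rd s p.1 * rd t p.2)).toReal = rd s p.1 * rd t p.2 :=
    fun p => ENNReal.toReal_ofReal (mul_nonneg (rd_nonneg hs _) (rd_nonneg ht _))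
  have hlt : ∀ᵐ p ∂(gam.prod gam), ENNReal.ofReal (rd s p.1 * rd t p.2) < ⊤ :=
    Eventually.of_forall fun p => ENNReal.ofReal_lt_top
  constructor
  · have h1 := (integrable_map_measure hF.aestronglyMeasurable hm.aemeasurable).2 hI
    rw [map_scale2 hs ht, integrable_withDensity_iff hd hlt] at h1
    simpa only [hn] using h1
  · rw [← integral_map hm.aemeasurable hF.aestronglyMeasurable, map_scale2 hs ht,
      integral_withDensity_eq_integral_toReal_smul hd hlt]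
    simp only [hn, smul_eq_mul, mul_comm]

theorem refl_mp {c s : ℝ} (h : c ^ 2 + s ^ 2 = 1) :
    MeasurePreserving (fun p : ℝ × ℝ => (s * p.1 + c * p.2, c * p.1 - s * p.2))
      (gam.prod gam) (gam.prod gam) := by
  have h1 := (rot h).comp (Measure.measurePreserving_swap (μ := gam) (ν := gam))
  have h2 : (fun p : ℝ × ℝ => (s * p.1 + c * p.2, c * p.1 - s * p.2)) =
      (fun p : ℝ × ℝ => (c * p.1 + s * p.2, -s * p.1 + c * p.2)) ∘ Prod.swap := by
    funext p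
    simp only [Function.comp, Prod.fst_swap, Prod.snd_swap, Prod.mk.injEq]
    constructor <;> ring
  rw [h2]
  exact h1

theorem mp_int {T : ℝ × ℝ → ℝ × ℝ} (hT : MeasurePreserving T (gam.prod gam) (gam.prod gam))
    {F : ℝ × ℝ → ℝ} (hF : Continuous F) (hI : Integrable (fun p => F (T p)) (gam.prod gam)) :
    Integrable F (gam.prod gam) ∧ ∫ p, F p ∂(gam.prod gam) = ∫ p, F (T p) ∂(gam.prod gam) := by
  refine ⟨(hT.integrable_comp hF.aestronglyMeasurable).1 hI, ?_⟩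
  rw [← integral_map hT.measurable.aemeasurable hF.aestronglyMeasurable, hT.map_eq]

theorem psi_cont {W : ℝ → ℝ} (hW : Continuous W) (A1 B1 C1 A2 B2 C2 : ℝ) :
    Continuous (psi W A1 B1 C1 A2 B2 C2) := by
  unfold psi; fun_prop

/-- change of the reference variances of the two sectors -/
theorem scale_psi {W : ℝ → ℝ} (hW : Continuous W) {c d : ℝ} (hc : 0 < c) (hd : 0 < d)
    (A1 B1 C1 A2 B2 C2 : ℝ)
    (hI : Integrable (fun p : ℝ × ℝ => Real.exp (psi W A1 B1 C1 A2 B2 C2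
      (c * p.1 + d * p.2, c * p.1 - d * p.2))) (gam.prod gam)) :
    Integrable (fun p => Real.exp (psi W (A1 + (1 - 1 / (2 * c ^ 2)) / 2) B1 C1
      (A2 + (1 - 1 / (2 * d ^ 2)) / 2) B2 C2 p)) (gam.prod gam) ∧
    ∫ p, Real.exp (psi W (A1 + (1 - 1 / (2 * c ^ 2)) / 2) B1 C1
      (A2 + (1 - 1 / (2 * d ^ 2)) / 2) B2 C2 p) ∂(gam.prod gam) =
      2 * c * d * ∫ p, Real.exp (psi W A1 B1 C1 A2 B2 C2
        (c * p.1 + d * p.2, c * p.1 - d * p.2)) ∂(gam.prod gam) := by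
  obtain ⟨r, hr⟩ : ∃ r : ℝ, r = √(1 / 2) := ⟨_, rfl⟩
  have hr0 : 0 < r := by rw [hr]; positivity
  have hr2 : r ^ 2 = 1 / 2 := by rw [hr, Real.sq_sqrt (by norm_num)]
  have hs : 0 < c / r := by positivity
  have ht : 0 < d / r := by positivity
  have hF : Continuous fun p : ℝ × ℝ => Real.exp (psi W A1 B1 C1 A2 B2 C2
      (r * p.1 + r * p.2, r * p.1 - r * p.2)) :=
    Real.continuous_exp.comp ((psi_cont hW _ _ _ _ _ _).comp (by fun_prop))
  have e1 : ∀ x, r * (c / r * x) = c * x := fun x => by field_simp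
  have e2 : ∀ x, r * (d / r * x) = d * x := fun x => by field_simp
  obtain ⟨h1, h2⟩ := scale2 hs ht hF (by simpa only [e1, e2] using hI)
  simp only [e1, e2] at h2
  have key : ∀ p : ℝ × ℝ, Real.exp (psi W (A1 + (1 - 1 / (2 * c ^ 2)) / 2) B1 C1
      (A2 + (1 - 1 / (2 * d ^ 2)) / 2) B2 C2 (r * p.1 + r * p.2, r * p.1 - r * p.2)) =
      2 * c * d * (Real.exp (psi W A1 B1 C1 A2 B2 C2 (r * p.1 + r * p.2, r * p.1 - r * p.2)) *
        (rd (c / r) p.1 * rd (d / r) p.2)) := by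
    intro p
    have e3 : (c / r) ^ 2 = 2 * c ^ 2 := by rw [div_pow, hr2]; ring
    have e4 : (d / r) ^ 2 = 2 * d ^ 2 := by rw [div_pow, hr2]; ring
    have e5 : 2 * c * d * ((c / r)⁻¹ * (d / r)⁻¹) = 1 := by
      have : (c / r)⁻¹ * (d / r)⁻¹ = r ^ 2 / (c * d) := by field_simp
      rw [this, hr2]
      field_simp
    have e6 : psi W (A1 + (1 - 1 / (2 * c ^ 2)) / 2) B1 C1
        (A2 + (1 - 1 / (2 * d ^ 2)) / 2) B2 C2 (r * p.1 + r * p.2, r * p.1 - r * p.2) =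
        psi W A1 B1 C1 A2 B2 C2 (r * p.1 + r * p.2, r * p.1 - r * p.2) +
          ((1 - 1 / (2 * c ^ 2)) / 2 * p.1 ^ 2 + (1 - 1 / (2 * d ^ 2)) / 2 * p.2 ^ 2) := by
      simp only [psi]
      linear_combination (2 * ((1 - 1 / (2 * c ^ 2)) / 2) * p.1 ^ 2 +
        2 * ((1 - 1 / (2 * d ^ 2)) / 2) * p.2 ^ 2) * hr2
    rw [e6, Real.exp_add, Real.exp_add, rd, rd, e3, e4]
    linear_combination (-(Real.exp (psi W A1 B1 C1 A2 B2 C2
      (r * p.1 + r * p.2, r * p.1 - r * p.2)) * (Real.exp ((1 - 1 / (2 * c ^ 2)) / 2 * p.1 ^ 2) *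
      Real.exp ((1 - 1 / (2 * d ^ 2)) / 2 * p.2 ^ 2)))) * e5
  obtain ⟨h3, h4⟩ := mp_int (refl_mp (c := r) (s := r) (by rw [hr2]; norm_num))
    (F := fun p => Real.exp (psi W (A1 + (1 - 1 / (2 * c ^ 2)) / 2) B1 C1
      (A2 + (1 - 1 / (2 * d ^ 2)) / 2) B2 C2 p))
    (Real.continuous_exp.comp (psi_cont hW _ _ _ _ _ _))
    (by simpa only [key] using h1.const_mul (2 * c * d))
  refine ⟨h3, ?_⟩
  rw [h4]
  simp only [key]
  rw [integral_const_mul, h2]

/-- the certificate at one value of the statistics -/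
def CertAt (eps lam th : ℝ) (W : ℝ → ℝ) (X1 k1 Q1 X2 k2 Q2 : ℝ) : Prop :=
  ∃ A1 B1 C1 A2 B2 C2 l : ℝ,
    Integrable (fun p => Real.exp (psi W A1 B1 C1 A2 B2 C2 p)) (gam.prod gam) ∧
    ∫ p, Real.exp (psi W A1 B1 C1 A2 B2 C2 p) ∂(gam.prod gam) ≤ Real.exp l ∧
    l - (A1 * X1 + B1 * k1 + C1 * Q1 + A2 * X2 + B2 * k2 + C2 * Q2) +
      gE eps lam X1 k1 Q1 + gE eps lam X2 k2 Q2 - 2 * gE eps lam 1 th (1 - eps ^ 2) ≤ 0

theorem CertAt.swap {eps lam th : ℝ} {W : ℝ → ℝ} (hW : Continuous W) (ho : ∀ z, W (-z) = -W z)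
    {X1 k1 Q1 X2 k2 Q2 : ℝ} (h : CertAt eps lam th W X2 k2 Q2 X1 k1 Q1) :
    CertAt eps lam th W X1 k1 Q1 X2 k2 Q2 := by
  obtain ⟨A1, B1, C1, A2, B2, C2, l, h1, h2, h3⟩ := h
  have key : ∀ p : ℝ × ℝ, psi W A2 B2 C2 A1 B1 C1 (1 * p.1 + 0 * p.2, 0 * p.1 - 1 * p.2) =
      psi W A1 B1 C1 A2 B2 C2 p := by
    intro p
    simp only [psi, one_mul, zero_mul, add_zero, zero_sub, ho]
    ring
  obtain ⟨h4, h5⟩ := mp_int (refl_mp (c := 0) (s := 1) (by norm_num))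
    (F := fun p => Real.exp (psi W A2 B2 C2 A1 B1 C1 p))
    (Real.continuous_exp.comp (psi_cont hW _ _ _ _ _ _)) (by simpa only [key] using h1)
  simp only [key] at h5
  exact ⟨A2, B2, C2, A1, B1, C1, l, h4, h5.le.trans h2, by linarith⟩

theorem gE_one (eps lam th : ℝ) :
    2 * gE eps lam 1 th (1 - eps ^ 2) = -1 + (th - lam) ^ 2 / (2 - eps ^ 2) := by
  unfold gE
  rw [show 1 - eps ^ 2 + eps ^ 2 = (1 : ℝ) by ring, Real.log_one,
    show 2 * 1 * (2 * (1 - eps ^ 2) + eps ^ 2) = 2 * (2 - eps ^ 2) by ring,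
    ← div_div ((th - lam * 1) ^ 2)]
  ring

theorem cert_base {eps lam th : ℝ} {W : ℝ → ℝ} (hW : Continuous W) {c d s1 s2 : ℝ} (hc : 0 < c)
    (hd : 0 < d) (h1 : s1 = 2 * c ^ 2) (h2 : s2 = 2 * d ^ 2) {X1 k1 Q1 X2 k2 Q2 : ℝ}
    (hX : X1 + X2 = 2) (A1 B1 C1 A2 B2 C2 l0 M : ℝ) {Y : ℝ × ℝ → ℝ}
    (hY : ∀ p : ℝ × ℝ,
      Y p = psi W A1 B1 C1 A2 B2 C2 (c * p.1 + d * p.2, c * p.1 - d * p.2) + l0)
    (hI : Integrable (fun p => Real.exp (Y p)) (gam.prod gam))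
    (hM : ∫ p, Real.exp (Y p) ∂(gam.prod gam) ≤ Real.exp M)
    (h : (1 / 2 * Real.log s1 + X1 / (2 * s1) + gE eps lam X1 k1 Q1) +
      (1 / 2 * Real.log s2 + X2 / (2 * s2) + gE eps lam X2 k2 Q2) -
      (l0 + (A1 * X1 + B1 * k1 + C1 * Q1 + A2 * X2 + B2 * k2 + C2 * Q2)) + M ≤
      (th - lam) ^ 2 / (2 - eps ^ 2)) :
    CertAt eps lam th W X1 k1 Q1 X2 k2 Q2 := by
  have e1 : ∀ p : ℝ × ℝ, Real.exp (psi W A1 B1 C1 A2 B2 C2
      (c * p.1 + d * p.2, c * p.1 - d * p.2)) = Real.exp (-l0) * Real.exp (Y p) := by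
    intro p
    rw [hY, ← Real.exp_add]
    congr 1
    ring
  obtain ⟨h3, h4⟩ := scale_psi hW hc hd A1 B1 C1 A2 B2 C2
    (by simpa only [e1] using hI.const_mul (Real.exp (-l0)))
  have e2 : Real.exp (1 / 2 * Real.log s1 + 1 / 2 * Real.log s2) = 2 * c * d := by
    have e3 : 1 / 2 * Real.log s1 + 1 / 2 * Real.log s2 = Real.log (2 * c * d) := by
      have e4 : s1 * s2 = (2 * c * d) ^ 2 := by rw [h1, h2]; ring
      have e5 := congrArg Real.log e4
      rw [Real.log_mul (by rw [h1]; positivity) (by rw [h2]; positivity), Real.log_pow] at e5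
      push_cast at e5
      linarith
    rw [e3, Real.exp_log (by positivity)]
  refine ⟨_, _, _, _, _, _, 1 / 2 * Real.log s1 + 1 / 2 * Real.log s2 + (-l0 + M), h3, ?_, ?_⟩
  · rw [h4, Real.exp_add, e2, Real.exp_add]
    simp only [e1]
    rw [integral_const_mul]
    gcongr
  · rw [gE_one, ← h1, ← h2]
    have e3 : X1 / (2 * s1) = 1 / s1 / 2 * X1 := by ring
    have e4 : X2 / (2 * s2) = 1 / s2 / 2 * X2 := by ring
    rw [e3, e4] at h
    linarith

end Vale.Agent.N150.Sm2
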