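import Vale.Agent.N150.SmMain
import Vale.Agent.N150.SmNear2

/-! Low temperature, second moment: the theorem. -/

namespace Vale.Agent.N150.Sm2

theorem twoM : TwoMStmt := twoM_near Nq.nearStmt

theorem twoMW : TwoMWStmt := twoM.weak

end Vale.Agent.N150.Sm2
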