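import Vale.Agent.P150.Bdl.B3
import Vale.Agent.N150.Tail

/-! P150, block T1, lemma G4: Bernstein bound with an envelope, one site Gaussian calculus. -/

open MeasureTheory ProbabilityTheory Real Set Filter Topology
open Vale.Agent.P150 Vale.Agent.P150.F

namespace Vale.Agent.N150.Stein

/-! ### Bernstein with an envelope -/

theorem exp_le_quad (u : ℝ) : exp u ≤ 1 + u + u ^ 2 * exp |u| := by
  rcases le_total 0 u with h | h
  · rw [abs_of_nonneg h]
    have h1 : 1 - u ≤ exp (-u) := by linarith [add_one_le_exp (-u)]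
    have h2 : exp (-u) * exp u = 1 := by rw [← exp_add]; simp
    have h3 : exp u - 1 ≤ u * exp u := by nlinarith [exp_pos u]
    nlinarith [mul_le_mul_of_nonneg_left h3 h]
  · have h1 : 1 - u ≤ exp (-u) := by linarith [add_one_le_exp (-u)]
    have h2 : exp (-u) * exp u = 1 := by rw [← exp_add]; simp
    have h3 : (1 - u) * exp u ≤ 1 := by nlinarith [exp_pos u]
    have h4 : 1 ≤ exp |u| := one_le_exp (abs_nonneg u)
    have h5 : exp u ≤ 1 + u + u ^ 2 := by
      by_contra hc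
      have hc := not_le.1 hc
      have h6 : (1 - u) * (1 + u + u ^ 2) < (1 - u) * exp u :=
        mul_lt_mul_of_pos_left hc (by linarith)
      have h7 : 0 ≤ -u * u ^ 2 := mul_nonneg (by linarith) (sq_nonneg u)
      nlinarith
    nlinarith [sq_nonneg u]

theorem sq_le_exp {t : ℝ} (ht : 0 ≤ t) : t ^ 2 ≤ 128 * exp (t / 8) := by
  have h := quadratic_le_exp_of_nonneg (x := t / 8) (by positivity)
  nlinarith

theorem le_exp_div {t : ℝ} : t ≤ 8 * exp (t / 8) := by
  linarith [add_one_le_exp (t / 8)]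

section Env
variable {Ω : Type*} [MeasurableSpace Ω] {μ : Measure Ω} [IsProbabilityMeasure μ]
  {N : Ω → ℝ} {κ : ℝ}

/-- an envelope: a nonnegative function with an exponential moment -/
structure Env (μ : Measure Ω) (N : Ω → ℝ) (κ : ℝ) : Prop where
  nn : ∀ w, 0 ≤ N w
  int : Integrable (fun w => exp (N w / 4)) μ
  le : ∫ w, exp (N w / 4) ∂μ ≤ κ

theorem Env.pos (h : Env μ N κ) : 0 < κ := by
  have h1 : ∫ _w, (1 : ℝ) ∂μ ≤ ∫ w, exp (N w / 4) ∂μ :=
    integral_mono (integrable_const _) h.int fun w => one_le_exp (by have := h.nn w; positivity)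
  simp only [integral_const, probReal_univ, smul_eq_mul, mul_one] at h1
  linarith [h.le]

omit [IsProbabilityMeasure μ] in
theorem Env.le_exp (h : Env μ N κ) (w : Ω) : N w ≤ 8 * exp (N w / 4) := by
  have h1 : exp (N w / 8) ≤ exp (N w / 4) := exp_le_exp.2 (by have := h.nn w; linarith)
  linarith [le_exp_div (t := N w)]

omit [IsProbabilityMeasure μ] in
theorem Env.of_exp (h : Env μ N κ) {Y : Ω → ℝ} (hY : Measurable Y) {c : ℝ}
    (hb : ∀ w, |Y w| ≤ c * exp (N w / 4)) : Integrable Y μ :=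
  (h.int.const_mul c).mono' hY.aestronglyMeasurable (Eventually.of_forall hb)

omit [IsProbabilityMeasure μ] in
theorem Env.integrable (h : Env μ N κ) {Y : Ω → ℝ} (hY : Measurable Y) {c : ℝ} (hc : 0 ≤ c)
    (hb : ∀ w, |Y w| ≤ c * N w) : Integrable Y μ :=
  h.of_exp hY (c := c * 8) fun w => (hb w).trans (by
    rw [mul_assoc]; exact mul_le_mul_of_nonneg_left (h.le_exp w) hc)

theorem Env.mgf (h : Env μ N κ) {Y : Ω → ℝ} (hY : Measurable Y) {c l : ℝ} (hc : 0 ≤ c)
    (hb : ∀ w, |Y w| ≤ c * N w) (hl : 0 ≤ l) (hl1 : l * (8 * c) ≤ 1) :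
    Integrable (fun w => exp (l * (Y w - ∫ v, Y v ∂μ))) μ ∧
      ∫ w, exp (l * (Y w - ∫ v, Y v ∂μ)) ∂μ ≤ exp (l ^ 2 * (128 * κ * c ^ 2)) := by
  have hu : ∀ w, |l * Y w| ≤ l * c * N w := fun w => by
    rw [abs_mul, abs_of_nonneg hl, mul_assoc]; exact mul_le_mul_of_nonneg_left (hb w) hl
  have hu8 : ∀ w, |l * Y w| ≤ N w / 8 := fun w => (hu w).trans (by nlinarith [h.nn w])
  have hi : Integrable (fun w => exp (l * Y w)) μ :=
    h.of_exp (by fun_prop) (c := 1) fun w => by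
      rw [abs_of_pos (exp_pos _), one_mul]
      exact exp_le_exp.2 (by linarith [le_abs_self (l * Y w), hu8 w, h.nn w])
  have hYi := h.integrable hY hc hb
  have e : (fun w => exp (l * (Y w - ∫ v, Y v ∂μ))) =
      fun w => exp (-(l * ∫ v, Y v ∂μ)) * exp (l * Y w) := by
    funext w; rw [← exp_add]; congr 1; ring
  rw [e]
  refine ⟨hi.const_mul _, ?_⟩
  have hp : ∀ w, exp (l * Y w) ≤ 1 + l * Y w + l ^ 2 * (128 * c ^ 2) * exp (N w / 4) := by
    intro w
    refine (exp_le_quad _).trans ?_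
    have h1 : (l * Y w) ^ 2 ≤ (l * c * N w) ^ 2 := by
      rw [← sq_abs (l * Y w)]; exact pow_le_pow_left₀ (abs_nonneg _) (hu w) 2
    have h2 : exp |l * Y w| ≤ exp (N w / 8) := exp_le_exp.2 (hu8 w)
    have h3 := sq_le_exp (h.nn w)
    have h4 : exp (N w / 8) * exp (N w / 8) = exp (N w / 4) := by rw [← exp_add]; congr 1; ring
    have h5 : (l * Y w) ^ 2 * exp |l * Y w| ≤ (l * c * N w) ^ 2 * exp (N w / 8) :=
      mul_le_mul h1 h2 (exp_pos _).le (sq_nonneg _)
    have h6 : (l * c) ^ 2 * (N w ^ 2 * exp (N w / 8)) ≤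
        (l * c) ^ 2 * (128 * exp (N w / 8) * exp (N w / 8)) :=
      mul_le_mul_of_nonneg_left (mul_le_mul_of_nonneg_right h3 (exp_pos _).le) (sq_nonneg _)
    rw [mul_assoc 128, h4] at h6
    nlinarith
  have h1 : ∫ w, exp (l * Y w) ∂μ ≤ 1 + l * ∫ v, Y v ∂μ + l ^ 2 * (128 * c ^ 2) * κ := by
    have i1 : Integrable (fun w => 1 + l * Y w) μ := (integrable_const 1).add (hYi.const_mul l)
    have i2 : Integrable (fun w => 1 + l * Y w + l ^ 2 * (128 * c ^ 2) * exp (N w / 4)) μ :=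
      i1.add (h.int.const_mul _)
    refine (integral_mono hi i2 hp).trans ?_
    rw [integral_add i1 (h.int.const_mul _), integral_add (integrable_const 1) (hYi.const_mul l), integral_const_mul, integral_const_mul]
    simp only [integral_const, probReal_univ, smul_eq_mul, mul_one]
    have := mul_le_mul_of_nonneg_left h.le (by positivity : 0 ≤ l ^ 2 * (128 * c ^ 2))
    linarith
  rw [integral_const_mul]
  have h2 := add_one_le_exp (l * ∫ v, Y v ∂μ + l ^ 2 * (128 * κ * c ^ 2))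
  have h3 : exp (l ^ 2 * (128 * κ * c ^ 2)) = exp (-(l * ∫ v, Y v ∂μ)) *
      exp (l * ∫ v, Y v ∂μ + l ^ 2 * (128 * κ * c ^ 2)) := by
    rw [← exp_add]; congr 1; ring
  rw [h3]
  exact mul_le_mul_of_nonneg_left (by linarith) (exp_pos _).le

/-- Bernstein bound for a sum over independent sites, upper tail -/
theorem Env.tail (h : Env μ N κ) {σ : Type*} [Fintype σ] {Y : σ → Ω → ℝ}
    (hY : ∀ r, Measurable (Y r)) {c M x : ℝ} (hc : 0 < c) (hb : ∀ r w, |Y r w| ≤ c * N w)
    (hM : (Fintype.card σ : ℝ) ≤ M) (hM0 : 0 < M) (hx : 0 ≤ x) :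
    (Measure.pi fun _ : σ => μ).real {ω | 2 * √(128 * κ * c ^ 2 * M * x) + 8 * c * x ≤
      ∑ r, (Y r (ω r) - ∫ v, Y r v ∂μ)} ≤ exp (-x) := by
  have hκ := h.pos
  refine Tail.subgamma _ (by positivity) (by positivity) hx fun l hl hl1 => ?_
  simp_rw [Finset.mul_sum, exp_sum]
  refine ⟨Integrable.fintype_prod (μ := fun _ => μ)
    (f := fun r w => exp (l * (Y r w - ∫ v, Y r v ∂μ)))
    fun r => (h.mgf (hY r) hc.le (hb r) hl hl1).1, ?_⟩
  rw [integral_fintype_prod_eq_prod (μ := fun _ => μ)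
    (f := fun r w => exp (l * (Y r w - ∫ v, Y r v ∂μ)))]
  refine (Finset.prod_le_prod (fun r _ => integral_nonneg fun w => (exp_pos _).le)
    fun r _ => (h.mgf (hY r) hc.le (hb r) hl hl1).2).trans ?_
  rw [Finset.prod_const, Finset.card_univ, ← exp_nat_mul]
  refine exp_le_exp.2 ?_
  have := mul_le_mul_of_nonneg_right hM (by positivity : 0 ≤ l ^ 2 * (128 * κ * c ^ 2))
  linarith

/-- two sided form -/
theorem Env.tail_abs (h : Env μ N κ) {σ : Type*} [Fintype σ] {Y : σ → Ω → ℝ}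
    (hY : ∀ r, Measurable (Y r)) {c M x : ℝ} (hc : 0 < c) (hb : ∀ r w, |Y r w| ≤ c * N w)
    (hM : (Fintype.card σ : ℝ) ≤ M) (hM0 : 0 < M) (hx : 0 ≤ x) :
    (Measure.pi fun _ : σ => μ).real {ω | 2 * √(128 * κ * c ^ 2 * M * x) + 8 * c * x ≤
      |∑ r, (Y r (ω r) - ∫ v, Y r v ∂μ)|} ≤ 2 * exp (-x) := by
  have h1 := h.tail hY hc hb hM hM0 hx
  have h2 := h.tail (Y := fun r w => -Y r w) (fun r => (hY r).neg) hc
    (fun r w => by rw [abs_neg]; exact hb r w) hM hM0 hx
  refine ((Tail.real_or_le _ (fun ω hω => ?_)).trans (add_le_add h1 h2)).trans (by linarith)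
  rcases le_abs.1 hω with h3 | h3
  · exact Or.inl h3
  · refine Or.inr (h3.trans (le_of_eq ?_))
    rw [← Finset.sum_neg_distrib]
    exact Finset.sum_congr rfl fun r _ => by rw [integral_neg]; ring

end Env

end Vale.Agent.N150.Stein
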