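import Vale.Agent.N150.Stein1

/-! P150, block T1, lemma G4: the five means at one site. -/

open MeasureTheory ProbabilityTheory Real Set Filter Topology
open Vale.Agent.P150 Vale.Agent.P150.F

namespace Vale.Agent.N150.Stein

theorem stein_int {ι : Type*} [Fintype ι] [DecidableEq ι] (k : ι) {G G' : (ι → ℝ) → ℝ}
    (hd : ∀ x, HasDerivAt (fun t => G (Function.update x k t)) (G' x) (x k))
    (h1 : Integrable (fun x : ι → ℝ => x k * G x) (gpi ι)) (h2 : Integrable G' (gpi ι))
    (h3 : Integrable G (gpi ι)) :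
    ∫ x, x k * G x ∂(gpi ι) = ∫ x, G' x ∂(gpi ι) := by
  have mp := measurePreserving_update (fun _ : ι => gaussianReal 0 1) k
  have slice : ∀ {f : (ι → ℝ) → ℝ}, Integrable f (gpi ι) →
      ∀ᵐ x ∂(gpi ι), Integrable (fun t => f (Function.update x k t)) (gaussianReal 0 1) := by
    intro f hf
    exact (mp.integrable_comp_of_integrable hf).prod_right_ae
  rw [integral_update _ k h1, integral_update _ k h2]
  refine integral_congr_ae ?_
  filter_upwards [slice h1, slice h2, slice h3] with x s1 s2 s3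
  simp only [Function.update_self] at s1 ⊢
  refine stein_one (g := fun t => G (Function.update x k t))
    (g' := fun t => G' (Function.update x k t)) (fun t => ?_) s1 s2 s3
  have := hd (Function.update x k t)
  simpa using this

variable {p : ℕ}

/-- a row with the constant `1` in front -/
def ht (γ : Fin p → ℝ) : Fin (p + 1) → ℝ := Fin.cons 1 γ
/-- the envelope -/
def NN (γ : Fin p → ℝ) : ℝ := ∑ l, ht γ l ^ 2
/-- the field at one site -/
def hh (al : Fin (p + 1) → ℝ) (γ : Fin p → ℝ) : ℝ := ∑ l, al l * ht γ l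
/-- the constant of the envelope -/
noncomputable def kp (p : ℕ) : ℝ := exp (p + 1)
/-- one site means -/
noncomputable def mn (al : Fin (p + 1) → ℝ) (i j : Fin (p + 1)) (F : ℝ → ℝ) : ℝ :=
  ∫ γ, ht γ i * ht γ j * F (hh al γ) ∂gpi (Fin p)

@[simp] theorem ht_zero (γ : Fin p → ℝ) : ht γ 0 = 1 := rfl
@[simp] theorem ht_succ (γ : Fin p → ℝ) (l : Fin p) : ht γ l.succ = γ l := by simp [ht]

theorem measurable_ht (i : Fin (p + 1)) : Measurable fun γ : Fin p → ℝ => ht γ i := by
  induction i using Fin.cases with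
  | zero => exact measurable_const
  | succ l => simp only [ht_succ]; exact measurable_pi_apply l

theorem measurable_hh (al : Fin (p + 1) → ℝ) : Measurable (hh al) :=
  Finset.measurable_sum _ fun l _ => (measurable_ht l).const_mul _

theorem measurable_NN : Measurable (NN (p := p)) :=
  Finset.measurable_sum _ fun l _ => (measurable_ht l).pow_const _

theorem NN_eq (γ : Fin p → ℝ) : NN γ = 1 + ∑ l, γ l ^ 2 := by
  simp [NN, Fin.sum_univ_succ]

theorem hh_eq (al : Fin (p + 1) → ℝ) (γ : Fin p → ℝ) :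
    hh al γ = al 0 + ∑ l, al l.succ * γ l := by
  simp [hh, Fin.sum_univ_succ]

theorem one_le_NN (γ : Fin p → ℝ) : 1 ≤ NN γ := by
  rw [NN_eq]; linarith [Finset.sum_nonneg fun l (_ : l ∈ Finset.univ) => sq_nonneg (γ l)]

theorem ht_sq_le (γ : Fin p → ℝ) (i : Fin (p + 1)) : ht γ i ^ 2 ≤ NN γ :=
  Finset.single_le_sum (f := fun l => ht γ l ^ 2) (fun _ _ => sq_nonneg _) (Finset.mem_univ i)

theorem ht_mul_le (γ : Fin p → ℝ) (i j : Fin (p + 1)) : |ht γ i * ht γ j| ≤ NN γ := by
  have h1 := ht_sq_le γ i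
  have h2 := ht_sq_le γ j
  rw [abs_le]
  constructor <;> nlinarith [sq_nonneg (ht γ i + ht γ j), sq_nonneg (ht γ i - ht γ j)]

theorem hh_sq_le {al : Fin (p + 1) → ℝ} {σ : ℝ} (h : ∑ l, al l ^ 2 ≤ σ ^ 2) (γ : Fin p → ℝ) :
    hh al γ ^ 2 ≤ σ ^ 2 * NN γ :=
  (Finset.sum_mul_sq_le_sq_mul_sq _ _ _).trans
    (mul_le_mul_of_nonneg_right h (zero_le_one.trans (one_le_NN γ)))

theorem one_le_kp : 1 ≤ kp p := one_le_exp (by positivity)

theorem env : Env (gpi (Fin p)) NN (kp p) := by
  have e : (fun γ : Fin p → ℝ => exp (NN γ / 4)) =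
      fun γ => exp (1 / 4) * exp (∑ l, (1 / 4 : ℝ) * γ l ^ 2) := by
    funext γ
    rw [← exp_add, NN_eq, ← Finset.mul_sum]; congr 1; ring
  refine ⟨fun γ => zero_le_one.trans (one_le_NN γ), ?_, ?_⟩
  · rw [e]; exact (Tail.quad_int (fun _ => 1 / 4) fun _ => by norm_num).const_mul _
  · rw [e, integral_const_mul, Tail.quad_mgf (fun _ => 1 / 4) fun _ => by norm_num,
      Finset.prod_const, Finset.card_univ, Fintype.card_fin]
    have h1 : (√(1 - 2 * (1 / 4 : ℝ)))⁻¹ ≤ exp 1 :=
      (Tail.inv_sqrt_le' (by norm_num)).trans (exp_le_exp.2 (by norm_num))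
    have h2 := pow_le_pow_left₀ (inv_nonneg.2 (sqrt_nonneg _)) h1 p
    rw [← exp_nat_mul, mul_one] at h2
    rw [kp, exp_add, mul_comm]
    exact mul_le_mul h2 (exp_le_exp.2 (by norm_num)) (exp_pos _).le (exp_pos _).le

theorem abs_int_le {Y : (Fin p → ℝ) → ℝ} (hY : Measurable Y) {c : ℝ} (hc : 0 ≤ c)
    (hb : ∀ γ, |Y γ| ≤ c * exp (NN γ / 4)) : |∫ γ, Y γ ∂gpi (Fin p)| ≤ c * kp p := by
  refine (abs_integral_le_integral_abs).trans ?_
  refine (integral_mono (env.of_exp hY hb).abs (env.int.const_mul c) hb).trans ?_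
  rw [integral_const_mul]
  exact mul_le_mul_of_nonneg_left env.le hc

theorem abs_int_le' {Y : (Fin p → ℝ) → ℝ} (hY : Measurable Y) {c : ℝ} (hc : 0 ≤ c)
    (hb : ∀ γ, |Y γ| ≤ c * NN γ) : |∫ γ, Y γ ∂gpi (Fin p)| ≤ c * (8 * kp p) := by
  rw [← mul_assoc]
  exact abs_int_le hY (by positivity) fun γ => (hb γ).trans (by
    rw [mul_assoc]; exact mul_le_mul_of_nonneg_left (env.le_exp γ) hc)

theorem measurable_term (al : Fin (p + 1) → ℝ) (i j : Fin (p + 1)) {F : ℝ → ℝ}
    (hF : Measurable F) : Measurable fun γ => ht γ i * ht γ j * F (hh al γ) :=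
  ((measurable_ht i).mul (measurable_ht j)).mul (hF.comp (measurable_hh al))

theorem term_le (al : Fin (p + 1) → ℝ) (i j : Fin (p + 1)) {F : ℝ → ℝ} {c : ℝ}
    (hb : ∀ t, |F t| ≤ c) (γ : Fin p → ℝ) : |ht γ i * ht γ j * F (hh al γ)| ≤ c * NN γ := by
  rw [abs_mul, mul_comm]
  exact mul_le_mul (hb _) (ht_mul_le γ i j) (abs_nonneg _) ((abs_nonneg _).trans (hb 0))

theorem integrable_term (al : Fin (p + 1) → ℝ) (i j : Fin (p + 1)) {F : ℝ → ℝ}
    (hF : Measurable F) {c : ℝ} (hb : ∀ t, |F t| ≤ c) :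
    Integrable (fun γ => ht γ i * ht γ j * F (hh al γ)) (gpi (Fin p)) :=
  env.integrable (measurable_term al i j hF) ((abs_nonneg _).trans (hb 0)) (term_le al i j hb)

theorem mn_comm (al : Fin (p + 1) → ℝ) (i j : Fin (p + 1)) (F : ℝ → ℝ) :
    mn al i j F = mn al j i F := by
  unfold mn; simp_rw [mul_comm (ht _ i)]

theorem mn_smul (al : Fin (p + 1) → ℝ) (i j : Fin (p + 1)) (c : ℝ) (F : ℝ → ℝ) :
    mn al i j (fun t => c * F t) = c * mn al i j F := by
  unfold mn
  rw [← integral_const_mul]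
  exact integral_congr_ae (ae_of_all _ fun γ => by ring)

theorem ht_update (γ : Fin p → ℝ) (l : Fin p) (t : ℝ) (j : Fin (p + 1)) :
    ht (Function.update γ l t) j = ht γ j + (if j = l.succ then 1 else 0) * (t - γ l) := by
  induction j using Fin.cases with
  | zero => simp [(Fin.succ_ne_zero l).symm]
  | succ k =>
    by_cases h : k = l
    · subst h; simp
    · simp [h]

theorem hh_update (al : Fin (p + 1) → ℝ) (γ : Fin p → ℝ) (l : Fin p) (t : ℝ) :
    hh al (Function.update γ l t) = hh al γ + al l.succ * (t - γ l) := by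
  unfold hh
  simp_rw [ht_update, mul_add, Finset.sum_add_distrib]
  simp

/-- Gaussian integration by parts for the one site means -/
theorem mn_succ (al : Fin (p + 1) → ℝ) (l : Fin p) (j : Fin (p + 1)) {f f' : ℝ → ℝ}
    (hd : ∀ t, HasDerivAt f (f' t) t) (hm : Measurable f') {c c' : ℝ} (hb : ∀ t, |f t| ≤ c)
    (hb' : ∀ t, |f' t| ≤ c') :
    mn al l.succ j f = (if j = l.succ then 1 else 0) * mn al 0 0 f + al l.succ * mn al j 0 f' := by
  have hf : Measurable f := (continuous_iff_continuousAt.2 fun t => (hd t).continuousAt).measurable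
  have i1 := integrable_term al l.succ j hf hb
  have i2 := (integrable_term al 0 0 hf hb).const_mul (if j = l.succ then (1 : ℝ) else 0)
  have i3 := (integrable_term al j 0 hm hb').const_mul (al l.succ)
  have i4 := integrable_term al j 0 hf hb
  have key := stein_int l (G := fun γ => ht γ j * ht γ 0 * f (hh al γ))
    (G' := fun γ => (if j = l.succ then (1 : ℝ) else 0) * (ht γ 0 * ht γ 0 * f (hh al γ)) +
      al l.succ * (ht γ j * ht γ 0 * f' (hh al γ))) (fun γ => ?_)
    (i1.congr (ae_of_all _ fun γ => by simp [mul_assoc])) (i2.add i3) i4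
  · unfold mn
    rw [← integral_const_mul, ← integral_const_mul, ← integral_add i2 i3, ← key]
    exact integral_congr_ae (ae_of_all _ fun γ => by simp [mul_assoc])
  · simp only [ht_zero, mul_one, one_mul, ht_update, hh_update]
    have h0 : HasDerivAt (fun t : ℝ => t - γ l) 1 (γ l) := (hasDerivAt_id _).sub_const _
    have h1 := (h0.const_mul (if j = l.succ then (1 : ℝ) else 0)).const_add (ht γ j)
    have h2 := (h0.const_mul (al l.succ)).const_add (hh al γ)
    have h3 : HasDerivAt f (f' (hh al γ)) (hh al γ + al l.succ * (γ l - γ l)) := by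
      simpa using hd (hh al γ)
    have h4 := h1.mul (h3.comp (γ l) h2)
    refine h4.congr_deriv ?_
    simp only [Function.comp_apply, sub_self, mul_zero, add_zero, mul_one]
    ring

/-! ### Odd functions -/

theorem neg_mp : MeasurePreserving (fun γ : Fin p → ℝ => -γ) (gpi (Fin p)) (gpi (Fin p)) := by
  have h := Tail.rot_mp (ι := Fin p) (-1 : Matrix (Fin p) (Fin p) ℝ) (by simp)
  simpa [Matrix.neg_mulVec] using h

theorem trapez {f f1 f2 : ℝ → ℝ} (h1 : ∀ t, HasDerivAt f (f1 t) t)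
    (h2 : ∀ t, HasDerivAt f1 (f2 t) t) {L : ℝ} (hL : ∀ a b, |f2 a - f2 b| ≤ L * |a - b|)
    (u a : ℝ) : |f (u + a) - f (u - a) - a * (f1 (u + a) + f1 (u - a))| ≤ 2 * L * |a| ^ 3 := by
  have hL0 : 0 ≤ L := by simpa using (abs_nonneg _).trans (hL 1 0)
  have hd : ∀ b, HasDerivAt (fun b => f (u + b) - f (u - b) - b * (f1 (u + b) + f1 (u - b)))
      (-(b * (f2 (u + b) - f2 (u - b)))) b := by
    intro b
    have p1 : HasDerivAt (fun b : ℝ => u + b) 1 b := (hasDerivAt_id b).const_add u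
    have p2 : HasDerivAt (fun b : ℝ => u - b) (-1) b := (hasDerivAt_id b).const_sub u
    have q := (((h1 _).comp b p1).sub ((h1 _).comp b p2)).sub
      ((hasDerivAt_id b).mul (((h2 _).comp b p1).add ((h2 _).comp b p2)))
    refine q.congr_deriv ?_
    simp only [Function.comp_apply, Pi.add_apply, id]
    ring
  have h := Convex.norm_image_sub_le_of_norm_hasDerivWithin_le
    (s := Metric.closedBall 0 |a|) (x := 0) (y := a) (C := 2 * L * |a| ^ 2)
    (fun b _ => (hd b).hasDerivWithinAt) (fun b hb => by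
      have hb' : |b| ≤ |a| := by simpa using hb
      have h3 := hL (u + b) (u - b)
      rw [show u + b - (u - b) = 2 * b by ring, abs_mul, abs_two] at h3
      rw [Real.norm_eq_abs, abs_neg, abs_mul]
      have h4 : L * (2 * |b|) ≤ L * (2 * |a|) := mul_le_mul_of_nonneg_left (by linarith) hL0
      calc |b| * |f2 (u + b) - f2 (u - b)| ≤ |a| * (L * (2 * |a|)) :=
            mul_le_mul hb' (h3.trans h4) (abs_nonneg _) (abs_nonneg _)
        _ = _ := by ring)
    (convex_closedBall _ _) (Metric.mem_closedBall_self (abs_nonneg _)) (by simp)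
  simp only [Real.norm_eq_abs, add_zero, sub_zero, sub_self, zero_mul] at h
  refine h.trans (le_of_eq ?_)
  ring

/-- the mean of an odd function is odd in the centre -/
theorem mn_odd (al : Fin (p + 1) → ℝ) {f f1 f2 : ℝ → ℝ} (h1 : ∀ t, HasDerivAt f (f1 t) t)
    (h2 : ∀ t, HasDerivAt f1 (f2 t) t) {L : ℝ} (hL : ∀ a b, |f2 a - f2 b| ≤ L * |a - b|)
    (ho : ∀ t, f (-t) = -f t) (he : ∀ t, f1 (-t) = f1 t) {c c' : ℝ} (hb : ∀ t, |f t| ≤ c)
    (hb' : ∀ t, |f1 t| ≤ c') :
    |mn al 0 0 f - al 0 * mn al 0 0 f1| ≤ L * |al 0| ^ 3 := by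
  have hf : Measurable f := (continuous_iff_continuousAt.2 fun t => (h1 t).continuousAt).measurable
  have hf1 : Measurable f1 :=
    (continuous_iff_continuousAt.2 fun t => (h2 t).continuousAt).measurable
  set Y : (Fin p → ℝ) → ℝ := fun γ => f (hh al γ) - al 0 * f1 (hh al γ) with hY
  have i1 := integrable_term al 0 0 hf hb
  have i2 := (integrable_term al 0 0 hf1 hb').const_mul (al 0)
  simp only [ht_zero, one_mul] at i1 i2
  have iY : Integrable Y (gpi (Fin p)) := i1.sub i2
  have e1 : mn al 0 0 f - al 0 * mn al 0 0 f1 = ∫ γ, Y γ ∂gpi (Fin p) := by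
    simp only [mn, ht_zero, one_mul]
    rw [← integral_const_mul, ← integral_sub i1 i2]
  have e2 : ∫ γ, Y (-γ) ∂gpi (Fin p) = ∫ γ, Y γ ∂gpi (Fin p) := by
    conv_rhs => rw [← neg_mp.map_eq]
    rw [integral_map neg_mp.measurable.aemeasurable
      (by rw [neg_mp.map_eq]; exact iY.aestronglyMeasurable)]
  have iY' : Integrable (fun γ => Y (-γ)) (gpi (Fin p)) := neg_mp.integrable_comp_of_integrable iY
  have hp : ∀ γ, ‖Y γ + Y (-γ)‖ ≤ 2 * L * |al 0| ^ 3 := by
    intro γ
    have h := trapez h1 h2 hL (∑ l, al l.succ * γ l) (al 0)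
    have e3 : hh al γ = ∑ l, al l.succ * γ l + al 0 := by rw [hh_eq]; ring
    have e4 : hh al (-γ) = -(∑ l, al l.succ * γ l - al 0) := by
      rw [hh_eq]; simp only [Pi.neg_apply, mul_neg, Finset.sum_neg_distrib]; ring
    simp only [hY, e3, e4, ho, he, Real.norm_eq_abs]
    refine le_trans (le_of_eq ?_) h
    congr 1; ring
  have h3 := norm_integral_le_of_norm_le_const (μ := gpi (Fin p)) (ae_of_all _ hp)
  rw [integral_add iY iY', e2, probReal_univ, mul_one, Real.norm_eq_abs, ← two_mul, abs_mul,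
    abs_two] at h3
  rw [e1]
  linarith

end Vale.Agent.N150.Stein
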