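import Vale.Agent.N150.Stein2

/-! P150, block T1, lemma G4: cancellation of the means, clipping, perturbation. -/

open MeasureTheory ProbabilityTheory Real Set Filter Topology
open Vale.Agent.P150 Vale.Agent.P150.F

namespace Vale.Agent.N150.Stein

variable {p : ℕ}

/-- `d - 1` -/
noncomputable def fc (t : ℝ) : ℝ := -tanh t ^ 2
/-- `m d` -/
noncomputable def fe (t : ℝ) : ℝ := tanh t * (1 - tanh t ^ 2)
/-- derivative of `fe` -/
noncomputable def fe1 (t : ℝ) : ℝ := (1 - 3 * tanh t ^ 2) * (1 - tanh t ^ 2)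
/-- second derivative of `fe` -/
noncomputable def fe2 (t : ℝ) : ℝ := -8 * tanh t + 20 * tanh t ^ 3 - 12 * tanh t ^ 5
/-- the combination of the five means -/
noncomputable def QQ (A B C D E : ℝ) : ℝ := A - C * B + 2 / (1 + C) * D * E

theorem tanh_abs (t : ℝ) : |tanh t| ≤ 1 := (abs_tanh_lt_one t).le

theorem hd_fc (t : ℝ) : HasDerivAt fc (-2 * fe t) t := by
  refine ((hasDerivAt_tanh t).pow 2).neg.congr_deriv ?_
  simp only [fe]; push_cast; ring

theorem hd_fd (t : ℝ) : HasDerivAt (fun t => 1 - tanh t ^ 2) (-2 * fe t) t := by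
  refine (((hasDerivAt_tanh t).pow 2).const_sub 1).congr_deriv ?_
  simp only [fe]; push_cast; ring

theorem hd_fe (t : ℝ) : HasDerivAt fe (fe1 t) t := by
  refine ((hasDerivAt_tanh t).mul (hd_fd t)).congr_deriv ?_
  simp only [fe, fe1]; ring

theorem hd_fe1 (t : ℝ) : HasDerivAt fe1 (fe2 t) t := by
  refine (((((hasDerivAt_tanh t).pow 2).const_mul 3).const_sub 1).mul (hd_fd t)).congr_deriv ?_
  simp only [fe, fe2, Pi.pow_apply]; push_cast; ring

theorem meas_of_hd {f f' : ℝ → ℝ} (hd : ∀ t, HasDerivAt f (f' t) t) : Measurable f :=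
  (continuous_iff_continuousAt.2 fun t => (hd t).continuousAt).measurable

theorem fe_le (t : ℝ) : |fe t| ≤ |tanh t| := by
  rw [fe, abs_mul, abs_of_pos (one_sub_tanh_sq_pos t)]
  exact mul_le_of_le_one_right (abs_nonneg _) (one_sub_tanh_sq_le t)

theorem fe_abs (t : ℝ) : |fe t| ≤ 1 := (fe_le t).trans (tanh_abs t)

theorem fc_le (t : ℝ) : |fc t| ≤ t ^ 2 := by
  rw [fc, abs_neg, abs_pow, ← sq_abs t]
  exact pow_le_pow_left₀ (abs_nonneg _) (abs_tanh_le t) 2

theorem fc_abs (t : ℝ) : |fc t| ≤ 1 := by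
  rw [fc, abs_neg, abs_pow]; exact pow_le_one₀ (abs_nonneg _) (tanh_abs t)

theorem fd_abs (t : ℝ) : |1 - tanh t ^ 2| ≤ 1 := by
  rw [abs_of_pos (one_sub_tanh_sq_pos t)]; exact one_sub_tanh_sq_le t

theorem fe1_abs (t : ℝ) : |fe1 t| ≤ 2 := by
  have h1 := tanh_sq_lt_one t
  have h2 := sq_nonneg (tanh t)
  have h3 : |1 - 3 * tanh t ^ 2| ≤ 2 := abs_le.2 ⟨by linarith, by linarith⟩
  rw [fe1, abs_mul]
  exact (mul_le_mul h3 (fd_abs t) (abs_nonneg _) zero_le_two).trans (by norm_num)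

theorem pow_lip (a b : ℝ) (k : ℕ) : |tanh a ^ k - tanh b ^ k| ≤ k * |a - b| := by
  refine (abs_pow_sub_pow_le _ _ _).trans ?_
  have h1 : max |tanh a| |tanh b| ^ (k - 1) ≤ 1 :=
    pow_le_one₀ (le_max_of_le_left (abs_nonneg _)) (max_le (tanh_abs a) (tanh_abs b))
  calc |tanh a - tanh b| * k * max |tanh a| |tanh b| ^ (k - 1) ≤ |a - b| * k * 1 :=
        mul_le_mul (mul_le_mul_of_nonneg_right (abs_tanh_sub_le a b) (Nat.cast_nonneg k)) h1
          (by positivity) (by positivity)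
    _ = _ := by ring

theorem fc_lip (a b : ℝ) : |fc a - fc b| ≤ 4 * |a - b| := by
  have h := abs_le.1 (pow_lip a b 2)
  have h0 := abs_nonneg (a - b)
  simp only [fc]; push_cast at h
  exact abs_le.2 ⟨by linarith, by linarith⟩

theorem fe_lip (a b : ℝ) : |fe a - fe b| ≤ 4 * |a - b| := by
  have h1 := abs_le.1 (abs_tanh_sub_le a b)
  have h3 := abs_le.1 (pow_lip a b 3)
  have e : fe a - fe b = (tanh a - tanh b) - (tanh a ^ 3 - tanh b ^ 3) := by simp only [fe]; ring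
  push_cast at h3
  rw [e]; exact abs_le.2 ⟨by linarith, by linarith⟩

theorem fe2_lip (a b : ℝ) : |fe2 a - fe2 b| ≤ 128 * |a - b| := by
  have h1 := abs_le.1 (abs_tanh_sub_le a b)
  have h3 := abs_le.1 (pow_lip a b 3)
  have h5 := abs_le.1 (pow_lip a b 5)
  simp only [fe2]; push_cast at h3 h5
  exact abs_le.2 ⟨by linarith, by linarith⟩

theorem mn_one (al : Fin (p + 1) → ℝ) : mn al 0 0 (fun _ => 1) = 1 := by simp [mn]

theorem mn_fd (al : Fin (p + 1) → ℝ) :
    mn al 0 0 (fun t => 1 - tanh t ^ 2) = 1 + mn al 0 0 fc := by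
  have i := integrable_term al 0 0 (meas_of_hd hd_fc) fc_abs
  simp only [mn, ht_zero, one_mul] at i ⊢
  have : ∫ γ, (1 + fc (hh al γ)) ∂gpi (Fin p) = 1 + ∫ γ, fc (hh al γ) ∂gpi (Fin p) := by
    rw [integral_add (integrable_const _) i]; simp
  rw [← this]
  exact integral_congr_ae (ae_of_all _ fun γ => by simp only [fc]; ring)

theorem mn_fc_succ (al : Fin (p + 1) → ℝ) (l : Fin p) (j : Fin (p + 1)) :
    mn al l.succ j fc = (if j = l.succ then 1 else 0) * mn al 0 0 fc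
      - 2 * al l.succ * mn al j 0 fe := by
  rw [mn_succ al l j hd_fc ((meas_of_hd hd_fe).const_mul _) fc_abs (c' := 2) (fun t => by
    rw [abs_mul, abs_neg, abs_two]; linarith [fe_abs t]), mn_smul]
  ring

theorem mn_one_succ (al : Fin (p + 1) → ℝ) (l : Fin p) (j : Fin (p + 1)) :
    mn al l.succ j (fun _ => 1) = if j = l.succ then 1 else 0 := by
  rw [mn_succ al l j (f' := fun _ => 0) (fun t => hasDerivAt_const t 1) measurable_const (c := 1)
    (c' := 0) (fun _ => by simp) (fun _ => by simp), mn_one]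
  simp [mn]

theorem mn_tanh_succ (al : Fin (p + 1) → ℝ) (l : Fin p) :
    mn al l.succ 0 tanh = al l.succ * (1 + mn al 0 0 fc) := by
  rw [mn_succ al l 0 hasDerivAt_tanh (meas_of_hd hd_fd) tanh_abs fd_abs, mn_fd,
    if_neg (Fin.succ_ne_zero l).symm]
  ring

theorem mn_fe_succ (al : Fin (p + 1) → ℝ) (l : Fin p) :
    mn al l.succ 0 fe = al l.succ * mn al 0 0 fe1 := by
  rw [mn_succ al l 0 hd_fe (meas_of_hd hd_fe1) fe_abs fe1_abs, if_neg (Fin.succ_ne_zero l).symm]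
  ring

theorem mn_abs (al : Fin (p + 1) → ℝ) {F : ℝ → ℝ} {c : ℝ} (hb : ∀ t, |F t| ≤ c) :
    |mn al 0 0 F| ≤ c := by
  have h := norm_integral_le_of_norm_le_const (μ := gpi (Fin p)) (f := fun γ => F (hh al γ))
    (ae_of_all _ fun γ => hb _)
  simpa [mn] using h

/-- the exact cancellation -/
theorem QQ_mn (al : Fin (p + 1) → ℝ) (i j : Fin (p + 1)) {σ a : ℝ} (hσ : ∀ l, |al l| ≤ σ)
    (ha : |al 0| ≤ a) (ha1 : a ≤ 1) (hw : |mn al 0 0 fc| ≤ 1 / 2) :
    |QQ (mn al i j fc) (mn al i j fun _ => 1) (mn al 0 0 fc) (mn al i 0 tanh) (mn al j 0 fe)| ≤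
      5000 * (σ * a ^ 3 + if i = 0 ∧ j = 0 then a ^ 2 else 0) := by
  have ha0 : 0 ≤ a := (abs_nonneg _).trans ha
  have hσ0 : 0 ≤ σ := (abs_nonneg _).trans (hσ 0)
  have hw' := abs_le.1 hw
  have hw0 : 0 < 1 + mn al 0 0 fc := by linarith
  have h3 : |al 0| ^ 3 ≤ a ^ 3 := pow_le_pow_left₀ (abs_nonneg _) ha 3
  have hM : |mn al 0 0 tanh - al 0 * (1 + mn al 0 0 fc)| ≤ 8 * a ^ 3 := by
    have h := mn_odd al hasDerivAt_tanh hd_fd (L := 8) (fun a b => by
      rw [← mul_sub, abs_mul, abs_neg, abs_two]; linarith [fe_lip a b]) tanh_neg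
      (fun t => by simp [tanh_neg]) tanh_abs fd_abs
    rw [mn_fd] at h
    linarith
  have hE : |mn al 0 0 fe - al 0 * mn al 0 0 fe1| ≤ 128 * a ^ 3 := by
    have h := mn_odd al hd_fe hd_fe1 fe2_lip (fun t => by simp [fe, tanh_neg])
      (fun t => by simp [fe1, tanh_neg]) fe_abs fe1_abs
    linarith
  have hE1 := mn_abs al fe1_abs
  have hinv : |2 / (1 + mn al 0 0 fc)| ≤ 4 := by
    rw [abs_of_pos (by positivity), div_le_iff₀ hw0]; linarith
  induction i using Fin.cases with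
  | succ l =>
    have : QQ (mn al l.succ j fc) (mn al l.succ j fun _ => 1) (mn al 0 0 fc)
        (mn al l.succ 0 tanh) (mn al j 0 fe) = 0 := by
      rw [QQ, mn_fc_succ, mn_one_succ, mn_tanh_succ]; field_simp; ring
    rw [this, abs_zero]; positivity
  | zero =>
    induction j using Fin.cases with
    | succ l =>
      have : QQ (mn al 0 l.succ fc) (mn al 0 l.succ fun _ => 1) (mn al 0 0 fc)
          (mn al 0 0 tanh) (mn al l.succ 0 fe) = al l.succ * (2 / (1 + mn al 0 0 fc) *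
            (mn al 0 0 tanh - al 0 * (1 + mn al 0 0 fc)) * mn al 0 0 fe1 -
            2 * (mn al 0 0 fe - al 0 * mn al 0 0 fe1)) := by
        rw [QQ, mn_comm al 0 l.succ, mn_comm al 0 l.succ, mn_fc_succ, mn_one_succ, mn_fe_succ,
          if_neg (Fin.succ_ne_zero l).symm]
        field_simp; ring
      rw [this, if_neg (fun h => Fin.succ_ne_zero l h.2), add_zero, abs_mul]
      have h1 : |2 / (1 + mn al 0 0 fc) * (mn al 0 0 tanh - al 0 * (1 + mn al 0 0 fc)) *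
          mn al 0 0 fe1| ≤ 4 * (8 * a ^ 3) * 2 := by
        rw [abs_mul, abs_mul]; gcongr
      have h2 := abs_le.1 h1
      have h4 := abs_le.1 hE
      have h5 : 0 ≤ a ^ 3 := by positivity
      calc _ ≤ σ * (5000 * a ^ 3) :=
            mul_le_mul (hσ _) (abs_le.2 ⟨by linarith, by linarith⟩) (abs_nonneg _) hσ0
        _ = _ := by ring
    | zero =>
      have ha3 : a ^ 3 ≤ a := by
        calc a ^ 3 = a * a ^ 2 := by ring
          _ ≤ a := mul_le_of_le_one_right ha0 (pow_le_one₀ ha0 ha1)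
      have h1 : |al 0 * (1 + mn al 0 0 fc)| ≤ a * (3 / 2) := by
        rw [abs_mul]
        exact mul_le_mul ha (abs_le.2 ⟨by linarith, by linarith⟩) (abs_nonneg _) ha0
      have h2 : |al 0 * mn al 0 0 fe1| ≤ a * 2 := by rw [abs_mul]; gcongr
      have h4 : |mn al 0 0 tanh| ≤ 19 / 2 * a := by
        have := abs_le.1 h1; have := abs_le.1 hM
        exact abs_le.2 ⟨by linarith, by linarith⟩
      have h5 : |mn al 0 0 fe| ≤ 130 * a := by
        have := abs_le.1 h2; have := abs_le.1 hE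
        exact abs_le.2 ⟨by linarith, by linarith⟩
      rw [QQ, mn_one, mul_one, sub_self, zero_add, if_pos ⟨rfl, rfl⟩, abs_mul, abs_mul]
      have h6 : 0 ≤ σ * a ^ 3 := by positivity
      calc _ ≤ 4 * (19 / 2 * a) * (130 * a) := by gcongr
        _ ≤ _ := by nlinarith [sq_nonneg a]

/-- perturbation of the five means -/
theorem QQ_pert {A B C D E A' B' C' D' E' K θ e : ℝ} (hK : 1 ≤ K) (hθ : 0 ≤ θ) (he : 0 ≤ e)
    (he1 : e ≤ 1) (hKθ : K * θ ^ 2 ≤ 1 / 2) (hA : |A - A'| ≤ K * θ ^ 2 * e) (hB : |B - B'| ≤ K * e)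
    (hC : |C - C'| ≤ K * θ ^ 2 * e) (hD : |D - D'| ≤ K * θ * e) (hE : |E - E'| ≤ K * θ * e)
    (bB : |B'| ≤ K) (bC : |C| ≤ θ ^ 2) (bC' : |C'| ≤ K * θ ^ 2) (bD : |D'| ≤ K * θ)
    (bE : |E'| ≤ K * θ) : |QQ A B C D E - QQ A' B' C' D' E'| ≤ 19 * K ^ 2 * θ ^ 2 * e := by
  have hθ2 : θ ^ 2 ≤ 1 / 2 := by nlinarith [sq_nonneg θ]
  have h1 := abs_le.1 bC
  have h2 := abs_le.1 bC'
  have w1 : 0 < 1 + C := by linarith
  have w2 : 0 < 1 + C' := by linarith
  have i1 : |2 / (1 + C)| ≤ 4 := by rw [abs_of_pos (by positivity), div_le_iff₀ w1]; linarith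
  have i2 : |1 / (1 + C')| ≤ 2 := by rw [abs_of_pos (by positivity), div_le_iff₀ w2]; linarith
  have hK0 : 0 ≤ K := by linarith
  have bD' : |D| ≤ 2 * (K * θ) := by
    have h3 := abs_le.1 hD
    have h4 := abs_le.1 bD
    have h5 : K * θ * e ≤ K * θ := mul_le_of_le_one_right (by positivity) he1
    exact abs_le.2 ⟨by linarith, by linarith⟩
  have e1 : QQ A B C D E - QQ A' B' C' D' E' = (A - A') - (C - C') * B' - C * (B - B')
      - 2 / (1 + C) * (1 / (1 + C')) * (C - C') * D' * E' + 2 / (1 + C) * (D - D') * E'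
      + 2 / (1 + C) * D * (E - E') := by
    simp only [QQ]; field_simp; ring
  have t1 : |(C - C') * B'| ≤ K * θ ^ 2 * e * K := by rw [abs_mul]; gcongr
  have t2 : |C * (B - B')| ≤ θ ^ 2 * (K * e) := by rw [abs_mul]; gcongr
  have t3 : |2 / (1 + C) * (1 / (1 + C')) * (C - C') * D' * E'| ≤
      4 * 2 * (K * θ ^ 2 * e) * (K * θ) * (K * θ) := by
    rw [abs_mul, abs_mul, abs_mul, abs_mul]; gcongr
  have t4 : |2 / (1 + C) * (D - D') * E'| ≤ 4 * (K * θ * e) * (K * θ) := by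
    rw [abs_mul, abs_mul]; gcongr
  have t5 : |2 / (1 + C) * D * (E - E')| ≤ 4 * (2 * (K * θ)) * (K * θ * e) := by
    rw [abs_mul, abs_mul]; gcongr
  set u := K * θ ^ 2 * e with hu
  have hu0 : 0 ≤ u := by positivity
  have s1 : u ≤ u * K := le_mul_of_one_le_right hu0 hK
  have s3 : 4 * 2 * u * (K * θ) * (K * θ) ≤ 4 * (u * K) := by
    have : 4 * 2 * u * (K * θ) * (K * θ) = 8 * (u * K) * (K * θ ^ 2) := by ring
    rw [this]; nlinarith [mul_nonneg hu0 hK0]
  have e2 : θ ^ 2 * (K * e) = u := by rw [hu]; ring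
  have e4 : 4 * (K * θ * e) * (K * θ) = 4 * (u * K) := by rw [hu]; ring
  have e5 : 4 * (2 * (K * θ)) * (K * θ * e) = 8 * (u * K) := by rw [hu]; ring
  have e6 : 19 * K ^ 2 * θ ^ 2 * e = 19 * (u * K) := by rw [hu]; ring
  rw [e2] at t2; rw [e4] at t4; rw [e5] at t5
  rw [e1, e6]
  have := abs_le.1 hA; have := abs_le.1 t1; have := abs_le.1 t2; have := abs_le.1 t3
  have := abs_le.1 t4; have := abs_le.1 t5
  exact abs_le.2 ⟨by linarith, by linarith⟩

end Vale.Agent.N150.Stein
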