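import Vale.Agent.N150.Stein3
import Vale.Agent.N150.Net

/-! P150, block T1, lemma G4: concentration of the five means, uniformly in the coefficients. -/

open MeasureTheory ProbabilityTheory Real Set Filter Topology
open Vale.Agent.P150 Vale.Agent.P150.F

namespace Vale.Agent.N150.Stein

variable {p n : ℕ}

/-- a clipping function at level `θ` -/
structure IsClip (cl : ℝ → ℝ) (θ : ℝ) : Prop where
  abs_le : ∀ y, |cl y| ≤ θ
  lip : ∀ y y', |cl y - cl y'| ≤ |y - y'|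
  eq : ∀ y, |y| ≤ θ → cl y = y
  odd : ∀ y, cl (-y) = -cl y

theorem IsClip.measurable {cl : ℝ → ℝ} {θ : ℝ} (h : IsClip cl θ) : Measurable cl :=
  (LipschitzWith.of_dist_le_mul (K := 1) fun a b => by
    simpa [Real.dist_eq] using h.lip a b).continuous.measurable

theorem isClip_max_min {θ : ℝ} (hθ : 0 ≤ θ) : IsClip (fun y => max (-θ) (min y θ)) θ where
  abs_le y := abs_le.2 ⟨le_max_left _ _, max_le (by linarith) (min_le_right _ _)⟩
  lip y y' := by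
    refine (abs_max_sub_max_le_max _ _ _ _).trans (max_le (by simp) ?_)
    exact (abs_min_sub_min_le_max _ _ _ _).trans (max_le le_rfl (by simp))
  eq y hy := by rw [min_eq_left (abs_le.1 hy).2, max_eq_right (abs_le.1 hy).1]
  odd y := by
    simp only [max_def, min_def]
    split_ifs <;> linarith

theorem clip_err {cl : ℝ → ℝ} {θ σ : ℝ} (hc : IsClip cl θ) (hσ : 0 < σ)
    {al : Fin (p + 1) → ℝ} (hal : ∑ l, al l ^ 2 ≤ σ ^ 2) (i j : Fin (p + 1)) {F : ℝ → ℝ}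
    (hF : Measurable F) (hb : ∀ t, |F t| ≤ 1) :
    |mn al i j (fun t => F (cl t)) - mn al i j F| ≤ 16 * exp (-(θ ^ 2 / (8 * σ ^ 2))) * kp p := by
  have hF' : Measurable fun t => F (cl t) := hF.comp hc.measurable
  unfold mn
  rw [← integral_sub (integrable_term al i j hF' fun t => hb _) (integrable_term al i j hF hb)]
  refine abs_int_le ((measurable_term al i j hF').sub (measurable_term al i j hF)) (by positivity)
    fun γ => ?_
  show |ht γ i * ht γ j * F (cl (hh al γ)) - ht γ i * ht γ j * F (hh al γ)| ≤ _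
  by_cases h : |hh al γ| ≤ θ
  · rw [hc.eq _ h, sub_self, abs_zero]; positivity
  · have hθ : 0 ≤ θ := (abs_nonneg _).trans (hc.abs_le 0)
    have h1 : θ ^ 2 ≤ σ ^ 2 * NN γ := by
      refine le_trans ?_ (hh_sq_le hal γ)
      rw [← sq_abs (hh al γ)]
      exact pow_le_pow_left₀ hθ (not_le.1 h).le 2
    have h2 : θ ^ 2 / (8 * σ ^ 2) ≤ NN γ / 8 := by
      rw [div_le_iff₀ (by positivity)]; linarith
    have h3 : exp (NN γ / 8) ≤ exp (-(θ ^ 2 / (8 * σ ^ 2))) * exp (NN γ / 4) := by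
      rw [← exp_add]; exact exp_le_exp.2 (by linarith)
    have h4 := abs_le.1 (term_le al i j (F := fun t => F (cl t)) (fun t => hb _) γ)
    have h5 := abs_le.1 (term_le al i j hb γ)
    have h6 := le_exp_div (t := NN γ)
    exact abs_le.2 ⟨by linarith, by linarith⟩

/-- product measure on the rows -/
noncomputable abbrev gr (n p : ℕ) : Measure (Fin n → Fin p → ℝ) :=
  Measure.pi fun _ : Fin n => gpi (Fin p)

theorem dev (hn : 0 < n) {Y : (Fin p → ℝ) → ℝ} (hY : Measurable Y) {c ep : ℝ} (hc : 0 < c)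
    (hb : ∀ γ, |Y γ| ≤ c * NN γ) (h0 : 0 ≤ ep) (h1 : ep ≤ 1) :
    (gr n p).real {ω | 264 * kp p * c * ep ≤ |(∑ r, Y (ω r)) / n - ∫ γ, Y γ ∂gpi (Fin p)|} ≤
      2 * exp (-(n * ep ^ 2)) := by
  have hn' : (0 : ℝ) < n := Nat.cast_pos.2 hn
  have hk := one_le_kp (p := p)
  refine (Tail.real_imp_le _ fun ω hω => ?_).trans (env.tail_abs (σ := Fin n) (Y := fun _ => Y)
    (fun _ => hY) hc (fun _ => hb) (M := n) (by simp) hn' (x := n * ep ^ 2) (by positivity))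
  have e : ∑ r, (Y (ω r) - ∫ γ, Y γ ∂gpi (Fin p)) =
      n * ((∑ r, Y (ω r)) / n - ∫ γ, Y γ ∂gpi (Fin p)) := by
    rw [Finset.sum_sub_distrib, Finset.sum_const, Finset.card_univ, Fintype.card_fin,
      nsmul_eq_mul]
    field_simp
  have h2 : √(128 * kp p * c ^ 2 * n * (n * ep ^ 2)) ≤ 128 * kp p * (c * n * ep) := by
    refine sqrt_le_iff.2 ⟨by positivity, ?_⟩
    have : 128 * kp p ≤ (128 * kp p) ^ 2 := by nlinarith
    calc _ = 128 * kp p * (c * n * ep) ^ 2 := by ring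
      _ ≤ (128 * kp p) ^ 2 * (c * n * ep) ^ 2 := mul_le_mul_of_nonneg_right this (sq_nonneg _)
      _ = _ := by ring
  have h3 : c * (n * ep ^ 2) ≤ kp p * (c * n * ep) := by
    have h4 : 0 ≤ c * n * ep := by positivity
    calc _ = c * n * ep * ep := by ring
      _ ≤ c * n * ep * kp p := mul_le_mul_of_nonneg_left (h1.trans hk) h4
      _ = _ := by ring
  rw [e, abs_mul, abs_of_pos hn']
  have := mul_le_mul_of_nonneg_left hω hn'.le
  linarith

/-- empirical means -/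
noncomputable def em (ω : Fin n → Fin p → ℝ) (al : Fin (p + 1) → ℝ) (i j : Fin (p + 1))
    (F : ℝ → ℝ) : ℝ := (∑ r, ht (ω r) i * ht (ω r) j * F (hh al (ω r))) / n

theorem em_lip (hn : 0 < n) {ω : Fin n → Fin p → ℝ} {al al' : Vec (p + 1)} (i j : Fin (p + 1))
    {F : ℝ → ℝ} (hF : ∀ a b, |F a - F b| ≤ 4 * |a - b|) {κ u : ℝ} (hκ : 1 ≤ κ) (hu : 0 ≤ u)
    (hN : (∑ r, NN (ω r)) / n ≤ κ) (h : nv (al - al') ≤ u / √n) :
    |em ω al i j F - em ω al' i j F| ≤ 4 * κ ^ 2 * u := by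
  have hn' : (0 : ℝ) < n := Nat.cast_pos.2 hn
  rw [div_le_iff₀ hn'] at hN
  have h1 : ∑ l, (al - al') l ^ 2 ≤ (u / √n) ^ 2 := by
    have := pow_le_pow_left₀ (nv_nonneg _) h 2
    rwa [nv_sq] at this
  have h2 : ∀ r, |hh al (ω r) - hh al' (ω r)| ≤ κ * u := by
    intro r
    have e : hh al (ω r) - hh al' (ω r) = hh (al - al') (ω r) := by
      simp only [hh, Pi.sub_apply, sub_mul, Finset.sum_sub_distrib]
    have h3 : NN (ω r) ≤ κ * n := (Finset.single_le_sum (f := fun r => NN (ω r))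
      (fun r _ => zero_le_one.trans (one_le_NN _)) (Finset.mem_univ r)).trans hN
    rw [e]
    refine abs_le_of_sq_le_sq' ?_ (by positivity) |> abs_le.2
    calc _ ≤ (u / √n) ^ 2 * NN (ω r) := hh_sq_le h1 _
      _ ≤ (u / √n) ^ 2 * (κ * n) := mul_le_mul_of_nonneg_left h3 (sq_nonneg _)
      _ = κ * u ^ 2 := by rw [div_pow, sq_sqrt hn'.le]; field_simp
      _ ≤ (κ * u) ^ 2 := by
          rw [mul_pow]; exact mul_le_mul_of_nonneg_right (by nlinarith) (sq_nonneg _)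
  rw [em, em, ← sub_div, ← Finset.sum_sub_distrib, abs_div, abs_of_pos hn', div_le_iff₀ hn']
  refine (Finset.abs_sum_le_sum_abs _ _).trans ?_
  have h4 : ∀ r, |ht (ω r) i * ht (ω r) j * F (hh al (ω r)) -
      ht (ω r) i * ht (ω r) j * F (hh al' (ω r))| ≤ NN (ω r) * (4 * (κ * u)) := by
    intro r
    rw [← mul_sub, abs_mul]
    exact mul_le_mul (ht_mul_le _ i j) ((hF _ _).trans (by linarith [h2 r])) (abs_nonneg _)
      (zero_le_one.trans (one_le_NN _))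
  refine (Finset.sum_le_sum fun r _ => h4 r).trans ?_
  rw [← Finset.sum_mul]
  calc _ ≤ κ * n * (4 * (κ * u)) := mul_le_mul_of_nonneg_right hN (by positivity)
    _ = _ := by ring

theorem em_abs (hn : 0 < n) (ω : Fin n → Fin p → ℝ) (al : Fin (p + 1) → ℝ) {F : ℝ → ℝ} {c : ℝ}
    (hb : ∀ t, |F t| ≤ c) : |em ω al 0 0 F| ≤ c := by
  have hn' : (0 : ℝ) < n := Nat.cast_pos.2 hn
  rw [em, abs_div, abs_of_pos hn', div_le_iff₀ hn']
  refine (Finset.abs_sum_le_sum_abs _ _).trans ((Finset.sum_le_sum fun r _ =>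
    (by simpa using hb _ : _ ≤ c)).trans (le_of_eq ?_))
  simp [mul_comm]

theorem mn_lin_le {al : Fin (p + 1) → ℝ} {σ : ℝ} (hσ : 0 ≤ σ) (hal : ∑ l, al l ^ 2 ≤ σ ^ 2)
    (i : Fin (p + 1)) {F : ℝ → ℝ} (hF : Measurable F) (hb : ∀ t, |F t| ≤ |t|) :
    |mn al i 0 F| ≤ σ * (8 * kp p) := by
  refine abs_int_le' (measurable_term al i 0 hF) hσ fun γ => ?_
  have hN : 0 ≤ NN γ := zero_le_one.trans (one_le_NN γ)
  have h1 : F (hh al γ) ^ 2 ≤ σ ^ 2 * NN γ := (sq_le_sq.2 (hb _)).trans (hh_sq_le hal γ)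
  refine abs_le_of_sq_le_sq' ?_ (by positivity) |> abs_le.2
  rw [ht_zero, mul_one, mul_pow]
  calc _ ≤ NN γ * (σ ^ 2 * NN γ) := mul_le_mul (ht_sq_le γ i) h1 (sq_nonneg _) hN
    _ = _ := by ring

/-- the statistic -/
noncomputable def QE (cl : ℝ → ℝ) (ω : Fin n → Fin p → ℝ) (al : Fin (p + 1) → ℝ)
    (i j : Fin (p + 1)) : ℝ :=
  QQ (em ω al i j fun t => fc (cl t)) (em ω al i j fun _ => 1) (em ω al 0 0 fun t => fc (cl t))
    (em ω al i 0 fun t => tanh (cl t)) (em ω al j 0 fun t => fe (cl t))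

/-- deviation of one empirical mean -/
def Dv (ω : Fin n → Fin p → ℝ) (al : Fin (p + 1) → ℝ) (i j : Fin (p + 1)) (F : ℝ → ℝ)
    (c ep : ℝ) : Prop := 264 * kp p * c * ep ≤ |em ω al i j F - mn al i j F|

theorem dv_le (hn : 0 < n) (al : Fin (p + 1) → ℝ) (i j : Fin (p + 1)) {F : ℝ → ℝ}
    (hF : Measurable F) {c ep : ℝ} (hc : 0 < c) (hb : ∀ t, |F t| ≤ c) (h0 : 0 ≤ ep) (h1 : ep ≤ 1) :
    (gr n p).real {ω | Dv ω al i j F c ep} ≤ 2 * exp (-(n * ep ^ 2)) :=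
  dev hn (measurable_term al i j hF) hc (term_le al i j hb) h0 h1

/-- the constant -/
noncomputable def KK (p : ℕ) : ℝ := 6 * (272 * kp p) ^ 2

theorem QE_det (hn : 0 < n) {cl : ℝ → ℝ} {θ σ a ep : ℝ} (hc : IsClip cl θ) (hσ : 0 < σ)
    (hσθ : σ ≤ θ) (hθ : KK p * θ ^ 2 ≤ 1 / 2) (h0 : 0 ≤ ep) (h1 : ep ≤ 1) (ha1 : a ≤ 1)
    (hcl : exp (-(θ ^ 2 / (8 * σ ^ 2))) ≤ θ ^ 2 * ep) {ω : Fin n → Fin p → ℝ}
    (hN : (∑ r, NN (ω r)) / n ≤ 272 * kp p) {al al' : Vec (p + 1)}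
    (h : nv (al - al') ≤ θ ^ 2 * ep / √n) (ha : |al' 0| ≤ a) (hal : ∑ l, al' l ^ 2 ≤ σ ^ 2)
    (hd : ∀ i j, ¬Dv ω al' i j (fun t => fc (cl t)) (θ ^ 2) ep ∧ ¬Dv ω al' i j (fun _ => 1) 1 ep ∧
      ¬Dv ω al' i j (fun t => tanh (cl t)) θ ep ∧ ¬Dv ω al' i j (fun t => fe (cl t)) θ ep)
    (i j : Fin (p + 1)) :
    |QE cl ω al i j| ≤ 19 * KK p ^ 2 * θ ^ 2 * ep +
      5000 * (σ * a ^ 3 + if i = 0 ∧ j = 0 then a ^ 2 else 0) := by
  have hk := one_le_kp (p := p)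
  have hθ0 : 0 < θ := hσ.trans_le hσθ
  set κ := 272 * kp p with hκ
  have hκ1 : 1 ≤ κ := by linarith
  have hκ2 : κ ≤ κ ^ 2 := by nlinarith
  have hK : KK p = 6 * κ ^ 2 := rfl
  have hK8 : 8 * kp p ≤ KK p := by linarith
  have hθ1 : θ ≤ 1 := by
    by_contra hh
    have hh := not_le.1 hh
    have : 1 < θ ^ 2 := by nlinarith
    nlinarith
  have main : ∀ {F : ℝ → ℝ} {c : ℝ} (i j : Fin (p + 1)), Measurable F → (∀ t, |F t| ≤ 1) →
      (∀ a b, |F a - F b| ≤ 4 * |a - b|) → θ ^ 2 ≤ c → ¬Dv ω al' i j (fun t => F (cl t)) c ep →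
      |em ω al i j (fun t => F (cl t)) - mn al' i j F| ≤ KK p * c * ep := by
    intro F c i j hF hb hl hθc hD
    have t1 := abs_le.1 (em_lip hn i j (F := fun t => F (cl t)) (fun a b =>
      (hl _ _).trans (by linarith [hc.lip a b])) hκ1 (by positivity) hN h)
    have t2 := abs_le.1 (not_le.1 hD).le
    have t3 := abs_le.1 (clip_err hc hσ hal i j hF hb)
    have u1 : θ ^ 2 * ep ≤ c * ep := mul_le_mul_of_nonneg_right hθc h0
    have u0 : 0 ≤ θ ^ 2 * ep := by positivity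
    have u2 : 4 * κ ^ 2 * (θ ^ 2 * ep) ≤ 4 * κ ^ 2 * (c * ep) :=
      mul_le_mul_of_nonneg_left u1 (by positivity)
    have u3 : 264 * kp p * c * ep ≤ κ ^ 2 * (c * ep) := by
      rw [mul_assoc]; exact mul_le_mul_of_nonneg_right (by linarith) (u0.trans u1)
    have u4 : 16 * exp (-(θ ^ 2 / (8 * σ ^ 2))) * kp p ≤ κ ^ 2 * (c * ep) := by
      calc _ = 16 * kp p * exp (-(θ ^ 2 / (8 * σ ^ 2))) := by ring
        _ ≤ _ := mul_le_mul (by linarith) (hcl.trans u1) (exp_pos _).le (by positivity)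
    have u5 : KK p * c * ep = 6 * κ ^ 2 * (c * ep) := by rw [hK]; ring
    rw [u5]
    exact abs_le.2 ⟨by linarith, by linarith⟩
  have mt : Measurable tanh := meas_of_hd hasDerivAt_tanh
  have lt : ∀ a b, |tanh a - tanh b| ≤ 4 * |a - b| := fun a b =>
    (abs_tanh_sub_le a b).trans (by linarith [abs_nonneg (a - b)])
  have hθ2 : θ ^ 2 ≤ θ := by nlinarith
  have bC : |mn al' 0 0 fc| ≤ KK p * θ ^ 2 := by
    refine (abs_int_le' (measurable_term al' 0 0 (meas_of_hd hd_fc)) (sq_nonneg σ)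
      fun γ => ?_).trans ?_
    · simpa using (fc_le _).trans (hh_sq_le hal γ)
    · rw [mul_comm]
      exact mul_le_mul hK8 (pow_le_pow_left₀ hσ.le hσθ 2) (sq_nonneg _) (by linarith)
  have bl : σ * (8 * kp p) ≤ KK p * θ := by
    rw [mul_comm]; exact mul_le_mul hK8 hσθ hσ.le (by linarith)
  have hB : |(em ω al i j fun _ => 1) - mn al' i j fun _ => 1| ≤ KK p * ep := by
    have t2 : |(em ω al i j fun _ => 1) - mn al' i j fun _ => 1| ≤ 264 * kp p * 1 * ep :=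
      (not_le.1 (hd i j).2.1).le
    exact t2.trans (mul_le_mul_of_nonneg_right (by linarith) h0)
  have bB : |mn al' i j fun _ => 1| ≤ KK p :=
    (abs_int_le' (measurable_term al' i j measurable_const) zero_le_one
      (term_le al' i j (F := fun _ => 1) fun _ => by simp)).trans (by linarith)
  have t1 := QQ_pert (K := KK p) (by linarith) hθ0.le h0 h1 hθ
    (main i j (meas_of_hd hd_fc) fc_abs fc_lip le_rfl (hd i j).1) hB
    (main 0 0 (meas_of_hd hd_fc) fc_abs fc_lip le_rfl (hd 0 0).1)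
    (main i 0 mt tanh_abs lt hθ2 (hd i 0).2.2.1)
    (main j 0 (meas_of_hd hd_fe) fe_abs fe_lip hθ2 (hd j 0).2.2.2) bB
    (em_abs hn ω al fun t => (fc_le _).trans (sq_le_sq.2 (by
      rw [abs_of_pos hθ0]; exact hc.abs_le t))) bC
    ((mn_lin_le hσ.le hal i mt abs_tanh_le).trans bl)
    ((mn_lin_le hσ.le hal j (meas_of_hd hd_fe) fun t => (fe_le t).trans (abs_tanh_le t)).trans bl)
  have t2 := QQ_mn al' i j (σ := σ) (fun l => abs_le_of_sq_le_sq' ((Finset.single_le_sum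
    (f := fun l => al' l ^ 2) (fun _ _ => sq_nonneg _) (Finset.mem_univ l)).trans hal) hσ.le
      |> abs_le.2) ha ha1 (bC.trans hθ)
  have t3 := abs_le.1 t1
  have t4 := abs_le.1 t2
  exact abs_le.2 ⟨by unfold QE; linarith, by unfold QE; linarith⟩

/-- G4 on the rows, in the gauge `x = 1` -/
theorem QE_tail (hn : 0 < n) {cl : ℝ → ℝ} {θ σ a ep : ℝ} (hc : IsClip cl θ) (hσ : 0 < σ)
    (hσθ : σ ≤ θ) (hθ : KK p * θ ^ 2 ≤ 1 / 2) (h0 : 0 < ep) (h1 : ep ≤ 1) (ha1 : a ≤ 1)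
    (hcl : exp (-(θ ^ 2 / (8 * σ ^ 2))) ≤ θ ^ 2 * ep) :
    (gr n p).real {ω | ∃ al : Vec (p + 1), |al 0| ≤ a ∧ ∑ l, al l ^ 2 ≤ σ ^ 2 ∧ ∃ i j,
      19 * KK p ^ 2 * θ ^ 2 * ep + 5000 * (σ * a ^ 3 + if i = 0 ∧ j = 0 then a ^ 2 else 0) <
        |QE cl ω al i j|} ≤
      10 * (p + 1) ^ 2 * (1 + 2 * σ * √n / (θ ^ 2 * ep)) ^ (p + 1) * exp (-(n * ep ^ 2)) := by
  have hn' : (0 : ℝ) < n := Nat.cast_pos.2 hn
  have hθ0 : 0 < θ := hσ.trans_le hσθ
  have hk := one_le_kp (p := p)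
  obtain ⟨T, hT, hcard, hnet⟩ := Rip.exists_net_sub (⊤ : Submodule ℝ (Vec (p + 1)))
    {al | |al 0| ≤ a ∧ ∑ l, al l ^ 2 ≤ σ ^ 2} hσ.le (ε := θ ^ 2 * ep / √n) (by positivity)
    fun v hv => ⟨trivial, nv_le_of_sq_le hσ.le hv.2⟩
  rw [finrank_top, Module.finrank_fin_fun,
    show 2 * σ / (θ ^ 2 * ep / √n) = 2 * σ * √n / (θ ^ 2 * ep) by field_simp] at hcard
  set R := (1 + 2 * σ * √n / (θ ^ 2 * ep)) ^ (p + 1) with hR
  have hR1 : 1 ≤ R := one_le_pow₀ (le_add_of_nonneg_right (by positivity))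
  set e := exp (-(n * ep ^ 2)) with he
  have he0 : 0 < e := exp_pos _
  have mc := hc.measurable
  have b1 := dev (p := p) hn measurable_NN one_pos (fun γ => by
    rw [one_mul, abs_of_nonneg (zero_le_one.trans (one_le_NN γ))]) h0.le h1
  have b2 := Tail.real_exists_le (gr n p) (T ×ˢ (Finset.univ : Finset (Fin (p + 1) × Fin (p + 1))))
    (fun k ω => (Dv ω k.1 k.2.1 k.2.2 (fun t => fc (cl t)) (θ ^ 2) ep ∨
      Dv ω k.1 k.2.1 k.2.2 (fun _ => 1) 1 ep) ∨ (Dv ω k.1 k.2.1 k.2.2 (fun t => tanh (cl t)) θ ep ∨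
      Dv ω k.1 k.2.1 k.2.2 (fun t => fe (cl t)) θ ep)) (fun _ => 8 * e) fun k _ => by
      have c1 := dv_le hn k.1 k.2.1 k.2.2 ((meas_of_hd hd_fc).comp mc) (c := θ ^ 2) (by positivity)
        (fun t => (fc_le _).trans (sq_le_sq.2 (by rw [abs_of_pos hθ0]; exact hc.abs_le t))) h0.le h1
      have c2 := dv_le hn k.1 k.2.1 k.2.2 (F := fun _ => 1) measurable_const one_pos
        (fun _ => by simp) h0.le h1
      have c3 := dv_le hn k.1 k.2.1 k.2.2 ((meas_of_hd hasDerivAt_tanh).comp mc) hθ0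
        (fun t => (abs_tanh_le _).trans (hc.abs_le t)) h0.le h1
      have c4 := dv_le hn k.1 k.2.1 k.2.2 ((meas_of_hd hd_fe).comp mc) hθ0
        (fun t => ((fe_le _).trans (abs_tanh_le _)).trans (hc.abs_le t)) h0.le h1
      refine (Tail.real_or_le _ fun _ h => h).trans ?_
      refine (add_le_add ((Tail.real_or_le _ fun _ h => h).trans (add_le_add c1 c2))
        ((Tail.real_or_le _ fun _ h => h).trans (add_le_add c3 c4))).trans (by linarith)
  refine ((Tail.real_or_le _ fun ω hω => ?_).trans (add_le_add b1 b2)).trans ?_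
  · by_contra hcon
    obtain ⟨n1, n2⟩ := not_or.1 hcon
    obtain ⟨al, g1, g2, i, j, g3⟩ := hω
    obtain ⟨al', hal', hd⟩ := hnet al ⟨g1, g2⟩
    refine absurd g3 (not_lt.2 (QE_det hn hc hσ hσθ hθ h0.le h1 ha1 hcl ?_ hd (hT _ hal').1
      (hT _ hal').2 (fun i j => ?_) i j))
    · have t1 := (abs_le.1 (not_le.1 n1).le).2
      have t2 := (abs_le.1 (abs_int_le' (p := p) measurable_NN zero_le_one fun γ => by
        rw [one_mul, abs_of_nonneg (zero_le_one.trans (one_le_NN γ))])).2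
      have t3 : 264 * kp p * 1 * ep ≤ 264 * kp p * 1 := mul_le_of_le_one_right (by positivity) h1
      linarith
    · have t : ¬_ := fun h => n2 ⟨(al', i, j), by simp [hal'], h⟩
      simp only [not_or] at t
      exact ⟨t.1.1, t.1.2, t.2.1, t.2.2⟩
  · rw [Finset.sum_const, Finset.card_product, Finset.card_univ, Fintype.card_prod,
      Fintype.card_fin, nsmul_eq_mul]
    push_cast
    have t1 : (1 : ℝ) ≤ (p + 1) ^ 2 := one_le_pow₀ (by linarith [Nat.cast_nonneg (α := ℝ) p])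
    have t2 : (T.card : ℝ) * ((p + 1) * (p + 1)) * (8 * e) ≤ R * ((p + 1) * (p + 1)) * (8 * e) := by
      gcongr
    have t3 : 1 * e ≤ (p + 1) ^ 2 * R * e :=
      mul_le_mul_of_nonneg_right (one_le_mul_of_one_le_of_one_le t1 hR1) he0.le
    nlinarith

end Vale.Agent.N150.Stein
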