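import Vale.Agent.N150.Stein5
import Vale.Agent.N150.T1Alg0

/-! P150, block T1, lemma G4 for the matrix `VW` of `T1Alg0`, entrywise and bilinear form. -/

open MeasureTheory ProbabilityTheory Real Set Filter Topology
open scoped Matrix
open Vale.Agent.P150 Vale.Agent.P150.F Vale.Agent.N150.EC

namespace Vale.Agent.N150.Stein

variable {p n : ℕ}

theorem VV_eq (h : Vec n) : VV h = T1A.VW h h := by
  rw [VV, T1A.VW, T1A.db_self, T1A.mu_self]
  congr 1
  ext i j
  by_cases hij : i = j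
  · subst hij; simp
  · simp [hij]

/-- linear combination of the columns -/
def comb (x : Vec n) (g : Fin p → Vec n) (be : Fin (p + 1) → ℝ) : Vec n :=
  fun r => ∑ l, be l * cols x g l r

theorem comb_eq (x : Vec n) (g : Fin p → Vec n) (be : Fin (p + 1) → ℝ) :
    comb x g be = ∑ l, be l • cols x g l := by
  funext r; simp [comb, Finset.sum_apply]

theorem comb_eq' (x : Vec n) (g : Fin p → Vec n) (be : Fin (p + 1) → ℝ) :
    comb x g be = be 0 • x + ∑ l, be l.succ • g l := by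
  rw [comb_eq, Fin.sum_univ_succ]; simp [cols]

theorem ip_comb (A : Mat n) (x : Vec n) (g : Fin p → Vec n) (be be' : Fin (p + 1) → ℝ) :
    ip (comb x g be) (A *ᵥ comb x g be') =
      ∑ i, ∑ j, be i * be' j * ip (cols x g i) (A *ᵥ cols x g j) := by
  rw [comb_eq, comb_eq, Matrix.mulVec_sum, Rip.ip_dot, sum_dotProduct]
  simp only [Rip.ip_dot, dotProduct_sum, Matrix.mulVec_smul, smul_dotProduct,
    dotProduct_smul, smul_eq_mul, mul_assoc, mul_left_comm (be' _)]

/-- entrywise bounds give a bilinear bound -/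
theorem bilin {A : Mat n} {x : Vec n} {g : Fin p → Vec n} {e e0 : ℝ} (he : 0 ≤ e)
    (h : ∀ i j, |ip (cols x g i) (A *ᵥ cols x g j)| ≤ e + if i = 0 ∧ j = 0 then e0 else 0)
    (be be' : Vec (p + 1)) : |ip (comb x g be) (A *ᵥ comb x g be')| ≤
      (p + 1) * e * (nv be * nv be') + e0 * (|be 0| * |be' 0|) := by
  have h1 : ∀ b : Vec (p + 1), ∑ i, |b i| ≤ √(p + 1) * nv b := by
    intro b
    have h2 := Finset.sum_mul_sq_le_sq_mul_sq Finset.univ (fun _ : Fin (p + 1) => (1 : ℝ))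
      fun i => |b i|
    simp only [one_mul, one_pow, Finset.sum_const, Finset.card_univ, Fintype.card_fin,
      nsmul_eq_mul, mul_one, sq_abs] at h2
    refine (le_abs_self _).trans (abs_le.2 (abs_le_of_sq_le_sq' ?_
      (mul_nonneg (sqrt_nonneg _) (nv_nonneg b))))
    rw [mul_pow, sq_sqrt (by positivity), nv_sq]
    exact_mod_cast h2
  rw [ip_comb]
  have h3 : ∀ i j, |be i * be' j * ip (cols x g i) (A *ᵥ cols x g j)| ≤
      e * (|be i| * |be' j|) + if i = 0 ∧ j = 0 then e0 * (|be 0| * |be' 0|) else 0 := by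
    intro i j
    rw [abs_mul, abs_mul]
    refine (mul_le_mul_of_nonneg_left (h i j) (by positivity)).trans (le_of_eq ?_)
    split_ifs with hc
    · rw [hc.1, hc.2]; ring
    · ring
  refine (Finset.abs_sum_le_sum_abs _ _).trans ((Finset.sum_le_sum fun i _ =>
    (Finset.abs_sum_le_sum_abs _ _).trans (Finset.sum_le_sum fun j _ => h3 i j)).trans ?_)
  simp only [Finset.sum_add_distrib, ← Finset.mul_sum, ← Finset.sum_mul, ite_and,
    Finset.sum_ite_irrel, Finset.sum_ite_eq', Finset.mem_univ, if_true, Finset.sum_const_zero]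
  have h4 : (∑ i, |be i|) * ∑ j, |be' j| ≤ √(p + 1) * nv be * (√(p + 1) * nv be') :=
    mul_le_mul (h1 be) (h1 be') (by positivity) (mul_nonneg (sqrt_nonneg _) (nv_nonneg _))
  have h5 : √(p + 1) * nv be * (√(p + 1) * nv be') = (p + 1) * (nv be * nv be') := by
    rw [mul_mul_mul_comm, mul_self_sqrt (by positivity)]
  have := mul_le_mul_of_nonneg_left (h4.trans h5.le) he
  linarith

/-- **G4**, bilinear form for `VW hc hc`, `hc = clip (comb al)` -/
theorem G4_VW (p : ℕ) : ∃ C : ℝ, 1 ≤ C ∧ ∀ (n : ℕ) (x : Vec n) (cl : ℝ → ℝ) (θ σ a ep : ℝ),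
    0 < n → (∀ r, x r ^ 2 = 1) → IsClip cl θ → 0 < σ → σ ≤ θ → C * θ ^ 2 ≤ 1 → 0 < ep → ep ≤ 1 →
    a ≤ 1 → exp (-(θ ^ 2 / (8 * σ ^ 2))) ≤ θ ^ 2 * ep →
    ∃ B : Set (Fin p → Vec n), MeasurableSet B ∧
      (Measure.pi fun _ : Fin p => gpi (Fin n)).real B ≤
        C * (1 + 2 * σ * √n / (θ ^ 2 * ep)) ^ (p + 1) * exp (-(n * ep ^ 2)) ∧
      ∀ g ∉ B, ∀ al : Vec (p + 1), |al 0| ≤ a → F.sq al ≤ σ ^ 2 → ∀ be be' : Vec (p + 1),
        |ip (comb x g be) (T1A.VW (fun r => cl (comb x g al r)) (fun r => cl (comb x g al r)) *ᵥ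
          comb x g be')| ≤
          C * n * ((θ ^ 2 * ep + σ * a ^ 3) * (nv be * nv be') + a ^ 2 * (|be 0| * |be' 0|)) := by
  obtain ⟨C, hC, h⟩ := G4 p
  have hp : (1 : ℝ) ≤ p + 1 := by linarith [Nat.cast_nonneg (α := ℝ) p]
  have hC' : C ≤ (p + 1) * C := le_mul_of_one_le_left (by linarith) hp
  refine ⟨(p + 1) * C, hC.trans hC', ?_⟩
  intro n x cl θ σ a ep hn hx hc hσ hσθ hθ h0 h1 ha hcl
  have hθ0 : 0 < θ := hσ.trans_le hσθ
  obtain ⟨B, hB, hP, hG⟩ := h n x cl θ σ a ep hn hx hc hσ hσθ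
    ((mul_le_mul_of_nonneg_right hC' (sq_nonneg θ)).trans hθ) h0 h1 ha hcl
  refine ⟨B, hB, hP.trans (by gcongr), fun g hg al g1 g2 be be' => ?_⟩
  have ha0 : 0 ≤ a := (abs_nonneg _).trans g1
  have hn' : (0 : ℝ) ≤ n := Nat.cast_nonneg n
  have key := bilin (A := VV fun r => cl (comb x g al r)) (x := x) (g := g)
    (e := C * n * (θ ^ 2 * ep + σ * a ^ 3)) (e0 := C * n * a ^ 2) (by positivity) (fun i j => by
      refine (hG g hg al g1 g2 i j).trans (le_of_eq ?_)
      split_ifs <;> ring) be be'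
  rw [VV_eq] at key
  refine key.trans ?_
  have t : C * (n * a ^ 2 * (|be 0| * |be' 0|)) ≤
      (p + 1) * C * (n * a ^ 2 * (|be 0| * |be' 0|)) :=
    mul_le_mul_of_nonneg_right hC' (by positivity)
  linarith

end Vale.Agent.N150.Stein
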