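import Vale.Agent.N150.X3a
import Vale.Agent.N150.TG

set_option linter.all false

/-! Base induction of block T1, part b: the site side. -/

open Matrix Finset

namespace Vale.Agent.N150.X3

open Vale.Agent.P150 Vale.Agent.P150.F Vale.Agent.N150.EC Vale.Agent.N150.TG Sc

variable {n : ℕ}

/-- clipping -/
noncomputable def cl (th : ℝ) (v : Vec n) : Vec n := fun k => max (-th) (min th (v k))

theorem abs_cl_le {th : ℝ} (hth : 0 ≤ th) (v : Vec n) (k : Fin n) : |cl th v k| ≤ th :=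
  abs_le.2 ⟨le_max_left _ _, max_le (by linarith) (min_le_left _ _)⟩

theorem cl_lip (th : ℝ) (u v : Vec n) (k : Fin n) : |cl th u k - cl th v k| ≤ |u k - v k| := by
  unfold cl
  rw [max_comm (-th), max_comm (-th)]
  refine (abs_max_sub_max_le_abs _ _ _).trans ?_
  rw [min_comm th, min_comm th]
  have h1 := abs_min_sub_min_le_max (u k) th (v k) th
  simpa using h1

theorem abs_cl_le_abs {th : ℝ} (hth : 0 ≤ th) (v : Vec n) (k : Fin n) : |cl th v k| ≤ |v k| := by
  have h := cl_lip th v 0 k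
  have e : cl th (0 : Vec n) k = 0 := by
    simp only [cl, Pi.zero_apply]
    rw [min_eq_right hth, max_eq_right (by linarith)]
  simpa [e] using h

/-- the clipped point is the nearest point of the cube -/
theorem abs_sub_cl_le {th : ℝ} (v : Vec n) (k : Fin n) {a : ℝ} (ha : |a| ≤ th) :
    |v k - cl th v k| ≤ |v k - a| := by
  unfold cl
  rw [abs_le] at ha
  rcases le_total (v k) th with h1 | h1
  · rw [min_eq_right h1]
    rcases le_total (-th) (v k) with h2 | h2
    · rw [max_eq_right h2]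
      simp
    · rw [max_eq_left h2, abs_of_nonpos (by linarith), abs_of_nonpos (by linarith)]
      linarith
  · rw [min_eq_left h1, max_eq_right (by linarith), abs_of_nonneg (by linarith),
      abs_of_nonneg (by linarith)]
    linarith

variable {ι : Type} [Fintype ι] [DecidableEq ι]

/-- the events on the site side -/
structure SD (S : Sc) (G : ι → Vec n) (o : ι) (th T a0 sg : ℝ) : Prop where
  hn : 0 < n
  card : (Fintype.card ι : ℝ) ≤ S.K
  hG : ∀ i, S.V 1 0 (G i)
  hexc : ∀ i, exc T (G i) ≤ n * S.B 2 12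
  T0 : 0 ≤ T
  hT : T ≤ S.K
  th0 : 0 ≤ th
  hth : th ^ 2 ≤ S.B 1 4
  sg0 : 0 ≤ sg
  hsg : sg ≤ S.B 1 2
  hcl : sg ^ 2 * (Fintype.card ι * T) ≤ th ^ 2
  stein : ∀ al : ι → ℝ, |al o| ≤ a0 → ∑ i, al i ^ 2 ≤ sg ^ 2 → ∀ i j,
    |ipn (G i) (va (cl th (lc G al)) (G j))| ≤ S.B 2 10 + if i = o ∧ j = o then S.B 2 8 else 0

/-- representation by the columns -/
def SR (S : Sc) (G : ι → Vec n) (o : ι) (p : ℕ) (j : ℤ) (D : Vec n) : Prop :=
  ∃ be : ι → ℝ, (∀ i, S.O p j (be i)) ∧ S.O p (j + 2) (be o) ∧ S.V p (j + 6) (D - lc G be)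

/-- close to a clipped admissible combination -/
def Near (S : Sc) (G : ι → Vec n) (o : ι) (th a0 sg : ℝ) (h : Vec n) : Prop :=
  ∃ al : ι → ℝ, |al o| ≤ a0 ∧ ∑ i, al i ^ 2 ≤ sg ^ 2 ∧ S.V 8 8 (h - cl th (lc G al))

variable {S : Sc} {G : ι → Vec n} {o : ι} {th T a0 sg : ℝ}

theorem V_lc (hc : (Fintype.card ι : ℝ) ≤ S.K) {p q : ℕ} {j k : ℤ} {be : ι → ℝ}
    (hb : ∀ i, S.O p j (be i)) (hG : ∀ i, S.V q k (G i)) : S.V (p + q + 1) (j + k) (lc G be) :=
  V.sum hc fun i => V.smul (hb i) (hG i)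

theorem SR.mono {p q : ℕ} {j k : ℤ} {D : Vec n} (h : SR S G o p j D) (hp : p ≤ q) (hj : k ≤ j) :
    SR S G o q k D := by
  obtain ⟨be, h1, h2, h3⟩ := h
  exact ⟨be, fun i => (h1 i).mono hp hj, h2.mono hp (by omega), h3.mono hp (by omega)⟩

theorem SR.add {p q : ℕ} {j k : ℤ} {D E : Vec n} (h : SR S G o p j D) (h' : SR S G o q k E) :
    SR S G o (max p q + 1) (min j k) (D + E) := by
  obtain ⟨be, h1, h2, h3⟩ := h
  obtain ⟨ga, g1, g2, g3⟩ := h'
  refine ⟨be + ga, fun i => (h1 i).add (g1 i), (h2.add g2).mono le_rfl (by omega),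
    ((h3.add g3).mono le_rfl (by omega)).congr ?_⟩
  rw [lc_add]
  abel

theorem SR.smul {p : ℕ} {j : ℤ} {D : Vec n} (h : SR S G o p j D) {c : ℝ} (hc : |c| ≤ 1) :
    SR S G o p j (c • D) := by
  obtain ⟨be, h1, h2, h3⟩ := h
  have hc' : S.O 0 0 c := O.one_le hc
  refine ⟨c • be, fun i => (hc'.mul (h1 i)).mono (by omega) (by omega),
    (hc'.mul h2).mono (by omega) (by omega),
    ((V.smul hc' h3).mono (by omega) (by omega)).congr ?_⟩
  rw [lc_smul, smul_sub]

theorem SR.sm {c p q : ℕ} {j k : ℤ} {D : Vec n} (h : SR S G o p j D) (hs : S.Sm c) (m : ℕ)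
    (hp : p ≤ q + c * m) (hj : k + m ≤ j) : SR S G o q k D := by
  obtain ⟨be, h1, h2, h3⟩ := h
  exact ⟨be, fun i => (h1 i).sm hs m hp hj, h2.sm hs m hp (by omega), h3.sm hs m hp (by omega)⟩

theorem SR.zero (p : ℕ) (j : ℤ) : SR S G o p j 0 :=
  ⟨0, fun _ => O.zero, O.zero, V.zero.congr (by simp [lc])⟩

namespace SD

variable (H : SD S G o th T a0 sg)
include H

theorem npos : (0 : ℝ) < n := by exact_mod_cast H.hn

theorem sr_V {p : ℕ} {j : ℤ} {D : Vec n} (h : SR S G o p j D) : S.V (p + 3) j D := by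
  obtain ⟨be, h1, -, h3⟩ := h
  refine (((V_lc H.card h1 H.hG).add h3).mono (by omega) (by omega)).congr ?_
  abel

theorem al_O {al : ι → ℝ} (h : ∑ i, al i ^ 2 ≤ sg ^ 2) (i : ι) : S.O 1 2 (al i) := by
  have h1 : al i ^ 2 ≤ sg ^ 2 :=
    (Finset.single_le_sum (f := fun i => al i ^ 2) (fun i _ => sq_nonneg _)
      (Finset.mem_univ i)).trans h
  exact (abs_le_of_sq_le_sq' h1 H.sg0 |> abs_le.2).trans H.hsg

theorem lc_V {al : ι → ℝ} (h : ∑ i, al i ^ 2 ≤ sg ^ 2) : S.V 3 2 (lc G al) :=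
  (V_lc H.card (H.al_O h) H.hG).mono (by omega) (by omega)

theorem cl_V {al : ι → ℝ} (h : ∑ i, al i ^ 2 ≤ sg ^ 2) : S.V 3 2 (cl th (lc G al)) :=
  (H.lc_V h).of_abs_le (abs_cl_le_abs H.th0 _)

/-- clipping moves an admissible combination very little -/
theorem lc_sub_cl {al : ι → ℝ} (h : ∑ i, al i ^ 2 ≤ sg ^ 2) :
    S.V 3 8 (lc G al - cl th (lc G al)) := by
  refine V.of_sq (O.of_nonneg (div_nonneg (sqN_nonneg _) H.npos.le) ?_)
  have h1 : F.sq (lc G al - cl th (lc G al)) ≤ exc (th ^ 2) (lc G al) := exc_clip H.th0 _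
  have h2 := exc_lc_le H.hexc h H.hcl
  have h3 : S.O 2 4 (sg ^ 2) := by
    have := (O.of_nonneg H.sg0 H.hsg).mul (O.of_nonneg H.sg0 H.hsg)
    rw [pow_two]
    exact this
  have h4 : S.O 1 0 (Fintype.card ι : ℝ) := O.of_K (by rw [Nat.abs_cast]; exact H.card)
  have h5 : S.O 2 12 (S.B 2 12) := O.of_nonneg (B_pos _ _).le le_rfl
  have h6 := ((h3.mul (h4.mul h5)).mono (q := 2 * 3) (k := 2 * 8) (by omega) (by omega)).le
  rw [div_le_iff₀ H.npos]
  have := H.npos
  nlinarith

theorem near_of {h : Vec n} {al : ι → ℝ} (h0 : |al o| ≤ a0) (h1 : ∑ i, al i ^ 2 ≤ sg ^ 2)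
    (h2 : S.V 7 8 (h - lc G al)) : Near S G o th a0 sg h :=
  ⟨al, h0, h1, ((h2.add (H.lc_sub_cl h1)).mono (by omega) (by omega)).congr (by abel)⟩

/-- the clipped point is again near -/
theorem near_cl {h : Vec n} (hh : Near S G o th a0 sg h) : Near S G o th a0 sg (cl th h) := by
  obtain ⟨al, h0, h1, h2⟩ := hh
  refine ⟨al, h0, h1, h2.of_abs_le fun k => ?_⟩
  have h3 := cl_lip th h (cl th (lc G al)) k
  have e : cl th (cl th (lc G al)) k = cl th (lc G al) k := by
    have := abs_le.1 (abs_cl_le H.th0 (lc G al) k)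
    show max (-th) (min th (cl th (lc G al) k)) = _
    rw [min_eq_right this.2, max_eq_right this.1]
  rw [e] at h3
  simpa using h3

theorem near_sub_cl {h : Vec n} (hh : Near S G o th a0 sg h) : S.V 8 8 (h - cl th h) := by
  obtain ⟨al, -, -, h2⟩ := hh
  exact h2.of_abs_le fun k => abs_sub_cl_le h k (abs_cl_le H.th0 _ k)

theorem near_V (hs : S.Sm 10) {h : Vec n} (hh : Near S G o th a0 sg h) : S.V 4 2 h := by
  obtain ⟨al, -, h1, h2⟩ := hh
  refine (((H.cl_V h1).add (h2.sm (q := 3) (k := 2) hs 1 (by omega) (by omega))).mono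
    (by omega) (by omega)).congr ?_
  abel

end SD

/-! ### consequences of a norm bound -/

theorem tm_V {p : ℕ} {j : ℤ} {h : Vec n} (hh : S.V p j h) : S.V p j (tm h) :=
  hh.of_le (nn_tm_le h)

theorem md_V {p : ℕ} {j : ℤ} {h : Vec n} (hh : S.V p j h) : S.V p j (tm h * dv h) :=
  (tm_V hh).of_abs_le fun i => by
    rw [Pi.mul_apply, abs_mul, abs_of_pos (dv_pos' h i)]
    exact mul_le_of_le_one_right (abs_nonneg _) (dv_le' h i)

theorem one_sub_wb (hn : 0 < n) {p : ℕ} {j : ℤ} {h : Vec n} (hh : S.V p j h) :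
    S.O (2 * p) (2 * j) (1 - wb h) := by
  rw [wb_eq hn, sub_sub_cancel]
  exact (tm_V hh).sq

theorem half_le_wb (hn : 0 < n) (hs : S.Sm 10) {h : Vec n} (hh : S.V 4 2 h) : 1 / 2 ≤ wb h := by
  have h1 := ((one_sub_wb hn hh).mono (q := 8) (k := 4) (by omega) (by omega)).le
  have h2 := B_half hs (p := 8) (j := 4) (by omega) (by omega)
  linarith

theorem inv_O {w : ℝ} (hw : 1 / 2 ≤ w) : S.O 1 0 w⁻¹ := by
  refine O.of_K ?_
  have h0 : 0 < w := by linarith
  rw [abs_of_pos (inv_pos.2 h0), inv_le_comm₀ h0 K0]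
  have : S.K⁻¹ ≤ 1 / 2 := by
    rw [inv_le_comm₀ K0 (by norm_num)]
    simpa using S.hK
  linarith

theorem two_div_O {w : ℝ} (hw : 1 / 2 ≤ w) : S.O 2 0 (2 / w) := by
  rw [div_eq_mul_inv]
  exact O.two.mul (inv_O hw)

theorem wb_sub (hn : 0 < n) (h h' : Vec n) :
    wb h - wb h' = -ipn (tm h - tm h') (tm h + tm h') := by
  rw [wb_eq hn, wb_eq hn, ipn_sub_left, ipn_add_right, ipn_add_right, ipn_self, ipn_self,
    ipn_comm (tm h') (tm h)]
  ring

theorem abs_dw_le (hn : 0 < n) (h : Vec n) (i : Fin n) : |dv h i - wb h| ≤ 1 := by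
  rw [abs_le]
  constructor <;> linarith [dv_pos' h i, dv_le' h i, wb_pos hn h, wb_le hn h]

namespace SD

variable (H : SD S G o th T a0 sg)
include H

/-- the diagonal part on a column -/
theorem diag_col (hs : S.Sm 10) {h : Vec n} (hh : Near S G o th a0 sg h) (i : ι) :
    S.V 10 4 ((fun k => dv h k - wb h) * G i) := by
  have hV := H.near_V hs hh
  obtain ⟨al, -, h1, h2⟩ := hh
  set hc := cl th (lc G al) with hhc
  set mu : Vec n := fun k => (Real.tanh (h k) - Real.tanh (hc k)) ^ 2 with hmu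
  have a1 : ∀ k, mu k ≤ 4 := fun k => by
    have b1 := abs_le.1 (abs_tanh_lt (h k)).le
    have b2 := abs_le.1 (abs_tanh_lt (hc k)).le
    simp only [hmu]
    nlinarith
  have a0 : ∀ k, 0 ≤ mu k := fun k => sq_nonneg _
  have a2 : ∀ k, mu k ≤ (h - hc) k ^ 2 := fun k => sq_le_sq.2 (tanh_lip _ _)
  have a3 : S.V 0 4 (mu * G i) := by
    refine V.of_sq (O.of_nonneg (div_nonneg (sqN_nonneg _) H.npos.le) ?_)
    have b1 := exc_abel (t := T) (M := 16) (G i) (W := fun k => mu k ^ 2) fun k => by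
      rw [abs_of_nonneg (sq_nonneg _)]
      nlinarith [a1 k, a0 k]
    have b2 : F.sq (mu * G i) = ∑ k, |mu k ^ 2| * G i k ^ 2 := by
      unfold F.sq
      refine Finset.sum_congr rfl fun k _ => ?_
      rw [abs_of_nonneg (sq_nonneg _), Pi.mul_apply, mul_pow]
    have b3 : ∑ k, |mu k ^ 2| ≤ 4 * F.sq (h - hc) := by
      unfold F.sq
      rw [Finset.mul_sum]
      refine Finset.sum_le_sum fun k _ => ?_
      rw [abs_of_nonneg (sq_nonneg _)]
      nlinarith [a1 k, a0 k, a2 k]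
    have b4 : F.sq (h - hc) = n * nn (h - hc) ^ 2 := by
      rw [nn_sq]
      field_simp [H.npos.ne']
    have b5 : S.O 1 0 T := O.of_K (by rw [abs_of_nonneg H.T0]; exact H.hT)
    have b6 : S.O 2 12 (S.B 2 12) := O.of_nonneg (B_pos _ _).le le_rfl
    have b7 := ((((O.two.mul O.two).mul (b5.mul h2.sq)).add
      (((O.two.mul O.two).mul (O.two.mul O.two)).mul b6)).sm (q := 2 * 0) (k := 2 * 4) hs 4
      (by omega) (by omega)).le
    rw [div_le_iff₀ H.npos, b2]
    have b8 := H.hexc i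
    have b9 := mul_le_mul_of_nonneg_left b3 H.T0
    have := H.npos
    rw [b4] at b9
    nlinarith
  have a4 : S.O 1 4 (th ^ 2) := O.of_nonneg (sq_nonneg _) H.hth
  have a5 : S.V 4 4 ((fun k => Real.tanh (h k) ^ 2) * G i) := by
    have b1 : S.V 4 4 ((2 * th ^ 2) • (fun k => |G i k|) + (2 : ℝ) • fun k => |(mu * G i) k|) :=
      ((V.smul (O.two.mul a4) ((H.hG i).of_abs_le fun k => (abs_abs _).le)).add
        (V.smul O.two (a3.of_abs_le fun k => (abs_abs _).le))).mono (by omega) (by omega)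
    refine b1.of_abs_le fun k => ?_
    have c1 : Real.tanh (h k) ^ 2 ≤ 2 * th ^ 2 + 2 * mu k := by
      have d1 : Real.tanh (hc k) ^ 2 ≤ th ^ 2 :=
        sq_le_sq.2 (((abs_tanh_le _).trans (abs_cl_le H.th0 _ k)).trans (le_abs_self th))
      simp only [hmu]
      nlinarith [sq_nonneg (Real.tanh (h k) - 2 * Real.tanh (hc k))]
    simp only [Pi.mul_apply, Pi.add_apply, Pi.smul_apply, smul_eq_mul, abs_mul]
    rw [abs_of_nonneg (sq_nonneg _), abs_of_nonneg (a0 k)]
    refine le_trans ?_ (le_abs_self _)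
    nlinarith [abs_nonneg (G i k)]
  refine (((V.smul (one_sub_wb H.hn hV) (H.hG i)).sub a5).mono (by omega) (by omega)).congr ?_
  funext k
  simp only [Pi.mul_apply, Pi.sub_apply, Pi.smul_apply, smul_eq_mul, dv]
  ring

/-- size of `VW(h,h) D` -/
theorem va_V (hs : S.Sm 10) {h : Vec n} (hh : Near S G o th a0 sg h) {p : ℕ} {j : ℤ} {D : Vec n}
    (hD : SR S G o p j D) : S.V (p + 14) (j + 4) (va h D) := by
  have hV := H.near_V hs hh
  have hDV := H.sr_V hD
  obtain ⟨be, h1, -, h3⟩ := hD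
  have a1 : S.V (p + 10 + 1) (j + 4) (lc (fun i => (fun k => dv h k - wb h) * G i) be) :=
    V_lc H.card h1 (H.diag_col hs hh)
  have a2 := V.mul (c := fun k => dv h k - wb h) (fun k => O.one_le (abs_dw_le H.hn h k)) h3
  have a3 := V.smul ((two_div_O (half_le_wb H.hn hs hV)).mul ((md_V hV).ip hDV)) (tm_V hV)
  refine (((a1.add a2).add a3).mono (by omega) (by omega)).congr ?_
  unfold va
  congr 1
  funext k
  simp only [lc_apply, Pi.mul_apply, Pi.add_apply, Pi.sub_apply, mul_sub, Finset.mul_sum]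
  rw [add_comm, sub_add, ← Finset.sum_sub_distrib]
  simp only [mul_left_comm, sub_self, Finset.sum_const_zero, sub_zero]

/-- perturbation of the reference point and the Stein bound on columns -/
theorem va_col (hs : S.Sm 10) {h : Vec n} (hh : Near S G o th a0 sg h) (i j : ι) :
    |ipn (G i) (va h (G j))| ≤ S.B 20 10 + if i = o ∧ j = o then S.B 2 8 else 0 := by
  have hV := H.near_V hs hh
  obtain ⟨al, h0, h1, h2⟩ := hh
  have hst := H.stein al h0 h1 i j
  have hcV := (H.cl_V h1).mono (q := 4) (by omega) le_rfl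
  set hc := cl th (lc G al) with hhc
  have m1 := tm_V hV
  have m2 := tm_V hcV
  have dm : S.V 8 8 (tm h - tm hc) := h2.of_le (nn_tm_sub_le _ _)
  have w1 := half_le_wb H.hn hs hV
  have w2 := half_le_wb H.hn hs hcV
  have dw : S.O 13 10 (wb h - wb hc) := by
    rw [wb_sub H.hn]
    exact (dm.ip (m1.add m2)).neg.mono (by omega) (by omega)
  have dmd : S.V 9 8 (tm h * dv h - tm hc * dv hc) := by
    refine ((V.smul O.two dm).mono (by omega) (by omega)).of_abs_le fun k => ?_
    have b1 := abs_le.1 (abs_tanh_lt (h k)).le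
    have b2 := abs_le.1 (abs_tanh_lt (hc k)).le
    simp only [Pi.mul_apply, Pi.sub_apply, Pi.smul_apply, smul_eq_mul, tm, dv]
    have e : Real.tanh (h k) * (1 - Real.tanh (h k) ^ 2) -
        Real.tanh (hc k) * (1 - Real.tanh (hc k) ^ 2) = (1 - (Real.tanh (h k) ^ 2 +
        Real.tanh (h k) * Real.tanh (hc k) + Real.tanh (hc k) ^ 2)) *
        (Real.tanh (h k) - Real.tanh (hc k)) := by ring
    rw [e, abs_mul, abs_mul, abs_two]
    refine mul_le_mul_of_nonneg_right (abs_le.2 ⟨?_, ?_⟩) (abs_nonneg _)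
    · nlinarith
    · nlinarith [sq_nonneg (Real.tanh (h k) + Real.tanh (hc k))]
  -- the diagonal difference
  set W : Vec n := fun k => Real.tanh (hc k) ^ 2 - Real.tanh (h k) ^ 2 with hW
  have d1 : S.O 15 10 (ipn (G i) (W * G j)) := by
    have b1 := exc_bil (t := T) (M := 1) (W := W) (fun k => by
      rw [abs_le]
      constructor <;> simp only [hW] <;> nlinarith [tanh_sq_lt (h k), tanh_sq_lt (hc k),
        sq_nonneg (Real.tanh (h k)), sq_nonneg (Real.tanh (hc k))]) zero_le_one (H.hexc i) (H.hexc j)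
    have b2 : ∑ k, |W k| = n * ipn (fun k => |(tm h - tm hc) k|) fun k => |(tm h + tm hc) k| := by
      unfold ipn ip
      rw [mul_div_cancel₀ _ H.npos.ne']
      refine Finset.sum_congr rfl fun k _ => ?_
      rw [← abs_mul, ← abs_neg]
      congr 1
      simp only [hW, Pi.sub_apply, Pi.add_apply, tm]
      ring
    have b3 := (dm.of_abs_le (u := fun k => |(tm h - tm hc) k|) fun k => (abs_abs _).le).ip
      ((m1.add m2).of_abs_le (u := fun k => |(tm h + tm hc) k|) fun k => (abs_abs _).le)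
    have b5 : S.O 1 0 T := O.of_K (by rw [abs_of_nonneg H.T0]; exact H.hT)
    have b6 : S.O 2 12 (S.B 2 12) := O.of_nonneg (B_pos _ _).le le_rfl
    have b7 := (((b5.mul b3).add b6).mono (q := 15) (k := 10) (by omega) (by omega)).le
    have b8 : ipn (G i) (W * G j) = (∑ k, W k * (G i k * G j k)) / n := by
      unfold ipn ip
      congr 1
      exact Finset.sum_congr rfl fun k _ => by rw [Pi.mul_apply]; ring
    unfold O
    rw [b8, abs_div, abs_of_pos H.npos, div_le_iff₀ H.npos]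
    rw [b2] at b1
    have := H.npos
    nlinarith
  have d2 := dw.mul ((H.hG i).ip (H.hG j))
  have d3 := ((two_div_O (S := S) w1).mul ((md_V hV).ip (H.hG j))).mul ((H.hG i).ip dm)
  have d4 := ((two_div_O (S := S) w1).mul (dmd.ip (H.hG j))).mul ((H.hG i).ip m2)
  have d5 := (((two_div_O (S := S) w1).mul ((inv_O (S := S) w2).mul dw)).mul
    ((md_V hcV).ip (H.hG j))).mul ((H.hG i).ip m2)
  have d6 := ((((d1.sub d2).add d3).add d4).sub (d5.sm (q := 10) (k := 10) hs 4 (by omega)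
    (by omega))).mono (q := 19) (k := 10) (by omega) (by omega)
  have e : ipn (G i) (va h (G j)) = ipn (G i) (va hc (G j)) + (ipn (G i) (W * G j) -
      (wb h - wb hc) * ipn (G i) (G j) +
      2 / wb h * ipn (tm h * dv h) (G j) * ipn (G i) (tm h - tm hc) +
      2 / wb h * ipn (tm h * dv h - tm hc * dv hc) (G j) * ipn (G i) (tm hc) -
      2 / wb h * ((wb hc)⁻¹ * (wb h - wb hc)) * ipn (tm hc * dv hc) (G j) * ipn (G i) (tm hc)) := by
    have e1 : (fun k => dv h k - wb h) * G j =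
        (fun k => dv hc k - wb hc) * G j + W * G j - (wb h - wb hc) • G j := by
      funext k
      simp only [hW, Pi.mul_apply, Pi.add_apply, Pi.sub_apply, Pi.smul_apply, smul_eq_mul, dv]
      ring
    unfold va
    rw [e1]
    simp only [ipn_add_right, ipn_sub_right, ipn_smul_right, ipn_sub_left]
    have := (wb_pos H.hn h).ne'
    have := (wb_pos H.hn hc).ne'
    field_simp
    ring
  rw [e]
  refine (abs_add_le _ _).trans ?_
  have h9 := B_add (S := S) 2 19 10 10
  have h10 : S.B (max 2 19 + 1) (min 10 10) = S.B 20 10 := by norm_num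
  unfold O at d6
  linarith

/-- component of `VW(h,h) D` along a direction close to a column -/
theorem va_ip (hs : S.Sm 10) {h : Vec n} (hh : Near S G o th a0 sg h) {p : ℕ} {j : ℤ} {D : Vec n}
    (hD : SR S G o p j D) {E : Vec n} {i : ι} (hE : S.V 1 6 (E - G i)) :
    S.O (p + 24) (j + 10) (ipn E (va h D)) := by
  have hV := H.near_V hs hh
  have a0 := hE.ip (H.va_V hs hh hD)
  obtain ⟨be, h1, h2, h3⟩ := hD
  have a1 : S.O (p + 21 + 1) (j + 10) (∑ l, be l * ipn (G i) (va h (G l))) := by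
    refine O.sum H.card fun l => ?_
    have b1 := H.va_col hs hh i l
    by_cases hl : i = o ∧ l = o
    · rw [if_pos hl] at b1
      have b2 : S.O 21 8 (ipn (G i) (va h (G l))) :=
        b1.trans ((B_add _ _ _ _).trans (B_mono (by omega) (by omega)))
      rw [hl.2] at b2 ⊢
      exact (h2.mul b2).mono (by omega) (by omega)
    · rw [if_neg hl, add_zero] at b1
      exact ((h1 l).mul (show S.O 20 10 _ from b1)).mono (by omega) (by omega)
  have a2 := (H.diag_col hs hh i).ip h3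
  have a3 := ((two_div_O (half_le_wb H.hn hs hV)).mul ((md_V hV).ip h3)).mul
    ((H.hG i).ip (tm_V hV))
  refine ((a0.add (a1.add (a2.add a3))).mono (by omega) (by omega)).congr ?_
  have e1 : va h D = va h (lc G be) + va h (D - lc G be) := by
    rw [← va_add, add_sub_cancel]
  have e2 : ipn (G i) (va h (lc G be)) = ∑ l, be l * ipn (G i) (va h (G l)) := by
    unfold lc
    rw [va_sum, ipn_sum_right]
    exact Finset.sum_congr rfl fun l _ => by rw [va_smul, ipn_smul_right]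
  have e3 : ipn (G i) (va h (D - lc G be)) =
      ipn ((fun k => dv h k - wb h) * G i) (D - lc G be) +
        2 / wb h * ipn (tm h * dv h) (D - lc G be) * ipn (G i) (tm h) := by
    unfold va
    rw [ipn_add_right, ipn_mul, ipn_smul_right]
  rw [ipn_sub_left, ← e2, ← e3, ← ipn_add_right, ← e1]
  ring

/-- size and components of an increment of `chi` -/
theorem chi_step (hs : S.Sm 10) {h D : Vec n} {p : ℕ} {j : ℤ}
    (hh : ∀ τ : ℝ, 0 ≤ τ → τ ≤ 1 → Near S G o th a0 sg (h + τ • D)) (hD : SR S G o p j D) :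
    S.V (p + 15) (j + 4) (chi (h + D) - chi h) ∧
      ∀ (E : Vec n) (i : ι), S.V 1 6 (E - G i) →
        S.O (p + 25) (j + 10) (ipn E (chi (h + D) - chi h)) := by
  constructor
  · obtain ⟨τ, t0, t1, e⟩ := chi_mvt H.hn h D (chi (h + D) - chi h)
    have a1 := V.smul (inv_O (S := S) (half_le_wb H.hn hs (H.near_V hs (hh τ t0 t1))))
      (H.va_V hs (hh τ t0 t1) hD)
    rw [← ipn_smul_right, ipn_self] at e
    have a2 := abs_ipn_le (chi (h + D) - chi h) ((wb (h + τ • D))⁻¹ • va (h + τ • D) D)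
    rw [← e, abs_of_nonneg (sq_nonneg _), pow_two] at a2
    refine (a1.mono (by omega) (by omega)).of_le ?_
    rcases (nn_nonneg (chi (h + D) - chi h)).eq_or_lt with h0 | h0
    · rw [← h0]
      exact nn_nonneg _
    · exact le_of_mul_le_mul_left a2 h0
  · intro E i hE
    obtain ⟨τ, t0, t1, e⟩ := chi_mvt H.hn h D E
    rw [e]
    exact ((inv_O (S := S) (half_le_wb H.hn hs (H.near_V hs (hh τ t0 t1)))).mul
      (H.va_ip hs (hh τ t0 t1) hD hE)).mono (by omega) (by omega)

end SD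

end Vale.Agent.N150.X3
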