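import Vale.Agent.N150.Stein5
import Vale.Agent.N150.X3b

/-! P150, block T1, lemma G4 in the shape of the field `stein` of `X3.SD`. -/

open MeasureTheory Real Filter Topology
open scoped Matrix
open Vale.Agent.P150 Vale.Agent.P150.F Vale.Agent.N150.EC Vale.Agent.N150.TG

namespace Vale.Agent.N150.Stein

variable {p n : ℕ}

theorem isClip_min {θ : ℝ} (hθ : 0 ≤ θ) : IsClip (fun y => max (-θ) (min θ y)) θ := by
  simpa only [min_comm θ] using isClip_max_min hθ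

theorem va_eq (h v : Vec n) : X3.va h v = VV h *ᵥ v := by
  funext r
  simp only [X3.va, X3.ipn, ip, VV, Matrix.add_mulVec, Matrix.smul_mulVec, Pi.add_apply,
    Pi.smul_apply, Pi.mul_apply, Matrix.mulVec_diagonal, Matrix.vecMulVec_mulVec, smul_eq_mul,
    dotProduct, MulOpposite.smul_eq_mul_unop, MulOpposite.unop_op]
  ring

/-- the event of G4 -/
def StEv (x : Vec n) (θ σ a e1 e0 : ℝ) (g : Fin p → Vec n) : Prop :=
  ∀ al : Fin (p + 1) → ℝ, |al 0| ≤ a → ∑ i, al i ^ 2 ≤ σ ^ 2 → ∀ i j,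
    |X3.ipn ((Fin.cons x g : Fin (p + 1) → Vec n) i)
      (X3.va (X3.cl θ (lc (Fin.cons x g : Fin (p + 1) → Vec n) al))
        ((Fin.cons x g : Fin (p + 1) → Vec n) j))| ≤ e1 + if i = 0 ∧ j = 0 then e0 else 0

theorem stEv_tail (p : ℕ) : ∃ C : ℝ, 1 ≤ C ∧ ∀ (n : ℕ) (x : Vec n) (θ σ a ep e1 e0 : ℝ), 0 < n →
    (∀ r, x r = 1 ∨ x r = -1) → 0 < σ → σ ≤ θ → C * θ ^ 2 ≤ 1 → 0 < ep → ep ≤ 1 → a ≤ 1 →
    exp (-(θ ^ 2 / (8 * σ ^ 2))) ≤ θ ^ 2 * ep → C * (θ ^ 2 * ep + σ * a ^ 3) ≤ e1 →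
    C * a ^ 2 ≤ e0 →
    (gf (Fin p) n).real {g | ¬StEv x θ σ a e1 e0 g} ≤
      C * (1 + 2 * σ * √n / (θ ^ 2 * ep)) ^ (p + 1) * exp (-(n * ep ^ 2)) := by
  obtain ⟨C, hC, h⟩ := G4 p
  refine ⟨C, hC, fun n x θ σ a ep e1 e0 hn hx hσ hσθ hθ h0 h1 ha hcl he1 he0 => ?_⟩
  obtain ⟨B, -, hP, hG⟩ := h n x _ θ σ a ep hn (fun r => sq_eq_one_iff.2 (hx r))
    (isClip_min (hσ.le.trans hσθ)) hσ hσθ hθ h0 h1 ha hcl
  refine (measureReal_mono (fun g hg => ?_) (measure_ne_top _ _)).trans hP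
  by_contra hB
  refine hg fun al g1 g2 i j => ?_
  have hn' : (0 : ℝ) < n := Nat.cast_pos.2 hn
  have key := hG g hB al g1 g2 i j
  have e : X3.cl θ (lc (Fin.cons x g : Fin (p + 1) → Vec n) al) =
      fun r => max (-θ) (min θ (∑ l, al l * cols x g l r)) := by
    funext r; rw [X3.cl, lc_apply]; rfl
  rw [X3.ipn, va_eq, e, abs_div, abs_of_pos hn', div_le_iff₀ hn']
  refine key.trans ?_
  rw [mul_right_comm]
  refine mul_le_mul_of_nonneg_right ?_ hn'.le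
  split_ifs <;> linarith

theorem ev_exp (k : ℕ) : ∀ᶠ t in 𝓝[>] (0 : ℝ), exp (-(1 / (8 * t))) ≤ t ^ k := by
  have h := (tendsto_pow_mul_exp_neg_atTop_nhds_zero k).comp
    (tendsto_inv_nhdsGT_zero.atTop_div_const (by norm_num : (0 : ℝ) < 8))
  filter_upwards [h.eventually (gt_mem_nhds (by positivity : (0 : ℝ) < (1 / 8) ^ k)),
    self_mem_nhdsWithin] with t h1 (ht : 0 < t)
  have h2 : (t⁻¹ / 8) ^ k * exp (-(t⁻¹ / 8)) < (1 / 8) ^ k := h1
  have e : 1 / (8 * t) = t⁻¹ / 8 := by field_simp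
  have e2 : (1 / 8 : ℝ) ^ k = (t⁻¹ / 8) ^ k * t ^ k := by
    rw [← mul_pow]; congr 1; field_simp
  rw [e2] at h2
  rw [e]
  exact (lt_of_mul_lt_mul_left h2 (by positivity)).le

/-- G4 in the unit of `T1Def`: `θ = t ^ 71999`, any `σ ^ 2 ≤ t ^ 143999`, `a ≤ t ^ 143999` -/
theorem stEv_T1 (p : ℕ) : ∀ᶠ t : ℝ in 𝓝[>] (0 : ℝ), ∀ (n : ℕ) (x : Vec n) (σ a e1 e0 : ℝ),
    1 ≤ n * t ^ 431998 → (∀ r, x r = 1 ∨ x r = -1) → σ ^ 2 ≤ t ^ 143999 → a ≤ t ^ 143999 →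
    t ^ 359995 ≤ e1 → t ^ 287997 ≤ e0 →
    (gf (Fin p) n).real {g | ¬StEv x (t ^ 71999) σ a e1 e0 g} ≤
      (n : ℝ) ^ (2 * p + 3) * exp (-(n * t ^ 431996)) := by
  obtain ⟨C, hC, h⟩ := stEv_tail p
  have hs : ∀ᶠ t in 𝓝[>] (0 : ℝ), t < 1 / (4 * C) :=
    (eventually_lt_nhds (by positivity)).filter_mono nhdsWithin_le_nhds
  filter_upwards [ev_exp 359996, hs, self_mem_nhdsWithin] with t h1 h2 (ht : 0 < t)
  intro n x σ a e1 e0 hn hx hσ ha he1 he0
  have hCt : 4 * C * t ≤ 1 := by rw [lt_div_iff₀ (by positivity)] at h2; linarith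
  have ht4 : t ≤ 1 / 4 := by nlinarith
  have ht1 : t ≤ 1 := by linarith
  have pw : ∀ {i j : ℕ}, i ≤ j → t ^ j ≤ t ^ i := fun hij => pow_le_pow_of_le_one ht.le ht1 hij
  have hn0 : 0 < n := by
    rcases Nat.eq_zero_or_pos n with h0 | h0
    · rw [h0] at hn; norm_num at hn
    · exact h0
  have hn1 : (1 : ℝ) ≤ n := by exact_mod_cast hn0
  have hC0 : 0 ≤ C := by linarith
  have q1 : √(t ^ 143999) ^ 2 = t ^ 143999 := sq_sqrt (by positivity)
  have q2 : √(t ^ 143999) ≤ t ^ 71999 :=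
    sqrt_le_iff.2 ⟨by positivity, by rw [← pow_mul]; exact pw (by norm_num)⟩
  have q0 : 0 < √(t ^ 143999) := sqrt_pos.2 (by positivity)
  have q3 : (t ^ 71999) ^ 2 * t ^ 215998 = t ^ 359996 := by rw [← pow_mul, ← pow_add]
  have mulC : ∀ k : ℕ, 4 * (C * t ^ (k + 1)) ≤ t ^ k := fun k => by
    calc 4 * (C * t ^ (k + 1)) = 4 * C * t * t ^ k := by rw [pow_succ]; ring
      _ ≤ t ^ k := mul_le_of_le_one_left (by positivity) hCt
  have key := h n x (t ^ 71999) (√(t ^ 143999)) (t ^ 143999) (t ^ 215998) e1 e0 hn0 hx q0 q2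
    (by
      have := mulC 0
      have h3 : (t ^ 71999) ^ 2 ≤ t ^ (0 + 1) := by rw [← pow_mul]; exact pw (by norm_num)
      have := mul_le_mul_of_nonneg_left h3 hC0
      have : 0 ≤ C * t ^ (0 + 1) := by positivity
      rw [pow_zero] at *
      linarith)
    (by positivity) (pow_le_one₀ ht.le ht1) (pow_le_one₀ ht.le ht1)
    (by
      rw [q1, q3]
      refine le_trans (le_of_eq ?_) h1
      congr 2
      rw [← pow_mul, show 143999 = 71999 * 2 + 1 from rfl, pow_succ]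
      field_simp)
    (by
      have h3 : √(t ^ 143999) * (t ^ 143999) ^ 3 ≤ 1 * t ^ 359996 :=
        mul_le_mul (q2.trans (pow_le_one₀ ht.le ht1)) (by rw [← pow_mul]; exact pw (by norm_num))
          (by positivity) zero_le_one
      have h4 := mul_le_mul_of_nonneg_left h3 hC0
      have h5 : 4 * (C * t ^ 359996) ≤ t ^ 359995 := mulC 359995
      have : 0 ≤ C * t ^ 359996 := by positivity
      rw [q3, mul_add]
      linarith)
    (by
      have h5 : 4 * (C * t ^ 287998) ≤ t ^ 287997 := mulC 287997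
      have : 0 ≤ C * t ^ 287998 := by positivity
      rw [show (t ^ 143999) ^ 2 = t ^ 287998 by rw [← pow_mul]]
      linarith)
  refine ((measureReal_mono (fun g (hg : ¬_) => (fun hS => hg fun al g1 g2 =>
    hS al (g1.trans ha) (by rw [q1]; exact g2.trans hσ) : ¬_)) (measure_ne_top _ _)).trans
      key).trans ?_
  rw [show (t ^ 215998) ^ 2 = t ^ 431996 by rw [← pow_mul]]
  refine mul_le_mul_of_nonneg_right ?_ (exp_pos _).le
  have r1 : C ≤ n := by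
    have h3 : (n : ℝ) * t ^ 431998 ≤ n * t ^ 1 :=
      mul_le_mul_of_nonneg_left (pw (by norm_num)) (by linarith)
    rw [pow_one] at h3
    nlinarith
  have r2 : 1 + 2 * √(t ^ 143999) * √n / ((t ^ 71999) ^ 2 * t ^ 215998) ≤ (n : ℝ) ^ 2 := by
    have s1 : √(n : ℝ) ≤ n := sqrt_le_iff.2 ⟨by linarith, by nlinarith⟩
    have s2 : 4 * t ^ 431998 ≤ t ^ 359996 := by
      have h3 : t ^ 431998 ≤ t ^ (359996 + 1) := pw (by norm_num)
      have h4 := mulC 359996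
      have h5 : t ^ (359996 + 1) ≤ C * t ^ (359996 + 1) := le_mul_of_one_le_left (by positivity) hC
      linarith
    have s3 : 4 ≤ n * t ^ 359996 := by nlinarith
    have s4 : 2 * √(t ^ 143999) * √n ≤ 2 * 1 * n := by
      have := q2.trans (pow_le_one₀ ht.le ht1)
      gcongr
    have s5 : 2 * √(t ^ 143999) * √n / t ^ 359996 ≤ (n : ℝ) ^ 2 / 2 := by
      rw [div_le_iff₀ (by positivity)]; nlinarith
    have s6 : (4 : ℝ) ≤ n := s3.trans (mul_le_of_le_one_right (by linarith) (pow_le_one₀ ht.le ht1))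
    rw [q3]
    nlinarith
  calc _ ≤ n * ((n : ℝ) ^ 2) ^ (p + 1) := by gcongr
    _ = _ := by rw [← pow_mul, ← pow_succ']; congr 1

end Vale.Agent.N150.Stein
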