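import Vale.Agent.N150.Ward
import Vale.Agent.N150.HaarF

/-! Symmetrisation: the norm of an equivariant vector is controlled by one coordinate. -/

namespace Vale.Agent.N150.Wd

open Matrix MeasureTheory Set
open Vale.Agent.N150.Haar (fro fro_nonneg)

variable {n : ℕ} {P : Mt n}

/-- exact Ward identity when the good set has full measure -/
theorem Ok.ward_zero {G : Set (OG n)} {K : ℝ} {A C D : Mt n} {μ : Measure (OG n)}
    [IsProbabilityMeasure μ] (h : Ok P G K A C D) (hμ : RI P μ) (hG : MeasurableSet G)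
    (hp : ∀ᵐ O ∂μ, O ∈ G) (l : List (Lt n)) (hl : ∀ x ∈ l, x.Bd K) :
    ∫ O, wcon P A C D O 1 l ∂μ = 0 := by
  have h0 : μ.real Gᶜ = 0 := by
    rw [Measure.real, show μ Gᶜ = 0 from hp, ENNReal.toReal_zero]
  rw [← Measure.restrict_eq_self_of_ae_mem hp, ← abs_nonpos_iff]
  refine le_of_forall_pos_le_add fun ε hε => ?_
  set c := K ^ (19 * l.length + 4) with hc
  have c0 : 0 < c := pow_pos (by linarith [h.hK]) _
  have e0 : 0 < min 1 (ε / c) := lt_min one_pos (by positivity)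
  refine (h.ward hμ hG (p := min 1 (ε / c) ^ 2) (by rw [h0]; positivity) (by positivity)
    (pow_le_one₀ e0.le (min_le_left _ _)) l hl).trans ?_
  rw [Real.sqrt_sq e0.le, zero_add, ← hc, mul_comm, ← le_div_iff₀ c0]
  exact min_le_right _ _

/-- polynomial words: no resolvent, any set -/
lemma ok_zero (hP : Pᵀ = P) (hPP : P * P = P) (G : Set (OG n)) {K : ℝ} (hK : 8 ≤ K)
    (hn : (n : ℝ) ≤ K) : Ok P G K 0 0 0 := by
  have h0 : fro (0 : Mt n) ≤ K := by rw [Haar.fro_zero]; linarith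
  refine ⟨hP, hPP, transpose_zero, transpose_zero, transpose_zero, hK, hn, h0, h0, h0,
    fun O _ => by simp, fun O _ => ?_⟩
  rw [Ga, mul_zero, add_zero, inv_one]
  exact fro_one_le (by linarith) hn

lemma fr_vv (a : Fin n → ℝ) (O : OG n) :
    fr (vecMulVec a a) O = vecMulVec (O.1ᵀ *ᵥ a) (O.1ᵀ *ᵥ a) := by
  rw [fr, mul_vecMulVec, vecMulVec_mul, ← mulVec_transpose]

lemma vv_mul (a b c d : Fin n → ℝ) :
    vecMulVec a b * vecMulVec c d = (b ⬝ᵥ c) • vecMulVec a d := by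
  rw [vecMulVec_mul_vecMulVec]
  ext i j
  simp only [vecMulVec_apply, Pi.smul_apply, Matrix.smul_apply, smul_eq_mul]
  ring

lemma SG_tr_mulVec (hP : Pᵀ = P) {R : OG n} (hR : R ∈ SG P) {a : Fin n → ℝ} (ha : P *ᵥ a = a) :
    P *ᵥ (R.1ᵀ *ᵥ a) = R.1ᵀ *ᵥ a := by
  rw [mulVec_mulVec, ← OG.coe_inv, ← HG_comm hP ((HG P).inv_mem hR.1), ← mulVec_mulVec, ha]

section Mom

variable (hP : Pᵀ = P) (hPP : P * P = P) {a w : Fin n → ℝ} (ha : P *ᵥ a = a) (ha1 : a ⬝ᵥ a = 1)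
  (hw : P *ᵥ w = w)
include hP hPP ha ha1 hw

/-- second and fourth moment of a coordinate of a rotated vector -/
theorem moments :
    P.trace * ∫ R, (a ⬝ᵥ (R.1 *ᵥ w)) ^ 2 ∂haarP P = w ⬝ᵥ w ∧
    (P.trace + 2) * ∫ R, (a ⬝ᵥ (R.1 *ᵥ w)) ^ 4 ∂haarP P =
      3 * (w ⬝ᵥ w) * ∫ R, (a ⬝ᵥ (R.1 *ᵥ w)) ^ 2 ∂haarP P := by
  set K : ℝ := 8 + n + fro (vecMulVec a a) + fro (vecMulVec w w) with hK
  have n0 : (0 : ℝ) ≤ n := Nat.cast_nonneg n
  have f1 := fro_nonneg (vecMulVec a a)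
  have f2 := fro_nonneg (vecMulVec w w)
  have ok := ok_zero hP hPP (SG P : Set (OG n)) (K := K) (by linarith) (by linarith)
  have b1 : fro (vecMulVec a a) ≤ K := by linarith
  have b2 : fro (vecMulVec w w) ≤ K := by linarith
  have hc : Continuous fun R : OG n => a ⬝ᵥ (R.1 *ᵥ w) :=
    continuous_const.dotProduct (continuous_val.matrix_mulVec continuous_const)
  have i2 : Integrable (fun R : OG n => (a ⬝ᵥ (R.1 *ᵥ w)) ^ 2) (haarP P) :=
    integrable_of_continuous (hc.pow 2) (haarP P)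
  have i4 : Integrable (fun R : OG n => (a ⬝ᵥ (R.1 *ᵥ w)) ^ 4) (haarP P) :=
    integrable_of_continuous (hc.pow 4) (haarP P)
  have key : ∀ R ∈ SG P, ∃ b : Fin n → ℝ, fr (vecMulVec a a) R = vecMulVec b b ∧
      P * vecMulVec b b = vecMulVec b b ∧ (∀ c : Fin n → ℝ, P * vecMulVec b c = vecMulVec b c) ∧
      (∀ c : Fin n → ℝ, vecMulVec c b * P = vecMulVec c b) ∧ b ⬝ᵥ b = 1 ∧ b ⬝ᵥ w = a ⬝ᵥ (R.1 *ᵥ w) := by
    intro R hR
    have h1 := SG_tr_mulVec hP hR ha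
    refine ⟨_, fr_vv a R, by rw [mul_vecMulVec, h1], fun c => by rw [mul_vecMulVec, h1],
      fun c => by rw [vecMulVec_mul, ← mulVec_transpose, hP, h1], ?_, ?_⟩
    · rw [← OG.coe_inv, OG.dot, ha1]
    · rw [dotProduct_mulVec, mulVec_transpose]
  have w1 : ∀ c : Fin n → ℝ, P * vecMulVec w c = vecMulVec w c := fun c => by
    rw [mul_vecMulVec, hw]
  have m2 := ok.ward_zero (RI.haarP P) (isClosed_SG P).measurableSet (invOn_haarP P).ae
    [.rot (vecMulVec a a), .fix (vecMulVec w w)] (by simp [Lt.Bd, b1, b2])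
  have m4 := ok.ward_zero (RI.haarP P) (isClosed_SG P).measurableSet (invOn_haarP P).ae
    [.rot (vecMulVec a a), .fix (vecMulVec w w), .rot (vecMulVec a a), .fix (vecMulVec w w)]
    (by simp [Lt.Bd, b1, b2])
  constructor
  · rw [integral_congr_ae (g := fun R => P.trace * (a ⬝ᵥ (R.1 *ᵥ w)) ^ 2 - w ⬝ᵥ w),
      integral_sub (i2.const_mul _) (integrable_const _), integral_const_mul] at m2
    · simp only [integral_const, probReal_univ, smul_eq_mul, one_mul] at m2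
      linarith
    · filter_upwards [(invOn_haarP P).ae] with R hR
      obtain ⟨b, e1, e2, e3, e4, e5, e6⟩ := key R hR
      simp only [wcon, wval, Lt.con, Lt.val, cm, e1, one_mul, mul_one, transpose_one,
        transpose_vecMulVec, hPP, e3, e4, w1, vv_mul, Matrix.mul_smul,
        trace_smul, trace_vecMulVec, smul_eq_mul, e5, e6]
      ring
  · rw [integral_congr_ae (g := fun R => (P.trace + 2) * (a ⬝ᵥ (R.1 *ᵥ w)) ^ 4 -
        3 * (w ⬝ᵥ w) * (a ⬝ᵥ (R.1 *ᵥ w)) ^ 2),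
      integral_sub (i4.const_mul _) (i2.const_mul _), integral_const_mul, integral_const_mul] at m4
    · linarith
    · filter_upwards [(invOn_haarP P).ae] with R hR
      obtain ⟨b, e1, e2, e3, e4, e5, e6⟩ := key R hR
      simp only [wcon, wval, Lt.con, Lt.val, cm, e1, one_mul, mul_one, transpose_one,
        transpose_vecMulVec, transpose_smul, hPP, e3, e4, w1, vv_mul, Matrix.mul_smul,
        Matrix.smul_mul, trace_smul, trace_vecMulVec, smul_eq_mul, e5, e6, dotProduct_comm w b]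
      ring

/-- anti-concentration of one coordinate -/
theorem anti (hk : 0 < P.trace) (hw0 : 0 < w ⬝ᵥ w) :
    3 / 16 ≤ (haarP P).real {R | w ⬝ᵥ w < 4 * P.trace * (a ⬝ᵥ (R.1 *ᵥ w)) ^ 2} := by
  obtain ⟨m2, m4⟩ := moments hP hPP ha ha1 hw
  have hc : Continuous fun R : OG n => a ⬝ᵥ (R.1 *ᵥ w) :=
    continuous_const.dotProduct (continuous_val.matrix_mulVec continuous_const)
  have i2 : Integrable (fun R : OG n => (a ⬝ᵥ (R.1 *ᵥ w)) ^ 2) (haarP P) :=
    integrable_of_continuous (hc.pow 2) (haarP P)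
  have i4 : Integrable (fun R : OG n => (a ⬝ᵥ (R.1 *ᵥ w)) ^ 4) (haarP P) :=
    integrable_of_continuous (hc.pow 4) (haarP P)
  set k := P.trace with hk'
  set ρ := w ⬝ᵥ w with hρ
  set S := {R : OG n | ρ < 4 * k * (a ⬝ᵥ (R.1 *ᵥ w)) ^ 2} with hS
  have mS : MeasurableSet S := measurableSet_lt measurable_const ((hc.pow 2).const_mul _).measurable
  have j1 : Integrable (S.indicator fun _ => 2 * ρ ^ 2) (haarP P) := (integrable_const _).indicator mS
  have j2 : Integrable (fun R => ρ ^ 2 / 4 + S.indicator (fun _ => 2 * ρ ^ 2) R) (haarP P) :=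
    (integrable_const _).add j1
  have h1 : ∫ R, ρ * k * (a ⬝ᵥ (R.1 *ᵥ w)) ^ 2 ∂haarP P ≤
      ∫ R, (ρ ^ 2 / 4 + S.indicator (fun _ => 2 * ρ ^ 2) R +
        k ^ 2 / 8 * (a ⬝ᵥ (R.1 *ᵥ w)) ^ 4) ∂haarP P := by
    refine integral_mono (i2.const_mul _) (j2.add (i4.const_mul _)) fun R => ?_
    simp only
    set y := (a ⬝ᵥ (R.1 *ᵥ w)) ^ 2 with hy
    have e : (a ⬝ᵥ (R.1 *ᵥ w)) ^ 4 = y ^ 2 := by rw [hy]; ring
    rw [e]
    by_cases hR : R ∈ S
    · rw [indicator_of_mem hR]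
      nlinarith [sq_nonneg (k * y - 4 * ρ), sq_nonneg ρ]
    · rw [indicator_of_notMem hR]
      have h2 : 4 * k * y ≤ ρ := not_lt.1 hR
      nlinarith [sq_nonneg (k * y), mul_le_mul_of_nonneg_left h2 hw0.le]
  rw [integral_add j2 (i4.const_mul _), integral_add (integrable_const _) j1,
    integral_indicator_const _ mS, integral_const_mul, integral_const_mul] at h1
  simp only [integral_const, probReal_univ, smul_eq_mul, one_mul] at h1
  set x2 := ∫ R, (a ⬝ᵥ (R.1 *ᵥ w)) ^ 2 ∂haarP P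
  set x4 := ∫ R, (a ⬝ᵥ (R.1 *ᵥ w)) ^ 4 ∂haarP P with hx4
  have p4 : 0 ≤ x4 := integral_nonneg fun R => by positivity
  have h3 : k ^ 2 * x4 ≤ 3 * ρ ^ 2 := by
    have : k * ((k + 2) * x4) = 3 * ρ ^ 2 := by rw [m4]; linear_combination 3 * ρ * m2
    nlinarith [mul_nonneg hk.le p4]
  have h4 : ρ * k * x2 = ρ ^ 2 := by rw [mul_assoc, m2, sq]
  have h5 : 0 < ρ ^ 2 := by positivity
  nlinarith

end Mom

/-- **symmetrisation**. `F` is equivariant under the rotations of the range of `Q` acting on the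
left; the norm of `Q F` is controlled by the single coordinate `a`. -/
theorem sym_pz {Q : Mt n} (hQ : Qᵀ = Q) (hQQ : Q * Q = Q) (hk : 0 < Q.trace) {a : Fin n → ℝ}
    (ha : Q *ᵥ a = a) (ha1 : a ⬝ᵥ a = 1) {μ : Measure (OG n)} [IsProbabilityMeasure μ]
    (hμ : ∀ R ∈ SG Q, μ.map (fun O => R * O) = μ) {G : Set (OG n)} (hG : MeasurableSet G)
    (hGi : ∀ R ∈ SG Q, ∀ O ∈ G, R * O ∈ G) {F : OG n → Fin n → ℝ} (hF : Measurable F)
    (heq : ∀ R ∈ SG Q, ∀ O ∈ G, a ⬝ᵥ F (R * O) = a ⬝ᵥ (R.1 *ᵥ F O)) (t : ℝ) :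
    3 / 16 * μ.real {O | O ∈ G ∧ 4 * Q.trace * t ^ 2 < (Q *ᵥ F O) ⬝ᵥ (Q *ᵥ F O)} ≤
      μ.real {O | O ∈ G ∧ t < |a ⬝ᵥ F O|} := by
  have md : ∀ {u v : OG n → Fin n → ℝ}, Measurable u → Measurable v →
      Measurable fun O => u O ⬝ᵥ v O := fun hu hv =>
    Finset.measurable_sum _ fun i _ =>
      ((measurable_pi_apply i).comp hu).mul ((measurable_pi_apply i).comp hv)
  have mQ : Measurable fun O => Q *ᵥ F O :=
    measurable_pi_iff.2 fun i => md measurable_const hF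
  set S := {O | O ∈ G ∧ t < |a ⬝ᵥ F O|} with hS
  set T := {O | O ∈ G ∧ 4 * Q.trace * t ^ 2 < (Q *ᵥ F O) ⬝ᵥ (Q *ᵥ F O)} with hT
  have mS : MeasurableSet S := hG.inter (measurableSet_lt measurable_const (md measurable_const hF).abs)
  have mT : MeasurableSet T := hG.inter (measurableSet_lt measurable_const (md mQ mQ))
  have mm : Measurable fun p : OG n × OG n => S.indicator (1 : OG n → ENNReal) (p.1 * p.2) :=
    (measurable_one.indicator mS).comp (measurable_fst.mul measurable_snd)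
  have h1 : μ S = ∫⁻ R, ∫⁻ O, S.indicator 1 (R * O) ∂μ ∂haarP Q := by
    rw [lintegral_congr_ae (g := fun _ => μ S)]
    · simp
    · filter_upwards [(invOn_haarP Q).ae] with R hR
      rw [← lintegral_map (measurable_one.indicator mS) (measurable_const_mul R), hμ R hR,
        lintegral_indicator_one mS]
  have h2 : ENNReal.ofReal (3 / 16) * μ T ≤ μ S := by
    rw [h1, lintegral_lintegral_swap mm.aemeasurable, ← lintegral_indicator_one mT,
      ← lintegral_const_mul _ (measurable_one.indicator mT)]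
    refine lintegral_mono fun O => ?_
    by_cases hO : O ∈ T
    · have w0 : 0 < (Q *ᵥ F O) ⬝ᵥ (Q *ᵥ F O) := lt_of_le_of_lt (by positivity) hO.2
      have h3 := anti hQ hQQ ha ha1 (w := Q *ᵥ F O) (by rw [mulVec_mulVec, hQQ]) hk w0
      have mR : MeasurableSet {R : OG n | R * O ∈ S} := measurable_mul_const O mS
      have e : (fun R => S.indicator (1 : OG n → ENNReal) (R * O)) =
        {R : OG n | R * O ∈ S}.indicator 1 := rfl
      simp only [indicator_of_mem hO, Pi.one_apply, mul_one]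
      rw [e, lintegral_indicator_one mR]
      refine (ENNReal.ofReal_le_of_le_toReal h3).trans (measure_mono_ae ?_)
      filter_upwards [(invOn_haarP Q).ae] with R hR h4
      refine ⟨hGi R hR O hO.1, ?_⟩
      have h5 : a ⬝ᵥ (R.1 *ᵥ (Q *ᵥ F O)) = a ⬝ᵥ F (R * O) := by
        rw [heq R hR O hO.1, mulVec_mulVec, HG_comm hQ hR.1, ← mulVec_mulVec, dotProduct_mulVec,
          ← mulVec_transpose, hQ, ha]
      have h6 : (Q *ᵥ F O) ⬝ᵥ (Q *ᵥ F O) < 4 * Q.trace * (a ⬝ᵥ (R.1 *ᵥ (Q *ᵥ F O))) ^ 2 := h4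
      rw [h5] at h6
      have h7 := lt_of_mul_lt_mul_left (hO.2.trans h6) (by positivity)
      exact lt_of_pow_lt_pow_left₀ 2 (abs_nonneg _) (by rwa [sq_abs])
    · simp [indicator_of_notMem hO]
  have h8 := ENNReal.toReal_mono (measure_ne_top μ S) h2
  rwa [ENNReal.toReal_mul, ENNReal.toReal_ofReal (by norm_num)] at h8

section Tail

variable {Q : Mt n} (hQ : Qᵀ = Q) (hQQ : Q * Q = Q) (hk : 0 < Q.trace) {a b : Fin n → ℝ}
  (ha : Q *ᵥ a = a) (ha1 : a ⬝ᵥ a = 1) (hb : Q *ᵥ b = b) (hb1 : b ⬝ᵥ b = 1) (hab : a ⬝ᵥ b = 0)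
  {μ : Measure (OG n)} [IsProbabilityMeasure μ] {c : ℝ} (hc : Conc μ c) (hc0 : 0 < c)
  (hμ : ∀ R ∈ SG Q, μ.map (fun O => R * O) = μ) {G Ga : Set (OG n)} (hG : MeasurableSet G)
  (hGi : ∀ R ∈ SG Q, ∀ O ∈ G, R * O ∈ G) {F : OG n → Fin n → ℝ} (hF : Measurable F)
  (heq : ∀ R ∈ SG Q, ∀ O ∈ G, a ⬝ᵥ F (R * O) = a ⬝ᵥ (R.1 *ᵥ F O))
  (hGa : Ga ⊆ G) (hGai : ∀ O ∈ Ga, rflG a * rflG b * O ∈ Ga) (hp : μ.real (G \ Ga) ≤ 1 / 100)
  {L : ℝ} (hL : 0 < L) (hf : LipO Ga L fun O => a ⬝ᵥ F O)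
include hQ hQQ hk ha ha1 hb hb1 hab hc hc0 hμ hG hGi hF heq hGa hGai hp hL hf

/-- typical size of an equivariant vector from the Lipschitz constant of one coordinate -/
theorem sym_median :
    μ.real {O | O ∈ G ∧ 24 * Q.trace * L ^ 2 / c < (Q *ᵥ F O) ⬝ᵥ (Q *ᵥ F O)} ≤ 1 / 10 := by
  have hR : rflG a * rflG b ∈ SG Q :=
    rot_pi_mem_SG hQ ha hb (by rw [ha1]; norm_num) (by rw [hb1]; norm_num)
  set t := √(6 * L ^ 2 / c) with ht
  have t2 : t ^ 2 = 6 * L ^ 2 / c := Real.sq_sqrt (by positivity)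
  have h1 := sym_pz hQ hQQ hk ha ha1 hμ hG hGi hF heq t
  have h2 := hc.odd_tail hL hf (φ := fun O => rflG a * rflG b * O)
    ⟨measurable_const_mul _, hμ _ hR⟩ (fun U V => dO_mul_left _ U V) hGai (fun O hO => by
      rw [heq _ hR O (hGa hO), OG.coe_mul, ← mulVec_mulVec, rflG_val, rflG_val, rfl'_mulVec,
        rfl'_mulVec, ha1, hb1]
      simp only [dotProduct_sub, dotProduct_smul, hab, ha1, smul_eq_mul]
      ring) (t := t) (Real.sqrt_nonneg _)
  have h3 : {O | O ∈ G ∧ t < |a ⬝ᵥ F O|} ⊆ (G \ Ga) ∪ {O | O ∈ Ga ∧ t ≤ |a ⬝ᵥ F O|} := by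
    intro O hO
    by_cases h : O ∈ Ga
    · exact Or.inr ⟨h, hO.2.le⟩
    · exact Or.inl ⟨hO.1, h⟩
  have h4 := (measureReal_mono h3).trans (measureReal_union_le (μ := μ) _ _)
  have h5 : c * t ^ 2 / L ^ 2 = 6 := by rw [t2]; field_simp
  have h6 : Real.exp (-6) ≤ 1 / 400 := by
    rw [Real.exp_neg, one_div]
    refine inv_anti₀ (by norm_num) ?_
    have h7 := Real.exp_one_gt_d9
    have h8 : Real.exp 6 = Real.exp 1 ^ 6 := by rw [← Real.exp_nat_mul]; norm_num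
    rw [h8]
    exact le_trans (by norm_num) (pow_le_pow_left₀ (by norm_num) h7.le 6)
  rw [h5] at h2
  rw [t2, show 4 * Q.trace * (6 * L ^ 2 / c) = 24 * Q.trace * L ^ 2 / c by ring] at h1
  linarith

/-- tail of the norm from a local oscillation bound on `G` -/
theorem sym_tail (hG2 : 1 / 2 ≤ μ.real G) {t D : ℝ} (ht : 0 ≤ t)
    (hN : ∀ U ∈ G, ∀ V ∈ G, dO U V < √(2 / c) + t →
      √((Q *ᵥ F U) ⬝ᵥ (Q *ᵥ F U)) ≤ √((Q *ᵥ F V) ⬝ᵥ (Q *ᵥ F V)) + D) :
    μ.real {O | O ∈ G ∧ √(24 * Q.trace * L ^ 2 / c) + D < √((Q *ᵥ F O) ⬝ᵥ (Q *ᵥ F O))} ≤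
      2 * Real.exp (-(c * t ^ 2)) := by
  have h1 := sym_median hQ hQQ hk ha ha1 hb hb1 hab hc hc0 hμ hG hGi hF heq hGa hGai hp hL hf
  set A := {O | O ∈ G ∧ (Q *ᵥ F O) ⬝ᵥ (Q *ᵥ F O) ≤ 24 * Q.trace * L ^ 2 / c} with hA
  have h2 : G ⊆ A ∪ {O | O ∈ G ∧ 24 * Q.trace * L ^ 2 / c < (Q *ᵥ F O) ⬝ᵥ (Q *ᵥ F O)} := by
    intro O hO
    rcases le_or_gt ((Q *ᵥ F O) ⬝ᵥ (Q *ᵥ F O)) (24 * Q.trace * L ^ 2 / c) with h | h
    · exact Or.inl ⟨hO, h⟩
    · exact Or.inr ⟨hO, h⟩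
  have h3 := (measureReal_mono h2).trans (measureReal_union_le (μ := μ) _ _)
  have h4 : 2 * Real.exp (-(c * √(2 / c) ^ 2)) < μ.real A := by
    rw [Real.sq_sqrt (by positivity), show c * (2 / c) = 2 by field_simp]
    have h5 : Real.exp (-2) ≤ 1 / 7 := by
      rw [Real.exp_neg, one_div]
      refine inv_anti₀ (by norm_num) ?_
      have h7 := Real.exp_one_gt_d9
      have h8 : Real.exp 2 = Real.exp 1 ^ 2 := by rw [← Real.exp_nat_mul]; norm_num
      rw [h8]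
      exact le_trans (by norm_num) (pow_le_pow_left₀ (by norm_num) h7.le 2)
    linarith
  refine le_trans (measureReal_mono ?_) (hc.blowup (Real.sqrt_nonneg _) ht h4)
  intro O hO V hV
  by_contra hlt
  have h6 := hN O hO.1 V hV.1 (not_le.1 hlt)
  have h7 := Real.sqrt_le_sqrt hV.2
  linarith [hO.2]

end Tail

end Vale.Agent.N150.Wd
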