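import Vale.Agent.N150.T1Kit
import Vale.Agent.N150.Cube3

/-! Block T1: the preconditioner (`AStmt`). -/

open Matrix MeasureTheory Filter Topology

namespace Vale.Agent.N150.T1

open Vale.Agent.P150 Vale.Agent.P150.F Vale.Agent.N150.EC Vale.Agent.N150.Sp Vale.Agent.N150.Fib
open Vale.Agent.N150.Cube

variable {n : ℕ}

/-- `p = N0 ^ (-1/2) h0` -/
noncomputable def Dat.pv (S : Dat n) (O : OG n) : Vec n := S.Nis O *ᵥ h0 (S.J O) (S.y O)
/-- `2 / T20` -/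
noncomputable def Dat.cA (S : Dat n) : ℝ := 2 / ∑ a, S.g a ^ 2

namespace Adm

variable {L t : ℝ} {S : Dat n} (h : Adm L t S) (hs : Sm L t) (O : OG n)
include h hs

theorem g_le' (a : Fin n) : S.g a ≤ L / (2 * t ^ 288000) := by
  rw [← inv_div]
  exact inv_anti₀ (div_pos (mul_pos two_pos (hs.p0 _)) hs.L0) (h.gap_ge a)

theorem cA_nonneg : 0 ≤ S.cA := (div_pos two_pos (h.T20_pos hs)).le

theorem cA_le : S.cA ≤ 2 * L * t ^ 144000 / n := h.two_div_T20 hs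

theorem AA_eq : AA (S.J O) (S.y O) = S.w • (1 : Mat n) + S.cA •
    vecMulVec ((S.Nis O * S.Nis O) *ᵥ h0 (S.J O) (S.y O)) (h0 (S.J O) (S.y O)) := by
  unfold AA
  rw [h.w0_eq hs, h.T20_eq hs, h.G00_eq hs, h.Nis_mul_Nis hs]
  rfl

theorem hat_AA_eq : S.Nsq O * AA (S.J O) (S.y O) * S.Nis O = R1 S.w S.cA (S.pv O) := by
  rw [h.AA_eq hs]
  exact hat_AA (h.Nsq_mul_Nis hs O) (S.Nis_tr O) _ _ _

theorem AA_unit : IsUnit (AA (S.J O) (S.y O)).det :=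
  (hat_AA_inv (h.Nis_mul_Nsq hs O) (h.Nsq_mul_Nis hs O) (h.w_pos hs) (h.cA_nonneg hs)
    (h.hat_AA_eq hs O)).1

theorem hat_AAi : S.Nsq O * (AA (S.J O) (S.y O))⁻¹ * S.Nis O = R1i S.w S.cA (S.pv O) :=
  (hat_AA_inv (h.Nis_mul_Nsq hs O) (h.Nsq_mul_Nis hs O) (h.w_pos hs) (h.cA_nonneg hs)
    (h.hat_AA_eq hs O)).2

theorem Abi_eq (σ : ℝ) : S.Abi σ O = R1i S.w S.cA (S.P σ O *ᵥ S.pv O) := by
  rw [← R1_inv (h.w_pos hs) (h.cA_nonneg hs)]
  unfold Dat.Abi R1 Dat.pv Dat.cA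
  rw [h.T20_eq hs, Matrix.mulVec_mulVec]

theorem Nsq_pv : S.Nsq O *ᵥ S.pv O = h0 (S.J O) (S.y O) := by
  unfold Dat.pv
  rw [Matrix.mulVec_mulVec, h.Nsq_mul_Nis hs, Matrix.one_mulVec]

theorem Nis_pv : S.Nis O *ᵥ S.pv O = JO S.g O *ᵥ h0 (S.J O) (S.y O) := by
  unfold Dat.pv
  rw [Matrix.mulVec_mulVec, h.Nis_mul_Nis hs]

theorem sq_pv_eq : F.sq (S.pv O) = ip (h0 (S.J O) (S.y O)) (JO S.g O *ᵥ h0 (S.J O) (S.y O)) := by
  rw [← h.Nis_pv hs, Rip.ip_mulVec_tr, S.Nis_tr, sq_eq_dot]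
  rfl

theorem nv_G_le (v : Vec n) : nv (JO S.g O *ᵥ v) ≤ L / (2 * t ^ 288000) * nv v :=
  (opLe_JO (fun a => by rw [abs_of_pos (h.g_pos hs a)]; exact h.g_le' hs a) O).nv_le
    (div_pos hs.L0 (mul_pos two_pos (hs.p0 _))).le v

/-- `(2 / T20) |G h0| |h0| ≤ L ^ 3` -/
theorem cA_G : S.cA * (nv (JO S.g O *ᵥ h0 (S.J O) (S.y O)) * nv (h0 (S.J O) (S.y O))) ≤ L ^ 3 := by
  have L0 := hs.L0
  have n0 := h.npos'
  have p := hs.pos
  have e1 := mul_le_mul_of_nonneg_right (h.nv_G_le hs O (h0 (S.J O) (S.y O)))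
    (nv_nonneg (h0 (S.J O) (S.y O)))
  rw [mul_assoc, ← pow_two, nv_sq] at e1
  have e2 := e1.trans (mul_le_mul_of_nonneg_left (h.sq_h0 hs O) (by positivity))
  refine (mul_le_mul (h.cA_le hs) e2 (mul_nonneg (nv_nonneg _) (nv_nonneg _))
    (by positivity)).trans (le_of_eq ?_)
  have e : t ^ 288000 = t ^ 144000 * t ^ 144000 := by rw [← pow_add]
  rw [e]
  field_simp

theorem cA_pv : S.cA * F.sq (S.pv O) ≤ L ^ 3 := by
  refine le_trans (mul_le_mul_of_nonneg_left ?_ (h.cA_nonneg hs)) (h.cA_G hs O)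
  rw [h.sq_pv_eq hs, mul_comm]
  exact ip_le _ _

theorem pv_h0 : nv (S.pv O) * nv (h0 (S.J O) (S.y O)) ≤ L ^ 2 * n := by
  have L0 := hs.L0
  have n0 := h.npos'
  have p := hs.pos
  have e0 := h.sq_h0 hs O
  have e1 : F.sq (S.pv O) ≤ L / (2 * t ^ 288000) * (L * n * t ^ 144000) := by
    rw [h.sq_pv_eq hs]
    refine (ip_le _ _).trans ((mul_le_mul_of_nonneg_left (h.nv_G_le hs O _) (nv_nonneg _)).trans ?_)
    rw [mul_left_comm, ← pow_two, nv_sq]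
    exact mul_le_mul_of_nonneg_left e0 (by positivity)
  refine (sq_le_sq₀ (mul_nonneg (nv_nonneg _) (nv_nonneg _)) (by positivity)).1 ?_
  rw [mul_pow, nv_sq, nv_sq]
  refine (mul_le_mul e1 e0 (sqN_nonneg _) (by positivity)).trans ?_
  have e : t ^ 288000 = t ^ 144000 * t ^ 144000 := by rw [← pow_add]
  have e2 : L / (2 * t ^ 288000) * (L * n * t ^ 144000) * (L * n * t ^ 144000) =
      L ^ 3 * n ^ 2 / 2 := by
    rw [e]
    field_simp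
  rw [e2]
  have : L ^ 3 ≤ L ^ 4 := pow_le_pow_right₀ hs.L1 (by norm_num)
  nlinarith [pow_pos L0 3, pow_pos n0 2]

omit h in
theorem L3 : 1 ≤ L ^ 3 := one_le_pow₀ hs.L1

theorem opLe_AA : OpLe (AA (S.J O) (S.y O)) t⁻¹ := by
  rw [h.AA_eq hs, h.Nis_mul_Nis hs]
  have e := (opLe_one.smul zero_le_one S.w).add
    ((opLe_vecMulVec (JO S.g O *ᵥ h0 (S.J O) (S.y O)) (h0 (S.J O) (S.y O))).smul
      (mul_nonneg (nv_nonneg _) (nv_nonneg _)) S.cA) (by positivity)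
      (mul_nonneg (abs_nonneg _) (mul_nonneg (nv_nonneg _) (nv_nonneg _)))
  refine e.monoN (add_nonneg (by positivity)
    (mul_nonneg (abs_nonneg _) (mul_nonneg (nv_nonneg _) (nv_nonneg _)))) ?_
  rw [abs_of_pos (h.w_pos hs), abs_of_nonneg (h.cA_nonneg hs)]
  linarith [h.cA_G hs O, h.w_le, L3 hs, hs.cL_inv (C := 2) (a := 3) (by norm_num) (by norm_num)]

theorem opLe_hat_AA : OpLe (S.Nsq O * AA (S.J O) (S.y O) * S.Nis O) t⁻¹ := by
  rw [h.hat_AA_eq hs]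
  have e := (opLe_one.smul zero_le_one S.w).add
    ((opLe_vecMulVec (S.pv O) (S.pv O)).smul
      (mul_nonneg (nv_nonneg _) (nv_nonneg _)) S.cA) (by positivity)
      (mul_nonneg (abs_nonneg _) (mul_nonneg (nv_nonneg _) (nv_nonneg _)))
  refine e.monoN (add_nonneg (by positivity)
    (mul_nonneg (abs_nonneg _) (mul_nonneg (nv_nonneg _) (nv_nonneg _)))) ?_
  rw [abs_of_pos (h.w_pos hs), abs_of_nonneg (h.cA_nonneg hs), ← pow_two, nv_sq]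
  linarith [h.cA_pv hs O, h.w_le, L3 hs, hs.cL_inv (C := 2) (a := 3) (by norm_num) (by norm_num)]

/-- explicit inverse of the preconditioner -/
theorem AAi_eq : (AA (S.J O) (S.y O))⁻¹ = S.w⁻¹ • ((1 : Mat n) -
    (S.cA / (S.w + S.cA * F.sq (S.pv O))) •
      vecMulVec (JO S.g O *ᵥ h0 (S.J O) (S.y O)) (h0 (S.J O) (S.y O))) := by
  have e : (AA (S.J O) (S.y O))⁻¹ =
      S.Nis O * (S.Nsq O * (AA (S.J O) (S.y O))⁻¹ * S.Nis O) * S.Nsq O := by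
    rw [← Matrix.mul_assoc, ← Matrix.mul_assoc, h.Nis_mul_Nsq hs, Matrix.one_mul, Matrix.mul_assoc,
      h.Nis_mul_Nsq hs, Matrix.mul_one]
  rw [e, h.hat_AAi hs, R1i, Matrix.mul_smul, Matrix.smul_mul, Matrix.mul_sub, Matrix.sub_mul,
    Matrix.mul_one, h.Nis_mul_Nsq hs, Matrix.mul_smul, Matrix.smul_mul, mul_vv, vv_mul, S.Nsq_tr,
    h.Nsq_pv hs, h.Nis_pv hs]

theorem kap_le : 0 ≤ S.cA / (S.w + S.cA * F.sq (S.pv O)) ∧
    S.cA / (S.w + S.cA * F.sq (S.pv O)) ≤ 2 * S.cA := by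
  have c0 := h.cA_nonneg hs
  have q0 := mul_nonneg c0 (sqN_nonneg (S.pv O))
  have w1 := h.w_half hs
  refine ⟨div_nonneg c0 (by linarith), ?_⟩
  rw [div_le_iff₀ (by linarith)]
  nlinarith

theorem opLe_AAi : OpLe (AA (S.J O) (S.y O))⁻¹ t⁻¹ := by
  rw [h.AAi_eq hs]
  have k := h.kap_le hs O
  have v0 := mul_nonneg (nv_nonneg (JO S.g O *ᵥ h0 (S.J O) (S.y O))) (nv_nonneg (h0 (S.J O) (S.y O)))
  have e := ((opLe_one.sub
    ((opLe_vecMulVec (JO S.g O *ᵥ h0 (S.J O) (S.y O)) (h0 (S.J O) (S.y O))).smul v0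
      (S.cA / (S.w + S.cA * F.sq (S.pv O)))) zero_le_one
      (mul_nonneg (abs_nonneg _) v0)).smul (add_nonneg zero_le_one (mul_nonneg (abs_nonneg _) v0))
      S.w⁻¹)
  refine e.monoN (mul_nonneg (abs_nonneg _)
    (add_nonneg zero_le_one (mul_nonneg (abs_nonneg _) v0))) ?_
  rw [abs_of_pos (inv_pos.2 (h.w_pos hs)), abs_of_nonneg k.1]
  have e1 := mul_le_mul_of_nonneg_right k.2 v0
  have e2 := h.cA_G hs O
  have e3 := hs.cL_inv (C := 6) (a := 3) (by norm_num) (by norm_num)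
  have e4 := L3 hs
  refine (mul_le_mul (h.winv_le hs) (show _ ≤ 3 * L ^ 3 by linarith)
    (add_nonneg zero_le_one (mul_nonneg k.1 v0)) zero_le_two).trans (by linarith)

theorem opLe_hat_AAi : OpLe (S.Nsq O * (AA (S.J O) (S.y O))⁻¹ * S.Nis O) 2 := by
  rw [h.hat_AAi hs]
  exact opLe_R1i (h.w_half hs) (h.cA_nonneg hs) _

theorem opLe_hat_sub_Abi : OpLe (S.Nsq O * (AA (S.J O) (S.y O))⁻¹ * S.Nis O -
    S.Abi (t ^ 139200) O) (t ^ 74000) := by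
  rw [h.hat_AAi hs, h.Abi_eq hs]
  have e := (rank_one (S.isProj_P O (t ^ 139200)).symm (S.isProj_P O (t ^ 139200)).idem
    (h.w_half hs) (h.cA_nonneg hs) (S.pv O)).2.2.2
  have c0 := h.cA_nonneg hs
  refine e.monoN (mul_nonneg (by positivity) (mul_nonneg (nv_nonneg _) (nv_nonneg _))) ?_
  have e1 : nv ((1 - S.P (t ^ 139200) O) *ᵥ S.pv O) ≤ t⁻¹ ^ 69600 * nv (h0 (S.J O) (S.y O)) := by
    unfold Dat.pv
    rw [Matrix.mulVec_mulVec]
    exact (h.opLe_Ph_Nis hs O 69600).nv_le (hs.i0 _).le _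
  have e2 : nv (S.pv O) * nv ((1 - S.P (t ^ 139200) O) *ᵥ S.pv O) ≤ t⁻¹ ^ 69600 * (L ^ 2 * n) := by
    refine (mul_le_mul_of_nonneg_left e1 (nv_nonneg _)).trans ?_
    rw [mul_left_comm]
    exact mul_le_mul_of_nonneg_left (h.pv_h0 hs O) (hs.i0 _).le
  have n0 := h.npos'
  have L0 := hs.L0
  have p := hs.pos
  have e3 := mul_le_mul (mul_le_mul_of_nonneg_left (h.cA_le hs) (by norm_num : (0 : ℝ) ≤ 8)) e2
    (mul_nonneg (nv_nonneg _) (nv_nonneg _)) (by positivity)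
  refine e3.trans ?_
  have e4 : 8 * (2 * L * t ^ 144000 / n) * (t⁻¹ ^ 69600 * (L ^ 2 * n)) =
      16 * L ^ 3 * (t⁻¹ ^ 69600 * t ^ (69600 + 74400)) := by
    generalize t⁻¹ ^ 69600 = u
    rw [show 69600 + 74400 = 144000 from rfl]
    field_simp
    ring
  rw [e4, hs.ip_eq]
  exact hs.cLp (by norm_num) (by norm_num) (by norm_num)

theorem hat_Gs : S.Nsq O * Gs (S.J O) (S.y O) * S.Nsq O =
    1 - (2 / (∑ a, S.g a ^ 2 + 2 * F.sq (S.pv O))) • vecMulVec (S.pv O) (S.pv O) := by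
  unfold Gs
  rw [h.G00_eq hs, h.T20_eq hs, ← h.sq_pv_eq hs, Matrix.mul_sub, Matrix.sub_mul, h.Nsq_mul_G hs,
    h.Nis_mul_Nsq hs, Matrix.mul_smul, Matrix.smul_mul, mul_vv, vv_mul, S.Nsq_tr,
    Matrix.mulVec_mulVec, h.Nsq_mul_G hs]
  rfl

theorem opLe_hat_sub_Gs : OpLe (S.Nsq O * (AA (S.J O) (S.y O))⁻¹ * S.Nis O -
    S.Nsq O * Gs (S.J O) (S.y O) * S.Nsq O) (t ^ 143000) := by
  rw [h.hat_AAi hs, h.hat_Gs hs]
  have T0 := h.T20_pos hs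
  have w0 := h.w_pos hs
  have w1 := h.w_le
  have w2 := h.w_half hs
  have w3 := h.w_ge' hs
  have q0 := sqN_nonneg (S.pv O)
  unfold R1i Dat.cA
  set T := ∑ a, S.g a ^ 2
  set q := F.sq (S.pv O) with hq
  set w := S.w
  have d1 : 0 < w * T + 2 * q := by positivity
  have d2 : 0 < T + 2 * q := by positivity
  have e0 : 2 / T / (w + 2 / T * q) = 2 / (w * T + 2 * q) := by
    field_simp
  have e : w⁻¹ • ((1 : Mat n) - (2 / T / (w + 2 / T * q)) • vecMulVec (S.pv O) (S.pv O)) -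
      (1 - (2 / (T + 2 * q)) • vecMulVec (S.pv O) (S.pv O)) = (w⁻¹ - 1) • (1 : Mat n) -
        (w⁻¹ * (2 / (w * T + 2 * q)) - 2 / (T + 2 * q)) • vecMulVec (S.pv O) (S.pv O) := by
    rw [e0, smul_sub, smul_smul, sub_smul, sub_smul, one_smul]
    abel
  rw [e]
  have v0 := mul_nonneg (nv_nonneg (S.pv O)) (nv_nonneg (S.pv O))
  have b := (opLe_one.smul zero_le_one (w⁻¹ - 1)).sub ((opLe_vecMulVec (S.pv O) (S.pv O)).smul v0
    (w⁻¹ * (2 / (w * T + 2 * q)) - 2 / (T + 2 * q))) (by positivity) (mul_nonneg (abs_nonneg _) v0)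
  refine b.monoN (add_nonneg (by positivity) (mul_nonneg (abs_nonneg _) v0)) ?_
  rw [← pow_two, nv_sq, ← hq]
  have i1 : 1 ≤ w⁻¹ := (one_le_inv₀ w0).2 w1
  have i2 : w⁻¹ - 1 ≤ 2 * (1 - w) := by
    have : w⁻¹ - 1 = w⁻¹ * (1 - w) := by field_simp
    rw [this]
    exact mul_le_mul_of_nonneg_right (h.winv_le hs) (by linarith)
  have a0 : 0 ≤ 2 * q / (w * T + 2 * q) := by positivity
  have a1 : 2 * q / (w * T + 2 * q) ≤ 1 := by
    rw [div_le_one d1]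
    nlinarith
  have b0 : 0 ≤ T / (T + 2 * q) := by positivity
  have b1 : T / (T + 2 * q) ≤ 1 := by
    rw [div_le_one d2]
    linarith
  have k : (w⁻¹ * (2 / (w * T + 2 * q)) - 2 / (T + 2 * q)) * q =
      (w⁻¹ - 1) * (2 * q / (w * T + 2 * q)) +
        (1 - w) * (2 * q / (w * T + 2 * q)) * (T / (T + 2 * q)) := by
    field_simp
    ring
  have k1 : (w⁻¹ - 1) * (2 * q / (w * T + 2 * q)) ≤ 2 * (1 - w) := by nlinarith
  have k2 : (1 - w) * (2 * q / (w * T + 2 * q)) * (T / (T + 2 * q)) ≤ 1 - w := by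
    have := mul_le_one₀ a1 b0 b1
    rw [mul_assoc]
    nlinarith
  have k3 : 0 ≤ (w⁻¹ - 1) * (2 * q / (w * T + 2 * q)) := mul_nonneg (by linarith) a0
  have k4 : 0 ≤ (1 - w) * (2 * q / (w * T + 2 * q)) * (T / (T + 2 * q)) :=
    mul_nonneg (mul_nonneg (by linarith) a0) b0
  have k5 : |w⁻¹ * (2 / (w * T + 2 * q)) - 2 / (T + 2 * q)| * q ≤ 3 * (1 - w) := by
    have k6 := abs_mul (w⁻¹ * (2 / (w * T + 2 * q)) - 2 / (T + 2 * q)) q
    rw [abs_of_nonneg q0, k, abs_of_nonneg (add_nonneg k3 k4)] at k6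
    linarith
  rw [abs_of_nonneg (by linarith : 0 ≤ w⁻¹ - 1)]
  linarith [hs.cp (C := 5) (by norm_num) (a := 143999) (b := 143000) (by norm_num)]

end Adm

theorem aStmt : AStmt := ev_of_sm fun _ t hs _ S O h => by
  have r := rank_one (S.isProj_P O (t ^ 139200)).symm (S.isProj_P O (t ^ 139200)).idem
    (h.w_half hs) (h.cA_nonneg hs) (S.pv O)
  rw [← h.Abi_eq hs] at r
  exact ⟨h.AA_unit hs O, h.opLe_AA hs O, h.opLe_AAi hs O, h.opLe_hat_AA hs O, h.opLe_hat_AAi hs O,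
    h.opLe_hat_sub_Abi hs O, r.2.2.1, r.1, r.2.1, h.opLe_hat_sub_Gs hs O, h.opLe_Y hs O⟩

end Vale.Agent.N150.T1
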