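import Vale.Agent.N150.T1Meas
import Vale.Agent.N150.T2A1

/-! Bookkeeping of monomials `√n ^ j * t ^ a` (`j a : ℤ`) for scalars, vectors and operators.
Side conditions on exponents are closed by `omega`. -/

open Matrix Finset

namespace Vale.Agent.N150.T2A

open Vale.Agent.P150 Vale.Agent.P150.F

variable {n : ℕ} {t : ℝ}

/-- `√n ^ j * t ^ a` -/
noncomputable def mo (n : ℕ) (t : ℝ) (j a : ℤ) : ℝ := √(n : ℝ) ^ j * t ^ a

/-- standing assumptions -/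
structure Cx (n : ℕ) (t : ℝ) : Prop where
  t0 : 0 < t
  t1 : 1000000 * t ≤ 1
  n0 : 0 < n
  big : 1 ≤ n * t ^ 431998

theorem cx_of {L : ℝ} {S : T1.Dat n} (hs : T1.Sm L t) (ha : T1.Adm L t S) : Cx n t :=
  ⟨hs.pos, hs.c1 (by norm_num), ha.npos, ha.big⟩

theorem mo_pow (n : ℕ) (t : ℝ) (k : ℕ) : mo n t 0 k = t ^ k := by
  rw [mo, zpow_zero, one_mul, zpow_natCast]

theorem mo_inv (n : ℕ) (t : ℝ) (k : ℕ) : mo n t 0 (-k) = t⁻¹ ^ k := by
  rw [mo, zpow_zero, one_mul, _root_.zpow_neg, zpow_natCast, inv_pow]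

theorem mo_split (n : ℕ) (t : ℝ) (j a : ℤ) : mo n t j a = √(n : ℝ) ^ j * mo n t 0 a := by
  rw [mo, mo, zpow_zero, one_mul]

theorem mo_one (n : ℕ) (t : ℝ) (a : ℤ) : mo n t 1 a = √n * mo n t 0 a := by
  rw [mo_split, zpow_one]

theorem mo_two (n : ℕ) (t : ℝ) (a : ℤ) : mo n t 2 a = n * mo n t 0 a := by
  rw [mo_split, zpow_two, Real.mul_self_sqrt (Nat.cast_nonneg n)]

theorem mo_neg_one (n : ℕ) (t : ℝ) (a : ℤ) : mo n t (-1) a = mo n t 0 a / √n := by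
  rw [mo_split, _root_.zpow_neg_one, div_eq_inv_mul]

theorem mo_neg_two (n : ℕ) (t : ℝ) (a : ℤ) : mo n t (-2) a = mo n t 0 a / n := by
  rw [mo_split, _root_.zpow_neg, zpow_two, Real.mul_self_sqrt (Nat.cast_nonneg n), div_eq_inv_mul]

theorem mo_zero (n : ℕ) (t : ℝ) : mo n t 0 0 = 1 := by rw [mo, zpow_zero, zpow_zero, one_mul]

namespace Cx

variable (c : Cx n t)
include c

theorem le1 : t ≤ 1 := by linarith [c.t0, c.t1]

theorem n0' : (0 : ℝ) < n := Nat.cast_pos.2 c.n0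

theorem r0 : 0 < √(n : ℝ) := Real.sqrt_pos.2 c.n0'

theorem pos (j a : ℤ) : 0 < mo n t j a := mul_pos (zpow_pos c.r0 j) (zpow_pos c.t0 a)

theorem nn (j a : ℤ) : 0 ≤ mo n t j a := (c.pos j a).le

theorem mul (j a j' a' : ℤ) : mo n t j a * mo n t j' a' = mo n t (j + j') (a + a') := by
  rw [mo, mo, mo, zpow_add₀ c.r0.ne', zpow_add₀ c.t0.ne']
  ring

theorem mono {j a k b : ℤ} (h : j = k ∧ b ≤ a) : mo n t j a ≤ mo n t k b := by
  obtain ⟨rfl, h⟩ := h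
  exact mul_le_mul_of_nonneg_left (zpow_le_zpow_right_of_le_one₀ c.t0 c.le1 h) (zpow_pos c.r0 j).le

theorem cst {C : ℝ} (hC : C ≤ 1000000) {j a k b : ℤ} (h : j = k ∧ b < a) :
    C * mo n t j a ≤ mo n t k b := by
  have e1 : mo n t j a ≤ mo n t k (1 + b) := c.mono ⟨h.1, by omega⟩
  have e2 : mo n t k (1 + b) = t * mo n t k b := by
    rw [mo, mo, zpow_add₀ c.t0.ne', zpow_one]
    ring
  have e3 := c.pos k b
  have e4 := c.pos j a
  calc C * mo n t j a ≤ 1000000 * mo n t j a := mul_le_mul_of_nonneg_right hC e4.le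
    _ ≤ 1000000 * (t * mo n t k b) := by rw [← e2]; linarith
    _ = 1000000 * t * mo n t k b := by ring
    _ ≤ 1 * mo n t k b := mul_le_mul_of_nonneg_right c.t1 e3.le
    _ = _ := one_mul _

theorem add {j a j' a' k b : ℤ} (h : j = k ∧ j' = k ∧ b < a ∧ b < a') :
    mo n t j a + mo n t j' a' ≤ mo n t k b := by
  have e1 : mo n t j a ≤ mo n t k (b + 1) := c.mono ⟨h.1, by omega⟩
  have e2 : mo n t j' a' ≤ mo n t k (b + 1) := c.mono ⟨h.2.1, by omega⟩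
  have e3 := c.cst (C := 2) (by norm_num) (j := k) (a := b + 1) (k := k) (b := b) ⟨rfl, by omega⟩
  linarith

theorem one_le : 1 ≤ mo n t 1 215999 := by
  have e : mo n t 1 215999 * mo n t 1 215999 = n * t ^ 431998 := by
    rw [c.mul, ← mo_pow n t 431998, ← mo_two]
    rfl
  have := c.big
  rw [← e] at this
  by_contra hc
  have h1 := not_le.1 hc
  nlinarith [c.pos 1 215999]

/-- one power of `√n` is worth `t ^ (-215999)` -/
theorem trade {j a k b : ℤ} (h : j + 1 = k ∧ b ≤ a + 215999) : mo n t j a ≤ mo n t k b := by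
  have e := mul_le_mul_of_nonneg_left c.one_le (c.nn j a)
  rw [mul_one, c.mul] at e
  exact e.trans (c.mono h)

theorem sq_mo (j a : ℤ) : mo n t j a ^ 2 = mo n t (2 * j) (2 * a) := by
  rw [pow_two, c.mul, two_mul, two_mul]

theorem inv_mo (j a : ℤ) : (mo n t j a)⁻¹ = mo n t (-j) (-a) := by
  refine inv_eq_of_mul_eq_one_right ?_
  rw [c.mul, add_neg_cancel, add_neg_cancel, mo_zero]

theorem small {a : ℤ} (h : 0 < a) : mo n t 0 a ≤ 1 / 1000000 := by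
  have := c.cst (C := 1000000) le_rfl (j := 0) (a := a) (k := 0) (b := 0) ⟨rfl, h⟩
  rw [mo_zero] at this
  linarith

end Cx

/-- scalar bound -/
structure SB (n : ℕ) (t x : ℝ) (j a : ℤ) : Prop where
  cx : Cx n t
  le : |x| ≤ mo n t j a

/-- vector bound -/
structure VB (t : ℝ) (v : Vec n) (j a : ℤ) : Prop where
  cx : Cx n t
  le : nv v ≤ mo n t j a

/-- operator bound -/
structure OB (t : ℝ) (A : Mat n) (j a : ℤ) : Prop where
  cx : Cx n t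
  le : OpLe A (mo n t j a)

variable {x y : ℝ} {u v : Vec n} {A B : Mat n} {j a j' a' : ℤ}

namespace SB

theorem mono (h : SB n t x j a) (k b : ℤ) (e : j = k ∧ b ≤ a) : SB n t x k b :=
  ⟨h.cx, h.le.trans (h.cx.mono e)⟩

theorem trade (h : SB n t x j a) (k b : ℤ) (e : j + 1 = k ∧ b ≤ a + 215999) : SB n t x k b :=
  ⟨h.cx, h.le.trans (h.cx.trade e)⟩

theorem of_le (h : SB n t x j a) (e : |y| ≤ |x|) : SB n t y j a := ⟨h.cx, e.trans h.le⟩

theorem congr (h : SB n t x j a) (e : y = x) : SB n t y j a := e ▸ h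

theorem mul (h : SB n t x j a) (h' : SB n t y j' a') : SB n t (x * y) (j + j') (a + a') :=
  ⟨h.cx, by
    rw [abs_mul, ← h.cx.mul]
    exact mul_le_mul h.le h'.le (abs_nonneg _) (h.cx.nn _ _)⟩

theorem sq (h : SB n t x j a) : SB n t (x ^ 2) (j + j) (a + a) := (h.mul h).congr (pow_two x)

theorem neg (h : SB n t x j a) : SB n t (-x) j a := h.of_le (abs_neg x).le

theorem add (h : SB n t x j a) (h' : SB n t y j' a') (k b : ℤ)
    (e : j = k ∧ j' = k ∧ b < a ∧ b < a') : SB n t (x + y) k b :=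
  ⟨h.cx, (abs_add_le x y).trans ((add_le_add h.le h'.le).trans (h.cx.add e))⟩

theorem sub (h : SB n t x j a) (h' : SB n t y j' a') (k b : ℤ)
    (e : j = k ∧ j' = k ∧ b < a ∧ b < a') : SB n t (x - y) k b :=
  (h.add h'.neg k b e).congr (sub_eq_add_neg x y)

theorem num (c : Cx n t) (x : ℝ) (h : |x| ≤ 1000000) : SB n t x 0 (-1) :=
  ⟨c, by simpa [mo_zero] using c.cst h (j := 0) (a := 0) (k := 0) (b := -1) ⟨rfl, by omega⟩⟩

theorem one (c : Cx n t) (h : |x| ≤ 1) : SB n t x 0 0 := ⟨c, by rwa [mo_zero]⟩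

/-- multiplication by a numerical constant -/
theorem cmul (h : SB n t x j a) (C : ℝ) (hC : |C| ≤ 1000000) : SB n t (C * x) j (a - 1) :=
  ((num h.cx C hC).mul h).mono _ _ (by omega)

theorem half (h : SB n t x j a) : SB n t (x / 2) j a :=
  h.of_le (by rw [abs_div, abs_two]; linarith [abs_nonneg x])

theorem cast (c : Cx n t) : SB n t n 2 0 :=
  ⟨c, by rw [mo_two, mo_zero, mul_one, abs_of_pos c.n0']⟩

theorem inv_cast (c : Cx n t) : SB n t (n : ℝ)⁻¹ (-2) 0 :=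
  ⟨c, by rw [mo_neg_two, mo_zero, one_div, abs_of_pos (inv_pos.2 c.n0')]⟩

theorem div_n (h : SB n t x j a) : SB n t (x / n) (j - 2) a :=
  ((h.mul (inv_cast h.cx)).mono _ _ (by omega)).congr (div_eq_mul_inv _ _)

/-- inverse of a quantity bounded below -/
theorem inv (c : Cx n t) (h : mo n t j a ≤ x) : SB n t x⁻¹ (-j) (-a) :=
  ⟨c, by
    rw [abs_of_pos (inv_pos.2 ((c.pos j a).trans_le h)), ← c.inv_mo]
    exact inv_anti₀ (c.pos j a) h⟩

theorem small (h : SB n t x j a) (e : j = 0 ∧ 0 < a) : |x| ≤ 1 / 1000000 :=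
  (h.mono 0 a ⟨e.1, le_rfl⟩).le.trans (h.cx.small e.2)

theorem of_pow (c : Cx n t) (k : ℕ) (h : |x| ≤ t ^ k) : SB n t x 0 k := ⟨c, by rwa [mo_pow]⟩

theorem of_inv (c : Cx n t) (k : ℕ) (h : |x| ≤ t⁻¹ ^ k) : SB n t x 0 (-k) := ⟨c, by rwa [mo_inv]⟩

theorem to_pow (h : SB n t x j a) (k : ℕ) (e : j = 0 ∧ (k : ℤ) ≤ a) : |x| ≤ t ^ k :=
  mo_pow n t k ▸ (h.mono 0 k e).le

theorem to_inv (h : SB n t x j a) (k : ℕ) (e : j = 0 ∧ -(k : ℤ) ≤ a) : |x| ≤ t⁻¹ ^ k :=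
  mo_inv n t k ▸ (h.mono 0 (-k) e).le

end SB

namespace VB

theorem mono (h : VB t v j a) (k b : ℤ) (e : j = k ∧ b ≤ a) : VB t v k b :=
  ⟨h.cx, h.le.trans (h.cx.mono e)⟩

theorem trade (h : VB t v j a) (k b : ℤ) (e : j + 1 = k ∧ b ≤ a + 215999) : VB t v k b :=
  ⟨h.cx, h.le.trans (h.cx.trade e)⟩

theorem of_le (h : VB t v j a) (e : nv u ≤ nv v) : VB t u j a := ⟨h.cx, e.trans h.le⟩

theorem congr (h : VB t v j a) (e : u = v) : VB t u j a := e ▸ h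

theorem had (h : VB t v j a) (e : ∀ i, |u i| ≤ |v i|) : VB t u j a := h.of_le (nv_mono e)

theorem sb (h : VB t v j a) : SB n t (nv v) j a := ⟨h.cx, by rw [abs_of_nonneg (nv_nonneg v)]; exact h.le⟩

theorem of_sb (h : SB n t x j a) (e : nv v ≤ x) : VB t v j a :=
  ⟨h.cx, e.trans ((le_abs_self x).trans h.le)⟩

/-- entrywise bound by a multiple -/
theorem hmul (h : VB t v j a) (h' : SB n t x j' a') (e : ∀ i, |u i| ≤ |x| * |v i|) :
    VB t u (j' + j) (a' + a) :=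
  of_sb ((h'.of_le (abs_abs x).le).mul h.sb) (nv_le_mul (abs_nonneg x) e)

theorem neg (h : VB t v j a) : VB t (-v) j a := h.of_le (nv_neg v).le

theorem add (h : VB t u j a) (h' : VB t v j' a') (k b : ℤ)
    (e : j = k ∧ j' = k ∧ b < a ∧ b < a') : VB t (u + v) k b :=
  of_sb (h.sb.add h'.sb k b e) (nv_add_le u v)

theorem sub (h : VB t u j a) (h' : VB t v j' a') (k b : ℤ)
    (e : j = k ∧ j' = k ∧ b < a ∧ b < a') : VB t (u - v) k b :=
  of_sb (h.sb.add h'.sb k b e) (nv_sub_le u v)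

theorem smul (h : VB t v j a) (h' : SB n t x j' a') : VB t (x • v) (j' + j) (a' + a) :=
  h.hmul h' fun i => by rw [Pi.smul_apply, smul_eq_mul, abs_mul]

theorem ip (h : VB t u j a) (h' : VB t v j' a') : SB n t (ip u v) (j + j') (a + a') :=
  (h.sb.mul h'.sb).of_le ((abs_ip_le u v).trans (le_abs_self _))

theorem sq (h : VB t v j a) : SB n t (F.sq v) (j + j) (a + a) := (h.ip h).congr (ipN_self v).symm

theorem of_sq (h : SB n t (F.sq v) j a) (k b : ℤ) (e : j = 2 * k ∧ 2 * b ≤ a) : VB t v k b :=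
  ⟨h.cx, nv_le_of_sq_le (h.cx.nn _ _) (by
    rw [h.cx.sq_mo]
    exact (le_abs_self _).trans (h.mono _ _ e).le)⟩

/-- constant vectors -/
theorem const (h : SB n t x j a) (e : ∀ i, |u i| ≤ |x|) : VB t u (j + 1) a :=
  ⟨h.cx, (nv_le_sqrt (abs_nonneg x) e).trans (by
    have e1 := h.cx.mul j a 1 0
    rw [mo_one, mo_zero, mul_one, add_zero] at e1
    rw [← e1]
    exact mul_le_mul_of_nonneg_right h.le (Real.sqrt_nonneg _))⟩

theorem of_pow (c : Cx n t) (k : ℕ) (h : nv v ≤ √n * t ^ k) : VB t v 1 k :=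
  ⟨c, by rwa [mo_one, mo_pow]⟩

theorem to_pow (h : VB t v j a) (k : ℕ) (e : j = 1 ∧ (k : ℤ) ≤ a) : nv v ≤ √n * t ^ k := by
  have := (h.mono 1 k e).le
  rwa [mo_one, mo_pow] at this

theorem to_inv (h : VB t v j a) (k : ℕ) (e : j = 1 ∧ -(k : ℤ) ≤ a) : nv v ≤ √n * t⁻¹ ^ k := by
  have := (h.mono 1 (-k) e).le
  rwa [mo_one, mo_inv] at this

end VB

namespace OB

theorem mono (h : OB t A j a) (k b : ℤ) (e : j = k ∧ b ≤ a) : OB t A k b :=
  ⟨h.cx, h.le.monoN (h.cx.nn _ _) (h.cx.mono e)⟩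

theorem congr (h : OB t A j a) (e : B = A) : OB t B j a := e ▸ h

theorem of_sb (h : SB n t x j a) (h0 : 0 ≤ x) (e : OpLe A x) : OB t A j a :=
  ⟨h.cx, e.monoN h0 ((le_abs_self x).trans h.le)⟩

theorem num (c : Cx n t) (x : ℝ) (h0 : 0 ≤ x) (h : x ≤ 1000000) (e : OpLe A x) : OB t A 0 (-1) :=
  of_sb (SB.num c x (by rwa [abs_of_nonneg h0])) h0 e

theorem le_one (c : Cx n t) (e : OpLe A 1) : OB t A 0 0 := ⟨c, by rwa [mo_zero]⟩

theorem one (c : Cx n t) : OB t (1 : Mat n) 0 0 := le_one c opLe_one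

theorem mul (h : OB t A j a) (h' : OB t B j' a') : OB t (A * B) (j + j') (a + a') :=
  ⟨h.cx, h.cx.mul j a j' a' ▸ h.le.mulN h'.le (h.cx.nn _ _) (h.cx.nn _ _)⟩

theorem mulVec (h : OB t A j a) (h' : VB t v j' a') : VB t (A *ᵥ v) (j + j') (a + a') :=
  ⟨h.cx, (h.le.nv_le (h.cx.nn _ _) v).trans (by
    rw [← h.cx.mul]
    exact mul_le_mul_of_nonneg_left h'.le (h.cx.nn _ _))⟩

theorem add (h : OB t A j a) (h' : OB t B j' a') (k b : ℤ)
    (e : j = k ∧ j' = k ∧ b < a ∧ b < a') : OB t (A + B) k b :=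
  ⟨h.cx, (h.le.add h'.le (h.cx.nn _ _) (h.cx.nn _ _)).monoN
    (add_nonneg (h.cx.nn _ _) (h.cx.nn _ _)) (h.cx.add e)⟩

theorem sub (h : OB t A j a) (h' : OB t B j' a') (k b : ℤ)
    (e : j = k ∧ j' = k ∧ b < a ∧ b < a') : OB t (A - B) k b :=
  ⟨h.cx, (h.le.sub h'.le (h.cx.nn _ _) (h.cx.nn _ _)).monoN
    (add_nonneg (h.cx.nn _ _) (h.cx.nn _ _)) (h.cx.add e)⟩

theorem smul (h : OB t A j a) (h' : SB n t x j' a') : OB t (x • A) (j' + j) (a' + a) :=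
  ⟨h.cx, (h.le.smul (h.cx.nn _ _) x).monoN (mul_nonneg (abs_nonneg x) (h.cx.nn _ _)) (by
    rw [← h.cx.mul]
    exact mul_le_mul_of_nonneg_right h'.le (h.cx.nn _ _))⟩

theorem neg (h : OB t A j a) : OB t (-A) j a :=
  ⟨h.cx, opLe_of_nv fun v => by rw [neg_mulVec, nv_neg]; exact h.le.nv_le (h.cx.nn _ _) v⟩

theorem tr (h : OB t A j a) : OB t Aᵀ j a :=
  ⟨h.cx, opLe_of_nv fun v => by
    have e1 : nv (Aᵀ *ᵥ v) * nv (Aᵀ *ᵥ v) ≤ mo n t j a * nv v * nv (Aᵀ *ᵥ v) := by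
      rw [← pow_two, nv_sq, ← ipN_self, ← ip_tr]
      calc ip v (A *ᵥ (Aᵀ *ᵥ v)) ≤ nv v * nv (A *ᵥ (Aᵀ *ᵥ v)) := ip_le _ _
        _ ≤ nv v * (mo n t j a * nv (Aᵀ *ᵥ v)) :=
          mul_le_mul_of_nonneg_left (h.le.nv_le (h.cx.nn _ _) _) (nv_nonneg _)
        _ = _ := by ring
    rcases (nv_nonneg (Aᵀ *ᵥ v)).eq_or_lt with e | e
    · rw [← e]
      exact mul_nonneg (h.cx.nn _ _) (nv_nonneg _)
    · exact le_of_mul_le_mul_right e1 e⟩

theorem vv (h : VB t u j a) (h' : VB t v j' a') : OB t (vecMulVec u v) (j + j') (a + a') :=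
  of_sb (h.sb.mul h'.sb) (mul_nonneg (nv_nonneg _) (nv_nonneg _)) (opLe_vecMulVec u v)

theorem diag (h : SB n t x j a) (e : ∀ i, |u i| ≤ |x|) : OB t (diagonal u) j a :=
  of_sb (h.of_le (abs_abs x).le) (abs_nonneg x) (opLe_of_nv fun v =>
    nv_le_mul (abs_nonneg x) fun i => by
      rw [mulVec_diagonal, abs_mul]
      exact mul_le_mul_of_nonneg_right (e i) (abs_nonneg _))

theorem jo (h : SB n t x j a) (e : ∀ i, |u i| ≤ |x|) (O : OG n) : OB t (Sp.JO u O) j a :=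
  of_sb (h.of_le (abs_abs x).le) (abs_nonneg x) (T1.opLe_JO e O)

theorem of_pow (c : Cx n t) (k : ℕ) (h : OpLe A (t ^ k)) : OB t A 0 k := ⟨c, by rwa [mo_pow]⟩

theorem of_inv (c : Cx n t) (k : ℕ) (h : OpLe A (t⁻¹ ^ k)) : OB t A 0 (-k) := ⟨c, by rwa [mo_inv]⟩

theorem to_pow (h : OB t A j a) (k : ℕ) (e : j = 0 ∧ (k : ℤ) ≤ a) : OpLe A (t ^ k) :=
  mo_pow n t k ▸ (h.mono 0 k e).le

theorem to_inv (h : OB t A j a) (k : ℕ) (e : j = 0 ∧ -(k : ℤ) ≤ a) : OpLe A (t⁻¹ ^ k) :=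
  mo_inv n t k ▸ (h.mono 0 (-k) e).le

end OB

end Vale.Agent.N150.T2A
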