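import Vale.Agent.N150.T2A0
import Vale.Agent.N150.T1Alg2

/-! Block T2, part A3: sizes of the scalars, of `R3` and of the trace of the weight. -/

open Matrix Finset

namespace Vale.Agent.N150.T2A

open Vale.Agent.P150 Vale.Agent.P150.F Vale.Agent.N150.EC

variable {n : ℕ} {t c e T : ℝ} {h v : Vec n} {j a : ℤ}

theorem dv_mem (h : Vec n) (i : Fin n) : |dv h i| ≤ 1 := by
  have h1 := T1A.tanh_sq_lt (h i)
  have h2 := sq_nonneg (Real.tanh (h i))
  exact abs_le.2 ⟨by unfold dv; linarith, by unfold dv; linarith⟩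

theorem tm_mem (h : Vec n) (i : Fin n) : |tm h i| ≤ 1 :=
  abs_le.2 ⟨(Real.neg_one_lt_tanh _).le, (Real.tanh_lt_one _).le⟩

theorem abs_mul_le_r {x : ℝ} (hx : |x| ≤ 1) (y : ℝ) : |x * y| ≤ |y| := by
  rw [abs_mul]
  exact mul_le_of_le_one_left (abs_nonneg _) hx

/-- `V m`, `V = D - w` -/
noncomputable def Vm (h : Vec n) : Vec n := fun i => (dv h i - wb h) * tm h i
/-- `Vt = VW h h + a pᵀ` -/
noncomputable def av (c : ℝ) (h : Vec n) : Vec n :=
  -((wb h * (cT c h + 2 / (n * wb h ^ 2))) • tm h + cT c h • Vm h)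

theorem Vt_eq_VW (hn : 0 < n) (c : ℝ) (h : Vec n) :
    Vt c h = T1.VW h h + vecMulVec (av c h) (pv h) := by
  have hw := (T1A.wb_pos hn h).ne'
  have hn' : (n : ℝ) ≠ 0 := Nat.cast_ne_zero.2 hn.ne'
  have e1 : T1.Db h h = dv h := T1A.db_self h
  have e2 : T1.mu h h = pv h := by
    rw [T1A.mu_eq, T1A.mu_self]
    funext i
    exact mul_comm _ _
  rw [Vt_eq, T1.VW, e1, e2, add_assoc, sub_eq_add_neg]
  congr 1
  ext i k
  simp only [av, Vm, pv, Matrix.neg_apply, Matrix.add_apply, Matrix.smul_apply, vecMulVec_apply,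
    Pi.neg_apply, Pi.add_apply, Pi.smul_apply, smul_eq_mul]
  field_simp
  ring

/-- sharp scalar data at a point -/
structure Sc (t c e T : ℝ) (h : Vec n) : Prop where
  m : VB t (tm h) 1 71999
  m2 : VB t (fun i => tm h i ^ 2) 1 143997
  m3 : VB t (fun i => tm h i ^ 3) 1 215996
  ceq : c = 2 / T - 2 / (n * wb h ^ 2)
  Tlo : mo n t 2 (-143999) ≤ T
  he : SB n t e (-4) (-8)

namespace Sc

variable (s : Sc t c e T h)
include s

theorem cx : Cx n t := s.m.cx

theorem p : VB t (pv h) 1 71999 := s.m.had fun i => abs_mul_le_r (dv_mem h i) _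

theorem q : SB n t (1 - wb h) 0 143998 :=
  (s.m.sq.div_n.mono _ _ (by omega)).congr (by rw [T1A.wb_eq s.cx.n0, sub_sub_cancel])

theorem w_half : 1 / 2 ≤ wb h := by linarith [(abs_le.1 (s.q.small (by omega))).2]

theorem w_le : wb h ≤ 1 := T1A.wb_le s.cx.n0 h

theorem w : SB n t (wb h) 0 0 :=
  SB.one s.cx (by rw [abs_of_pos (T1A.wb_pos s.cx.n0 h)]; exact s.w_le)

theorem wi_le : |(wb h)⁻¹| ≤ 2 := by
  have := s.w_half
  rw [abs_of_pos (inv_pos.2 (by linarith)), inv_le_comm₀ (by linarith) two_pos]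
  linarith

theorem wi : SB n t (wb h)⁻¹ 0 (-1) := SB.num s.cx _ (s.wi_le.trans (by norm_num))

theorem T_pos : 0 < T := (s.cx.pos _ _).trans_le s.Tlo

theorem Ti : SB n t T⁻¹ (-2) 143999 := (SB.inv s.cx s.Tlo).mono _ _ (by omega)

theorem T2i : SB n t (2 / T) (-2) 143998 :=
  ((s.Ti.cmul 2 (by norm_num)).mono _ _ (by omega)).congr (div_eq_mul_inv _ _)

theorem nw : SB n t (2 / (n * wb h ^ 2)) (-2) (-1) := by
  have e1 : |2 * (wb h)⁻¹ ^ 2| ≤ 1000000 := by
    have := s.wi_le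
    rw [abs_mul, abs_pow, abs_two]
    nlinarith [abs_nonneg (wb h)⁻¹]
  refine ((SB.num s.cx _ e1).div_n.mono _ _ (by omega)).congr ?_
  rw [inv_pow, div_mul_eq_div_div_swap, div_eq_mul_inv 2]

theorem bc : SB n t c (-2) (-2) := (s.T2i.sub s.nw _ _ (by omega)).congr s.ceq

theorem mp : SB n t (ip (tm h) (pv h)) 2 143998 := (s.m.ip s.p).mono _ _ (by omega)

theorem cmp : SB n t (c * ip (tm h) (pv h)) 0 143996 := (s.bc.mul s.mp).mono _ _ (by omega)

theorem half_le : 1 / 2 ≤ 1 + c * ip (tm h) (pv h) := by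
  linarith [(abs_le.1 (s.cmp.small (by omega))).1]

theorem hc : 1 + c * ip (tm h) (pv h) ≠ 0 := by linarith [s.half_le]

theorem bcT : SB n t (cT c h) (-2) (-3) := by
  refine ((s.bc.cmul 2 (by norm_num)).mono _ _ (by omega)).of_le ?_
  have := s.half_le
  rw [cT, abs_div, abs_mul, abs_two, abs_of_pos (a := 1 + _) (by linarith),
    div_le_iff₀ (by linarith)]
  nlinarith [abs_nonneg c]

theorem cTmp : SB n t (cT c h * ip (tm h) (pv h)) 0 143995 := (s.bcT.mul s.mp).mono _ _ (by omega)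

theorem al : SB n t (1 - cT c h * ip (tm h) (pv h)) 0 (-1) :=
  (SB.one s.cx (by norm_num)).sub s.cTmp _ _ (by omega)

theorem cT_sub : SB n t (cT c h - c) (-2) 143993 :=
  ((s.bcT.mul s.cmp).neg.mono _ _ (by omega)).congr (by linear_combination cT_mul s.hc)

theorem cT_add : SB n t (cT c h + 2 / (n * wb h ^ 2)) (-2) 143992 :=
  (s.cT_sub.add s.T2i _ _ (by omega)).congr (by rw [s.ceq]; ring)

/-- `c / 2 + 1 / n` is small -/
theorem c_add : SB n t (c / 2 + 1 / n) (-2) 143993 := by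
  have hw := (T1A.wb_pos s.cx.n0 h).ne'
  have hn := s.cx.n0'.ne'
  have e1 : SB n t (1 + wb h) 0 (-1) := (SB.one s.cx (by norm_num)).add s.w _ _ (by omega)
  refine (s.Ti.sub ((s.q.mul e1).mul s.wi.sq).div_n _ _ (by omega)).congr ?_
  rw [s.ceq]
  field_simp
  ring

theorem V : VB t (fun i => dv h i - wb h) 1 143996 :=
  ((VB.const (u := fun _ => 1 - wb h) s.q fun _ => le_rfl).sub s.m2 _ _ (by omega)).congr (by
    funext i
    simp only [dv, tm, Pi.sub_apply]
    ring)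

theorem bVm : VB t (Vm h) 1 215995 :=
  ((s.m.smul s.q).sub s.m3 _ _ (by omega)).congr (by
    funext i
    simp only [Vm, dv, tm, Pi.sub_apply, Pi.smul_apply, smul_eq_mul]
    ring)

theorem bav : VB t (av c h) (-1) 215990 :=
  (((s.m.smul (s.w.mul s.cT_add)).add (s.bVm.smul s.bcT) _ _ (by omega)).neg).congr rfl

theorem trV : SB n t (Vt c h).trace 0 143995 :=
  ((s.bcT.mul s.p.sq).neg.mono _ _ (by omega)).congr (trace_Vt s.cx.n0 c h)

theorem Vpp : SB n t (∑ i, (dv h i - wb h) * pv h i ^ 2) 2 287994 := by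
  have e1 : VB t (fun i => (dv h i - wb h) * pv h i) 1 215995 := s.bVm.had fun i => by
    rw [pv, mul_left_comm]
    exact abs_mul_le_r (dv_mem h i) _
  exact ((e1.ip s.p).mono _ _ (by omega)).congr (Finset.sum_congr rfl fun i _ => by ring)

/-- `tr Vt ^ 2 - tr V ^ 2` -/
theorem dV : SB n t (cT c h ^ 2 * F.sq (pv h) ^ 2 -
    2 * cT c h * ∑ i, (dv h i - wb h) * pv h i ^ 2) 0 287989 :=
  (s.bcT.sq.mul s.p.sq.sq).sub ((s.bcT.cmul 2 (by norm_num)).mul s.Vpp) _ _ (by omega)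

theorem trV2 : SB n t (Vt c h * Vt c h).trace 2 287991 :=
  (s.V.sq.add ((s.dV.trade 1 300000 (by omega)).trade 2 300000 (by omega)) _ _ (by omega)).congr
    (by
      rw [trace_Vt_sq, show ∑ i, (dv h i - wb h) ^ 2 = F.sq fun i => dv h i - wb h from rfl]
      ring)

theorem oD : OB t (diagonal (dv h)) 0 0 :=
  OB.diag (SB.one s.cx (x := 1) (by norm_num)) fun i => by simpa using dv_mem h i

theorem oTh : OpLe (Th c h) 2 := by
  have e1 := ((OB.vv s.p s.p).smul s.bcT).mono 0 0 (by omega)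
  have e2 := s.oD.le.sub e1.le (s.cx.nn _ _) (s.cx.nn _ _)
  rwa [mo_zero, one_add_one_eq_two] at e2

theorem oVt : OpLe (Vt c h) 2 := by
  have e1 := ((OB.vv s.p s.p).smul s.bcT).mono 0 0 (by omega)
  have e0 : OB t (diagonal fun i => dv h i - wb h) 0 0 :=
    OB.diag (SB.one s.cx (x := 1) (by norm_num)) fun i => by
      have a1 := T1A.tanh_sq_lt (h i)
      have a2 := sq_nonneg (Real.tanh (h i))
      have a3 := s.w_half
      have a4 := s.w_le
      rw [abs_one]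
      exact abs_le.2 ⟨by unfold dv; linarith, by unfold dv; linarith⟩
  have e2 := e0.le.sub e1.le (s.cx.nn _ _) (s.cx.nn _ _)
  rwa [mo_zero, one_add_one_eq_two, ← Vt_eq] at e2

theorem oF : OB t (Fm c h - 1) 0 143995 :=
  (((OB.vv s.m s.p).smul s.bcT).neg.mono _ _ (by omega)).congr (by rw [Fm]; abel)

variable (hv : VB t v j a)
include hv

theorem mu : SB n t (ip (tm h) v) (j + 1) (a + 71999) := (s.m.ip hv).mono _ _ (by omega)

theorem bal : SB n t (ip (tm h) v / T) (j - 1) (a + 215998) :=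
  (((s.mu hv).mul s.Ti).mono _ _ (by omega)).congr (div_eq_mul_inv _ _)

omit s in
theorem bD : VB t (Dv h v) j a := hv.had fun i => abs_mul_le_r (dv_mem h i) _

/-- second part of `be` -/
theorem be2 : VB t (fun i => c / 2 * ip (tm h) v * dv h i ^ 2) j (a + 71997) :=
  (VB.const (s.bc.half.mul (s.mu hv)) fun i => by
    rw [mul_comm]
    exact abs_mul_le_r (by rw [abs_pow]; exact pow_le_one₀ (abs_nonneg _) (dv_mem h i)) _).mono _ _
    (by omega)

theorem bem : VB t (fun i => be c h v i * tm h i) j (a - 1) := by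
  have e1 : VB t (fun i => tm h i * (tm h i * v i)) j a := hv.had fun i =>
    (abs_mul_le_r (tm_mem h i) _).trans (abs_mul_le_r (tm_mem h i) _)
  have e2 : VB t (fun i => tm h i * (c / 2 * ip (tm h) v * dv h i ^ 2)) j (a + 71997) :=
    (s.be2 hv).had fun i => abs_mul_le_r (tm_mem h i) _
  refine (e1.add e2 _ _ (by omega)).congr ?_
  funext i
  simp only [be, Pi.add_apply]
  ring

theorem brv : VB t (rv c e h v) (j - 2) (a - 6) := by
  have e1 := (bD (h := h) hv).smul (s.bc.half.mul s.al)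
  have e2 := (s.bem hv).smul s.bcT
  have e3 : SB n t (∑ i, be c h v i * tm h i ^ 2) (j + 1) (a + 71998) :=
    (((s.bem hv).ip s.m).mono _ _ (by omega)).congr (Finset.sum_congr rfl fun i _ => by ring)
  have e4 := ((s.bcT.sq.mul e3).sub (((s.bc.mul s.bcT).mul s.al).mul (s.m.ip (bD (h := h) hv)))
    (j - 3) (a + 71991) (by omega)).add ((s.he.mul (s.mu hv)).mul s.al.sq) (j - 3) (a + 71988)
    (by omega)
  exact ((e1.sub e2 (j - 2) (a - 5) (by omega)).add (s.p.smul e4.half) _ _ (by omega)).congr rfl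

theorem oR3 : OB t (R3 c e h v) (j - 1) (a + 71992) :=
  ((OB.vv s.p (s.brv hv)).add (OB.vv (s.brv hv) s.p) _ _ (by omega)).congr (R3_eq c e h v)

/-- **A3** -/
theorem a3 : SB n t ((Bh c e h v).trace -
    ip (tm h) v / T * Del T (Vt c h * Vt c h).trace h) (j - 1) (a + 71991) := by
  have hT := s.T_pos.ne'
  have hn := s.cx.n0'.ne'
  have e1 : SB n t ((T / wb h ^ 2 - n) / (n * T)) (-2) (-3) := by
    refine (s.wi.sq.div_n.sub s.Ti _ _ (by omega)).congr ?_
    have hw := (T1A.wb_pos s.cx.n0 h).ne'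
    field_simp
  refine ((((s.mu hv).mul e1).mul s.dV).add ((s.p.ip (s.brv hv)).cmul 2 (by norm_num)) _ _
    (by omega)).congr ?_
  rw [trace_Bh s.cx.n0 hT s.ceq]
  ring

end Sc

/-! ### the scalar data at a point close to a clipped centre -/

theorem pow_tanh_le (x y : ℝ) (k : ℕ) : |Real.tanh x ^ k - Real.tanh y ^ k| ≤ k * |x - y| := by
  have a1 : |Real.tanh x| ≤ 1 := abs_le.2 ⟨(Real.neg_one_lt_tanh _).le, (Real.tanh_lt_one _).le⟩
  have a2 : |Real.tanh y| ≤ 1 := abs_le.2 ⟨(Real.neg_one_lt_tanh _).le, (Real.tanh_lt_one _).le⟩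
  have a3 : max |Real.tanh x| |Real.tanh y| ^ (k - 1) ≤ 1 :=
    pow_le_one₀ (le_max_of_le_left (abs_nonneg _)) (max_le a1 a2)
  refine (abs_pow_sub_pow_le _ _ k).trans ?_
  calc |Real.tanh x - Real.tanh y| * k * max |Real.tanh x| |Real.tanh y| ^ (k - 1)
      ≤ |x - y| * k * 1 := mul_le_mul (mul_le_mul_of_nonneg_right (T1A.abs_tanh_sub_le x y)
        (Nat.cast_nonneg k)) a3 (by positivity) (by positivity)
    _ = _ := by ring

theorem vb_pow (cx : Cx n t) {hc : Vec n} (clp : ∀ i, |hc i| ≤ t ^ 71999)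
    (nrm : F.sq hc ≤ n * t ^ 143999) (near : nv (h - hc) ≤ 2 * (√n * t ^ 252000)) (k : ℕ)
    (hk : k ≤ 2) : VB t (fun i => tm h i ^ (k + 1)) 1 (71999 * (k + 1) - 1) := by
  have e0 : VB t (h - hc) 1 251999 :=
    VB.of_sb (((SB.mk cx (le_of_eq (abs_of_pos (cx.pos 1 252000)))).cmul 2 (by norm_num)).mono _ _
      (by omega)) (by rw [mo_one]; exact near.trans_eq (by rw [← mo_pow n t 252000]; rfl))
  have e1 : VB t hc 1 71999 := VB.of_sq (j := 2) (a := 143999) ⟨cx, by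
    rw [abs_of_nonneg (sqN_nonneg _), mo_two]
    exact nrm.trans_eq (by rw [← mo_pow n t 143999]; rfl)⟩ _ _ (by omega)
  have e2 : VB t (fun i => tm h i ^ (k + 1) - tm hc i ^ (k + 1)) 1 251998 :=
    (e0.hmul (SB.num cx 3 (by norm_num)) fun i => (pow_tanh_le _ _ _).trans
      (mul_le_mul_of_nonneg_right (by
        have : (k : ℝ) ≤ 2 := by exact_mod_cast hk
        rw [abs_of_pos (by norm_num)]
        push_cast
        linarith) (abs_nonneg _))).mono _ _ (by omega)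
  have e3 : VB t (fun i => tm hc i ^ (k + 1)) 1 (71999 * (k + 1)) := by
    have b : SB n t (t ^ (71999 * k)) 0 (71999 * k : ℕ) :=
      SB.of_pow cx _ (abs_of_pos (pow_pos cx.t0 _)).le
    refine (e1.hmul b fun i => ?_).mono _ _ (by omega)
    have a1 : |tm hc i| ≤ |hc i| := by simpa [tm] using T1A.abs_tanh_sub_le (hc i) 0
    rw [pow_succ, abs_mul, abs_pow, abs_of_pos (pow_pos cx.t0 _), pow_mul]
    exact mul_le_mul (pow_le_pow_left₀ (abs_nonneg _) (a1.trans (clp i)) k) a1 (abs_nonneg _)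
      (pow_pos (pow_pos cx.t0 _) _).le
  exact (e2.add e3 _ _ (by omega)).congr (by funext i; simp)

variable {L : ℝ} {S : T1.Dat n} {O : OG n}

theorem near_z (hs : T1.Sm L t) (A : T1.Adm L t S) (R : T1.Reg t (S.J O) (S.y O) h) :
    |wb h - S.w| ≤ t ^ 144010 := by
  have e := T1A.reg_w hs A R
  rw [T1A.E_nat t 214998 214998 rfl] at e
  exact e.trans (hs.pw (by norm_num))

theorem sc_of (hs : T1.Sm L t) (A : T1.Adm L t S) (R : T1.Reg t (S.J O) (S.y O) h) {hc : Vec n}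
    (clp : ∀ i, |hc i| ≤ t ^ 71999) (nrm : F.sq hc ≤ n * t ^ 143999)
    (near : nv (h - hc) ≤ 2 * (√n * t ^ 252000)) :
    Sc t (cc (S.J O) h (T1.zh (S.J O) h)) (c3 (S.J O) h (T1.zh (S.J O) h))
      (T2 (S.J O) (T1.zh (S.J O) h)) h := by
  have cx := cx_of hs A
  have hw := near_z hs A R
  have hG := A.G0_zh hs O hw
  have hz := A.inv_near hs (A.zh_spec hs O hw).1
  obtain ⟨z, ez⟩ : ∃ z, z = T1.zh (S.J O) h := ⟨_, rfl⟩
  rw [← ez] at hG hz ⊢
  have e2 : T2 (S.J O) z = ∑ a, (z - S.lam a)⁻¹ * (z - S.lam a)⁻¹ := by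
    rw [T2, hG, T1.JO_mul, T1.trace_JO]
  have e3 : T3 (S.J O) z = ∑ a, (z - S.lam a)⁻¹ * (z - S.lam a)⁻¹ * (z - S.lam a)⁻¹ := by
    rw [T3, hG, T1.JO_mul, T1.JO_mul, T1.trace_JO]
  have gp := A.g_pos hs
  have lo : mo n t 2 (-143999) ≤ T2 (S.J O) z := by
    have b1 := T1A.adm_T (T1A.sm_of hs) A
    rw [T1A.E_nat t 143999 143999 rfl] at b1
    have b2 : 1 / 16 * ∑ a, S.g a ^ 2 ≤ T2 (S.J O) z := by
      rw [e2, Finset.mul_sum]
      exact Finset.sum_le_sum fun a _ => by nlinarith [(hz a).1, gp a]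
    have b3 := hs.ip_eq 143999 0
    rw [add_zero, pow_zero] at b3
    have b4 := mul_le_mul_of_nonneg_left b1 (hs.i0 143999).le
    rw [← mul_assoc _ (t ^ 143999), b3] at b4
    rw [mo_two, show (-143999 : ℤ) = -(143999 : ℕ) from rfl, mo_inv]
    linarith
  have m1 : VB t (tm h) 1 71999 := VB.of_pow cx 71999 (by
    have := T1A.reg_tm' hs A R
    rwa [T1A.Vb, T1A.E_nat t 71999 71999 rfl] at this)
  have s0 : Sc t (cc (S.J O) h z) 0 (T2 (S.J O) z) h :=
    ⟨m1, (vb_pow cx clp nrm near 1 (by norm_num)).mono _ _ (by omega),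
      (vb_pow cx clp nrm near 2 (by norm_num)).mono _ _ (by omega), rfl, lo,
      ⟨cx, by rw [abs_zero]; exact cx.nn _ _⟩⟩
  refine ⟨s0.m, s0.m2, s0.m3, rfl, lo, ?_⟩
  have hT := s0.T_pos
  have b1 : SB n t (T3 (S.J O) z / T2 (S.J O) z) 0 (-288002) := by
    refine ((SB.of_inv cx 288001 (abs_of_pos (hs.i0 _)).le).cmul 2 (by norm_num)).of_le ?_
    have p : ∀ a, 0 < (z - S.lam a)⁻¹ := fun a => by linarith [(hz a).1, gp a]
    have b2 : 0 ≤ T3 (S.J O) z := e3 ▸ Finset.sum_nonneg fun a _ =>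
      (mul_pos (mul_pos (p a) (p a)) (p a)).le
    rw [abs_of_nonneg (div_nonneg b2 hT.le), abs_of_pos (mul_pos two_pos (hs.i0 _)),
      div_le_iff₀ hT, e3, e2, Finset.mul_sum]
    refine Finset.sum_le_sum fun a _ => ?_
    rw [mul_comm]
    exact mul_le_mul_of_nonneg_right (by linarith [(hz a).2, A.g_le hs a])
      (mul_pos (p a) (p a)).le
  have hw0 := (T1A.wb_pos cx.n0 h).ne'
  have hn := cx.n0'.ne'
  refine ((((b1.mul s0.Ti.sq).sub (s0.wi.sq.mul s0.wi).div_n.div_n (-4) (-5) (by omega)).cmul 4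
    (by norm_num)).mono _ _ (by omega)).congr ?_
  rw [c3]
  field_simp

theorem near_hc (B : T1.Base t S O) (hb : T1.Ball t (S.J O) (S.y O) h) (hs : T1.Sm L t) :
    nv (h - S.hc t O) ≤ 2 * (√n * t ^ 252000) := by
  have e1 := nv_sub_triangle h (S.h O 3) (S.hc t O)
  have e2 : nv (h - S.h O 3) ≤ √n * t ^ 252000 := hb
  have e3 := B.clp.trans (mul_le_mul_of_nonneg_left (hs.pw (a := 280000) (b := 252000)
    (by norm_num)) (Real.sqrt_nonneg _))
  linarith

/-- the scalar data at every point of the ball -/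
theorem sc_ball (hs : T1.Sm L t) (A : T1.Adm L t S) (G : T1.Good t S O) (U : T1.Out t S O)
    (hb : T1.Ball t (S.J O) (S.y O) h) :
    Sc t (cc (S.J O) h (T1.zh (S.J O) h)) (c3 (S.J O) h (T1.zh (S.J O) h))
      (T2 (S.J O) (T1.zh (S.J O) h)) h :=
  sc_of hs A (U.reg h hb) G.str.clp G.str.nrm (near_hc G.base hb hs)

end Vale.Agent.N150.T2A
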