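import Vale.Agent.N150.T2A2
import Vale.Agent.N150.T2Cv

/-! T2, statement `A2Stmt`: the link between the source `k0` and the observable of the fibre. -/

open Matrix

namespace Vale.Agent.N150.T2A2

open Vale.Agent.P150 Vale.Agent.P150.F Vale.Agent.N150.EC Vale.Agent.N150.Sp Vale.Agent.N150.Fib
open Vale.Agent.N150.T1 Vale.Agent.N150.T2 Vale.Agent.N150.T2A

variable {n : ℕ}

section

variable {t : ℝ} {A : Mat n} {j a : ℤ}

theorem ob_entry (h : OB t A j a) (i : Fin n) : |A i i| ≤ mo n t j a := by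
  have h1 := (abs_le_nv _ i).trans (h.le.nv_le (h.cx.nn _ _) (Pi.single i 1))
  have h2 : nv (Pi.single i 1 : Vec n) = 1 := by
    rw [nv_eq_sqrt, Real.sqrt_eq_one]
    simp [F.sq, Pi.single_apply]
  simpa [h2] using h1

theorem ob_trace (h : OB t A j a) : SB n t A.trace (2 + j) a := by
  refine ⟨h.cx, (Finset.abs_sum_le_sum_abs _ _).trans
    ((Finset.sum_le_sum fun i _ => ob_entry h i).trans (le_of_eq ?_))⟩
  have e := h.cx.mul 2 0 j a
  rw [zero_add, mo_two, mo_zero, mul_one] at e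
  rw [← e]
  simp

theorem mo_four (n : ℕ) (t : ℝ) : mo n t 4 0 = (n : ℝ) ^ 2 := by
  rw [mo, zpow_zero, mul_one, show (4 : ℤ) = ((2 * 2 : ℕ) : ℤ) from rfl, zpow_natCast, pow_mul,
    Real.sq_sqrt (Nat.cast_nonneg n)]

/-- crude bound of the source -/
theorem k0_vb {J P : Mat n} {h : Vec n} {z : ℝ} (s : Sc t (cc J h z) (c3 J h z) (EC.T2 J z) h)
    (hP : OB t P 0 0) (h0 : OB t (G0 J z) 0 (-288102)) (h1 : OB t (Gam J h z) 0 (-288102)) :
    VB t (k0 J h z P) 1 (-504300) := by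
  have cx := s.cx
  have h2 : OB t (Gm J h z) 0 (-288102) := (s.oD.mul h1).mono _ _ (by omega)
  have sw : ∀ {B : Mat n}, OB t B 0 (-288102) → OB t (B * P * Bᵀ) 0 (-576204) := fun b =>
    ((b.mul hP).mul b.tr).mono _ _ (by omega)
  have M1 := sw h1
  have M2 := sw h2
  have M0 : OB t (G0 J z * P * G0 J z) 0 (-576204) := ((h0.mul hP).mul h0).mono _ _ (by omega)
  have a1 : VB t (fun i => tm h i * (Gam J h z * P * (Gam J h z)ᵀ) i i) 1 (-504205) :=
    (s.m.hmul (x := mo n t 0 (-576204)) ⟨cx, (abs_of_pos (cx.pos _ _)).le⟩ fun i => by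
      rw [abs_mul, mul_comm, abs_of_pos (cx.pos _ _)]
      exact mul_le_mul_of_nonneg_right (ob_entry M1 i) (abs_nonneg _)).mono _ _ (by omega)
  have a2 : SB n t (cc J h z / 2 * (Gm J h z * P * (Gm J h z)ᵀ).trace) 0 (-576206) :=
    (s.bc.half.mul (ob_trace M2)).mono _ _ (by omega)
  have a3 : SB n t (c3 J h z * qf (Gm J h z * P * (Gm J h z)ᵀ) (tm h)) 0 (-576206) :=
    (((s.he.mul (s.m.ip (M2.mulVec s.m))).trade (-1) (-576206) (by omega)).trade 0 (-576206)
      (by omega))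
  have a4 := s.m.smul (a2.add a3 0 (-576207) (by omega))
  have a5 := (((M2.mulVec s.m).smul s.bc).trade 0 (-504208) (by omega)).trade 1 (-504208)
    (by omega)
  have a6 := s.m.smul ((ob_trace M0).mul s.Ti)
  refine ((((a1.add a4 1 (-504209) (by omega)).add a5 1 (-504210) (by omega)).sub a6 1 (-504300)
    (by omega))).congr ?_
  funext i
  simp only [k0, eb, Pi.sub_apply, Pi.add_apply, Pi.smul_apply, smul_eq_mul, div_eq_mul_inv]

end

variable {L t : ℝ} {S : Dat n} {V : Finset (Fin n)} {O O0 : OG n} {Pi : Mat n} {h v : Vec n}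

theorem lab_iff (a : Fin n) : 144001 < lab t S V a ↔ a ∈ V := by
  unfold lab
  split_ifs with ha
  · simp [ha]
  · have := (Finset.card_filter_le (Finset.range 144001)
      fun i => S.gam - S.lam a ≤ t ^ (2 * i)).trans (Finset.card_range _).le
    simp only [ha, iff_false, not_lt]
    exact this

theorem mk_ind : (mk t S V O0 Pi h v).ind 144001 = fun a => if a ∈ V then 1 else 0 := by
  funext a
  exact if_congr (lab_iff a) rfl rfl

theorem PV_eq : PV V O = JO (fun a => if a ∈ V then 1 else 0) O := rfl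

theorem mk_P : (mk t S V O0 Pi h v).P O = PV V O := by
  rw [Fd.P, Fd.P0, mk_ind]
  rfl

theorem mk_A : (mk t S V O0 Pi h v).A O = Am (S.J O) h (zc S h) := by
  rw [Am, show S.J O = JO S.lam O from rfl, Nm_JO, ← JO_const _ O, JO_sub]
  rfl

theorem mk_Ga : (mk t S V O0 Pi h v).Ga O = Ga (Am (S.J O) h (zc S h)) (Th (cS S h) h) := by
  rw [Fd.Ga, Wd.Ga, add_zero, Ga, ← mk_A (t := t) (V := V) (O0 := O0) (Pi := Pi) (v := v)]
  rfl

theorem mk_Xi : (mk t S V O0 Pi h v).Xi O =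
    Xi (Am (S.J O) h (zc S h)) (Th (cS S h) h) (PV V O) := by
  rw [Xi, ← mk_Ga (t := t) (V := V) (O0 := O0) (Pi := Pi) (v := v),
    ← mk_P (t := t) (S := S) (O0 := O0) (Pi := Pi) (h := h) (v := v)]
  rfl

theorem mk_G0 (ad : Adm L t S) : G0 (S.J O) (zc S h) = JO (fun a => (zc S h - S.lam a)⁻¹) O := by
  rw [← zh_eq S O h]
  exact G0_JO (T1A.zh_lt ad O h) O

theorem mk_tau (ad : Adm L t S) (cp : Cp L t S V) :
    (G0 (S.J O) (zc S h) * PV V O * G0 (S.J O) (zc S h)).trace = (mk t S V O0 Pi h v).tau := by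
  rw [mk_G0 ad, PV_eq, JO_mul, JO_mul, trace_JO, Fd.tau, mk_ind, Finset.sum_div]
  refine Finset.sum_congr rfl fun a _ => ?_
  split_ifs with ha
  · rw [cp.vl a ha, mul_one, one_div, pow_two, mul_inv]
    rfl
  · rw [mul_zero, zero_mul, zero_div]

theorem a2Stmt : A2Stmt := fun L hL => by
  filter_upwards [ev_sm L hL] with t hs
  intro n S V x xt O O0 Pi h u v H f _
  have ad := H.adm
  have s := sc_ball hs ad H.good H.out H.ball
  have g := H.out.gam h H.ball
  rw [zh_eq] at s g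
  have cx := s.cx
  constructor
  · rw [ip_k0 (by rw [PV_eq, JO_tr]) s.hc, mk_tau (O0 := O0) (Pi := Pi) (v := v) ad H.cap, cS_eq,
      eS_eq, TS_eq, Fd.f, mk_Xi, mul_div_right_comm]
    rfl
  · have ni := OB.of_inv cx 144001 (ad.opLe_Nis hs O)
    have h1 : OB t (Gam (S.J O) h (zc S h)) 0 (-288102) :=
      (((ni.mul (OB.of_inv cx 100 g)).mul ni).mono _ _ (by omega)).congr (by
        rw [Matrix.mul_assoc (S.Nsq O), ← Matrix.mul_assoc (S.Nis O), ad.Nis_mul_Nsq hs,
          Matrix.one_mul, Matrix.mul_assoc, ad.Nsq_mul_Nis hs, Matrix.mul_one])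
    have h0 : OB t (G0 (S.J O) (zc S h)) 0 (-288102) := by
      rw [mk_G0 ad]
      refine (OB.of_inv cx 288001 (opLe_JO (fun a => ?_) O)).mono _ _ (by omega)
      have e1 : t ^ 288001 ≤ zc S h - S.lam a := f.dlo.trans (f.nlo a)
      have e2 := hs.p0 288001
      rw [abs_of_pos (inv_pos.2 (e2.trans_le e1)), inv_pow]
      exact inv_anti₀ e2 e1
    have hP : OB t (PV V O) 0 0 :=
      OB.le_one cx (opLe_JO (u := fun a => if a ∈ V then 1 else 0)
        (fun a => by split_ifs <;> simp) O)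
    rw [← mo_four n t]
    exact ((((k0_vb s hP h0 h1).trade 2 (-288301) (by omega)).trade 3 (-72302) (by omega)).trade
      4 0 (by omega)).le

end Vale.Agent.N150.T2A2
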