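import Vale.Agent.N150.T2A9
import Vale.Agent.N150.T2Cv
import Vale.Agent.N150.T1D4

/-! T2, block A: the field `en` of `T2.Ma` (I9 on the cap). -/

open Matrix Finset Filter Topology

namespace Vale.Agent.N150.T2A9

open Vale.Agent.P150 Vale.Agent.P150.F Vale.Agent.N150.EC Vale.Agent.N150.Sp
open Vale.Agent.N150.T1A

variable {n : ℕ} {L t : ℝ} {S : T1.Dat n} {V : Finset (Fin n)}

theorem i9Stmt : I9Stmt := i9_of T1.d4Stmt

theorem i9WStmt : I9WStmt := i9W_of T1.d4Stmt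

/-- on the cap the energy of the field is of order `k` -/
theorem cap_y (hs : T1.Sm L t) (A : T1.Adm L t S) (C : T2.Cp L t S V) :
    ∑ a, S.g a * S.yt a ^ 2 ≤ n * t ^ 431990 := by
  have h1 : ∑ a, S.g a * S.yt a ^ 2 ≤ L * t ^ 288000 * ∑ a, (S.g a * S.yt a) ^ 2 := by
    rw [Finset.mul_sum]
    refine Finset.sum_le_sum fun a _ => ?_
    by_cases ha : a ∈ V
    · have e : S.g a * S.yt a ^ 2 = (S.z0 - S.lam a) * (S.g a * S.yt a) ^ 2 := by
        linear_combination (-(S.g a * S.yt a ^ 2)) * A.g_mul hs a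
      rw [e, C.vl a ha]
      exact mul_le_mul_of_nonneg_right (by linarith only [A.hi]) (sq_nonneg _)
    · rw [C.vy a ha]; simp
  have h2 := mul_le_mul_of_nonneg_left A.y2 (mul_pos hs.L0 (hs.p0 288000)).le
  have h3 := mul_le_mul_of_nonneg_left (hs.cLp (C := 1) (k := 2) (by norm_num) (by norm_num)
    (a := 432000) (b := 431990) (by norm_num)) A.npos'.le
  refine h1.trans (h2.trans (le_trans (le_of_eq ?_) h3))
  ring

/-- `|Hi v| ≤ 2 |N0 ^ (1/2) v|` -/
theorem Hi_le (hs : T1.Sm L t) (A : T1.Adm L t S) {O O0 : OG n} {Pi : Mat n} {h v : Vec n}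
    (R : T1.Reg t (S.J O) (S.y O) h) (f : T2.Fr t (T2.mk t S V O0 Pi h v)) (u : Vec n) :
    nv ((T2.mk t S V O0 Pi h v).Hi O *ᵥ u) ≤ 2 * nv (S.Nsq O *ᵥ u) := by
  have s := sm_of hs
  refine T1.nv_JO_le two_pos.le (fun a => ?_) O u
  have h1 := f.h1 a
  have h2 : (T2.mk t S V O0 Pi h v).nu a ≤ 4 * (S.z0 - S.lam a) := by
    have k1 := (abs_le.1 (reg_z hs A R)).2
    have k2 := adm_gap s A a
    have k3 := s.mono (a := 358997) (b := 288001) (by norm_num)
    have k4 := s.pos 288001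
    rw [T2.zh_eq] at k1
    show T2.zc S h - S.lam a ≤ _
    linarith only [k1, k2, k3, k4]
  have h3 := A.gap_pos hs a
  generalize (T2.mk t S V O0 Pi h v).hv a = H at h1 ⊢
  generalize (T2.mk t S V O0 Pi h v).nu a = ν at h1 h2
  generalize S.z0 - S.lam a = d at h2 h3 ⊢
  rw [abs_of_nonneg (inv_nonneg.2 (Real.sqrt_nonneg _)), abs_of_nonneg (Real.sqrt_nonneg _),
    ← Real.sqrt_inv]
  refine Real.sqrt_le_iff.2 ⟨by positivity, ?_⟩
  rw [mul_pow, Real.sq_sqrt h3.le]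
  rcases le_or_gt H 0 with h4 | h4
  · linarith [inv_nonpos.2 h4]
  · rw [inv_le_iff_one_le_mul₀ h4]
    nlinarith

theorem en_at (hs : T1.Sm L t) {O O0 : OG n} {Pi : Mat n} {x xt h u v : Vec n}
    (k : D6.Pk L t S O) (H : T2.Hy L t S V x xt O h u v) (f : T2.Fr t (T2.mk t S V O0 Pi h v)) :
    nv ((T2.mk t S V O0 Pi h v).Hi O *ᵥ tm h) ≤ √n * t ^ 215900 := by
  have s := sm_of hs
  have R := H.out.reg h H.ball
  have hr : Vb t 399000 (T1.rs1 (S.J O) (S.y O) h) := by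
    unfold Vb; rw [E_nat t 399000 399000 rfl]; exact H.res
  have hr2 : Vb t 215995 _ := s.v_mul (Nis_op hs H.adm O) hr (by norm_num)
  unfold Vb at hr2
  rw [E_nat t 215995 215995 rfl] at hr2
  have h1 : nv _ ≤ √n * E t 215914 := (i9 hs k (D6.strW_of_good k.sm H.good)
    (near_of_ball hs H.good H.ball R) hr2 (cap_y hs H.adm H.cap)).2
  have h2 := mul_le_mul_of_nonneg_left (s.num (C := 2) (by norm_num) (a := 215914) (b := 215900)
    (by norm_num)) (Real.sqrt_nonneg (n : ℝ))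
  rw [← E_nat t 215900 215900 rfl]
  linarith only [Hi_le hs H.adm R f (tm h), h1, h2]

/-- the field `en` of `T2.Ma` -/
theorem en_of : T1.Ev fun L t => ∀ (n : ℕ) (S : T1.Dat n) (V : Finset (Fin n)) (x xt : Vec n)
    (O O0 : OG n) (Pi : Mat n) (h u v : Vec n), T2.Hy L t S V x xt O h u v →
    T2.Fr t (T2.mk t S V O0 Pi h v) →
    nv ((T2.mk t S V O0 Pi h v).Hi O *ᵥ tm h) ≤ √n * t ^ 215900 := fun L hL => by
  filter_upwards [D6.ev_pk d2Stmt T1.d4Stmt L hL, T1.ev_sm L hL] with t hk hs n S V x xt O O0 Pi h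
    u v H f
  exact en_at hs (hk n S O H.adm) H f

/-- (I9) in the form of helper3 -/
theorem i9c : T1.Ev fun L t => ∀ (n : ℕ) (S : T1.Dat n) (O : OG n) (h : Vec n), T1.Adm L t S →
    T1.Good t S O → T1.Ball t (S.J O) (S.y O) h →
    nv (T1.rs1 (S.J O) (S.y O) h) ≤ √n * t ^ 399000 →
    ∑ a, S.g a * S.yt a ^ 2 ≤ L ^ 2 * n * t ^ 432000 →
    nv (S.Nsq O *ᵥ tm h) ≤ √n * t ^ 215905 := fun L hL => by
  filter_upwards [D6.ev_pk d2Stmt T1.d4Stmt L hL, D6.d6Stmt_of d2Stmt T1.d4Stmt L hL,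
    T1.ev_sm L hL] with t hk h6 hs n S O h A g hb hr hy
  have s := sm_of hs
  have k := hk n S O A
  rw [← E_nat t 399000 399000 rfl] at hr
  have hr2 : Vb t 215995 _ := s.v_mul (Nis_op hs A O) hr (by norm_num)
  unfold Vb at hr2
  rw [E_nat t 215995 215995 rfl] at hr2
  have h3 := mul_le_mul_of_nonneg_left (hs.cLp (C := 1) (k := 2) (by norm_num) (by norm_num)
    (a := 432000) (b := 431990) (by norm_num)) A.npos'.le
  have h1 := (i9 hs k (D6.strW_of_good k.sm g) (near_of_ball hs g hb ((h6 n S O A g).reg h hb))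
    hr2 (hy.trans (le_trans (le_of_eq (by ring)) h3))).2
  rw [← E_nat t 215905 215905 rfl]
  exact s.v_mono h1 (by norm_num)

end Vale.Agent.N150.T2A9
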