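import Vale.Agent.N150.T2B1

/-! Block B of T2 (explored blocks): B2, operator bounds through the levels and the Wick
cancellation. -/

namespace Vale.Agent.N150.T2B

open Matrix Finset
open Vale.Agent.P150 Vale.Agent.P150.F Vale.Agent.N150.Fib Vale.Agent.N150.Rip
open Vale.Agent.N150.Haar (fro fro_nonneg)
open Vale.Agent.N150.T1 (clip abs_clip_le abs_clip_le' nv_clip_le)

variable {n : ℕ}

/-! ### the scaled clip -/

theorem nv_sub_clip_le {lam : ℝ} (hl : 0 ≤ lam) (u : Vec n) : nv (u - clip lam u) ≤ nv u := by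
  refine nv_mono fun i => ?_
  rw [Pi.sub_apply]
  unfold clip
  rcases le_total 0 (u i) with h0 | h0
  · rw [max_eq_right (le_min (by linarith) (by linarith)), abs_of_nonneg h0,
      abs_of_nonneg (sub_nonneg.2 (min_le_right _ _))]
    linarith [le_min hl h0]
  · rw [min_eq_right (h0.trans hl), abs_of_nonpos h0,
      abs_of_nonpos (sub_nonpos.2 (le_max_right _ _))]
    linarith [max_le (neg_nonpos.2 hl) h0]

/-- the clip scaled by the norm -/
noncomputable def sc (lam : ℝ) (u : Vec n) : Vec n := nv u • clip lam ((nv u)⁻¹ • u)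

theorem sc_zero (lam : ℝ) : sc lam (0 : Vec n) = 0 := by rw [sc, nv_zero, zero_smul]

theorem smul_unit {u : Vec n} (h : u ≠ 0) : nv u • (nv u)⁻¹ • u = u := by
  rw [smul_smul, mul_inv_cancel₀ (nv_pos h).ne', one_smul]

theorem abs_sc_le {lam : ℝ} (hl : 0 ≤ lam) (u : Vec n) (i : Fin n) :
    |sc lam u i| ≤ lam * nv u := by
  rw [sc, Pi.smul_apply, smul_eq_mul, mul_comm lam]
  exact abs_mul_le' (abs_of_nonneg (nv_nonneg u)).le (abs_clip_le hl _ i)

theorem nv_sc_le {lam : ℝ} (hl : 0 ≤ lam) (u : Vec n) : nv (sc lam u) ≤ nv u := by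
  by_cases h : u = 0
  · rw [h, sc_zero]
  · rw [sc, nv_smul, abs_of_nonneg (nv_nonneg u)]
    have := (nv_clip_le hl ((nv u)⁻¹ • u)).trans (nv_normalize h).le
    nlinarith [nv_nonneg u]

theorem nv_sub_sc {P : Mat n} {lam ρ : ℝ}
    (h : ∀ u, P *ᵥ u = u → nv u = 1 → nv (u - clip lam u) ≤ ρ) {u : Vec n} (hu : P *ᵥ u = u) :
    nv (u - sc lam u) ≤ ρ * nv u := by
  by_cases h0 : u = 0
  · rw [h0, sc_zero, sub_zero, nv_zero, mul_zero]
  · have h1 := h ((nv u)⁻¹ • u) (by rw [mulVec_smul, hu]) (nv_normalize h0)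
    have e : u - sc lam u = nv u • ((nv u)⁻¹ • u - clip lam ((nv u)⁻¹ • u)) := by
      rw [smul_sub, smul_unit h0, sc]
    rw [e, nv_smul, abs_of_nonneg (nv_nonneg u), mul_comm]
    exact mul_le_mul_of_nonneg_right h1 (nv_nonneg u)

theorem WickOK.scaled {Ps : Mat n} {x0 p q y y1 : Vec n} {lam eps xa : ℝ}
    (h : WickOK Ps x0 lam eps) (hn : 0 < n)
    (hx : ∀ u, Ps *ᵥ u = u → nv u = 1 → |ip x0 u| ≤ xa * √n) (hp : Ps *ᵥ p = p) (hq : Ps *ᵥ q = q) (hy : Ps *ᵥ y = y)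
    (hy1 : Ps *ᵥ y1 = y1) (u : nv y = 1) (u1 : nv y1 = 1) :
    |ip (sc lam p * sc lam q * clip lam y) (clip lam y1) -
      (ip p q * ip y y1 + ip p y * ip q y1 + ip p y1 * ip q y) / n| ≤
      nv p * nv q * ((eps + 3 * xa ^ 2 * (|ip x0 y| * |ip x0 y1|) / n) / n) := by
  have hn' : (0 : ℝ) < n := by exact_mod_cast hn
  by_cases hp0 : p = 0
  · simp [hp0, sc_zero, ip, nv_zero]
  by_cases hq0 : q = 0
  · simp [hq0, sc_zero, ip, nv_zero]
  set a := (nv p)⁻¹ • p with ha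
  set b := (nv q)⁻¹ • q with hb
  have ua : nv a = 1 := nv_normalize hp0
  have ub : nv b = 1 := nv_normalize hq0
  have fa : Ps *ᵥ a = a := by rw [ha, mulVec_smul, hp]
  have fb : Ps *ᵥ b = b := by rw [hb, mulVec_smul, hq]
  have h1 := h a b y y1 fa fb hy hy1 ua ub u u1
  have e : ip (sc lam p * sc lam q * clip lam y) (clip lam y1) -
      (ip p q * ip y y1 + ip p y * ip q y1 + ip p y1 * ip q y) / n =
      nv p * nv q * (∑ i, clip lam a i * clip lam b i * clip lam y i * clip lam y1 i -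
        (ip a b * ip y y1 + ip a y * ip b y1 + ip a y1 * ip b y) / n) := by
    have e1 : ip (sc lam p * sc lam q * clip lam y) (clip lam y1) =
        nv p * nv q * ∑ i, clip lam a i * clip lam b i * clip lam y i * clip lam y1 i := by
      rw [mul_sum]
      unfold sc ip
      refine sum_congr rfl fun i _ => ?_
      simp only [Pi.mul_apply, Pi.smul_apply, smul_eq_mul, ← ha, ← hb]
      ring
    have ep : p = nv p • a := (smul_unit hp0).symm
    have eq : q = nv q • b := (smul_unit hq0).symm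
    have i1 : ∀ w, ip p w = nv p * ip a w := fun w => by rw [← ip_smul_left, ← ep]
    have i2 : ∀ w, ip q w = nv q * ip b w := fun w => by rw [← ip_smul_left, ← eq]
    have i3 : ip a q = nv q * ip a b := by rw [← ip_smul_right, ← eq]
    rw [e1, i1, i1, i1, i2, i2, i3]
    ring
  have h2 : |ip x0 a| * |ip x0 b| ≤ xa ^ 2 * n := by
    have := mul_le_mul (hx a fa ua) (hx b fb ub) (abs_nonneg _) ((abs_nonneg _).trans (hx a fa ua))
    rwa [mul_mul_mul_comm, Real.mul_self_sqrt hn'.le, ← pow_two] at this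
  have h0 : 0 ≤ nv p * nv q := mul_nonneg (nv_nonneg _) (nv_nonneg _)
  rw [e, abs_mul, abs_of_nonneg h0]
  refine mul_le_mul_of_nonneg_left (h1.trans ?_) h0
  have h3 : 3 * (|ip x0 a| * |ip x0 b| * |ip x0 y| * |ip x0 y1|) / (n : ℝ) ^ 2 ≤
      3 * xa ^ 2 * (|ip x0 y| * |ip x0 y1|) / n := by
    calc _ = 3 * (|ip x0 y| * |ip x0 y1|) / n * (|ip x0 a| * |ip x0 b| / n) := by ring
      _ ≤ 3 * (|ip x0 y| * |ip x0 y1|) / n * xa ^ 2 :=
          mul_le_mul_of_nonneg_left ((div_le_iff₀ hn').2 h2) (by positivity)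
      _ = _ := by ring
  gcongr

/-! ### the low space -/

/-- hypotheses on the low space `Ps` -/
structure Low (m v x0 : Vec n) (Ps : Mat n) (M V e lam ρ e2 eps g xa : ℝ) : Prop where
  proj : IsProj Ps
  wick : WickOK Ps x0 lam eps
  eps0 : 0 ≤ eps
  hx : ∀ u, Ps *ᵥ u = u → nv u = 1 → |ip x0 u| ≤ xa * √n
  l0 : 0 ≤ lam
  r0 : 0 ≤ ρ
  e20 : 0 ≤ e2
  cl : ∀ u, Ps *ᵥ u = u → nv u = 1 → nv (u - clip lam u) ≤ ρ
  hm : nv (m - Ps *ᵥ m) ≤ e2 * M
  hv : nv (v - Ps *ᵥ v) ≤ e2 * V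
  h1 : 4 ≤ n * lam ^ 2
  hg : 2 * (lam * M) + (e2 + ρ) ≤ g
  h2 : g ^ 2 ≤ e
  h3 : 2 * (n * lam ^ 2) * (e2 + ρ) ≤ e

theorem nv_sub_sc_proj {P : Mat n} {lam ρ e2 U : ℝ} (hP : IsProj P) (hρ : 0 ≤ ρ)
    (h : ∀ u, P *ᵥ u = u → nv u = 1 → nv (u - clip lam u) ≤ ρ) {u : Vec n} (hu : nv u ≤ U)
    (h2 : nv (u - P *ᵥ u) ≤ e2 * U) : nv (u - sc lam (P *ᵥ u)) ≤ (e2 + ρ) * U := by
  have h3 := nv_sub_sc h (hP.mulVec_mulVec u)
  have h4 := mul_le_mul_of_nonneg_left ((Tail.nv_proj_le hP.symm hP.idem u).trans hu) hρ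
  have h5 := nv_add_le (u - P *ᵥ u) (P *ᵥ u - sc lam (P *ᵥ u))
  rw [sub_add_sub_cancel] at h5
  linarith

/-- `nv (m * u)` through a splitting of `u` into a flat part and a small part -/
theorem nv_had_split {m u uc : Vec n} {M l r : ℝ} (h1 : ∀ i, |m i| ≤ 1) (hM : nv m ≤ M)
    (hl0 : 0 ≤ l) (hl : ∀ i, |uc i| ≤ l) (hr : nv (u - uc) ≤ r) : nv (m * u) ≤ l * M + r := by
  have e : m * u = uc * m + m * (u - uc) := by ring
  rw [e]
  exact (nv_add_le _ _).trans (add_le_add ((nv_had_le hl0 hl).trans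
    (mul_le_mul_of_nonneg_left hM hl0)) ((nv_had_one h1 _).trans hr))

section Low

variable {m v d x0 : Vec n} {Ps : Mat n} {c cT c3 M V e lam ρ e2 eps g xa : ℝ}
  (h : Sc m v d c cT c3 M V e) (l : Low m v x0 Ps M V e lam ρ e2 eps g xa)
include h l

theorem had_le {u : Vec n} {U : ℝ} (hu : nv u ≤ U) (h2 : nv (u - Ps *ᵥ u) ≤ e2 * U) :
    nv (m * u) ≤ (lam * M + (e2 + ρ)) * U := by
  have hU := (nv_nonneg _).trans hu
  refine (nv_had_split h.m1 h.hM (mul_nonneg l.l0 hU) (fun i => (abs_sc_le l.l0 _ i).trans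
    (mul_le_mul_of_nonneg_left ((Tail.nv_proj_le l.proj.symm l.proj.idem u).trans hu) l.l0))
    (nv_sub_sc_proj l.proj l.r0 l.cl hu h2)).trans (le_of_eq (by ring))

theorem g_nonneg : 0 ≤ g := by
  have := mul_nonneg l.l0 h.M0
  linarith [l.hg, l.e20, l.r0]

theorem mv_le : nv (m * v) ≤ g * V := by
  refine (had_le h l h.hV l.hv).trans (mul_le_mul_of_nonneg_right ?_ h.V0)
  linarith [l.hg, mul_nonneg l.l0 h.M0]

theorem mm_le : nv (m * m) ≤ g * M := by
  refine (had_le h l h.hM l.hm).trans (mul_le_mul_of_nonneg_right ?_ h.M0)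
  linarith [l.hg, mul_nonneg l.l0 h.M0]

/-- the bound `b = g V` -/
theorem be_le_g : nv (be m v d c) ≤ g * V := by
  have hn := h.n0
  have k1 : 2 ≤ √n * lam := by
    refine (pow_le_pow_iff_left₀ zero_le_two ?_ two_ne_zero).1 ?_
    · exact mul_nonneg (Real.sqrt_nonneg _) l.l0
    rw [mul_pow, Real.sq_sqrt hn.le]
    linarith [l.h1]
  have k2 : 2 * (M * V / n) * √n ≤ lam * M * V := by
    have k3 : 2 * √n ≤ √n * lam * √n := mul_le_mul_of_nonneg_right k1 (Real.sqrt_nonneg _)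
    rw [mul_right_comm, Real.mul_self_sqrt hn.le] at k3
    calc _ = M * V / n * (2 * √n) := by ring
      _ ≤ M * V / n * (n * lam) := mul_le_mul_of_nonneg_left k3 h.nu0
      _ = _ := by field_simp
  have k4 := mul_le_mul_of_nonneg_right l.hg h.V0
  refine (nv_add_le _ _).trans ?_
  linarith [had_le h l h.hV l.hv, h.cd_le]

/-- the low-low pair -/
theorem low_pair {x y : Vec n} (hx : Ps *ᵥ x = x) (hy : Ps *ᵥ y = y) (ux : nv x = 1)
    (uy : nv y = 1) :
    |ip (be m v d c * clip lam x) (clip lam y) + ip x (R3 m v d c cT c3 *ᵥ y)| ≤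
      M * V / n * (163 * e + eps + 3 * xa ^ 2 * (|ip x0 x| * |ip x0 y|) / n) := by
  have hn := h.n0
  have hM := h.M0
  have hV := h.V0
  have hg := g_nonneg h l
  have hlM := mul_nonneg l.l0 hM
  have he2 := l.e20
  have hρ := l.r0
  have pj := fun u => Tail.nv_proj_le l.proj.symm l.proj.idem u
  have gx : ∀ {u : Vec n}, Ps *ᵥ u = u → nv u = 1 → nv (m * u) ≤ g := fun hu uu => by
    linarith [nv_had_split h.m1 h.hM l.l0 (abs_clip_le l.l0 _) (l.cl _ hu uu), l.hg]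
  have w1 := h.r3_wick (be_le_g h l) (mv_le h l) (mm_le h l) ux.le uy.le (gx hx ux) (gx hy uy)
    (by nlinarith [l.h2]) (by nlinarith [l.h2]) (by
      have k1 : g ^ 2 * M ^ 2 ≤ e * n := by
        nlinarith [l.h2, h.hq, h.e1, sq_nonneg M, sq_nonneg g, h.e0]
      calc _ = g ^ 2 * M ^ 2 * V := by ring
        _ ≤ e * n * V := by gcongr
        _ = _ := by ring)
  have w2 := h.diag_wick ux.le ((nv_clip_le l.l0 x).trans ux.le) ((nv_clip_le l.l0 y).trans uy.le)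
    (abs_clip_le l.l0 x) (abs_clip_le l.l0 y) (l.cl x hx ux) (l.cl y hy uy)
    ((nv_sc_le l.l0 (Ps *ᵥ m)).trans ((pj m).trans h.hM))
    (nv_sub_sc_proj l.proj hρ l.cl h.hM l.hm) (nv_sub_sc_proj l.proj hρ l.cl h.hV l.hv)
    (by
      have k1 : (2 * (lam * M)) ^ 2 ≤ g ^ 2 := pow_le_pow_left₀ (by linarith) (by linarith [l.hg]) 2
      have k2 : 2 * 4 * (e2 + ρ) ≤ 2 * (n * lam ^ 2) * (e2 + ρ) := by gcongr; exact l.h1
      nlinarith [l.h2, l.h3])
    (by nlinarith [l.h3])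
  have w3 := l.wick.scaled h.npos l.hx (l.proj.mulVec_mulVec m) (l.proj.mulVec_mulVec v) hx hy ux uy
  have ip1 : ∀ (u : Vec n) {w : Vec n}, Ps *ᵥ w = w → ip (Ps *ᵥ u) w = ip u w := fun u w hw => by
    rw [← Tail.ip_proj l.proj.symm, hw]
  rw [ip1 m hx, ip1 m hy, ip1 v hx, ip1 v hy] at w3
  have w4 : |(ip (Ps *ᵥ m) (Ps *ᵥ v) - ip m v) * ip x y / n| ≤ e * (M * V / n) := by
    have e1 : ip (Ps *ᵥ m) (Ps *ᵥ v) - ip m v = -ip (m - Ps *ᵥ m) (v - Ps *ᵥ v) := by
      rw [ip_sub_left, ip_sub_right, ip_sub_right, ip1 m (l.proj.mulVec_mulVec v),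
        ← Tail.ip_proj l.proj.symm m v]
      ring
    have k1 : e2 ^ 2 ≤ g ^ 2 := pow_le_pow_left₀ he2 (by linarith [l.hg]) 2
    rw [e1, abs_div, abs_of_pos hn, neg_mul, abs_neg]
    calc _ ≤ e2 * M * (e2 * V) * (1 * 1) / n := div_le_div_of_nonneg_right
          (abs_mul_le' (abs_ip_le' l.hm l.hv) (abs_ip_le' ux.le uy.le)) hn.le
      _ = e2 ^ 2 * (M * V / n) := by ring
      _ ≤ _ := mul_le_mul_of_nonneg_right (k1.trans l.h2) h.nu0
  have w5 : nv (Ps *ᵥ m) * nv (Ps *ᵥ v) *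
      ((eps + 3 * xa ^ 2 * (|ip x0 x| * |ip x0 y|) / n) / n) ≤
      M * V / n * (eps + 3 * xa ^ 2 * (|ip x0 x| * |ip x0 y|) / n) := by
    have := l.eps0
    calc _ ≤ M * V * ((eps + 3 * xa ^ 2 * (|ip x0 x| * |ip x0 y|) / n) / n) := by
          exact mul_le_mul_of_nonneg_right (mul_le_mul ((pj m).trans h.hM) ((pj v).trans h.hV)
            (nv_nonneg _) hM) (by positivity)
      _ = _ := by ring
  have u1 := abs_le.1 w1
  have u2 := abs_le.1 w2
  have u3 := abs_le.1 (w3.trans w5)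
  have u4 := abs_le.1 w4
  simp only [add_div, sub_mul, sub_div] at u1 u3 u4
  rw [abs_le]
  constructor <;> linarith [u1.1, u1.2, u2.1, u2.2, u3.1, u3.2, u4.1, u4.2]

end Low

/-! ### pairs of levels -/

/-- replacing the vectors by their flat parts in the diagonal form -/
theorem diag_flat {w x y xT yT : Vec n} {a a' a0 lam b C1 bi : ℝ} (ha : 0 ≤ a) (ha' : 0 ≤ a')
    (h0 : a ≤ a0) (h0' : a' ≤ a0) (hl : 0 ≤ lam) (hbi : 0 ≤ bi) (hb : nv w ≤ b)
    (hi : ∀ i, |w i| ≤ bi) (hx : ∀ i, |xT i| ≤ lam) (hy : ∀ i, |yT i| ≤ lam)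
    (sx : a * nv (x - xT) ≤ C1) (sy : a' * nv (y - yT) ≤ C1) :
    a * a' * |ip (w * x) y - ip (w * xT) yT| ≤ bi * C1 ^ 2 + 2 * (a0 * (lam * b) * C1) := by
  have hb0 := (nv_nonneg _).trans hb
  have e : ip (w * x) y - ip (w * xT) yT = ip (w * (x - xT)) (y - yT) +
      (ip (x - xT) (yT * w) + ip (xT * w) (y - yT)) := by
    unfold ip
    simp only [← sum_add_distrib, ← sum_sub_distrib, Pi.mul_apply, Pi.sub_apply]
    exact sum_congr rfl fun i _ => by ring
  have f : ∀ {u : Vec n}, (∀ i, |u i| ≤ lam) → nv (u * w) ≤ lam * b := fun hu =>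
    (nv_had_le hl hu).trans (mul_le_mul_of_nonneg_left hb hl)
  have t1 := abs_ip_le' (nv_had_le (u := x - xT) hbi hi) (le_refl (nv (y - yT)))
  have t2 := abs_ip_le' (le_refl (nv (x - xT))) (f hy)
  have t3 := abs_ip_le' (f hx) (le_refl (nv (y - yT)))
  have p := mul_nonneg ha (nv_nonneg (x - xT))
  have q := mul_nonneg ha' (nv_nonneg (y - yT))
  have lb := mul_nonneg hl hb0
  rw [e]
  calc _ ≤ a * a' * (bi * nv (x - xT) * nv (y - yT) +
        (nv (x - xT) * (lam * b) + lam * b * nv (y - yT))) :=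
        mul_le_mul_of_nonneg_left ((abs_add_le _ _).trans (add_le_add t1 ((abs_add_le _ _).trans
          (add_le_add t2 t3)))) (mul_nonneg ha ha')
    _ = bi * (a * nv (x - xT) * (a' * nv (y - yT))) + (a' * (lam * b) * (a * nv (x - xT)) +
        a * (lam * b) * (a' * nv (y - yT))) := by ring
    _ ≤ bi * (C1 * C1) + (a0 * (lam * b) * C1 + a0 * (lam * b) * C1) := by
        have := ha.trans h0
        have := p.trans sx
        gcongr
    _ = _ := by ring

/-- the finite family of levels -/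
structure Lv {ι : Type*} (I : Finset ι) (P : ι → Mat n) (a : ι → ℝ) (Ps : Mat n) (x0 : Vec n)
    (lam a0 a1 C1 al : ℝ) : Prop where
  proj : ∀ j ∈ I, IsProj (P j)
  a_nn : ∀ j ∈ I, 0 ≤ a j
  a_le : ∀ j ∈ I, a j ≤ a0
  cl : ∀ j ∈ I, ∀ u, P j *ᵥ u = u → nv u = 1 → a j * nv (u - clip lam u) ≤ C1
  low : ∀ j ∈ I, a j ≤ a1 ∨
    (Ps * P j = P j ∧ ∀ u, P j *ᵥ u = u → nv u = 1 → a j * |ip x0 u| ≤ al * √n)

theorem ip_sum_proj {ι : Type*} {I : Finset ι} {P : ι → Mat n} {a : ι → ℝ}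
    (hP : ∀ j ∈ I, IsProj (P j)) (u w : Vec n) :
    ip u ((∑ j ∈ I, a j • P j) *ᵥ w) = ∑ j ∈ I, a j * ip (P j *ᵥ u) w := by
  rw [sum_mulVec, ip_sum_right]
  exact sum_congr rfl fun j hj => by rw [smul_mulVec, ip_smul_right, Tail.ip_proj (hP j hj).symm]

/-- from unit vectors of the range of a projection to all vectors -/
theorem of_unit {P : Mat n} (hP : IsProj P) {w : Vec n} {a E : ℝ} (hE : 0 ≤ E)
    (h : ∀ x, P *ᵥ x = x → nv x = 1 → |a * ip x w| ≤ E) (u : Vec n) :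
    |a * ip (P *ᵥ u) w| ≤ E * nv u := by
  by_cases h0 : P *ᵥ u = 0
  · rw [h0]
    simpa [ip] using mul_nonneg hE (nv_nonneg u)
  · have h1 := h _ (by rw [mulVec_smul, hP.mulVec_mulVec]) (nv_normalize h0)
    rw [← smul_unit h0, ip_smul_left, mul_left_comm, mul_comm E]
    exact abs_mul_le' ((abs_of_nonneg (nv_nonneg _)).le.trans
      (Tail.nv_proj_le hP.symm hP.idem u)) h1

theorem opLe_lev1 {ι : Type*} {I : Finset ι} {P : ι → Mat n} {a : ι → ℝ}
    (hP : ∀ j ∈ I, IsProj (P j)) {B : Mat n} {E : ℝ} (hE : 0 ≤ E)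
    (h : ∀ j ∈ I, ∀ x y, P j *ᵥ x = x → nv x = 1 → |a j * ip x (B *ᵥ y)| ≤ E * nv y) :
    OpLe ((∑ j ∈ I, a j • P j) * B) (I.card * E) := by
  refine D4.opLe_of_bil (by positivity) fun u w => ?_
  rw [← mulVec_mulVec, ip_sum_proj hP]
  refine (abs_sum_le_sum_abs _ _).trans ((sum_le_sum fun j hj => of_unit (hP j hj)
    (mul_nonneg hE (nv_nonneg w)) (fun x => h j hj x w) u).trans (le_of_eq ?_))
  rw [sum_const, nsmul_eq_mul]
  ring

theorem opLe_lev2 {ι : Type*} {I : Finset ι} {P : ι → Mat n} {a : ι → ℝ}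
    (hP : ∀ j ∈ I, IsProj (P j)) {B : Mat n} {E : ℝ} (hE : 0 ≤ E)
    (h : ∀ j ∈ I, ∀ j' ∈ I, ∀ x y, P j *ᵥ x = x → nv x = 1 → P j' *ᵥ y = y → nv y = 1 →
      |a j * (a j' * ip x (B *ᵥ y))| ≤ E) :
    OpLe ((∑ j ∈ I, a j • P j) * B * ∑ j ∈ I, a j • P j) (I.card * (I.card * E)) := by
  rw [Matrix.mul_assoc]
  refine opLe_lev1 hP (by positivity) fun j hj x w hx ux => ?_
  rw [← mulVec_mulVec, ip_mulVec_tr, ipN_comm, ip_mulVec_tr]
  have e : (∑ j ∈ I, a j • P j)ᵀ = ∑ j ∈ I, a j • P j := by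
    rw [transpose_sum]
    exact sum_congr rfl fun j hj => by rw [transpose_smul, (hP j hj).symm]
  rw [e, ip_sum_proj hP, mul_sum]
  refine (abs_sum_le_sum_abs _ _).trans ((sum_le_sum (g := fun _ => E * nv w) fun j' hj' => ?_).trans
    (le_of_eq (by rw [sum_const, nsmul_eq_mul]; ring)))
  rw [← mul_assoc]
  refine of_unit (hP j' hj') hE (fun y hy uy => ?_) w
  rw [← ip_mulVec_tr, mul_assoc]
  exact h j hj j' hj' x y hx ux hy uy

/-- the bound for `Hs Bh` -/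
noncomputable def E1 (M V lam g a0 C1 vp : ℝ) (n : ℕ) : ℝ :=
  a0 * (lam * (g * V)) + C1 * (vp + 2 * (M * V / n)) + a0 * (200 * (M * V / n))

/-- the bound for `Hs Bh Hs` -/
noncomputable def E2 (M V e lam eps g a0 a1 C1 al vp : ℝ) (n : ℕ) : ℝ :=
  (vp + 2 * (M * V / n)) * C1 ^ 2 + 2 * (a0 * (lam * (g * V)) * C1) +
    (a0 * a1 * (lam ^ 2 * (√n * (g * V)) + 200 * (M * V / n)) +
      M * V / n * (a0 ^ 2 * (163 * e + eps) + 3 * al ^ 2))

section Main

variable {m v d x0 : Vec n} {Ps : Mat n} {c cT c3 M V e lam ρ e2 eps g xa a0 a1 C1 al vp : ℝ}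
  {ι : Type*} {I : Finset ι} {P : ι → Mat n} {a : ι → ℝ}
  (h : Sc m v d c cT c3 M V e) (l : Low m v x0 Ps M V e lam ρ e2 eps g xa)
  (L : Lv I P a Ps x0 lam a0 a1 C1 al) (ha0 : 0 ≤ a0) (hC1 : 0 ≤ C1) (hvp : 0 ≤ vp)
  (hv : ∀ i, |v i| ≤ vp)
include h l L ha0 hC1 hvp hv

theorem op1 : OpLe ((∑ j ∈ I, a j • P j) * Bh m v d c cT c3)
    (I.card * E1 M V lam g a0 C1 vp n) := by
  have hnu := h.nu0
  have hb := be_le_g h l
  have hb0 := (nv_nonneg _).trans hb
  have hl := l.l0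
  refine opLe_lev1 L.proj (by unfold E1; positivity) fun j hj x y hx ux => ?_
  have hj0 := L.a_nn j hj
  have hy := nv_nonneg y
  have e0 : ip x (Bh m v d c cT c3 *ᵥ y) = ip (clip lam x * be m v d c) y +
      ip (x - clip lam x) (be m v d c * y) + ip x (R3 m v d c cT c3 *ᵥ y) := by
    rw [Bh_eq, add_mulVec, ip_add_right, ip_diag, ← ip_had, ← ip_add_left]
    congr 2
    ring
  have t1 := abs_ip_le' ((nv_had_le hl (abs_clip_le hl x)).trans
    (mul_le_mul_of_nonneg_left hb hl)) (le_refl (nv y))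
  have t2 := abs_ip_le' (le_refl (nv (x - clip lam x))) (nv_had_le (u := y)
    (C := vp + 2 * (M * V / n)) (by positivity) fun i => (h.abs_be_le i).trans (by linarith [hv i]))
  have t3 := abs_ip_le' ux.le (h.opLe_R3.nv_le (by positivity) y)
  rw [abs_mul, abs_of_nonneg hj0, e0]
  calc _ ≤ a j * (lam * (g * V) * nv y + nv (x - clip lam x) * ((vp + 2 * (M * V / n)) * nv y) +
        1 * (200 * (M * V / n) * nv y)) := mul_le_mul_of_nonneg_left
          ((abs_add_le _ _).trans (add_le_add ((abs_add_le _ _).trans (add_le_add t1 t2)) t3)) hj0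
    _ = (a j * (lam * (g * V)) + a j * nv (x - clip lam x) * (vp + 2 * (M * V / n)) +
        a j * (200 * (M * V / n))) * nv y := by ring
    _ ≤ _ := by
        unfold E1
        gcongr
        exacts [L.a_le j hj, L.cl j hj x hx ux, L.a_le j hj]

theorem op2 (ha1 : 0 ≤ a1) (hal : 0 ≤ al) :
    OpLe ((∑ j ∈ I, a j • P j) * Bh m v d c cT c3 * ∑ j ∈ I, a j • P j)
      (I.card * (I.card * E2 M V e lam eps g a0 a1 C1 (xa * al) vp n)) := by
  have hn := h.n0
  have hnu := h.nu0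
  have hb := be_le_g h l
  have hb0 := (nv_nonneg _).trans hb
  have hl := l.l0
  have he := h.e0
  have heps := l.eps0
  refine opLe_lev2 L.proj (by unfold E2; positivity) fun j hj j' hj' x y hx ux hy uy => ?_
  have hj0 := L.a_nn j hj
  have hj0' := L.a_nn j' hj'
  have hA := mul_nonneg hj0 hj0'
  have t1 := diag_flat (bi := vp + 2 * (M * V / n)) hj0 hj0' (L.a_le j hj) (L.a_le j' hj') hl
    (by positivity) hb (fun i => (h.abs_be_le i).trans (by linarith [hv i])) (abs_clip_le hl x)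
    (abs_clip_le hl y) (L.cl j hj x hx ux) (L.cl j' hj' y hy uy)
  have t2 : a j * a j' * |ip (be m v d c * clip lam x) (clip lam y) +
      ip x (R3 m v d c cT c3 *ᵥ y)| ≤ a0 * a1 * (lam ^ 2 * (√n * (g * V)) + 200 * (M * V / n)) +
        M * V / n * (a0 ^ 2 * (163 * e + eps) + 3 * (xa * al) ^ 2) := by
    have gen : a j * a j' ≤ a0 * a1 → a j * a j' * |ip (be m v d c * clip lam x) (clip lam y) +
        ip x (R3 m v d c cT c3 *ᵥ y)| ≤ a0 * a1 * (lam ^ 2 * (√n * (g * V)) + 200 * (M * V / n)) +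
          M * V / n * (a0 ^ 2 * (163 * e + eps) + 3 * (xa * al) ^ 2) := fun hh => by
      have k1 : ∑ i, |be m v d c i| ≤ √n * (g * V) := by
        have := sum_abs_mul_le (1 : Vec n) (be m v d c)
        rw [one_mul] at this
        exact this.trans (mul_le_mul (nv_le_sqrt_n fun i => by simp) hb (nv_nonneg _)
          (Real.sqrt_nonneg _))
      have k2 := (abs_ip_inf (w := be m v d c) (abs_clip_le hl x) (abs_clip_le hl y)).trans
        (mul_le_mul_of_nonneg_left k1 (sq_nonneg lam))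
      have k3 := abs_ip_le' ux.le (h.opLe_R3.nv_le (by positivity) y)
      rw [uy, one_mul, mul_one] at k3
      refine le_add_of_le_of_nonneg (mul_le_mul hh ((abs_add_le _ _).trans (add_le_add k2 k3))
        (abs_nonneg _) (by positivity)) (by positivity)
    rcases L.low j hj with h1 | ⟨h1, h2⟩
    · exact gen (by rw [mul_comm]; exact mul_le_mul (L.a_le j' hj') h1 hj0 ha0)
    rcases L.low j' hj' with h3 | ⟨h3, h4⟩
    · exact gen (mul_le_mul (L.a_le j hj) h3 hj0' ha0)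
    have fx : Ps *ᵥ x = x := by rw [← hx, mulVec_mulVec, h1]
    have fy : Ps *ᵥ y = y := by rw [← hy, mulVec_mulVec, h3]
    refine le_add_of_nonneg_of_le (by positivity)
      ((mul_le_mul_of_nonneg_left (low_pair h l fx fy ux uy) hA).trans ?_)
    have k1 : a j * |ip x0 x| * (a j' * |ip x0 y|) ≤ al ^ 2 * n := by
      refine (mul_le_mul (h2 x hx ux) (h4 y hy uy) (by positivity) (by positivity)).trans
        (le_of_eq ?_)
      rw [mul_mul_mul_comm, Real.mul_self_sqrt hn.le, pow_two]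
    have k2 : a j * a j' ≤ a0 ^ 2 := by
      rw [pow_two]; exact mul_le_mul (L.a_le j hj) (L.a_le j' hj') hj0' ha0
    calc _ = M * V / n * (a j * a j' * (163 * e + eps) +
          3 * (xa ^ 2 * (a j * |ip x0 x| * (a j' * |ip x0 y|) / n))) := by ring
      _ ≤ M * V / n * (a0 ^ 2 * (163 * e + eps) + 3 * (xa ^ 2 * (al ^ 2 * n / n))) := by gcongr
      _ = _ := by rw [mul_div_cancel_right₀ _ hn.ne', mul_pow]
  have e0 : ip x (Bh m v d c cT c3 *ᵥ y) =
      (ip (be m v d c * x) y - ip (be m v d c * clip lam x) (clip lam y)) +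
        (ip (be m v d c * clip lam x) (clip lam y) + ip x (R3 m v d c cT c3 *ᵥ y)) := by
    rw [Bh_eq, add_mulVec, ip_add_right, ip_diag]
    ring
  rw [← mul_assoc, abs_mul, abs_of_nonneg hA, e0]
  refine (mul_le_mul_of_nonneg_left (abs_add_le _ _) hA).trans ?_
  rw [mul_add]
  exact add_le_add t1 t2

/-- (B2) -/
theorem b2 (ha1 : 0 ≤ a1) (hal : 0 ≤ al) {Hs PB : Mat n} {r : ℝ} (hH : Hs = ∑ j ∈ I, a j • P j)
    (hP : IsProj PB) (hc : PB * Hs = Hs * PB) (hr : PB.trace ≤ r) :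
    fro (Hs * PB * Bh m v d c cT c3) ≤ √r * (I.card * E1 M V lam g a0 C1 vp n) ∧
    fro (Hs * PB * Bh m v d c cT c3 * PB * Hs) ≤
      √r * (I.card * (I.card * E2 M V e lam eps g a0 a1 C1 (xa * al) vp n)) := by
  have hnu := h.nu0
  have hb0 := (nv_nonneg _).trans (be_le_g h l)
  have hl := l.l0
  have he := h.e0
  have heps := l.eps0
  have o1 := op1 h l L ha0 hC1 hvp hv
  have o2 := op2 h l L ha0 hC1 hvp hv ha1 hal
  rw [← hH] at o1 o2
  constructor
  · rw [← hc, Matrix.mul_assoc]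
    exact fro_proj_mul hP hr (by unfold E1; positivity) o1
  · have e0 : Hs * PB * Bh m v d c cT c3 * PB * Hs = PB * (Hs * Bh m v d c cT c3 * Hs) * PB := by
      have hc' : ∀ X : Mat n, Hs * (PB * X) = PB * (Hs * X) := fun X => by
        rw [← Matrix.mul_assoc, ← hc, Matrix.mul_assoc]
      simp only [Matrix.mul_assoc, hc, hc']
    rw [e0]
    exact (fro_proj_r hP _).trans (fro_proj_mul hP hr (by unfold E2; positivity) o2)

end Main

end Vale.Agent.N150.T2B
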