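import Vale.Agent.N150.T2F2
import Vale.Agent.N150.T2Def
import Vale.Agent.N150.T1Kit

/-! Block T2, part F: the fluctuation statement. -/

namespace Vale.Agent.N150.T2F

open Matrix MeasureTheory Set Filter Topology
open Vale.Agent.P150 Vale.Agent.P150.F Vale.Agent.N150.Sp Vale.Agent.N150.T1
open Vale.Agent.N150.Haar (fro fro_nonneg fro_sub_le fro_smul)
open Vale.Agent.N150.Wd (fr)
open Vale.Agent.N150.T2 (Fd Fr Si Core QOK FStmt)

variable {n : ℕ}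

/-- **F1** with a direct bound of the high part -/
theorem ph_dir {p g G0 Vt Kt B Hs Hi Pe : Mat n} {w a1 a2 a3 a4 θ f1 f2 : ℝ} (hw : 0 < w)
    (hid : gᵀ * Vt * Kt = G0 - w • gᵀ) (hpG : p * G0 * p = p * G0) (hH : Hi * Hs = 1)
    (h1 : 0 ≤ a1) (h2 : 0 ≤ a2) (h3 : 0 ≤ a3) (h4 : 0 ≤ a4) (o1 : OpLe (p * G0) a1)
    (o2 : OpLe (p * gᵀ * Vt * Kt * Hi) a2) (o3 : OpLe (p * gᵀ * Hi) a3)
    (o4 : OpLe (Hs * (1 - Pe)) a4) (c : fro (Hs * Vt * Kt * B) ≤ θ)
    (b1 : fro (p * B * Hs) ≤ f1) (b2 : fro (Hs * B * Hs * Pe) ≤ f2) :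
    w * fro (p * gᵀ * B * Hs) ≤ a1 * f1 + a2 * f2 + a4 * (a3 * θ) := by
  have e0 : w • gᵀ = G0 - gᵀ * Vt * Kt := by rw [hid, sub_sub_cancel]
  have e1 : w • (p * gᵀ * B * Hs) = p * G0 * (p * B * Hs)
      - p * gᵀ * Vt * Kt * Hi * (Hs * B * Hs * Pe)
      - p * gᵀ * Hi * (Hs * Vt * Kt * B) * (Hs * (1 - Pe)) := by
    have t1 : p * G0 * (p * B * Hs) = p * G0 * B * Hs := by
      rw [← mul_assoc, ← mul_assoc, hpG]
    have t2 : p * gᵀ * Vt * Kt * Hi * (Hs * B * Hs * Pe) = p * gᵀ * Vt * Kt * B * Hs * Pe := by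
      simp only [mul_assoc]
      rw [← mul_assoc Hi Hs, hH, one_mul]
    have t3 : p * gᵀ * Hi * (Hs * Vt * Kt * B) * (Hs * (1 - Pe)) =
        p * gᵀ * Vt * Kt * B * Hs * (1 - Pe) := by
      simp only [mul_assoc]
      rw [← mul_assoc Hi Hs, hH, one_mul]
    rw [t1, t2, t3, ← smul_mul_assoc, ← smul_mul_assoc, ← mul_smul_comm, e0]
    noncomm_ring
  have t1 := (fro_mul_l h1 o1 (p * B * Hs)).trans (mul_le_mul_of_nonneg_left b1 h1)
  have t2 := (fro_mul_l h2 o2 (Hs * B * Hs * Pe)).trans (mul_le_mul_of_nonneg_left b2 h2)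
  have t4 : fro (p * gᵀ * Hi * (Hs * Vt * Kt * B) * (Hs * (1 - Pe))) ≤ a4 * (a3 * θ) :=
    (fro_mul_r h4 o4 _).trans (mul_le_mul_of_nonneg_left
      ((fro_mul_l h3 o3 _).trans (mul_le_mul_of_nonneg_left c h3)) h4)
  have t5 := fro_smul w (p * gᵀ * B * Hs)
  rw [abs_of_pos hw, e1] at t5
  have t6 := (fro_sub_le _ _).trans (add_le_add ((fro_sub_le _ _).trans (add_le_add t1 t2)) t4)
  rw [t5] at t6
  exact t6

theorem sqrt_le_pow {x i : ℝ} {a b : ℕ} (hi : 1 ≤ i) (h : x ≤ i ^ a) (hab : a ≤ 2 * b) :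
    √x ≤ i ^ b := by
  refine Real.sqrt_le_iff.2 ⟨by positivity, h.trans ?_⟩
  rw [← pow_mul]
  exact pow_le_pow_right₀ hi (by omega)

theorem tm_i {t : ℝ} (ht : 0 < t) (a b : ℕ) : t ^ a * t⁻¹ ^ (a + b) = t⁻¹ ^ b := by
  rw [pow_add, ← mul_assoc, ← mul_pow, mul_inv_cancel₀ ht.ne', one_pow, one_mul]

theorem le_inv_pow {t x : ℝ} {a : ℕ} (ht : 0 < t) (h : x * t ^ a ≤ 1) : x ≤ t⁻¹ ^ a := by
  rw [inv_pow, ← one_div, le_div_iff₀ (pow_pos ht a)]; exact h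

theorem cm {i C : ℝ} {a b : ℕ} (hi : 1 ≤ i) (hC : C ≤ i) (hab : a + 1 ≤ b) :
    C * i ^ a ≤ i ^ b :=
  calc C * i ^ a ≤ i * i ^ a := mul_le_mul_of_nonneg_right hC (by positivity)
    _ = i ^ (a + 1) := by ring
    _ ≤ i ^ b := pow_le_pow_right₀ hi hab

section Frame

variable {t : ℝ} {D : Fd n} (ht : 0 < t) (ht1 : t ≤ 1 / 2) (h : Fr t D)
include ht h

theorem del_pos : 0 < D.del := (pow_pos ht _).trans_le h.dlo

theorem nu_pos (a : Fin n) : 0 < D.nu a := (del_pos ht h).trans_le (h.nlo a)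

theorem hv_pos (a : Fin n) : 0 < D.hv a :=
  pos_of_mul_pos_of_pos_right' (zero_lt_one.trans_le (h.h1 a)) (nu_pos ht h a)
where pos_of_mul_pos_of_pos_right' {x y : ℝ} (hxy : 0 < x * y) (hy : 0 < y) : 0 < x :=
  (mul_pos_iff_of_pos_right hy).1 hxy

theorem Hs_Hi (O : OG n) : D.Hs O * D.Hi O = 1 := by
  rw [Fd.Hs, Fd.Hi, JO_mul, ← JO_one O]
  congr 1
  funext a
  exact mul_inv_cancel₀ (Real.sqrt_pos.2 (hv_pos ht h a)).ne'

theorem op_Hi (O : OG n) : OpLe (D.Hi O) 3 := opLe_JO (fun a => by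
  have h0 := hv_pos ht h a
  have h1 : 1 / 3 ≤ √(D.hv a) := Real.le_sqrt_of_sq_le (by nlinarith [h.h1 a, h.nhi a])
  rw [abs_of_nonneg (by positivity), inv_le_comm₀ (by positivity) (by norm_num)]
  linarith) O

theorem inv_del : D.del⁻¹ ≤ t⁻¹ ^ 288001 := by
  rw [inv_pow]; exact inv_anti₀ (pow_pos ht _) h.dlo

include ht1

theorem w_half : 1 / 2 ≤ D.w := by
  have := pow_le_of_le_one ht.le (by linarith) (show 143990 ≠ 0 by norm_num)
  linarith [h.wlo]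

theorem op_Hs (O : OG n) : OpLe (D.Hs O) (t⁻¹ ^ 144001) := opLe_JO (fun a => by
  rw [abs_of_nonneg (Real.sqrt_nonneg _)]
  refine sqrt_le_pow (a := 288001) ((one_le_inv₀ ht).2 (by linarith)) ?_ (by norm_num)
  refine le_trans ?_ (inv_del ht h)
  rw [← one_div, le_div_iff₀ (del_pos ht h)]
  exact h.h3 a) O

theorem op_high (O : OG n) : OpLe (D.Hs O * (1 - D.Pl 2500 O)) (t⁻¹ ^ 2500) := by
  rw [Fd.Hs, Fd.Pl, one_sub_JO, JO_mul]
  refine opLe_JO (fun a => ?_) O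
  unfold Fd.ind
  split_ifs with ha
  · rw [sub_self, mul_zero, abs_zero]; positivity
  · rw [sub_zero, mul_one, abs_of_nonneg (Real.sqrt_nonneg _)]
    exact sqrt_le_pow (a := 2 * 2500) ((one_le_inv₀ ht).2 (by linarith))
      (le_inv_pow ht (h.hi 2500 (by norm_num) a (not_lt.1 ha))) le_rfl

theorem op_Kt (O : OG n) : OpLe (D.Hi O * D.Kt O * D.Hi O) 7 := by
  have e : D.Kt O = JO (fun a => 1 - (D.nu a)⁻¹ / D.w) O := rfl
  rw [e, Fd.Hi, JO_mul, JO_mul]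
  refine opLe_JO (fun a => ?_) O
  have h0 := hv_pos ht h a
  have h1 := nu_pos ht h a
  have hw := w_half ht ht1 h
  have e2 : (√(D.hv a))⁻¹ * (1 - (D.nu a)⁻¹ / D.w) * (√(D.hv a))⁻¹ =
      (D.nu a - D.w⁻¹) / (D.hv a * D.nu a) := by
    rw [mul_right_comm, ← mul_inv, Real.mul_self_sqrt h0.le]
    field_simp
  have h2 : D.w⁻¹ ≤ 2 := by rw [inv_le_comm₀ (by linarith) (by norm_num)]; linarith
  have h3 : 0 < D.w⁻¹ := inv_pos.2 (by linarith)
  rw [e2, abs_div, abs_of_pos (mul_pos h0 h1), div_le_iff₀ (mul_pos h0 h1), abs_le]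
  constructor <;> linarith [h.h1 a, h.nhi a]

omit ht1 in
theorem op_PG (O : OG n) : OpLe (D.P O * D.G0 O) (t⁻¹ ^ 288001) := by
  have e : D.P O = JO (D.ind 144001) O := rfl
  rw [e, Fd.G0, JO_mul]
  refine opLe_JO (fun a => ?_) O
  unfold Fd.ind
  split_ifs with ha
  · rw [one_mul, h.nV a ha, abs_of_pos (inv_pos.2 (del_pos ht h))]; exact inv_del ht h
  · rw [zero_mul, abs_zero]; positivity

theorem key_id (hs : Si t D) {O : OG n} (hu : IsUnit (1 + (fr D.A0 O + 0) * D.Th).det) :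
    (D.Ga O)ᵀ * D.Vt * D.Kt O = D.G0 O - D.w • (D.Ga O)ᵀ := by
  have hw := w_half ht ht1 h
  have hA : D.A0ᵀ = D.A0 := diagonal_transpose _
  have e1 := Wd.Gm_eq hA transpose_zero hs.sT hu
  have e2 := Wd.Gm_mul_A hA hs.sT hu
  have eA : fr D.A0 O = JO (fun a => D.nu a - D.w⁻¹) O := rfl
  have eK : D.Kt O = JO (fun a => 1 - (D.nu a)⁻¹ / D.w) O := rfl
  have e3 : D.Kt O = fr D.A0 O * D.G0 O := by
    rw [eA, eK, Fd.G0, JO_mul]
    congr 1
    funext a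
    have := nu_pos ht h a
    field_simp
  have e4 : D.w • D.Kt O = D.w • (1 : Mat n) - D.G0 O := by
    rw [eK, Fd.G0, JO_smul, ← JO_const D.w O, JO_sub]
    congr 1
    funext a
    field_simp
  have e5 : (D.Ga O)ᵀ * D.Th * D.Kt O = D.G0 O - (D.Ga O)ᵀ * D.G0 O := by
    rw [Fd.Ga, ← e1, e3, ← mul_assoc, e2, sub_mul, one_mul]
  rw [Fd.Vt, mul_sub, sub_mul, e5, mul_smul_comm, mul_one, smul_mul_assoc, ← mul_smul_comm, e4,
    mul_sub, mul_smul_comm, mul_one]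
  abel

end Frame

theorem P0_idem (D : Fd n) : D.P0 * D.P0 = D.P0 := by
  rw [Fd.P0, diagonal_mul_diagonal]
  congr 1
  funext a
  unfold Fd.ind
  split_ifs <;> simp

theorem pt_of {t : ℝ} {D : Fd n} (ht : 0 < t) (ht1 : 10 ^ 6 ≤ t⁻¹) (h : Fr t D) (hs : Si t D)
    {O : OG n} (hp : T2.Pt t D O) (hq : QOK t D O) :
    Pt (fr D.A0 O) (fr D.P0 O) D.Vt D.Bh (D.Ga O) (D.Hs O) (D.Hi O) (t⁻¹ ^ 359213) 3
      (t⁻¹ ^ 288122) (t⁻¹ ^ 166) (t⁻¹ ^ 144126) (t⁻¹ ^ 144162) := by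
  have h2 : t ≤ 1 / 2 := by
    rw [le_inv_comm₀ (by norm_num) ht] at ht1
    linarith
  have i1 : 1 ≤ t⁻¹ := by linarith
  have i0 : ∀ a : ℕ, 0 ≤ t⁻¹ ^ a := fun a => pow_nonneg (by linarith) a
  have h1 := Hs_Hi ht h O
  have h1' : D.Hi O * D.Hs O = 1 := mul_eq_one_comm.1 h1
  have cl : ∀ X, D.Hs O * (D.Hi O * X) = X := fun X => by rw [← mul_assoc, h1, one_mul]
  have cr : ∀ X, D.Hi O * (D.Hs O * X) = X := fun X => by rw [← mul_assoc, h1', one_mul]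
  have ps : (fr D.P0 O)ᵀ = fr D.P0 O := by rw [Wd.fr_transpose, Fd.P0, diagonal_transpose]
  have pp : fr D.P0 O * fr D.P0 O = fr D.P0 O := by rw [Wd.fr_mul, P0_idem]
  have oP := op_proj ps pp
  have oS := op_Hs ht h2 h O
  have oI := op_Hi ht h O
  have oSP : OpLe (D.Hs O * fr D.P0 O) (t⁻¹ ^ 144001) := by
    simpa only [mul_one] using oS.mulN oP (i0 _) zero_le_one
  have oPS : OpLe (fr D.P0 O * D.Hs O) (t⁻¹ ^ 144001) := by
    simpa only [one_mul] using oP.mulN oS zero_le_one (i0 _)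
  have oQ : OpLe (D.Hi O * (D.Ga O * fr D.A0 O) * D.Hi O) (t⁻¹ ^ 125) := by
    have := opNeg hp.iQ
    rwa [Fd.Q, Wd.Qm, mul_neg, neg_mul, neg_neg] at this
  have oT : OpLe (D.Hi O * (D.Ga O)ᵀ * D.Hi O) (t⁻¹ ^ 120) := by
    have := opT (i0 _) hp.iGa
    rwa [transpose_mul, transpose_mul, Fd.Hi, JO_tr, ← mul_assoc] at this
  refine ⟨h1, ?_, oI, ?_, ?_, ?_, ?_⟩
  · have o3 : OpLe (fr D.P0 O * (D.Ga O)ᵀ * D.Hi O) (t⁻¹ ^ 144121) := by
      have := oPS.mulN oT (i0 _) (i0 _)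
      rw [← pow_add] at this
      simpa only [mul_assoc, cl] using this
    have o2 : OpLe (fr D.P0 O * (D.Ga O)ᵀ * D.Vt * D.Kt O * D.Hi O) (t⁻¹ ^ 144161 * 7) := by
      have := (o3.mulN hp.iV (i0 _) (i0 _)).mulN (op_Kt ht h2 h O) (mul_nonneg (i0 _) (i0 _))
        (by norm_num)
      rw [← pow_add] at this
      simpa only [mul_assoc, cl, cr] using this
    have eP : fr D.P0 O * D.G0 O * fr D.P0 O = fr D.P0 O * D.G0 O := by
      have e : fr D.P0 O = JO (D.ind 144001) O := rfl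
      rw [mul_assoc, Fd.G0, e, JO_comm _ (D.ind 144001), ← mul_assoc, ← e, pp]
    have k := ph_dir (by linarith [w_half ht h2 h]) (key_id ht h2 h hs hp.unit) eP h1' (i0 _)
      (mul_nonneg (i0 _) (by norm_num)) (i0 _) (i0 _) (op_PG ht h O) o2 o3 (op_high ht h2 h O)
      hp.thB hq.f1 hq.f2
    rw [show 216250 = 3800 + 212450 from rfl, tm_i ht, show 3800 + 212450 = 1200 + 215050 from rfl,
      tm_i ht, ← pow_add, ← pow_add, ← pow_add, mul_right_comm, ← pow_add] at k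
    have k1 : t⁻¹ ^ (288001 + 300) ≤ t⁻¹ ^ 359211 := pow_le_pow_right₀ i1 (by norm_num)
    have k2 : t⁻¹ ^ (2500 + (144121 + 212450)) ≤ t⁻¹ ^ 359211 := pow_le_pow_right₀ i1 (by norm_num)
    have k3 := cm (a := 359211) (b := 359213) i1 (show 18 ≤ t⁻¹ by linarith) (by norm_num)
    have k4 := mul_le_mul_of_nonneg_right (w_half ht h2 h)
      (fro_nonneg (fr D.P0 O * (D.Ga O)ᵀ * D.Bh * D.Hs O))
    rw [show 144161 + 215050 = 359211 from rfl] at k
    linarith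
  · have := (oS.mulN hp.iGa (i0 _) (i0 _)).mulN oSP (mul_nonneg (i0 _) (i0 _)) (i0 _)
    rw [← pow_add, ← pow_add] at this
    simpa only [mul_assoc, cl, cr] using this
  · have := (oQ.mulN hp.iV (i0 _) (i0 _)).mulN oI (mul_nonneg (i0 _) (i0 _)) (by norm_num)
    rw [← pow_add] at this
    have := this.monoN (mul_nonneg (i0 _) (by norm_num))
      ((mul_comm _ _).trans_le (cm (b := 166) i1 (by linarith) (by norm_num)))
    simpa only [mul_assoc, cl, cr, h1, mul_one] using this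
  · have := oQ.mulN oS (i0 _) (i0 _)
    rw [← pow_add] at this
    simpa only [mul_assoc, h1', mul_one] using this
  · have := oI.mulN ((hp.iV.mulN hp.iGa (i0 _) (i0 _)).mulN oSP (mul_nonneg (i0 _) (i0 _)) (i0 _))
      (by norm_num) (mul_nonneg (mul_nonneg (i0 _) (i0 _)) (i0 _))
    rw [← pow_add, ← pow_add] at this
    have := this.monoN (mul_nonneg (by norm_num) (i0 _))
      (cm (b := 144162) i1 (by linarith) (by norm_num))
    simpa only [mul_assoc, cl, cr] using this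

theorem fro_op {A : Mat n} {C : ℝ} (hC : 0 ≤ C) (h : OpLe A C) (hn : (1 : ℝ) ≤ n) :
    fro A ≤ C * n := by
  have h1 := fro_mul_l hC h 1
  rw [mul_one] at h1
  exact h1.trans (mul_le_mul_of_nonneg_left (Wd.fro_one_le hn le_rfl) hC)

/-- **[F]** -/
theorem fStmt : FStmt := by
  have ev : ∀ᶠ t in 𝓝[>] (0 : ℝ), 10 ^ 6 ≤ t⁻¹ := tendsto_inv_nhdsGT_zero.eventually_ge_atTop _
  filter_upwards [ev, self_mem_nhdsWithin] with t ht1 ht n D Gd hC hQ
  replace ht : 0 < t := ht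
  have i1 : 1 ≤ t⁻¹ := by linarith
  have i0 : ∀ a : ℕ, 0 < t⁻¹ ^ a := fun a => pow_pos (by linarith) a
  have hn : t⁻¹ ^ 564000 ≤ n := by
    rw [inv_pow, inv_le_iff_one_le_mul₀ (pow_pos ht _)]; exact hC.fr.big
  have hn6 : (10 : ℝ) ^ 6 ≤ n := (ht1.trans (le_self_pow₀ i1 (by norm_num))).trans hn
  have hr : D.r ≤ n / 4 := by
    have h1 : D.r ^ 2 ≤ n := (pow_le_pow_right₀ hC.fr.r1 (by norm_num)).trans hC.fr.rn
    nlinarith [hC.fr.r1]
  have hc : Conc D.mu (n / 256) := ((conc_haarP hC.si.proj.symm hC.si.proj.idem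
    (by linarith [hC.si.cor])).map_mul_left D.O0).mono (by linarith [hC.si.cor])
  have : IsProbabilityMeasure D.mu :=
    Measure.isProbabilityMeasure_map (measurable_const_mul D.O0).aemeasurable
  have hp := fun O hO => pt_of ht ht1 hC.fr hC.si (hC.pt O hO) (hQ O hO)
  have hP : D.P0ᵀ = D.P0 := diagonal_transpose _
  have hL := lip_ff (A := D.A0) (G := Gd) (show D.Th = D.Vt + D.w • 1 from (sub_add_cancel _ _).symm)
    hP (P0_idem D) hC.si.sB (by norm_num) (i0 _).le (i0 _).le (i0 _).le (i0 _).le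
    (fun O hO => by simpa only [add_zero] using (hC.pt O hO).unit) hp
  have hL' : LipO Gd (t⁻¹ ^ 647502) D.f := by
    intro U hU V hV
    refine (hL U hU V hV).trans (mul_le_mul_of_nonneg_right ?_ (dO_nonneg _ _))
    have k1 : t⁻¹ ^ 288122 ≤ t⁻¹ ^ 288288 := pow_le_pow_right₀ i1 (by norm_num)
    have k2 := cm (a := 359213 + 288288) (b := 647502) i1 (show 10 ≤ t⁻¹ by linarith) le_rfl
    rw [← pow_add, ← pow_add, show 166 + 288122 = 288288 from rfl]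
    rw [pow_add] at k2
    nlinarith [i0 359213]
  have hM : ∀ O ∈ Gd, |D.f O| ≤ (n : ℝ) ^ 900 := by
    intro O hO
    have e : D.Xi O = D.Ga O * fr D.P0 O * (D.Ga O * fr D.P0 O)ᵀ := by
      rw [transpose_mul, Wd.fr_transpose, hP, ← mul_assoc, mul_assoc _ (fr D.P0 O) (fr D.P0 O),
        Wd.fr_mul, P0_idem]
      rfl
    have o := (hp O hO).gp.mulN (opT (i0 _).le (hp O hO).gp) (i0 _).le (i0 _).le
    rw [← e, ← pow_add] at o
    have k1 := fro_op (i0 _).le o (by linarith)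
    have k2 : t⁻¹ ^ (288122 + 288122 + 216250) ≤ (n : ℝ) ^ 2 :=
      (pow_le_pow_right₀ i1 (show _ ≤ 564000 * 2 by norm_num)).trans
        ((pow_mul _ _ _).trans_le (pow_le_pow_left₀ (i0 _).le hn 2))
    calc |D.f O| ≤ fro (D.Xi O) * fro D.Bh := abs_trace_mul _ _
      _ ≤ t⁻¹ ^ (288122 + 288122) * n * t⁻¹ ^ 216250 :=
          mul_le_mul k1 hC.si.bB (fro_nonneg _) (mul_nonneg (i0 _).le (by linarith))
      _ = t⁻¹ ^ (288122 + 288122 + 216250) * n := by rw [pow_add _ _ 216250]; ring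
      _ ≤ (n : ℝ) ^ 2 * n := mul_le_mul_of_nonneg_right k2 (by linarith)
      _ = (n : ℝ) ^ 3 := by ring
      _ ≤ (n : ℝ) ^ 900 := pow_le_pow_right₀ (by linarith) (by norm_num)
  have key := conc_mean hc (by linarith) hC.meas (i0 _) (by positivity)
    (show 0 ≤ n * t ^ 431998 by positivity) hL' hM
  refine le_trans (measureReal_mono fun O hO => ?_) key
  refine And.intro hO.1 (lt_of_le_of_lt ?_ hO.2)
  have k1 : √(n * t ^ 431998 / (n / 256)) = 16 * t ^ 215999 := by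
    rw [Real.sqrt_eq_iff_mul_self_eq (by positivity) (by positivity),
      show 431998 = 215999 + 215999 from rfl, pow_add]
    field_simp
    norm_num
  have k2 : (n : ℝ) ^ 900 * D.mu.real Gdᶜ ≤ 1 := by
    have := mul_le_mul_of_nonneg_left hC.mass (show 0 ≤ (n : ℝ) ^ 900 by positivity)
    rwa [mul_inv_cancel₀ (by positivity)] at this
  have k3 := tm_i ht 215999 431503
  have k4 := cm (a := 431503) (b := 431600) i1 (show 17 ≤ t⁻¹ by linarith) (by norm_num)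
  have k5 : 1 ≤ t⁻¹ ^ 431503 := one_le_pow₀ i1
  rw [k1, show 647502 = 215999 + 431503 from rfl, mul_left_comm, mul_comm _ (t ^ 215999), k3]
  linarith

end Vale.Agent.N150.T2F
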