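import Vale.Agent.N150.T2B2
import Vale.Agent.N150.T2Cv
import Vale.Agent.N150.T2Kit
import Vale.Agent.N150.T2A0
import Vale.Agent.N150.T2LLev
import Vale.Agent.N150.T2F3

/-! T2: sparse restrictions of the levels, the scalars of block B, and `L3Stmt`. -/

namespace Vale.Agent.N150.T2B

open Matrix Finset Filter Topology
open Vale.Agent.P150 Vale.Agent.P150.F Vale.Agent.N150.Fib Vale.Agent.N150.Rip
  Vale.Agent.N150.Sp Vale.Agent.N150.EC Vale.Agent.N150.T2
open Vale.Agent.N150.Haar (fro fro_nonneg fro_add_le fro_sub_le fro_smul fro_sq')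
open Vale.Agent.N150.T1 (Sm ev_sm JO_mul JO_add JO_tr JO_const opLe_JO one_sub_JO)
open Vale.Agent.N150.T2A (mo Cx SB mo_pow mo_inv mo_one mo_two mo_zero mo_neg_one mo_neg_two)
open Vale.Agent.N150.KB.Ch (fro_mul_l fro_mul_r)

variable {n : ℕ} {t : ℝ}

theorem be_link (c : ℝ) (h v : Vec n) : T2A.be c h v = be (tm h) v (dv h) c := by
  funext i
  simp only [T2A.be, be, Pi.add_apply, Pi.mul_apply, Pi.smul_apply, smul_eq_mul]
  ring

theorem Bh_link (c e : ℝ) (h v : Vec n) :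
    T2A.Bh c e h v = Bh (tm h) v (dv h) c (T2A.cT c h) e := by
  unfold T2A.Bh Bh T2A.Rk
  rw [be_link, ← add_assoc]
  rfl

theorem JO_sum {ι : Type*} (I : Finset ι) (f : ι → Vec n) (O : OG n) :
    JO (fun a => ∑ j ∈ I, f j a) O = ∑ j ∈ I, JO (f j) O := by
  classical
  induction I using Finset.induction_on with
  | empty => simp [JO_const]
  | insert j I hj ih => simp only [sum_insert hj, ← ih, JO_add]

theorem JO_split {lb : Fin n → ℕ} {N : ℕ} (h : ∀ a, lb a < N) (u : Vec n) (O : OG n) :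
    JO u O = ∑ j ∈ range N, JO (fun a => if lb a = j then u a else 0) O := by
  rw [← JO_sum]
  congr 1
  funext a
  rw [sum_ite_eq, if_pos (mem_range.2 (h a))]

theorem opLe_sum {ι : Type*} (I : Finset ι) {A : ι → Mat n} {c : ℝ} (hc : 0 ≤ c)
    (h : ∀ j ∈ I, OpLe (A j) c) : OpLe (∑ j ∈ I, A j) (I.card * c) := by
  refine opLe_of_nv fun v => ?_
  rw [sum_mulVec]
  refine (nv_sum_le _ _).trans ((sum_le_sum fun j hj => (h j hj).nv_le hc v).trans (le_of_eq ?_))
  rw [sum_const, nsmul_eq_mul, mul_assoc]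

/-! ### monomials -/

theorem sb_mo (c : Cx n t) (j a : ℤ) : SB n t (mo n t j a) j a := ⟨c, (abs_of_pos (c.pos j a)).le⟩

theorem sb_of {x : ℝ} {j a : ℤ} (c : Cx n t) (h0 : 0 ≤ x) (h : x ≤ mo n t j a) : SB n t x j a :=
  ⟨c, (abs_of_nonneg h0).trans_le h⟩

theorem sb_le {x : ℝ} {j a : ℤ} (h : SB n t x j a) (k b : ℤ) (e : j = k ∧ b ≤ a) :
    x ≤ mo n t k b := (le_abs_self x).trans (h.mono k b e).le

theorem sb_tr {x : ℝ} {j a : ℤ} (h : SB n t x j a) (b : ℕ) (hb : t⁻¹ ^ b ≤ √n) (k a' : ℤ)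
    (e : j + 1 = k ∧ a' ≤ a + b) : SB n t x k a' := by
  have c := h.cx
  have h1 : mo n t 0 (-b) ≤ mo n t 1 0 := by rwa [mo_inv, mo_one, mo_zero, mul_one]
  have h2 := mul_le_mul_of_nonneg_left h1 (c.nn j (a + b))
  rw [c.mul, c.mul] at h2
  exact ⟨c, h.le.trans ((c.mono (by omega)).trans (h2.trans (c.mono (by omega))))⟩

theorem sqrt_le_mo (c : Cx n t) {x : ℝ} {j a : ℤ} (h : x ≤ mo n t (2 * j) (2 * a)) :
    √x ≤ mo n t j a := Real.sqrt_le_iff.2 ⟨c.nn _ _, by rwa [c.sq_mo]⟩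

theorem sml (s : Sm 2 t) : Sml t := ⟨s.pos, by linarith [s.c1 (C := 1000) (by norm_num)]⟩

theorem cx_fr {D : Fd n} (s : Sm 2 t) (f : Fr t D) : Cx n t :=
  ⟨s.pos, s.c1 (by norm_num), f.n_pos (sml s),
    f.big.trans (mul_le_mul_of_nonneg_left (s.pw (by norm_num)) (Nat.cast_nonneg n))⟩

theorem mo_mix (c : Cx n t) (a b : ℕ) : t ^ a * t⁻¹ ^ b = mo n t 0 (a - b) := by
  rw [← mo_pow n, ← mo_inv n, c.mul]
  rfl

theorem log_le (s : Sm 2 t) {C : ℝ} (hC : C ≤ 10 ^ 40) :
    C * (1 + Real.log t⁻¹) ≤ t⁻¹ := by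
  have := s.clog (a := 0) (b := 1) hC (by norm_num) (by norm_num)
  rw [pow_zero, mul_one, pow_one] at this
  rw [← one_div, le_div_iff₀ s.pos]
  simpa using this

section Lev

variable {D : Fd n} {O : OG n} (s : Sm 2 t) (f : Fr t D)
include s f

theorem sq_big : t⁻¹ ^ 282000 ≤ √n := f.ile_sqrt (sml s) le_rfl

theorem hs_lev {i : ℕ} (hi : i ≤ 144000) {a : Fin n} (ha : D.lab a ≤ i) :
    √(D.hv a) ≤ mo n t 0 (-i) := by
  refine sqrt_le_mo (cx_fr s f) ?_
  have := T2F.le_inv_pow s.pos (f.hi i hi a ha)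
  rw [← mo_inv n] at this
  exact this.trans ((cx_fr s f).mono (by omega))

theorem hs_top (a : Fin n) : √(D.hv a) ≤ mo n t 0 (-144001) := by
  refine sqrt_le_mo (cx_fr s f) ?_
  have h1 : D.hv a * t ^ 288001 ≤ 1 :=
    (mul_le_mul_of_nonneg_left f.dlo (T2F.hv_pos s.pos f a).le).trans (f.h3 a)
  have := T2F.le_inv_pow s.pos h1
  rw [← mo_inv n] at this
  exact this.trans ((cx_fr s f).mono (by omega))

theorem card_one (i : Fin n) : ((({i} : Finset (Fin n)).card : ℕ) : ℝ) ≤ n * t ^ 431990 := by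
  rw [card_singleton, Nat.cast_one]
  exact f.big.trans (mul_le_mul_of_nonneg_left (s.pw (by norm_num)) (Nat.cast_nonneg n))

variable (r : RL t D.lab O) {A : Finset (Fin n)} (hA : (A.card : ℝ) ≤ n * t ^ 431990)
include r hA

theorem res_PL {i : ℕ} (hi : i ≤ 144000) {q : ℤ} (h1 : 2 * q + 5 ≤ 3 * i) (h2 : 2 * q ≤ 431987) :
    OpLe (res A * PL D.lab i O) (mo n t 0 q) := by
  intro y
  have c := cx_fr s f
  have hn := c.n0'
  have h := (r i hi y).sparse (mul_nonneg s.inv0.le (sqN_nonneg y)) (k := n * t ^ 432000)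
    (mul_pos hn (s.p0 _)) (mul_le_of_le_one_right hn.le (s.p1 _)) A
  have e1 : Real.log (n / (n * t ^ 432000)) = 432000 * Real.log t⁻¹ := by
    rw [div_mul_eq_div_div, div_self hn.ne', one_div, Sm.log_p]
    norm_num
  have k1 : t ^ (3 * i) * t⁻¹ ^ 3 ≤ mo n t 0 (2 * q + 2) := by
    rw [mo_mix c]; exact c.mono (by omega)
  have k2 : t ^ 432000 ≤ mo n t 0 (2 * q + 2) := by
    rw [← mo_pow n]; exact c.mono (by omega)
  have k3 : t ^ 431990 * t⁻¹ ^ 1 ≤ mo n t 0 (2 * q + 2) := by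
    rw [mo_mix c]; exact c.mono (by omega)
  have k4 := log_le s (C := 864000) (by norm_num)
  have k5 : (1 : ℝ) ≤ n * t ^ 431990 :=
    f.big.trans (mul_le_mul_of_nonneg_left (s.pw (by norm_num)) hn.le)
  have k6 : (432000 * Real.log t⁻¹ + 2) * (A.card + 1) ≤ n * (t ^ 431990 * t⁻¹ ^ 1) := by
    have l0 := s.log0
    calc _ ≤ (432000 * Real.log t⁻¹ + 2) * (2 * (n * t ^ 431990)) :=
          mul_le_mul_of_nonneg_left (by linarith) (by linarith)
      _ = (864000 * Real.log t⁻¹ + 4) * (n * t ^ 431990) := by ring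
      _ ≤ t⁻¹ * (n * t ^ 431990) := mul_le_mul_of_nonneg_right (by linarith) (by linarith)
      _ = _ := by rw [pow_one]; ring
  have k7 := c.cst (C := 3) (by norm_num) (j := 0) (a := 2 * q + 2) (k := 0) (b := 2 * q + 1)
    (by omega)
  have k8 : t⁻¹ * mo n t 0 (2 * q + 1) = mo n t 0 q ^ 2 := by
    rw [← pow_one t⁻¹, ← mo_inv n, c.mul, c.sq_mo]
    congr 1
    omega
  rw [e1] at h
  rw [← mulVec_mulVec, sq_res, ← k8]
  refine le_of_mul_le_mul_left (h.trans ?_) hn
  generalize t ^ (3 * i) * t⁻¹ ^ 3 = x1 at *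
  generalize t ^ 432000 = x2 at *
  generalize t ^ 431990 * t⁻¹ ^ 1 = x3 at *
  have k9 : n * x1 + n * x2 + (432000 * Real.log t⁻¹ + 2) * (A.card + 1) ≤
      n * mo n t 0 (2 * q + 1) := by nlinarith
  calc _ ≤ t⁻¹ * F.sq y * (n * mo n t 0 (2 * q + 1)) :=
        mul_le_mul_of_nonneg_left k9 (mul_nonneg s.inv0.le (sqN_nonneg y))
    _ = _ := by ring

/-- sparse restriction of a multiplier dominated by `H ^ (1/2)` living on the levels `≥ j0` -/
theorem res_step {u : Vec n} {j0 : ℕ} {q b : ℤ} (hu : ∀ a, |u a| ≤ √(D.hv a))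
    (h0 : ∀ a, D.lab a < j0 → u a = 0) (hq : 2 * q + 8 ≤ j0) (hq' : 2 * q ≤ 143985) (hb : b < q) :
    OpLe (res A * JO u O) (mo n t 0 b) := by
  have c := cx_fr s f
  rw [JO_split (lb := fun a => min (D.lab a) 144001) (N := 144002) (fun a => by omega) u O, mul_sum]
  refine (opLe_sum _ (c.nn 0 q) fun j hj => ?_).monoN (mul_nonneg (Nat.cast_nonneg _) (c.nn _ _))
    (c.cst (by rw [card_range]; norm_num) (by omega))
  have hj' := mem_range.1 hj
  have dom : ∀ {i : ℕ} {p : ℤ}, i ≤ 144000 → i < j → 2 * (q + p) + 5 ≤ 3 * i → p ≤ 144001 →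
      (∀ a, min (D.lab a) 144001 = j → √(D.hv a) ≤ mo n t 0 (-p)) →
      OpLe (res A * JO (fun a => if min (D.lab a) 144001 = j then u a else 0) O) (mo n t 0 q) := by
    intro i p hi hij h1 hp hb
    have := T2LV.opLe_dom (c.nn _ _) (c.nn 0 (-p))
      (u := fun a => if min (D.lab a) 144001 = j then u a else 0) (fun a => ?_) O
      (res_PL s f r hA hi h1 (by omega))
    · rw [c.mul] at this
      exact this.monoN (c.nn _ _) (c.mono (by omega))
    · split_ifs with h1 h2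
      · simpa using (hu a).trans (hb a h1)
      · omega
      · simpa using c.nn _ _
      · simp
  rcases lt_or_ge j (min j0 144001) with h1 | h1
  · have e0 : (fun a => if min (D.lab a) 144001 = j then u a else 0) = fun _ => 0 := by
      funext a
      split_ifs with h2
      · exact h0 a (by omega)
      · rfl
    rw [e0, JO_const, zero_smul, mul_zero]
    exact opLe_of_nv fun v => by
      rw [zero_mulVec, nv_zero]; exact mul_nonneg (c.nn _ _) (nv_nonneg _)
  rcases Nat.eq_zero_or_pos j with h2 | h2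
  · have o := (opLe_proj (isProj_res A)).mulN (opLe_JO (c := mo n t 0 (-(0 : ℕ)))
      (u := fun a => if min (D.lab a) 144001 = j then u a else 0) (fun a => by
        split_ifs with h3
        · exact (hu a).trans (hs_lev s f (by omega) (by omega))
        · simpa using c.nn _ _) O) zero_le_one (c.nn _ _)
    rw [one_mul] at o
    exact o.monoN (c.nn _ _) (c.mono (by omega))
  rcases le_or_gt j 144000 with h3 | h3
  · exact dom (i := j - 1) (p := j) (by omega) (by omega) (by omega) (by omega)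
      fun a ha => hs_lev s f h3 (by omega)
  · exact dom (i := 144000) (p := 144001) le_rfl h3 (by omega) le_rfl fun a _ => hs_top s f a

theorem res_Hs : OpLe (res A * D.Hs O) (mo n t 0 (-5)) :=
  res_step s f r hA (j0 := 0) (q := -4) (fun _ => (abs_of_nonneg (Real.sqrt_nonneg _)).le)
    (fun _ h => absurd h (Nat.not_lt_zero _)) (by norm_num) (by norm_num) (by norm_num)

theorem res_HsP : OpLe (res A * (D.Hs O * D.Pl 2500 O)) (mo n t 0 1245) := by
  rw [Fd.Hs, Fd.Pl, JO_mul]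
  refine res_step s f r hA (j0 := 2501) (q := 1246) (fun a => ?_) (fun a h => ?_) (by norm_num)
    (by norm_num) (by norm_num)
  · unfold Fd.ind
    split_ifs
    · rw [mul_one, abs_of_nonneg (Real.sqrt_nonneg _)]
    · simp
  · unfold Fd.ind
    rw [if_neg (by omega), mul_zero]

theorem res_P : OpLe (res A * D.P O) (mo n t 0 215993) := by
  have c := cx_fr s f
  have := T2LV.opLe_dom (c.nn _ _) zero_le_one (u := D.ind 144001) (fun a => ?_) O
    (res_PL s f r hA (i := 144000) (q := 215993) le_rfl (by norm_num) (by norm_num))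
  · rwa [mul_one] at this
  · unfold Fd.ind
    split_ifs <;> first | omega | simp

end Lev

/-! ### the scalars -/

theorem fro_cols {X : Mat n} {θ : ℝ} (hθ : 0 ≤ θ) (h : ∀ i, OpLe (res {i} * Xᵀ) θ) (d : Vec n) :
    fro (X * diagonal d) ≤ θ * nv d := T2F.fro_mul_diag hθ (fun i => T2LV.col_le hθ (h i)) d

section Sca

variable {D : Fd n} {O : OG n} {x h v : Vec n} {c e : ℝ} (s : Sm 2 t) (f : Fr t D)
  (a : Ma t D O x h v c e)
include s f a

theorem sc_ma : Sc (tm h) v (dv h) c (T2A.cT c h) e (mo n t 1 71999) (mo n t 0 (-288161))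
    (mo n t 0 86290) := by
  have k := cx_fr s f
  have hn := k.n0'
  refine ⟨k.n0, fun i => (Real.abs_tanh_lt_one _).le, fun i => rfl, ?_, ?_, ?_, ?_, a.hcT, ?_, ?_⟩
  · have := a.m2
    rwa [← mo_pow n, ← mo_one] at this
  · have := a.v2
    rwa [← mo_inv n] at this
  · exact (k.mono (k := 0) (b := 0) (by omega)).trans (mo_zero n t).le
  · refine a.hc.trans (div_le_div_of_nonneg_right ?_ hn.le)
    rw [← mo_pow n]
    exact k.mono (by omega)
  · rw [mul_comm, ← mo_two, k.sq_mo]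
    exact k.mono (by omega)
  · have h1 : |e| ≤ mo n t (-4) (-30) := by
      have h2 := a.hc3
      rw [← mo_inv n, ← le_div_iff₀ (by positivity), pow_two, ← div_div, ← mo_neg_two,
        div_eq_mul_inv] at h2
      exact h2.trans (sb_le ((sb_mo k _ _).mul (SB.inv_cast k)) _ _ (by omega))
    rw [← mo_neg_two]
    exact sb_le ((sb_of k (abs_nonneg e) h1).mul (sb_mo k 1 71999).sq) _ _ (by omega)

omit a in
theorem sb_nu : SB n t (mo n t 1 71999 * mo n t 0 (-288161) / n) (-1) (-216162) :=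
  (((sb_mo (cx_fr s f) _ _).mul (sb_mo (cx_fr s f) _ _)).div_n).mono _ _ (by omega)

omit a in
theorem sb_nu0 : SB n t (mo n t 1 71999 * mo n t 0 (-288161) / n) 0 65838 :=
  sb_tr (sb_nu s f) _ (sq_big s f) _ _ (by omega)

theorem nv_be : nv (be (tm h) v (dv h) c) ≤ mo n t 0 (-216181) := by
  have k := cx_fr s f
  have h1 : nv (tm h * v) ≤ mo n t 0 (-72020) * mo n t 0 (-144160) := by
    have e : tm h * v = (diagonal (tm h) * D.Hs O) *ᵥ (D.Hi O *ᵥ v) := by
      rw [mulVec_mulVec, Matrix.mul_assoc, f.si (sml s), Matrix.mul_one]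
      funext i
      rw [mulVec_diagonal, Pi.mul_apply]
    have h2 := a.mH
    have h3 := a.vH
    rw [← mo_inv n] at h2 h3
    rw [e]
    exact (h2.nv_le (k.nn _ _) _).trans (mul_le_mul_of_nonneg_left h3 (k.nn _ _))
  have h2 : SB n t (√n) 1 0 := sb_of k (Real.sqrt_nonneg _) (by rw [mo_one, mo_zero, mul_one])
  exact (nv_add_le _ _).trans ((add_le_add h1 (sc_ma s f a).cd_le).trans
    (sb_le (((sb_mo k _ _).mul (sb_mo k _ _)).add (((sb_nu s f).cmul 2 (by norm_num)).mul h2)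
      0 (-216181) (by omega)) _ _ (by omega)))

theorem fro_XB {X : Mat n} {p q b : ℤ} (h1 : ∀ i, OpLe (res {i} * Xᵀ) (mo n t 0 p))
    (h2 : OpLe X (mo n t 0 q)) (e1 : b < p - 216181) (e2 : b < q + 65837) :
    fro (X * D.Bh) ≤ mo n t 0 b := by
  have k := cx_fr s f
  rw [a.lB, Bh_link, Bh_eq, Matrix.mul_add]
  refine (fro_add_le _ _).trans ((add_le_add ((fro_cols (k.nn _ _) h1 _).trans
    (mul_le_mul_of_nonneg_left (nv_be s f a) (k.nn _ _))) ((fro_mul_l (k.nn _ _) h2 _).trans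
      (mul_le_mul_of_nonneg_left (sc_ma s f a).fro_R3 (k.nn _ _)))).trans ?_)
  exact sb_le (((sb_mo k _ _).mul (sb_mo k _ _)).add ((sb_mo k _ _).mul
    ((sb_nu0 s f).cmul 200 (by norm_num))) 0 b (by omega)) _ _ (by omega)

theorem fro_HV (r : RL t D.lab O) : fro (D.Hs O * D.Vt) ≤ √n * t ^ 143900 := by
  have k := cx_fr s f
  have sc := sc_ma s f a
  have e0 : D.Vt = diagonal (fun i => dv h i - wb h) -
      T2A.cT c h • vecMulVec (dv h * tm h) (dv h * tm h) := by
    rw [Fd.Vt, a.lT, a.lw]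
    exact T2A.Vt_eq c h
  have h1 : fro (T2A.cT c h • vecMulVec (dv h * tm h) (dv h * tm h)) ≤ mo n t 0 143997 := by
    rw [fro_smul, fro_vv]
    refine (mul_le_mul a.hcT (mul_le_mul sc.p_le sc.p_le (nv_nonneg _) sc.M0)
      (mul_nonneg (nv_nonneg _) (nv_nonneg _)) (by positivity)).trans ?_
    exact sb_le ((SB.num k 4 (by norm_num)).div_n.mul ((sb_mo k _ _).mul (sb_mo k _ _))) _ _
      (by omega)
  have h2 : fro D.Vt ≤ mo n t 1 143995 := by
    refine sqrt_le_mo k (a.fV.trans (le_of_eq ?_))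
    rw [← mo_pow n, ← mo_two]
    rfl
  have h3 : nv (fun i => dv h i - wb h) ≤ mo n t 1 143995 + mo n t 0 143997 := by
    rw [← fro_diag, ← sub_add_cancel (diagonal _) (T2A.cT c h • vecMulVec (dv h * tm h)
      (dv h * tm h)), ← e0]
    exact (fro_add_le _ _).trans (add_le_add h2 h1)
  have h4 := f.opHs (sml s) O
  rw [← mo_inv n] at h4
  rw [e0, Matrix.mul_sub, ← mo_pow n, ← mo_one]
  refine (fro_sub_le _ _).trans ((add_le_add ((fro_cols (k.nn _ _) (fun i => by
    rw [D.Hs_tr]; exact res_Hs s f r (card_one s f i)) _).trans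
    (mul_le_mul_of_nonneg_left h3 (k.nn _ _))) ((fro_mul_l (k.nn _ _) h4 _).trans
      (mul_le_mul_of_nonneg_left h1 (k.nn _ _)))).trans ?_)
  exact sb_le (((sb_mo k _ _).mul ((sb_mo k _ _).add (sb_tr (sb_mo k _ _) _ (sq_big s f) 1 143995
    (by omega)) 1 143994 (by omega))).add (sb_tr ((sb_mo k _ _).mul (sb_mo k _ _)) _ (sq_big s f)
      1 143989 (by omega)) 1 143988 (by omega)) _ _ (by omega)

end Sca

/-- **[L3]** -/
theorem l3Stmt : L3Stmt := (ev_sm 2 le_rfl).mono fun t s n D O x h v c e f a b r => by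
  have k := cx_fr s f
  have h4 := f.opHs (sml s) O
  rw [← mo_inv n] at h4
  have sV : D.Vtᵀ = D.Vt := by
    rw [Fd.Vt, transpose_sub, a.lT, T2A.Th_tr, transpose_smul, transpose_one]
  rw [mo_mix k, mo_mix k, ← mo_inv n, ← mo_inv n]
  refine ⟨?_, fro_HV s f a r, fro_XB s f a (p := 3850) (q := -144042) (fun i => ?_) ?_ (by omega)
    (by omega), fro_XB s f a (fun i => ?_) h4 (p := -5) (by omega) (by omega),
    fro_XB s f a (p := 1245) (q := -144001) (fun i => ?_) ?_ (by omega) (by omega),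
    fro_XB s f a (p := 215993) (q := 0) (fun i => ?_) ?_ (by omega) (by omega)⟩
  · rw [← Matrix.one_mul D.Bh]
    refine fro_XB s f a (p := 0) (q := 0) (fun i => ?_) ?_ (by omega) (by omega)
    · rw [transpose_one, Matrix.mul_one, mo_zero]
      exact opLe_proj (isProj_res _)
    · rw [mo_zero]
      exact opLe_one
  · have := b.th {i} (card_one s f i)
    rw [← mo_pow n] at this
    simp only [transpose_mul, D.Hs_tr, D.Kt_tr, sV, ← Matrix.mul_assoc]
    exact this
  · have h1 := a.iV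
    rw [← mo_inv n] at h1
    have h2 := (h1.mulN (f.opHKH (sml s) O) (k.nn _ _) (by norm_num)).mulN h4
      (mul_nonneg (k.nn _ _) (by norm_num)) (k.nn _ _)
    have e0 : D.Hs O * D.Vt * D.Hs O * (D.Hi O * D.Kt O * D.Hi O) * D.Hs O =
        D.Hs O * D.Vt * (D.Hs O * D.Hi O) * D.Kt O * (D.Hi O * D.Hs O) := by
      simp only [Matrix.mul_assoc]
    rw [e0, f.si (sml s), f.is (sml s), Matrix.mul_one, Matrix.mul_one] at h2
    exact h2.monoN (mul_nonneg (mul_nonneg (k.nn _ _) (by norm_num)) (k.nn _ _))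
      (sb_le (((sb_mo k _ _).mul (SB.num k 7 (by norm_num))).mul (sb_mo k _ _)) _ _ (by omega))
  · rw [D.Hs_tr]
    exact res_Hs s f r (card_one s f i)
  · rw [transpose_mul, D.Hs_tr, (D.isProj_Pl _ O).symm, Fd.Pl, Fd.Hs, T1.JO_comm]
    exact res_HsP s f r (card_one s f i)
  · simpa using h4.mulN (opLe_proj (D.isProj_Pl 2500 O)) (k.nn _ _) zero_le_one
  · rw [(D.isProj_P O).symm]
    exact res_P s f r (card_one s f i)
  · rw [mo_zero]
    exact opLe_proj (D.isProj_P O)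

end Vale.Agent.N150.T2B
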