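import Vale.Agent.N150.Ward

/-! Block T2, part F (abstract core): the two-end Lipschitz bound of `tr (Ξ B)` and the bound of
the Frobenius norm which controls it. -/

namespace Vale.Agent.N150.T2F

open Matrix MeasureTheory Set
open Vale.Agent.P150 Vale.Agent.P150.F
open Vale.Agent.N150.Haar (fro fro_nonneg fro_add_le fro_sub_le fro_neg fro_smul fro_transpose
  fro_zero fro_sq')
open Vale.Agent.N150.Wd (fr Ga)

variable {n : ℕ}

/-! ### operator norm against Frobenius norm -/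

theorem opT {A : Mat n} {C : ℝ} (hC : 0 ≤ C) (h : OpLe A C) : OpLe Aᵀ C := by
  refine opLe_of_nv fun v => ?_
  have h1 : F.sq (Aᵀ *ᵥ v) = ip v (A *ᵥ (Aᵀ *ᵥ v)) := by
    have e : ip v (A *ᵥ (Aᵀ *ᵥ v)) = v ⬝ᵥ (A *ᵥ (Aᵀ *ᵥ v)) := rfl
    rw [e, Matrix.dotProduct_mulVec, ← Matrix.mulVec_transpose, ← ipN_self]; rfl
  have h2 := (ip_le v (A *ᵥ (Aᵀ *ᵥ v))).trans
    (mul_le_mul_of_nonneg_left (h.nv_le hC _) (nv_nonneg v))
  rw [← h1, ← nv_sq] at h2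
  rcases (nv_nonneg (Aᵀ *ᵥ v)).eq_or_lt with h0 | h0
  · rw [← h0]; exact mul_nonneg hC (nv_nonneg v)
  · exact le_of_mul_le_mul_right (by nlinarith) h0

theorem opNeg {A : Mat n} {C : ℝ} (h : OpLe A C) : OpLe (-A) C := fun v => by
  rw [Matrix.neg_mulVec, ← nv_sq, nv_neg, nv_sq]; exact h v

theorem fro_le_of_sq {X : Mat n} {C : ℝ} (hC : 0 ≤ C) (h : ∑ i, ∑ j, X i j ^ 2 ≤ C ^ 2) :
    fro X ≤ C := Real.sqrt_le_iff.2 ⟨hC, h⟩

theorem fro_mul_l {A : Mat n} {C : ℝ} (hC : 0 ≤ C) (h : OpLe A C) (X : Mat n) :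
    fro (A * X) ≤ C * fro X := by
  refine fro_le_of_sq (mul_nonneg hC (fro_nonneg _)) ?_
  rw [mul_pow, fro_sq', Finset.sum_comm, Finset.sum_comm (f := fun i j => X i j ^ 2),
    Finset.mul_sum]
  exact Finset.sum_le_sum fun j _ => h fun i => X i j

theorem fro_mul_r {A : Mat n} {C : ℝ} (hC : 0 ≤ C) (h : OpLe A C) (X : Mat n) :
    fro (X * A) ≤ C * fro X := by
  rw [← fro_transpose, transpose_mul, ← fro_transpose X]
  exact fro_mul_l hC (opT hC h) _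

theorem op_orth (O : OG n) : OpLe O.1 1 := fun v => by
  have e : F.sq (O.1 *ᵥ v) = (O.1 *ᵥ v) ⬝ᵥ (O.1 *ᵥ v) := by rw [← ipN_self]; rfl
  rw [e, Matrix.dotProduct_mulVec, ← Matrix.mulVec_transpose, Matrix.mulVec_mulVec,
    Haar.OG.tr_mul, Matrix.one_mulVec, one_pow, one_mul, ← ipN_self]
  exact le_rfl


theorem abs_trace_mul (X Y : Mat n) : |(X * Y).trace| ≤ fro X * fro Y := by
  have e : (X * Y).trace = ∑ p : Fin n × Fin n, X p.1 p.2 * Y p.2 p.1 := by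
    rw [Fintype.sum_prod_type]; rfl
  have h := Finset.sum_mul_sq_le_sq_mul_sq Finset.univ (fun p : Fin n × Fin n => X p.1 p.2)
    (fun p => Y p.2 p.1)
  have e1 : ∑ p : Fin n × Fin n, X p.1 p.2 ^ 2 = fro X ^ 2 := by
    rw [fro_sq', Fintype.sum_prod_type]
  have e2 : ∑ p : Fin n × Fin n, Y p.2 p.1 ^ 2 = fro Y ^ 2 := by
    rw [fro_sq', Fintype.sum_prod_type, Finset.sum_comm]
  rw [e1, e2, ← e, ← mul_pow] at h
  exact abs_le_of_sq_le_sq h (mul_nonneg (fro_nonneg _) (fro_nonneg _))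

/-- `|tr (Φ L E R)| ≤ |Φ|_F ‖L‖ |E|_F ‖R‖` -/
theorem abs_trace_four {Φ L E R : Mat n} {a b : ℝ} (ha : 0 ≤ a) (hb : 0 ≤ b) (hL : OpLe L a)
    (hR : OpLe R b) : |(Φ * (L * E * R)).trace| ≤ fro Φ * (a * b * fro E) := by
  refine (abs_trace_mul _ _).trans (mul_le_mul_of_nonneg_left ?_ (fro_nonneg _))
  calc fro (L * E * R) ≤ b * fro (L * E) := fro_mul_r hb hR _
    _ ≤ b * (a * fro E) := mul_le_mul_of_nonneg_left (fro_mul_l ha hL _) hb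
    _ = _ := by ring

/-- the increment of `Γ P` along a rotation -/
theorem incr {a p Th Vt W g g' : Mat n} {w : ℝ} (hT : Th = Vt + w • 1) (hW : W * Wᵀ = 1)
    (hg : g * (1 + a * Th) = 1) (hg' : (1 + Wᵀ * a * W * Th) * g' = 1) :
    g' * Wᵀ * p - g * p = -((W - 1) * (g' * Wᵀ * p)) - -(g * a) * Vt * (W - 1) * (g' * Wᵀ * p)
      + -(g * a) * (W - 1) * (Vt * (g' * Wᵀ * p)) := by
  have h1 : (W + a * W * Th) * (g' * Wᵀ * p) = p := by
    have e : W + a * W * Th = W * (1 + Wᵀ * a * W * Th) := by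
      rw [mul_add, mul_one, ← mul_assoc, ← mul_assoc, ← mul_assoc, hW, one_mul]
    rw [e, mul_assoc g', mul_assoc W, ← mul_assoc _ g', hg', one_mul, ← mul_assoc, hW, one_mul]
  set X := g' * Wᵀ * p
  have h2 : g = 1 - g * a * Th := by
    rw [eq_sub_iff_add_eq, mul_assoc, ← hg, mul_add, mul_one]
  have h3 : g * p = g * W * X + g * a * W * Th * X := by
    conv_lhs => rw [← h1]
    noncomm_ring
  have h4 : g * W * X = W * X - g * a * Th * W * X := by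
    conv_lhs => rw [h2]
    noncomm_ring
  rw [h3, h4, hT]
  simp only [mul_add, add_mul, mul_sub, sub_mul, mul_smul_comm, smul_mul_assoc, mul_one, one_mul,
    neg_mul, mul_assoc]
  abel

/-- bounds at one point of the good set: `a = N - 1/w` and `p` rotate, `Vt` and `B` are fixed -/
structure Pt (a p Vt B g Hs Hi : Mat n) (Ph κ α β γ δ : ℝ) : Prop where
  hH : Hs * Hi = 1
  ph : fro (p * gᵀ * B * Hs) ≤ Ph
  hi : OpLe Hi κ
  gp : OpLe (g * p) α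
  qv : OpLe (Hi * (g * a) * Vt) β
  q : OpLe (Hi * (g * a)) γ
  vg : OpLe (Vt * (g * p)) δ

theorem half {a p Th Vt B W g g' Hs Hi : Mat n} {w Ph κ α β γ δ : ℝ} (hT : Th = Vt + w • 1)
    (hW : W * Wᵀ = 1) (hp : pᵀ = p) (hg : g * (1 + a * Th) = 1)
    (hg' : (1 + Wᵀ * a * W * Th) * g' = 1) (hκ : 0 ≤ κ) (hα : 0 ≤ α) (hβ : 0 ≤ β) (hγ : 0 ≤ γ)
    (hδ : 0 ≤ δ) (h : Pt a p Vt B g Hs Hi Ph κ α β γ δ)
    (h1 : OpLe (g' * Wᵀ * p) α) (h2 : OpLe (Vt * (g' * Wᵀ * p)) δ) :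
    |((g * p)ᵀ * B * (g' * Wᵀ * p - g * p)).trace| ≤
      Ph * ((κ * α + β * α + γ * δ) * fro (W - 1)) := by
  rw [incr hT hW hg hg']
  set X := g' * Wᵀ * p
  set Φ := p * gᵀ * B * Hs with hΦ
  have e : (g * p)ᵀ * B = Φ * Hi := by
    rw [hΦ, mul_assoc _ Hs, h.hH, mul_one, transpose_mul, hp]
  have e2 : Φ * Hi * (-((W - 1) * X) - -(g * a) * Vt * (W - 1) * X + -(g * a) * (W - 1) * (Vt * X))
      = -(Φ * (Hi * (W - 1) * X)) + Φ * (Hi * (g * a) * Vt * (W - 1) * X)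
        - Φ * (Hi * (g * a) * (W - 1) * (Vt * X)) := by noncomm_ring
  rw [e, e2, trace_sub, trace_add, trace_neg]
  have a1 := abs_trace_four (Φ := Φ) (E := W - 1) hκ hα h.hi h1
  have a2 := abs_trace_four (Φ := Φ) (E := W - 1) hβ hα h.qv h1
  have a3 := abs_trace_four (Φ := Φ) (E := W - 1) hγ hδ h.q h2
  have a4 : fro Φ * ((κ * α + β * α + γ * δ) * fro (W - 1)) ≤
      Ph * ((κ * α + β * α + γ * δ) * fro (W - 1)) :=
    mul_le_mul_of_nonneg_right h.ph (mul_nonneg (by positivity) (fro_nonneg _))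
  rw [abs_le] at a1 a2 a3 ⊢
  constructor <;> nlinarith [a1.1, a1.2, a2.1, a2.2, a3.1, a3.2]

theorem fr_rel (R : Mat n) (U V : OG n) :
    fr R V = (U.1ᵀ * V.1)ᵀ * fr R U * (U.1ᵀ * V.1) := by
  simp only [fr, transpose_mul, transpose_transpose, mul_assoc]
  rw [← mul_assoc U.1 U.1ᵀ V.1, OG.mul_transpose, one_mul, ← mul_assoc U.1 U.1ᵀ,
    OG.mul_transpose, one_mul]

theorem rel_orth (U V : OG n) : (U.1ᵀ * V.1) * (U.1ᵀ * V.1)ᵀ = 1 := by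
  have := OG.mul_transpose (U⁻¹ * V)
  rwa [OG.coe_mul, OG.coe_inv] at this

theorem fro_rel (U V : OG n) : fro (U.1ᵀ * V.1 - 1) = dO U V := by
  rw [dO_comm, ← dO_mul_left U⁻¹, inv_mul_cancel, dO, OG.coe_mul, OG.coe_inv, OG.coe_one]

/-- the observable `tr (Γ P Γᵀ B)` -/
noncomputable def ff (A P Th B : Mat n) (O : OG n) : ℝ :=
  (Ga A 0 Th O * fr P O * (Ga A 0 Th O)ᵀ * B).trace

/-- **F2**: two-end Lipschitz bound -/
theorem lip_ff {A P Th Vt B : Mat n} {w Ph κ α β γ δ : ℝ} {G : Set (OG n)} {Hs Hi : OG n → Mat n}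
    (hT : Th = Vt + w • 1) (hP : Pᵀ = P) (hPP : P * P = P) (hB : Bᵀ = B) (hκ : 0 ≤ κ) (hα : 0 ≤ α)
    (hβ : 0 ≤ β) (hγ : 0 ≤ γ) (hδ : 0 ≤ δ) (hu : ∀ O ∈ G, IsUnit (1 + fr A O * Th).det)
    (h : ∀ O ∈ G, Pt (fr A O) (fr P O) Vt B (Ga A 0 Th O) (Hs O) (Hi O) Ph κ α β γ δ) :
    LipO G (2 * Ph * (κ * α + β * α + γ * δ)) (ff A P Th B) := by
  have hp : ∀ O : OG n, (fr P O)ᵀ = fr P O := fun O => by rw [Wd.fr_transpose, hP]
  have hpp : ∀ O : OG n, fr P O * fr P O = fr P O := fun O => by rw [Wd.fr_mul, hPP]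
  have hG : ∀ O : OG n, Ga A 0 Th O = (1 + fr A O * Th)⁻¹ := fun O => by rw [Ga, add_zero]
  have eX : ∀ U V : OG n, Ga A 0 Th V * (U.1ᵀ * V.1)ᵀ * fr P U =
      Ga A 0 Th V * fr P V * (U.1ᵀ * V.1)ᵀ := fun U V => by
    rw [fr_rel P U V]
    simp only [mul_assoc]
    rw [← mul_assoc U.1ᵀ V.1, rel_orth, mul_one]
  have key : ∀ U ∈ G, ∀ V ∈ G, |((Ga A 0 Th U * fr P U)ᵀ * B *
      (Ga A 0 Th V * (U.1ᵀ * V.1)ᵀ * fr P U - Ga A 0 Th U * fr P U)).trace| ≤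
      Ph * ((κ * α + β * α + γ * δ) * dO U V) := by
    intro U hU V hV
    have o : OpLe (U.1ᵀ * V.1)ᵀ 1 := by
      have := op_orth (U⁻¹ * V)⁻¹
      rwa [OG.coe_inv, OG.coe_mul, OG.coe_inv] at this
    rw [← fro_rel]
    refine half hT (rel_orth U V) (hp U) ?_ ?_ hκ hα hβ hγ hδ (h U hU) ?_ ?_
    · rw [hG]; exact nonsing_inv_mul _ (hu U hU)
    · rw [← fr_rel, hG]; exact mul_nonsing_inv _ (hu V hV)
    · rw [eX]
      simpa only [mul_one] using (h V hV).gp.mulN o hα zero_le_one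
    · rw [eX, ← mul_assoc]
      simpa only [mul_one] using (h V hV).vg.mulN o hδ zero_le_one
  intro U hU V hV
  have k1 := key U hU V hV
  have k2 := key V hV U hU
  have sq : ∀ O : OG n, ((Ga A 0 Th O * fr P O)ᵀ * B * (Ga A 0 Th O * fr P O)).trace
      = ff A P Th B O := fun O => by
    rw [ff, trace_mul_cycle, transpose_mul, hp, ← mul_assoc, mul_assoc _ (fr P O) (fr P O), hpp]
  have cr : ((Ga A 0 Th V * fr P V)ᵀ * B * (Ga A 0 Th U * (V.1ᵀ * U.1)ᵀ * fr P V)).trace =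
      ((Ga A 0 Th U * fr P U)ᵀ * B * (Ga A 0 Th V * (U.1ᵀ * V.1)ᵀ * fr P U)).trace := by
    rw [eX, eX, ← trace_transpose]
    simp only [transpose_mul, transpose_transpose, hB, hp, mul_assoc]
    rw [trace_mul_comm V.1ᵀ]
    simp only [mul_assoc]
    rw [trace_mul_comm U.1]
    simp only [mul_assoc]
  rw [mul_sub, trace_sub, sq] at k1 k2
  rw [cr, dO_comm] at k2
  rw [abs_le] at k1 k2 ⊢
  constructor <;> nlinarith [k1.1, k1.2, k2.1, k2.2]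

/-- columnwise bound against a diagonal matrix -/
theorem fro_mul_diag {M : Mat n} {θ : ℝ} (hθ : 0 ≤ θ) (h : ∀ i, nv (M *ᵥ Pi.single i 1) ≤ θ)
    (d : Vec n) : fro (M * diagonal d) ≤ θ * nv d := by
  refine fro_le_of_sq (mul_nonneg hθ (nv_nonneg _)) ?_
  rw [Finset.sum_comm, mul_pow, nv_sq, F.sq, Finset.mul_sum]
  refine Finset.sum_le_sum fun j _ => ?_
  have h1 : F.sq (M *ᵥ Pi.single j 1) ≤ θ ^ 2 := by
    rw [← nv_sq]; exact pow_le_pow_left₀ (nv_nonneg _) (h j) 2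
  have e : ∑ i, (M * diagonal d) i j ^ 2 = F.sq (M *ᵥ Pi.single j 1) * d j ^ 2 := by
    rw [F.sq, Finset.sum_mul]
    refine Finset.sum_congr rfl fun i _ => ?_
    rw [mul_diagonal, mulVec_single_one, mul_pow]; rfl
  rw [e]
  exact mul_le_mul_of_nonneg_right h1 (sq_nonneg _)

/-- **F1**: the Frobenius norm `|P Γᵀ B H^(1/2)|` -/
theorem ph_le {p g G0 Vt Kt B R3 Hs Hi Ns Ni Pe : Mat n} {be : Vec n}
    {w a1 a2 a3 a4 a5 θ f1 f2 : ℝ} (hw : 0 < w) (hid : gᵀ * Vt * Kt = G0 - w • gᵀ)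
    (hpG : p * G0 * p = p * G0) (hH : Hi * Hs = 1) (hN : Ns * Ni = 1) (hB : B = diagonal be + R3)
    (h1 : 0 ≤ a1) (h2 : 0 ≤ a2) (h3 : 0 ≤ a3) (h4 : 0 ≤ a4) (h5 : 0 ≤ a5) (hθ : 0 ≤ θ)
    (o1 : OpLe (p * G0) a1) (o2 : OpLe (p * gᵀ * Vt * Kt * Hi) a2) (o3 : OpLe (p * gᵀ * Ns) a3)
    (o4 : OpLe (Hs * (1 - Pe)) a4) (o5 : OpLe (Ni * Vt * Kt) a5)
    (c : ∀ i, nv ((Ni * Vt * Kt) *ᵥ Pi.single i 1) ≤ θ)
    (b1 : fro (p * B * Hs) ≤ f1) (b2 : fro (Hs * B * Hs * Pe) ≤ f2) :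
    w * fro (p * gᵀ * B * Hs) ≤ a1 * f1 + a2 * f2 + a3 * a4 * (θ * nv be + a5 * fro R3) := by
  have e0 : w • gᵀ = G0 - gᵀ * Vt * Kt := by rw [hid, sub_sub_cancel]
  have e1 : w • (p * gᵀ * B * Hs) = p * G0 * (p * B * Hs)
      - p * gᵀ * Vt * Kt * Hi * (Hs * B * Hs * Pe)
      - p * gᵀ * Ns * (Ni * Vt * Kt * B) * (Hs * (1 - Pe)) := by
    have t1 : p * G0 * (p * B * Hs) = p * G0 * B * Hs := by
      rw [← mul_assoc, ← mul_assoc, hpG]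
    have t2 : p * gᵀ * Vt * Kt * Hi * (Hs * B * Hs * Pe) = p * gᵀ * Vt * Kt * B * Hs * Pe := by
      simp only [mul_assoc]
      rw [← mul_assoc Hi Hs, hH, one_mul]
    have t3 : p * gᵀ * Ns * (Ni * Vt * Kt * B) * (Hs * (1 - Pe)) =
        p * gᵀ * Vt * Kt * B * Hs * (1 - Pe) := by
      simp only [mul_assoc]
      rw [← mul_assoc Ns Ni, hN, one_mul]
    rw [t1, t2, t3, ← smul_mul_assoc, ← smul_mul_assoc, ← mul_smul_comm, e0]
    noncomm_ring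
  have t1 := (fro_mul_l h1 o1 (p * B * Hs)).trans (mul_le_mul_of_nonneg_left b1 h1)
  have t2 := (fro_mul_l h2 o2 (Hs * B * Hs * Pe)).trans (mul_le_mul_of_nonneg_left b2 h2)
  have t3 : fro (Ni * Vt * Kt * B) ≤ θ * nv be + a5 * fro R3 := by
    rw [hB, mul_add]
    exact (fro_add_le _ _).trans (add_le_add (fro_mul_diag hθ c be) (fro_mul_l h5 o5 R3))
  have t4 : fro (p * gᵀ * Ns * (Ni * Vt * Kt * B) * (Hs * (1 - Pe))) ≤
      a4 * (a3 * (θ * nv be + a5 * fro R3)) :=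
    (fro_mul_r h4 o4 _).trans (mul_le_mul_of_nonneg_left
      ((fro_mul_l h3 o3 _).trans (mul_le_mul_of_nonneg_left t3 h3)) h4)
  have t5 := fro_smul w (p * gᵀ * B * Hs)
  rw [abs_of_pos hw, e1] at t5
  have t6 := (fro_sub_le _ _).trans (add_le_add ((fro_sub_le _ _).trans (add_le_add t1 t2)) t4)
  rw [t5] at t6
  linarith

end Vale.Agent.N150.T2F
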