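import Vale.Agent.N150.T2F1
import Vale.Agent.N150.WardQ

/-! Block T2, part F: the bounds from weighted operator norms, and the concentration step. -/

namespace Vale.Agent.N150.T2F

open Matrix MeasureTheory Set
open Vale.Agent.P150 Vale.Agent.P150.F
open Vale.Agent.N150.Haar (fro fro_nonneg)
open Vale.Agent.N150.Wd (fr Ga Qm Xi)

variable {n : ℕ}

theorem op_proj {p : Mat n} (hp : pᵀ = p) (hpp : p * p = p) : OpLe p 1 := fun v => by
  have e : F.sq (p *ᵥ v) = ip v (p *ᵥ v) := by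
    have e1 : F.sq (p *ᵥ v) = (p *ᵥ v) ⬝ᵥ (p *ᵥ v) := by rw [← ipN_self]; rfl
    rw [e1, Matrix.dotProduct_mulVec, ← Matrix.mulVec_transpose, hp, Matrix.mulVec_mulVec, hpp,
      dotProduct_comm]
    rfl
  have h := (le_abs_self _).trans (abs_ip_le v (p *ᵥ v))
  rw [← e, ← nv_sq] at h
  rw [← nv_sq, ← nv_sq, one_pow, one_mul]
  nlinarith [nv_nonneg v, nv_nonneg (p *ᵥ v), sq_nonneg (nv v - nv (p *ᵥ v))]

/-- weighted operator norms at one point: `Hs = H^(1/2)`, `Hi = H^(-1/2)`, `‖Hs‖ ≤ u` -/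
structure Wt (p Vt g q Hs Hi : Mat n) (B u : ℝ) : Prop where
  one : 1 ≤ B
  u0 : 0 ≤ u
  ps : pᵀ = p
  pp : p * p = p
  his : Hiᵀ = Hi
  h1 : Hs * Hi = 1
  hs : OpLe Hs u
  hi : OpLe Hi B
  ga : OpLe (Hi * g * Hi) B
  qm : OpLe (Hi * q * Hi) B
  vt : OpLe (Hs * Vt * Hs) B

namespace Wt

variable {a p Vt g q Hs Hi Bh Kt : Mat n} {B u Ph : ℝ}

theorem h2 (h : Wt p Vt g q Hs Hi B u) : Hi * Hs = 1 := mul_eq_one_comm.1 h.h1

theorem b0 (h : Wt p Vt g q Hs Hi B u) : 0 ≤ B := zero_le_one.trans h.one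

theorem cl (h : Wt p Vt g q Hs Hi B u) (X : Mat n) : Hs * (Hi * X) = X := by
  rw [← mul_assoc, h.h1, one_mul]

theorem cr (h : Wt p Vt g q Hs Hi B u) (X : Mat n) : Hi * (Hs * X) = X := by
  rw [← mul_assoc, h.h2, one_mul]

theorem gaT (h : Wt p Vt g q Hs Hi B u) : OpLe (Hi * gᵀ * Hi) B := by
  have := opT h.b0 h.ga
  rwa [transpose_mul, transpose_mul, h.his, ← mul_assoc] at this

theorem hp (h : Wt p Vt g q Hs Hi B u) : OpLe (Hs * p) u := by
  simpa only [mul_one] using h.hs.mulN (op_proj h.ps h.pp) h.u0 zero_le_one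

theorem ph (h : Wt p Vt g q Hs Hi B u) : OpLe (p * Hs) u := by
  simpa only [one_mul] using (op_proj h.ps h.pp).mulN h.hs zero_le_one h.u0

theorem pt (h : Wt p Vt g (-(g * a)) Hs Hi B u) (hP : fro (p * gᵀ * Bh * Hs) ≤ Ph) :
    Pt a p Vt Bh g Hs Hi Ph B (u * B * u) (B * B * B) (B * u) (B * B * B * u) := by
  have b0 := h.b0
  have u0 := h.u0
  have q : OpLe (Hi * (g * a) * Hi) B := by
    have := opNeg h.qm
    rwa [mul_neg, neg_mul, neg_neg] at this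
  refine ⟨h.h1, hP, h.hi, ?_, ?_, ?_, ?_⟩
  · have := (h.hs.mulN h.ga u0 b0).mulN h.hp (by positivity) u0
    simpa only [mul_assoc, h.cl, h.cr] using this
  · have := (q.mulN h.vt b0 b0).mulN h.hi (by positivity) b0
    simpa only [mul_assoc, h.cl, h.cr, h.h1, mul_one] using this
  · have := q.mulN h.hs b0 u0
    simpa only [mul_assoc, h.h2, mul_one] using this
  · have := ((h.hi.mulN h.vt b0 b0).mulN h.ga (by positivity) b0).mulN h.hp (by positivity) u0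
    simpa only [mul_assoc, h.cl, h.cr] using this

/-- **F1** in weighted form -/
theorem ph_le (h : Wt p Vt g q Hs Hi B u) {G0 R3 Pe : Mat n} {be : Vec n} {w a1 a4 θ f1 f2 : ℝ}
    (hw : 0 < w) (hid : gᵀ * Vt * Kt = G0 - w • gᵀ) (hpG : p * G0 * p = p * G0)
    (hB : Bh = diagonal be + R3) (h1 : 0 ≤ a1) (h4 : 0 ≤ a4) (hθ : 0 ≤ θ) (o1 : OpLe (p * G0) a1)
    (o4 : OpLe (Hs * (1 - Pe)) a4) (kt : OpLe (Hi * Kt * Hi) B)
    (c : ∀ i, nv ((Hs * Vt * Kt) *ᵥ Pi.single i 1) ≤ θ) (b1 : fro (p * Bh * Hs) ≤ f1)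
    (b2 : fro (Hs * Bh * Hs * Pe) ≤ f2) :
    w * fro (p * gᵀ * Bh * Hs) ≤
      a1 * f1 + u * B ^ 3 * f2 + u * B * a4 * (θ * nv be + B ^ 2 * u * fro R3) := by
  have b0 := h.b0
  have u0 := h.u0
  refine T2F.ph_le hw hid hpG h.h2 h.h2 hB h1 (by positivity) (by positivity) h4 (by positivity) hθ
    o1 ?_ ?_ o4 ?_ c b1 b2
  · have := ((h.ph.mulN h.gaT u0 b0).mulN h.vt (by positivity) b0).mulN kt (by positivity) b0
    rw [show u * B ^ 3 = u * B * B * B by ring]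
    simpa only [mul_assoc, h.cl, h.cr] using this
  · have := h.ph.mulN h.gaT u0 b0
    simpa only [mul_assoc, h.cl, h.cr] using this
  · have := (h.vt.mulN kt b0 b0).mulN h.hs (by positivity) u0
    rw [show B ^ 2 * u = B * B * u by ring]
    simpa only [mul_assoc, h.cl, h.cr, h.h2, mul_one] using this

end Wt

/-- **F2** in weighted form -/
theorem lip_xi {A P Th Vt Bh : Mat n} {w Ph B u : ℝ} {G : Set (OG n)} {Hs Hi : OG n → Mat n}
    (hT : Th = Vt + w • 1) (hP : Pᵀ = P) (hPP : P * P = P) (hB : Bhᵀ = Bh) (hB1 : 1 ≤ B)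
    (hu : 0 ≤ u) (hPh : 0 ≤ Ph) (un : ∀ O ∈ G, IsUnit (1 + (fr A O + 0) * Th).det)
    (h : ∀ O ∈ G, Wt (fr P O) Vt (Ga A 0 Th O) (Qm A Th O) (Hs O) (Hi O) B u)
    (hp : ∀ O ∈ G, fro (fr P O * (Ga A 0 Th O)ᵀ * Bh * Hs O) ≤ Ph) :
    LipO G (6 * B ^ 4 * u ^ 2 * Ph) fun O => (Xi A Th P O * Bh).trace := by
  have b0 : 0 ≤ B := by linarith
  have h1 := lip_ff (A := A) (G := G) hT hP hPP hB b0 (show 0 ≤ u * B * u by positivity)
    (show 0 ≤ B * B * B by positivity) (show 0 ≤ B * u by positivity)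
    (show 0 ≤ B * B * B * u by positivity) (fun O hO => by simpa only [add_zero] using un O hO)
    (fun O hO => (h O hO).pt (hp O hO))
  intro U hU V hV
  refine (h1 U hU V hV).trans (mul_le_mul_of_nonneg_right ?_ (dO_nonneg _ _))
  have h2 : B ^ 2 ≤ B ^ 4 := pow_le_pow_right₀ hB1 (by norm_num)
  have h3 := mul_le_mul_of_nonneg_right h2 (show 0 ≤ u ^ 2 * Ph by positivity)
  nlinarith

/-- concentration around the mean over the good set -/
theorem conc_mean {μ : Measure (OG n)} [IsProbabilityMeasure μ] {c L M x : ℝ} (hc : Conc μ c)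
    (hc0 : 0 < c) {G : Set (OG n)} (hG : MeasurableSet G) (hL : 0 < L) (hM : 0 ≤ M) (hx : 0 ≤ x)
    {f : OG n → ℝ} (hf : LipO G L f) (hb : ∀ U ∈ G, |f U| ≤ M) :
    μ.real {U | U ∈ G ∧ L * √(x / c) + M * μ.real Gᶜ < |f U - ∫ V in G, f V ∂μ|} ≤
      2 * Real.exp (-x) := by
  obtain ⟨a, ha, h⟩ := hc.on_good_mean hG hL hM hf hb
  have h1 := h (L * √(x / c)) (by positivity)
  have e : c * (L * √(x / c)) ^ 2 / L ^ 2 = x := by
    rw [mul_pow, Real.sq_sqrt (by positivity)]; field_simp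
  rw [e] at h1
  refine le_trans (measureReal_mono fun U hU => ?_) h1
  refine And.intro hU.1 ?_
  have h2 := hU.2
  have h3 := abs_sub_le (f U) a (∫ V in G, f V ∂μ)
  linarith

end Vale.Agent.N150.T2F
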