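import Vale.Agent.N150.T2LFr

/-! T2, block L: sparse restrictions of the levels from `Fr` and `RL`. -/

open Matrix

namespace Vale.Agent.N150.T2LV

open Vale.Agent.P150 Vale.Agent.P150.F Vale.Agent.N150.Fib Vale.Agent.N150.Sp
  Vale.Agent.N150.T1 Vale.Agent.N150.Rip Vale.Agent.N150.T2 Vale.Agent.N150.T2L

variable {n : ℕ}

theorem step_li (g : Fin n → ℕ) (f : ℕ → ℝ) (j : ℕ) (O : OG n) :
    JO (fun a => f (g a)) O * JO (li g j) O = f j • JO (li g j) O := by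
  rw [JO_mul, JO_smul]
  congr 1
  funext a
  by_cases ha : g a = j <;> simp [li, ha]

theorem step_sum {g : Fin n → ℕ} {N : ℕ} (hg : ∀ a, g a < N) (f : ℕ → ℝ) (O : OG n) :
    JO (fun a => f (g a)) O = ∑ j ∈ Finset.range N, f j • JO (li g j) O := by
  rw [← Matrix.mul_one (JO _ O), ← sum_jo_li (fun a => Finset.mem_range.2 (hg a)) O,
    Finset.mul_sum]
  exact Finset.sum_congr rfl fun j _ => step_li g f j O

theorem opLe_lev {g : Fin n → ℕ} {N : ℕ} (hg : ∀ a, g a < N) {R : Mat n} {f ρ : ℕ → ℝ} {c : ℝ}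
    {O : OG n} (hρ : ∀ j, 0 ≤ ρ j) (hR : ∀ j < N, OpLe (R * JO (li g j) O) (ρ j))
    (hc : ∀ j < N, |f j| * ρ j ≤ c) : OpLe (R * JO (fun a => f (g a)) O) (N * c) := by
  refine opLe_of_nv fun v => ?_
  rw [step_sum hg, Finset.mul_sum, Matrix.sum_mulVec]
  refine (nv_sum_le _ _).trans ((Finset.sum_le_card_nsmul _ _ (c * nv v) fun j hj => ?_).trans
    (le_of_eq ?_))
  · have hj' := Finset.mem_range.1 hj
    rw [Matrix.mul_smul]
    exact (((hR j hj').smul (hρ j) (f j)).nv_le (mul_nonneg (abs_nonneg _) (hρ j)) v).trans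
      (mul_le_mul_of_nonneg_right (hc j hj') (nv_nonneg v))
  · rw [Finset.card_range, nsmul_eq_mul, mul_assoc]

/-- the label, cut at `144001` -/
def cut (D : Fd n) (a : Fin n) : ℕ := min (D.lab a) 144001

theorem cut_lt (D : Fd n) (a : Fin n) : cut D a < 144002 :=
  Nat.lt_succ_of_le (min_le_right _ _)

theorem Pl_eq (D : Fd n) (i : ℕ) (O : OG n) : D.Pl i O = T2.PL D.lab i O := rfl

theorem P_eq (D : Fd n) (O : OG n) : D.P O = D.Pl 144001 O := rfl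

theorem Pl_tr (D : Fd n) (i : ℕ) (O : OG n) : (D.Pl i O)ᵀ = D.Pl i O := JO_tr _ _

theorem Pl_mul_Pl (D : Fd n) {i j : ℕ} (h : i ≤ j) (O : OG n) :
    D.Pl i O * D.Pl j O = D.Pl j O := by
  unfold Fd.Pl
  rw [JO_mul]
  congr 1
  funext a
  unfold Fd.ind
  by_cases ha : j < D.lab a
  · rw [if_pos ha, if_pos (h.trans_lt ha), one_mul]
  · rw [if_neg ha, mul_zero]

theorem isProj_Pl (D : Fd n) (i : ℕ) (O : OG n) : IsProj (D.Pl i O) :=
  ⟨Pl_tr D i O, Pl_mul_Pl D le_rfl O⟩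

theorem Pl_mul_li (D : Fd n) {m : ℕ} (O : OG n) :
    D.Pl m O * JO (li (cut D) (m + 1)) O = JO (li (cut D) (m + 1)) O := by
  unfold Fd.Pl
  rw [JO_mul]
  congr 1
  funext a
  by_cases ha : cut D a = m + 1
  · have : m < D.lab a := by
      unfold cut at ha
      omega
    simp [li, Fd.ind, ha, this]
  · simp [li, ha]

section

variable {L t : ℝ} {D : Fd n} {O : OG n} (hs : Sm L t) (f : Fr t D)
include hs f

theorem fr_npos : (0 : ℝ) < n := (hs.i0 _).trans_le (big_n hs f.big)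

theorem fr_hv_pos (a : Fin n) : 0 < D.hv a := by
  have h1 : 0 < D.nu a := ((hs.p0 _).trans_le f.dlo).trans_le (f.nlo a)
  exact (pos_iff_pos_of_mul_pos (one_pos.trans_le (f.h1 a))).2 h1

theorem hv_le_cut (a : Fin n) : D.hv a ≤ t⁻¹ ^ (2 * cut D a) := by
  rw [inv_pow, ← one_div, le_div_iff₀ (hs.p0 _)]
  unfold cut
  by_cases ha : D.lab a ≤ 144000
  · rw [min_eq_left (by omega)]
    exact f.hi _ ha a le_rfl
  · rw [min_eq_right (by omega)]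
    exact (mul_le_mul_of_nonneg_left ((hs.pw (by norm_num)).trans f.dlo)
      (fr_hv_pos hs f a).le).trans (f.h3 a)

theorem hs_le_cut (a : Fin n) : √(D.hv a) ≤ t⁻¹ ^ cut D a := by
  rw [Real.sqrt_le_left (hs.i0 _).le, ← pow_mul, mul_comm]
  exact hv_le_cut hs f a

variable (r : RL t D.lab O)
include r

omit f hs in
theorem spread_Pl {i : ℕ} (hi : i ≤ 144000) {u : Vec n} (hu : D.Pl i O *ᵥ u = u) :
    Spread (t⁻¹ * F.sq u) (n * (t ^ (3 * i) * t⁻¹ ^ 3)) u := by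
  have h := r i hi u
  rwa [← Pl_eq, hu] at h

/-- `‖1_A P_i‖ ^ 2 ≤ t ^ (3 i - q - 3)` for `|A| ≤ n t ^ (432000 - q)` -/
theorem sq_res_Pl {i : ℕ} (hi : i ≤ 144000) {q p : ℕ} (hq : 2 ≤ q) (hp : p + q = 432000)
    {A : Finset (Fin n)} (hA : (A.card : ℝ) ≤ n * t ^ p) (v : Vec n) :
    F.sq ((res A * D.Pl i O) *ᵥ v) ≤ t ^ (3 * i) * t⁻¹ ^ (q + 3) * F.sq v := by
  have hn := fr_npos hs f
  have h1 := (r i hi v).sparse (mul_nonneg hs.inv0.le (sqN_nonneg _))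
    (k := n * t ^ 564000) (mul_pos hn (hs.p0 _)) (mul_le_of_le_one_right hn.le (hs.p1 _)) A
  rw [div_mul_eq_div_div, div_self hn.ne', one_div, Sm.log_p, ← Pl_eq] at h1
  have hl := hs.log0
  have h2 : 2 * ((564000 : ℕ) * Real.log t⁻¹ + 2) ≤ t⁻¹ := by
    have h3 := hs.clog (C := 1128000) (a := 0) (b := 1) (by norm_num) (by norm_num) (by norm_num)
    rw [← one_div, le_div_iff₀ hs.pos]
    refine le_trans (mul_le_mul_of_nonneg_right ?_ hs.pos.le) h3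
    rw [one_div]
    push_cast
    linarith
  have h3 : t ^ p ≤ t ^ (3 * i) * t⁻¹ ^ q := by
    rw [← hs.ip_eq q p, mul_comm]
    exact mul_le_mul_of_nonneg_right (hs.pw (by omega)) (hs.i0 q).le
  have h4 : t ^ 564000 ≤ t ^ p := hs.pw (by omega)
  obtain ⟨X, hX⟩ : ∃ X, X = n * (t ^ (3 * i) * t⁻¹ ^ q) := ⟨_, rfl⟩
  obtain ⟨l, hl'⟩ : ∃ l, l = (564000 : ℕ) * Real.log t⁻¹ + 2 := ⟨_, rfl⟩
  have hl0 : 0 ≤ l := by rw [hl']; positivity
  rw [← hl'] at h1 h2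
  have a1 : n * t ^ p ≤ X := hX ▸ mul_le_mul_of_nonneg_left h3 hn.le
  have a2 : n * t ^ 564000 ≤ X := (mul_le_mul_of_nonneg_left h4 hn.le).trans a1
  have a3 : 1 ≤ X := f.big.trans a2
  have a4 : l * ((A.card : ℝ) + 1) ≤ t⁻¹ * X := by
    calc l * ((A.card : ℝ) + 1) ≤ l * (2 * X) := mul_le_mul_of_nonneg_left (by linarith) hl0
      _ = 2 * l * X := by ring
      _ ≤ t⁻¹ * X := mul_le_mul_of_nonneg_right h2 (by linarith)
  have a5 : X ≤ t⁻¹ * X := le_mul_of_one_le_left (by linarith) hs.inv1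
  have a6 : n * (t ^ (3 * i) * t⁻¹ ^ 3) ≤ t⁻¹ * X := by
    have := mul_le_mul_of_nonneg_left (mul_le_mul_of_nonneg_left
      (hs.iw (a := 3) (b := q + 1) (by omega)) (hs.p0 (3 * i)).le) hn.le
    refine this.trans (le_of_eq ?_)
    rw [hX]
    ring
  have a7 : 3 * (t⁻¹ * X) ≤ t⁻¹ * (t⁻¹ * X) :=
    mul_le_mul_of_nonneg_right (hs.c_inv (by norm_num)) (by linarith)
  rw [← Matrix.mulVec_mulVec, sq_res]
  refine le_of_mul_le_mul_left (h1.trans ?_) hn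
  calc _ ≤ t⁻¹ * F.sq v * (t⁻¹ * (t⁻¹ * X)) :=
        mul_le_mul_of_nonneg_left (by linarith) (mul_nonneg hs.inv0.le (sqN_nonneg _))
    _ = _ := by rw [hX]; ring

theorem res_Pl {i : ℕ} (hi : i ≤ 144000) {A : Finset (Fin n)}
    (hA : (A.card : ℝ) ≤ n * t ^ 431990) :
    OpLe (res A * D.Pl i O) (t⁻¹ ^ 7 * (t ^ i * √(t ^ i))) := by
  intro v
  refine (sq_res_Pl hs f r hi (q := 10) (by norm_num) rfl hA v).trans
    (mul_le_mul_of_nonneg_right ?_ (sqN_nonneg _))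
  rw [mul_pow, mul_pow, Real.sq_sqrt (hs.p0 i).le, ← pow_mul, ← pow_mul, ← pow_add, mul_comm,
    show i * 2 + i = 3 * i by ring]
  exact mul_le_mul_of_nonneg_right (hs.iw (by norm_num)) (hs.p0 _).le

/-- for even `i = 2 j` -/
theorem res_Pl2 {j : ℕ} (hj : j ≤ 72000) {A : Finset (Fin n)}
    (hA : (A.card : ℝ) ≤ n * t ^ 431990) :
    OpLe (res A * D.Pl (2 * j) O) (t⁻¹ ^ 7 * t ^ (3 * j)) := by
  have h := res_Pl hs f r (i := 2 * j) (by omega) hA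
  rwa [hs.sqrt_p, ← pow_add, show 2 * j + j = 3 * j by ring] at h

theorem res_P {A : Finset (Fin n)} (hA : (A.card : ℝ) ≤ n * t ^ 431990) :
    OpLe (res A * D.P O) (t ^ 215993) := by
  have h1 := res_Pl2 hs f r (j := 72000) le_rfl hA
  have e : t⁻¹ ^ 7 * t ^ (3 * 72000) = t ^ 215993 := hs.ip_eq 7 215993
  rw [e] at h1
  have h2 := h1.mulN (Rip.opLe_proj (isProj_Pl D 144001 O)) (hs.p0 _).le zero_le_one
  rwa [mul_one, Matrix.mul_assoc, Pl_mul_Pl D (by norm_num)] at h2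

theorem res_li {m : ℕ} (hm : m ≤ 144000) {A : Finset (Fin n)}
    (hA : (A.card : ℝ) ≤ n * t ^ 431990) :
    OpLe (res A * JO (li (cut D) (m + 1)) O) (t⁻¹ ^ 7 * (t ^ m * √(t ^ m))) := by
  have h := (res_Pl hs f r hm hA).mulN (Rip.opLe_proj (isProj_li (cut D) (m + 1) O))
    (mul_nonneg (hs.i0 _).le (mul_nonneg (hs.p0 _).le (Real.sqrt_nonneg _))) zero_le_one
  rwa [mul_one, Matrix.mul_assoc, Pl_mul_li] at h

theorem res_step {A : Finset (Fin n)} (hA : (A.card : ℝ) ≤ n * t ^ 431990) {φ : ℕ → ℝ} {y : ℝ}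
    (hy : 0 ≤ y) (h0 : |φ 0| ≤ t⁻¹ ^ 8 * y)
    (h1 : ∀ m, |φ (m + 1)| * √(t ^ m) ≤ t⁻¹ ^ (m + 1) * y) :
    OpLe (res A * JO (fun a => φ (cut D a)) O) (t⁻¹ ^ 9 * y) := by
  have hc : 0 ≤ t⁻¹ ^ 8 * y := mul_nonneg (hs.i0 _).le hy
  refine (opLe_lev (cut_lt D) (f := φ)
    (ρ := fun j => if j = 0 then 1 else t⁻¹ ^ 7 * (t ^ (j - 1) * √(t ^ (j - 1))))
    (c := t⁻¹ ^ 8 * y) (fun j => ?_) (fun j hj => ?_) fun j _ => ?_).monoN
    (mul_nonneg (Nat.cast_nonneg _) hc) ?_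
  · split_ifs
    · exact zero_le_one
    · exact mul_nonneg (hs.i0 _).le (mul_nonneg (hs.p0 _).le (Real.sqrt_nonneg _))
  · rcases j with _ | m
    · simpa using (Rip.opLe_proj (isProj_res A)).mulN (Rip.opLe_proj (isProj_li (cut D) 0 O))
        zero_le_one zero_le_one
    · rw [if_neg m.succ_ne_zero, Nat.add_sub_cancel]
      exact res_li hs f r (by omega) hA
  · rcases j with _ | m
    · rwa [if_pos rfl, mul_one]
    · rw [if_neg m.succ_ne_zero, Nat.add_sub_cancel]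
      have e : t ^ m * t⁻¹ ^ (m + 1) = t⁻¹ ^ 1 := hs.pi_eq m 1
      calc _ = t⁻¹ ^ 7 * t ^ m * (|φ (m + 1)| * √(t ^ m)) := by ring
        _ ≤ t⁻¹ ^ 7 * t ^ m * (t⁻¹ ^ (m + 1) * y) :=
            mul_le_mul_of_nonneg_left (h1 m) (mul_pos (hs.i0 _) (hs.p0 _)).le
        _ = t⁻¹ ^ 7 * (t ^ m * t⁻¹ ^ (m + 1)) * y := by ring
        _ = _ := by rw [e, ← pow_add]
  · have h2 : ((144002 : ℕ) : ℝ) ≤ t⁻¹ := hs.c_inv (by norm_num)
    calc _ ≤ t⁻¹ * (t⁻¹ ^ 8 * y) := mul_le_mul_of_nonneg_right h2 hc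
      _ = _ := by ring

/-- (L1) `‖1_A H ^ (1/2)‖` -/
theorem res_Hs {A : Finset (Fin n)} (hA : (A.card : ℝ) ≤ n * t ^ 431990) :
    OpLe (res A * D.Hs O) (t⁻¹ ^ 9) := by
  have h := res_step hs f r hA (φ := fun j => t⁻¹ ^ j) (y := 1) zero_le_one
    (by simpa using hs.i1 8) fun m => by
      rw [abs_of_pos (hs.i0 _)]
      exact mul_le_mul_of_nonneg_left (Real.sqrt_le_one.2 (hs.p1 m)) (hs.i0 _).le
  have h2 := opLe_dom (u := fun a => √(D.hv a)) (c := 1) (by simpa using (hs.i0 9).le)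
    zero_le_one (fun a => by
      rw [abs_of_nonneg (Real.sqrt_nonneg _), abs_of_pos (hs.i0 _), one_mul]
      exact hs_le_cut hs f a) O h
  rwa [mul_one, mul_one] at h2

/-- (L1) `‖1_A H ^ (1/2) P_i‖` -/
theorem res_Hs_Pl {i : ℕ} (hi : i ≤ 144000) {A : Finset (Fin n)}
    (hA : (A.card : ℝ) ≤ n * t ^ 431990) :
    OpLe (res A * (D.Hs O * D.Pl i O)) (t⁻¹ ^ 9 * √(t ^ i)) := by
  have h := res_step hs f r hA (φ := fun j => if i < j then t⁻¹ ^ j else 0) (y := √(t ^ i))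
    (Real.sqrt_nonneg _)
    (by simpa using mul_nonneg (hs.i0 8).le (Real.sqrt_nonneg (t ^ i))) fun m => by
      split_ifs with hm
      · rw [abs_of_pos (hs.i0 _)]
        exact mul_le_mul_of_nonneg_left (Real.sqrt_le_sqrt (hs.pw (by omega))) (hs.i0 _).le
      · rw [abs_zero, zero_mul]
        exact mul_nonneg (hs.i0 _).le (Real.sqrt_nonneg _)
  have h2 := opLe_dom (u := fun a => √(D.hv a) * D.ind i a) (c := 1)
    (mul_nonneg (hs.i0 9).le (Real.sqrt_nonneg _)) zero_le_one (fun a => by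
      unfold Fd.ind
      by_cases ha : i < D.lab a
      · have hb : i < cut D a := by
          unfold cut
          omega
        rw [if_pos ha, if_pos hb, mul_one, abs_of_nonneg (Real.sqrt_nonneg _),
          abs_of_pos (hs.i0 _), one_mul]
        exact hs_le_cut hs f a
      · rw [if_neg ha, mul_zero, abs_zero, one_mul]
        exact abs_nonneg _) O h
  rwa [mul_one, ← JO_mul] at h2

theorem res_Hs_Pl2 {j : ℕ} (hj : j ≤ 72000) {A : Finset (Fin n)}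
    (hA : (A.card : ℝ) ≤ n * t ^ 431990) :
    OpLe (res A * (D.Hs O * D.Pl (2 * j) O)) (t⁻¹ ^ 9 * t ^ j) := by
  have h := res_Hs_Pl hs f r (i := 2 * j) (by omega) hA
  rwa [hs.sqrt_p] at h

omit r in
theorem card_single (i : Fin n) : ((({i} : Finset (Fin n)).card : ℕ) : ℝ) ≤ n * t ^ 431990 := by
  rw [Finset.card_singleton, Nat.cast_one]
  exact f.big.trans (mul_le_mul_of_nonneg_left (hs.pw (by norm_num)) (Nat.cast_nonneg _))

theorem col_Hs (k : Fin n) : nv (D.Hs O *ᵥ Pi.single k 1) ≤ t⁻¹ ^ 9 :=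
  col_le (hs.i0 _).le (by rw [Fd.Hs, JO_tr]; exact res_Hs hs f r (card_single hs f k))

theorem col_Hs_Pl2 {j : ℕ} (hj : j ≤ 72000) (k : Fin n) :
    nv ((D.Hs O * D.Pl (2 * j) O) *ᵥ Pi.single k 1) ≤ t⁻¹ ^ 9 * t ^ j := by
  refine col_le (mul_pos (hs.i0 _) (hs.p0 _)).le ?_
  rw [transpose_mul, Fd.Hs, Fd.Pl, JO_tr, JO_tr, JO_comm]
  exact res_Hs_Pl2 hs f r hj (card_single hs f k)

theorem col_Pl2 {j : ℕ} (hj : j ≤ 72000) (k : Fin n) :
    nv (D.Pl (2 * j) O *ᵥ Pi.single k 1) ≤ t⁻¹ ^ 7 * t ^ (3 * j) :=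
  col_le (mul_pos (hs.i0 _) (hs.p0 _)).le
    (by rw [Pl_tr]; exact res_Pl2 hs f r hj (card_single hs f k))

theorem col_P (k : Fin n) : nv (D.P O *ᵥ Pi.single k 1) ≤ t ^ 215993 :=
  col_le (hs.p0 _).le (by rw [P_eq, Pl_tr]; exact res_P hs f r (card_single hs f k))

/-- (L2) the clipping error on the range of `Pl i`, when `log n ≤ t⁻¹` -/
theorem clip_Pl (hl : Real.log n ≤ t⁻¹) {i : ℕ} (hi : i ≤ 144000) {u : Vec n}
    (hu : D.Pl i O *ᵥ u = u) (h1 : nv u = 1) :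
    nv (u - clip (t⁻¹ ^ 2 / √n) u) ≤ t⁻¹ ^ 3 * (t ^ i * √(t ^ i)) := by
  have hn := fr_npos hs f
  have h2 := spread_Pl r hi hu
  rw [← nv_sq, h1, one_pow, mul_one] at h2
  have i4 : (10 : ℝ) ≤ t⁻¹ := hs.c_inv (by norm_num)
  have h3 := T2B.sq_sub_clip h2 hs.inv0.le (Nat.cast_pos.1 hn) (lam := t⁻¹ ^ 2 / √n)
    (div_nonneg (hs.i0 _).le (Real.sqrt_nonneg _)) (by
      rw [div_pow, Real.sq_sqrt hn.le, mul_div_cancel₀ _ hn.ne']
      have b1 : 10 * t⁻¹ ≤ t⁻¹ ^ 2 := by nlinarith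
      have b2 : 2 * t⁻¹ * (Real.log n + 2) ≤ 2 * t⁻¹ * (2 * t⁻¹) :=
        mul_le_mul_of_nonneg_left (by linarith) (by linarith)
      nlinarith)
  have h4 : 1 ≤ n * t ^ (3 * i) :=
    f.big.trans (mul_le_mul_of_nonneg_left (hs.pw (by omega)) hn.le)
  refine nv_le_of_sq_le (mul_nonneg (hs.i0 _).le (mul_nonneg (hs.p0 _).le (Real.sqrt_nonneg _))) ?_
  rw [mul_pow, mul_pow, Real.sq_sqrt (hs.p0 i).le, ← pow_mul (t), ← pow_add,
    show i * 2 + i = 3 * i by ring]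
  refine le_of_mul_le_mul_left (h3.trans ?_) hn
  obtain ⟨X, hX⟩ : ∃ X, X = n * t ^ (3 * i) := ⟨_, rfl⟩
  obtain ⟨y, hy⟩ : ∃ y, y = t⁻¹ := ⟨_, rfl⟩
  have e1 : n * (t ^ (3 * i) * t⁻¹ ^ 3) = X * y ^ 3 := by rw [hX, hy]; ring
  have e2 : n * ((t⁻¹ ^ 3) ^ 2 * t ^ (3 * i)) = y ^ 3 * (X * y ^ 3) := by rw [hX, hy]; ring
  rw [e1, e2, ← hy]
  rw [← hX] at h4
  rw [← hy] at hl i4
  have a1 : y + 3 ≤ y ^ 3 := by nlinarith [mul_pos (by linarith : 0 < y) (by linarith : 0 < y)]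
  have a2 : y ^ 3 ≤ X * y ^ 3 := le_mul_of_one_le_left (by linarith) h4
  have a3 : 4 * y ≤ y ^ 3 := by nlinarith [mul_pos (by linarith : 0 < y) (by linarith : 0 < y)]
  calc _ ≤ 2 * y * (2 * (X * y ^ 3)) := mul_le_mul_of_nonneg_left (by linarith) (by linarith)
    _ = 4 * y * (X * y ^ 3) := by ring
    _ ≤ _ := mul_le_mul_of_nonneg_right a3 (by linarith)

end

end Vale.Agent.N150.T2LV
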