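import Vale.Agent.N150.T2LProg
import Vale.Agent.N150.D6b
import Vale.Agent.N150.T1Alg2

/-! T2, block L: the cube bound at a point and the convergence of the linear iteration. -/

open Matrix Filter Topology

namespace Vale.Agent.N150.T2L

open Vale.Agent.P150 Vale.Agent.P150.F Vale.Agent.N150.EC Vale.Agent.N150.Sp Vale.Agent.N150.T1
  Vale.Agent.N150.Cube Vale.Agent.N150.D6

variable {n : ℕ} {L t : ℝ} {S : Dat n} {O : OG n}

theorem th_eq (k : Pk L t S O) (h h' p : Vec n) :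
    Cube.Th (S.Nsq O) (S.Nis O) (AA (S.J O) (S.y O)) (MM (S.J O) h h' p) =
      S.Nsq O * TT (S.J O) (S.y O) h h' p * S.Nis O := by
  unfold Cube.Th TT
  rw [mul_sub, Matrix.nonsing_inv_mul _ k.uA, neg_sub]

/-- the bounds of `T` and of its cube near a reference point -/
theorem t3_near (k : Pk L t S O) {hc h : Vec n} (hW : StrW t S O hc) (hh : Near t S O hc h) :
    OpLe (S.Nsq O * TT (S.J O) (S.y O) h h 0 * S.Nis O) (t⁻¹ ^ 34) ∧
      OpLe (S.Nsq O * TT (S.J O) (S.y O) h h 0 ^ 3 * S.Nis O) (t ^ 3000) := by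
  have hs := k.sm
  have c := k.ctx hW (T := {h | Near t S O hc h}) fun h hh => hh.1
  have hd := k.dec hh.2 hh.2 k.zero_le_r
  have h1 := c.T_le (h := h) (h' := h) hh hh hd
  have h3 := c.T3_le (x := h) (y := h) (z := h) (u := h) hh hh hh hh hd hd hd
  rw [th_eq k] at h1 h3
  have i1 := k.i0 11
  refine ⟨h1.monoN (by positivity) ?_, ?_⟩
  · rw [← pow_mul]
    exact hs.mon3 (hs.c (by norm_num)) _ _ (by norm_num)
  · rw [conj_pow (Nis_Nsq hs k.adm O), pow_succ, pow_two]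
    have q : 1000 * (t⁻¹ ^ 88 * t ^ 3899) ≤ t ^ 3000 :=
      hs.mon1 (hs.c (by norm_num)) _ _ _ (by norm_num)
    have e : 1000 * (t⁻¹ ^ 11) ^ 8 * t ^ 3899 = 1000 * (t⁻¹ ^ 88 * t ^ 3899) := by ring
    rw [e] at h3
    exact h3.monoN (mul_nonneg (by norm_num) (mul_nonneg (k.i0 _) (k.p0 _))) q

theorem near_of_ball (k : Pk L t S O) (g : Good t S O) {h : Vec n}
    (hb : Ball t (S.J O) (S.y O) h) : Near t S O (S.hc t O) h := by
  refine ⟨?_, (k.out g).reg h hb⟩
  have h1 := nv_sub_triangle h (S.h O 3) (S.hc t O)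
  have h2 := g.base.clp.trans (k.sc (k.sm.pw (a := 252000) (b := 280000) (by norm_num)))
  have h3 : nv (h - S.h O 3) ≤ √n * t ^ 252000 := hb
  linarith only [h1, h2, h3]

theorem t3Stmt_of (h4 : D4Stmt) : T3Stmt := fun L hL =>
  (ev_pk T1A.d2Stmt h4 L hL).mono fun _ k n S O _ ha g hb =>
    (t3_near (k n S O ha) (strW_of_good (k n S O ha).sm g) (near_of_ball (k n S O ha) g hb)).2

theorem vStmt_of' (h4 : D4Stmt) : VStmt := vStmt_of (d6Stmt_of T1A.d2Stmt h4) (t3Stmt_of h4)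

end Vale.Agent.N150.T2L
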