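import Vale.Agent.N150.WardQ
import Vale.Agent.N150.Cube

/-! Block T2, part M1: pointwise bounds of the traces entering the first Ward identities. -/

namespace Vale.Agent.N150.T2M

open Matrix
open Vale.Agent.P150 Vale.Agent.P150.F
open Vale.Agent.N150.Haar (fro fro_nonneg fro_add_le fro_sub_le fro_neg fro_smul fro_transpose)

variable {n : ℕ} {B : ℝ}

theorem fro_op_mul {A : Mat n} {c : ℝ} (hA : OpLe A c) (hc : 0 ≤ c) (M : Mat n) :
    fro (A * M) ≤ c * fro M := by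
  have h (X : Mat n) : fro X ^ 2 = ∑ j, F.sq (fun i => X i j) := by
    rw [Haar.fro_sq', Finset.sum_comm]; rfl
  have h1 : fro (A * M) ^ 2 ≤ (c * fro M) ^ 2 := by
    rw [mul_pow, h, h, Finset.mul_sum]
    refine Finset.sum_le_sum fun j _ => ?_
    have e : (fun i => (A * M) i j) = A *ᵥ fun i => M i j := by
      funext i; simp [Matrix.mul_apply, Matrix.mulVec, dotProduct]
    rw [e]; exact hA _
  exact (sq_le_sq₀ (fro_nonneg _) (mul_nonneg hc (fro_nonneg _))).1 h1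

theorem fro_mul_op {A : Mat n} {c : ℝ} (hA : OpLe A c) (hc : 0 ≤ c) (M : Mat n) :
    fro (M * A) ≤ c * fro M := by
  rw [← fro_transpose, transpose_mul, ← fro_transpose M]
  exact fro_op_mul (Cube.opLe_tr hc hA) hc _

theorem abs_trace_mul (A M : Mat n) : |(A * M).trace| ≤ fro A * fro M := by
  have h1 : (A * M).trace = ∑ p : Fin n × Fin n, A p.1 p.2 * M p.2 p.1 := by
    rw [Fintype.sum_prod_type]; rfl
  have h2 : fro A ^ 2 = ∑ p : Fin n × Fin n, A p.1 p.2 ^ 2 := by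
    rw [Haar.fro_sq', Fintype.sum_prod_type]
  have h3 : fro M ^ 2 = ∑ p : Fin n × Fin n, M p.2 p.1 ^ 2 := by
    rw [Haar.fro_sq', Fintype.sum_prod_type, Finset.sum_comm]
  refine abs_le_of_sq_le_sq ?_ (mul_nonneg (fro_nonneg _) (fro_nonneg _))
  rw [mul_pow, h1, h2, h3]
  exact Finset.sum_mul_sq_le_sq_mul_sq _ _ _

theorem fro_one : fro (1 : Mat n) = √n := by
  have h := Haar.fro_orth (1 : OG n)
  rwa [OG.coe_one, Fintype.card_fin] at h

theorem fro_proj {P : Mat n} (hP : Pᵀ = P) (hPP : P * P = P) : fro P ^ 2 = P.trace := by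
  rw [Haar.fro_sq, Haar.ip_eq_trace, hP, hPP]

/-- `|x| ≤ B ^ p e` -/
def Sm (B : ℝ) (p : ℕ) (e x : ℝ) : Prop := 2 ≤ B ∧ 0 ≤ e ∧ |x| ≤ B ^ p * e
/-- operator norm at most `B ^ p e` -/
def Op (B : ℝ) (p : ℕ) (e : ℝ) (A : Mat n) : Prop := 2 ≤ B ∧ 0 ≤ e ∧ OpLe A (B ^ p * e)
/-- Frobenius norm at most `B ^ p e` -/
def Fr (B : ℝ) (p : ℕ) (e : ℝ) (A : Mat n) : Prop := 2 ≤ B ∧ 0 ≤ e ∧ fro A ≤ B ^ p * e

theorem pw_le (hB : 2 ≤ B) {p q : ℕ} (h : p ≤ q) : B ^ p ≤ B ^ q :=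
  pow_le_pow_right₀ (by linarith) h

theorem pw_add (hB : 2 ≤ B) (p q : ℕ) : B ^ p + B ^ q ≤ B ^ (max p q + 1) := by
  have h1 := pw_le hB (le_max_left p q)
  have h2 := pw_le hB (le_max_right p q)
  have h3 : 0 ≤ B ^ max p q := pow_nonneg (by linarith) _
  rw [pow_succ]; nlinarith

theorem pe_nn {e : ℝ} (hB : 2 ≤ B) (he : 0 ≤ e) (p : ℕ) : 0 ≤ B ^ p * e :=
  mul_nonneg (pow_nonneg (by linarith) _) he

theorem pe_le {e e' : ℝ} (hB : 2 ≤ B) (he : 0 ≤ e) {p q : ℕ} (h : p ≤ q) (h' : e ≤ e') :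
    B ^ p * e ≤ B ^ q * e' :=
  mul_le_mul (pw_le hB h) h' he (pow_nonneg (by linarith) _)

theorem pe_add {e : ℝ} (hB : 2 ≤ B) (he : 0 ≤ e) (p q : ℕ) :
    B ^ p * e + B ^ q * e ≤ B ^ (max p q + 1) * e := by
  rw [← add_mul]; exact mul_le_mul_of_nonneg_right (pw_add hB p q) he

theorem pe_mul (B e e' : ℝ) (p q : ℕ) : B ^ p * e * (B ^ q * e') = B ^ (p + q) * (e * e') := by
  ring

variable {p q : ℕ} {e e' x y : ℝ} {A M : Mat n}

namespace Sm

theorem up (h : Sm B p e x) (hpq : p ≤ q) (he : e ≤ e') : Sm B q e' x :=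
  ⟨h.1, h.2.1.trans he, h.2.2.trans (pe_le h.1 h.2.1 hpq he)⟩

theorem mono (h : Sm B p e x) (hpq : p ≤ q) : Sm B q e x := h.up hpq le_rfl

theorem le (h : Sm B p e x) (he : e ≤ e') : Sm B p e' x := h.up le_rfl he

theorem congr (h : Sm B p e x) (hx : x = y) : Sm B p e y := hx ▸ h

theorem neg (h : Sm B p e x) : Sm B p e (-x) := ⟨h.1, h.2.1, by rw [abs_neg]; exact h.2.2⟩

theorem add (h : Sm B p e x) (h' : Sm B q e y) : Sm B (max p q + 1) e (x + y) :=
  ⟨h.1, h.2.1, (abs_add_le _ _).trans ((add_le_add h.2.2 h'.2.2).trans (pe_add h.1 h.2.1 p q))⟩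

theorem sub (h : Sm B p e x) (h' : Sm B q e y) : Sm B (max p q + 1) e (x - y) := by
  rw [sub_eq_add_neg]; exact h.add h'.neg

theorem mul (h : Sm B p e x) (h' : Sm B q e' y) : Sm B (p + q) (e * e') (x * y) := by
  refine ⟨h.1, mul_nonneg h.2.1 h'.2.1, ?_⟩
  rw [abs_mul, ← pe_mul]
  exact mul_le_mul h.2.2 h'.2.2 (abs_nonneg _) (pe_nn h.1 h.2.1 p)

theorem smul {w : ℝ} (h : Sm B p e x) (hw : |w| ≤ 1) : Sm B p e (w * x) :=
  ⟨h.1, h.2.1, by rw [abs_mul]; nlinarith [h.2.2, abs_nonneg x, abs_nonneg w]⟩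

theorem div_of {b : ℝ} (h : Sm B p e (b * x)) (hb : 1 / 2 ≤ b) : Sm B (p + 1) e x := by
  refine ⟨h.1, h.2.1, ?_⟩
  have h1 := h.2.2
  rw [abs_mul, abs_of_pos (show 0 < b by linarith)] at h1
  have h0 := pe_nn h.1 h.2.1 p
  have h2 := abs_nonneg x
  have h3 := h.1
  rw [pow_succ]; nlinarith

end Sm

namespace Op

theorem nn (h : Op B p e A) : 0 ≤ B ^ p * e := pe_nn h.1 h.2.1 p

theorem up (h : Op B p e A) (hpq : p ≤ q) (he : e ≤ e') : Op B q e' A :=
  ⟨h.1, h.2.1.trans he, h.2.2.monoN h.nn (pe_le h.1 h.2.1 hpq he)⟩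

theorem congr (h : Op B p e A) (hx : A = M) : Op B p e M := hx ▸ h

theorem of_le (hB : 2 ≤ B) (h : OpLe A B) : Op B 1 1 A := ⟨hB, zero_le_one, by simpa using h⟩

theorem of_one (hB : 2 ≤ B) (h : OpLe A 1) : Op B 0 1 A := ⟨hB, zero_le_one, by simpa using h⟩

theorem mul (h : Op B p e A) (h' : Op B q e' M) : Op B (p + q) (e * e') (A * M) :=
  ⟨h.1, mul_nonneg h.2.1 h'.2.1, by rw [← pe_mul]; exact h.2.2.mulN h'.2.2 h.nn h'.nn⟩

theorem mul1 (h : Op B p e A) (h' : Op B q 1 M) : Op B (p + q) e (A * M) :=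
  (h.mul h').up le_rfl (mul_one e).le

theorem tr (h : Op B p e A) : Op B p e Aᵀ := ⟨h.1, h.2.1, Cube.opLe_tr h.nn h.2.2⟩

theorem add (h : Op B p e A) (h' : Op B q e M) : Op B (max p q + 1) e (A + M) :=
  ⟨h.1, h.2.1, (h.2.2.add h'.2.2 h.nn h'.nn).monoN (add_nonneg h.nn h'.nn) (pe_add h.1 h.2.1 p q)⟩

theorem smul {w : ℝ} (h : Op B p e A) (hw : |w| ≤ 1) : Op B p e (w • A) :=
  ⟨h.1, h.2.1, (h.2.2.smul h.nn w).monoN (mul_nonneg (abs_nonneg _) h.nn)
    (mul_le_of_le_one_left h.nn hw)⟩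

theorem trace (h : Op B p e A) : Sm B p (n * e) A.trace := by
  refine ⟨h.1, mul_nonneg (Nat.cast_nonneg n) h.2.1, ?_⟩
  have h1 := abs_trace_mul (1 : Mat n) (A * 1)
  have h2 := fro_op_mul h.2.2 h.nn 1
  rw [fro_one] at h1 h2
  rw [one_mul, mul_one] at h1
  have h3 : √(n : ℝ) * √n = n := Real.mul_self_sqrt (Nat.cast_nonneg n)
  rw [mul_one] at h2
  calc _ ≤ √n * (B ^ p * e * √n) := h1.trans (mul_le_mul_of_nonneg_left h2 (Real.sqrt_nonneg _))
    _ = B ^ p * (√n * √n * e) := by ring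
    _ = _ := by rw [h3]

/-- finite rank terms -/
theorem rank {E : Mat n} {r : ℝ} (h : Op B p e A) (hE : Eᵀ = E) (hEE : E * E = E)
    (hr : E.trace ≤ r) : Sm B p (r * e) (A * E).trace := by
  have h0 := fro_proj hE hEE
  have hr0 : 0 ≤ r := (h0 ▸ sq_nonneg (fro E)).trans hr
  refine ⟨h.1, mul_nonneg hr0 h.2.1, ?_⟩
  have h1 := abs_trace_mul E (A * E)
  rw [trace_mul_comm, mul_assoc, hEE] at h1
  have h2 := mul_le_mul_of_nonneg_left (fro_op_mul h.2.2 h.nn E) (fro_nonneg E)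
  have h3 := mul_le_mul_of_nonneg_left hr h.nn
  calc _ ≤ fro E * (B ^ p * e * fro E) := h1.trans h2
    _ = B ^ p * e * fro E ^ 2 := by ring
    _ ≤ B ^ p * e * r := by rw [h0]; exact h3
    _ = _ := by ring

end Op

namespace Fr

theorem nn (h : Fr B p e A) : 0 ≤ B ^ p * e := pe_nn h.1 h.2.1 p

theorem tr (h : Fr B p e A) : Fr B p e Aᵀ := ⟨h.1, h.2.1, by rw [fro_transpose]; exact h.2.2⟩

theorem congr (h : Fr B p e A) (hx : A = M) : Fr B p e M := hx ▸ h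

theorem opl (h : Op B p 1 A) (h' : Fr B q e M) : Fr B (p + q) e (A * M) := by
  refine ⟨h.1, h'.2.1, (fro_op_mul h.2.2 h.nn M).trans ?_⟩
  rw [pow_add, mul_assoc (B ^ p) (B ^ q), ← mul_one (B ^ p), mul_assoc (B ^ p) 1 1, one_mul]
  exact mul_le_mul_of_nonneg_left h'.2.2 h.nn

theorem opr (h' : Fr B q e M) (h : Op B p 1 A) : Fr B (q + p) e (M * A) := by
  have := (opl h.tr h'.tr).tr
  rwa [transpose_mul, transpose_transpose, transpose_transpose, add_comm] at this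

theorem trm (h : Fr B p e A) (h' : Fr B q e' M) : Sm B (p + q) (e * e') (A * M).trace := by
  refine ⟨h.1, mul_nonneg h.2.1 h'.2.1, (abs_trace_mul A M).trans ?_⟩
  rw [← pe_mul]
  exact mul_le_mul h.2.2 h'.2.2 (fro_nonneg _) h.nn

end Fr

/-- data at one good point: `S = H ^ (1/2)`, `Si = H ^ (-1/2)`, `v = s ^ (-1/4)` -/
structure Pt (B v r θ w : ℝ) (P S Si K V g Q : Mat n) : Prop where
  hB : 2 ≤ B
  hv : 1 ≤ v
  hr : 1 ≤ r
  rθ : r * v ^ 4 ≤ θ * n
  vθ : 1 ≤ θ * v ^ 2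
  w1 : 1 / 2 ≤ w
  w2 : w ≤ 1
  hP : Pᵀ = P
  hPP : P * P = P
  cor : (1 - P).trace ≤ r
  sS : Sᵀ = S
  inv : S * Si = 1
  com : P * S = S * P
  sK : Kᵀ = K
  sV : Vᵀ = V
  sQ : Qᵀ = Q
  ga : g = 1 + Q * (V + w • 1)
  a1 : gᵀ * V * K = w • (1 - K - gᵀ)
  a2 : w • Q = -K - Q * V * K
  trK : K.trace = 0
  oS : OpLe S (B * v ^ 2)
  oSi : OpLe Si B
  oG : OpLe (Si * g * Si) B
  oQ : OpLe (Si * Q * Si) B
  oV : OpLe (S * V * S) B
  oK : OpLe (Si * K * Si) B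
  fS : fro S ≤ B * √n
  fSS : fro (S * S) ≤ B * (√n * v)
  fSV : v ^ 2 * fro (S * V) ≤ B * √n
  trV : |V.trace| ≤ B * r
  spl : ∃ Z Y : Mat n, S * S = Z * Zᵀ + Y ∧ fro Z ^ 2 ≤ θ * n ∧ OpLe Y (θ * v ^ 2)

namespace Pt

variable {v r θ w : ℝ} {P S Si K V g Q : Mat n} (h : Pt B v r θ w P S Si K V g Q)
include h

theorem v0 : 0 < v := by linarith [h.hv]
theorem r0 : 0 ≤ r := by linarith [h.hr]
theorem θ0 : 0 < θ := by
  by_contra h1
  nlinarith [h.vθ, sq_nonneg v, not_lt.1 h1]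
theorem wabs : |w| ≤ 1 := abs_le.2 ⟨by linarith [h.w1], h.w2⟩
theorem inv' : Si * S = 1 := mul_eq_one_comm.1 h.inv
theorem c1 (X : Mat n) : S * (Si * X) = X := by rw [← mul_assoc, h.inv, one_mul]
theorem c2 (X : Mat n) : Si * (S * X) = X := by rw [← mul_assoc, h.inv', one_mul]
theorem c3 (X : Mat n) : P * (S * X) = S * (P * X) := by rw [← mul_assoc, h.com, mul_assoc]
theorem comi : P * Si = Si * P := by
  calc P * Si = Si * (S * P) * Si := by rw [h.c2]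
    _ = Si * P := by rw [← h.com, mul_assoc, mul_assoc, h.inv, mul_one]
theorem c4 (X : Mat n) : P * (Si * X) = Si * (P * X) := by rw [← mul_assoc, h.comi, mul_assoc]
theorem sSi : Siᵀ = Si := by
  have h1 := congrArg transpose h.inv
  rw [transpose_mul, h.sS, transpose_one] at h1
  calc Siᵀ = Siᵀ * (S * Si) := by rw [h.inv, mul_one]
    _ = Si := by rw [← mul_assoc, h1, one_mul]
theorem hat (M : Mat n) : S * (Si * M * Si) * S = M := by
  simp only [mul_assoc, h.c1, h.inv', mul_one]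
theorem hat' (M : Mat n) : Si * (S * M * S) * Si = M := by
  simp only [mul_assoc, h.c2, h.inv, mul_one]
theorem E1 : (1 - P)ᵀ = 1 - P := by rw [transpose_sub, transpose_one, h.hP]
theorem E2 : (1 - P) * (1 - P) = 1 - P := by rw [mul_sub, sub_mul, sub_mul, h.hPP]; simp
theorem comE : S * (1 - P) * Si = 1 - P := by
  rw [mul_sub, mul_one, ← h.com, sub_mul, h.inv, mul_assoc, h.inv, mul_one]
theorem comE' : Si * (1 - P) * S = 1 - P := by
  rw [mul_sub, mul_one, ← h.comi, sub_mul, h.inv', mul_assoc, h.inv', mul_one]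

theorem OP : Op B 0 1 P := .of_one h.hB (Cube.opLe_proj h.hP h.hPP)
theorem O1 : Op B 0 1 (1 : Mat n) := .of_one h.hB opLe_one
theorem OS : Op B 1 (v ^ 2) S := ⟨h.hB, sq_nonneg v, by rw [pow_one]; exact h.oS⟩
theorem OSi : Op B 1 1 Si := .of_le h.hB h.oSi
theorem Og : Op B 1 1 (Si * g * Si) := .of_le h.hB h.oG
theorem Oq : Op B 1 1 (Si * Q * Si) := .of_le h.hB h.oQ
theorem Ou : Op B 1 1 (S * V * S) := .of_le h.hB h.oV
theorem Ok : Op B 1 1 (Si * K * Si) := .of_le h.hB h.oK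
theorem FS : Fr B 1 √n S := ⟨h.hB, Real.sqrt_nonneg _, by rw [pow_one]; exact h.fS⟩
theorem FSS : Fr B 1 (√n * v) (S * S) :=
  ⟨h.hB, mul_nonneg (Real.sqrt_nonneg _) h.v0.le, by rw [pow_one]; exact h.fSS⟩
theorem FSV : Fr B 1 (√n / v ^ 2) (S * V) :=
  ⟨h.hB, by positivity, by
    rw [pow_one, ← mul_div_assoc, le_div_iff₀ (pow_pos h.v0 2), mul_comm]; exact h.fSV⟩
theorem FV : Fr B 2 (√n / v ^ 2) V := (Fr.opl h.OSi h.FSV).congr (h.c2 V)
theorem FVS : Fr B 1 (√n / v ^ 2) (V * S) := h.FSV.tr.congr (by rw [transpose_mul, h.sV, h.sS])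
theorem OV : Op B 3 1 V := ((h.OSi.mul1 h.Ou).mul1 h.OSi).congr (h.hat' V)
theorem OT : Op B 4 1 (V + w • 1) := h.OV.add (h.O1.smul h.wabs)
theorem OQ : Op B 3 (v ^ 4) Q :=
  (((h.OS.mul1 h.Oq).mul h.OS).up le_rfl (le_of_eq (by ring))).congr (h.hat Q)
theorem OG : Op B 3 (v ^ 4) g :=
  (((h.OS.mul1 h.Og).mul h.OS).up le_rfl (le_of_eq (by ring))).congr (h.hat g)
theorem rk {A : Mat n} (hA : Op B p e A) : Sm B p (r * e) (A * (1 - P)).trace :=
  hA.rank h.E1 h.E2 h.cor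
theorem rk1 {A : Mat n} (hA : Op B p 1 A) : Sm B p r (A * (1 - P)).trace :=
  (h.rk hA).le (mul_one r).le

/-- the weights `V`, `Th V`, `Th Th V` are bounded after conjugation by `S` -/
theorem O2 : Op B 5 1 (S * ((V + w • 1) * V) * S) := by
  refine ((((h.Ou.mul1 h.OSi).mul1 h.OSi).mul1 h.Ou).add (h.Ou.smul h.wabs)).congr ?_
  simp only [add_mul, mul_add, Matrix.smul_mul, Matrix.mul_smul, one_mul, mul_assoc, h.c1, h.c2]

theorem O3 : Op B 9 1 (S * ((V + w • 1) * ((V + w • 1) * V)) * S) := by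
  refine (((((h.Ou.mul1 h.OSi).mul1 h.OT).mul1 h.OSi).mul1 h.Ou).add (h.O2.smul h.wabs)).congr ?_
  generalize hT : V + w • (1 : Mat n) = T
  conv_rhs => rw [← hT, add_mul, hT]
  simp only [add_mul, mul_add, Matrix.smul_mul, Matrix.mul_smul, one_mul, mul_assoc, h.c1, h.c2]

omit h in
theorem sqn : √(n : ℝ) * √n = n := Real.mul_self_sqrt (Nat.cast_nonneg n)

theorem trS {X : Mat n} (hX : Op B p 1 X) : Sm B (p + 2) n (S * X * S).trace :=
  ((h.FS.opr hX).trm h.FS).up (by omega) sqn.le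

theorem trSS {X Y : Mat n} (hX : Op B p 1 X) (hY : Op B q 1 Y) :
    Sm B (p + q + 2) (n * v ^ 2) (S * S * X * (S * S * Y)).trace :=
  ((h.FSS.opr hX).trm (h.FSS.opr hY)).up (by omega) (le_of_eq (by
    linear_combination v ^ 2 * sqn))

section Weight

variable {T : Mat n} (hT : Op B p 1 (S * T * S))
include hT

theorem nt3 : Sm B (p + 4) n (P * (T * Q)ᵀ * P * gᵀ).trace := by
  refine ((h.trS ((((h.OP.mul1 h.Oq).mul1 hT.tr).mul1 h.OP).mul1 h.Og.tr)).mono (by omega)).congr ?_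
  simp only [transpose_mul, h.sS, h.sSi, h.sQ, mul_assoc, h.c1, h.c2, h.c4, h.inv', mul_one]

theorem nt4 : Sm B (p + 4) n (P * (T * g)ᵀ * P * Q).trace := by
  refine ((h.trS ((((h.OP.mul1 h.Og.tr).mul1 hT.tr).mul1 h.OP).mul1 h.Oq)).mono (by omega)).congr ?_
  simp only [transpose_mul, h.sS, h.sSi, mul_assoc, h.c1, h.c2, h.c4, h.inv', mul_one]

theorem aT : Sm B (p + 1) n (T * Q * P).trace := by
  refine ((((hT.mul1 h.Oq).mul1 h.OP).trace).le (mul_one _).le).congr ?_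
  simp only [mul_assoc, h.c1]
  rw [trace_mul_comm]
  simp only [mul_assoc, h.com, h.c2]

theorem frT : Sm B (p + 1) r (T * Q * (1 - P)).trace := by
  refine (h.rk1 (hT.mul1 h.Oq)).congr ?_
  conv_rhs => rw [← h.comE']
  simp only [mul_assoc, h.c1]
  rw [trace_mul_comm]
  simp only [mul_assoc]

end Weight

theorem gT {T : Mat n} (hT : Fr B p e (T * S)) : Sm B (p + 2) (e * √n) (T * g * P).trace := by
  refine (((hT.opr h.Og).trm (h.FS.opr h.OP)).mono (by omega)).congr ?_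
  simp only [mul_assoc, h.c1, h.c2]

theorem iθ : 1 / v ^ 2 ≤ θ := by rw [div_le_iff₀ (pow_pos h.v0 2)]; exact h.vθ
theorem nv2 : n / v ^ 2 ≤ θ * n := by
  rw [div_eq_mul_one_div, mul_comm]; exact mul_le_mul_of_nonneg_right h.iθ (Nat.cast_nonneg n)
omit h in
theorem sqv : √(n : ℝ) / v ^ 2 * √n = n / v ^ 2 := by rw [div_mul_eq_mul_div, sqn]
omit h in
theorem trE (P X : Mat n) : (P * X).trace = X.trace - (X * (1 - P)).trace := by
  rw [mul_sub, mul_one, trace_sub, sub_sub_cancel, trace_mul_comm]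
omit h in
theorem trE' (P X : Mat n) : (X * P).trace = X.trace - (X * (1 - P)).trace := by
  rw [← trE, trace_mul_comm]

theorem trg : Sm B 6 (θ * n) (g.trace - n) := by
  obtain ⟨Z, Y, e, hZ, hY⟩ := h.spl
  have t0 := mul_nonneg h.θ0.le (Nat.cast_nonneg n)
  have fZ : Fr B 0 √(θ * n) Z := ⟨h.hB, Real.sqrt_nonneg _, by
    rw [pow_zero, one_mul]; exact Real.le_sqrt_of_sq_le hZ⟩
  have oY : Op B 0 (θ * v ^ 2) Y := ⟨h.hB, mul_nonneg h.θ0.le (sq_nonneg v), by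
    rwa [pow_zero, one_mul]⟩
  have a1 := ((Fr.opl ((h.Og.tr.mul1 h.Ou).mul1 h.Ok) fZ).trm fZ.tr).le
    (Real.mul_self_sqrt t0).le
  have fY : Fr B 2 (θ * v ^ 2 * √n) (S * (Si * K * Si) * Y) := by
    refine ⟨h.hB, mul_nonneg oY.2.1 (Real.sqrt_nonneg _), ?_⟩
    refine (fro_mul_op oY.2.2 oY.nn _).trans ?_
    have := mul_le_mul_of_nonneg_left (h.FS.opr h.Ok).2.2 oY.nn
    refine this.trans (le_of_eq ?_)
    ring
  have a2 := ((Fr.opl h.Og.tr h.FSV).trm fY).le (e' := θ * n) (le_of_eq (by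
    have := h.v0
    field_simp
    rw [Real.sq_sqrt (Nat.cast_nonneg n), mul_comm]))
  have a3 : Sm B 5 (θ * n) (w * (n - g.trace)) := by
    refine (a1.add a2).congr ?_
    have e1 := congrArg trace h.a1
    rw [trace_smul, trace_sub, trace_sub, h.trK, trace_one, trace_transpose, Fintype.card_fin,
      sub_zero, smul_eq_mul] at e1
    have e2 : ((Si * g * Si)ᵀ * (S * V * S) * (Si * K * Si) * (S * S)).trace = (gᵀ * V * K).trace := by
      simp only [transpose_mul, h.sSi, mul_assoc, h.c1, h.c2]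
      rw [trace_mul_comm]
      simp only [mul_assoc, h.inv, mul_one]
    rw [← e1, ← e2, e, mul_add, trace_add]
    simp only [mul_assoc]
  exact ((a3.div_of h.w1).neg).congr (by ring)

theorem trQV : Sm B 3 (n / v ^ 2) (Q * V).trace := by
  refine (((Fr.opl h.Oq h.FSV).trm h.FS).le sqv.le).congr ?_
  simp only [mul_assoc, h.c2]
  rw [trace_mul_comm]
  simp only [mul_assoc, h.inv, mul_one]

theorem trQ : Sm B 8 (θ * n) Q.trace := by
  refine Sm.div_of (b := w) ((h.trg.sub (h.trQV.le h.nv2)).congr ?_) h.w1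
  rw [h.ga, trace_add, trace_one, mul_add, trace_add, Matrix.mul_smul, mul_one, trace_smul,
    Fintype.card_fin, smul_eq_mul]
  ring

theorem ga1 : Sm B 7 (θ * n) ((P * g).trace - n) :=
  (h.trg.sub ((h.rk h.OG).le h.rθ)).congr (by rw [trE P]; ring)

theorem ka1 : Sm B 9 (θ * n) (P * Q).trace :=
  (h.trQ.sub ((h.rk h.OQ).le h.rθ)).congr (trE P Q).symm

theorem N1 : Sm B 6 (n * v ^ 2) (P * (K * Q)ᵀ * P * (V * g)).trace := by
  refine (h.trSS (h.OP.mul1 h.Oq) (((h.Ok.mul1 h.OP).mul1 h.Ou).mul1 h.Og)).congr ?_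
  simp only [transpose_mul, h.sK, h.sQ, mul_assoc, h.c1, h.c2, h.c3, h.c4]
  rw [trace_mul_comm]
  simp only [mul_assoc, h.inv', mul_one]

theorem N2 : Sm B 6 (n * v ^ 2) (P * (K * Q * V)ᵀ * P * g).trace := by
  refine (h.trSS (h.Ok.mul1 h.OP) (((h.Og.mul1 h.OP).mul1 h.Ou).mul1 h.Oq)).congr ?_
  simp only [transpose_mul, h.sK, h.sQ, h.sV, mul_assoc, h.c1, h.c2, h.c3]
  rw [trace_mul_comm]
  simp only [mul_assoc, h.inv', mul_one]
  rw [← mul_assoc K, ← mul_assoc (K * P), trace_mul_comm]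
  simp only [mul_assoc]

theorem kq : Sm B 4 (n * v ^ 2) (K * Q * P).trace := by
  refine (h.trSS h.Ok (h.Oq.mul1 h.OP)).congr ?_
  simp only [mul_assoc, h.c1, h.c2]
  rw [trace_mul_comm]
  simp only [mul_assoc, h.com, h.c2]

theorem rho : Sm B 6 (r * v ^ 4) ((K * Q * V * P).trace + w * (P * Q).trace) := by
  have a1 : Sm B 5 (r * v ^ 4) (K * Q * V * (1 - P)).trace := by
    refine ((h.rk ((((h.Ok.mul h.OS).mul h.OS).mul1 h.Oq).mul1 h.Ou)).le
      (le_of_eq (by ring))).congr ?_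
    conv_rhs => rw [← h.comE]
    simp only [mul_assoc, h.c1, h.c2]
    rw [trace_mul_comm]
    simp only [mul_assoc]
  refine (a1.neg.sub ((h.rk h.OQ).smul h.wabs)).congr ?_
  have e := congrArg trace h.a2
  rw [trace_smul, trace_sub, trace_neg, h.trK, trace_mul_cycle, smul_eq_mul] at e
  rw [trE P, trE' P]
  linarith

theorem OSV : Op B 2 1 (S * V) :=
  (h.Ou.mul1 h.OSi).congr (by simp only [mul_assoc, h.inv, mul_one])
theorem OVS : Op B 2 1 (V * S) := (h.OSi.mul1 h.Ou).congr (by simp only [mul_assoc, h.c2])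
theorem trPV : Sm B 4 r (V * P).trace := by
  have a : Sm B 1 r V.trace := ⟨h.hB, h.r0, by rw [pow_one]; exact h.trV⟩
  exact (a.sub (h.rk1 h.OV)).congr (trE' P V).symm

/-- moving the last `Th` around the trace -/
theorem cyc {T : Mat n} (hT : Op B p 1 (S * T * S)) :
    Sm B (p + 7) r (((V + w • 1) * T * Q * (1 - P)).trace - (T * Q * (V + w • 1) * (1 - P)).trace) := by
  have a1 : Sm B (p + 5) r (V * T * Q * (1 - P)).trace :=
    h.frT (((h.OSV.mul1 (h.OSi.mul1 hT))).congr (by simp only [mul_assoc, h.c2]) |>.up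
      (by omega : 2 + (1 + p) ≤ p + 4) le_rfl)
  have a2 : Sm B (p + 5) r (T * Q * V * (1 - P)).trace :=
    (h.rk1 ((((h.OSi.mul1 hT).mul1 h.Oq).mul1 h.OSV).congr
      (by simp only [mul_assoc, h.c1, h.c2]))).mono (by omega)
  refine ((a1.sub a2).mono (by omega)).congr ?_
  simp only [add_mul, mul_add, Matrix.smul_mul, Matrix.mul_smul, one_mul, mul_one, trace_add]
  ring

theorem gsub {T : Mat n} (hT : Op B p 1 (S * T * S)) :
    Sm B (p + 7) r ((T * g * P).trace - ((V + w • 1) * T * Q * P).trace - (T * P).trace) := by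
  refine (h.cyc hT).congr ?_
  generalize hh : V + w • (1 : Mat n) = H
  have e : T * g * P = T * P + T * Q * H * P := by
    rw [h.ga, hh]; noncomm_ring
  rw [e, trace_add, trE' P (T * Q * H), trE' P (H * T * Q), trace_mul_cycle T Q H]
  ring

theorem zea : Sm B 9 r ((V * g * P).trace - ((V + w • 1) * V * Q * P).trace) :=
  ((h.gsub h.Ou).add h.trPV).congr (by ring)

theorem rv : r ≤ θ * n / v ^ 2 := by
  rw [le_div_iff₀ (pow_pos h.v0 2)]
  have := pow_le_pow_right₀ h.hv (show 2 ≤ 4 by norm_num)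
  nlinarith [h.rθ, h.r0]

theorem g2a : Sm B 13 (θ * n / v ^ 2) (((V + w • 1) * V * g * P).trace -
    ((V + w • 1) * ((V + w • 1) * V) * Q * P).trace) := by
  have a1 : Sm B 4 (θ * n / v ^ 2) (V * (V * P)).trace := by
    refine (h.FV.trm (h.FV.opr h.OP)).le ?_
    have e : √(n : ℝ) / v ^ 2 * (√n / v ^ 2) = n / v ^ 2 / v ^ 2 := by
      rw [← mul_div_assoc, sqv]
    rw [e]
    exact div_le_div_of_nonneg_right h.nv2 (sq_nonneg v)
  refine (((h.gsub h.O2).le h.rv).add (a1.add ((h.trPV.le h.rv).smul h.wabs))).congr ?_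
  simp only [add_mul, Matrix.smul_mul, one_mul, trace_add, trace_smul, smul_eq_mul, mul_assoc]
  ring

theorem ze1 : Sm B 3 (n / v ^ 2) (V * g * P).trace := (h.gT h.FVS).le sqv.le

theorem g2b : Sm B 7 (n / v ^ 2) ((V + w • 1) * V * g * P).trace :=
  (h.gT ((Fr.opl h.OT h.FVS).congr (mul_assoc _ _ _).symm)).le sqv.le

theorem g3 : Sm B 11 (n / v ^ 2) ((V + w • 1) * ((V + w • 1) * V) * g * P).trace :=
  (h.gT ((Fr.opl h.OT (Fr.opl h.OT h.FVS)).congr (by simp only [mul_assoc]))).le sqv.le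

theorem gae : (P * g).trace = P.trace + w * (P * Q).trace + (V * Q * P).trace := by
  rw [← trace_transpose (V * Q * P), transpose_mul, transpose_mul, h.hP, h.sQ, h.sV, h.ga]
  simp only [mul_add, mul_one, Matrix.mul_smul, trace_add, trace_smul, smul_eq_mul]
  ring

theorem gaT : (P * gᵀ).trace = (P * g).trace := by
  rw [← trace_transpose, transpose_mul, transpose_transpose, h.hP, trace_mul_comm]

end Pt

end Vale.Agent.N150.T2M
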