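import Vale.Agent.N150.T2M1

/-! Block T2, part M2: the means of `tr P Q`, `tr P Γ`, `tr P V Γ` on one fibre. -/

namespace Vale.Agent.N150.T2M

open Matrix MeasureTheory Set
open Vale.Agent.P150 Vale.Agent.P150.F
open Vale.Agent.N150.Haar (fro)
open Vale.Agent.N150.Wd

variable {n : ℕ} {B θ : ℝ} {p q : ℕ} {e e' x y : ℝ}

theorem Sm.eighth (h : Sm B p (θ * e) x) (he : 0 ≤ e) (h0 : 0 ≤ θ) (hθ : B ^ 100 * θ ≤ 1)
    (hp : p ≤ 97) : |x| ≤ e / 8 := by
  have h1 : B ^ p * 8 ≤ B ^ 100 := by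
    refine le_trans ?_ (pw_le h.1 (show p + 3 ≤ 100 by omega))
    rw [pow_add]
    refine mul_le_mul_of_nonneg_left ?_ (pow_nonneg (by linarith [h.1]) _)
    have := pow_le_pow_left₀ zero_le_two h.1 3
    linarith
  have h2 := mul_le_mul_of_nonneg_right h1 (mul_nonneg h0 he)
  have h3 := mul_le_mul_of_nonneg_right hθ he
  nlinarith [h.2.2]

theorem Sm.absorb (h : Sm B p (θ * e) x) (he : 0 ≤ e) (h0 : 0 ≤ θ) (hθ : B ^ 100 * θ ≤ 1)
    (hp : p ≤ 97) : Sm B 0 e x :=
  ⟨h.1, he, by rw [pow_zero, one_mul]; linarith [h.eighth he h0 hθ hp]⟩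

theorem Sm.of_abs (hB : 2 ≤ B) (h : |x| ≤ e) : Sm B 0 e x :=
  ⟨hB, (abs_nonneg x).trans h, by rwa [pow_zero, one_mul]⟩

theorem Sm.div_n {m : ℝ} (h : Sm B p (m * e) (x * y)) (hm : 0 < m) (he : 0 ≤ e) (hy : m / 2 ≤ y) :
    Sm B (p + 1) e x := by
  refine Sm.div_of (b := y / m) ⟨h.1, he, ?_⟩ (by rw [le_div_iff₀ hm]; linarith)
  rw [div_mul_eq_mul_div, abs_div, abs_of_pos hm, div_le_iff₀ hm, mul_comm y]
  exact h.2.2.trans (le_of_eq (by ring))

theorem ms_br (P : Mat n) {L R : OG n → Mat n} (hL : Ms L) (hR : Ms R) :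
    Measurable fun O => br P (L O) (R O) :=
  ((((Ms.const P).mul hL.transpose).mul (.const P)).mul hR).trace.sub
    ((hL.mul (.const P)).trace.mul ((Ms.const P).mul hR).trace)

theorem lip_add {G : Set (OG n)} {L c : ℝ} {f g : OG n → ℝ} (h : LipO G L f)
    (e : ∀ O ∈ G, g O = c + f O) : LipO G L g := fun U hU V hV => by
  rw [e U hU, e V hV, add_sub_add_left_eq_sub]; exact h U hU V hV

section Mean

variable {μ : Measure (OG n)} [IsProbabilityMeasure μ] {G : Set (OG n)} {f g W : OG n → ℝ}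

theorem ig (hG : MeasurableSet G) (hm : Measurable f) (hb : ∀ O ∈ G, Sm B p e (f O)) :
    IntegrableOn f G μ :=
  Measure.integrableOn_of_bounded (measure_ne_top _ _) hm.aestronglyMeasurable
    ((ae_restrict_iff' hG).2 (ae_of_all _ fun O hO => (hb O hO).2.2))

theorem esm (hB : 2 ≤ B) (he : 0 ≤ e) (hb : ∀ O ∈ G, Sm B p e (f O)) :
    Sm B p e (∫ O in G, f O ∂μ) :=
  ⟨hB, he, (norm_setIntegral_le_of_norm_le_const (μ := μ) (s := G) (f := f) (measure_lt_top _ _)
    fun O hO => (hb O hO).2.2).trans (mul_le_of_le_one_right (pe_nn hB he p) measureReal_le_one)⟩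

theorem esub (hB : 2 ≤ B) (he : 0 ≤ e) (hf : IntegrableOn f G μ) (hg : IntegrableOn g G μ)
    (hb : ∀ O ∈ G, Sm B p e (f O - g O)) : Sm B p e (∫ O in G, f O ∂μ - ∫ O in G, g O ∂μ) := by
  rw [← integral_sub hf hg]; exact esm hB he hb

theorem split (hB : 2 ≤ B) (hG : MeasurableSet G) (hW : Measurable W) (hf : IntegrableOn f G μ)
    (hg : IntegrableOn g G μ) (hb : ∀ O ∈ G, Sm B p e (W O + f O - g O))
    (hI : |∫ O in G, W O ∂μ| ≤ e) : Sm B (p + 1) e (∫ O in G, f O ∂μ - ∫ O in G, g O ∂μ) := by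
  have he := (abs_nonneg _).trans hI
  have iN : IntegrableOn (fun O => W O + f O - g O) G μ :=
    Integrable.of_bound ((hW.aestronglyMeasurable.add hf.1).sub hg.1) _
      ((ae_restrict_iff' hG).2 (ae_of_all _ fun O hO => (hb O hO).2.2))
  have iW : IntegrableOn W G μ := ((iN.sub hf).add hg).congr (ae_of_all _ fun O => by simp; ring)
  have h1 := esm (μ := μ) hB he hb
  have iWf : IntegrableOn (fun O => W O + f O) G μ := iW.add hf
  rw [integral_sub iWf hg, integral_add iW hf] at h1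
  exact ((h1.sub (.of_abs hB hI)).mono (by omega)).congr (by ring)

theorem cov {c π L L' e₁ e₂ : ℝ} {i j a b : ℕ} (h : Conc μ c) (hc : 0 < c) (hG : MeasurableSet G)
    (hp : μ.real Gᶜ ≤ π) (hB : 2 ≤ B) (hL : 0 < L) (hL' : 0 < L') (h₁ : 0 ≤ e₁) (h₂ : 0 ≤ e₂)
    (hf : LipO G (B ^ i * L) f) (hg : LipO G (B ^ j * L') g) (bf : ∀ O ∈ G, Sm B a e₁ (f O))
    (bg : ∀ O ∈ G, Sm B b e₂ (g O)) (k1 : L * L' / c ≤ e) (k2 : e₁ * e₂ * π ≤ e) :
    Sm B (max (i + j + 1) (a + b + 2) + 1) e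
      (∫ O in G, f O * g O ∂μ - (∫ O in G, f O ∂μ) * ∫ O in G, g O ∂μ) := by
  have b0 : 0 < B := by linarith
  have he : 0 ≤ e := le_trans (by positivity) k1
  refine ⟨hB, he, (cov_good h hc hG hp (by positivity) (by positivity) (pe_nn hB h₁ a)
    (pe_nn hB h₂ b) hf hg (fun O hO => (bf O hO).2.2) fun O hO => (bg O hO).2.2).trans
    (le_trans (add_le_add ?_ ?_) (pe_add hB he _ _))⟩
  · calc _ = B ^ (i + j) * (2 * (L * L' / c)) := by ring
      _ ≤ B ^ (i + j) * (B * e) := by gcongr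
      _ = _ := by ring
  · calc _ = B ^ (a + b) * (3 * (e₁ * e₂ * π)) := by ring
      _ ≤ B ^ (a + b) * (B ^ 2 * e) := by
          refine mul_le_mul_of_nonneg_left ?_ (by positivity)
          nlinarith [mul_le_mul_of_nonneg_right (show 3 ≤ B ^ 2 by nlinarith) he]
      _ = _ := by ring

end Mean

/-- data on one fibre -/
structure Fb (μ : Measure (OG n)) (G : Set (OG n)) (B v r θ w K c π L L' : ℝ)
    (P A K0 V : Mat n) (S Si : OG n → Mat n) : Prop where
  ok : Ok P G K A 0 (V + w • 1)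
  ri : RI P μ
  meas : MeasurableSet G
  ne : G.Nonempty
  mass : μ.real Gᶜ ≤ π
  p0 : 0 < π
  p1 : n * π ≤ 1
  Kp : K ^ 24 * √π ≤ 1
  conc : Conc μ c
  c0 : 0 < c
  pt : ∀ O ∈ G, Pt B v r θ w P (S O) (Si O) (fr K0 O) V (Ga A 0 (V + w • 1) O) (Qm A (V + w • 1) O)
  sm : B ^ 100 * θ ≤ 1
  fK : fro K0 ≤ K
  fT : B ^ 11 * √n ≤ K
  L0 : 0 < L
  L1 : 0 < L'
  lip : ∀ (F : Mat n) (a : ℝ), 0 ≤ a → OpLe F a →
    LipO G (a * L) fun O => (F * Qm A (V + w • 1) O).trace
  lipK : LipO G L' fun O => (P * fr K0 O * Qm A (V + w • 1) O).trace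
  cv1 : L * L / c ≤ n
  cv2 : L' * L / c ≤ θ * (n * v ^ 4)

namespace Fb

variable {μ : Measure (OG n)} {G : Set (OG n)} {v r w K c π L L' : ℝ}
  {P A K0 V : Mat n} {S Si : OG n → Mat n} (h : Fb μ G B v r θ w K c π L L' P A K0 V S Si)
include h

theorem q0 : Pt B v r θ w P (S h.ne.some) (Si h.ne.some) (fr K0 h.ne.some) V
    (Ga A 0 (V + w • 1) h.ne.some) (Qm A (V + w • 1) h.ne.some) := h.pt _ h.ne.some_mem
theorem hB : 2 ≤ B := h.q0.hB
theorem t0 : 0 ≤ θ := h.q0.θ0.le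
theorem v4 : 1 ≤ v ^ 4 := one_le_pow₀ h.q0.hv
theorem rv1 : 1 ≤ r * v ^ 4 := one_le_mul_of_one_le_of_one_le h.q0.hr h.v4
theorem n8 : (8 : ℝ) ≤ n := by
  have a : Sm B 0 (θ * n) 1 := .of_abs h.hB (by rw [abs_one]; exact h.rv1.trans h.q0.rθ)
  have := a.eighth (Nat.cast_nonneg n) h.t0 h.sm (by omega)
  rw [abs_one] at this; linarith
theorem n0 : (0 : ℝ) < n := by linarith [h.n8]
theorem p2 : π ≤ 1 := by nlinarith [h.p1, h.n8, h.p0]
theorem nn : (n : ℝ) * n * π ≤ n := by nlinarith [h.p1, h.n8]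

theorem bga (O : OG n) (hO : O ∈ G) : Sm B 1 n (P * Ga A 0 (V + w • 1) O).trace :=
  ((((h.pt O hO).ga1.absorb h.n0.le h.t0 h.sm (by omega))).add
    (.of_abs h.hB (abs_of_pos h.n0).le)).congr (by ring)

theorem bka (O : OG n) (hO : O ∈ G) : Sm B 0 n (P * Qm A (V + w • 1) O).trace :=
  (h.pt O hO).ka1.absorb h.n0.le h.t0 h.sm (by omega)

theorem lipF {F : Mat n} (hF : Op B p 1 F) :
    LipO G (B ^ p * L) fun O => (F * Qm A (V + w • 1) O).trace := by
  have := h.lip F _ hF.nn hF.2.2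
  rwa [mul_one] at this

theorem lga : LipO G (B ^ 4 * L) fun O => (P * Ga A 0 (V + w • 1) O).trace :=
  lip_add (c := P.trace) (h.lipF (h.q0.OT.mul1 h.q0.OP)) fun O hO => by
    rw [(h.pt O hO).ga, mul_add P, mul_one, trace_add, ← mul_assoc, trace_mul_cycle]

theorem lgT {T : Mat n} (hT : Op B p 1 T) :
    LipO G (B ^ (4 + p) * L) fun O => (T * Ga A 0 (V + w • 1) O * P).trace :=
  lip_add (c := (T * P).trace) (h.lipF ((h.q0.OT.mul1 h.q0.OP).mul1 hT)) fun O hO => by
    rw [(h.pt O hO).ga, mul_add T, mul_one, add_mul T, trace_add, ← mul_assoc T, mul_assoc (T * _),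
      trace_mul_comm (T * Qm _ _ _), ← mul_assoc]

theorem laT {T : Mat n} (hT : Op B p 1 T) :
    LipO G (B ^ p * L) fun O => (T * Qm A (V + w • 1) O * P).trace :=
  lip_add (c := 0) (h.lipF ((h.q0.OP.mul1 hT).up (by omega) le_rfl)) fun O _ => by
    rw [zero_add, trace_mul_cycle]

omit h in
theorem mga : Measurable fun O => (P * Ga A 0 (V + w • 1) O).trace :=
  ((Ms.const P).mul (.ga _ _ _)).trace
omit h in
theorem mka : Measurable fun O => (P * Qm A (V + w • 1) O).trace :=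
  ((Ms.const P).mul (.qm _ _)).trace
omit h in
theorem maT (T : Mat n) : Measurable fun O => (T * Qm A (V + w • 1) O * P).trace :=
  (((Ms.const T).mul (.qm _ _)).mul (.const P)).trace
omit h in
theorem mgT (T : Mat n) : Measurable fun O => (T * Ga A 0 (V + w • 1) O * P).trace :=
  (((Ms.const T).mul (.ga _ _ _)).mul (.const P)).trace

variable [IsProbabilityMeasure μ]

theorem eGa : (n : ℝ) / 2 ≤ ∫ O in G, (P * Ga A 0 (V + w • 1) O).trace ∂μ := by
  have a := (esub (μ := μ) (g := fun _ => (n : ℝ)) h.hB (mul_nonneg h.t0 h.n0.le)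
    (ig h.meas mga h.bga) (integrableOn_const (measure_ne_top _ _))
    fun O hO => (h.pt O hO).ga1).eighth h.n0.le h.t0 h.sm (by omega)
  have b := measureReal_add_measureReal_compl (μ := μ) h.meas
  rw [probReal_univ] at b
  rw [setIntegral_const, smul_eq_mul] at a
  have c := mul_le_mul_of_nonneg_left h.mass h.n0.le
  have d : μ.real G * n = n - n * μ.real Gᶜ := by linear_combination n * b
  linarith [(abs_le.1 a).1, h.p1, h.n8]

/-- (Wa) for a weight `T`, after decoupling -/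
theorem wa {T : Mat n} (hT : ∀ O ∈ G, Op B 9 1 (S O * T * S O)) (oT : Op B 11 1 T)
    (bg : ∀ O ∈ G, Sm B 11 n (T * Ga A 0 (V + w • 1) O * P).trace) :
    Sm B 19 n ((∫ O in G, (T * Qm A (V + w • 1) O * P).trace ∂μ) *
        (∫ O in G, (P * Ga A 0 (V + w • 1) O).trace ∂μ) -
      (∫ O in G, (T * Ga A 0 (V + w • 1) O * P).trace ∂μ) *
        ∫ O in G, (P * Qm A (V + w • 1) O).trace ∂μ) := by
  have n0 := h.n0.le
  have fT : fro T ≤ K := by
    have := fro_op_mul oT.2.2 oT.nn 1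
    rw [mul_one T, mul_one, fro_one] at this
    exact this.trans h.fT
  have ba : ∀ O ∈ G, Sm B 10 n (T * Qm A (V + w • 1) O * P).trace :=
    fun O hO => (h.pt O hO).aT (hT O hO)
  have a1 := split (μ := μ) (p := 14) (e := n) h.hB h.meas
    ((ms_br P ((Ms.const T).mul (.qm A (V + w • 1))) (Ms.ga A 0 (V + w • 1)).transpose).sub
      (ms_br P ((Ms.const T).mul (.ga A 0 (V + w • 1))) (.qm A (V + w • 1))))
    (ig h.meas ((maT T).mul mga) fun O hO => (ba O hO).mul (h.bga O hO))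
    (ig h.meas ((mgT T).mul mka) fun O hO => (bg O hO).mul (h.bka O hO))
    (fun O hO => (((h.pt O hO).nt3 (hT O hO)).sub ((h.pt O hO).nt4 (hT O hO))).congr (by
      simp only [br, Pi.sub_apply, Pi.mul_apply, (h.pt O hO).gaT]; ring))
    ((h.ok.wa h.ri h.meas h.mass h.p0 h.p2 fT).trans (h.Kp.trans (by linarith [h.n8])))
  have a2 := cov h.conc h.c0 h.meas h.mass h.hB h.L0 h.L0 n0 n0 (h.laT oT) h.lga ba h.bga h.cv1 h.nn
  have a3 := cov h.conc h.c0 h.meas h.mass h.hB h.L0 h.L0 n0 n0 (h.lgT oT) (h.laT h.q0.O1) bg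
    (fun O hO => (h.bka O hO).congr (by rw [one_mul, trace_mul_comm])) h.cv1 h.nn
  simp only [one_mul, trace_mul_comm _ P] at a3
  simp only [Pi.mul_apply, ← trace_mul_comm _ P] at a1 a2 a3 ⊢
  exact (((a1.sub a2).add a3).mono (by omega)).congr (by ring)

/-- (Wb) for the weight `K0`, after decoupling -/
theorem wb : Sm B 11 (n * (r * v ^ 4)) (w * ((∫ O in G, (P * Qm A (V + w • 1) O).trace ∂μ) *
        ∫ O in G, (P * Ga A 0 (V + w • 1) O).trace ∂μ) +
      (∫ O in G, (fr K0 O * Qm A (V + w • 1) O * P).trace ∂μ) *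
        ∫ O in G, (V * Ga A 0 (V + w • 1) O * P).trace ∂μ) := by
  have n0 := h.n0.le
  have v0 := h.q0.v0
  have k1 : (n : ℝ) ≤ n * (r * v ^ 4) := le_mul_of_one_le_right n0 h.rv1
  have k2 : v ^ 4 ≤ r * v ^ 4 := le_mul_of_one_le_left (by positivity) h.q0.hr
  have k3 : v ^ 2 ≤ v ^ 4 := pow_le_pow_right₀ h.q0.hv (by norm_num)
  have k4 : n * v ^ 2 ≤ n * (r * v ^ 4) := mul_le_mul_of_nonneg_left (k3.trans k2) n0
  have mk : Measurable fun O => (fr K0 O * Qm A (V + w • 1) O * P).trace :=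
    (((Ms.fr K0).mul (.qm _ _)).mul (.const P)).trace
  have i1 : IntegrableOn (fun O => (P * Qm A (V + w • 1) O).trace *
      (P * Ga A 0 (V + w • 1) O).trace) G μ :=
    ig h.meas (mka.mul mga) fun O hO => (h.bka O hO).mul (h.bga O hO)
  have i2 : IntegrableOn (fun O => (fr K0 O * Qm A (V + w • 1) O * P).trace *
      (V * Ga A 0 (V + w • 1) O * P).trace) G μ :=
    ig h.meas (mk.mul (mgT V)) fun O hO => (h.pt O hO).kq.mul (h.pt O hO).ze1
  have K1 : 1 ≤ K := by linarith [h.ok.hK]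
  have a1 := split (μ := μ) (p := 8) (e := n * (r * v ^ 4)) h.hB h.meas
    ((ms_br P ((Ms.fr K0).mul (.qm A (V + w • 1))) ((Ms.const V).mul (.ga A 0 (V + w • 1)))).sub
      (ms_br P (((Ms.fr K0).mul (.qm A (V + w • 1))).mul (.const V)) (.ga A 0 (V + w • 1))))
    (i1.const_mul w) i2.neg
    (fun O hO => ((((h.pt O hO).N1.sub (h.pt O hO).N2).le k4).add
      (((h.pt O hO).rho.mul (h.bga O hO)).le (mul_comm _ _).le)).congr (by
      simp only [br, Pi.sub_apply, Pi.neg_apply, trace_mul_comm P (V * _)]; ring))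
    ((h.ok.wb h.ri h.meas h.mass h.p0 h.p2 h.fK rfl).trans ((mul_le_mul_of_nonneg_right
      (pow_le_pow_right₀ K1 (by norm_num)) (Real.sqrt_nonneg _)).trans
        (h.Kp.trans (by linarith [h.n8]))))
  simp only [Pi.neg_apply] at a1
  rw [integral_const_mul, integral_neg] at a1
  have a2 := (cov h.conc h.c0 h.meas h.mass h.hB h.L0 h.L0 n0 n0 (h.lipF h.q0.OP) h.lga h.bka h.bga
    h.cv1 h.nn).le k1
  have l2 : LipO G (B ^ 0 * L') fun O => (fr K0 O * Qm A (V + w • 1) O * P).trace := by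
    rw [pow_zero, one_mul]
    exact lip_add (c := 0) h.lipK fun O _ => by rw [zero_add, trace_mul_cycle]
  have a3 := ((cov h.conc h.c0 h.meas h.mass h.hB h.L1 h.L0 (by positivity) (by positivity) l2
    (h.lgT h.q0.OV) (fun O hO => (h.pt O hO).kq) (fun O hO => (h.pt O hO).ze1) h.cv2 (by
      have e1 : n * v ^ 2 * (n / v ^ 2) * π = n * n * π := by field_simp
      have e2 := mul_le_mul_of_nonneg_left (h.q0.vθ.trans (mul_le_mul_of_nonneg_left k3 h.t0)) n0
      rw [e1]; linarith [h.nn])).absorb (by positivity) h.t0 h.sm (by omega)).le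
    (mul_le_mul_of_nonneg_left k2 n0)
  exact (((a1.sub (a2.smul h.q0.wabs)).sub a3).mono (by omega)).congr (by ring)

/-- **(M2)** -/
theorem main : Sm B 15 (r * v ^ 4) (∫ O in G, (P * Qm A (V + w • 1) O).trace ∂μ) ∧
    Sm B 17 (r * v ^ 4) (∫ O in G, (P * Ga A 0 (V + w • 1) O).trace ∂μ - n) ∧
    Sm B 0 (r * v ^ 2) (∫ O in G, (V * Ga A 0 (V + w • 1) O * P).trace ∂μ) := by
  have q := h.q0
  have n0 := h.n0
  have v0 := q.v0
  have t0 := q.θ0
  have r0 : 0 < r := by linarith [q.hr]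
  have hB := h.hB
  have v2 : 1 ≤ v ^ 2 := one_le_pow₀ q.hv
  have nv : n / v ^ 2 ≤ n := div_le_self n0.le v2
  have w1 := h.wa (fun O hO => (h.pt O hO).Ou.up (by omega) le_rfl) (q.OV.up (by omega) le_rfl)
    fun O hO => (h.pt O hO).ze1.up (by omega) nv
  have w2 := h.wa (fun O hO => (h.pt O hO).O2.up (by omega) le_rfl)
    ((q.OT.mul1 q.OV).up (by omega) le_rfl) fun O hO => (h.pt O hO).g2b.up (by omega) nv
  have w3 := h.wa (fun O hO => (h.pt O hO).O3) (q.OT.mul1 (q.OT.mul1 q.OV))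
    fun O hO => (h.pt O hO).g3.le nv
  have wb := h.wb
  have eG := h.eGa
  have bK := esm (μ := μ) hB (by positivity) fun O hO => (h.pt O hO).ka1
  have b3 := esm (μ := μ) hB (by positivity) fun O hO => (h.pt O hO).g3
  have bQ := esm (μ := μ) hB (by positivity) fun O hO => (h.pt O hO).kq
  have bZ := esm (μ := μ) hB (by positivity) fun O hO => (h.pt O hO).ze1
  have d2 := esub (μ := μ) hB (by positivity) (ig h.meas (mgT _) fun O hO => (h.pt O hO).g2b)
    (ig h.meas (maT _) fun O hO => (h.pt O hO).aT (h.pt O hO).O3) fun O hO => (h.pt O hO).g2a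
  have d1 := esub (μ := μ) hB r0.le (ig h.meas (mgT _) fun O hO => (h.pt O hO).ze1)
    (ig h.meas (maT _) fun O hO => (h.pt O hO).aT (h.pt O hO).O2) fun O hO => (h.pt O hO).zea
  have ik := ig (μ := μ) h.meas mka h.bka
  have ia := ig (μ := μ) h.meas (maT _) fun O hO => (h.pt O hO).aT (h.pt O hO).Ou
  have i3 : IntegrableOn (fun O => w * (P * Qm A (V + w • 1) O).trace +
      (V * Qm A (V + w • 1) O * P).trace) G μ := (ik.const_mul w).add ia
  have i4 : IntegrableOn (fun _ => (n : ℝ)) G μ := integrableOn_const (measure_ne_top _ _)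
  have i5 : IntegrableOn (fun O => w * (P * Qm A (V + w • 1) O).trace +
      (V * Qm A (V + w • 1) O * P).trace + n) G μ := i3.add i4
  have d0 := esub (μ := μ) hB r0.le (ig h.meas mga h.bga) i5 fun O hO =>
    ((h.pt O hO).rk1 (h.pt O hO).O1).neg.congr (by
      rw [(h.pt O hO).gae, one_mul, trace_sub, trace_one, Fintype.card_fin]; ring)
  rw [integral_add i3 i4, integral_add (ik.const_mul w) ia, integral_const_mul, setIntegral_const,
    smul_eq_mul] at d0
  have dm : Sm B 0 r (μ.real G * n - n) := by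
    have b := measureReal_add_measureReal_compl (μ := μ) h.meas
    rw [probReal_univ] at b
    have c := mul_le_mul_of_nonneg_left h.mass n0.le
    have d : μ.real G * n - n = -(n * μ.real Gᶜ) := by linear_combination n * b
    refine .of_abs hB ?_
    rw [d, abs_neg, abs_of_nonneg (by positivity)]
    linarith [h.p1, q.hr]
  generalize (∫ O in G, (P * Qm A (V + w • 1) O).trace ∂μ) = k at *
  generalize (∫ O in G, (P * Ga A 0 (V + w • 1) O).trace ∂μ) = γ at *
  generalize (∫ O in G, (V * Ga A 0 (V + w • 1) O * P).trace ∂μ) = z at *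
  generalize (∫ O in G, (fr K0 O * Qm A (V + w • 1) O * P).trace ∂μ) = κ at *
  have k0 := abs_nonneg k
  have m1 : 1 ≤ θ * n / v ^ 2 := q.hr.trans q.rv
  have s3 := Sm.div_n (((w3.le (le_mul_of_one_le_right n0.le m1)).add ((b3.mul bK).le
    (le_of_eq (by ring)))).congr (sub_add_cancel _ _)) n0 (by positivity) eG
  have s2 := (d2.add s3).congr (sub_add_cancel _ _)
  have u0 : 0 ≤ θ * |k| / v ^ 2 := by positivity
  have s1 := Sm.div_n (e := r + θ * |k| / v ^ 2) (((w2.le (le_mul_of_one_le_right n0.le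
    (by linarith [q.hr]))).add ((s2.mul (.of_abs hB (le_refl |k|))).le (by
      have : θ * n / v ^ 2 * |k| = n * (θ * |k| / v ^ 2) := by ring
      rw [this, mul_add]; linarith [mul_pos n0 r0]))).congr (sub_add_cancel _ _)) n0
    (by positivity) eG
  have s0 := ((d1.le (le_add_of_nonneg_right u0)).add s1).congr (sub_add_cancel _ _)
  have rv : r ≤ θ * (r * v ^ 2) := by nlinarith [q.vθ]
  have rv2 : r * v ^ 2 ≤ θ * (r * v ^ 4) := by
    have := mul_le_mul_of_nonneg_right rv (sq_nonneg v)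
    linarith [show θ * (r * v ^ 2) * v ^ 2 = θ * (r * v ^ 4) by ring]
  have s4 := ((bQ.mul s0).le (e' := θ * (n * (r * v ^ 4 + |k|))) (by
    have e1 : n * v ^ 2 * (r + θ * |k| / v ^ 2) = n * (r * v ^ 2) + θ * (n * |k|) := by
      field_simp
    have e2 := mul_le_mul_of_nonneg_left rv2 n0.le
    rw [e1]; nlinarith)).eighth (by positivity) t0.le h.sm (by omega)
  have hk : Sm B 15 (r * v ^ 4) k := by
    refine ⟨hB, by positivity, ?_⟩
    have e1 := wb.2.2
    have e2 := abs_sub (w * (k * γ) + κ * z) (κ * z)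
    rw [add_sub_cancel_right, abs_mul, abs_mul, abs_of_pos (show 0 < w by linarith [q.w1]),
      abs_of_pos (show 0 < γ by linarith)] at e2
    have e3 : |k| * (n / 2) ≤ |k| * γ := mul_le_mul_of_nonneg_left eG k0
    have e4 : 1 / 2 * (|k| * γ) ≤ w * (|k| * γ) :=
      mul_le_mul_of_nonneg_right q.w1 (mul_nonneg k0 (by linarith))
    have e5 : n * |k| ≤ n * ((8 * B ^ 11 + 1) * (r * v ^ 4)) := by linarith
    have e6 : 8 * B ^ 11 + 1 ≤ B ^ 15 := by
      have a := pow_le_pow_left₀ zero_le_two hB 4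
      have b : 1 ≤ B ^ 11 := one_le_pow₀ (by linarith)
      nlinarith
    exact (le_of_mul_le_mul_left e5 n0).trans (mul_le_mul_of_nonneg_right e6 (by positivity))
  have hz : Sm B 0 (r * v ^ 2) z := by
    have b : 1 ≤ B ^ 15 := one_le_pow₀ (by linarith)
    have a1 : r + θ * |k| / v ^ 2 ≤ B ^ 16 * (θ * (r * v ^ 2)) := by
      have c1 : θ * |k| / v ^ 2 ≤ B ^ 15 * (θ * (r * v ^ 2)) := by
        rw [div_le_iff₀ (by positivity)]
        exact (mul_le_mul_of_nonneg_left hk.2.2 t0.le).trans (le_of_eq (by ring))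
      have c2 : θ * (r * v ^ 2) ≤ B ^ 15 * (θ * (r * v ^ 2)) :=
        le_mul_of_one_le_left (by positivity) b
      have c3 := mul_le_mul_of_nonneg_right hB (show 0 ≤ B ^ 15 * (θ * (r * v ^ 2)) by positivity)
      linarith [show B * (B ^ 15 * (θ * (r * v ^ 2))) = B ^ 16 * (θ * (r * v ^ 2)) by ring]
    have a2 := (s0.le a1).2.2
    rw [← mul_assoc, ← pow_add] at a2
    exact Sm.absorb ⟨hB, by positivity, a2⟩ (by positivity) t0.le h.sm (by omega)
  have s5 := Sm.div_n (e := r * v ^ 4) (((w1.le (e' := θ * (n * (r * v ^ 4))) (by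
    have := mul_le_mul_of_nonneg_left (one_le_mul_of_one_le_of_one_le q.hr v2 |>.trans rv2) n0.le
    linarith)).add ((bZ.mul hk).le (by
      have := mul_le_mul_of_nonneg_right q.nv2 (show 0 ≤ r * v ^ 4 by positivity)
      linarith))).congr (sub_add_cancel _ _) |>.absorb (by positivity) t0.le h.sm (by omega)) n0
    (by positivity) eG
  have rr : r ≤ r * v ^ 4 := le_mul_of_one_le_right r0.le h.v4
  exact ⟨hk, (((((d0.add dm).le rr).add s5).add (hk.smul q.wabs)).mono (by omega)).congr (by ring),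
    hz⟩

end Fb

end Vale.Agent.N150.T2M
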