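import Vale.Agent.N150.KBCal

set_option linter.all false

/-! P150, block T2: two-end identities for `Q = -Γ A`, `Ξ = Γ P Γᵀ` and the Lipschitz constants of
the traces `tr (F S Q)`, `tr (F S Ξ)` with `F` fixed and `S` rotating. -/

namespace Vale.Agent.N150.T2P

open Matrix MeasureTheory Set
open Vale.Agent.P150 Vale.Agent.P150.F
open Vale.Agent.N150.Haar (fro fro_nonneg fro_add_le fro_neg fro_smul fro_transpose fro_zero
  fro_mul_le fro_sub_le)
open Vale.Agent.N150.Wd (fr Ga Gm fr_transpose fr_mul fr_one fro_fr trace_fr)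
open Vale.Agent.N150.KB.Ch

variable {n : ℕ}

/-- the relative rotation minus one -/
def rel (U V : OG n) : Mat n := U.1ᵀ * V.1 - 1

theorem fro_rel (U V : OG n) : fro (rel U V) = dO U V := by
  have e : rel U V = (U⁻¹).1 * (V.1 - U.1) := by
    rw [rel, Haar.OG.coe_inv, mul_sub, Haar.OG.tr_mul]
  rw [e, Haar.fro_orth_mul, dO, Haar.fro_sub_comm]

theorem fr_rel (S : Mat n) (U V : OG n) : fr S U * (rel U V + 1) = (rel U V + 1) * fr S V := by
  rw [rel, sub_add_cancel, fr, fr, mul_assoc, ← mul_assoc U.1, Haar.OG.mul_tr, one_mul,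
    ← mul_assoc, ← mul_assoc, mul_assoc U.1ᵀ V.1, Haar.OG.mul_tr, mul_one]

/-- rotating matrices -/
theorem fr_sub (S : Mat n) (U V : OG n) :
    fr S U - fr S V = rel U V * fr S V - fr S U * rel U V := by
  have h := fr_rel S U V
  rw [mul_add, add_mul, mul_one, one_mul] at h
  rw [sub_eq_sub_iff_add_eq_add, add_comm, h]

theorem abs_trace_mul (A B : Mat n) : |(A * B).trace| ≤ fro A * fro B := by
  have e : (A * B).trace = ∑ p : Fin n × Fin n, A p.1 p.2 * B p.2 p.1 := by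
    rw [Fintype.sum_prod_type]; rfl
  have h := Finset.sum_mul_sq_le_sq_mul_sq Finset.univ (fun p : Fin n × Fin n => A p.1 p.2)
    fun p => B p.2 p.1
  have e1 : ∑ p : Fin n × Fin n, A p.1 p.2 ^ 2 = fro A ^ 2 := by
    rw [Fintype.sum_prod_type, Haar.fro_sq']
  have e2 : ∑ p : Fin n × Fin n, B p.2 p.1 ^ 2 = fro B ^ 2 := by
    rw [Fintype.sum_prod_type, Haar.fro_sq', Finset.sum_comm]
  rw [← e, e1, e2, ← mul_pow] at h
  exact abs_le_of_sq_le_sq h (mul_nonneg (fro_nonneg _) (fro_nonneg _))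

/-- one sandwich term -/
theorem tr_sand (L R : Mat n) (U V : OG n) {c : ℝ} (h : fro (R * L) ≤ c) :
    |(L * rel U V * R).trace| ≤ c * dO U V := by
  rw [trace_mul_cycle, ← fro_rel]
  exact (abs_trace_mul _ _).trans (mul_le_mul_of_nonneg_right h (fro_nonneg _))

/-- the two-end identities -/
structure SW (G : Set (OG n)) (Vt : Mat n) (Q X : OG n → Mat n) : Prop where
  hV : Vtᵀ = Vt
  hQ : ∀ U ∈ G, (Q U)ᵀ = Q U
  hX : ∀ U ∈ G, (X U)ᵀ = X U
  q : ∀ U ∈ G, ∀ V ∈ G, Q U - Q V =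
    (1 + Q U * Vt) * rel U V * Q V - Q U * rel U V * (1 + Vt * Q V)
  x : ∀ U ∈ G, ∀ V ∈ G, X U - X V = X U * Vt * rel U V * Q V - X U * rel U V * (1 + Vt * Q V) +
    (1 + Q U * Vt) * rel U V * X V - Q U * rel U V * (Vt * X V)

section Alg

variable {A Th : Mat n} (hA : Aᵀ = A) (hT : Thᵀ = Th) {U V : OG n}
  (hu : IsUnit (1 + (fr A U + 0) * Th).det)

include hu in
theorem Ga_eq : Ga A 0 Th U = 1 - Ga A 0 Th U * fr A U * Th := by
  have h : Ga A 0 Th U * (1 + (fr A U + 0) * Th) = 1 := nonsing_inv_mul _ hu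
  rw [add_zero, mul_add, mul_one, ← mul_assoc] at h
  exact eq_sub_of_add_eq h

include hA hT hu in
theorem Ga_A : Ga A 0 Th U * fr A U = fr A U * (Ga A 0 Th U)ᵀ := by
  have h1 : (1 + (fr A U + 0) * Th) * Ga A 0 Th U = 1 := mul_nonsing_inv _ hu
  have h2 : Ga A 0 Th U * (1 + (fr A U + 0) * Th) = 1 := nonsing_inv_mul _ hu
  rw [add_zero] at h1 h2
  have h3 := congrArg transpose h2
  rw [transpose_mul, transpose_add, transpose_one, transpose_mul, fr_transpose, hA, hT] at h3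
  calc Ga A 0 Th U * fr A U = Ga A 0 Th U * fr A U * ((1 + Th * fr A U) * (Ga A 0 Th U)ᵀ) := by
        rw [h3, mul_one]
    _ = Ga A 0 Th U * (1 + fr A U * Th) * (fr A U * (Ga A 0 Th U)ᵀ) := by noncomm_ring
    _ = _ := by rw [h2, one_mul]

end Alg

/-- the identities hold for `Q = -Γ A`, `Ξ = Γ P Γᵀ`, `Vt = Th - w` -/
theorem sw_ga {G : Set (OG n)} {A Th P Vt : Mat n} {w : ℝ} (hA : Aᵀ = A) (hT : Thᵀ = Th)
    (hP : Pᵀ = P) (hV : Vt = Th - w • 1) (hu : ∀ U ∈ G, IsUnit (1 + (fr A U + 0) * Th).det)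
    {Q X : OG n → Mat n} (hQ : ∀ U ∈ G, Q U = -(Ga A 0 Th U * fr A U))
    (hX : ∀ U ∈ G, X U = Ga A 0 Th U * fr P U * (Ga A 0 Th U)ᵀ) : SW G Vt Q X := by
  have sQ : ∀ U ∈ G, (Q U)ᵀ = Q U := fun U hU => by
    rw [hQ U hU, transpose_neg, transpose_mul, fr_transpose, hA, ← Ga_A hA hT (hu U hU)]
  have g1 : ∀ U ∈ G, 1 + Q U * Vt = Ga A 0 Th U - w • Q U := fun U hU => by
    rw [hV, mul_sub, mul_smul_comm, mul_one, ← add_sub_assoc, hQ U hU, neg_mul, ← sub_eq_add_neg,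
      ← Ga_eq (hu U hU)]
  have sV : Vtᵀ = Vt := by rw [hV, transpose_sub, hT, transpose_smul, transpose_one]
  have g2 : ∀ U ∈ G, 1 + Vt * Q U = (Ga A 0 Th U)ᵀ - w • Q U := fun U hU => by
    have h := congrArg transpose (g1 U hU)
    rwa [transpose_add, transpose_one, transpose_mul, sV, sQ U hU, transpose_sub, transpose_smul,
      sQ U hU] at h
  have k : ∀ U ∈ G, ∀ V ∈ G, Ga A 0 Th U * (rel U V + 1) * Q V =
      Q U * (rel U V + 1) * (Ga A 0 Th V)ᵀ := fun U hU V hV => by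
    rw [hQ V hV, Ga_A hA hT (hu V hV), hQ U hU, mul_neg, neg_mul, neg_mul, mul_assoc (Ga A 0 Th U)
      (fr A U), fr_rel, ← mul_assoc, ← mul_assoc]
  have q : ∀ U ∈ G, ∀ V ∈ G, Q U - Q V =
      (1 + Q U * Vt) * rel U V * Q V - Q U * rel U V * (1 + Vt * Q V) := fun U hU V hV => by
    have h1 : (1 + Q U * Vt) * (rel U V + 1) * Q V = Q U * (rel U V + 1) * (1 + Vt * Q V) := by
      rw [g1 U hU, g2 V hV, sub_mul, sub_mul, k U hU V hV, mul_sub, smul_mul_assoc,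
        smul_mul_assoc, mul_smul_comm]
    have h2 : (1 + Q U * Vt) * rel U V * Q V - Q U * rel U V * (1 + Vt * Q V) - (Q U - Q V) =
        (1 + Q U * Vt) * (rel U V + 1) * Q V - Q U * (rel U V + 1) * (1 + Vt * Q V) := by
      noncomm_ring
    rw [h1, sub_self, sub_eq_zero] at h2
    exact h2.symm
  refine ⟨sV, sQ, fun U hU => ?_, q, fun U hU V hV' => ?_⟩
  · rw [hX U hU, transpose_mul, transpose_mul, transpose_transpose, fr_transpose, hP, mul_assoc]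
  · have a : ∀ U ∈ G, Ga A 0 Th U = 1 + Q U * Vt + w • Q U := fun U hU => by
      rw [g1 U hU, sub_add_cancel]
    have b : ∀ U ∈ G, (Ga A 0 Th U)ᵀ = 1 + Vt * Q U + w • Q U := fun U hU => by
      rw [g2 U hU, sub_add_cancel]
    have c1 : Ga A 0 Th U - Ga A 0 Th V = (Q U - Q V) * (Vt + w • 1) := by
      rw [a U hU, a V hV', mul_add, mul_smul_comm, mul_one, sub_mul, smul_sub]; abel
    have c2 : (Ga A 0 Th U)ᵀ - (Ga A 0 Th V)ᵀ = (Vt + w • 1) * (Q U - Q V) := by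
      rw [b U hU, b V hV', add_mul, smul_mul_assoc, one_mul, mul_sub, smul_sub]; abel
    have d : X U - X V = Ga A 0 Th U * fr P U * ((Ga A 0 Th U)ᵀ - (Ga A 0 Th V)ᵀ) +
        Ga A 0 Th U * (fr P U - fr P V) * (Ga A 0 Th V)ᵀ +
        (Ga A 0 Th U - Ga A 0 Th V) * fr P V * (Ga A 0 Th V)ᵀ := by
      rw [hX U hU, hX V hV']; noncomm_ring
    rw [d, c1, c2, q U hU V hV', fr_sub, hX U hU, hX V hV', b U hU, b V hV', a U hU, a V hV']
    simp only [mul_add, add_mul, mul_sub, sub_mul, mul_one, one_mul, smul_mul_assoc, mul_smul_comm,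
      smul_add, smul_sub, mul_assoc, smul_smul]
    abel

namespace SW

variable {G : Set (OG n)} {Vt : Mat n} {Q X : OG n → Mat n}

theorem mono (h : SW G Vt Q X) {G' : Set (OG n)} (hG : G' ⊆ G) : SW G' Vt Q X :=
  ⟨h.hV, fun U hU => h.hQ U (hG hU), fun U hU => h.hX U (hG hU),
    fun U hU V hV => h.q U (hG hU) V (hG hV), fun U hU V hV => h.x U (hG hU) V (hG hV)⟩

theorem sq (h : SW G Vt Q X) (F S : Mat n) {U V : OG n} (hU : U ∈ G) (hV : V ∈ G) :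
    F * fr S U * Q U - F * fr S V * Q V = F * fr S U * (Q U * Vt) * rel U V * Q V -
      F * fr S U * Q U * rel U V * (1 + Vt * Q V) + F * rel U V * (fr S V * Q V) := by
  have e : F * fr S U * Q U - F * fr S V * Q V =
      F * fr S U * (Q U - Q V) + F * (fr S U - fr S V) * Q V := by noncomm_ring
  rw [e, h.q U hU V hV, fr_sub]
  noncomm_ring

theorem sx (h : SW G Vt Q X) (F S : Mat n) {U V : OG n} (hU : U ∈ G) (hV : V ∈ G) :
    F * fr S U * X U - F * fr S V * X V = F * fr S U * (X U * Vt) * rel U V * Q V -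
      F * fr S U * X U * rel U V * (1 + Vt * Q V) + F * fr S U * (Q U * Vt) * rel U V * X V -
      F * fr S U * Q U * rel U V * (Vt * X V) + F * rel U V * (fr S V * X V) := by
  have e : F * fr S U * X U - F * fr S V * X V =
      F * fr S U * (X U - X V) + F * (fr S U - fr S V) * X V := by noncomm_ring
  rw [e, h.x U hU V hV, fr_sub]
  noncomm_ring

/-- abstract form for `Q` -/
theorem lipQ (h : SW G Vt Q X) (F S : Mat n) {c₁ c₂ c₃ : ℝ}
    (h1 : ∀ U ∈ G, ∀ V ∈ G, fro (Q V * (F * fr S U * (Q U * Vt))) ≤ c₁)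
    (h2 : ∀ U ∈ G, ∀ V ∈ G, fro ((1 + Vt * Q V) * (F * fr S U * Q U)) ≤ c₂)
    (h3 : ∀ V ∈ G, fro (fr S V * Q V * F) ≤ c₃) :
    LipO G (c₁ + c₂ + c₃) fun U => (F * fr S U * Q U).trace := fun U hU V hV => by
  rw [← trace_sub, h.sq F S hU hV, trace_add, trace_sub]
  have a1 := abs_le.1 (tr_sand _ _ U V (h1 U hU V hV))
  have a2 := abs_le.1 (tr_sand _ _ U V (h2 U hU V hV))
  have a3 := abs_le.1 (tr_sand _ _ U V (h3 V hV))
  rw [abs_le]
  constructor <;> linarith [a1.1, a1.2, a2.1, a2.2, a3.1, a3.2]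

/-- abstract form for `Ξ` -/
theorem lipX (h : SW G Vt Q X) (F S : Mat n) {c₁ c₂ c₃ c₄ c₅ : ℝ}
    (h1 : ∀ U ∈ G, ∀ V ∈ G, fro (Q V * (F * fr S U * (X U * Vt))) ≤ c₁)
    (h2 : ∀ U ∈ G, ∀ V ∈ G, fro ((1 + Vt * Q V) * (F * fr S U * X U)) ≤ c₂)
    (h3 : ∀ U ∈ G, ∀ V ∈ G, fro (X V * (F * fr S U * (Q U * Vt))) ≤ c₃)
    (h4 : ∀ U ∈ G, ∀ V ∈ G, fro (Vt * X V * (F * fr S U * Q U)) ≤ c₄)
    (h5 : ∀ V ∈ G, fro (fr S V * X V * F) ≤ c₅) :
    LipO G (c₁ + c₂ + c₃ + c₄ + c₅) fun U => (F * fr S U * X U).trace := fun U hU V hV => by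
  rw [← trace_sub, h.sx F S hU hV, trace_add, trace_sub, trace_add, trace_sub]
  have a1 := abs_le.1 (tr_sand _ _ U V (h1 U hU V hV))
  have a2 := abs_le.1 (tr_sand _ _ U V (h2 U hU V hV))
  have a3 := abs_le.1 (tr_sand _ _ U V (h3 U hU V hV))
  have a4 := abs_le.1 (tr_sand _ _ U V (h4 U hU V hV))
  have a5 := abs_le.1 (tr_sand _ _ U V (h5 V hV))
  rw [abs_le]
  constructor <;> linarith [a1.1, a1.2, a2.1, a2.2, a3.1, a3.2, a4.1, a4.2, a5.1, a5.2]

theorem opV (h : SW G Vt Q X) {g : ℝ} (hg : 0 ≤ g) {U : OG n} (hU : U ∈ G)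
    (h1 : OpLe (Q U * Vt) g) : OpLe (1 + Vt * Q U) (1 + g) := by
  have h2 := opT hg h1
  rw [transpose_mul, h.hV, h.hQ U hU] at h2
  exact opLe_one.add h2 zero_le_one hg

theorem froV (h : SW G Vt Q X) {U : OG n} (hU : U ∈ G) : fro (Vt * X U) = fro (X U * Vt) := by
  rw [← fro_transpose, transpose_mul, h.hV, h.hX U hU]

theorem opXV (h : SW G Vt Q X) {g : ℝ} (hg : 0 ≤ g) {U : OG n} (hU : U ∈ G)
    (h1 : OpLe (X U * Vt) g) : OpLe (Vt * X U) g := by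
  have h2 := opT hg h1
  rwa [transpose_mul, h.hV, h.hX U hU] at h2

end SW

theorem fro_l {A X : Mat n} {a x : ℝ} (ha : 0 ≤ a) (h : OpLe A a) (hx : fro X ≤ x) :
    fro (A * X) ≤ a * x := (fro_mul_l ha h X).trans (mul_le_mul_of_nonneg_left hx ha)

theorem fro_r {A X : Mat n} {a x : ℝ} (ha : 0 ≤ a) (hx : fro X ≤ x) (h : OpLe A a) :
    fro (X * A) ≤ x * a := by
  rw [mul_comm x a]; exact (fro_mul_r ha h X).trans (mul_le_mul_of_nonneg_left hx ha)

namespace SW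

variable {G : Set (OG n)} {Vt : Mat n} {Q X : OG n → Mat n} {F S : Mat n}

/-- `tr (F S Q)`, the Frobenius norm on `Q` -/
theorem lipQ_op (h : SW G Vt Q X) {f σ g qF : ℝ} (hf0 : 0 ≤ f) (hσ0 : 0 ≤ σ) (hg0 : 0 ≤ g)
    (hf : OpLe F f) (hσ : OpLe S σ) (hg : ∀ U ∈ G, OpLe (Q U * Vt) g)
    (hq : ∀ U ∈ G, fro (Q U) ≤ qF) :
    LipO G (2 * f * σ * qF * (1 + g)) fun U => (F * fr S U * Q U).trace := by
  have o := fun U => hf.mulN (op_fr hσ0 hσ U) hf0 hσ0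
  have := h.lipQ F S
    (fun U hU V hV => fro_r (by positivity) (hq V hV) ((o U).mulN (hg U hU) (by positivity) hg0))
    (fun U hU V hV => fro_l (by positivity) (h.opV hg0 hV (hg V hV))
      (fro_l (by positivity) (o U) (hq U hU)))
    (fun V hV => fro_r hf0 (fro_l hσ0 (op_fr hσ0 hσ V) (hq V hV)) hf)
  exact (show qF * (f * σ * g) + (1 + g) * (f * σ * qF) + σ * qF * f =
    2 * f * σ * qF * (1 + g) by ring) ▸ this

/-- `tr (F S Q)`, the Frobenius norm on `F` -/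
theorem lipQ_fro (h : SW G Vt Q X) {f σ g q : ℝ} (hσ0 : 0 ≤ σ) (hg0 : 0 ≤ g) (hq0 : 0 ≤ q)
    (hf : fro F ≤ f) (hσ : OpLe S σ) (hg : ∀ U ∈ G, OpLe (Q U * Vt) g)
    (hq : ∀ U ∈ G, OpLe (Q U) q) :
    LipO G (2 * f * σ * q * (1 + g)) fun U => (F * fr S U * Q U).trace := by
  have o := fun U => fro_r hσ0 hf (op_fr hσ0 hσ U)
  have := h.lipQ F S
    (fun U hU V hV => fro_l hq0 (hq V hV) (fro_r hg0 (o U) (hg U hU)))
    (fun U hU V hV => fro_l (by positivity) (h.opV hg0 hV (hg V hV)) (fro_r hq0 (o U) (hq U hU)))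
    (fun V hV => fro_l (by positivity) ((op_fr hσ0 hσ V).mulN (hq V hV) hσ0 hq0) hf)
  exact (show q * (f * σ * g) + (1 + g) * (f * σ * q) + σ * q * f =
    2 * f * σ * q * (1 + g) by ring) ▸ this

/-- `tr (F S Ξ)`, the Frobenius norm on `Ξ` -/
theorem lipX_op (h : SW G Vt Q X) {f σ g q xF xv : ℝ} (hf0 : 0 ≤ f) (hσ0 : 0 ≤ σ) (hg0 : 0 ≤ g)
    (hq0 : 0 ≤ q) (hf : OpLe F f) (hσ : OpLe S σ) (hg : ∀ U ∈ G, OpLe (Q U * Vt) g)
    (hq : ∀ U ∈ G, OpLe (Q U) q) (hx : ∀ U ∈ G, fro (X U) ≤ xF)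
    (hv : ∀ U ∈ G, fro (X U * Vt) ≤ xv) :
    LipO G (2 * f * σ * (q * xv + (1 + g) * xF)) fun U => (F * fr S U * X U).trace := by
  have o := fun U => hf.mulN (op_fr hσ0 hσ U) hf0 hσ0
  have := h.lipX F S
    (fun U hU V hV => fro_l hq0 (hq V hV) (fro_l (by positivity) (o U) (hv U hU)))
    (fun U hU V hV => fro_l (by positivity) (h.opV hg0 hV (hg V hV))
      (fro_l (by positivity) (o U) (hx U hU)))
    (fun U hU V hV => fro_r (by positivity) (hx V hV) ((o U).mulN (hg U hU) (by positivity) hg0))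
    (fun U hU V hV => fro_r (by positivity) ((h.froV hV).le.trans (hv V hV))
      ((o U).mulN (hq U hU) (by positivity) hq0))
    (fun V hV => fro_r hf0 (fro_l hσ0 (op_fr hσ0 hσ V) (hx V hV)) hf)
  exact (show q * (f * σ * xv) + (1 + g) * (f * σ * xF) + xF * (f * σ * g) + xv * (f * σ * q) +
    σ * xF * f = 2 * f * σ * (q * xv + (1 + g) * xF) by ring) ▸ this

/-- `tr (F S Ξ)`, the Frobenius norm on `F` -/
theorem lipX_fro (h : SW G Vt Q X) {f σ g q x xv : ℝ} (hσ0 : 0 ≤ σ) (hg0 : 0 ≤ g)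
    (hq0 : 0 ≤ q) (hx0 : 0 ≤ x) (hv0 : 0 ≤ xv) (hf : fro F ≤ f) (hσ : OpLe S σ)
    (hg : ∀ U ∈ G, OpLe (Q U * Vt) g) (hq : ∀ U ∈ G, OpLe (Q U) q) (hx : ∀ U ∈ G, OpLe (X U) x)
    (hv : ∀ U ∈ G, OpLe (X U * Vt) xv) :
    LipO G (2 * f * σ * (q * xv + (1 + g) * x)) fun U => (F * fr S U * X U).trace := by
  have o := fun U => fro_r hσ0 hf (op_fr hσ0 hσ U)
  have := h.lipX F S
    (fun U hU V hV => fro_l hq0 (hq V hV) (fro_r hv0 (o U) (hv U hU)))
    (fun U hU V hV => fro_l (by positivity) (h.opV hg0 hV (hg V hV)) (fro_r hx0 (o U) (hx U hU)))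
    (fun U hU V hV => fro_l hx0 (hx V hV) (fro_r hg0 (o U) (hg U hU)))
    (fun U hU V hV => fro_l hv0 (h.opXV hv0 hV (hv V hV)) (fro_r hq0 (o U) (hq U hU)))
    (fun V hV => fro_l (by positivity) ((op_fr hσ0 hσ V).mulN (hx V hV) hσ0 hx0) hf)
  exact (show q * (f * σ * xv) + (1 + g) * (f * σ * x) + x * (f * σ * g) + xv * (f * σ * q) +
    σ * x * f = 2 * f * σ * (q * xv + (1 + g) * x) by ring) ▸ this

end SW

theorem lip_congr {G : Set (OG n)} {L c : ℝ} {f g : OG n → ℝ} (h : LipO G L f)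
    (e : ∀ U ∈ G, g U = c + f U) : LipO G L g := fun U hU V hV => by
  rw [e U hU, e V hV, add_sub_add_left_eq_sub]; exact h U hU V hV

theorem lip_mono {G : Set (OG n)} {L L' : ℝ} {f : OG n → ℝ} (h : LipO G L f) (hL : L ≤ L') :
    LipO G L' f := fun U hU V hV =>
  (h U hU V hV).trans (mul_le_mul_of_nonneg_right hL (dO_nonneg _ _))

end Vale.Agent.N150.T2P
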