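import Vale.Agent.N150.WardQ
import Vale.Agent.N150.T2P1

/-! Block M3 of T2, pointwise part: graded operator bounds, finite rank and non trace terms. -/

namespace Vale.Agent.N150.T2M3

open Matrix
open Vale.Agent.P150 Vale.Agent.P150.F
open Vale.Agent.N150.Haar (fro fro_nonneg fro_transpose)
open Vale.Agent.N150.KB.Ch (opT opNeg fro_mul_l fro_mul_r op_smul_one abs_trace_op)
open Vale.Agent.N150.Wd (br)
open Vale.Agent.N150.T2P (abs_trace_mul)

variable {n : ℕ}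

/-! ### traces -/

theorem cyc {X Y : Mat n} (A B : Mat n) (h1 : X = A * B) (h2 : Y = B * A) :
    X.trace = Y.trace := by rw [h1, h2, trace_mul_comm]

theorem fro_sq_sym {X : Mat n} (hT : Xᵀ = X) : fro X ^ 2 = (X * X).trace := by
  rw [Haar.fro_sq, Haar.ip_eq_trace, hT]

theorem op_proj {X : Mat n} (hT : Xᵀ = X) (hX : X * X = X) : OpLe X 1 := fun v => by
  have e1 : F.sq (X *ᵥ v) = ip v (X *ᵥ v) := by
    have e : F.sq (X *ᵥ v) = (X *ᵥ v) ⬝ᵥ (X *ᵥ v) := by rw [← ipN_self]; rfl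
    rw [e, Matrix.dotProduct_mulVec, ← Matrix.mulVec_transpose, Matrix.mulVec_mulVec, hT, hX,
      dotProduct_comm]; rfl
  have h2 := ip_le v (X *ᵥ v)
  rw [← e1, ← nv_sq] at h2
  rw [one_pow, one_mul, ← nv_sq, ← nv_sq]
  have a := nv_nonneg (X *ᵥ v)
  have b := nv_nonneg v
  nlinarith

theorem tr_proj {X M : Mat n} (hT : Xᵀ = X) (hX : X * X = X) {ρ c : ℝ} (hρ : X.trace ≤ ρ)
    (hc : 0 ≤ c) (hM : OpLe M c) : |(X * M).trace| ≤ c * ρ := by
  have e : (X * M).trace = (X * (M * X)).trace := by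
    rw [← mul_assoc, trace_mul_cycle, hX]
  have h1 := abs_trace_mul X (M * X)
  have h2 := fro_mul_l hc hM X
  have h3 : fro X ^ 2 = X.trace := by rw [fro_sq_sym hT, hX]
  have h4 := fro_nonneg X
  rw [e]
  nlinarith

theorem tr_two {H X Y : Mat n} {a b ρ : ℝ} (hρ : fro H ^ 2 ≤ ρ) (ha : 0 ≤ a) (hb : 0 ≤ b)
    (hX : OpLe X a) (hY : OpLe Y b) : |(H * X * (H * Y)).trace| ≤ a * b * ρ := by
  have h1 := abs_trace_mul (H * X) (H * Y)
  have h2 := fro_mul_r ha hX H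
  have h3 := fro_mul_r hb hY H
  have h4 := mul_le_mul h2 h3 (fro_nonneg _) (mul_nonneg ha (fro_nonneg _))
  have h5 := mul_le_mul_of_nonneg_left hρ (mul_nonneg ha hb)
  nlinarith

/-! ### graded bounds -/

/-- the two units -/
structure Un (B v : ℝ) : Prop where
  hB : 2 ≤ B
  hv : 1 ≤ v

/-- graded operator bound -/
def Op (B v : ℝ) (j i : ℕ) (M : Mat n) : Prop := OpLe M (B ^ j * v ^ i)

/-- graded scalar bound -/
def Le (B v : ℝ) (j i : ℕ) (S x : ℝ) : Prop := |x| ≤ B ^ j * v ^ i * S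

namespace Un

variable {B v : ℝ} (u : Un B v) {j i j' i' : ℕ} {M N : Mat n} {S S' x y : ℝ}
include u

theorem B1 : 1 ≤ B := by linarith [u.hB]

theorem pos (j i : ℕ) : 0 < B ^ j * v ^ i := by
  have := u.hB; have := u.hv; positivity

theorem nn (j i : ℕ) : 0 ≤ B ^ j * v ^ i := (u.pos j i).le

theorem le (hj : j ≤ j') (hi : i ≤ i') : B ^ j * v ^ i ≤ B ^ j' * v ^ i' :=
  mul_le_mul (pow_le_pow_right₀ u.B1 hj) (pow_le_pow_right₀ u.hv hi)
    (pow_nonneg (by linarith [u.hv]) _) (pow_nonneg (by linarith [u.hB]) _)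

theorem one_le (j i : ℕ) : 1 ≤ B ^ j * v ^ i := by
  simpa using u.le (Nat.zero_le j) (Nat.zero_le i)

theorem add_le (j i j' i' : ℕ) :
    B ^ j * v ^ i + B ^ j' * v ^ i' ≤ B ^ (max j j' + 1) * v ^ max i i' := by
  have h1 := u.le (le_max_left j j') (le_max_left i i')
  have h2 := u.le (le_max_right j j') (le_max_right i i')
  have h3 := u.nn (max j j') (max i i')
  have h4 := u.hB
  rw [pow_succ]
  nlinarith

theorem mono (h : Op B v j i M) (hj : j ≤ j') (hi : i ≤ i') : Op B v j' i' M :=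
  OpLe.monoN h (u.nn _ _) (u.le hj hi)

theorem mul (h : Op B v j i M) (h' : Op B v j' i' N) : Op B v (j + j') (i + i') (M * N) := by
  have := OpLe.mulN h h' (u.nn _ _) (u.nn _ _)
  rwa [show B ^ j * v ^ i * (B ^ j' * v ^ i') = B ^ (j + j') * v ^ (i + i') by ring] at this

theorem tr (h : Op B v j i M) : Op B v j i Mᵀ := opT (u.nn _ _) h

theorem add (h : Op B v j i M) (h' : Op B v j' i' N) :
    Op B v (max j j' + 1) (max i i') (M + N) :=
  (OpLe.add h h' (u.nn _ _) (u.nn _ _)).monoN (add_nonneg (u.nn _ _) (u.nn _ _)) (u.add_le ..)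

omit u in
theorem proj (hT : Mᵀ = M) (hM : M * M = M) : Op B v 0 0 M := by
  simpa [Op] using op_proj hT hM

theorem lmono (h : Le B v j i S x) (hj : j ≤ j') (hi : i ≤ i') (hS : S ≤ S') :
    Le B v j' i' S' x := by
  have h0 : 0 ≤ S := nonneg_of_mul_nonneg_right ((abs_nonneg x).trans h) (u.pos j i) 
  exact h.trans (mul_le_mul (u.le hj hi) hS h0 (u.nn _ _))

theorem ladd (h : Le B v j i S x) (h' : Le B v j' i' S y) :
    Le B v (max j j' + 1) (max i i') S (x + y) := by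
  have h0 : 0 ≤ S := nonneg_of_mul_nonneg_right ((abs_nonneg x).trans h) (u.pos j i)
  refine (abs_add_le _ _).trans ((add_le_add h h').trans ?_)
  rw [← add_mul]
  exact mul_le_mul_of_nonneg_right (u.add_le ..) h0

omit u in
theorem lneg (h : Le B v j i S x) : Le B v j i S (-x) := by rwa [Le, abs_neg]

theorem lsub (h : Le B v j i S x) (h' : Le B v j' i' S y) :
    Le B v (max j j' + 1) (max i i') S (x - y) := by
  rw [sub_eq_add_neg]; exact u.ladd h (lneg h')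

omit u in
theorem lmul (h : Le B v j i S x) (h' : Le B v j' i' S' y) :
    Le B v (j + j') (i + i') (S * S') (x * y) := by
  rw [Le, abs_mul, show B ^ (j + j') * v ^ (i + i') * (S * S') =
    B ^ j * v ^ i * S * (B ^ j' * v ^ i' * S') by ring]
  exact mul_le_mul h h' (abs_nonneg _) ((abs_nonneg _).trans h)

omit u in
theorem lcongr (h : Le B v j i S x) (e : y = x) : Le B v j i S y := e ▸ h

omit u in
theorem lunit {w : ℝ} (hw : |w| ≤ 1) (h : Le B v j i S x) : Le B v j i S (w * x) := by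
  rw [Le, abs_mul]
  exact (mul_le_of_le_one_left (abs_nonneg _) hw).trans h

theorem trp {X : Mat n} {ρ : ℝ} (hT : Xᵀ = X) (hX : X * X = X) (hρ : X.trace ≤ ρ)
    (h : Op B v j i M) : Le B v j i ρ (X * M).trace := tr_proj hT hX hρ (u.nn _ _) h

theorem trn (h : Op B v j i M) : Le B v j i n M.trace := by
  rw [Le, mul_comm]; exact abs_trace_op (u.nn _ _) h

/-- absorb `k v ^ a ≤ B m` -/
theorem labs {k m : ℝ} {a : ℕ} (hk : k * v ^ a ≤ B * m) (hS : 0 ≤ S)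
    (h : Le B v j (i + a) (k * S) x) : Le B v (j + 1) i (m * S) x := by
  refine h.trans ?_
  have := mul_le_mul_of_nonneg_left hk (mul_nonneg (u.nn j i) hS)
  calc _ = B ^ j * v ^ i * S * (k * v ^ a) := by ring
    _ ≤ _ := this
    _ = _ := by ring

end Un

/-! ### the pointwise data -/

/-- everything block M3 uses at one point of the good set -/
structure Pt (B v r k w del : ℝ) (Pi P Hs Hi A G0 Kt Vt Ga Q : Mat n) : Prop where
  u : Un B v
  w0 : 1 / 2 ≤ w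
  w1 : w ≤ 1
  d0 : 0 < del
  d1 : del⁻¹ ≤ B * v ^ 4
  piT : Piᵀ = Pi
  piP : Pi * Pi = Pi
  pT : Pᵀ = P
  pP : P * P = P
  hsi : Hs * Hi = 1
  his : Hi * Hs = 1
  cPi : Pi * Hs = Hs * Pi
  cP : P * Hs = Hs * P
  hsT : Hsᵀ = Hs
  ktT : Ktᵀ = Kt
  vtT : Vtᵀ = Vt
  qT : Qᵀ = Q
  eK : Kt = 1 - w⁻¹ • G0
  eA : A * G0 = Kt
  eQ : Q = -(Ga * A)
  eG : Ga = 1 + Q * (Vt + w • 1)
  pG : P * G0 = del⁻¹ • P
  pA : A * P = (del - w⁻¹) • P
  trK : Kt.trace = 0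
  trP : P.trace = k
  kv : k * v ^ 6 ≤ B * n
  trB : (1 - Pi).trace ≤ r
  oHs : OpLe Hs (B * v ^ 2)
  oHi : OpLe Hi B
  oG : OpLe (Hi * Ga * Hi) B
  oQ : OpLe (Hi * Q * Hi) B
  oV : OpLe (Hs * Vt * Hs) B
  oK : OpLe (Hi * Kt * Hi) B
  fH : fro Hs ^ 2 ≤ B * n
  fHH : fro (Hs * Hs) ^ 2 ≤ B * v ^ 2 * n
  fV : (Vt * Vt).trace * v ^ 4 ≤ B * n
  trV : |Vt.trace| ≤ B * r

namespace Pt

variable {B v r k w del : ℝ} {Pi P Hs Hi A G0 Kt Vt Ga Q : Mat n}
  (h : Pt B v r k w del Pi P Hs Hi A G0 Kt Vt Ga Q) {j i j' i' : ℕ} {M N T : Mat n}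
include h

theorem wabs : |w| ≤ 1 := abs_le.2 ⟨by linarith [h.w0], h.w1⟩

theorem wne : w ≠ 0 := ne_of_gt (by linarith [h.w0])

theorem hs : Op B v 1 2 Hs := by simpa [Op] using h.oHs
theorem hi : Op B v 1 0 Hi := by simpa [Op] using h.oHi
theorem gh : Op B v 1 0 (Hi * Ga * Hi) := by simpa [Op] using h.oG
theorem qh : Op B v 1 0 (Hi * Q * Hi) := by simpa [Op] using h.oQ
theorem vh : Op B v 1 0 (Hs * Vt * Hs) := by simpa [Op] using h.oV
theorem kh : Op B v 1 0 (Hi * Kt * Hi) := by simpa [Op] using h.oK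
theorem pi : Op B v 0 0 Pi := Un.proj h.piT h.piP
theorem p : Op B v 0 0 P := Un.proj h.pT h.pP

theorem sand (M : Mat n) : Hs * (Hi * M * Hi) * Hs = M := by
  calc _ = (Hs * Hi) * M * (Hi * Hs) := by noncomm_ring
    _ = M := by rw [h.hsi, h.his, one_mul, mul_one]

theorem sand' (M : Mat n) : Hi * (Hs * M * Hs) * Hi = M := by
  calc _ = (Hi * Hs) * M * (Hs * Hi) := by noncomm_ring
    _ = M := by rw [h.hsi, h.his, one_mul, mul_one]

theorem ga : Op B v 3 4 Ga := h.sand Ga ▸ h.u.mul (h.u.mul h.hs h.gh) h.hs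
theorem q : Op B v 3 4 Q := h.sand Q ▸ h.u.mul (h.u.mul h.hs h.qh) h.hs
theorem kt : Op B v 3 4 Kt := h.sand Kt ▸ h.u.mul (h.u.mul h.hs h.kh) h.hs
theorem vt : Op B v 3 0 Vt := h.sand' Vt ▸ h.u.mul (h.u.mul h.hi h.vh) h.hi
theorem gaT : Op B v 3 4 Gaᵀ := h.u.tr h.ga

theorem th : Op B v 4 0 (Vt + w • 1) := by
  have : Op B v 0 0 (w • (1 : Mat n)) := op_smul_one (by simpa using h.wabs)
  exact h.u.mono (h.u.add h.vt this) (by norm_num) (by norm_num)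

theorem vM (M : Mat n) : Hi * (Hs * Vt * Hs) * (Hi * M * Hi) * Hs = Vt * M := by
  calc _ = (Hi * Hs) * Vt * (Hs * Hi) * M * (Hi * Hs) := by noncomm_ring
    _ = _ := by rw [h.hsi, h.his, one_mul, mul_one, mul_one]

theorem vga : Op B v 4 2 (Vt * Ga) := h.vM Ga ▸ h.u.mul (h.u.mul (h.u.mul h.hi h.vh) h.gh) h.hs
theorem vq : Op B v 4 2 (Vt * Q) := h.vM Q ▸ h.u.mul (h.u.mul (h.u.mul h.hi h.vh) h.qh) h.hs

theorem qv : Op B v 4 2 (Q * Vt) := by
  have := h.u.tr h.vq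
  rwa [transpose_mul, h.qT, h.vtT] at this

theorem xi : Op B v 6 8 (Ga * P * Gaᵀ) := h.u.mul (h.u.mul h.ga h.p) h.gaT

theorem bT : (1 - Pi)ᵀ = 1 - Pi := by rw [transpose_sub, transpose_one, h.piT]

theorem bP : (1 - Pi) * (1 - Pi) = 1 - Pi := by
  rw [mul_sub, sub_mul, sub_mul, h.piP]; simp

/-- finite rank term -/
theorem fr (hM : Op B v j i M) : Le B v j i r (M.trace - (M * Pi).trace) := by
  have := h.u.trp h.bT h.bP h.trB hM
  rwa [sub_mul, one_mul, trace_sub, trace_mul_comm] at this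

/-- finite rank term, after conjugation with `Hs` -/
theorem frc (hM : Op B v j i (Hi * M * Hs)) : Le B v j i r (M.trace - (M * Pi).trace) := by
  have := h.fr hM
  rwa [trace_mul_cycle, h.hsi, one_mul, mul_assoc _ Hs, ← h.cPi, ← mul_assoc, trace_mul_cycle,
    ← mul_assoc, h.hsi, one_mul] at this

theorem frc' (hM : Op B v j i (Hs * M * Hi)) : Le B v j i r (M.trace - (M * Pi).trace) := by
  have := h.fr hM
  have c : Hi * Pi = Pi * Hi := by
    calc _ = Hi * (Pi * Hs) * Hi := by rw [mul_assoc, mul_assoc, h.hsi, mul_one]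
      _ = _ := by rw [h.cPi, ← mul_assoc, h.his, one_mul]
  rwa [trace_mul_cycle, h.his, one_mul, mul_assoc _ Hi, c, ← mul_assoc, trace_mul_cycle,
    ← mul_assoc, h.his, one_mul] at this

/-- rank `k` term -/
theorem rk (hM : Op B v j i M) : Le B v j i k (P * M).trace := h.u.trp h.pT h.pP h.trP.le hM

theorem rkn (hM : Op B v j (i + 6) M) : Le B v (j + 1) i n (P * M).trace := by
  have := h.u.labs (S := 1) h.kv zero_le_one (by rw [mul_one]; exact h.rk hM)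
  rwa [mul_one] at this

/-- one factor `Hs X Hs` gives a factor `n` without loss -/
theorem th2 (hX : Op B v j i (Hi * M * Hi)) (hY : Op B v j' i' N) :
    Le B v (j + j' + 1) (i + i') n (M * N).trace := by
  have := tr_two h.fH (h.u.nn _ _) (h.u.nn _ _) hX hY
  rw [← mul_assoc, h.sand] at this
  exact this.trans (le_of_eq (by ring))

/-! #### algebra -/

theorem thT : (Vt + w • (1 : Mat n))ᵀ = Vt + w • 1 := by
  rw [transpose_add, h.vtT, transpose_smul, transpose_one]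

theorem eGT : Gaᵀ = 1 + (Vt + w • 1) * Q := by
  conv_lhs => rw [h.eG, transpose_add, transpose_one, transpose_mul, h.thT, h.qT]

theorem eQV : Q * Vt = Ga - 1 - w • Q := by
  conv_rhs => rw [h.eG]
  rw [mul_add, Matrix.mul_smul, mul_one]; abel

theorem eWK : w • Kt = w • 1 - G0 := by
  rw [h.eK, smul_sub, smul_smul, mul_inv_cancel₀ h.wne, one_smul]

theorem qvk : Q * Vt * Kt = -Kt - w • Q := by
  have e1 : Q * G0 = -(Ga * Kt) := by rw [h.eQ, neg_mul, mul_assoc, h.eA]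
  rw [h.eQV, sub_mul, sub_mul, one_mul, Matrix.smul_mul, ← Matrix.mul_smul, h.eWK, mul_sub,
    Matrix.mul_smul, mul_one, e1]
  abel

theorem gvk : Gaᵀ * Vt * Kt = G0 - w • Gaᵀ := by
  have e0 : Gaᵀ * (Vt + w • 1) = (Vt + w • 1) * Ga := by
    conv_rhs => rw [h.eG]
    rw [h.eGT]
    generalize Vt + w • (1 : Mat n) = Th
    noncomm_ring
  have e1 : Gaᵀ * (Vt + w • 1) * A = 1 - Gaᵀ := by
    rw [e0, mul_assoc, ← neg_neg (Ga * A), ← h.eQ, h.eGT]
    generalize Vt + w • (1 : Mat n) = Th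
    noncomm_ring
  have e2 : Gaᵀ * (Vt + w • 1) * Kt = G0 - Gaᵀ * G0 := by
    rw [← h.eA, ← mul_assoc, e1, sub_mul, one_mul]
  have e3 : Gaᵀ * Vt * Kt = Gaᵀ * (Vt + w • 1) * Kt - Gaᵀ * (w • Kt) := by
    rw [mul_add, add_mul, Matrix.mul_smul, mul_one, Matrix.smul_mul, Matrix.mul_smul]; abel
  rw [e3, e2, h.eWK, mul_sub, Matrix.mul_smul, mul_one]; abel

theorem trPG : w * del * (Ga * P).trace = k + (P * Q * Vt).trace := by
  have e1 : (Q * P).trace = -((del - w⁻¹) * (Ga * P).trace) := by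
    rw [h.eQ, neg_mul, mul_assoc, h.pA, Matrix.mul_smul, trace_neg, trace_smul, smul_eq_mul]
  have e2 : (P * Q * Vt).trace = (Ga * P).trace - k - w * (Q * P).trace := by
    rw [mul_assoc, trace_mul_comm, h.eQV, sub_mul, sub_mul, one_mul, Matrix.smul_mul, trace_sub,
      trace_sub, trace_smul, smul_eq_mul, h.trP]
  rw [e2, e1]
  have := h.wne
  field_simp
  ring

/-! #### Frobenius norms -/

theorem fro_le {x : ℝ} (hx : x ^ 2 ≤ (B ^ j * v ^ i) ^ 2 * n) :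
    x ≤ B ^ j * v ^ i * √n := by
  refine abs_le_of_sq_le_sq' ?_ (mul_nonneg (h.u.nn _ _) (Real.sqrt_nonneg _)) |>.2
  rwa [mul_pow, Real.sq_sqrt (Nat.cast_nonneg n)]

theorem froQ : fro Q ≤ B ^ 2 * v ^ 1 * √n := by
  refine h.fro_le ?_
  have e : (Q * Q).trace = (Hs * Hs * (Hi * Q * Hi) * (Hs * Hs * (Hi * Q * Hi))).trace := by
    conv_lhs => rw [← h.sand Q]
    rw [← mul_assoc, trace_mul_comm _ Hs]
    simp only [mul_assoc]
  have := (le_abs_self _).trans (tr_two h.fHH (h.u.nn _ _) (h.u.nn _ _) h.qh h.qh)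
  rw [fro_sq_sym h.qT, e]
  refine this.trans ?_
  have a := h.u.B1
  have b : (0 : ℝ) ≤ B ^ 3 * v ^ 2 * n := mul_nonneg (h.u.nn _ _) (Nat.cast_nonneg n)
  nlinarith

theorem froP (hM : Op B v j (i + 3) M) (hN : Op B v j' i' N) :
    fro (M * P * N) ≤ B ^ (j + j' + 1) * v ^ (i + i') * √n := by
  have h1 := (fro_mul_r (h.u.nn _ _) hN (M * P)).trans
    (mul_le_mul_of_nonneg_left (fro_mul_l (h.u.nn _ _) hM P) (h.u.nn _ _))
  have h2 : fro P * v ^ 3 ≤ B ^ 1 * v ^ 0 * √n := by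
    refine h.fro_le ?_
    rw [mul_pow, fro_sq_sym h.pT, h.pP, h.trP]
    have a := h.u.B1
    have b := h.kv
    have c : (0 : ℝ) ≤ B * n := mul_nonneg (by linarith) (Nat.cast_nonneg n)
    nlinarith
  have h3 := mul_le_mul_of_nonneg_left h2 (h.u.nn (j + j') (i + i'))
  refine h1.trans (le_of_eq_of_le ?_ (h3.trans_eq ?_)) <;> ring

theorem froX : fro (Ga * P * Gaᵀ) ≤ B ^ 7 * v ^ 5 * √n := h.froP (i := 1) h.ga h.gaT

theorem gv : Op B v 4 2 (Gaᵀ * Vt) := by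
  have := h.u.tr h.vga
  rwa [transpose_mul, h.vtT] at this

theorem froXV : fro (Ga * P * Gaᵀ * Vt) ≤ B ^ 8 * v ^ 3 * √n := by
  rw [mul_assoc]; exact h.froP (i := 1) h.ga h.gv

/-! #### non trace terms -/

theorem rk2 (i : ℕ) (M N : Mat n) (hM : Op B v j i' (N * M)) (hi : i' ≤ i + 6) :
    Le B v (j + 1) i n (M * P * N).trace := by
  rw [trace_mul_cycle, trace_mul_comm]; exact h.rkn (h.u.mono hM le_rfl hi)

omit h in
theorem wb_eq (S : Mat n) : br Pi (S * Q) (Vt * Ga) - br Pi (S * Q * Vt) Ga -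
    ((S * Q * (Vt * Pi)).trace * (Ga * Pi).trace - (S * Q * Pi).trace * (Ga * (Pi * Vt)).trace) =
    (Pi * (S * Q)ᵀ * Pi * (Vt * Ga)).trace - (Pi * (S * Q * Vt)ᵀ * Pi * Ga).trace := by
  rw [br, br, trace_mul_comm Ga, trace_mul_comm Ga, mul_assoc Pi Vt, mul_assoc (S * Q) Vt]
  ring

theorem wb1 : Le B v 9 0 n (br Pi (P * Q) (Vt * Ga) - br Pi (P * Q * Vt) Ga -
    ((P * Q * (Vt * Pi)).trace * (Ga * Pi).trace - (P * Q * Pi).trace * (Ga * (Pi * Vt)).trace)) := by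
  have a := h.rk2 0 (Pi * Q) (Pi * (Vt * Ga))
    (h.u.mul (h.u.mul h.pi h.vga) (h.u.mul h.pi h.q))
    (by norm_num)
  have b := h.rk2 0 (Pi * (Vt * Q)) (Pi * Ga)
    (h.u.mul (h.u.mul h.pi h.ga) (h.u.mul h.pi h.vq))
    (by norm_num)
  rw [wb_eq]
  refine h.u.lmono (Un.lcongr (h.u.lsub a b) ?_) (by norm_num) (by norm_num) le_rfl
  simp only [transpose_mul, h.qT, h.pT, h.vtT, mul_assoc]

theorem wb2 : Le B v 13 10 n (br Pi (Kt * Kt * Q) (Vt * Ga) - br Pi (Kt * Kt * Q * Vt) Ga -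
    ((Kt * Kt * Q * (Vt * Pi)).trace * (Ga * Pi).trace -
      (Kt * Kt * Q * Pi).trace * (Ga * (Pi * Vt)).trace)) := by
  have a := h.th2 h.qh (h.u.mul (h.u.mul (h.u.mul (h.u.mul h.kt h.kt) h.pi) h.vga) h.pi)
  have b := h.th2 h.gh (h.u.mul (h.u.mul (h.u.mul h.pi h.vq) (h.u.mul h.kt h.kt)) h.pi)
  rw [wb_eq]
  refine h.u.lmono (Un.lcongr (h.u.lsub a b) ?_) (by norm_num) (by norm_num) le_rfl
  rw [trace_mul_comm Ga, ← mul_assoc Q, trace_mul_comm _ Pi]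
  simp only [transpose_mul, h.qT, h.ktT, h.vtT, mul_assoc]

theorem wa (hT : Op B v j 0 T) : Le B v (j + 6) 4 n (br Pi (T * Q) Gaᵀ - br Pi (T * Ga) Q -
    ((Ga * (Pi * T)).trace * (Q * Pi).trace - (Q * (Pi * T)).trace * (Ga * Pi).trace)) := by
  have a := h.th2 h.qh (h.u.mul (h.u.mul (h.u.mul (h.u.tr hT) h.pi) h.gaT) h.pi)
  have b := h.th2 h.qh (h.u.mul (h.u.mul (h.u.mul h.pi h.gaT) (h.u.tr hT)) h.pi)
  refine h.u.lmono (Un.lcongr (h.u.lsub a b) ?_) (by omega) (by norm_num) le_rfl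
  have e1 : (Pi * Gaᵀ).trace = (Ga * Pi).trace := by
    rw [← trace_transpose, transpose_mul, transpose_transpose, h.piT]
  have e2 : (Q * (Tᵀ * Pi * Gaᵀ * Pi)).trace = (Pi * (T * Q)ᵀ * Pi * Gaᵀ).trace :=
    cyc (Q * Tᵀ * Pi * Gaᵀ) Pi (by simp only [mul_assoc])
      (by simp only [transpose_mul, h.qT, mul_assoc])
  have e3 : (Q * (Pi * Gaᵀ * Tᵀ * Pi)).trace = (Pi * (T * Ga)ᵀ * Pi * Q).trace :=
    cyc Q _ rfl (by simp only [transpose_mul, mul_assoc])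
  rw [br, br, e1, e2, e3, trace_mul_cycle T Q, trace_mul_cycle T Ga, trace_mul_comm Ga (Pi * T),
    trace_mul_comm Q (Pi * T), trace_mul_comm Q Pi]
  ring

theorem thx : Op B v 7 4 ((Vt + w • 1) * Ga) := h.u.mul h.th h.ga

theorem thxT : Op B v 7 4 (Gaᵀ * (Vt + w • 1)) := h.u.mul h.gaT h.th

theorem xiT : (Ga * P * Gaᵀ)ᵀ = Ga * P * Gaᵀ := by
  rw [transpose_mul, transpose_mul, transpose_transpose, h.pT, mul_assoc]

theorem wc (hT : Op B v j 0 T) : Le B v (j + 17) 6 n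
    (br Pi (T * Q) ((Vt + w • 1) * (Ga * P * Gaᵀ)) - br Pi (T * Ga) (Ga * P * Gaᵀ) +
      br Pi (T * (Ga * P * Gaᵀ)) Gaᵀ - br Pi (T * (Ga * P * Gaᵀ) * (Vt + w • 1)) Q -
    ((Ga * (Pi * T)).trace * (Ga * P * Gaᵀ * Pi).trace -
      (Q * (Pi * T)).trace * (Ga * P * Gaᵀ * (Pi * (Vt + w • 1))).trace +
      ((Ga * P * Gaᵀ * ((Vt + w • 1) * Pi * T)).trace * (Q * Pi).trace -
        (Ga * P * Gaᵀ * (Pi * T)).trace * (Ga * Pi).trace))) := by
  have tT := h.u.tr hT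
  have a := h.rk2 6 (Pi * Q * Tᵀ * Pi * ((Vt + w • 1) * Ga)) Gaᵀ
    (h.u.mul h.gaT (h.u.mul (h.u.mul (h.u.mul (h.u.mul h.pi h.q) tT) h.pi) h.thx))
    (by norm_num)
  have b := h.rk2 6 (Pi * Gaᵀ * Tᵀ * Pi * Ga) Gaᵀ
    (h.u.mul h.gaT (h.u.mul (h.u.mul (h.u.mul (h.u.mul h.pi h.gaT) tT) h.pi) h.ga))
    (by norm_num)
  have c := h.rk2 6 (Pi * Ga) (Gaᵀ * Tᵀ * Pi * Gaᵀ)
    (h.u.mul (h.u.mul (h.u.mul (h.u.mul h.gaT tT) h.pi) h.gaT) (h.u.mul h.pi h.ga))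
    (by norm_num)
  have d := h.rk2 6 (Pi * ((Vt + w • 1) * Ga)) (Gaᵀ * Tᵀ * Pi * Q)
    (h.u.mul (h.u.mul (h.u.mul (h.u.mul h.gaT tT) h.pi) h.q) (h.u.mul h.pi h.thx))
    (by norm_num)
  refine h.u.lmono (Un.lcongr (h.u.lsub (h.u.ladd (h.u.lsub a b) c) d) ?_) (by omega)
    (by norm_num) le_rfl
  have e1 : (Pi * Gaᵀ).trace = (Ga * Pi).trace := by
    rw [← trace_transpose, transpose_mul, transpose_transpose, h.piT]
  have tt := h.thT
  have xt := h.xiT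
  have e2 : Pi * Q * Tᵀ * Pi * ((Vt + w • 1) * Ga) * P * Gaᵀ =
      Pi * (T * Q)ᵀ * Pi * ((Vt + w • 1) * (Ga * P * Gaᵀ)) := by
    simp only [transpose_mul, h.qT, mul_assoc]
  have e3 : Pi * Gaᵀ * Tᵀ * Pi * Ga * P * Gaᵀ = Pi * (T * Ga)ᵀ * Pi * (Ga * P * Gaᵀ) := by
    simp only [transpose_mul, mul_assoc]
  have e4 : Pi * Ga * P * (Gaᵀ * Tᵀ * Pi * Gaᵀ) = Pi * (T * (Ga * P * Gaᵀ))ᵀ * Pi * Gaᵀ := by
    rw [transpose_mul T, xt]; simp only [mul_assoc]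
  have e5 : Pi * ((Vt + w • 1) * Ga) * P * (Gaᵀ * Tᵀ * Pi * Q) =
      Pi * (T * (Ga * P * Gaᵀ) * (Vt + w • 1))ᵀ * Pi * Q := by
    rw [transpose_mul, transpose_mul T, xt, tt]; simp only [mul_assoc]
  rw [e2, e3, e4, e5, br, br, br, br, e1]
  generalize Ga * P * Gaᵀ = X
  generalize Vt + w • (1 : Mat n) = Th
  rw [trace_mul_cycle T Q, trace_mul_cycle T Ga, trace_mul_cycle T X, trace_mul_comm Ga (Pi * T),
    trace_mul_comm Q (Pi * T), trace_mul_comm X (Pi * T), trace_mul_comm X Pi, trace_mul_comm Q Pi,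
    trace_mul_comm X (Pi * Th), trace_mul_comm X (Th * Pi * T), mul_assoc Pi Th X,
    mul_assoc (T * X) Th Pi, trace_mul_comm (T * X), mul_assoc (Th * Pi) T X]
  ring

theorem wd : Le B v 21 8 n
    (br Pi (Kt * (Ga * P * Gaᵀ) * Vt) Ga + br Pi (Kt * Q * Vt) (Ga * P * Gaᵀ * (Vt + w • 1)) -
      br Pi (Kt * (Ga * P * Gaᵀ)) (Vt * Ga) - br Pi (Kt * Q) (Vt * (Ga * P * Gaᵀ) * (Vt + w • 1)) -
    ((Kt * (Ga * P * Gaᵀ) * Pi).trace * (Ga * (Pi * Vt)).trace -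
      (Kt * (Ga * P * Gaᵀ) * (Vt * Pi)).trace * (Ga * Pi).trace +
      ((Kt * Q * Pi).trace * (Ga * P * Gaᵀ * ((Vt + w • 1) * Pi * Vt)).trace -
        (Kt * Q * (Vt * Pi)).trace * (Ga * P * Gaᵀ * ((Vt + w • 1) * Pi)).trace))) := by
  have a := h.rk2 8 (Pi * (Vt * Ga)) (Gaᵀ * Kt * Pi * Ga)
    (h.u.mul (h.u.mul (h.u.mul (h.u.mul h.gaT h.kt) h.pi) h.ga) (h.u.mul h.pi h.vga))
    (by norm_num)
  have b := h.rk2 8 (Pi * (Vt * Q) * Kt * Pi * Ga) (Gaᵀ * (Vt + w • 1))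
    (h.u.mul h.thxT (h.u.mul (h.u.mul (h.u.mul (h.u.mul h.pi h.vq) h.kt) h.pi) h.ga))
    (by norm_num)
  have c := h.rk2 8 (Pi * Ga) (Gaᵀ * Kt * Pi * (Vt * Ga))
    (h.u.mul (h.u.mul (h.u.mul (h.u.mul h.gaT h.kt) h.pi) h.vga) (h.u.mul h.pi h.ga))
    (by norm_num)
  have d := h.rk2 8 (Pi * Q * Kt * Pi * (Vt * Ga)) (Gaᵀ * (Vt + w • 1))
    (h.u.mul h.thxT (h.u.mul (h.u.mul (h.u.mul (h.u.mul h.pi h.q) h.kt) h.pi) h.vga))
    (by norm_num)
  refine h.u.lmono (Un.lcongr (h.u.lsub (h.u.lsub (h.u.ladd a b) c) d) ?_) (by norm_num)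
    (by norm_num) le_rfl
  have xt := h.xiT
  have e2 : Pi * (Vt * Ga) * P * (Gaᵀ * Kt * Pi * Ga) =
      Pi * (Kt * (Ga * P * Gaᵀ) * Vt)ᵀ * Pi * Ga := by
    rw [transpose_mul, transpose_mul Kt, xt, h.vtT, h.ktT]; simp only [mul_assoc]
  have e3 : Pi * (Vt * Q) * Kt * Pi * Ga * P * (Gaᵀ * (Vt + w • 1)) =
      Pi * (Kt * Q * Vt)ᵀ * Pi * (Ga * P * Gaᵀ * (Vt + w • 1)) := by
    rw [transpose_mul, transpose_mul Kt, h.qT, h.vtT, h.ktT]; simp only [mul_assoc]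
  have e4 : Pi * Ga * P * (Gaᵀ * Kt * Pi * (Vt * Ga)) =
      Pi * (Kt * (Ga * P * Gaᵀ))ᵀ * Pi * (Vt * Ga) := by
    rw [transpose_mul Kt, xt, h.ktT]; simp only [mul_assoc]
  have e5 : Pi * Q * Kt * Pi * (Vt * Ga) * P * (Gaᵀ * (Vt + w • 1)) =
      Pi * (Kt * Q)ᵀ * Pi * (Vt * (Ga * P * Gaᵀ) * (Vt + w • 1)) := by
    rw [transpose_mul Kt, h.qT, h.ktT]; simp only [mul_assoc]
  rw [e2, e3, e4, e5, br, br, br, br]
  generalize Ga * P * Gaᵀ = X
  generalize Vt + w • (1 : Mat n) = Th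
  rw [trace_mul_comm Ga (Pi * Vt), trace_mul_comm Ga Pi, mul_assoc (Kt * X) Vt Pi,
    mul_assoc (Kt * Q) Vt Pi, mul_assoc Pi Vt Ga, ← mul_assoc X Th Pi, trace_mul_comm (X * Th) Pi,
    mul_assoc Th Pi Vt, ← mul_assoc X Th, trace_mul_comm (X * Th), mul_assoc Pi Vt,
    mul_assoc Vt X Th]
  ring

/-! #### sizes and identities up to finite rank -/

theorem sP : Le B v 3 4 k (P * Q * Pi).trace := by
  rw [mul_assoc]; exact h.rk (h.u.mul h.q h.pi)

theorem sKK : Le B v 8 8 n (Kt * Kt * Q * Pi).trace := by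
  have := h.th2 h.qh (h.u.mul h.pi (h.u.mul h.kt h.kt))
  rwa [← mul_assoc, trace_mul_comm, ← mul_assoc] at this

theorem sG (hT : Op B v j 0 T) : Le B v (j + 2) 0 n (Ga * T).trace :=
  h.u.lmono (h.th2 h.gh hT) (by omega) le_rfl le_rfl

theorem sX (hT : Op B v j i T) : Le B v (j + 7) (i + 2) n (Ga * P * Gaᵀ * T).trace := by
  rw [mul_assoc]
  exact h.u.lmono (h.rk2 (i + 2) _ _ (h.u.mul (h.u.mul h.gaT hT) h.ga) (by omega)) (by omega)
    le_rfl le_rfl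

theorem sKM (hM : Op B v j 0 (Hi * M * Hi)) (hT : Op B v 0 0 T) (c : T * Hs = Hs * T) :
    Le B v (j + 2) 2 n (Kt * M * T).trace := by
  have e : (Kt * M * T).trace =
      (Hs * Hs * (Hi * M * Hi * T) * (Hs * Hs * (Hi * Kt * Hi))).trace := by
    conv_lhs => rw [← h.sand M, ← h.sand Kt]
    generalize Hi * M * Hi = X
    generalize Hi * Kt * Hi = Y
    refine cyc (Hs * Y) (Hs * Hs * X * Hs * T) (by simp only [mul_assoc]) ?_
    rw [mul_assoc _ Hs T, ← c]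
    simp only [mul_assoc]
  have := tr_two h.fHH (h.u.nn _ _) (h.u.nn _ _) (h.u.mul hM hT) h.kh
  rw [e]
  exact this.trans (le_of_eq (by ring))

theorem sKQ : Le B v 3 2 n (Kt * Q * Pi).trace := h.sKM (j := 1) h.qh h.pi h.cPi

theorem sK2 : Le B v 3 2 n (Kt * Kt).trace := by
  have := h.sKM (j := 1) h.kh (Un.proj transpose_one (mul_one 1)) (by rw [mul_one, one_mul])
  rwa [mul_one] at this

theorem sKX : Le B v 10 6 n (Kt * (Ga * P * Gaᵀ) * Pi).trace := by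
  have := h.sX (h.u.mul h.pi h.kt)
  rwa [← mul_assoc, trace_mul_comm, ← mul_assoc] at this

theorem trVV : 0 ≤ (Vt * Vt).trace := by rw [← fro_sq_sym h.vtT]; positivity

theorem k0 : 0 ≤ k := by rw [← h.trP, ← h.pP, ← fro_sq_sym h.pT]; positivity

theorem r0 : 0 ≤ r := by
  refine le_trans ?_ h.trB
  rw [← h.bP, ← fro_sq_sym h.bT]; positivity

theorem dinv : Le B v 1 4 1 del⁻¹ := by
  rw [Le, abs_of_pos (inv_pos.2 h.d0), pow_one, mul_one]; exact h.d1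

/-- the first trace of (Wd) -/
theorem i1 : Le B v 9 8 r (w * (Kt * (Ga * P * Gaᵀ) * (Vt * Pi)).trace -
    del⁻¹ ^ 2 * (P * Q * (Vt * Pi)).trace + w ^ 2 * (Ga * P * Gaᵀ * Pi).trace - del⁻¹ ^ 2 * k) := by
  have c : Hi * P = P * Hi := by
    calc _ = Hi * (P * Hs) * Hi := by rw [mul_assoc, mul_assoc, h.hsi, mul_one]
      _ = _ := by rw [h.cP, ← mul_assoc, h.his, one_mul]
  have a1 : Le B v 2 0 r ((P * Q * Vt).trace - (P * Q * Vt * Pi).trace) := by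
    refine h.frc (h.u.mono ((?_ : P * (Hi * Q * Hi) * (Hs * Vt * Hs) = _) ▸
      h.u.mul (h.u.mul h.p h.qh) h.vh) (by norm_num) (by norm_num))
    calc _ = P * Hi * Q * (Hi * Hs) * Vt * Hs := by simp only [mul_assoc]
      _ = _ := by rw [h.his, ← c]; simp only [mul_assoc, mul_one]
  have a2 := h.fr h.xi
  have a3 : Le B v 8 8 r ((Kt * (Ga * P * Gaᵀ) * Vt).trace -
      (Kt * (Ga * P * Gaᵀ) * Vt * Pi).trace) := by
    have gT := h.u.tr h.gh
    have hiT : Hiᵀ = Hi := by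
      have e := congrArg transpose h.his
      rw [transpose_mul, h.hsT, transpose_one] at e
      calc Hiᵀ = Hi * Hs * Hiᵀ := by rw [h.his, one_mul]
        _ = Hi := by rw [mul_assoc, e, mul_one]
    rw [transpose_mul, transpose_mul, hiT] at gT
    refine h.frc (h.u.mono ((?_ : Hi * Kt * Hi * Hs * Hs * (Hi * Ga * Hi) * Hs * P * Hs *
      (Hi * (Gaᵀ * Hi)) * (Hs * Vt * Hs) = _) ▸ h.u.mul (h.u.mul (h.u.mul (h.u.mul (h.u.mul
      (h.u.mul (h.u.mul (h.u.mul h.kh h.hs) h.hs) h.gh) h.hs) h.p) h.hs) gT) h.vh)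
      (by norm_num) (by norm_num))
    calc _ = Hi * Kt * (Hi * Hs) * (Hs * Hi) * Ga * (Hi * Hs) * P * (Hs * Hi) * Gaᵀ * (Hi * Hs) *
        Vt * Hs := by simp only [mul_assoc]
      _ = _ := by rw [h.his, h.hsi]; simp only [mul_assoc, mul_one]
  have e1 : (Kt * (Ga * P * Gaᵀ) * Vt).trace =
      del⁻¹ * (Ga * P).trace - w * (Ga * P * Gaᵀ).trace := by
    rw [cyc (Y := Ga * P * (Gaᵀ * Vt * Kt)) Kt (Ga * P * Gaᵀ * Vt) (by simp only [mul_assoc])
      (by simp only [mul_assoc]), h.gvk, mul_sub, mul_assoc Ga P G0, h.pG, Matrix.mul_smul,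
      Matrix.mul_smul, trace_sub, trace_smul, trace_smul, smul_eq_mul, smul_eq_mul]
  have a4 := Un.lmul (Un.lmul h.dinv h.dinv) a1
  rw [one_mul, one_mul] at a4
  refine h.u.lmono (Un.lcongr (h.u.lsub (h.u.lsub a4 (Un.lunit h.wabs (Un.lunit h.wabs a2)))
    (Un.lunit h.wabs a3)) ?_) (by norm_num) (by norm_num) le_rfl
  have e2 := h.trPG
  have e3 : w * (Ga * P).trace = del⁻¹ * (k + (P * Q * Vt).trace) := by
    rw [← e2]; have := h.d0.ne'; field_simp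
  rw [e1, mul_assoc (Kt * _) Vt Pi, mul_assoc (P * Q) Vt Pi]
  linear_combination del⁻¹ * e3

theorem i2 : Le B v 11 10 r ((Kt * Kt * Q * (Vt * Pi)).trace + w * (Kt * Q * Pi).trace +
    (Kt * Kt).trace) := by
  have a1 := h.fr (h.u.mul (h.u.mul h.kt h.kt) h.qv)
  have a2 := h.fr (h.u.mul h.kt h.q)
  have e1 : (Kt * Kt * (Q * Vt)).trace = -(Kt * Kt).trace - w * (Kt * Q).trace := by
    rw [cyc (Y := Kt * (Q * Vt * Kt)) Kt (Kt * Q * Vt) (by simp only [mul_assoc])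
      (by simp only [mul_assoc]), h.qvk, mul_sub, mul_neg, Matrix.mul_smul, trace_sub, trace_neg,
      trace_smul, smul_eq_mul]
  refine h.u.lmono (Un.lcongr (h.u.lsub (Un.lneg a1) (Un.lunit h.wabs a2)) ?_) (by norm_num)
    (by norm_num) le_rfl
  rw [e1]
  simp only [mul_assoc]
  ring

theorem i3 : Le B v 8 6 r ((Kt * Q * (Vt * Pi)).trace + w * (Q * Pi).trace) := by
  have a1 := h.fr (h.u.mul h.kt h.qv)
  have a2 := h.fr h.q
  have e1 : (Kt * (Q * Vt)).trace = -(w * Q.trace) := by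
    rw [trace_mul_comm, h.qvk, trace_sub, trace_neg, trace_smul, smul_eq_mul, h.trK]; ring
  refine h.u.lmono (Un.lcongr (h.u.lsub (Un.lneg a1) (Un.lunit h.wabs a2)) ?_) (by norm_num)
    (by norm_num) le_rfl
  rw [e1]
  simp only [mul_assoc]
  ring

theorem t1 : Op B v 7 0 ((Vt + w • 1) * Pi * Vt) := h.u.mul (h.u.mul h.th h.pi) h.vt

theorem t2 : Op B v 11 0 ((Vt + w • 1) * Pi * ((Vt + w • 1) * Pi * Vt)) :=
  h.u.mul (h.u.mul h.th h.pi) h.t1

theorem i4 : Le B v 11 6 r ((Ga * P * Gaᵀ * ((Vt + w • 1) * Pi * Vt)).trace -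
    (Ga * P * Gaᵀ * (Pi * ((Vt + w • 1) * Pi * Vt))).trace) := by
  have a1 := h.fr (h.u.mul (h.u.mul (h.u.mul (h.u.mul h.th h.pi) h.vga) h.p) h.gaT)
  refine h.u.lmono (Un.lcongr a1 ?_) (by norm_num) (by norm_num) le_rfl
  generalize Vt + w • (1 : Mat n) = Th
  rw [cyc (Y := Th * Pi * (Vt * Ga) * P * Gaᵀ) (Ga * P * Gaᵀ) (Th * Pi * Vt) rfl
    (by simp only [mul_assoc]), cyc (Y := Th * Pi * (Vt * Ga) * P * Gaᵀ * Pi) (Ga * P * Gaᵀ * Pi)
    (Th * Pi * Vt) (X := Ga * P * Gaᵀ * (Pi * _)) (by simp only [mul_assoc])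
    (by simp only [mul_assoc])]

theorem i5 : Le B v 16 4 r ((Ga * (Pi * ((Vt + w • 1) * Pi * Vt))).trace -
    (Q * (Pi * ((Vt + w • 1) * Pi * ((Vt + w • 1) * Pi * Vt)))).trace - (Vt * Vt).trace) := by
  have a1 := h.fr (h.u.mul h.t2 h.q)
  have a2 := h.fr h.t1
  have a3 := h.fr (h.u.mul h.vt h.th)
  have a4 : Le B v 1 0 r Vt.trace := by simpa [Le] using h.trV
  have e1 : (Vt * (Vt + w • 1)).trace = (Vt * Vt).trace + w * Vt.trace := by
    rw [mul_add, Matrix.mul_smul, mul_one, trace_add, trace_smul, smul_eq_mul]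
  refine h.u.lmono (Un.lcongr (h.u.ladd a1 (h.u.lsub (h.u.lsub (Un.lunit h.wabs a4) a2) a3)) ?_)
    (by norm_num) (by norm_num) le_rfl
  rw [e1]
  conv_lhs => rw [h.eG]
  generalize Vt + w • (1 : Mat n) = Th
  rw [add_mul, one_mul, trace_add, trace_mul_comm Pi (Th * Pi * Vt),
    cyc (Y := Th * Pi * (Th * Pi * Vt) * Q) Q (Th * Pi * (Th * Pi * Vt)) (X := Q * Th * _)
      (by simp only [mul_assoc]) rfl,
    cyc (Y := Th * Pi * (Th * Pi * Vt) * Q * Pi) (Q * Pi) (Th * Pi * (Th * Pi * Vt))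
      (X := Q * (Pi * _)) (by simp only [mul_assoc]) (by simp only [mul_assoc]),
    trace_mul_cycle Th Pi Vt]
  ring

end Pt

end Vale.Agent.N150.T2M3
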