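import Vale.Agent.N150.T2P2

set_option linter.all false

/-! P150, block T2: the Lipschitz constants in the unit `v = s ^ (-1/4)`. -/

namespace Vale.Agent.N150.T2P

open Matrix MeasureTheory Set
open Vale.Agent.P150 Vale.Agent.P150.F
open Vale.Agent.N150.Haar (fro fro_nonneg)
open Vale.Agent.N150.Wd (fr Ga Gm Qm Xi fr_transpose fr_mul fr_one fro_fr trace_fr)
open Vale.Agent.N150.KB.Ch

variable {n : ℕ}

/-- all Lipschitz bounds; `C` is the loss, `v = s ^ (-1/4)` -/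
structure LipAll (G : Set (OG n)) (A Th R Kt : Mat n) (C v : ℝ) : Prop where
  tq : ∀ T c, 0 ≤ c → OpLe T c → LipO G (c * (C * √n * v ^ 3)) fun U => (T * Qm A Th U).trace
  tg : ∀ T c, 0 ≤ c → OpLe T c → LipO G (c * (C * √n * v ^ 3)) fun U => (T * Ga A 0 Th U).trace
  tgT : ∀ T c, 0 ≤ c → OpLe T c →
    LipO G (c * (C * √n * v ^ 3)) fun U => (T * (Ga A 0 Th U)ᵀ).trace
  pq : ∀ T c, 0 ≤ c → OpLe T c →
    LipO G (c * (C * √n * v ^ 3)) fun U => (fr R U * Qm A Th U * T).trace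
  tx : ∀ T c, 0 ≤ c → OpLe T c → LipO G (c * (C * √n * v ^ 7)) fun U => (T * Xi A Th R U).trace
  kq : ∀ T c, 0 ≤ c → OpLe T c →
    LipO G (c * (C * √n * v ^ 7)) fun U => (fr Kt U * Qm A Th U * T).trace
  kx : ∀ T c, 0 ≤ c → OpLe T c →
    LipO G (c * (C * √n * v ^ 11)) fun U => (fr Kt U * Xi A Th R U * T).trace
  kkq : ∀ T c, 0 ≤ c → OpLe T c →
    LipO G (c * (C * √n * v ^ 11)) fun U => (fr (Kt * Kt) U * Qm A Th U * T).trace
  fq : ∀ T c, fro T ≤ c → LipO G (c * (C * v ^ 6)) fun U => (T * Qm A Th U).trace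
  fg : ∀ T c, fro T ≤ c → LipO G (c * (C * v ^ 6)) fun U => (T * Ga A 0 Th U).trace
  fx : ∀ T c, fro T ≤ c → LipO G (c * (C * v ^ 10)) fun U => (T * Xi A Th R U).trace

theorem fro_proj {R : Mat n} (hR : Rᵀ = R) (hRR : R * R = R) : fro R ^ 2 = R.trace := by
  rw [Haar.fro_sq, Haar.ip_eq_trace, hR, hRR]

theorem le_sqrt_mul {x B y : ℝ} (hB : 1 ≤ B) (hy : 0 ≤ y) (h : x ^ 2 ≤ B * n * y ^ 2) :
    x ≤ B * √n * y := by
  have h0 : (0 : ℝ) ≤ n := Nat.cast_nonneg n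
  refine (abs_le_of_sq_le_sq' (h.trans ?_) (by positivity)).2
  rw [mul_pow, mul_pow, Real.sq_sqrt h0]
  have h1 : B ≤ B ^ 2 := by nlinarith
  gcongr

/-- the Lipschitz bounds from explicit norm bounds -/
theorem Nm.lipAll {G : Set (OG n)} {A Th R Vt Kt : Mat n} {w u B v : ℝ} (hB : 6 ≤ B) (hv : 1 ≤ v)
    (h : Nm G A Th R Vt w B u (B ^ 4 * v ^ 2) (B ^ 3 * v ^ 4) (B ^ 2 * √n * v) (B ^ 6 * v ^ 8)
      (B ^ 7 * v ^ 6) (B ^ 7 * √n * v ^ 5) (B ^ 8 * √n * v ^ 3)) (hRR : R * R = R)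
    (hK : OpLe Kt (B ^ 3 * v ^ 4)) : LipAll G A Th R Kt (B ^ 15) v := by
  have B1 : 1 ≤ B := by linarith
  have B0 : 0 ≤ B := by linarith
  have v0 : 0 ≤ v := by linarith
  have s0 : 0 ≤ √(n : ℝ) := Real.sqrt_nonneg _
  have g1 : 1 + B ^ 4 * v ^ 2 ≤ 2 * (B ^ 4 * v ^ 2) := by
    have := one_le_mul_of_one_le_of_one_le (one_le_pow₀ B1 (n := 4)) (one_le_pow₀ hv (n := 2))
    linarith
  have pw : ∀ a b : ℕ, a ≤ b → B ^ a ≤ B ^ b := fun a b hab => pow_le_pow_right₀ B1 hab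
  have l1 : 2 * (B ^ 2 * √n * v) * (1 + B ^ 4 * v ^ 2) ≤ B ^ 7 * √n * v ^ 3 :=
    calc _ ≤ B * (B ^ 2 * √n * v) * (B ^ 4 * v ^ 2) := by
          have := mul_le_mul_of_nonneg_left g1 (by positivity : 0 ≤ 2 * (B ^ 2 * √n * v))
          have h2 : 0 ≤ B ^ 2 * √n * v * (B ^ 4 * v ^ 2) := by positivity
          nlinarith
      _ = _ := by ring
  have l2 : 2 * (B ^ 3 * v ^ 4) * (1 + B ^ 4 * v ^ 2) ≤ B ^ 8 * v ^ 6 :=
    calc _ ≤ B * (B ^ 3 * v ^ 4) * (B ^ 4 * v ^ 2) := by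
          have := mul_le_mul_of_nonneg_left g1 (by positivity : 0 ≤ 2 * (B ^ 3 * v ^ 4))
          have h2 : 0 ≤ B ^ 3 * v ^ 4 * (B ^ 4 * v ^ 2) := by positivity
          nlinarith
      _ = _ := by ring
  have l3 : 2 * (B ^ 3 * v ^ 4 * (B ^ 8 * √n * v ^ 3) +
      (1 + B ^ 4 * v ^ 2) * (B ^ 7 * √n * v ^ 5)) ≤ B ^ 12 * √n * v ^ 7 :=
    calc _ ≤ B * (B ^ 4 * v ^ 2 * (B ^ 7 * √n * v ^ 5)) := by
          have := mul_le_mul_of_nonneg_right g1 (by positivity : 0 ≤ B ^ 7 * √n * v ^ 5)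
          have h2 : 0 ≤ B ^ 4 * v ^ 2 * (B ^ 7 * √n * v ^ 5) := by positivity
          have h3 : B ^ 3 * v ^ 4 * (B ^ 8 * √n * v ^ 3) =
            B ^ 4 * v ^ 2 * (B ^ 7 * √n * v ^ 5) := by ring
          rw [h3]
          nlinarith
      _ = _ := by ring
  have l4 : 2 * (B ^ 3 * v ^ 4 * (B ^ 7 * v ^ 6) + (1 + B ^ 4 * v ^ 2) * (B ^ 6 * v ^ 8)) ≤
      B ^ 11 * v ^ 10 :=
    calc _ ≤ B * (B ^ 4 * v ^ 2 * (B ^ 6 * v ^ 8)) := by
          have := mul_le_mul_of_nonneg_right g1 (by positivity : 0 ≤ B ^ 6 * v ^ 8)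
          have h2 : 0 ≤ B ^ 4 * v ^ 2 * (B ^ 6 * v ^ 8) := by positivity
          have h3 : B ^ 3 * v ^ 4 * (B ^ 7 * v ^ 6) = B ^ 4 * v ^ 2 * (B ^ 6 * v ^ 8) := by ring
          rw [h3]
          nlinarith
      _ = _ := by ring
  have fin : ∀ (c x y : ℝ) (a : ℕ), 0 ≤ c → 0 ≤ x → 0 ≤ y → a ≤ 15 →
      c * (B ^ a * x * y) ≤ c * (B ^ 15 * x * y) := fun c x y a hc hx hy ha => by
    have := pw a 15 ha
    gcongr
  have fin' : ∀ (c y : ℝ) (a : ℕ), 0 ≤ c → 0 ≤ y → a ≤ 15 →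
      c * (B ^ a * y) ≤ c * (B ^ 15 * y) := fun c y a hc hy ha => by
    have := pw a 15 ha
    gcongr
  have k0 : 0 ≤ B ^ 3 * v ^ 4 := by positivity
  refine ⟨fun T c hc hT => lip_mono (h.tq hc hT) ?_, fun T c hc hT => lip_mono (h.tg hc hT) ?_,
    fun T c hc hT => lip_mono (h.tgT hc hT) ?_,
    fun T c hc hT => lip_mono (h.sq zero_le_one hc (opLe_idem h.hR hRR) hT) ?_,
    fun T c hc hT => lip_mono (h.tx hc hT) ?_, fun T c hc hT => lip_mono (h.sq k0 hc hK hT) ?_,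
    fun T c hc hT => lip_mono (h.sx k0 hc hK hT) ?_,
    fun T c hc hT => lip_mono (h.sq (mul_nonneg k0 k0) hc (hK.mulN hK k0 k0) hT) ?_,
    fun T c hT => lip_mono (h.tq' hT) ?_, fun T c hT => lip_mono (h.tg' hT) ?_,
    fun T c hT => lip_mono (h.tx' hT) ?_⟩
  · exact (mul_le_mul_of_nonneg_left l1 hc).trans (fin c _ _ 7 hc s0 (by positivity) (by norm_num))
  · refine (mul_le_mul_of_nonneg_left l1 (by positivity)).trans
      (le_trans (le_of_eq (by ring)) (fin c _ _ 8 hc s0 (by positivity) (by norm_num)))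
  · refine (mul_le_mul_of_nonneg_left l1 (by positivity)).trans
      (le_trans (le_of_eq (by ring)) (fin c _ _ 8 hc s0 (by positivity) (by norm_num)))
  · refine (mul_le_mul_of_nonneg_left l1 (by positivity)).trans
      (le_trans (le_of_eq (by ring)) (fin c _ _ 7 hc s0 (by positivity) (by norm_num)))
  · exact (mul_le_mul_of_nonneg_left l3 hc).trans (fin c _ _ 12 hc s0 (by positivity) (by norm_num))
  · refine (mul_le_mul_of_nonneg_left l1 (by positivity)).trans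
      (le_trans (le_of_eq (by ring)) (fin c _ _ 10 hc s0 (by positivity) (by norm_num)))
  · refine (mul_le_mul_of_nonneg_left l3 (by positivity)).trans
      (le_trans (le_of_eq (by ring)) (fin c _ _ 15 hc s0 (by positivity) (by norm_num)))
  · refine (mul_le_mul_of_nonneg_left l1 (by positivity)).trans
      (le_trans (le_of_eq (by ring)) (fin c _ _ 13 hc s0 (by positivity) (by norm_num)))
  · have hc := (fro_nonneg _).trans hT
    exact (mul_le_mul_of_nonneg_left l2 hc).trans (fin' c _ 8 hc (by positivity) (by norm_num))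
  · have hc := (fro_nonneg _).trans hT
    refine (mul_le_mul_of_nonneg_left l2 (by positivity)).trans
      (le_trans (le_of_eq (by ring)) (fin' c _ 9 hc (by positivity) (by norm_num)))
  · have hc := (fro_nonneg _).trans hT
    exact (mul_le_mul_of_nonneg_left l4 hc).trans (fin' c _ 11 hc (by positivity) (by norm_num))

theorem op_fr_iff {R : Mat n} {b : ℝ} (hb : 0 ≤ b) {O : OG n} (h : OpLe (fr R O) b) :
    OpLe R b := by
  have h1 := op_fr hb h O⁻¹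
  have e : fr (fr R O) O⁻¹ = R := by
    rw [fr, fr, Haar.OG.coe_inv, transpose_transpose, ← mul_assoc, ← mul_assoc, Haar.OG.mul_tr,
      one_mul, mul_assoc, Haar.OG.mul_tr, mul_one]
  rwa [e] at h1

/-- **M-Lip**: all Lipschitz bounds from the weighted pointwise bounds -/
theorem lipAll {G : Set (OG n)} {A Th R Vt Kt : Mat n} {w B v : ℝ} (hB : 6 ≤ B) (hv : 1 ≤ v)
    (hA : Aᵀ = A) (hT : Thᵀ = Th) (hR : Rᵀ = R) (hRR : R * R = R) (hV : Th = Vt + w • 1)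
    (hu : ∀ U ∈ G, IsUnit (1 + (fr A U + 0) * Th).det) (oT : OpLe Th B)
    (hk : R.trace * v ^ 6 ≤ B * n) {Hs Hi : OG n → Mat n} (si : ∀ U ∈ G, Hs U * Hi U = 1)
    (sy : ∀ U ∈ G, (Hs U)ᵀ = Hs U) (os : ∀ U ∈ G, OpLe (Hs U) (B * v ^ 2))
    (oi : ∀ U ∈ G, OpLe (Hi U) B) (oQ : ∀ U ∈ G, OpLe (Hi U * Qm A Th U * Hi U) B)
    (oG : ∀ U ∈ G, OpLe (Hi U * Ga A 0 Th U * Hi U) B) (oV : ∀ U ∈ G, OpLe (Hs U * Vt * Hs U) B)
    (oK : ∀ U ∈ G, OpLe (Hi U * fr Kt U * Hi U) B)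
    (f2 : ∀ U ∈ G, fro (Hs U * Hs U) ^ 2 ≤ B * n * v ^ 2) : LipAll G A Th R Kt (B ^ 15) v := by
  have B1 : 1 ≤ B := by linarith
  have B0 : 0 ≤ B := by linarith
  have v0 : 0 < v := by linarith
  rcases G.eq_empty_or_nonempty with rfl | ⟨U0, hU0⟩
  · refine ⟨?_, ?_, ?_, ?_, ?_, ?_, ?_, ?_, ?_, ?_, ?_⟩ <;> intros <;> intro U hU <;>
      exact absurd hU (Set.notMem_empty U)
  have W : ∀ U ∈ G, ∀ Γ, OpLe (Hi U * Γ * Hi U) B →
      Wt Vt (fr R U) (Qm A Th U) Γ (Hs U) (Hi U) (B * v ^ 2) B B (B * √n * v) :=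
    fun U hU Γ hΓ => ⟨si U hU, mul_eq_one_comm.1 (si U hU), os U hU, oi U hU, oQ U hU, hΓ,
      oV U hU, sy U hU, le_sqrt_mul B1 v0.le (f2 U hU)⟩
  have hκ : fro R ≤ B * √n * (v ^ 3)⁻¹ := by
    refine le_sqrt_mul B1 (by positivity) ?_
    rw [fro_proj hR hRR, inv_pow, ← pow_mul, ← div_eq_mul_inv, le_div_iff₀ (by positivity)]
    exact hk
  have hK : OpLe Kt (B ^ 3 * v ^ 4) :=
    op_fr_iff (by positivity) (((W U0 hU0 _ (oK U0 hU0)).opG (by positivity) B0).monoN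
      (by positivity) (le_of_eq (by ring)))
  have N := Nm.of_wt hA hT hR hRR hV hu B0 (fro_nonneg Vt) (by positivity) B0 B0 oT (op_of_fro Vt)
    hκ fun U hU => W U hU _ (oG U hU)
  refine Nm.lipAll (Vt := Vt) (w := w) (u := fro Vt) hB hv ?_ hRR hK
  have e1 : B ^ 2 * (B * v ^ 2) * B = B ^ 4 * v ^ 2 := by ring
  have e2 : B * (B * v ^ 2) ^ 2 = B ^ 3 * v ^ 4 := by ring
  have e3 : B * (B * √n * v) = B ^ 2 * √n * v := by ring
  have e4 : B ^ 2 * (B * v ^ 2) ^ 4 = B ^ 6 * v ^ 8 := by ring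
  have e5 : B ^ 3 * (B * v ^ 2) ^ 3 * B = B ^ 7 * v ^ 6 := by ring
  have e6 : B ^ 6 * v ^ 8 * (B * √n * (v ^ 3)⁻¹) = B ^ 7 * √n * v ^ 5 := by field_simp
  have e7 : B ^ 7 * v ^ 6 * (B * √n * (v ^ 3)⁻¹) = B ^ 8 * √n * v ^ 3 := by field_simp
  rwa [e1, e2, e3, e4, e5, e6, e7] at N

end Vale.Agent.N150.T2P
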