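import Vale.Agent.N150.T2M3a
import Vale.Agent.N150.T2P3

/-! Block M3 of T2: the means. -/

namespace Vale.Agent.N150.T2M3

open Matrix MeasureTheory Set
open Vale.Agent.P150 Vale.Agent.P150.F
open Vale.Agent.N150.Haar (fro fro_nonneg)
open Vale.Agent.N150.KB.Ch (fro_le_op)
open Vale.Agent.N150.Wd (br fr Ga Qm Xi Ok RI Ms fr_mul fr_one trace_fr cov_good)

variable {n : ℕ}

/-! ### closing arithmetic -/

namespace Un

variable {B v : ℝ} (u : Un B v) {j i : ℕ} {N r g x : ℝ}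
include u

theorem ldiv (hN : 0 < N) (hg : N / 2 ≤ g) (h : Le B v j i (N * r) (x * g)) :
    Le B v (j + 1) i r x := by
  have g0 : 0 < g := by linarith
  have h0 : 0 ≤ N * r := nonneg_of_mul_nonneg_right ((abs_nonneg _).trans h) (u.pos j i)
  have r0 : 0 ≤ r := nonneg_of_mul_nonneg_right h0 hN
  rw [Le, abs_mul, abs_of_pos g0] at h
  have a := mul_nonneg (u.nn j i) r0
  have b := u.hB
  refine le_of_mul_le_mul_right (h.trans ?_) g0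
  calc _ = B ^ j * v ^ i * r * N := by ring
    _ ≤ B ^ j * v ^ i * r * (B * g) := mul_le_mul_of_nonneg_left (by nlinarith) a
    _ = _ := by ring

theorem lS {S S' : ℝ} (h : Le B v j i S x) (hS : S ≤ S') : Le B v j i S' x :=
  u.lmono h le_rfl le_rfl hS

theorem close {k w del τK τV κ ζ α α' p1 p2 q1 q2 q3 t1 t2 t2' t3 t4 t5 y d1 d2 d3 : ℝ}
    (hN : 1 ≤ N) (hr : 1 ≤ r) (hs : 2 * (v ^ 4 * r) ≤ N) (hw : |w| ≤ 1)
    (hk : k * v ^ 6 ≤ B * N) (hV : τV * v ^ 4 ≤ B * N) (k0 : 0 ≤ k) (V0 : 0 ≤ τV)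
    (hd : Le B v 1 4 1 del⁻¹)
    (mκ : Le B v 0 4 r κ) (mg : Le B v 0 4 r (g - N)) (mζ : Le B v 0 2 r ζ)
    (W1 : Le B v 23 0 N (p2 * g - p1 * ζ)) (sp1 : Le B v 3 4 k p1)
    (W2 : Le B v 29 10 N (q2 * g - q1 * ζ)) (sq1 : Le B v 8 8 N q1)
    (Wa1 : Le B v 27 4 N (t2 * κ - t1 * g)) (st2 : Le B v 9 0 N t2)
    (Wa2 : Le B v 31 4 N (t2' * κ - t5 * g)) (st2' : Le B v 13 0 N t2')
    (Wc : Le B v 29 6 N (t2 * x - t1 * α + (t4 * κ - t3 * g)))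
    (sx : Le B v 7 2 N x) (sα : Le B v 11 2 N α) (st4 : Le B v 18 2 N t4)
    (Wd : Le B v 28 8 N (d3 * ζ - d1 * g + (q3 * y - d2 * α')))
    (sd3 : Le B v 10 6 N d3) (sq3 : Le B v 3 2 N q3) (sα' : Le B v 11 2 N α')
    (i1 : Le B v 10 8 r (w * d1 - del⁻¹ ^ 2 * p2 + w ^ 2 * x - del⁻¹ ^ 2 * k))
    (i2 : Le B v 12 10 r (q2 + w * q3 + τK)) (i3 : Le B v 9 6 r (d2 + w * κ))
    (i4 : Le B v 12 6 r (y - t3)) (i5 : Le B v 17 4 r (t2 - t5 - τV)) :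
    Le B v 60 8 (N * r) (x * (N * w ^ 2 - τK * τV / N) - k / del ^ 2 * g) := by
  have N0 : 0 < N := by linarith
  have r0 : 0 ≤ r := by linarith
  have Nr : N ≤ N * r := le_mul_of_one_le_right N0.le hr
  have hg := abs_le.1 mg
  rw [pow_zero, one_mul] at hg
  have g1 : N / 2 ≤ g := by linarith [hg.1]
  have sg : Le B v 1 0 N g := by
    rw [Le, abs_of_pos (by linarith), pow_one, pow_zero, mul_one]
    nlinarith [hg.2, u.hB]
  have sN : Le B v 0 0 N N := by simp [Le, abs_of_pos N0]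
  have sk : Le B v 0 0 k k := by simp [Le, abs_of_nonneg k0]
  have sV : Le B v 0 0 τV τV := by simp [Le, abs_of_nonneg V0]
  have a0 := lmul sp1 mζ
  have a1 := u.ldiv N0 g1 (lcongr (u.ladd (u.lS W1 Nr) (u.labs (i := 0) hk r0 a0))
    (sub_add_cancel _ _).symm)
  have a2 := u.ldiv N0 g1 (lcongr (u.ladd (u.lS W2 Nr) (lmul sq1 mζ)) (sub_add_cancel _ _).symm)
  have a3 := u.ldiv N0 g1 (lcongr (u.lsub (lmul st2 mκ) (u.lS Wa1 Nr)) (sub_sub_cancel _ _).symm)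
  have a4 := u.ldiv N0 g1 (lcongr (u.lsub (lmul st2' mκ) (u.lS Wa2 Nr)) (sub_sub_cancel _ _).symm)
  have b1 := lcongr (u.lsub i2 a2) (show w * q3 + τK = _ by ring)
  have b2 := lcongr (u.ladd i5 a4) (show t2 - τV = _ by ring)
  have b3 := lcongr (u.lsub (u.ladd (u.ladd (u.lsub (lmul sx b2) (lmul sα a3)) (lmul st4 mκ))
    (lmul sg i4)) (u.lS Wc Nr)) (show y * g - τV * x = _ by ring)
  have b4 := lcongr (u.lsub i3 (lunit hw mκ)) (show d2 = _ by ring)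
  have b5 := lmul (lmul hd hd) a1
  rw [one_mul, one_mul] at b5
  have b6 := lcongr (u.ladd i1 b5) (show w * d1 + w ^ 2 * x - del⁻¹ ^ 2 * k = _ by ring)
  have S0 : 0 ≤ N * r := by positivity
  have c1 := lunit hw (lmul sg (u.lS Wd Nr))
  have c2 := lunit hw (lmul sg (lmul sd3 mζ))
  have c3 := lmul sg (lmul sg b6)
  have c4 := lunit hw (lmul sq3 b3)
  have c0 := lmul sV (lmul sx b1)
  have c5 := u.labs (i := 8) hV S0 c0
  have c6 := lunit hw (lmul sg (lmul sα' b4))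
  have c7 := lunit hw (lunit hw (lmul (u.ladd sg sN) (lmul sx mg)))
  have c8 := lmul (lmul hd hd) (lmul sk (lmul sg mg))
  rw [one_mul, one_mul] at c8
  have c9 := u.labs (i := 6) hk S0 c8
  have e := u.ladd (u.lsub (u.ladd (u.lsub (u.lsub (u.ladd (u.lsub c1 c2) c3) c4) c5) c6) c7) c9
  refine u.lmono (u.ldiv (g := N) N0 (by linarith) (lcongr e ?_)) (by norm_num) (by norm_num)
    le_rfl
  rw [div_eq_mul_inv k, ← inv_pow]
  have : x * (N * w ^ 2 - τK * τV / N) * N = x * (N * N * w ^ 2 - τK * τV) := by field_simp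
  linear_combination this

end Un

/-! ### means -/

section Mean

variable {μ : Measure (OG n)} [IsProbabilityMeasure μ] {G : Set (OG n)}

theorem integ (hG : MeasurableSet G) {f : OG n → ℝ} (hf : Measurable f) {b : ℝ}
    (hb : ∀ O ∈ G, |f O| ≤ b) : IntegrableOn f G μ :=
  Measure.integrableOn_of_bounded (M := b) (measure_ne_top _ _) hf.aestronglyMeasurable
    ((ae_restrict_mem hG).mono hb)

theorem mean_le {f : OG n → ℝ} {b : ℝ} (h0 : 0 ≤ b) (hb : ∀ O ∈ G, |f O| ≤ b) :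
    |∫ O in G, f O ∂μ| ≤ b :=
  (norm_setIntegral_le_of_norm_le_const (μ := μ) (s := G) (f := f) (measure_lt_top _ _) hb).trans
    (mul_le_of_le_one_right h0 measureReal_le_one)

theorem key (hG : MeasurableSet G) {W S : OG n → ℝ} (mW : Measurable W) (mS : Measurable S)
    (iS : IntegrableOn S G μ) {b : ℝ} (h0 : 0 ≤ b) (hb : ∀ O ∈ G, |W O - S O| ≤ b)
    (hW : |∫ O in G, W O ∂μ| ≤ 1) : |∫ O in G, S O ∂μ| ≤ b + 1 := by
  have i1 : IntegrableOn (fun O => W O - S O) G μ := integ hG (mW.sub mS) hb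
  have e : ∫ O in G, W O ∂μ = ∫ O in G, (W O - S O) ∂μ + ∫ O in G, S O ∂μ := by
    rw [← integral_add i1 iS]; simp only [sub_add_cancel]
  have a := abs_le.1 (mean_le (μ := μ) h0 hb)
  have c := abs_le.1 hW
  rw [abs_le]; constructor <;> linarith [a.1, a.2, c.1, c.2]

theorem lin3 (hG : MeasurableSet G) {p : ℝ} (hp : μ.real Gᶜ ≤ p) {f g h : OG n → ℝ}
    (i1 : IntegrableOn f G μ) (i2 : IntegrableOn g G μ) (i3 : IntegrableOn h G μ)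
    (a b c d : ℝ) {β : ℝ} (h0 : 0 ≤ β) (hb : ∀ O ∈ G, |a * f O + b * g O + c * h O + d| ≤ β) :
    |a * ∫ O in G, f O ∂μ + b * ∫ O in G, g O ∂μ + c * ∫ O in G, h O ∂μ + d| ≤ β + |d| * p := by
  have h1 := mean_le (μ := μ) h0 hb
  have j1 : IntegrableOn (fun O => a * f O + b * g O) G μ := (i1.const_mul a).add (i2.const_mul b)
  have j2 : IntegrableOn (fun O => a * f O + b * g O + c * h O) G μ := j1.add (i3.const_mul c)
  rw [integral_add j2 (integrable_const _), integral_add j1 (i3.const_mul c),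
    integral_add (i1.const_mul a) (i2.const_mul b), integral_const_mul, integral_const_mul,
    integral_const_mul, setIntegral_const, smul_eq_mul] at h1
  have h2 : μ.real G = 1 - μ.real Gᶜ := by rw [probReal_compl_eq_one_sub hG]; ring
  have h3 : |d * μ.real Gᶜ| ≤ |d| * p := by
    rw [abs_mul, abs_of_nonneg measureReal_nonneg]
    exact mul_le_mul_of_nonneg_left hp (abs_nonneg _)
  rw [h2] at h1
  refine le_trans (le_of_eq ?_) ((abs_add_le _ _).trans (add_le_add h1 h3))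
  congr 1; ring

theorem ms_br (P : Mat n) {L R : OG n → Mat n} (hL : Ms L) (hR : Ms R) :
    Measurable fun O => br P (L O) (R O) :=
  (((((Ms.const P).mul hL.transpose).mul (.const P)).mul hR).trace).sub
    ((hL.mul (.const P)).trace.mul ((Ms.const P).mul hR).trace)

end Mean

/-- the hypotheses of block M3 -/
structure Hy (μ : Measure (OG n)) (G : Set (OG n)) (B v r k w del c p K : ℝ)
    (Pi A P Kt Vt : Mat n) (Hs Hi G0 : OG n → Mat n) : Prop where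
  ok : Ok Pi G K A 0 (Vt + w • 1)
  ri : RI Pi μ
  ms : MeasurableSet G
  hp : μ.real Gᶜ ≤ p
  p0 : 0 < p
  p1 : p ≤ 1
  conc : Conc μ c
  c0 : 0 < c
  nc : n ≤ B * c
  ne : G.Nonempty
  pt : ∀ O ∈ G, Pt B v r k w del Pi (fr P O) (Hs O) (Hi O) (fr A O) (G0 O) (fr Kt O) Vt
    (Ga A 0 (Vt + w • 1) O) (Qm A (Vt + w • 1) O)
  tiny : K ^ 44 * √p ≤ 1
  tiny2 : 3 * (B ^ 20 * v ^ 12 * n) * (B ^ 20 * v ^ 12 * n) * p ≤ 1
  big : B ^ 11 * v ^ 8 * √n ≤ K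
  vn : v ^ 6 ≤ B * n
  n1 : (1 : ℝ) ≤ n
  r1 : 1 ≤ r
  small : 2 * (v ^ 4 * r) ≤ n
  lq : ∀ (F S : Mat n) (a σ : ℝ), 0 ≤ a → 0 ≤ σ → OpLe S σ → OpLe F a →
    LipO G (a * σ * √n * (B ^ 5 * v ^ 3)) fun O => (F * fr S O * Qm A (Vt + w • 1) O).trace
  lx : ∀ (F S : Mat n) (a σ : ℝ), 0 ≤ a → 0 ≤ σ → OpLe S σ → OpLe F a →
    LipO G (a * σ * √n * (B ^ 5 * v ^ 7)) fun O => (F * fr S O * Xi A (Vt + w • 1) P O).trace
  m2a : |∫ O in G, (Qm A (Vt + w • 1) O * Pi).trace ∂μ| ≤ v ^ 4 * r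
  m2b : |∫ O in G, (Ga A 0 (Vt + w • 1) O * Pi).trace ∂μ - n| ≤ v ^ 4 * r
  m2c : |∫ O in G, (Ga A 0 (Vt + w • 1) O * (Pi * Vt)).trace ∂μ| ≤ v ^ 2 * r

/-- Lipschitz class -/
structure Cl (G : Set (OG n)) (B v : ℝ) (j e : ℕ) (f : OG n → ℝ) : Prop where
  lip : LipO G (B ^ j * v ^ e * √n) f
  bd : ∀ O ∈ G, |f O| ≤ B ^ 20 * v ^ 12 * n
  ms : Measurable f

namespace Hy

variable {μ : Measure (OG n)} [IsProbabilityMeasure μ] {G : Set (OG n)}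
  {B v r k w del c p K : ℝ} {Pi A P Kt Vt : Mat n} {Hs Hi G0 : OG n → Mat n}
  (h : Hy μ G B v r k w del c p K Pi A P Kt Vt Hs Hi G0) {j i j' i' : ℕ} {F S T : Mat n}
include h

omit [IsProbabilityMeasure μ] in
theorem u : Un B v := (h.pt _ h.ne.some_mem).u

omit [IsProbabilityMeasure μ] in
theorem frop (hS : ∀ O ∈ G, Op B v j i (fr S O)) : Op B v j i S :=
  T2P.op_fr_iff (h.u.nn _ _) (hS _ h.ne.some_mem)

omit [IsProbabilityMeasure μ] in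
theorem fK (hS : Op B v j i S) (hj : j ≤ 11) (hi : i ≤ 8) : fro S ≤ K :=
  (fro_le_op (h.u.nn _ _) (h.u.mono hS hj hi)).trans h.big

omit [IsProbabilityMeasure μ] in
theorem fQ (hF : Op B v j 0 F) (hS : ∀ O ∈ G, Op B v j' i (fr S O)) (hj : j + j' ≤ 17)
    (hi : i ≤ 8) : Cl G B v (j + j' + 5) (i + 3)
      fun O => (fr S O * Qm A (Vt + w • 1) O * F).trace := by
  refine ⟨?_, fun O hO => h.u.lmono (h.u.trn (h.u.mul (h.u.mul (hS O hO) (h.pt O hO).q) hF))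
    (by omega) (by omega) le_rfl, (((Ms.fr S).mul (.qm _ _)).mul (.const F)).trace⟩
  have := h.lq F S _ _ (h.u.nn _ _) (h.u.nn _ _) (h.frop hS) hF
  simp only [trace_mul_cycle (fr S _)]
  exact T2P.lip_mono this (le_of_eq (by ring))

omit [IsProbabilityMeasure μ] in
theorem fX (hF : Op B v j 0 F) (hS : ∀ O ∈ G, Op B v j' i (fr S O)) (hj : j + j' ≤ 14)
    (hi : i ≤ 4) : Cl G B v (j + j' + 5) (i + 7)
      fun O => (fr S O * Xi A (Vt + w • 1) P O * F).trace := by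
  refine ⟨?_, fun O hO => h.u.lmono (h.u.trn (h.u.mul (h.u.mul (hS O hO) (h.pt O hO).xi) hF))
    (by omega) (by omega) le_rfl, (((Ms.fr S).mul (.xi _ _ _)).mul (.const F)).trace⟩
  have := h.lx F S _ _ (h.u.nn _ _) (h.u.nn _ _) (h.frop hS) hF
  simp only [trace_mul_cycle (fr S _)]
  exact T2P.lip_mono this (le_of_eq (by ring))

omit h [IsProbabilityMeasure μ] in
theorem one (O : OG n) (_ : O ∈ G) : Op B v 0 0 (fr 1 O) := by
  rw [fr_one]; exact Un.proj transpose_one (mul_one 1)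

omit [IsProbabilityMeasure μ] in
theorem gQ (hF : Op B v j 0 F) (hj : j ≤ 17) :
    Cl G B v (j + 5) 3 fun O => (Qm A (Vt + w • 1) O * F).trace := by
  simpa only [fr_one, one_mul] using h.fQ hF one (by omega) (by norm_num)

omit [IsProbabilityMeasure μ] in
theorem gX (hF : Op B v j 0 F) (hj : j ≤ 14) :
    Cl G B v (j + 5) 7 fun O => (Xi A (Vt + w • 1) P O * F).trace := by
  simpa only [fr_one, one_mul] using h.fX hF one (by omega) (by norm_num)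

omit [IsProbabilityMeasure μ] in
theorem gG (hF : Op B v j 0 F) (hj : j ≤ 13) :
    Cl G B v (j + 9) 3 fun O => (Ga A 0 (Vt + w • 1) O * F).trace := by
  have a := (h.gQ (h.u.mul (h.pt _ h.ne.some_mem).th hF) (by omega)).lip
  refine ⟨T2P.lip_mono (T2P.lip_congr (c := F.trace) a fun O hO => ?_) (le_of_eq (by ring)),
    fun O hO => h.u.lmono (h.u.trn (h.u.mul (h.pt O hO).ga hF)) (by omega) (by omega) le_rfl,
    ((Ms.ga _ _ _).mul (.const F)).trace⟩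
  conv_lhs => rw [(h.pt O hO).eG]
  rw [add_mul, one_mul, trace_add, mul_assoc]

theorem ci {f : OG n → ℝ} (hf : Cl G B v j i f) : IntegrableOn f G μ := integ h.ms hf.ms hf.bd

theorem ci2 {f g : OG n → ℝ} (hf : Cl G B v j i f) (hg : Cl G B v j' i' g) :
    IntegrableOn (fun O => f O * g O) G μ :=
  integ h.ms (hf.ms.mul hg.ms) fun O hO => by
    rw [abs_mul]
    exact mul_le_mul (hf.bd O hO) (hg.bd O hO) (abs_nonneg _) ((abs_nonneg _).trans (hf.bd O hO))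

omit [IsProbabilityMeasure μ] in
theorem lone (j i : ℕ) : 1 ≤ B ^ j * v ^ i * n := one_le_mul_of_one_le_of_one_le (h.u.one_le j i) h.n1

theorem cov {f g : OG n → ℝ} {J I : ℕ} (hf : Cl G B v j i f) (hg : Cl G B v j' i' g)
    (hJ : j + j' + 4 ≤ J) (hI : i + i' ≤ I + 6) :
    Le B v J I n (∫ O in G, f O * g O ∂μ - (∫ O in G, f O ∂μ) * ∫ O in G, g O ∂μ) := by
  have n0 : (0 : ℝ) < n := by linarith [h.n1]
  have s0 := Real.sqrt_pos.2 n0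
  have b0 : 0 ≤ B ^ 20 * v ^ 12 * n := mul_nonneg (h.u.nn _ _) n0.le
  have a := cov_good h.conc h.c0 h.ms h.hp (mul_pos (h.u.pos _ _) s0) (mul_pos (h.u.pos _ _) s0)
    b0 b0 hf.lip hg.lip hf.bd hg.bd
  have a1 : 2 * (B ^ j * v ^ i * √n) * (B ^ j' * v ^ i' * √n) / c ≤
      2 * (B ^ (j + j' + 2) * v ^ I * n) := by
    rw [div_le_iff₀ h.c0]
    have e1 := h.u.le (le_refl (j + j')) hI
    have e2 := mul_le_mul_of_nonneg_left h.vn (h.u.nn (j + j') I)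
    have e3 : B ^ (j + j') * v ^ (i + i') ≤ B ^ (j + j' + 1) * v ^ I * n :=
      e1.trans (le_of_eq_of_le (by ring) (e2.trans_eq (by ring)))
    have e4 := mul_le_mul e3 h.nc n0.le (mul_nonneg (h.u.nn _ _) n0.le)
    calc _ = 2 * (B ^ (j + j') * v ^ (i + i') * (√n * √n)) := by ring
      _ = 2 * (B ^ (j + j') * v ^ (i + i') * n) := by rw [Real.mul_self_sqrt n0.le]
      _ ≤ _ := by linarith [e4, show B ^ (j + j' + 1) * v ^ I * n * (B * c) =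
          B ^ (j + j' + 2) * v ^ I * n * c by ring]
  refine h.u.lmono (j := j + j' + 4) (i := I) ?_ hJ le_rfl le_rfl
  have a2 := h.lone (j + j' + 2) I
  have a3 : 4 ≤ B ^ 2 := by nlinarith [h.u.hB]
  have a4 := mul_le_mul_of_nonneg_right a3 (zero_le_one.trans a2)
  refine a.trans ?_
  rw [show B ^ (j + j' + 4) * v ^ I * n = B ^ 2 * (B ^ (j + j' + 2) * v ^ I * n) by ring]
  linarith [h.tiny2]

omit [IsProbabilityMeasure μ] in
theorem ward {x : ℝ} {a : ℕ} (ha : a ≤ 44) (hx : |x| ≤ K ^ a * √p) : |x| ≤ 1 :=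
  hx.trans ((mul_le_mul_of_nonneg_right (pow_le_pow_right₀ (by linarith [h.ok.hK]) ha)
    (Real.sqrt_nonneg _)).trans h.tiny)

omit [IsProbabilityMeasure μ] in
theorem plus {x : ℝ} (hx : |x| ≤ B ^ j * v ^ i * n + 1) : Le B v (j + 1) i n x := by
  have a := h.lone j i
  have b := h.u.hB
  refine hx.trans ?_
  rw [show B ^ (j + 1) * v ^ i * n = B * (B ^ j * v ^ i * n) by ring]
  nlinarith

theorem two {W f₁ g₁ f₂ g₂ : OG n → ℝ} {a₁ b₁ a₂ b₂ c₁ d₁ c₂ d₂ J I : ℕ} (mW : Measurable W)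
    (hW : |∫ O in G, W O ∂μ| ≤ 1) (F₁ : Cl G B v a₁ c₁ f₁) (G₁ : Cl G B v b₁ d₁ g₁)
    (F₂ : Cl G B v a₂ c₂ f₂) (G₂ : Cl G B v b₂ d₂ g₂)
    (hb : ∀ O ∈ G, Le B v j i n (W O - (f₁ O * g₁ O - f₂ O * g₂ O)))
    (hJ : j + 1 ≤ J ∧ a₁ + b₁ + 4 ≤ J ∧ a₂ + b₂ + 4 ≤ J)
    (hI : i ≤ I ∧ c₁ + d₁ ≤ I + 6 ∧ c₂ + d₂ ≤ I + 6) :
    Le B v (J + 2) I n ((∫ O in G, f₁ O ∂μ) * ∫ O in G, g₁ O ∂μ -
      (∫ O in G, f₂ O ∂μ) * ∫ O in G, g₂ O ∂μ) := by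
  have a := key (S := fun O => f₁ O * g₁ O - f₂ O * g₂ O) h.ms mW
    ((F₁.ms.mul G₁.ms).sub (F₂.ms.mul G₂.ms))
    ((h.ci2 F₁ G₁).sub (h.ci2 F₂ G₂)) (zero_le_one.trans (h.lone j i)) hb hW
  rw [integral_sub (h.ci2 F₁ G₁) (h.ci2 F₂ G₂)] at a
  have b := h.u.ladd (h.u.lsub (h.u.lmono (h.plus a) hJ.1 hI.1 le_rfl)
    (h.cov F₁ G₁ hJ.2.1 hI.2.1)) (h.cov F₂ G₂ hJ.2.2 hI.2.2)
  exact h.u.lmono (Un.lcongr b (by ring)) (by omega) (by omega) le_rfl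

theorem four {W f₁ g₁ f₂ g₂ f₃ g₃ f₄ g₄ : OG n → ℝ}
    {a₁ b₁ a₂ b₂ a₃ b₃ a₄ b₄ c₁ d₁ c₂ d₂ c₃ d₃ c₄ d₄ J I : ℕ} (mW : Measurable W)
    (hW : |∫ O in G, W O ∂μ| ≤ 1) (F₁ : Cl G B v a₁ c₁ f₁) (G₁ : Cl G B v b₁ d₁ g₁)
    (F₂ : Cl G B v a₂ c₂ f₂) (G₂ : Cl G B v b₂ d₂ g₂) (F₃ : Cl G B v a₃ c₃ f₃)
    (G₃ : Cl G B v b₃ d₃ g₃) (F₄ : Cl G B v a₄ c₄ f₄) (G₄ : Cl G B v b₄ d₄ g₄)
    (hb : ∀ O ∈ G, Le B v j i n (W O - (f₁ O * g₁ O - f₂ O * g₂ O +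
      (f₃ O * g₃ O - f₄ O * g₄ O))))
    (hJ : j + 1 ≤ J ∧ a₁ + b₁ + 4 ≤ J ∧ a₂ + b₂ + 4 ≤ J ∧ a₃ + b₃ + 4 ≤ J ∧ a₄ + b₄ + 4 ≤ J)
    (hI : i ≤ I ∧ c₁ + d₁ ≤ I + 6 ∧ c₂ + d₂ ≤ I + 6 ∧ c₃ + d₃ ≤ I + 6 ∧ c₄ + d₄ ≤ I + 6) :
    Le B v (J + 4) I n ((∫ O in G, f₁ O ∂μ) * ∫ O in G, g₁ O ∂μ -
      (∫ O in G, f₂ O ∂μ) * ∫ O in G, g₂ O ∂μ + ((∫ O in G, f₃ O ∂μ) * ∫ O in G, g₃ O ∂μ -
      (∫ O in G, f₄ O ∂μ) * ∫ O in G, g₄ O ∂μ)) := by
  have i1 : IntegrableOn (fun O => f₁ O * g₁ O - f₂ O * g₂ O) G μ :=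
    (h.ci2 F₁ G₁).sub (h.ci2 F₂ G₂)
  have i2 : IntegrableOn (fun O => f₃ O * g₃ O - f₄ O * g₄ O) G μ :=
    (h.ci2 F₃ G₃).sub (h.ci2 F₄ G₄)
  have a := key (S := fun O => f₁ O * g₁ O - f₂ O * g₂ O + (f₃ O * g₃ O - f₄ O * g₄ O)) h.ms mW
    (((F₁.ms.mul G₁.ms).sub (F₂.ms.mul G₂.ms)).add
    ((F₃.ms.mul G₃.ms).sub (F₄.ms.mul G₄.ms))) (i1.add i2) (zero_le_one.trans (h.lone j i)) hb hW
  rw [integral_add i1 i2, integral_sub (h.ci2 F₁ G₁) (h.ci2 F₂ G₂),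
    integral_sub (h.ci2 F₃ G₃) (h.ci2 F₄ G₄)] at a
  have b := h.u.ladd (h.u.lsub (h.u.ladd (h.u.lsub (h.u.lmono (h.plus a) hJ.1 hI.1 le_rfl)
    (h.cov F₁ G₁ hJ.2.1 hI.2.1)) (h.cov F₂ G₂ hJ.2.2.1 hI.2.2.1))
    (h.cov F₃ G₃ hJ.2.2.2.1 hI.2.2.2.1)) (h.cov F₄ G₄ hJ.2.2.2.2 hI.2.2.2.2)
  exact h.u.lmono (Un.lcongr b (by ring)) (by omega) (by omega) le_rfl

theorem mean {f : OG n → ℝ} {S : ℝ} (hb : ∀ O ∈ G, Le B v j i S (f O)) :
    Le B v j i S (∫ O in G, f O ∂μ) :=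
  mean_le ((abs_nonneg _).trans (hb _ h.ne.some_mem)) hb

theorem lin {f g l : OG n → ℝ} {a₁ a₂ a₃ c₁ c₂ c₃ : ℕ} (F : Cl G B v a₁ c₁ f)
    (F' : Cl G B v a₂ c₂ g) (F'' : Cl G B v a₃ c₃ l) (a b e d : ℝ)
    (hb : ∀ O ∈ G, Le B v j i r (a * f O + b * g O + e * l O + d)) (hd : Le B v j i n d) :
    Le B v (j + 1) i r (a * ∫ O in G, f O ∂μ + b * ∫ O in G, g O ∂μ + e * ∫ O in G, l O ∂μ + d) := by
  have a1 := lin3 h.ms h.hp (h.ci F) (h.ci F') (h.ci F'') a b e d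
    ((abs_nonneg _).trans (hb _ h.ne.some_mem)) hb
  have a2 : n * p ≤ 1 := by
    have b1 := h.lone 20 12
    have b2 := mul_le_mul_of_nonneg_right (h.u.one_le 20 12) (zero_le_one.trans h.n1)
    have b3 : (n : ℝ) ≤ 3 * (B ^ 20 * v ^ 12 * n) * (B ^ 20 * v ^ 12 * n) := by nlinarith
    exact (mul_le_mul_of_nonneg_right b3 h.p0.le).trans h.tiny2
  have a3 := mul_le_mul_of_nonneg_right hd h.p0.le
  have a4 := mul_le_mul_of_nonneg_left (a2.trans h.r1) (h.u.nn j i)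
  have a5 := mul_le_mul_of_nonneg_right h.u.hB (mul_nonneg (h.u.nn j i) (zero_le_one.trans h.r1))
  refine a1.trans ?_
  rw [show B ^ (j + 1) * v ^ i * r = B * (B ^ j * v ^ i * r) by ring]
  linarith [mul_assoc (B ^ j * v ^ i) n p]

/-- (Wa) -/
theorem wa (hT : Op B v j 0 T) (hj : j ≤ 11) : Le B v (j + 20) 4 n
    ((∫ O in G, (Ga A 0 (Vt + w • 1) O * (Pi * T)).trace ∂μ) *
        ∫ O in G, (Qm A (Vt + w • 1) O * Pi).trace ∂μ -
      (∫ O in G, (Qm A (Vt + w • 1) O * (Pi * T)).trace ∂μ) *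
        ∫ O in G, (Ga A 0 (Vt + w • 1) O * Pi).trace ∂μ) := by
  have pi := (h.pt _ h.ne.some_mem).pi
  exact h.two (J := j + 18) ((ms_br Pi ((Ms.const T).mul (.qm _ _)) (Ms.ga _ _ _).transpose).sub
    (ms_br Pi ((Ms.const T).mul (.ga _ _ _)) (.qm _ _)))
    (h.ward (by norm_num) (h.ok.wa h.ri h.ms h.hp h.p0 h.p1 (h.fK hT hj (by norm_num))))
    (h.gG (h.u.mul pi hT) (by omega)) (h.gQ pi (by norm_num)) (h.gQ (h.u.mul pi hT) (by omega))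
    (h.gG pi (by norm_num)) (fun O hO => (h.pt O hO).wa hT) (by omega) (by norm_num)

omit [IsProbabilityMeasure μ] in
theorem z : Pt B v r k w del Pi (fr P h.ne.some) (Hs h.ne.some) (Hi h.ne.some) (fr A h.ne.some)
    (G0 h.ne.some) (fr Kt h.ne.some) Vt (Ga A 0 (Vt + w • 1) h.ne.some)
    (Qm A (Vt + w • 1) h.ne.some) := h.pt _ h.ne.some_mem

section
omit [IsProbabilityMeasure μ]

theorem hP (O : OG n) (hO : O ∈ G) : Op B v 0 0 (fr P O) := (h.pt O hO).p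
theorem hK (O : OG n) (hO : O ∈ G) : Op B v 3 4 (fr Kt O) := (h.pt O hO).kt
theorem hKK (O : OG n) (hO : O ∈ G) : Op B v 6 8 (fr (Kt * Kt) O) :=
  fr_mul Kt Kt O ▸ h.u.mul (h.hK O hO) (h.hK O hO)
theorem vp : Op B v 3 0 (Vt * Pi) := h.u.mul h.z.vt h.z.pi
theorem pt1 : Op B v 7 0 (Pi * ((Vt + w • 1) * Pi * Vt)) := h.u.mul h.z.pi h.z.t1
theorem pt2 : Op B v 11 0 (Pi * ((Vt + w • 1) * Pi * ((Vt + w • 1) * Pi * Vt))) :=
  h.u.mul h.z.pi h.z.t2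
theorem pth : Op B v 4 0 (Pi * (Vt + w • 1)) := h.u.mul h.z.pi h.z.th
theorem thp : Op B v 4 0 ((Vt + w • 1) * Pi) := h.u.mul h.z.th h.z.pi
theorem cga : Cl G B v 9 3 fun O => (Ga A 0 (Vt + w • 1) O * Pi).trace := h.gG h.z.pi (by norm_num)
theorem cka : Cl G B v 5 3 fun O => (Qm A (Vt + w • 1) O * Pi).trace := h.gQ h.z.pi (by norm_num)
theorem cze : Cl G B v 12 3 fun O => (Ga A 0 (Vt + w • 1) O * (Pi * Vt)).trace :=
  h.gG (h.u.mul h.z.pi h.z.vt) (by norm_num)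
theorem cxx : Cl G B v 5 7 fun O => (Xi A (Vt + w • 1) P O * Pi).trace := h.gX h.z.pi (by norm_num)
theorem cp2 : Cl G B v 8 3 fun O => (fr P O * Qm A (Vt + w • 1) O * (Vt * Pi)).trace :=
  h.fQ h.vp h.hP (by norm_num) (by norm_num)
theorem cq2 : Cl G B v 14 11 fun O => (fr (Kt * Kt) O * Qm A (Vt + w • 1) O * (Vt * Pi)).trace :=
  h.fQ h.vp h.hKK (by norm_num) (by norm_num)
theorem cq3 : Cl G B v 8 7 fun O => (fr Kt O * Qm A (Vt + w • 1) O * Pi).trace :=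
  h.fQ h.z.pi h.hK (by norm_num) (by norm_num)
theorem cd1 : Cl G B v 11 11 fun O => (fr Kt O * Xi A (Vt + w • 1) P O * (Vt * Pi)).trace :=
  h.fX h.vp h.hK (by norm_num) (by norm_num)
theorem cd2 : Cl G B v 11 7 fun O => (fr Kt O * Qm A (Vt + w • 1) O * (Vt * Pi)).trace :=
  h.fQ h.vp h.hK (by norm_num) (by norm_num)
theorem ct2 : Cl G B v 16 3 fun O =>
    (Ga A 0 (Vt + w • 1) O * (Pi * ((Vt + w • 1) * Pi * Vt))).trace := h.gG h.pt1 (by norm_num)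
theorem ct3 : Cl G B v 12 7 fun O =>
    (Xi A (Vt + w • 1) P O * (Pi * ((Vt + w • 1) * Pi * Vt))).trace := h.gX h.pt1 (by norm_num)
theorem cy : Cl G B v 12 7 fun O =>
    (Xi A (Vt + w • 1) P O * ((Vt + w • 1) * Pi * Vt)).trace := h.gX h.z.t1 (by norm_num)
theorem fP : fro P ≤ K := h.fK (h.frop h.hP) (by norm_num) (by norm_num)

end

/-- (Wb) -/
theorem wb {J : ℕ} (hS : ∀ O ∈ G, Op B v j i (fr S O)) (hj : j ≤ 11) (hi : i ≤ 8)
    (hb : ∀ O ∈ G, Le B v j' J n (br Pi (fr S O * Qm A (Vt + w • 1) O)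
      (Vt * Ga A 0 (Vt + w • 1) O) - br Pi (fr S O * Qm A (Vt + w • 1) O * Vt)
      (Ga A 0 (Vt + w • 1) O) - ((fr S O * Qm A (Vt + w • 1) O * (Vt * Pi)).trace *
      (Ga A 0 (Vt + w • 1) O * Pi).trace - (fr S O * Qm A (Vt + w • 1) O * Pi).trace *
      (Ga A 0 (Vt + w • 1) O * (Pi * Vt)).trace))) (h1 : j' ≤ j + 20) (h2 : i ≤ J) :
    Le B v (j + 23) J n ((∫ O in G, (fr S O * Qm A (Vt + w • 1) O * (Vt * Pi)).trace ∂μ) *
      ∫ O in G, (Ga A 0 (Vt + w • 1) O * Pi).trace ∂μ -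
      (∫ O in G, (fr S O * Qm A (Vt + w • 1) O * Pi).trace ∂μ) *
      ∫ O in G, (Ga A 0 (Vt + w • 1) O * (Pi * Vt)).trace ∂μ) :=
  h.two (J := j + 21) ((ms_br Pi ((Ms.fr S).mul (.qm _ _)) ((Ms.const Vt).mul (.ga _ _ _))).sub
      (ms_br Pi (((Ms.fr S).mul (.qm _ _)).mul (.const Vt)) (.ga _ _ _)))
    (h.ward (by norm_num) (h.ok.wb h.ri h.ms h.hp h.p0 h.p1 (h.fK (h.frop hS) hj hi) rfl))
    (h.fQ h.vp hS (by omega) hi) h.cga (h.fQ h.z.pi hS (by omega) hi) h.cze hb (by omega) (by omega)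

/-- (Wc) -/
theorem wc : Le B v 29 6 n
    ((∫ O in G, (Ga A 0 (Vt + w • 1) O * (Pi * ((Vt + w • 1) * Pi * Vt))).trace ∂μ) *
      ∫ O in G, (Xi A (Vt + w • 1) P O * Pi).trace ∂μ -
      (∫ O in G, (Qm A (Vt + w • 1) O * (Pi * ((Vt + w • 1) * Pi * Vt))).trace ∂μ) *
      ∫ O in G, (Xi A (Vt + w • 1) P O * (Pi * (Vt + w • 1))).trace ∂μ +
      ((∫ O in G, (Xi A (Vt + w • 1) P O *
        ((Vt + w • 1) * Pi * ((Vt + w • 1) * Pi * Vt))).trace ∂μ) *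
      ∫ O in G, (Qm A (Vt + w • 1) O * Pi).trace ∂μ -
      (∫ O in G, (Xi A (Vt + w • 1) P O * (Pi * ((Vt + w • 1) * Pi * Vt))).trace ∂μ) *
      ∫ O in G, (Ga A 0 (Vt + w • 1) O * Pi).trace ∂μ)) := by
  have mq := Ms.qm A (Vt + w • 1)
  have mg := Ms.ga A 0 (Vt + w • 1)
  have mx := Ms.xi A (Vt + w • 1) P
  have mt := Ms.const (n := n) ((Vt + w • 1) * Pi * Vt)
  have mh := Ms.const (n := n) (Vt + w • 1)
  exact h.four (J := 25) ((((ms_br Pi (mt.mul mq) (mh.mul mx)).sub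
    (ms_br Pi (mt.mul mg) mx)).add (ms_br Pi (mt.mul mx) mg.transpose)).sub
    (ms_br Pi ((mt.mul mx).mul mh) mq))
    (h.ward (by norm_num) (h.ok.wc h.ri h.ms h.hp h.p0 h.p1
      (h.fK h.z.t1 (by norm_num) (by norm_num)) h.fP)) h.ct2 h.cxx (h.gQ h.pt1 (by norm_num))
    (h.gX h.pth (by norm_num)) (h.gX h.z.t2 (by norm_num)) h.cka h.ct3 h.cga
    (fun O hO => (h.pt O hO).wc h.z.t1) (by norm_num) (by norm_num)

/-- (Wd) -/
theorem wd : Le B v 28 8 n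
    ((∫ O in G, (fr Kt O * Xi A (Vt + w • 1) P O * Pi).trace ∂μ) *
      ∫ O in G, (Ga A 0 (Vt + w • 1) O * (Pi * Vt)).trace ∂μ -
      (∫ O in G, (fr Kt O * Xi A (Vt + w • 1) P O * (Vt * Pi)).trace ∂μ) *
      ∫ O in G, (Ga A 0 (Vt + w • 1) O * Pi).trace ∂μ +
      ((∫ O in G, (fr Kt O * Qm A (Vt + w • 1) O * Pi).trace ∂μ) *
      ∫ O in G, (Xi A (Vt + w • 1) P O * ((Vt + w • 1) * Pi * Vt)).trace ∂μ -
      (∫ O in G, (fr Kt O * Qm A (Vt + w • 1) O * (Vt * Pi)).trace ∂μ) *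
      ∫ O in G, (Xi A (Vt + w • 1) P O * ((Vt + w • 1) * Pi)).trace ∂μ)) := by
  have mq := Ms.qm A (Vt + w • 1)
  have mg := Ms.ga A 0 (Vt + w • 1)
  have mx := Ms.xi A (Vt + w • 1) P
  have mh := Ms.const (n := n) (Vt + w • 1)
  have mv := Ms.const (n := n) Vt
  have mk := Ms.fr Kt
  exact h.four (J := 24) ((((ms_br Pi ((mk.mul mx).mul mv) mg).add
    (ms_br Pi ((mk.mul mq).mul mv) (mx.mul mh))).sub (ms_br Pi (mk.mul mx) (mv.mul mg))).sub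
    (ms_br Pi (mk.mul mq) ((mv.mul mx).mul mh)))
    (h.ward (by norm_num) (h.ok.wd h.ri h.ms h.hp h.p0 h.p1
      (h.fK (h.frop h.hK) (by norm_num) (by norm_num)) h.fP rfl))
    (h.fX h.z.pi h.hK (by norm_num) (by norm_num)) h.cze h.cd1 h.cga h.cq3 h.cy
    h.cd2 (h.gX h.thp (by norm_num)) (fun O hO => (h.pt O hO).wd) (by norm_num) (by norm_num)

omit [IsProbabilityMeasure μ] in
theorem ab {x : ℝ} {a : ℕ} (x0 : 0 ≤ x) (hx : x * v ^ a ≤ B * n) : Le B v 1 0 n x := by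
  rw [Le, abs_of_nonneg x0, pow_one, pow_zero, mul_one]
  exact (le_mul_of_one_le_right x0 (one_le_pow₀ h.u.hv)).trans hx

omit [IsProbabilityMeasure μ] in
theorem l0 (j i : ℕ) : Le B v j i n 0 := by
  rw [Le, abs_zero]; exact mul_nonneg (h.u.nn _ _) (Nat.cast_nonneg n)

theorem i1 : Le B v 10 8 r
    (w * ∫ O in G, (fr Kt O * Xi A (Vt + w • 1) P O * (Vt * Pi)).trace ∂μ -
      del⁻¹ ^ 2 * ∫ O in G, (fr P O * Qm A (Vt + w • 1) O * (Vt * Pi)).trace ∂μ +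
      w ^ 2 * ∫ O in G, (Xi A (Vt + w • 1) P O * Pi).trace ∂μ - del⁻¹ ^ 2 * k) := by
  have dk := Un.lmul (Un.lmul h.z.dinv h.z.dinv) (h.ab h.z.k0 h.z.kv)
  rw [one_mul, one_mul] at dk
  exact Un.lcongr (h.lin h.cd1 h.cp2 h.cxx w (-del⁻¹ ^ 2) (w ^ 2) (-(del⁻¹ * del⁻¹ * k))
    (fun O hO => Un.lcongr (h.pt O hO).i1 (by unfold Xi; ring))
    (h.u.lmono (Un.lneg dk) (by norm_num) (by norm_num) le_rfl)) (by ring)

theorem i2 : Le B v 12 10 r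
    (∫ O in G, (fr (Kt * Kt) O * Qm A (Vt + w • 1) O * (Vt * Pi)).trace ∂μ +
      w * ∫ O in G, (fr Kt O * Qm A (Vt + w • 1) O * Pi).trace ∂μ + (Kt * Kt).trace) :=
  Un.lcongr (h.lin h.cq2 h.cq3 h.cq3 1 w 0 (Kt * Kt).trace
    (fun O hO => Un.lcongr (h.pt O hO).i2 (by rw [fr_mul, trace_fr]; ring))
    (h.u.lmono (Un.lcongr h.z.sK2 (by rw [fr_mul, trace_fr])) (by norm_num) (by norm_num) le_rfl))
    (by ring)

theorem i3 : Le B v 9 6 r (∫ O in G, (fr Kt O * Qm A (Vt + w • 1) O * (Vt * Pi)).trace ∂μ +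
    w * ∫ O in G, (Qm A (Vt + w • 1) O * Pi).trace ∂μ) :=
  Un.lcongr (h.lin h.cd2 h.cka h.cka 1 w 0 0 (fun O hO => Un.lcongr (h.pt O hO).i3 (by ring))
    (h.l0 _ _)) (by ring)

theorem i4 : Le B v 12 6 r
    (∫ O in G, (Xi A (Vt + w • 1) P O * ((Vt + w • 1) * Pi * Vt)).trace ∂μ -
      ∫ O in G, (Xi A (Vt + w • 1) P O * (Pi * ((Vt + w • 1) * Pi * Vt))).trace ∂μ) :=
  Un.lcongr (h.lin h.cy h.ct3 h.ct3 1 (-1) 0 0
    (fun O hO => Un.lcongr (h.pt O hO).i4 (by unfold Xi; ring)) (h.l0 _ _)) (by ring)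

theorem i5 : Le B v 17 4 r
    (∫ O in G, (Ga A 0 (Vt + w • 1) O * (Pi * ((Vt + w • 1) * Pi * Vt))).trace ∂μ -
      ∫ O in G, (Qm A (Vt + w • 1) O *
        (Pi * ((Vt + w • 1) * Pi * ((Vt + w • 1) * Pi * Vt)))).trace ∂μ - (Vt * Vt).trace) :=
  Un.lcongr (h.lin h.ct2 (h.gQ h.pt2 (by norm_num)) h.ct2 1 (-1) 0 (-(Vt * Vt).trace)
    (fun O hO => Un.lcongr (h.pt O hO).i5 (by ring))
    (h.u.lmono (Un.lneg (h.ab h.z.trVV h.z.fV)) (by norm_num) (by norm_num) le_rfl)) (by ring)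

/-- **M3** -/
theorem main : Le B v 60 8 (n * r)
    ((∫ O in G, (Xi A (Vt + w • 1) P O * Pi).trace ∂μ) *
        (n * w ^ 2 - (Kt * Kt).trace * (Vt * Vt).trace / n) -
      k / del ^ 2 * ∫ O in G, (Ga A 0 (Vt + w • 1) O * Pi).trace ∂μ) := by
  have z := h.z
  have m : ∀ {x : ℝ} {a : ℕ}, |x| ≤ v ^ a * r → Le B v 0 a r x := fun hx => by
    rwa [Le, pow_zero, one_mul]
  have W1 := h.wb (J := 0) h.hP (by norm_num) (by norm_num) (fun O hO => (h.pt O hO).wb1)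
    (by norm_num) le_rfl
  have W2 := h.wb (J := 10) h.hKK (by norm_num) (by norm_num)
    (fun O hO => by rw [← fr_mul]; exact (h.pt O hO).wb2) (by norm_num) (by norm_num)
  exact h.u.close h.n1 h.r1 h.small z.wabs z.kv z.fV z.k0 z.trVV z.dinv (m h.m2a) (m h.m2b)
    (m h.m2c) W1 (h.mean fun O hO => (h.pt O hO).sP) W2
    (h.mean fun O hO => by rw [← fr_mul]; exact (h.pt O hO).sKK) (h.wa z.t1 (by norm_num))
    (h.mean fun O hO => (h.pt O hO).sG h.pt1) (h.wa z.t2 (by norm_num))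
    (h.mean fun O hO => (h.pt O hO).sG h.pt2) h.wc
    (h.mean fun O hO => (h.pt O hO).sX z.pi) (h.mean fun O hO => (h.pt O hO).sX h.pth)
    (h.mean fun O hO => (h.pt O hO).sX z.t2) h.wd (h.mean fun O hO => (h.pt O hO).sKX)
    (h.mean fun O hO => (h.pt O hO).sKQ) (h.mean fun O hO => (h.pt O hO).sX h.thp)
    h.i1 h.i2 h.i3 h.i4 h.i5

end Hy

end Vale.Agent.N150.T2M3
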