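import Vale.Agent.N150.WardQ

/-! Block T2, part M4 (abstract core): the mean of `tr (Ξ B)` on a fibre. -/

namespace Vale.Agent.N150.T2M4

open Matrix MeasureTheory Set
open Vale.Agent.P150 Vale.Agent.P150.F
open Vale.Agent.N150.Haar (fro fro_nonneg fro_add_le fro_sub_le fro_neg fro_smul fro_transpose
  fro_zero fro_sq' fro_sq)
open Vale.Agent.N150.Wd

variable {n : ℕ}

/-! ### norms -/

theorem opT {A : Mat n} {C : ℝ} (hC : 0 ≤ C) (h : OpLe A C) : OpLe Aᵀ C := by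
  refine opLe_of_nv fun v => ?_
  have h1 : F.sq (Aᵀ *ᵥ v) = ip v (A *ᵥ (Aᵀ *ᵥ v)) := by
    have e : ip v (A *ᵥ (Aᵀ *ᵥ v)) = v ⬝ᵥ (A *ᵥ (Aᵀ *ᵥ v)) := rfl
    rw [e, Matrix.dotProduct_mulVec, ← Matrix.mulVec_transpose, ← ipN_self]; rfl
  have h2 := (ip_le v (A *ᵥ (Aᵀ *ᵥ v))).trans
    (mul_le_mul_of_nonneg_left (h.nv_le hC _) (nv_nonneg v))
  rw [← h1, ← nv_sq] at h2
  rcases (nv_nonneg (Aᵀ *ᵥ v)).eq_or_lt with h0 | h0
  · rw [← h0]; exact mul_nonneg hC (nv_nonneg v)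
  · exact le_of_mul_le_mul_right (by nlinarith) h0

theorem fro_l {A : Mat n} {C : ℝ} (hC : 0 ≤ C) (h : OpLe A C) {X : Mat n} {x : ℝ}
    (hX : fro X ≤ x) : fro (A * X) ≤ C * x := by
  refine le_trans (Real.sqrt_le_iff.2 ⟨mul_nonneg hC (fro_nonneg X), ?_⟩)
    (mul_le_mul_of_nonneg_left hX hC)
  rw [mul_pow, fro_sq', Finset.sum_comm, Finset.sum_comm (f := fun i j => X i j ^ 2),
    Finset.mul_sum]
  exact Finset.sum_le_sum fun j _ => h fun i => X i j

theorem fro_r {A : Mat n} {C : ℝ} (hC : 0 ≤ C) (h : OpLe A C) {X : Mat n} {x : ℝ}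
    (hX : fro X ≤ x) : fro (X * A) ≤ x * C := by
  rw [← fro_transpose, transpose_mul, mul_comm]
  exact fro_l hC (opT hC h) (by rwa [fro_transpose])

theorem fro_one : fro (1 : Mat n) = √n := by
  have h := Haar.fro_orth (1 : OG n)
  rwa [OG.coe_one, Fintype.card_fin] at h

theorem fro_op {A : Mat n} {C : ℝ} (hC : 0 ≤ C) (h : OpLe A C) : fro A ≤ C * √n := by
  have := fro_l hC h (fro_one (n := n)).le
  rwa [mul_one] at this

theorem tr_le {X Y : Mat n} {x y : ℝ} (hX : fro X ≤ x) (hY : fro Y ≤ y) :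
    |(X * Y).trace| ≤ x * y := by
  have e : (X * Y).trace = ∑ p : Fin n × Fin n, X p.1 p.2 * Y p.2 p.1 := by
    rw [Fintype.sum_prod_type]; rfl
  have h := Finset.sum_mul_sq_le_sq_mul_sq Finset.univ (fun p : Fin n × Fin n => X p.1 p.2)
    (fun p => Y p.2 p.1)
  have e1 : ∑ p : Fin n × Fin n, X p.1 p.2 ^ 2 = fro X ^ 2 := by
    rw [fro_sq', Fintype.sum_prod_type]
  have e2 : ∑ p : Fin n × Fin n, Y p.2 p.1 ^ 2 = fro Y ^ 2 := by
    rw [fro_sq', Fintype.sum_prod_type, Finset.sum_comm]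
  rw [e1, e2, ← e, ← mul_pow] at h
  exact (abs_le_of_sq_le_sq h (mul_nonneg (fro_nonneg _) (fro_nonneg _))).trans
    (mul_le_mul hX hY (fro_nonneg _) ((fro_nonneg _).trans hX))

theorem op_proj {P : Mat n} (hP : Pᵀ = P) (hPP : P * P = P) : OpLe P 1 := by
  refine opLe_of_nv fun v => ?_
  have h1 : F.sq (P *ᵥ v) = ip v (P *ᵥ v) := by
    have e : ip v (P *ᵥ v) = v ⬝ᵥ (P *ᵥ (P *ᵥ v)) := by rw [Matrix.mulVec_mulVec, hPP]; rfl
    rw [e, Matrix.dotProduct_mulVec, ← Matrix.mulVec_transpose, hP, ← ipN_self]; rfl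
  have h2 := ip_le v (P *ᵥ v)
  rw [← h1, ← nv_sq] at h2
  rcases (nv_nonneg (P *ᵥ v)).eq_or_lt with h0 | h0
  · rw [← h0]; exact mul_nonneg zero_le_one (nv_nonneg v)
  · exact le_of_mul_le_mul_right (by nlinarith) h0

theorem fro_proj {P : Mat n} (hP : Pᵀ = P) (hPP : P * P = P) {r : ℝ} (hr : P.trace ≤ r) :
    fro P ≤ √r := by
  refine Real.le_sqrt_of_sq_le ?_
  rwa [fro_sq, Haar.ip_eq_trace, hP, hPP]

/-! ### weighted traces at one point -/

/-- the weight `hs = H ^ (1/2)`, `hi = H ^ (-1/2)` commutes with the unexplored projection `P` -/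
structure Wt (P hs hi : Mat n) : Prop where
  hP : Pᵀ = P
  hPP : P * P = P
  sT : hsᵀ = hs
  iT : hiᵀ = hi
  si : hs * hi = 1
  com : P * hs = hs * P

namespace Wt

variable {P hs hi Bh S M N : Mat n} {f σ φ : ℝ} (w : Wt P hs hi)
include w

theorem is : hi * hs = 1 := mul_eq_one_comm.1 w.si

theorem comm_i (hS : S * hs = hs * S) : S * hi = hi * S := by
  calc S * hi = hi * hs * S * hi := by rw [w.is, one_mul]
    _ = hi * S * (hs * hi) := by rw [mul_assoc hi hs S, ← hS]; simp only [mul_assoc]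
    _ = hi * S := by rw [w.si, mul_one]

theorem op : OpLe P 1 := op_proj w.hP w.hPP

theorem cT : (1 - P)ᵀ = 1 - P := by rw [transpose_sub, transpose_one, w.hP]

theorem cc : (1 - P) * (1 - P) = 1 - P := by rw [sub_mul, one_mul, mul_sub, mul_one, w.hPP]; abel

theorem c_com : (1 - P) * hs = hs * (1 - P) := by rw [sub_mul, mul_sub, w.com, one_mul, mul_one]

theorem two_com : (1 + (1 - P)) * hs = hs * (1 + (1 - P)) := by
  rw [add_mul, mul_add, w.c_com, one_mul, mul_one]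

theorem two_op : OpLe (1 + (1 - P)) 2 := by
  have := opLe_one.add (op_proj w.cT w.cc) zero_le_one zero_le_one
  rwa [one_add_one_eq_two] at this

theorem hatT (M : Mat n) : (hi * M * hi)ᵀ = hi * Mᵀ * hi := by
  rw [transpose_mul, transpose_mul, w.iT, mul_assoc]

/-- `|tr (B S M P)| ≤ |hs B hs|_F ‖S‖ |hi M hi|_F` -/
theorem tr1 (hf : fro (hs * Bh * hs) ≤ f) (hS : S * hs = hs * S) (hσ : 0 ≤ σ) (oS : OpLe S σ)
    (hM : fro (hi * M * hi) ≤ φ) : |(Bh * S * M * P).trace| ≤ f * (σ * φ) := by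
  have e : (Bh * S * M * P).trace = (hs * Bh * hs * (S * (hi * M * hi) * P)).trace := by
    have e1 : hs * Bh * hs * (S * (hi * M * hi) * P) = hs * (Bh * S * M * P * hi) := by
      have a1 : hs * S * hi = S := by rw [← hS, mul_assoc, w.si, mul_one]
      calc _ = hs * Bh * (hs * S * hi) * M * (hi * P) := by simp only [mul_assoc]
        _ = _ := by rw [a1, ← w.comm_i w.com]; simp only [mul_assoc]
    rw [e1, trace_mul_comm hs, mul_assoc _ hi, w.is, mul_one]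
  rw [e]
  refine tr_le hf ?_
  simpa only [mul_one] using fro_r zero_le_one w.op (fro_l hσ oS hM)

/-- the first term of the bracket `<B S M | N>` -/
theorem tr2 (hB : Bhᵀ = Bh) (hf : fro (hs * Bh * hs) ≤ f) (hS : S * hs = hs * S) (hσ : 0 ≤ σ)
    (oS : OpLe S σ) (hM : fro (hi * N * hi * (hs * hs * P) * (hi * M * hi)ᵀ) ≤ φ) :
    |(P * (Bh * S * M)ᵀ * P * N).trace| ≤ f * (φ * σ) := by
  have hS' : Sᵀ * hs = hs * Sᵀ := by
    have := congrArg transpose hS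
    rw [transpose_mul, transpose_mul, w.sT] at this
    exact this.symm
  have e : (P * (Bh * S * M)ᵀ * P * N).trace =
      (hs * Bh * hs * (P * (hi * N * hi * (hs * hs * P) * (hi * M * hi)ᵀ) * Sᵀ)).trace := by
    have a1 : hs * P * hi = P := by rw [← w.com, mul_assoc, w.si, mul_one]
    have a2 : hi * (hs * hs * P) * hi = P := by
      calc _ = hi * hs * (hs * P * hi) := by simp only [mul_assoc]
        _ = P := by rw [w.is, a1, one_mul]
    have e1 : hs * Bh * hs * (P * (hi * N * hi * (hs * hs * P) * (hi * M * hi)ᵀ) * Sᵀ) =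
        hs * (Bh * P * N * (P * Mᵀ * Sᵀ) * hi) := by
      rw [w.hatT]
      calc _ = hs * Bh * (hs * P * hi) * N * (hi * (hs * hs * P) * hi) * Mᵀ * (hi * Sᵀ) := by
            simp only [mul_assoc]
        _ = _ := by rw [a1, a2, ← w.comm_i hS']; simp only [mul_assoc]
    rw [e1, trace_mul_comm hs, mul_assoc _ hi, w.is, mul_one, trace_mul_comm (Bh * P * N),
      transpose_mul, transpose_mul, hB]
    simp only [mul_assoc]
  rw [e]
  refine tr_le hf ?_
  simpa only [one_mul] using fro_r hσ (opT hσ oS) (fro_l zero_le_one w.op hM)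

variable {a b c h : ℝ}

theorem mid_a (hb : 0 ≤ b) (hc : 0 ≤ c) (hN : OpLe (hi * N * hi) b) (hh : fro (hs * hs) ≤ h)
    (hM : OpLe (hi * M * hi) c) :
    fro (hi * N * hi * (hs * hs * P) * (hi * M * hi)ᵀ) ≤ b * h * c := by
  simpa only [mul_one] using fro_r hc (opT hc hM) (fro_l hb hN (fro_r zero_le_one w.op hh))

theorem op_mid (ha : 0 ≤ a) (hh : OpLe hs a) : OpLe (hs * hs * P) (a ^ 2) := by
  have := (hh.mulN hh ha ha).mulN w.op (by positivity) zero_le_one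
  rwa [mul_one, ← pow_two a] at this

theorem mid_b (ha : 0 ≤ a) (hc : 0 ≤ c) (hN : fro (hi * N * hi) ≤ b) (hh : OpLe hs a)
    (hM : OpLe (hi * M * hi) c) :
    fro (hi * N * hi * (hs * hs * P) * (hi * M * hi)ᵀ) ≤ b * a ^ 2 * c :=
  fro_r hc (opT hc hM) (fro_r (by positivity) (w.op_mid ha hh) hN)

theorem mid_c (ha : 0 ≤ a) (hc : 0 ≤ c) (hN : OpLe (hi * N * hi) c) (hh : OpLe hs a)
    (hM : fro (hi * M * hi) ≤ b) :
    fro (hi * N * hi * (hs * hs * P) * (hi * M * hi)ᵀ) ≤ b * a ^ 2 * c := by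
  have := fro_l (by positivity) (hN.mulN (w.op_mid ha hh) hc (by positivity))
    (X := (hi * M * hi)ᵀ) (x := b) (by rwa [fro_transpose])
  linarith

theorem sand (g p m : Mat n) :
    hi * (g * p * mᵀ) * hi = hi * g * hi * (hs * p * hs) * (hi * m * hi)ᵀ := by
  rw [w.hatT]
  calc _ = hi * g * (hi * hs) * p * (hs * hi) * mᵀ * hi := by
        rw [w.is, w.si]; simp only [mul_assoc, one_mul]
    _ = _ := by simp only [mul_assoc]

/-- the explored corner -/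
theorem trE {r : ℝ} (hr : (1 - P).trace ≤ r) (hb : 0 ≤ b) (hM : OpLe (hi * M * hi) b)
    (hf : fro (hs * (1 - P) * Bh * (1 - P) * hs) ≤ f) :
    |((1 - P) * M * (1 - P) * Bh).trace| ≤ √r * b * f := by
  have e : ((1 - P) * M * (1 - P) * Bh).trace =
      ((1 - P) * (hi * M * hi) * (hs * (1 - P) * Bh * (1 - P) * hs)).trace := by
    have a1 : hs * (1 - P) * hi = 1 - P := by rw [← w.c_com, mul_assoc, w.si, mul_one]
    calc _ = ((1 - P) * (1 - P) * M * (1 - P) * Bh).trace := by rw [w.cc]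
      _ = ((1 - P) * (hs * (1 - P) * hi) * M * (hi * hs) * (1 - P) * Bh).trace := by
        rw [a1, w.is, mul_one]
      _ = ((1 - P) * hs * ((1 - P) * (hi * M * hi) * (hs * (1 - P) * Bh))).trace := by
        simp only [mul_assoc]
      _ = _ := by rw [trace_mul_comm]; simp only [mul_assoc]
  rw [e]
  exact tr_le (fro_r hb hM (fro_proj w.cT w.cc hr)) hf

/-- the explored row -/
theorem trF {r : ℝ} (hr : (1 - P).trace ≤ r) (hB : Bhᵀ = Bh) (hb : 0 ≤ b)
    (hM : OpLe (hi * M) b) (hf : fro (hs * (1 - P) * Bh) ≤ f) :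
    |(Bh * (1 - P) * M).trace| ≤ f * (√r * b) := by
  have e : Bh * (1 - P) * M = (hs * (1 - P) * Bh)ᵀ * ((1 - P) * (hi * M)) := by
    have a1 : hs * (1 - P) * hi = 1 - P := by rw [← w.c_com, mul_assoc, w.si, mul_one]
    rw [transpose_mul, transpose_mul, hB, w.cT, w.sT]
    calc _ = Bh * ((1 - P) * (1 - P)) * M := by rw [w.cc]
      _ = Bh * ((1 - P) * (hs * (1 - P) * hi)) * M := by rw [a1]
      _ = _ := by simp only [mul_assoc]
  rw [e]
  exact tr_le (by rwa [fro_transpose]) (fro_r hb hM (fro_proj w.cT w.cc hr))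

end Wt

/-! ### means over the good set -/

section Mean

variable {μ : Measure (OG n)} [IsProbabilityMeasure μ] {G : Set (OG n)} {u v : OG n → ℝ}
  {b c δ : ℝ}

/-- measurable and bounded on `G` -/
def Bd (G : Set (OG n)) (u : OG n → ℝ) : Prop := Measurable u ∧ ∃ b, ∀ O ∈ G, |u O| ≤ b

theorem Bd.int (hG : MeasurableSet G) (h : Bd G u) : Integrable u (μ.restrict G) := by
  obtain ⟨h1, b, h2⟩ := h
  exact Integrable.of_bound h1.aestronglyMeasurable b ((ae_restrict_mem hG).mono h2)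

theorem Bd.mul (h : Bd G u) (h' : Bd G v) : Bd G fun O => u O * v O := by
  obtain ⟨h1, b, h2⟩ := h
  obtain ⟨h3, c, h4⟩ := h'
  refine ⟨h1.mul h3, b * c, fun O hO => ?_⟩
  rw [abs_mul]
  exact mul_le_mul (h2 O hO) (h4 O hO) (abs_nonneg _) ((abs_nonneg _).trans (h2 O hO))

theorem Bd.add (h : Bd G u) (h' : Bd G v) : Bd G fun O => u O + v O := by
  obtain ⟨h1, b, h2⟩ := h
  obtain ⟨h3, c, h4⟩ := h'
  exact ⟨h1.add h3, b + c, fun O hO => (abs_add_le _ _).trans (add_le_add (h2 O hO) (h4 O hO))⟩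

theorem Bd.const (G : Set (OG n)) (c : ℝ) : Bd G fun _ => c :=
  ⟨measurable_const, |c|, fun _ _ => le_rfl⟩

theorem Bd.sub (h : Bd G u) (h' : Bd G v) : Bd G fun O => u O - v O := by
  have := h.add ((Bd.const G (-1)).mul h')
  simpa only [neg_mul, one_mul, ← sub_eq_add_neg] using this

theorem Bd.abs (h : Bd G u) : Bd G fun O => |u O| := by
  obtain ⟨h1, b, h2⟩ := h
  exact ⟨continuous_abs.measurable.comp h1, b, fun O hO => by simpa using h2 O hO⟩

theorem abs_mean (hb : 0 ≤ b) (h : ∀ O ∈ G, |u O| ≤ b) : |∫ O in G, u O ∂μ| ≤ b :=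
  (norm_setIntegral_le_of_norm_le_const (μ := μ) (s := G) (f := u) (measure_lt_top _ _) h).trans
    (mul_le_of_le_one_right hb measureReal_le_one)

/-- a bounded factor against a concentrated factor -/
theorem mean_prod (hG : MeasurableSet G) (mu : Measurable u) (hb : 0 ≤ b) (h : ∀ O ∈ G, |u O| ≤ b)
    (hv : Bd G v) (hδ : ∫ O in G, |v O - c| ∂μ ≤ δ) :
    |∫ O in G, u O * v O ∂μ - (∫ O in G, u O ∂μ) * c| ≤ b * δ := by
  have hu : Bd G u := ⟨mu, b, h⟩
  have i1 := (hu.mul hv).int (μ := μ) hG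
  have i2 := (hu.mul (Bd.const G c)).int (μ := μ) hG
  have i3 := (hv.sub (Bd.const G c)).abs.int (μ := μ) hG
  rw [← integral_mul_const, ← integral_sub i1 i2]
  refine abs_integral_le_integral_abs.trans (le_trans ?_ (mul_le_mul_of_nonneg_left hδ hb))
  rw [← integral_const_mul]
  refine setIntegral_mono_on (i1.sub i2).abs (i3.const_mul b) hG fun O hO => ?_
  rw [← mul_sub, abs_mul]
  exact mul_le_mul_of_nonneg_right (h O hO) (abs_nonneg _)

/-- mean absolute deviation of a Lipschitz function -/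
theorem mean_dev (h : Conc μ c) (hc : 0 < c) (hG : MeasurableSet G) {p L : ℝ}
    (hp : μ.real Gᶜ ≤ p) (mu : Measurable u) (hL : 0 < L) (hb : 0 ≤ b) (hl : LipO G L u)
    (hu : ∀ O ∈ G, |u O| ≤ b) :
    ∫ O in G, |u O - ∫ O in G, u O ∂μ| ∂μ ≤ √(2 * L * L / c + 3 * b * b * p) := by
  have h1 := (abs_le.1 (cov_good h hc hG hp hL hL hb hb hl hl hu hu)).2
  have p0 : 0 ≤ p := measureReal_nonneg.trans hp
  have hV : 0 < 2 * L * L / c + 3 * b * b * p := by positivity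
  set V := 2 * L * L / c + 3 * b * b * p
  set m := ∫ O in G, u O ∂μ with hm
  have hs : 0 < √V := Real.sqrt_pos.2 hV
  have bu : Bd G u := ⟨mu, b, hu⟩
  have i1 := (bu.mul bu).int (μ := μ) hG
  have i2 := ((Bd.const G (2 * m)).mul bu).int (μ := μ) hG
  have i3 := (Bd.const G (m * m + V)).int (μ := μ) hG
  have m1 : μ.real G ≤ 1 := measureReal_le_one
  have e : ∫ O in G, (u O * u O - 2 * m * u O + (m * m + V)) ∂μ ≤ 2 * V := by
    have i4 : Integrable (fun O => u O * u O - 2 * m * u O) (μ.restrict G) := i1.sub i2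
    rw [integral_add i4 i3, integral_sub i1 i2, integral_const_mul, ← hm,
      setIntegral_const, smul_eq_mul]
    nlinarith [mul_self_nonneg m]
  have e2 : ∫ O in G, 2 * √V * |u O - m| ∂μ ≤ 2 * V := by
    refine le_trans (setIntegral_mono_on (((bu.sub (Bd.const G m)).abs.int hG).const_mul _)
      ((i1.sub i2).add i3) hG fun O _ => ?_) e
    show 2 * √V * |u O - m| ≤ u O * u O - 2 * m * u O + (m * m + V)
    nlinarith [sq_nonneg (|u O - m| - √V), sq_abs (u O - m), Real.sq_sqrt hV.le]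
  rw [integral_const_mul] at e2
  nlinarith [Real.mul_self_sqrt hV.le]

end Mean

/-! ### the two Ward identities -/

/-- bounds at one point of the good set; `g = Γ`, `q = Q`, `p` the rotating projection -/
structure Pt (P D Bh g q p hs hi : Mat n) (B a h2 κ f0 FB FBB : ℝ) : Prop where
  wt : Wt P hs hi
  og : OpLe (hi * g * hi) B
  om : OpLe (hi * (D * g) * hi) B
  oq : OpLe (hi * q * hi) B
  oi : OpLe hi B
  os : OpLe hs a
  fs : fro (hs * hs) ≤ h2
  op : OpLe p 1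
  fp : fro p ≤ κ
  f0 : fro (hs * Bh * hs) ≤ f0
  fb : fro (hs * (1 - P) * Bh) ≤ FB
  fbb : fro (hs * (1 - P) * Bh * (1 - P) * hs) ≤ FBB

/-- the data of one fibre -/
structure Fb (P A D R Bh : Mat n) (μ : Measure (OG n)) (G : Set (OG n)) (hs hi : OG n → Mat n)
    (K p B a h2 κ f0 FB FBB : ℝ) : Prop where
  ok : Ok P G K A 0 D
  ri : RI P μ
  hG : MeasurableSet G
  hp : μ.real Gᶜ ≤ p
  p0 : 0 < p
  p1 : p ≤ 1
  bT : Bhᵀ = Bh
  rT : Rᵀ = R
  rr : R * R = R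
  hB : 1 ≤ B
  ha : 0 ≤ a
  oD : OpLe D B
  bK : 2 * B * fro Bh ≤ K
  rK : fro R ≤ K
  ne : G.Nonempty
  pt : ∀ O ∈ G, Pt P D Bh (Ga A 0 D O) (Qm A D O) (fr R O) (hs O) (hi O) B a h2 κ f0 FB FBB

/-- `tr P Γ` -/
noncomputable def ga (P A D : Mat n) (O : OG n) : ℝ := (P * Ga A 0 D O).trace
/-- `tr P Q` -/
noncomputable def ka (P A D : Mat n) (O : OG n) : ℝ := (P * Qm A D O).trace
/-- `tr P Ξ` -/
noncomputable def xx (P A D R : Mat n) (O : OG n) : ℝ := (P * Xi A D R O).trace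
/-- `tr P D Ξ` -/
noncomputable def aa (P A D R : Mat n) (O : OG n) : ℝ := (P * (D * Xi A D R O)).trace
/-- `tr T Q P` -/
noncomputable def tq (P A D T : Mat n) (O : OG n) : ℝ := (T * Qm A D O * P).trace
/-- `tr T Γ P` -/
noncomputable def tg (P A D T : Mat n) (O : OG n) : ℝ := (T * Ga A 0 D O * P).trace

theorem trT {P : Mat n} (hP : Pᵀ = P) (M : Mat n) : (P * Mᵀ).trace = (P * M).trace := by
  rw [← trace_transpose, transpose_mul, transpose_transpose, hP, trace_mul_comm]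

theorem ms_ga (P A D : Mat n) : Measurable (ga P A D) := ((Ms.const P).mul (.ga A 0 D)).trace
theorem ms_ka (P A D : Mat n) : Measurable (ka P A D) := ((Ms.const P).mul (.qm A D)).trace
theorem ms_xx (P A D R : Mat n) : Measurable (xx P A D R) := ((Ms.const P).mul (.xi A D R)).trace
theorem ms_aa (P A D R : Mat n) : Measurable (aa P A D R) :=
  ((Ms.const P).mul ((Ms.const D).mul (.xi A D R))).trace
theorem ms_tq (P A D T : Mat n) : Measurable (tq P A D T) :=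
  (((Ms.const T).mul (.qm A D)).mul (.const P)).trace
theorem ms_tg (P A D T : Mat n) : Measurable (tg P A D T) :=
  (((Ms.const T).mul (.ga A 0 D)).mul (.const P)).trace

theorem ms_nt (P : Mat n) {L M : OG n → Mat n} (hL : Ms L) (hM : Ms M) :
    Measurable fun O => (P * (L O)ᵀ * P * M O).trace :=
  ((((Ms.const P).mul hL.transpose).mul (.const P)).mul hM).trace

namespace Pt

variable {P D Bh g q p hs hi : Mat n} {B a h2 κ f0 FB FBB : ℝ}
  (h : Pt P D Bh g q p hs hi B a h2 κ f0 FB FBB)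
include h

theorem n0 : 0 ≤ f0 := (fro_nonneg _).trans h.f0
theorem nh : 0 ≤ h2 := (fro_nonneg _).trans h.fs
theorem nk : 0 ≤ κ := (fro_nonneg _).trans h.fp

theorem raw {M : Mat n} {b : ℝ} (ha : 0 ≤ a) (hb : 0 ≤ b) (hM : OpLe (hi * M * hi) b) :
    OpLe M (a * b * a) := by
  have e : M = hs * (hi * M * hi) * hs := by
    calc M = hs * hi * M * (hi * hs) := by rw [h.wt.si, h.wt.is, one_mul, mul_one]
      _ = _ := by simp only [mul_assoc]
  rw [e]
  exact (h.os.mulN hM ha hb).mulN h.os (by positivity) ha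

theorem tr_raw {M : Mat n} {b : ℝ} (ha : 0 ≤ a) (hb : 0 ≤ b) (hM : OpLe (hi * M * hi) b) :
    |(P * M).trace| ≤ √n * (a * b * a * √n) :=
  tr_le (by simpa only [one_mul] using fro_op zero_le_one h.wt.op)
    (fro_op (by positivity) (h.raw ha hb hM))

theorem sandF (ha : 0 ≤ a) (hB : 0 ≤ B) {M N : Mat n} (hM : OpLe (hi * M * hi) B)
    (hN : OpLe (hi * N * hi) B) : fro (hi * (M * p * Nᵀ) * hi) ≤ B ^ 2 * a ^ 2 * κ := by
  rw [h.wt.sand]
  refine (fro_r hB (opT hB hN) (fro_l hB hM (fro_r ha h.os (fro_l ha h.os h.fp)))).trans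
    (le_of_eq (by ring))

theorem sandO (ha : 0 ≤ a) (hB : 0 ≤ B) {M N : Mat n} (hM : OpLe (hi * M * hi) B)
    (hN : OpLe (hi * N * hi) B) : OpLe (hi * (M * p * Nᵀ) * hi) (B ^ 2 * a ^ 2) := by
  rw [h.wt.sand]
  have := (hM.mulN ((h.os.mulN h.op ha zero_le_one).mulN h.os (by positivity) ha) hB
    (by positivity)).mulN (opT hB hN) (by positivity) hB
  exact this.monoN (by positivity) (le_of_eq (by ring))

theorem ogT (hB : 0 ≤ B) : OpLe (hi * gᵀ * hi) B := by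
  rw [← h.wt.hatT]; exact opT hB h.og

end Pt

namespace Fb

variable {P A D R Bh : Mat n} {μ : Measure (OG n)} [IsProbabilityMeasure μ] {G : Set (OG n)}
  {hs hi : OG n → Mat n} {K p B a h2 κ f0 FB FBB δ γ : ℝ}
  (h : Fb P A D R Bh μ G hs hi K p B a h2 κ f0 FB FBB)
include h

omit [IsProbabilityMeasure μ] in
theorem B0 : 0 ≤ B := zero_le_one.trans h.hB

omit [IsProbabilityMeasure μ] in
theorem n0 : 0 ≤ f0 ∧ 0 ≤ h2 ∧ 0 ≤ κ := by
  obtain ⟨O, hO⟩ := h.ne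
  exact ⟨(h.pt O hO).n0, (h.pt O hO).nh, (h.pt O hO).nk⟩

omit [IsProbabilityMeasure μ] in
theorem bd_ga : Bd G (ga P A D) :=
  ⟨ms_ga _ _ _, _, fun O hO => (h.pt O hO).tr_raw h.ha h.B0 (h.pt O hO).og⟩

omit [IsProbabilityMeasure μ] in
theorem bd_ka : Bd G (ka P A D) :=
  ⟨ms_ka _ _ _, _, fun O hO => (h.pt O hO).tr_raw h.ha h.B0 (h.pt O hO).oq⟩

omit [IsProbabilityMeasure μ] in
theorem xiD (O : OG n) : Xi A D R O * D = Ga A 0 D O * fr R O * (D * Ga A 0 D O)ᵀ := by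
  rw [Xi, transpose_mul, h.ok.hD, mul_assoc]

omit [IsProbabilityMeasure μ] in
theorem bd_xx : Bd G (xx P A D R) :=
  ⟨ms_xx _ _ _ _, _, fun O hO => (h.pt O hO).tr_raw h.ha (by positivity)
    ((h.pt O hO).sandO h.ha h.B0 (h.pt O hO).og (h.pt O hO).og)⟩

omit [IsProbabilityMeasure μ] in
theorem bd_aa : Bd G (aa P A D R) :=
  ⟨ms_aa _ _ _ _, _, fun O hO => (h.pt O hO).tr_raw (b := B ^ 2 * a ^ 2) h.ha (by positivity) (by
    rw [Xi, ← mul_assoc D, ← mul_assoc D]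
    exact (h.pt O hO).sandO h.ha h.B0 (h.pt O hO).om (h.pt O hO).og)⟩

/-- (Wa) for `T = B S W` -/
theorem wa {S W : Mat n} (hS : ∀ O ∈ G, S * hs O = hs O * S) (oS : OpLe S 2)
    (hT : fro (Bh * S * W) ≤ K) (h1 : ∀ O ∈ G, OpLe (hi O * (W * Qm A D O) * hi O) (2 * B ^ 2))
    (h2' : ∀ O ∈ G, OpLe (hi O * (W * Ga A 0 D O) * hi O) (2 * B ^ 2))
    (dg : ∫ O in G, |ga P A D O - γ| ∂μ ≤ δ) (dk : ∫ O in G, |ka P A D O| ∂μ ≤ δ) :
    |(∫ O in G, tq P A D (Bh * S * W) O ∂μ) * γ| ≤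
      K ^ 24 * √p + 8 * f0 * B ^ 3 * h2 + 8 * f0 * B ^ 2 * √n * δ := by
  have B0 := h.B0
  obtain ⟨n0, nh, _⟩ := h.n0
  have w := h.ok.wa h.ri h.hG h.hp h.p0 h.p1 hT
  set T := Bh * S * W with hTd
  have b1 : ∀ O ∈ G, |tq P A D T O| ≤ f0 * (2 * (2 * B ^ 2 * √n)) := fun O hO => by
    rw [tq, hTd, mul_assoc _ W]
    exact (h.pt O hO).wt.tr1 (h.pt O hO).f0 (hS O hO) zero_le_two oS
      (fro_op (by positivity) (h1 O hO))
  have b2 : ∀ O ∈ G, |tg P A D T O| ≤ f0 * (2 * (2 * B ^ 2 * √n)) := fun O hO => by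
    rw [tg, hTd, mul_assoc _ W]
    exact (h.pt O hO).wt.tr1 (h.pt O hO).f0 (hS O hO) zero_le_two oS
      (fro_op (by positivity) (h2' O hO))
  set nt : OG n → ℝ := fun O => (P * (T * Qm A D O)ᵀ * P * (Ga A 0 D O)ᵀ).trace -
    (P * (T * Ga A 0 D O)ᵀ * P * Qm A D O).trace with hnt
  have b3 : ∀ O ∈ G, |nt O| ≤ 8 * f0 * B ^ 3 * h2 := fun O hO => by
    have q := h.pt O hO
    have a1 := q.wt.tr2 h.bT q.f0 (hS O hO) zero_le_two oS
      (q.wt.mid_a B0 (by positivity) (q.ogT B0) q.fs (h1 O hO))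
    have a2 := q.wt.tr2 h.bT q.f0 (hS O hO) zero_le_two oS
      (q.wt.mid_a B0 (by positivity) q.oq q.fs (h2' O hO))
    rw [← mul_assoc _ W, ← hTd] at a1 a2
    exact (abs_sub _ _).trans ((add_le_add a1 a2).trans (le_of_eq (by ring)))
  have mnt : Measurable nt := (ms_nt P ((Ms.const T).mul (.qm A D)) (Ms.ga A 0 D).transpose).sub
    (ms_nt P ((Ms.const T).mul (.ga A 0 D)) (.qm A D))
  have j1 := (Bd.mul ⟨ms_tq P A D T, _, b1⟩ h.bd_ga).int (μ := μ) h.hG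
  have j2 := (Bd.mul ⟨ms_tg P A D T, _, b2⟩ h.bd_ka).int (μ := μ) h.hG
  have j3 := Bd.int (μ := μ) h.hG ⟨mnt, _, b3⟩
  have j4 : Integrable (fun O => nt O - tq P A D T O * ga P A D O) (μ.restrict G) := j3.sub j1
  have e : ∫ O in G, (br P (T * Qm A D O) (Ga A 0 D O)ᵀ - br P (T * Ga A 0 D O) (Qm A D O)) ∂μ =
      ∫ O in G, nt O ∂μ - ∫ O in G, tq P A D T O * ga P A D O ∂μ +
        ∫ O in G, tg P A D T O * ka P A D O ∂μ := by
    rw [← integral_sub j3 j1, ← integral_add j4 j2]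
    refine integral_congr_ae (ae_of_all _ fun O => ?_)
    simp only [br, hnt, tq, tg, ga, ka, trT h.ok.hP]
    ring
  rw [e] at w
  have c1 := mean_prod h.hG (ms_tq P A D T) (by positivity) b1 h.bd_ga dg
  have c2 := mean_prod (c := 0) h.hG (ms_tg P A D T) (by positivity) b2 h.bd_ka
    (by simpa only [sub_zero] using dk)
  have c3 := abs_mean (μ := μ) (by positivity) b3
  rw [mul_zero, sub_zero] at c2
  rw [abs_le] at w c1 c2 c3 ⊢
  constructor <;> linarith [w.1, w.2, c1.1, c1.2, c2.1, c2.2, c3.1, c3.2]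

omit [IsProbabilityMeasure μ] in
theorem two_le : B ≤ 2 * B ^ 2 := by nlinarith [h.hB]

omit [IsProbabilityMeasure μ] in
theorem wt : ∃ s i, Wt P s i := by
  obtain ⟨O, hO⟩ := h.ne
  exact ⟨_, _, (h.pt O hO).wt⟩

omit [IsProbabilityMeasure μ] in
theorem fro_T1 : fro (Bh * (1 + (1 - P))) ≤ K := by
  obtain ⟨s, i, w⟩ := h.wt
  refine (fro_r zero_le_two w.two_op le_rfl).trans (le_trans ?_ h.bK)
  nlinarith [h.hB, fro_nonneg Bh]

/-- (Wa) for `T₁ = B (1 + (1 - P))` -/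
theorem wa1 (dg : ∫ O in G, |ga P A D O - γ| ∂μ ≤ δ) (dk : ∫ O in G, |ka P A D O| ∂μ ≤ δ) :
    |(∫ O in G, tq P A D (Bh * (1 + (1 - P))) O ∂μ) * γ| ≤
      K ^ 24 * √p + 8 * f0 * B ^ 3 * h2 + 8 * f0 * B ^ 2 * √n * δ := by
  obtain ⟨s, i, w⟩ := h.wt
  have := h.wa (S := 1 + (1 - P)) (W := 1) (fun O hO => (h.pt O hO).wt.two_com) w.two_op
    (by rw [mul_one]; exact h.fro_T1)
    (fun O hO => by rw [one_mul]; exact (h.pt O hO).oq.monoN h.B0 h.two_le)
    (fun O hO => by rw [one_mul]; exact (h.pt O hO).og.monoN h.B0 h.two_le) dg dk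
  rwa [mul_one] at this

omit [IsProbabilityMeasure μ] in
theorem oDQ {O : OG n} (hO : O ∈ G) : OpLe (hi O * (D * Qm A D O) * hi O) (2 * B ^ 2) := by
  have q := h.pt O hO
  have e : hi O * (D * Qm A D O) * hi O = hi O * (Ga A 0 D O)ᵀ * hi O - hi O * hi O := by
    rw [GaT_eq h.ok.hA h.ok.hD (h.ok.unit O hO)]; noncomm_ring
  rw [e]
  have B0 := h.B0
  exact ((q.ogT B0).sub (q.oi.mulN q.oi B0 B0) B0 (by positivity)).monoN (by positivity)
    (by nlinarith [h.hB])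

/-- (Wa) for `T₂ = B P D` -/
theorem wa2 (dg : ∫ O in G, |ga P A D O - γ| ∂μ ≤ δ) (dk : ∫ O in G, |ka P A D O| ∂μ ≤ δ) :
    |(∫ O in G, tq P A D (Bh * P * D) O ∂μ) * γ| ≤
      K ^ 24 * √p + 8 * f0 * B ^ 3 * h2 + 8 * f0 * B ^ 2 * √n * δ := by
  obtain ⟨s, i, w⟩ := h.wt
  refine h.wa (fun O hO => (h.pt O hO).wt.com) (w.op.monoN zero_le_one one_le_two) ?_
    (fun O hO => h.oDQ hO) (fun O hO => (h.pt O hO).om.monoN h.B0 h.two_le) dg dk
  refine (fro_r h.B0 h.oD (fro_r zero_le_one w.op le_rfl)).trans (le_trans ?_ h.bK)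
  nlinarith [h.B0, fro_nonneg Bh, mul_nonneg h.B0 (fro_nonneg Bh)]

/-- (Wc) for `T₁ = B (1 + (1 - P))` -/
theorem wc {cv : ℝ} (dg : ∫ O in G, |ga P A D O - γ| ∂μ ≤ δ)
    (dk : ∫ O in G, |ka P A D O| ∂μ ≤ δ)
    (c1 : |∫ O in G, tq P A D (Bh * (1 + (1 - P))) O * aa P A D R O ∂μ -
      (∫ O in G, tq P A D (Bh * (1 + (1 - P))) O ∂μ) * ∫ O in G, aa P A D R O ∂μ| ≤ cv)
    (c2 : |∫ O in G, tg P A D (Bh * (1 + (1 - P))) O * xx P A D R O ∂μ -
      (∫ O in G, tg P A D (Bh * (1 + (1 - P))) O ∂μ) * ∫ O in G, xx P A D R O ∂μ| ≤ cv) :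
    |(∫ O in G, (Bh * (1 + (1 - P)) * Xi A D R O * P).trace ∂μ) * γ -
      (∫ O in G, tg P A D (Bh * (1 + (1 - P))) O ∂μ) * (∫ O in G, xx P A D R O ∂μ) +
      (∫ O in G, tq P A D (Bh * (1 + (1 - P))) O ∂μ) * ∫ O in G, aa P A D R O ∂μ| ≤
      K ^ 41 * √p + 8 * f0 * B ^ 3 * a ^ 4 * κ + 4 * f0 * B ^ 2 * a ^ 2 * κ * δ + 2 * cv := by
  have B0 := h.B0
  have a0 := h.ha
  obtain ⟨n0, nh, nk⟩ := h.n0
  obtain ⟨s, i, w0⟩ := h.wt
  have oS := w0.two_op
  have w := h.ok.wc h.ri h.hG h.hp h.p0 h.p1 h.fro_T1 h.rK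
  set S : Mat n := 1 + (1 - P) with hSd
  have hS : ∀ O ∈ G, S * hs O = hs O * S := fun O hO => (h.pt O hO).wt.two_com
  set T := Bh * S with hTd
  have x1 : ∀ O ∈ G, fro (hi O * Xi A D R O * hi O) ≤ B ^ 2 * a ^ 2 * κ := fun O hO =>
    (h.pt O hO).sandF a0 B0 (h.pt O hO).og (h.pt O hO).og
  have x2 : ∀ O ∈ G, fro (hi O * (Xi A D R O * D) * hi O) ≤ B ^ 2 * a ^ 2 * κ := fun O hO => by
    rw [h.xiD]; exact (h.pt O hO).sandF a0 B0 (h.pt O hO).og (h.pt O hO).om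
  have x3 : ∀ O ∈ G, fro (hi O * (D * Xi A D R O) * hi O) ≤ B ^ 2 * a ^ 2 * κ := fun O hO => by
    rw [Xi, ← mul_assoc D, ← mul_assoc D]
    exact (h.pt O hO).sandF a0 B0 (h.pt O hO).om (h.pt O hO).og
  have b1 : ∀ O ∈ G, |tq P A D T O| ≤ f0 * (2 * (B * √n)) := fun O hO =>
    (h.pt O hO).wt.tr1 (h.pt O hO).f0 (hS O hO) zero_le_two oS (fro_op B0 (h.pt O hO).oq)
  have b2 : ∀ O ∈ G, |tg P A D T O| ≤ f0 * (2 * (B * √n)) := fun O hO =>
    (h.pt O hO).wt.tr1 (h.pt O hO).f0 (hS O hO) zero_le_two oS (fro_op B0 (h.pt O hO).og)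
  set u3 : OG n → ℝ := fun O => (T * Xi A D R O * P).trace with hu3
  set u4 : OG n → ℝ := fun O => (T * Xi A D R O * D * P).trace with hu4
  have b3 : ∀ O ∈ G, |u3 O| ≤ f0 * (2 * (B ^ 2 * a ^ 2 * κ)) := fun O hO =>
    (h.pt O hO).wt.tr1 (h.pt O hO).f0 (hS O hO) zero_le_two oS (x1 O hO)
  have b4 : ∀ O ∈ G, |u4 O| ≤ f0 * (2 * (B ^ 2 * a ^ 2 * κ)) := fun O hO => by
    have := (h.pt O hO).wt.tr1 (h.pt O hO).f0 (hS O hO) zero_le_two oS (x2 O hO)
    rwa [← mul_assoc _ _ D] at this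
  have m3 : Measurable u3 := (((Ms.const T).mul (.xi A D R)).mul (.const P)).trace
  have m4 : Measurable u4 := ((((Ms.const T).mul (.xi A D R)).mul (.const D)).mul (.const P)).trace
  set nt : OG n → ℝ := fun O => (P * (T * Qm A D O)ᵀ * P * (D * Xi A D R O)).trace -
    (P * (T * Ga A 0 D O)ᵀ * P * Xi A D R O).trace +
    ((P * (T * Xi A D R O)ᵀ * P * (Ga A 0 D O)ᵀ).trace -
    (P * (T * Xi A D R O * D)ᵀ * P * Qm A D O).trace) with hnt
  have b5 : ∀ O ∈ G, |nt O| ≤ 8 * f0 * B ^ 3 * a ^ 4 * κ := fun O hO => by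
    have q := h.pt O hO
    have a1 := q.wt.tr2 h.bT q.f0 (hS O hO) zero_le_two oS (q.wt.mid_b a0 B0 (x3 O hO) q.os q.oq)
    have a2 := q.wt.tr2 h.bT q.f0 (hS O hO) zero_le_two oS (q.wt.mid_b a0 B0 (x1 O hO) q.os q.og)
    have a3 := q.wt.tr2 h.bT q.f0 (hS O hO) zero_le_two oS
      (q.wt.mid_c a0 B0 (q.ogT B0) q.os (x1 O hO))
    have a4 := q.wt.tr2 h.bT q.f0 (hS O hO) zero_le_two oS (q.wt.mid_c a0 B0 q.oq q.os (x2 O hO))
    rw [← mul_assoc _ _ D] at a4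
    exact (abs_add_le _ _).trans ((add_le_add ((abs_sub _ _).trans (add_le_add a1 a2))
      ((abs_sub _ _).trans (add_le_add a3 a4))).trans (le_of_eq (by ring)))
  have mX : Ms fun O => T * Xi A D R O := (Ms.const T).mul (.xi A D R)
  have mnt : Measurable nt :=
    ((ms_nt P ((Ms.const T).mul (.qm A D)) ((Ms.const D).mul (.xi A D R))).sub
      (ms_nt P ((Ms.const T).mul (.ga A 0 D)) (.xi A D R))).add
    ((ms_nt P mX (Ms.ga A 0 D).transpose).sub (ms_nt P (mX.mul (.const D)) (.qm A D)))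
  have j1 := (Bd.mul ⟨ms_tq P A D T, _, b1⟩ h.bd_aa).int (μ := μ) h.hG
  have j2 := (Bd.mul ⟨ms_tg P A D T, _, b2⟩ h.bd_xx).int (μ := μ) h.hG
  have j3 := (Bd.mul ⟨m3, _, b3⟩ h.bd_ga).int (μ := μ) h.hG
  have j4 := (Bd.mul ⟨m4, _, b4⟩ h.bd_ka).int (μ := μ) h.hG
  have j5 := Bd.int (μ := μ) h.hG ⟨mnt, _, b5⟩
  have j6 : Integrable (fun O => nt O - tq P A D T O * aa P A D R O) (μ.restrict G) := j5.sub j1
  have j7 : Integrable (fun O => nt O - tq P A D T O * aa P A D R O +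
      tg P A D T O * xx P A D R O) (μ.restrict G) := j6.add j2
  have j8 : Integrable (fun O => nt O - tq P A D T O * aa P A D R O +
      tg P A D T O * xx P A D R O - u3 O * ga P A D O) (μ.restrict G) := j7.sub j3
  have e : ∫ O in G, (br P (T * Qm A D O) (D * Xi A D R O) - br P (T * Ga A 0 D O) (Xi A D R O) +
      br P (T * Xi A D R O) (Ga A 0 D O)ᵀ - br P (T * Xi A D R O * D) (Qm A D O)) ∂μ =
      ∫ O in G, nt O ∂μ - ∫ O in G, tq P A D T O * aa P A D R O ∂μ +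
        ∫ O in G, tg P A D T O * xx P A D R O ∂μ - ∫ O in G, u3 O * ga P A D O ∂μ +
        ∫ O in G, u4 O * ka P A D O ∂μ := by
    rw [← integral_sub j5 j1, ← integral_add j6 j2, ← integral_sub j7 j3, ← integral_add j8 j4]
    refine integral_congr_ae (ae_of_all _ fun O => ?_)
    simp only [br, hnt, hu3, hu4, tq, tg, ga, ka, xx, aa, trT h.ok.hP]
    ring
  rw [e] at w
  have c3 := mean_prod h.hG m3 (by positivity) b3 h.bd_ga dg
  have c4 := mean_prod (c := 0) h.hG m4 (by positivity) b4 h.bd_ka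
    (by simpa only [sub_zero] using dk)
  have c5 := abs_mean (μ := μ) (by positivity) b5
  rw [mul_zero, sub_zero] at c4
  rw [abs_le] at w c1 c2 c3 c4 c5 ⊢
  constructor <;>
    linarith [w.1, w.2, c1.1, c1.2, c2.1, c2.2, c3.1, c3.2, c4.1, c4.2, c5.1, c5.2]

omit [IsProbabilityMeasure μ] in
theorem tr_sand {O : OG n} (hO : O ∈ G) {M N : Mat n} (hM : OpLe (hi O * M * hi O) B)
    (hN : OpLe (hi O * N * hi O) B) :
    |(P * (M * fr R O * Nᵀ)).trace| ≤ (a * B * a * κ) ^ 2 := by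
  have q := h.pt O hO
  have a0 := h.ha
  have B0 := h.B0
  have e : P * (M * fr R O * Nᵀ) = P * (M * fr R O) * (N * fr R O)ᵀ := by
    rw [transpose_mul, fr_transpose, h.rT, mul_assoc P, mul_assoc M (fr R O) (_ * _),
      ← mul_assoc (fr R O), fr_mul, h.rr, mul_assoc M]
  rw [e, pow_two]
  refine tr_le ?_ ?_
  · simpa only [one_mul] using fro_l zero_le_one q.wt.op
      (fro_l (by positivity) (q.raw a0 B0 hM) q.fp)
  · rw [fro_transpose]; exact fro_l (by positivity) (q.raw a0 B0 hN) q.fp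

omit [IsProbabilityMeasure μ] in
theorem abs_xx {O : OG n} (hO : O ∈ G) : |xx P A D R O| ≤ (a * B * a * κ) ^ 2 :=
  h.tr_sand hO (h.pt O hO).og (h.pt O hO).og

omit [IsProbabilityMeasure μ] in
theorem abs_aa {O : OG n} (hO : O ∈ G) : |aa P A D R O| ≤ (a * B * a * κ) ^ 2 := by
  rw [aa, Xi, ← mul_assoc D, ← mul_assoc D]
  exact h.tr_sand hO (h.pt O hO).om (h.pt O hO).og

omit [IsProbabilityMeasure μ] in
theorem split1 (O : OG n) : (Xi A D R O * Bh).trace =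
    ((1 - P) * Xi A D R O * (1 - P) * Bh).trace + (Bh * (1 + (1 - P)) * Xi A D R O * P).trace := by
  have hX := Xi_symm (A := A) (D := D) h.rT O
  generalize Xi A D R O = X at hX
  have e1 : (Bh * P * X * (1 - P)).trace = (Bh * (1 - P) * X * P).trace := by
    rw [← trace_transpose, transpose_mul, transpose_mul, transpose_mul, hX, h.bT, h.ok.hP,
      transpose_sub, transpose_one, h.ok.hP, ← mul_assoc, ← mul_assoc, trace_mul_comm]
    simp only [mul_assoc]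
  have e2 : Bh * X = Bh * ((1 - P) * X * (1 - P)) + Bh * (1 + (1 - P)) * X * P +
      (Bh * P * X * (1 - P) - Bh * (1 - P) * X * P) := by noncomm_ring
  rw [trace_mul_comm X, e2, trace_add, trace_add, trace_sub, e1, sub_self, add_zero,
    trace_mul_comm Bh]

omit [IsProbabilityMeasure μ] in
theorem split2 {O : OG n} (hO : O ∈ G) : tg P A D (Bh * (1 + (1 - P))) O =
    (Bh * P).trace + tq P A D (Bh * P * D) O + 2 * (Bh * (1 - P) * (Ga A 0 D O * P)).trace := by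
  have e0 := GaT_eq h.ok.hA h.ok.hD (h.ok.unit O hO)
  have e1 : (Bh * P * Ga A 0 D O * P).trace = (Bh * P * (Ga A 0 D O)ᵀ * P).trace := by
    rw [← trace_transpose, transpose_mul, transpose_mul, transpose_mul, h.bT, h.ok.hP,
      ← mul_assoc, ← mul_assoc, trace_mul_comm]
    simp only [mul_assoc]
  have e2 : Bh * (1 + (1 - P)) * Ga A 0 D O * P = Bh * P * Ga A 0 D O * P +
      (Bh * (1 - P) * (Ga A 0 D O * P) + Bh * (1 - P) * (Ga A 0 D O * P)) := by noncomm_ring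
  have e3 : Bh * P * (1 + D * Qm A D O) * P = Bh * (P * P) + Bh * P * D * Qm A D O * P := by
    noncomm_ring
  rw [tg, tq, e2, trace_add, trace_add, e1, e0, e3, h.ok.hPP, trace_add]
  ring

/-- **M4, abstract form** -/
theorem main {cv r β : ℝ} (hγ : 0 < γ) (hr : (1 - P).trace ≤ r) (hβ : |Bh.trace| ≤ β)
    (dg : ∫ O in G, |ga P A D O - γ| ∂μ ≤ δ) (dk : ∫ O in G, |ka P A D O| ∂μ ≤ δ)
    (c1 : |∫ O in G, tq P A D (Bh * (1 + (1 - P))) O * aa P A D R O ∂μ -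
      (∫ O in G, tq P A D (Bh * (1 + (1 - P))) O ∂μ) * ∫ O in G, aa P A D R O ∂μ| ≤ cv)
    (c2 : |∫ O in G, tg P A D (Bh * (1 + (1 - P))) O * xx P A D R O ∂μ -
      (∫ O in G, tg P A D (Bh * (1 + (1 - P))) O ∂μ) * ∫ O in G, xx P A D R O ∂μ| ≤ cv) :
    |∫ O in G, (Xi A D R O * Bh).trace ∂μ - (∫ O in G, xx P A D R O ∂μ) / γ * Bh.trace| ≤
      √r * (B ^ 2 * a ^ 2) * FBB +
      (a * B * a * κ) ^ 2 / γ * (p * β + FB * (√r * B) + 2 * (FB * (√r * (B * a))) +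
        2 * ((K ^ 24 * √p + 8 * f0 * B ^ 3 * h2 + 8 * f0 * B ^ 2 * √n * δ) / γ)) +
      (K ^ 41 * √p + 8 * f0 * B ^ 3 * a ^ 4 * κ + 4 * f0 * B ^ 2 * a ^ 2 * κ * δ + 2 * cv) / γ := by
  have B0 := h.B0
  have a0 := h.ha
  obtain ⟨n0, nh, nk⟩ := h.n0
  obtain ⟨O₀, hO₀⟩ := h.ne
  have q₀ := h.pt O₀ hO₀
  have nb : 0 ≤ FB := (fro_nonneg _).trans q₀.fb
  have nbb : 0 ≤ FBB := (fro_nonneg _).trans q₀.fbb
  have w1 := h.wa1 dg dk
  have w2 := h.wa2 dg dk
  have w3 := h.wc dg dk c1 c2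
  set Ea := K ^ 24 * √p + 8 * f0 * B ^ 3 * h2 + 8 * f0 * B ^ 2 * √n * δ
  set Ec := K ^ 41 * √p + 8 * f0 * B ^ 3 * a ^ 4 * κ + 4 * f0 * B ^ 2 * a ^ 2 * κ * δ + 2 * cv
  set X := (a * B * a * κ) ^ 2 with hX
  have X0 : 0 ≤ X := by positivity
  have bx := abs_mean (μ := μ) X0 fun O hO => h.abs_xx hO
  have ba := abs_mean (μ := μ) X0 fun O hO => h.abs_aa hO
  have b1 : ∀ O ∈ G, |((1 - P) * Xi A D R O * (1 - P) * Bh).trace| ≤ √r * (B ^ 2 * a ^ 2) * FBB :=
    fun O hO => (h.pt O hO).wt.trE hr (by positivity)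
      ((h.pt O hO).sandO a0 B0 (h.pt O hO).og (h.pt O hO).og) (h.pt O hO).fbb
  have b2 : ∀ O ∈ G, |(Bh * (1 - P) * (Ga A 0 D O * P)).trace| ≤ FB * (√r * (B * a)) :=
    fun O hO => by
      have q := h.pt O hO
      refine q.wt.trF hr h.bT (by positivity) ?_ q.fb
      have e : hi O * (Ga A 0 D O * P) = hi O * Ga A 0 D O * hi O * hs O * P := by
        rw [mul_assoc _ (hi O), q.wt.is, mul_one, mul_assoc]
      rw [e]
      simpa only [mul_one] using (q.og.mulN q.os B0 a0).mulN q.wt.op (by positivity) zero_le_one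
  have b3 : |(Bh * (1 - P)).trace| ≤ FB * (√r * B) := by
    simpa only [mul_one] using q₀.wt.trF (M := 1) hr h.bT B0 (by rw [mul_one]; exact q₀.oi) q₀.fb
  have b4 : ∀ O ∈ G, |(Bh * (1 + (1 - P)) * Xi A D R O * P).trace| ≤
      f0 * (2 * (B ^ 2 * a ^ 2 * κ)) := fun O hO =>
    (h.pt O hO).wt.tr1 (h.pt O hO).f0 (h.pt O hO).wt.two_com zero_le_two q₀.wt.two_op
      ((h.pt O hO).sandF a0 B0 (h.pt O hO).og (h.pt O hO).og)
  have b5 : ∀ O ∈ G, |tq P A D (Bh * P * D) O| ≤ f0 * (1 * (2 * B ^ 2 * √n)) := fun O hO => by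
    rw [tq, mul_assoc _ D]
    exact (h.pt O hO).wt.tr1 (h.pt O hO).f0 (h.pt O hO).wt.com zero_le_one q₀.wt.op
      (fro_op (by positivity) (h.oDQ hO))
  have j1 := Bd.int (μ := μ) h.hG ⟨((((Ms.const (1 - P)).mul (.xi A D R)).mul
    (.const (1 - P))).mul (.const Bh)).trace, _, b1⟩
  have j2 := Bd.int (μ := μ) h.hG ⟨((Ms.const (Bh * (1 - P))).mul
    ((Ms.ga A 0 D).mul (.const P))).trace, _, b2⟩
  have j4 := Bd.int (μ := μ) h.hG ⟨(((Ms.const (Bh * (1 + (1 - P)))).mul (.xi A D R)).mul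
    (.const P)).trace, _, b4⟩
  have j5 := Bd.int (μ := μ) h.hG ⟨ms_tq P A D _, _, b5⟩
  have j6 := (Bd.const G (Bh * P).trace).int (μ := μ) h.hG
  have j7 : Integrable (fun O => (Bh * P).trace + tq P A D (Bh * P * D) O) (μ.restrict G) :=
    j6.add j5
  have m1 := abs_mean (μ := μ) (by positivity) b1
  have m2 := abs_mean (μ := μ) (by positivity) b2
  rw [setIntegral_congr_fun h.hG (fun O hO => h.split2 hO), integral_add j7 (j2.const_mul 2),
    integral_add j6 j5, integral_const_mul, setIntegral_const, smul_eq_mul] at w3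
  rw [integral_congr_ae (ae_of_all _ h.split1), integral_add j1 j4]
  have g1 : μ.real G ≤ 1 := measureReal_le_one
  have g0 : 0 ≤ μ.real G := measureReal_nonneg
  have g2 : 1 - μ.real G ≤ p := by
    have := h.hp
    rwa [probReal_compl_eq_one_sub h.hG] at this
  have g3 : |μ.real G * (Bh * P).trace - Bh.trace| ≤ p * β + FB * (√r * B) := by
    have e : μ.real G * (Bh * P).trace - Bh.trace =
        -((1 - μ.real G) * Bh.trace + μ.real G * (Bh * (1 - P)).trace) := by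
      rw [mul_sub Bh, mul_one, trace_sub]; ring
    rw [e, abs_neg]
    refine (abs_add_le _ _).trans (add_le_add ?_ ?_) <;> rw [abs_mul]
    · rw [abs_of_nonneg (by linarith)]
      exact mul_le_mul g2 hβ (abs_nonneg _) h.p0.le
    · rw [abs_of_nonneg g0]
      exact (mul_le_of_le_one_left (abs_nonneg _) g1).trans b3
  set x := ∫ O in G, xx P A D R O ∂μ
  set al := ∫ O in G, aa P A D R O ∂μ
  set y1 := ∫ O in G, tq P A D (Bh * (1 + (1 - P))) O ∂μ
  set y2 := ∫ O in G, tq P A D (Bh * P * D) O ∂μ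
  set e1 := ∫ O in G, ((1 - P) * Xi A D R O * (1 - P) * Bh).trace ∂μ
  set e2 := ∫ O in G, (Bh * (1 - P) * (Ga A 0 D O * P)).trace ∂μ
  set u := ∫ O in G, (Bh * (1 + (1 - P)) * Xi A D R O * P).trace ∂μ
  set z := μ.real G * (Bh * P).trace
  rw [abs_mul, abs_of_pos hγ, ← le_div_iff₀ hγ] at w1 w2
  have e : e1 + u - x / γ * Bh.trace = e1 + (x / γ * ((z - Bh.trace) + 2 * e2 + y2) -
      al / γ * y1) + (u * γ - (z + y2 + 2 * e2) * x + y1 * al) / γ := by
    field_simp; ring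
  rw [e]
  refine (abs_add_le _ _).trans (add_le_add ((abs_add_le _ _).trans (add_le_add m1 ?_)) ?_)
  · have d1 : |x / γ| ≤ X / γ := by rw [abs_div, abs_of_pos hγ]; gcongr
    have d2 : |al / γ| ≤ X / γ := by rw [abs_div, abs_of_pos hγ]; gcongr
    have d3 : |z - Bh.trace + 2 * e2 + y2| ≤
        p * β + FB * (√r * B) + 2 * (FB * (√r * (B * a))) + Ea / γ := by
      refine (abs_add_le _ _).trans (add_le_add ((abs_add_le _ _).trans (add_le_add g3 ?_)) w2)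
      rw [abs_mul, abs_two]; linarith
    have d0 : 0 ≤ X / γ := by positivity
    refine (abs_sub _ _).trans ?_
    rw [abs_mul, abs_mul]
    refine (add_le_add (mul_le_mul d1 d3 (abs_nonneg _) d0)
      (mul_le_mul d2 w1 (abs_nonneg _) d0)).trans (le_of_eq (by ring))
  · rw [abs_div, abs_of_pos hγ]; gcongr

end Fb

end Vale.Agent.N150.T2M4
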