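import Vale.Agent.N150.T2P1
import Vale.Agent.N150.WardQ

set_option linter.all false

/-! P150, block T2: the Lipschitz constants of all traces which enter the covariance estimates. -/

namespace Vale.Agent.N150.T2P

open Matrix MeasureTheory Set
open Vale.Agent.P150 Vale.Agent.P150.F
open Vale.Agent.N150.Haar (fro fro_nonneg fro_add_le fro_neg fro_smul fro_transpose fro_zero
  fro_mul_le fro_sub_le)
open Vale.Agent.N150.Wd (fr Ga Gm Qm Xi fr_transpose fr_mul fr_one fro_fr trace_fr)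
open Vale.Agent.N150.KB.Ch

variable {n : ℕ}

/-- norm bounds on the good set -/
structure Nm (G : Set (OG n)) (A Th R Vt : Mat n) (w θ v g q qF x xv xF xvF : ℝ) : Prop where
  hA : Aᵀ = A
  hT : Thᵀ = Th
  hR : Rᵀ = R
  hV : Th = Vt + w • 1
  hu : ∀ U ∈ G, IsUnit (1 + (fr A U + 0) * Th).det
  θ0 : 0 ≤ θ
  v0 : 0 ≤ v
  g0 : 0 ≤ g
  q0 : 0 ≤ q
  x0 : 0 ≤ x
  xv0 : 0 ≤ xv
  oT : OpLe Th θ
  oV : OpLe Vt v
  og : ∀ U ∈ G, OpLe (Qm A Th U * Vt) g
  oq : ∀ U ∈ G, OpLe (Qm A Th U) q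
  fq : ∀ U ∈ G, fro (Qm A Th U) ≤ qF
  ox : ∀ U ∈ G, OpLe (Xi A Th R U) x
  oxv : ∀ U ∈ G, OpLe (Xi A Th R U * Vt) xv
  fx : ∀ U ∈ G, fro (Xi A Th R U) ≤ xF
  fxv : ∀ U ∈ G, fro (Xi A Th R U * Vt) ≤ xvF

/-- weighted norm bounds at one point -/
structure Wt (Vt Rm Q Γ Hs Hi : Mat n) (a c B h : ℝ) : Prop where
  si : Hs * Hi = 1
  is : Hi * Hs = 1
  os : OpLe Hs a
  oi : OpLe Hi c
  oQ : OpLe (Hi * Q * Hi) B
  oG : OpLe (Hi * Γ * Hi) B
  oV : OpLe (Hs * Vt * Hs) B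
  sy : Hsᵀ = Hs
  f2 : fro (Hs * Hs) ≤ h

theorem fro_conj {Hs M : Mat n} {B h : ℝ} (hB : 0 ≤ B) (hs : Hsᵀ = Hs) (hM : OpLe M B)
    (h2 : fro (Hs * Hs) ≤ h) : fro (Hs * M * Hs) ≤ B * h := by
  have h0 : 0 ≤ h := (fro_nonneg _).trans h2
  have e : fro (Hs * M * Hs) ^ 2 = ((Mᵀ * (Hs * Hs)) * (M * (Hs * Hs))).trace := by
    rw [Haar.fro_sq, Haar.ip_eq_trace, transpose_mul, transpose_mul, hs, mul_assoc, trace_mul_comm]
    simp only [mul_assoc]
  have a1 := fro_l hB (opT hB hM) h2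
  have a2 := fro_l hB hM h2
  have a3 := (le_abs_self _).trans (abs_trace_mul (Mᵀ * (Hs * Hs)) (M * (Hs * Hs)))
  have a4 := mul_le_mul a1 a2 (fro_nonneg _) (by positivity)
  rw [← e] at a3
  exact abs_le_of_sq_le_sq' (by nlinarith) (by positivity) |>.2

namespace Wt

variable {Vt Rm Q Γ Hs Hi : Mat n} {a c B h : ℝ} (W : Wt Vt Rm Q Γ Hs Hi a c B h) (ha : 0 ≤ a)
  (hc : 0 ≤ c) (hB : 0 ≤ B)
include W

theorem up (M : Mat n) : M = Hs * (Hi * M * Hi) * Hs := by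
  rw [← mul_assoc, ← mul_assoc, W.si, one_mul, mul_assoc, W.is, mul_one]

theorem down (M : Mat n) : M = Hi * (Hs * M * Hs) * Hi := by
  rw [← mul_assoc, ← mul_assoc, W.is, one_mul, mul_assoc, W.si, mul_one]

include ha hB

theorem opQ : OpLe Q (B * a ^ 2) := by
  have := (W.os.mulN W.oQ ha hB).mulN W.os (by positivity) ha
  rw [← W.up] at this
  exact this.monoN (by positivity) (le_of_eq (by ring))

theorem opG : OpLe Γ (B * a ^ 2) := by
  have := (W.os.mulN W.oG ha hB).mulN W.os (by positivity) ha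
  rw [← W.up] at this
  exact this.monoN (by positivity) (le_of_eq (by ring))

omit ha in
theorem froQ : fro Q ≤ B * h := by
  have := fro_conj hB W.sy W.oQ W.f2
  rwa [← W.up] at this

include hc

theorem opQV : OpLe (Q * Vt) (B ^ 2 * a * c) := by
  have := ((W.os.mulN W.oQ ha hB).mulN W.oV (by positivity) hB).mulN W.oi (by positivity) hc
  have e : Hs * (Hi * Q * Hi) * (Hs * Vt * Hs) * Hi = Q * Vt := by
    conv_rhs => rw [W.up Q, W.down Vt]
    simp only [mul_assoc]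
    rw [← mul_assoc Hs Hi (Hs * _), W.si, one_mul]
  rw [e] at this
  exact this.monoN (by positivity) (le_of_eq (by ring))

theorem opVG : OpLe (Vt * Γ) (B ^ 2 * a * c) := by
  have := ((W.oi.mulN W.oV hc hB).mulN W.oG (by positivity) hB).mulN W.os (by positivity) ha
  have e : Hi * (Hs * Vt * Hs) * (Hi * Γ * Hi) * Hs = Vt * Γ := by
    conv_rhs => rw [W.up Γ, W.down Vt]
    simp only [mul_assoc]
    rw [← mul_assoc Hi Hs (Hi * _), W.is, one_mul]
  rw [e] at this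
  exact this.monoN (by positivity) (le_of_eq (by ring))

end Wt

theorem opLe_idem {R : Mat n} (hR : Rᵀ = R) (hRR : R * R = R) : OpLe R 1 := fun v => by
  have e : F.sq (R *ᵥ v) = ip v (R *ᵥ v) := by
    have e1 : ip v (R *ᵥ v) = v ⬝ᵥ ((Rᵀ * R) *ᵥ v) := by rw [hR, hRR]; rfl
    rw [e1, ← Matrix.mulVec_mulVec, Matrix.dotProduct_mulVec, ← Matrix.mulVec_transpose,
      transpose_transpose, ← ipN_self]
    rfl
  have h := ip_le v (R *ᵥ v)
  rw [← e, ← nv_sq] at h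
  rw [one_pow, one_mul, ← nv_sq, ← nv_sq]
  nlinarith [nv_nonneg v, nv_nonneg (R *ᵥ v), sq_nonneg (nv v - nv (R *ᵥ v))]

/-- the norm bounds from weighted bounds; `κ` bounds the Frobenius norm of the projection `R` -/
theorem Nm.of_wt {G : Set (OG n)} {A Th R Vt : Mat n} {w θ v a c B h κ : ℝ} (hA : Aᵀ = A)
    (hT : Thᵀ = Th) (hR : Rᵀ = R) (hRR : R * R = R) (hV : Th = Vt + w • 1)
    (hu : ∀ U ∈ G, IsUnit (1 + (fr A U + 0) * Th).det) (hθ : 0 ≤ θ) (hv : 0 ≤ v) (ha : 0 ≤ a)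
    (hc : 0 ≤ c) (hB : 0 ≤ B) (oT : OpLe Th θ) (oV : OpLe Vt v) (hκ : fro R ≤ κ)
    {Hs Hi : OG n → Mat n}
    (W : ∀ U ∈ G, Wt Vt (fr R U) (Qm A Th U) (Ga A 0 Th U) (Hs U) (Hi U) a c B h) :
    Nm G A Th R Vt w θ v (B ^ 2 * a * c) (B * a ^ 2) (B * h) (B ^ 2 * a ^ 4) (B ^ 3 * a ^ 3 * c)
      (B ^ 2 * a ^ 4 * κ) (B ^ 3 * a ^ 3 * c * κ) := by
  have sV : Vtᵀ = Vt := by
    have h1 := congrArg transpose hV
    rw [hT, transpose_add, transpose_smul, transpose_one, hV] at h1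
    exact (add_right_cancel h1).symm
  have oR : ∀ U, OpLe (fr R U) 1 := fun U => op_fr zero_le_one (opLe_idem hR hRR) U
  have fR : ∀ U, fro (fr R U) ≤ κ := fun U => (fro_fr R U).le.trans hκ
  have gT : ∀ U ∈ G, OpLe (Ga A 0 Th U)ᵀ (B * a ^ 2) := fun U hU =>
    opT (by positivity) ((W U hU).opG ha hB)
  have gV : ∀ U ∈ G, OpLe ((Ga A 0 Th U)ᵀ * Vt) (B ^ 2 * a * c) := fun U hU => by
    have := opT (by positivity) ((W U hU).opVG ha hc hB)
    rwa [transpose_mul, sV] at this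
  refine ⟨hA, hT, hR, hV, hu, hθ, hv, by positivity, by positivity, by positivity, by positivity,
    oT, oV, fun U hU => (W U hU).opQV ha hc hB, fun U hU => (W U hU).opQ ha hB,
    fun U hU => (W U hU).froQ hB, fun U hU => ?_, fun U hU => ?_, fun U hU => ?_, fun U hU => ?_⟩
  · exact ((((W U hU).opG ha hB).mulN (oR U) (by positivity) zero_le_one).mulN (gT U hU)
      (by positivity) (by positivity)).monoN (by positivity) (le_of_eq (by ring))
  · rw [Xi, mul_assoc]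
    exact ((((W U hU).opG ha hB).mulN (oR U) (by positivity) zero_le_one).mulN (gV U hU)
      (by positivity) (by positivity)).monoN (by positivity) (le_of_eq (by ring))
  · exact (fro_r (by positivity) (fro_l (by positivity) ((W U hU).opG ha hB) (fR U))
      (gT U hU)).trans (le_of_eq (by ring))
  · rw [Xi, mul_assoc]
    exact (fro_r (by positivity) (fro_l (by positivity) ((W U hU).opG ha hB) (fR U))
      (gV U hU)).trans (le_of_eq (by ring))

namespace Nm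

variable {G : Set (OG n)} {A Th R Vt : Mat n} {w θ v g q qF x xv xF xvF : ℝ}
  (h : Nm G A Th R Vt w θ v g q qF x xv xF xvF)
include h

theorem sw : SW G Vt (Qm A Th) (Xi A Th R) :=
  sw_ga (w := w) h.hA h.hT h.hR (by rw [h.hV, add_sub_cancel_right]) h.hu (fun _ _ => rfl)
    fun _ _ => rfl

theorem mono {G' : Set (OG n)} (hG : G' ⊆ G) : Nm G' A Th R Vt w θ v g q qF x xv xF xvF :=
  ⟨h.hA, h.hT, h.hR, h.hV, fun U hU => h.hu U (hG hU), h.θ0, h.v0, h.g0, h.q0, h.x0, h.xv0, h.oT,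
    h.oV, fun U hU => h.og U (hG hU), fun U hU => h.oq U (hG hU), fun U hU => h.fq U (hG hU),
    fun U hU => h.ox U (hG hU), fun U hU => h.oxv U (hG hU), fun U hU => h.fx U (hG hU),
    fun U hU => h.fxv U (hG hU)⟩

variable {L M S : Mat n} {l m σ : ℝ}

/-- `tr (S Q M)` -/
theorem sq (hσ0 : 0 ≤ σ) (hm0 : 0 ≤ m) (hσ : OpLe S σ) (hm : OpLe M m) :
    LipO G (σ * m * (2 * qF * (1 + g))) fun U => (fr S U * Qm A Th U * M).trace :=
  lip_mono (lip_congr (c := 0) (h.sw.lipQ_op hm0 hσ0 h.g0 hm hσ h.og h.fq) fun U _ => by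
    rw [zero_add, trace_mul_cycle]) (le_of_eq (by ring))

/-- `tr (S Ξ M)` -/
theorem sx (hσ0 : 0 ≤ σ) (hm0 : 0 ≤ m) (hσ : OpLe S σ) (hm : OpLe M m) :
    LipO G (σ * m * (2 * (q * xvF + (1 + g) * xF))) fun U => (fr S U * Xi A Th R U * M).trace :=
  lip_mono (lip_congr (c := 0) (h.sw.lipX_op hm0 hσ0 h.g0 h.q0 hm hσ h.og h.oq h.fx h.fxv)
    fun U _ => by rw [zero_add, trace_mul_cycle]) (le_of_eq (by ring))

/-- `tr (L Q)`, operator norm -/
theorem tq (hl0 : 0 ≤ l) (hl : OpLe L l) :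
    LipO G (l * (2 * qF * (1 + g))) fun U => (L * Qm A Th U).trace :=
  lip_mono (lip_congr (c := 0) (h.sw.lipQ_op hl0 zero_le_one h.g0 hl opLe_one h.og h.fq)
    fun U _ => by rw [zero_add, fr_one, mul_one]) (le_of_eq (by ring))

/-- `tr (L Q)`, Frobenius norm -/
theorem tq' (hl : fro L ≤ l) : LipO G (l * (2 * q * (1 + g))) fun U => (L * Qm A Th U).trace :=
  lip_mono (lip_congr (c := 0) (h.sw.lipQ_fro zero_le_one h.g0 h.q0 hl opLe_one h.og h.oq)
    fun U _ => by rw [zero_add, fr_one, mul_one]) (le_of_eq (by ring))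

theorem tr_ga (L : Mat n) {U : OG n} (hU : U ∈ G) :
    (L * Ga A 0 Th U).trace = L.trace + (Th * L * Qm A Th U).trace := by
  rw [Wd.Ga_eq (h.hu U hU), mul_add, mul_one, trace_add, ← mul_assoc, trace_mul_cycle]

theorem tr_gaT (L : Mat n) {U : OG n} (hU : U ∈ G) :
    (L * (Ga A 0 Th U)ᵀ).trace = L.trace + (L * Th * Qm A Th U).trace := by
  rw [Wd.GaT_eq h.hA h.hT (h.hu U hU), mul_add, mul_one, trace_add, ← mul_assoc]

/-- `tr (L Γ)`, operator norm -/
theorem tg (hl0 : 0 ≤ l) (hl : OpLe L l) :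
    LipO G (θ * l * (2 * qF * (1 + g))) fun U => (L * Ga A 0 Th U).trace :=
  lip_congr (h.tq (mul_nonneg h.θ0 hl0) (h.oT.mulN hl h.θ0 hl0)) fun _ hU => h.tr_ga L hU

/-- `tr (L Γ)`, Frobenius norm -/
theorem tg' (hl : fro L ≤ l) :
    LipO G (θ * l * (2 * q * (1 + g))) fun U => (L * Ga A 0 Th U).trace :=
  lip_congr (h.tq' (fro_l h.θ0 h.oT hl)) fun _ hU => h.tr_ga L hU

/-- `tr (L Γᵀ)`, operator norm -/
theorem tgT (hl0 : 0 ≤ l) (hl : OpLe L l) :
    LipO G (l * θ * (2 * qF * (1 + g))) fun U => (L * (Ga A 0 Th U)ᵀ).trace :=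
  lip_congr (h.tq (mul_nonneg hl0 h.θ0) (hl.mulN h.oT hl0 h.θ0)) fun _ hU => h.tr_gaT L hU

/-- `tr (L Ξ)`, operator norm -/
theorem tx (hl0 : 0 ≤ l) (hl : OpLe L l) :
    LipO G (l * (2 * (q * xvF + (1 + g) * xF))) fun U => (L * Xi A Th R U).trace :=
  lip_mono (lip_congr (c := 0)
    (h.sw.lipX_op hl0 zero_le_one h.g0 h.q0 hl opLe_one h.og h.oq h.fx h.fxv)
    fun U _ => by rw [zero_add, fr_one, mul_one]) (le_of_eq (by ring))

/-- `tr (L Ξ)`, Frobenius norm -/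
theorem tx' (hl : fro L ≤ l) :
    LipO G (l * (2 * (q * xv + (1 + g) * x))) fun U => (L * Xi A Th R U).trace :=
  lip_mono (lip_congr (c := 0)
    (h.sw.lipX_fro zero_le_one h.g0 h.q0 h.x0 h.xv0 hl opLe_one h.og h.oq h.ox h.oxv)
    fun U _ => by rw [zero_add, fr_one, mul_one]) (le_of_eq (by ring))

end Nm

/-- cyclic rearrangements of a Lipschitz trace -/
theorem lip_cyc {G : Set (OG n)} {c : ℝ} {L M : Mat n} {Y : OG n → Mat n}
    (h : LipO G c fun U => (M * L * Y U).trace) : LipO G c fun U => (L * Y U * M).trace :=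
  lip_congr (c := 0) h fun U _ => by rw [zero_add, trace_mul_cycle]

theorem lip_left {G : Set (OG n)} {c : ℝ} {L M : Mat n} {Y : OG n → Mat n}
    (h : LipO G c fun U => (L * M * Y U).trace) : LipO G c fun U => (L * (M * Y U)).trace :=
  lip_congr (c := 0) h fun U _ => by rw [zero_add, mul_assoc]

theorem lip_right {G : Set (OG n)} {c : ℝ} {L M : Mat n} {Y : OG n → Mat n}
    (h : LipO G c fun U => (M * L * Y U).trace) : LipO G c fun U => (L * (Y U * M)).trace :=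
  lip_congr (c := 0) h fun U _ => by rw [zero_add, ← mul_assoc, trace_mul_cycle]

theorem lip_two {G : Set (OG n)} {c : ℝ} {L M N : Mat n} {Y : OG n → Mat n}
    (h : LipO G c fun U => (M * N * L * Y U).trace) : LipO G c fun U => (L * Y U * M * N).trace :=
  lip_congr (c := 0) h fun U _ => by rw [zero_add, mul_assoc _ M N, trace_mul_cycle]

theorem lip_both {G : Set (OG n)} {c : ℝ} {L M N : Mat n} {Y : OG n → Mat n}
    (h : LipO G c fun U => (N * L * M * Y U).trace) :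
    LipO G c fun U => (L * (M * Y U * N)).trace :=
  lip_congr (c := 0) h fun U _ => by
    rw [zero_add, ← mul_assoc, ← mul_assoc, trace_mul_cycle, ← mul_assoc]

theorem lip_rot {G : Set (OG n)} {c : ℝ} {M N : Mat n} {Y : OG n → Mat n}
    (h : LipO G c fun U => (Y U * (M * N)).trace) : LipO G c fun U => (Y U * M * N).trace :=
  lip_congr (c := 0) h fun U _ => by rw [zero_add, mul_assoc]

end Vale.Agent.N150.T2P
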