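import Vale.Agent.N150.SymPZ
import Vale.Agent.N150.KBCal

/-! The quartic lemma: size of `S₁ B S₂` for a fixed matrix `B` between two rotating matrices. -/

namespace Vale.Agent.N150.T2Q

open Matrix MeasureTheory Set
open Vale.Agent.P150 Vale.Agent.P150.F
open Vale.Agent.N150.Haar (fro fro_nonneg fro_add_le fro_sub_le fro_smul fro_mul_le fro_transpose
  fro_proj_mul)
open Vale.Agent.N150.Wd
open Vale.Agent.N150.KB.Ch (fro_mul_l fro_mul_r op_of_fro)

variable {n : ℕ} {P : Mat n}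

lemma fro_sq_tr (X : Mat n) : fro X ^ 2 = (Xᵀ * X).trace := by
  rw [Haar.fro_sq, Haar.ip_eq_trace]

lemma abs_tr_le (X Y : Mat n) : |(Xᵀ * Y).trace| ≤ fro X * fro Y := by
  refine abs_le_of_sq_le_sq ?_ (mul_nonneg (fro_nonneg _) (fro_nonneg _))
  rw [mul_pow, Haar.fro_sq', Haar.fro_sq', ← Haar.ip_eq_trace, Haar.ip, ← Fintype.sum_prod_type',
    ← Fintype.sum_prod_type', ← Fintype.sum_prod_type']
  exact Finset.sum_mul_sq_le_sq_mul_sq _ _ _

lemma fro_mul_proj (hP : Pᵀ = P) (hPP : P * P = P) (X : Mat n) : fro (X * P) ≤ fro X := by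
  rw [← fro_transpose, transpose_mul, hP, ← fro_transpose X]
  exact fro_proj_mul hP hPP _

lemma cont_fr (R : Mat n) : Continuous (fr R) :=
  (continuous_val.matrix_transpose.matrix_mul continuous_const).matrix_mul continuous_val

lemma exists_bd (l : List (Lt n)) : ∃ K : ℝ, 8 ≤ K ∧ (n : ℝ) ≤ K ∧ ∀ x ∈ l, x.Bd K := by
  induction l with
  | nil => exact ⟨max 8 n, le_max_left _ _, le_max_right _ _, by simp⟩
  | cons x l ih =>
    obtain ⟨K, h1, h2, h3⟩ := ih
    have m : ∀ (y : Lt n) (K K' : ℝ), K ≤ K' → y.Bd K → y.Bd K' := by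
      intro y K K' h hy
      cases y <;> first | exact le_trans hy h | trivial
    obtain ⟨K', h4⟩ : ∃ K', x.Bd K' := by
      cases x <;> first | exact ⟨_, le_refl (fro _)⟩ | exact ⟨0, trivial⟩
    refine ⟨max K K', le_max_of_le_left h1, le_max_of_le_left h2, fun y hy => ?_⟩
    rcases List.mem_cons.1 hy with rfl | hy
    · exact m _ _ _ (le_max_right _ _) h4
    · exact m _ _ _ (le_max_left _ _) (h3 y hy)

/-- contraction of the last letter -/
lemma cm_last (hPP : P * P = P) {T : Mat n} (sT : Tᵀ = T) (h1 : P * T = T) (h2 : T * P = T)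
    (K : Mat n) : cm P T K 1 = T.trace * (P * K).trace - P.trace * (T * K).trace := by
  have e1 : (P * (T * K)ᵀ * P * 1).trace = (T * K).trace := by
    rw [mul_one, trace_mul_cycle, hPP, ← trace_transpose, transpose_mul, transpose_transpose,
      trace_mul_comm, ← mul_assoc, ← sT, ← transpose_mul, h2]
  rw [cm, e1, sT, ← mul_assoc P T, h1, h2, mul_one, mul_one]
  ring

/-- contraction of the first rotating letter -/
lemma cm_first {B : Mat n} (sB : Bᵀ = B) (h1 : P * B = B) (h2 : B * P = B) (h0 : B.trace = 0)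
    (hP : Pᵀ = P) (K K' : Mat n) : cm P B K (B * K') =
      ((B * K * P)ᵀ * (B * K')).trace - (B * K).trace * (B * K').trace -
        (B * K * B * K').trace := by
  rw [cm, h1, h0, ← mul_assoc P B K, ← mul_assoc P B K', sB, h1, h2, transpose_mul (B * K), hP,
    mul_assoc _ P, ← mul_assoc P B, h1]
  simp only [mul_assoc]
  ring

section Mean

variable {μ : Measure (OG n)} [IsProbabilityMeasure μ]

lemma cs_int {f g : OG n → ℝ} (hf : Continuous f) (hg : Continuous g) {m a b : ℝ} (hm : 0 ≤ m)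
    (ha : 0 ≤ a) (hb : 0 ≤ b) (h1 : m * ∫ O, f O ^ 2 ∂μ ≤ a ^ 2) (h2 : m * ∫ O, g O ^ 2 ∂μ ≤ b ^ 2) :
    |m * ∫ O, f O * g O ∂μ| ≤ a * b := by
  have i1 : Integrable (fun O => f O ^ 2) μ := integrable_of_continuous (hf.pow 2) μ
  have i2 : Integrable (fun O => g O ^ 2) μ := integrable_of_continuous (hg.pow 2) μ
  have i3 : Integrable (fun O => f O * g O) μ := integrable_of_continuous (hf.mul hg) μ
  have h3 := discrim_le_zero (a := ∫ O, f O ^ 2 ∂μ) (b := 2 * ∫ O, f O * g O ∂μ)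
    (c := ∫ O, g O ^ 2 ∂μ) fun x => by
      have j : Integrable (fun O => x * x * f O ^ 2 + 2 * x * (f O * g O)) μ :=
        (i1.const_mul _).add (i3.const_mul _)
      have p : 0 ≤ ∫ O, (x * x * f O ^ 2 + 2 * x * (f O * g O) + g O ^ 2) ∂μ :=
        integral_nonneg fun O => by
          simp only [Pi.zero_apply]
          nlinarith [sq_nonneg (x * f O + g O)]
      rw [integral_add j i2, integral_add (i1.const_mul _) (i3.const_mul _), integral_const_mul,
        integral_const_mul] at p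
      linarith
  rw [discrim] at h3
  have p1 : 0 ≤ m * ∫ O, f O ^ 2 ∂μ := mul_nonneg hm (integral_nonneg fun _ => sq_nonneg _)
  have h4 := mul_le_mul h1 h2 (mul_nonneg hm (integral_nonneg fun _ => sq_nonneg _)) (sq_nonneg _)
  refine abs_le_of_sq_le_sq ?_ (mul_nonneg ha hb)
  nlinarith [mul_le_mul_of_nonneg_left h3 (sq_nonneg m)]

variable (hP : Pᵀ = P) (hPP : P * P = P) (ri : RI P μ)
include hP hPP ri

/-- exact Ward identity for every word without resolvent -/
theorem ward0 (l : List (Lt n)) : ∫ O, wcon P 0 0 0 O 1 l ∂μ = 0 := by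
  obtain ⟨K, h1, h2, h3⟩ := exists_bd l
  exact (ok_zero hP hPP univ h1 h2).ward_zero ri MeasurableSet.univ (ae_of_all _ fun _ => trivial)
    l h3

/-- second moment -/
theorem mean2 {Y : Mat n} (hY : Y * P = Y) (R : Mat n) :
    P.trace * ∫ O, fro (Y * fr R O) ^ 2 ∂μ ≤ (fro Y * fro R) ^ 2 := by
  have h := ward0 hP hPP ri [.fix (Yᵀ * Y), .rot (R * Rᵀ)]
  have c1 : Continuous fun O => fro (Y * fr R O) ^ 2 :=
    (Haar.continuous_fro.comp (continuous_const.matrix_mul (cont_fr R))).pow 2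
  have c2 : Continuous fun O => fro (P * fr R O) ^ 2 :=
    (Haar.continuous_fro.comp (continuous_const.matrix_mul (cont_fr R))).pow 2
  have e : ∀ (X : Mat n) O, (Xᵀ * X * fr (R * Rᵀ) O).trace = fro (X * fr R O) ^ 2 := by
    intro X O
    rw [fro_sq_tr, ← fr_mul, ← fr_transpose, transpose_mul, ← mul_assoc, trace_mul_comm]
    simp only [mul_assoc]
  rw [integral_congr_ae (g := fun O => fro Y ^ 2 * fro (P * fr R O) ^ 2 -
      P.trace * fro (Y * fr R O) ^ 2) (ae_of_all _ fun O => by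
    simp only [wcon, wval, Lt.con, Lt.val, one_mul, zero_add, add_zero]
    rw [cm_last hPP (by rw [transpose_mul, transpose_transpose])
      (by rw [← mul_assoc, ← hP, ← transpose_mul, hY]) (by rw [mul_assoc, hY]), e, ← e P, hP, hPP,
      fro_sq_tr Y]),
    integral_sub ((integrable_of_continuous c2 μ).const_mul _)
      ((integrable_of_continuous c1 μ).const_mul _), integral_const_mul, integral_const_mul] at h
  have h2 : ∫ O, fro (P * fr R O) ^ 2 ∂μ ≤ ∫ _O, fro R ^ 2 ∂μ :=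
    integral_mono (integrable_of_continuous c2 μ) (integrable_const _) fun O =>
      pow_le_pow_left₀ (fro_nonneg _) ((fro_proj_mul hP hPP _).trans (fro_fr R O).le) 2
  simp only [integral_const, probReal_univ, smul_eq_mul, one_mul] at h2
  nlinarith [mul_le_mul_of_nonneg_left h2 (sq_nonneg (fro Y))]

variable {B : Mat n} (sB : Bᵀ = B) (hB : B * P = B) (h0 : B.trace = 0)
include sB hB h0

/-- the Ward identity of the word `B A₁ B A₂` -/
theorem ward4 {R1 R2 : Mat n} (s1 : R1ᵀ = R1) (s2 : R2ᵀ = R2) :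
    (P.trace + 1) * ∫ O, fro (fr R1 O * B * fr R2 O) ^ 2 ∂μ +
      ∫ O, (B * fr (R1 * R1) O).trace * (B * fr (R2 * R2) O).trace ∂μ ≤
      ∫ O, fro (B * fr (R1 * R1) O) * fro (B * fr (R2 * R2) O) ∂μ +
      fro R2 ^ 2 * ∫ O, fro (B * fr R1 O) ^ 2 ∂μ := by
  have hB' : P * B = B := by rw [← hP, ← sB, ← transpose_mul, hB]
  have h := ward0 hP hPP ri [.fix B, .rot (R1 * R1), .fix B, .rot (R2 * R2)]
  have cf := fun R => (continuous_const (y := B)).matrix_mul (cont_fr R)
  have i1 : Integrable (fun O => fro (fr R1 O * B * fr R2 O) ^ 2) μ :=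
    integrable_of_continuous ((Haar.continuous_fro.comp (((cont_fr R1).matrix_mul
      (continuous_const (y := B))).matrix_mul (cont_fr R2))).pow 2) μ
  have i2 : Integrable (fun O => (B * fr (R1 * R1) O).trace * (B * fr (R2 * R2) O).trace) μ :=
    integrable_of_continuous ((cf (R1 * R1)).matrix_trace.mul (cf (R2 * R2)).matrix_trace) μ
  have i3 : Integrable (fun O => fro (B * fr (R1 * R1) O) * fro (B * fr (R2 * R2) O)) μ :=
    integrable_of_continuous ((Haar.continuous_fro.comp (cf (R1 * R1))).mul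
      (Haar.continuous_fro.comp (cf (R2 * R2)))) μ
  have i4 : Integrable (fun O => fro (B * fr R1 O) ^ 2) μ :=
    integrable_of_continuous ((Haar.continuous_fro.comp (cf R1)).pow 2) μ
  have i5 : Integrable (fun O => ((B * fr (R1 * R1) O * P)ᵀ * (B * fr (R2 * R2) O)).trace +
      fro (B * fr R1 O) ^ 2 * (P * fr (R2 * R2) O).trace) μ :=
    integrable_of_continuous (((((cf (R1 * R1)).matrix_mul continuous_const).matrix_transpose.matrix_mul
      (cf (R2 * R2))).matrix_trace).add (((Haar.continuous_fro.comp (cf R1)).pow 2).mul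
      (continuous_const.matrix_mul (cont_fr _)).matrix_trace)) μ
  have j1 : Integrable (fun O => (P.trace + 1) * fro (fr R1 O * B * fr R2 O) ^ 2 +
      (B * fr (R1 * R1) O).trace * (B * fr (R2 * R2) O).trace) μ := (i1.const_mul _).add i2
  rw [integral_congr_ae (g := fun O => (((B * fr (R1 * R1) O * P)ᵀ * (B * fr (R2 * R2) O)).trace +
      fro (B * fr R1 O) ^ 2 * (P * fr (R2 * R2) O).trace) -
      ((P.trace + 1) * fro (fr R1 O * B * fr R2 O) ^ 2 +
      (B * fr (R1 * R1) O).trace * (B * fr (R2 * R2) O).trace)) (ae_of_all _ fun O => by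
    have t1 : (fr R1 O)ᵀ = fr R1 O := by rw [fr_transpose, s1]
    have t2 : (fr R2 O)ᵀ = fr R2 O := by rw [fr_transpose, s2]
    have e1 : fro (fr R1 O * B * fr R2 O) ^ 2 =
        (B * fr (R1 * R1) O * B * fr (R2 * R2) O).trace := by
      rw [fro_sq_tr, ← fr_mul, ← fr_mul, transpose_mul, transpose_mul, t1, t2, sB, mul_assoc,
        trace_mul_comm]
      simp only [mul_assoc]
    have e2 : fro (B * fr R1 O) ^ 2 = (B * fr (R1 * R1) O * B).trace := by
      rw [← fro_transpose, fro_sq_tr, ← fr_mul, transpose_transpose, transpose_mul, t1, sB]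
      simp only [mul_assoc]
    simp only [wcon, wval, Lt.con, Lt.val, one_mul, mul_one, zero_add, add_zero]
    rw [cm_first sB hB' hB h0 hP, cm_last hPP (by
      rw [transpose_mul, transpose_mul, sB, fr_transpose, transpose_mul, s1, mul_assoc])
      (by rw [← mul_assoc, ← mul_assoc, hB']) (by rw [mul_assoc, hB]), e1, e2]
    ring), integral_sub i5 j1, integral_add (i1.const_mul _) i2, integral_const_mul] at h
  rw [← integral_const_mul, ← integral_const_mul (fro R2 ^ 2), ← integral_add i3 (i4.const_mul _),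
    integral_const_mul, ← sub_eq_zero.1 h]
  refine integral_mono i5 (i3.add (i4.const_mul _)) fun O => add_le_add ?_ ?_
  · exact (le_abs_self _).trans ((abs_tr_le _ _).trans
      (mul_le_mul_of_nonneg_right (fro_mul_proj hP hPP _) (fro_nonneg _)))
  · rw [mul_comm]
    refine mul_le_mul_of_nonneg_right ?_ (sq_nonneg _)
    have e : (P * fr (R2 * R2) O).trace = fro (fr R2 O * P) ^ 2 := by
      rw [fro_sq_tr, transpose_mul, hP, fr_transpose, s2, ← fr_mul, ← mul_assoc _ _ P,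
        trace_mul_comm _ P, ← mul_assoc P, ← mul_assoc P, ← mul_assoc P, hPP]
    rw [e]
    exact pow_le_pow_left₀ (fro_nonneg _) ((fro_mul_proj hP hPP _).trans (fro_fr R2 O).le) 2

/-- fourth moment of a trace free matrix -/
theorem mean4 {R1 R2 : Mat n} (s1 : R1ᵀ = R1) (s2 : R2ᵀ = R2) (hm : 0 ≤ P.trace) :
    P.trace * (P.trace + 1) * ∫ O, fro (fr R1 O * B * fr R2 O) ^ 2 ∂μ ≤
      4 * (fro B * fro R1 * fro R2) ^ 2 := by
  have cf := fun R => (continuous_const (y := B)).matrix_mul (cont_fr R)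
  have b0 := fro_nonneg B
  have u : ∀ R : Mat n, P.trace * ∫ O, fro (B * fr (R * R) O) ^ 2 ∂μ ≤ (fro B * fro R ^ 2) ^ 2 :=
    fun R => (mean2 hP hPP ri hB _).trans (pow_le_pow_left₀ (mul_nonneg b0 (fro_nonneg _))
      (mul_le_mul_of_nonneg_left ((fro_mul_le _ _).trans (pow_two _).ge) b0) 2)
  have t : ∀ R : Mat n, Rᵀ = R →
      P.trace * ∫ O, (B * fr (R * R) O).trace ^ 2 ∂μ ≤ (√2 * (fro B * fro R ^ 2)) ^ 2 := by
    intro R s
    have h1 := mul_le_mul_of_nonneg_left (ward4 hP hPP ri sB hB h0 s s) hm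
    have h2 := mul_le_mul_of_nonneg_left (mean2 hP hPP ri hB R) (sq_nonneg (fro R))
    have h3 := u R
    have h4 : 0 ≤ P.trace * ((P.trace + 1) * ∫ O, fro (fr R O * B * fr R O) ^ 2 ∂μ) :=
      mul_nonneg hm (mul_nonneg (by linarith) (integral_nonneg fun _ => sq_nonneg _))
    simp only [← pow_two (_ : ℝ)] at h1
    rw [mul_pow, Real.sq_sqrt (by norm_num)]
    nlinarith
  have p : ∀ R : Mat n, 0 ≤ fro B * fro R ^ 2 := fun R => by positivity
  have h1 := mul_le_mul_of_nonneg_left (ward4 hP hPP ri sB hB h0 s1 s2) hm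
  have h2 := mul_le_mul_of_nonneg_left (mean2 hP hPP ri hB R1) (sq_nonneg (fro R2))
  have h3 := (abs_le.1 (cs_int (μ := μ) (Haar.continuous_fro.comp (cf (R1 * R1)))
    (Haar.continuous_fro.comp (cf (R2 * R2))) hm (p _) (p _) (u R1) (u R2))).2
  have h4 := (abs_le.1 (cs_int (μ := μ) (cf (R1 * R1)).matrix_trace (cf (R2 * R2)).matrix_trace hm
    (mul_nonneg (Real.sqrt_nonneg _) (p _)) (mul_nonneg (Real.sqrt_nonneg _) (p _))
    (t R1 s1) (t R2 s2))).1
  rw [mul_mul_mul_comm, Real.mul_self_sqrt (by norm_num)] at h4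
  simp only [Function.comp] at h3
  nlinarith

end Mean

/-- two-end Lipschitz bound -/
theorem lip {R1 R2 B : Mat n} (s2 : R2ᵀ = R2) (sB : Bᵀ = B) {o1 o2 g1 g2 : ℝ} (p1 : 0 ≤ o1)
    (p2 : 0 ≤ o2) (b1 : OpLe R1 o1) (b2 : OpLe R2 o2) {G : Set (OG n)}
    (h1 : ∀ U ∈ G, fro (fr R1 U * B) ≤ g1) (h2 : ∀ U ∈ G, fro (fr R2 U * B) ≤ g2) :
    LipO G (o1 * g2 + o2 * g1) fun U => fro (fr R1 U * B * fr R2 U) := by
  have e : ∀ U : OG n, fro (fr R1 U * B * fr R2 U) = fro (R1 * U.1 * B * U.1ᵀ * R2) := fun U => by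
    rw [← fro_fr (R1 * U.1 * B * U.1ᵀ * R2) U]
    simp only [fr, mul_assoc]
  have e1 : ∀ (R : Mat n) (U : OG n), fro (R * U.1 * B) = fro (fr R U * B) := fun R U => by
    rw [fr, mul_assoc _ R, mul_assoc U.1ᵀ, ← OG.coe_inv, Haar.fro_orth_mul]
  have key : ∀ U ∈ G, ∀ V ∈ G, fro (R1 * U.1 * B * U.1ᵀ * R2) - fro (R1 * V.1 * B * V.1ᵀ * R2) ≤
      (o1 * g2 + o2 * g1) * dO U V := by
    intro U hU V hV
    have d : R1 * U.1 * B * U.1ᵀ * R2 = R1 * ((U.1 - V.1) * (R2 * U.1 * B)ᵀ) +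
        R1 * V.1 * B * (U.1 - V.1)ᵀ * R2 + R1 * V.1 * B * V.1ᵀ * R2 := by
      rw [transpose_mul, transpose_mul, s2, sB, transpose_sub]
      noncomm_ring
    have a0 := dO_nonneg U V
    have a1 : fro (R1 * ((U.1 - V.1) * (R2 * U.1 * B)ᵀ)) ≤ o1 * (dO U V * g2) := by
      refine (fro_mul_l p1 b1 _).trans (mul_le_mul_of_nonneg_left ((fro_mul_le _ _).trans ?_) p1)
      rw [fro_transpose, e1]
      exact mul_le_mul_of_nonneg_left (h2 U hU) a0
    have a2 : fro (R1 * V.1 * B * (U.1 - V.1)ᵀ * R2) ≤ o2 * (g1 * dO U V) := by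
      refine (fro_mul_r p2 b2 _).trans (mul_le_mul_of_nonneg_left ((fro_mul_le _ _).trans ?_) p2)
      rw [fro_transpose, e1]
      exact mul_le_mul_of_nonneg_right (h1 V hV) a0
    have a3 := (fro_add_le _ (R1 * V.1 * B * V.1ᵀ * R2)).trans
      (add_le_add_left ((fro_add_le _ _).trans (add_le_add a1 a2)) _)
    rw [← d] at a3
    linarith
  intro U hU V hV
  simp only [e]
  exact abs_sub_le_iff.2 ⟨key U hU V hV, by rw [dO_comm]; exact key V hV U hU⟩

variable {μ : Measure (OG n)} [IsProbabilityMeasure μ] {c : ℝ} {G : Set (OG n)}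

/-- Markov, then blow-up -/
theorem tail (hc : Conc μ c) (c0 : 0 < c) (hG : 1 / 2 ≤ μ.real G) {f W : OG n → ℝ}
    (hW : Continuous W) (W0 : ∀ U, 0 ≤ W U) {M L D t : ℝ} (hM : 0 < M) (hm : ∫ U, W U ∂μ ≤ M)
    (hL : 0 ≤ L) (hf : LipO G L f) (hD : ∀ᵐ U ∂μ, W U < 4 * M → f U ≤ D) (ht : 0 ≤ t) :
    μ.real {U | U ∈ G ∧ D + L * (√(3 / c) + t) < f U} ≤ 2 * Real.exp (-(c * t ^ 2)) := by
  have h1 := (mul_meas_ge_le_integral_of_nonneg (ae_of_all _ W0) (integrable_of_continuous hW μ)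
    (4 * M)).trans hm
  have h2 : μ G ≤ μ ({U | U ∈ G ∧ f U ≤ D} ∪ {U | 4 * M ≤ W U}) := measure_mono_ae (by
    filter_upwards [hD] with U hU hUG
    rcases lt_or_ge (W U) (4 * M) with h | h
    · exact Or.inl ⟨hUG, hU h⟩
    · exact Or.inr h)
  have h3 := (hG.trans (ENNReal.toReal_mono (measure_ne_top _ _) h2)).trans
    (measureReal_union_le (μ := μ) _ _)
  have h4 : 2 * Real.exp (-(c * √(3 / c) ^ 2)) < μ.real {U | U ∈ G ∧ f U ≤ D} := by
    rw [Real.sq_sqrt (by positivity), show c * (3 / c) = 3 by field_simp]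
    have h5 : Real.exp (-3) ≤ 2 / 17 := by
      rw [Real.exp_neg, inv_le_comm₀ (Real.exp_pos _) (by norm_num)]
      exact le_trans (by norm_num) (Real.quadratic_le_exp_of_nonneg (by norm_num))
    have h6 : μ.real {U | 4 * M ≤ W U} ≤ 1 / 4 := le_of_mul_le_mul_left (a := 4 * M)
      (by linarith) (by linarith)
    linarith
  refine le_trans (measureReal_mono ?_) (hc.blowup (Real.sqrt_nonneg _) ht h4)
  intro U hU V hV
  by_contra hlt
  have h7 := (abs_le.1 (hf U hU.1 V hV.1)).2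
  have h8 := mul_le_mul_of_nonneg_left (not_le.1 hlt).le hL
  linarith [hU.2, hV.2]

lemma fr_compl (hP : Pᵀ = P) {R : Mat n} (k : R * P = P * R) {U : OG n} (hU : U ∈ HG P) :
    fr R U * (1 - P) = R * (1 - P) ∧ (1 - P) * fr R U = (1 - P) * R := by
  have k' : R * (1 - P) = (1 - P) * R := by rw [mul_sub, sub_mul, k, mul_one, one_mul]
  have h1 := mem_HG.1 hU
  have h2 := mem_HG.1 ((HG P).inv_mem hU)
  have h3 := HG_left hP hU
  have h4 := HG_left hP ((HG P).inv_mem hU)
  rw [OG.coe_inv] at h2 h4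
  constructor
  · rw [fr, mul_assoc, h1, mul_assoc, k', ← mul_assoc, h2]
  · rw [fr, ← mul_assoc, ← mul_assoc, h4, ← k', mul_assoc, h3]

/-- the explored rows do not move on the fibre -/
lemma fro_expl (hP : Pᵀ = P) (hPP : P * P = P) {R : Mat n} (k : R * P = P * R) {U : OG n}
    (hU : U ∈ HG P) (B : Mat n) : fro (R * (1 - P) * B) ≤ fro (fr R U * B) := by
  have k' : R * (1 - P) = (1 - P) * R := by rw [mul_sub, sub_mul, k, mul_one, one_mul]
  rw [k', ← (fr_compl hP k hU).2, mul_assoc]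
  exact fro_proj_mul (by rw [transpose_sub, transpose_one, hP])
    (by rw [mul_sub, sub_mul, sub_mul, hPP]; simp) _

/-- **quartic lemma** -/
theorem quart (hP : Pᵀ = P) (hPP : P * P = P) (hn : 0 < n) (hm : (n : ℝ) ≤ 2 * P.trace)
    (ri : RI P μ) (hH : ∀ᵐ U ∂μ, U ∈ HG P) (hc : Conc μ c) (c0 : 0 < c) {R1 R2 B : Mat n}
    (s1 : R1ᵀ = R1) (s2 : R2ᵀ = R2) (sB : Bᵀ = B) (k1 : R1 * P = P * R1) (k2 : R2 * P = P * R2)
    {o1 o2 g1 g2 M t : ℝ} (p1 : 0 ≤ o1) (p2 : 0 ≤ o2) (b1 : OpLe R1 o1) (b2 : OpLe R2 o2)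
    (hG : 1 / 2 ≤ μ.real G) (h1 : ∀ U ∈ G, fro (fr R1 U * B) ≤ g1)
    (h2 : ∀ U ∈ G, fro (fr R2 U * B) ≤ g2) (hM : 0 < M)
    (m0 : fro B * fro R1 * fro R2 ≤ M * n) (m1 : fro R2 * g1 ≤ M * √n) (m2 : fro R1 * g2 ≤ M * √n)
    (m3 : |(P * B).trace| * fro (R1 * R2) ≤ M * n) (ht : 0 ≤ t) :
    μ.real {U | U ∈ G ∧ 18 * M + fro (R1 * (1 - P) * B * (1 - P) * R2) +
      (o1 * g2 + o2 * g1) * (√(3 / c) + t) < fro (fr R1 U * B * fr R2 U)} ≤
      2 * Real.exp (-(c * t ^ 2)) := by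
  have n0 : (0 : ℝ) < n := Nat.cast_pos.2 hn
  have t0 : 0 < P.trace := by linarith
  obtain ⟨U0, hU0, hU0'⟩ : ∃ U0 ∈ G, U0 ∈ HG P := by
    refine Measure.exists_mem_of_measure_ne_zero_of_ae (μ := μ) (fun h => ?_) (ae_restrict_of_ae hH)
    rw [Measure.real, h, ENNReal.toReal_zero] at hG
    linarith
  set cb := (P * B).trace / P.trace with hcb
  set B0 := P * B * P - cb • P with hB0
  have sB0 : B0ᵀ = B0 := by
    rw [hB0, transpose_sub, transpose_smul, transpose_mul, transpose_mul, hP, sB, mul_assoc]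
  have pB0 : B0 * P = B0 := by rw [hB0, sub_mul, mul_assoc _ P, Matrix.smul_mul, hPP]
  have tP : (P * B * P).trace = cb * P.trace := by
    rw [trace_mul_cycle, hPP, hcb, div_mul_cancel₀ _ t0.ne']
  have tB0 : B0.trace = 0 := by rw [hB0, trace_sub, trace_smul, tP, smul_eq_mul, sub_self]
  have fB0 : fro B0 ≤ fro B := by
    refine le_trans (abs_le_of_sq_le_sq' ?_ (fro_nonneg _)).2
      ((fro_mul_proj hP hPP (P * B)).trans (fro_proj_mul hP hPP B))
    have e : P * B * P = B0 + cb • P := by rw [hB0, sub_add_cancel]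
    rw [e, Haar.fro_add_sq, Haar.ip_eq_trace, sB0, Matrix.mul_smul, pB0, trace_smul, tB0, smul_zero]
    nlinarith [sq_nonneg (fro (cb • P))]
  have y : ∀ {R : Mat n} {g : ℝ}, R * P = P * R → fro (fr R U0 * B) ≤ g → ∀ R' : Mat n,
      fro R' * g ≤ M * √n → ∫ U, fro (R * (1 - P) * B * P * fr R' U) ^ 2 ∂μ ≤ 2 * M ^ 2 := by
    intro R g k h R' h'
    have a1 := mean2 hP hPP ri (Y := R * (1 - P) * B * P) (by rw [mul_assoc _ P, hPP]) R'
    have a2 := (fro_mul_proj hP hPP _).trans ((fro_expl hP hPP k hU0' B).trans h)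
    have a3 := pow_le_pow_left₀ (mul_nonneg (fro_nonneg _) (fro_nonneg _))
      ((mul_le_mul_of_nonneg_right a2 (fro_nonneg R')).trans ((mul_comm _ _).le.trans h')) 2
    rw [mul_pow M, Real.sq_sqrt n0.le] at a3
    refine le_of_mul_le_mul_left (a1.trans (a3.trans ?_)) t0
    nlinarith [sq_nonneg M]
  have x : ∫ U, fro (fr R1 U * B0 * fr R2 U) ^ 2 ∂μ ≤ 16 * M ^ 2 := by
    have a1 := mean4 hP hPP ri sB0 pB0 tB0 s1 s2 t0.le
    have a2 : fro B0 * fro R1 * fro R2 ≤ M * (2 * P.trace) := by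
      refine le_trans ?_ (m0.trans (mul_le_mul_of_nonneg_left hm hM.le))
      exact mul_le_mul_of_nonneg_right (mul_le_mul_of_nonneg_right fB0 (fro_nonneg _)) (fro_nonneg _)
    have a3 := pow_le_pow_left₀
      (mul_nonneg (mul_nonneg (fro_nonneg _) (fro_nonneg _)) (fro_nonneg _)) a2 2
    refine le_of_mul_le_mul_left (a := P.trace * (P.trace + 1)) ?_ (by positivity)
    nlinarith [mul_nonneg (sq_nonneg M) t0.le]
  have c1 : Continuous fun U => fro (fr R1 U * B0 * fr R2 U) ^ 2 :=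
    (Haar.continuous_fro.comp (((cont_fr R1).matrix_mul continuous_const).matrix_mul
      (cont_fr R2))).pow 2
  have c2 : ∀ Y R : Mat n, Continuous fun U => fro (Y * fr R U) ^ 2 := fun Y R =>
    (Haar.continuous_fro.comp (continuous_const.matrix_mul (cont_fr R))).pow 2
  have g0 := (fro_nonneg _).trans (h1 U0 hU0)
  have g0' := (fro_nonneg _).trans (h2 U0 hU0)
  refine tail hc c0 hG (W := fun U => fro (fr R1 U * B0 * fr R2 U) ^ 2 +
    (fro (R1 * (1 - P) * B * P * fr R2 U) ^ 2 + fro (R2 * (1 - P) * B * P * fr R1 U) ^ 2))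
    (c1.add ((c2 _ _).add (c2 _ _))) (fun U => by positivity) (M := 20 * M ^ 2) (by positivity) ?_
    (by positivity) (lip s2 sB p1 p2 b1 b2 h1 h2) ?_ ht
  · have j : Integrable (fun U => fro (R1 * (1 - P) * B * P * fr R2 U) ^ 2 +
        fro (R2 * (1 - P) * B * P * fr R1 U) ^ 2) μ :=
      integrable_of_continuous ((c2 _ _).add (c2 _ _)) μ
    rw [integral_add (integrable_of_continuous c1 μ) j,
      integral_add (integrable_of_continuous (c2 _ _) μ) (integrable_of_continuous (c2 _ _) μ)]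
    linarith [y k1 (h1 U0 hU0) R2 m1, y k2 (h2 U0 hU0) R1 m2]
  · filter_upwards [hH] with U hU hW
    obtain ⟨a1, a2⟩ := fr_compl hP k1 hU
    obtain ⟨a3, a4⟩ := fr_compl hP k2 hU
    have k1' : R1 * (1 - P) = (1 - P) * R1 := by rw [mul_sub, sub_mul, k1, mul_one, one_mul]
    have a5 : fr R1 U * P = P * fr R1 U := by
      have := a1.trans (k1'.trans a2.symm)
      rw [mul_sub, sub_mul, mul_one, one_mul] at this
      exact sub_right_injective this
    have d : fr R1 U * B * fr R2 U = fr R1 U * B0 * fr R2 U + R1 * (1 - P) * B * P * fr R2 U +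
        (R2 * (1 - P) * B * P * fr R1 U)ᵀ + cb • (P * fr (R1 * R2) U) +
        R1 * (1 - P) * B * (1 - P) * R2 := by
      rw [transpose_mul, transpose_mul, transpose_mul, transpose_mul, transpose_sub, transpose_one,
        fr_transpose, s1, s2, sB, hP, mul_assoc _ (1 - P) R2, ← a4, ← a1, ← fr_mul,
        ← mul_assoc P (fr R1 U), ← a5, hB0, mul_sub _ (P * B * P), sub_mul _ _ (fr R2 U),
        Matrix.mul_smul, Matrix.smul_mul, sub_add_eq_add_sub, sub_add_eq_add_sub, sub_add_cancel]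
      noncomm_ring
    have a6 : fro (cb • (P * fr (R1 * R2) U)) ≤ 2 * M := by
      rw [fro_smul, hcb, abs_div, abs_of_pos t0, div_mul_eq_mul_div, div_le_iff₀ t0]
      refine (mul_le_mul_of_nonneg_left ((fro_proj_mul hP hPP _).trans (fro_fr _ U).le)
        (abs_nonneg _)).trans (m3.trans ?_)
      nlinarith
    rw [d]
    refine (fro_add_le _ _).trans (add_le_add_left ((fro_add_le _ _).trans ?_) _)
    have a7 := (fro_add_le (fr R1 U * B0 * fr R2 U + R1 * (1 - P) * B * P * fr R2 U)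
      (R2 * (1 - P) * B * P * fr R1 U)ᵀ).trans (add_le_add_left (fro_add_le _ _) _)
    rw [fro_transpose] at a7
    set x := fro (fr R1 U * B0 * fr R2 U)
    set y := fro (R1 * (1 - P) * B * P * fr R2 U)
    set z := fro (R2 * (1 - P) * B * P * fr R1 U)
    have a8 : x + y + z ≤ 16 * M := (abs_le_of_sq_le_sq' (by
      nlinarith [sq_nonneg (x - y), sq_nonneg (x - z), sq_nonneg (y - z), sq_nonneg M])
      (by positivity)).2
    linarith

end Vale.Agent.N150.T2Q
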