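import Vale.Agent.N150.T2Tr
import Vale.Agent.N150.TapQ0
import Vale.Agent.N150.TapHlM

/-! THEOREM T2 in the form used by the mean field tier of the cap flow. -/

open Filter Topology

namespace Vale.Agent.N150.T2Tr

theorem t2Q_of (h2 : T2.T2Stmt) (lo : ℕ → ℝ) : TapQ.T2Q lo Tap.hsL := by
  obtain ⟨C, e, he, h⟩ := t2Hl_of h2
  obtain ⟨u, hu, h⟩ := (mem_nhdsGT_iff_exists_Ioc_subset).1 (h 1000 (by norm_num))
  refine ⟨C, e, u, he, hu, Eventually.of_forall ?_⟩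
  intro n lam yt x xt s t z0 K μ _ H t0 t1 ht _ hK hKs hy _ hA hX hF
  exact h ⟨t0, t1⟩ n _ s z0 K lam yt x xt μ _ H ht hy rfl hA hX hF hK hKs

end Vale.Agent.N150.T2Tr
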