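import Vale.Agent.N150.T2W1
import Vale.Agent.N150.T2B1

/-! P150, block T2, Wick lemma: clipped quartic sums on the fibre of a sign vector. -/

open Matrix MeasureTheory Real Module

namespace Vale.Agent.N150.T2W

open Vale.Agent.P150 Vale.Agent.P150.F Vale.Agent.N150.Fib Vale.Agent.N150.T1

variable {n : ℕ}

/-- deviation of the clipped quartic sum from its exact leading terms -/
noncomputable def dw (x : Vec n) (l : ℝ) (a b y z : Vec n) : ℝ :=
  s4 (clip l a) (clip l b) (clip l y) (clip l z) - wk a b y z / n +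
    2 * (ip x a * ip x b * ip x y * ip x z) / n ^ 3

theorem s4_swap2 (a b y z : Vec n) : s4 a b y z = s4 b a y z :=
  Finset.sum_congr rfl fun i _ => by ring

theorem s4_swap3 (a b y z : Vec n) : s4 a b y z = s4 y b a z :=
  Finset.sum_congr rfl fun i _ => by ring

theorem s4_swap4 (a b y z : Vec n) : s4 a b y z = s4 z b y a :=
  Finset.sum_congr rfl fun i _ => by ring

theorem dw_swap2 (x : Vec n) (l : ℝ) (a b y z : Vec n) : dw x l a b y z = dw x l b a y z := by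
  unfold dw wk
  rw [s4_swap2, ipN_comm b a]
  ring

theorem dw_swap3 (x : Vec n) (l : ℝ) (a b y z : Vec n) : dw x l a b y z = dw x l y b a z := by
  unfold dw wk
  rw [s4_swap3, ipN_comm y a, ipN_comm y b, ipN_comm b a]
  ring

theorem dw_swap4 (x : Vec n) (l : ℝ) (a b y z : Vec n) : dw x l a b y z = dw x l z b y a := by
  unfold dw wk
  rw [s4_swap4, ipN_comm z a, ipN_comm z b, ipN_comm z y, ipN_comm y a, ipN_comm b a]
  ring

theorem abs_s4_le (a b : Vec n) {y z : Vec n} {l : ℝ} (hl : 0 ≤ l) (hy : ∀ i, |y i| ≤ l)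
    (hz : ∀ i, |z i| ≤ l) : |s4 a b y z| ≤ l ^ 2 * (nv a * nv b) := by
  have e : s4 a b y z = ip a fun i => b i * y i * z i :=
    Finset.sum_congr rfl fun i _ => by ring
  have h := nv_le_mul (u := fun i => b i * y i * z i) (v := b) (C := l ^ 2) (by positivity)
    fun i => by
      rw [abs_mul, abs_mul, mul_assoc, mul_comm, pow_two]
      exact mul_le_mul_of_nonneg_right (mul_le_mul (hy i) (hz i) (abs_nonneg _) hl) (abs_nonneg _)
  rw [e]
  refine (abs_ip_le _ _).trans ((mul_le_mul_of_nonneg_left h (nv_nonneg a)).trans (le_of_eq ?_))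
  ring

theorem abs_ip_one {u v : Vec n} (hu : nv u ≤ 1) (hv : nv v ≤ 1) : |ip u v| ≤ 1 :=
  (abs_ip_le u v).trans (mul_le_one₀ hu (nv_nonneg v) hv)

theorem abs_wk_le (a : Vec n) {b y z : Vec n} (hb : nv b ≤ 1) (hy : nv y ≤ 1) (hz : nv z ≤ 1) :
    |wk a b y z| ≤ 3 * nv a := by
  have h : ∀ {u v w : Vec n}, nv u ≤ 1 → nv v ≤ 1 → nv w ≤ 1 → |ip a u * ip v w| ≤ nv a :=
    fun {u v w} hu hv hw => by
      rw [abs_mul]
      exact (mul_le_of_le_one_right (abs_nonneg _) (abs_ip_one hv hw)).trans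
        ((abs_ip_le a u).trans (mul_le_of_le_one_right (nv_nonneg a) hu))
  unfold wk
  have h1 := abs_le.1 (h hb hy hz)
  have h2 := abs_le.1 (h hy hb hz)
  have h3 := abs_le.1 (h hz hb hy)
  exact abs_le.2 ⟨by linarith, by linarith⟩

theorem nv_fro (A : Mat n) (v : Vec n) : nv (A *ᵥ v) ≤ Haar.fro A * nv v := by
  have h0 : 0 ≤ hsq A := Rip.hsq_nonneg A
  refine nv_le_of_sq_le (mul_nonneg (Real.sqrt_nonneg _) (nv_nonneg v)) ?_
  rw [mul_pow, show Haar.fro A = √(hsq A) from rfl, Real.sq_sqrt h0, nv_sq]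
  unfold hsq F.sq
  rw [Finset.sum_mul]
  refine Finset.sum_le_sum fun i _ => ?_
  exact Finset.sum_mul_sq_le_sq_mul_sq Finset.univ (fun j => A i j) v

theorem nv_orth (U : OG n) (v : Vec n) : nv (U.1 *ᵥ v) = nv v := by
  rw [nv_eq_sqrt, nv_eq_sqrt, Rip.sq_orth]

theorem nv_tr (U : OG n) (v : Vec n) : nv (U.1ᵀ *ᵥ v) = nv v := by
  rw [← OG.coe_inv, nv_orth]

theorem wk_orth (U : OG n) (a b y z : Vec n) :
    wk (U.1 *ᵥ a) (U.1 *ᵥ b) (U.1 *ᵥ y) (U.1 *ᵥ z) = wk a b y z := by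
  simp only [wk, Rip.ip_dot, OG.dot]

theorem clip_eq {l : ℝ} {v : Vec n} (h : ∀ i, |v i| ≤ l) : clip l v = v := funext fun i => by
  have := abs_le.1 (h i)
  unfold clip
  rw [min_eq_right this.2, max_eq_right this.1]

section Sign

variable {x : Vec n} (hx : ∀ i, x i ^ 2 = 1) (hn : 4 ≤ n) {l : ℝ} (hl0 : 0 < l)
include hx hn hl0

theorem dw_slot (a a' : Vec n) {b y z : Vec n} (hb : nv b ≤ 1) (hy : nv y ≤ 1) (hz : nv z ≤ 1) :
    |dw x l a b y z - dw x l a' b y z| ≤ (l ^ 2 + 5 / n) * nv (a - a') := by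
  have n0 : (0 : ℝ) < n := by exact_mod_cast (by omega : 0 < n)
  have e : dw x l a b y z - dw x l a' b y z =
      s4 (clip l a - clip l a') (clip l b) (clip l y) (clip l z) - wk (a - a') b y z / n +
        2 * (ip x (a - a') * ip x b * ip x y * ip x z) / n ^ 3 := by
    have e1 : s4 (clip l a - clip l a') (clip l b) (clip l y) (clip l z) =
        s4 (clip l a) (clip l b) (clip l y) (clip l z) -
          s4 (clip l a') (clip l b) (clip l y) (clip l z) := by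
      unfold s4
      rw [← Finset.sum_sub_distrib]
      exact Finset.sum_congr rfl fun i _ => by rw [Pi.sub_apply]; ring
    rw [e1]
    simp only [dw, wk, ip_sub_left, ip_sub_right]
    ring
  have d0 := nv_nonneg (a - a')
  have h1 : |s4 (clip l a - clip l a') (clip l b) (clip l y) (clip l z)| ≤ l ^ 2 * nv (a - a') :=
    (abs_s4_le _ _ hl0.le (abs_clip_le hl0.le y) (abs_clip_le hl0.le z)).trans
      (mul_le_mul_of_nonneg_left ((mul_le_of_le_one_right (nv_nonneg _)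
        ((nv_clip_le hl0.le b).trans hb)).trans (nv_clip_sub l a a')) (sq_nonneg l))
  have h2 : |wk (a - a') b y z / n| ≤ 3 / n * nv (a - a') := by
    rw [abs_div, Nat.abs_cast, div_mul_eq_mul_div]
    exact div_le_div_of_nonneg_right (abs_wk_le _ hb hy hz) n0.le
  have h3 : |2 * (ip x (a - a') * ip x b * ip x y * ip x z) / n ^ 3| ≤ 2 / n * nv (a - a') := by
    have k : ∀ {u : Vec n}, nv u ≤ 1 → |ip x u| ≤ √n := fun hu =>
      (abs_ip_x hx).trans (mul_le_of_le_one_right (sqrt_nonneg _) hu)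
    have k1 : |ip x (a - a')| * |ip x b| * |ip x y| * |ip x z| ≤
        √n * nv (a - a') * √n * √n * √n := by
      have := abs_ip_x hx (v := a - a')
      have := k hb
      have := k hy
      have := k hz
      gcongr
    have k2 : √n * nv (a - a') * √n * √n * √n = n ^ 2 * nv (a - a') := by
      have := Real.sq_sqrt n0.le
      linear_combination (√n ^ 2 + n) * nv (a - a') * this
    rw [abs_div, abs_mul, abs_mul, abs_mul, abs_mul, abs_two, abs_of_pos (pow_pos n0 3),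
      div_le_iff₀ (pow_pos n0 3)]
    refine (mul_le_mul_of_nonneg_left (k1.trans k2.le) zero_le_two).trans (le_of_eq ?_)
    field_simp
  rw [e]
  have h4 := abs_le.1 h1
  have h5 := abs_le.1 h2
  have h6 := abs_le.1 h3
  have e5 : (l ^ 2 + 5 / n) * nv (a - a') =
      l ^ 2 * nv (a - a') + 3 / n * nv (a - a') + 2 / n * nv (a - a') := by ring
  exact abs_le.2 ⟨by linarith, by linarith⟩

theorem dw_lip {a b y z a' b' y' z' : Vec n} (hb : nv b ≤ 1) (hy : nv y ≤ 1) (hz : nv z ≤ 1)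
    (ha' : nv a' ≤ 1) (hb' : nv b' ≤ 1) (hy' : nv y' ≤ 1) {e : ℝ} (h1 : nv (a - a') ≤ e)
    (h2 : nv (b - b') ≤ e) (h3 : nv (y - y') ≤ e) (h4 : nv (z - z') ≤ e) :
    |dw x l a b y z - dw x l a' b' y' z'| ≤ 4 * (l ^ 2 + 5 / n) * e := by
  have c0 : 0 ≤ l ^ 2 + 5 / n := by positivity
  have k1 := abs_le.1 ((dw_slot hx hn hl0 a a' hb hy hz).trans (mul_le_mul_of_nonneg_left h1 c0))
  have k2 := abs_le.1 ((dw_slot hx hn hl0 b b' ha' hy hz).trans (mul_le_mul_of_nonneg_left h2 c0))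
  have k3 := abs_le.1 ((dw_slot hx hn hl0 y y' hb' ha' hz).trans (mul_le_mul_of_nonneg_left h3 c0))
  have k4 := abs_le.1 ((dw_slot hx hn hl0 z z' hb' hy' ha').trans (mul_le_mul_of_nonneg_left h4 c0))
  rw [← dw_swap2 x l a' b, ← dw_swap2 x l a' b'] at k2
  rw [← dw_swap3 x l a' b' y, ← dw_swap3 x l a' b' y'] at k3
  rw [← dw_swap4 x l a' b' y' z, ← dw_swap4 x l a' b' y' z'] at k4
  exact abs_le.2 ⟨by linarith, by linarith⟩

theorem dw_lipO {a b y z : Vec n} (ha : nv a ≤ 1) (hb : nv b ≤ 1) (hy : nv y ≤ 1)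
    (hz : nv z ≤ 1) : LipO Set.univ (4 * (l ^ 2 + 5 / n))
      fun U : OG n => dw x l (U.1 *ᵥ a) (U.1 *ᵥ b) (U.1 *ᵥ y) (U.1 *ᵥ z) := by
  intro U _ V _
  have k : ∀ {u : Vec n}, nv u ≤ 1 → nv (U.1 *ᵥ u - V.1 *ᵥ u) ≤ dO U V := fun {u} hu => by
    rw [← sub_mulVec]
    exact (nv_fro _ u).trans (mul_le_of_le_one_right (dO_nonneg U V) hu)
  exact dw_lip hx hn hl0 ((nv_orth U b).trans_le hb) ((nv_orth U y).trans_le hy)
    ((nv_orth U z).trans_le hz) ((nv_orth V a).trans_le ha) ((nv_orth V b).trans_le hb)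
    ((nv_orth V y).trans_le hy) (k ha) (k hb) (k hy) (k hz)

variable (hl : 48 * (log n + 1) ≤ n * l ^ 2)
include hl

/-- the clip acts with tiny probability -/
theorem clip_tail {u : Vec n} (hu : nv u ≤ 1) :
    (haarP (rm 1 x)).real {U | clip l (U.1 *ᵥ u) ≠ U.1 *ᵥ u} ≤ 1 / (16 * n ^ 2) := by
  have hP : IsProj (rm 1 x) := isProj_one.rm x
  have n4 : (4 : ℝ) ≤ n := by exact_mod_cast hn
  have n0 : (0 : ℝ) < n := by linarith
  have ht := trace_rm hx hn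
  have lg : 0 ≤ log n := log_nonneg (by linarith)
  set t := (36 * log n + 33) / n with htd
  have s1 : F.sq u ≤ 1 := by simpa using sq_le_of_nv_le hu
  have h1 := Rip.real_exists_le (haarP (rm 1 x)) Finset.univ
    (fun i U => t < (U.1 *ᵥ (rm 1 x *ᵥ u)) i ^ 2) fun i _ =>
      coord_tail hP (by linarith) (hP.mulVec_mulVec u) ((hP.sq_le u).trans s1) i
        (t := t) (by positivity)
  refine le_trans (ENNReal.toReal_mono (measure_ne_top _ _) (measure_mono_ae ?_)) (h1.trans ?_)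
  · filter_upwards [(invOn_haarP (rm 1 x)).ae] with U hU h2
    by_contra h3
    refine h2 (clip_eq fun i => abs_le_of_sq_le_sq ?_ hl0.le)
    have h4 : (U.1 *ᵥ (rm 1 x *ᵥ u)) i ^ 2 ≤ t := not_lt.1 fun h => h3 ⟨i, Finset.mem_univ i, h⟩
    have h5 : ip x u ^ 2 ≤ n := by
      have h6 := pow_le_pow_left₀ (abs_nonneg _)
        ((abs_ip_x hx).trans (mul_le_of_le_one_right (sqrt_nonneg _) hu)) 2
      rwa [sq_abs, Real.sq_sqrt n0.le] at h6
    have h6 : (ip x u / n * x i) ^ 2 ≤ 1 / n := by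
      rw [mul_pow, hx, mul_one, div_pow, div_le_div_iff₀ (by positivity) n0]
      nlinarith
    have h7 : 4 * (1 / n) + 4 / 3 * t ≤ l ^ 2 := by
      rw [htd, show 4 * (1 / (n : ℝ)) + 4 / 3 * ((36 * log n + 33) / n) =
        48 * (log n + 1) / n by ring, div_le_iff₀ n0]
      linarith
    rw [decomp hx hU.1]
    nlinarith [sq_nonneg (3 * (ip x u / n * x i) - (U.1 *ᵥ (rm 1 x *ᵥ u)) i)]
  · rw [Finset.card_univ, Fintype.card_fin, ht]
    have h2 : 1 - (n - 1) * t / 6 ≤ -3 + -(3 * log n) := by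
      have h3 : (3 / 4 : ℝ) * (36 * log n + 33) ≤ (n - 1) * t := by
        rw [htd, ← mul_div_assoc, le_div_iff₀ n0]
        nlinarith
      linarith
    have h3 : exp (-(3 * log n)) = 1 / n ^ 3 := by
      rw [exp_neg, show 3 * log (n : ℝ) = (3 : ℕ) * log (n : ℝ) by norm_num, exp_nat_mul,
        exp_log n0, one_div]
    have h4 : exp (-3) ≤ 1 / 16 := by
      rw [exp_neg, one_div]
      refine inv_anti₀ (by norm_num) ?_
      have h8 : exp 3 = exp 1 ^ 3 := by rw [← exp_nat_mul]; norm_num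
      rw [h8]
      exact le_trans (by norm_num) (pow_le_pow_left₀ (by norm_num) exp_one_gt_d9.le 3)
    have h5 := exp_le_exp.2 h2
    rw [exp_add, h3] at h5
    refine (mul_le_mul_of_nonneg_left (h5.trans (mul_le_mul_of_nonneg_right h4 (by positivity)))
      n0.le).trans (le_of_eq ?_)
    field_simp

theorem mean_dw {a b y z : Vec n} (ha : nv a ≤ 1) (hb : nv b ≤ 1) (hy : nv y ≤ 1)
    (hz : nv z ≤ 1) :
    |∫ U, dw x l (U.1 *ᵥ a) (U.1 *ᵥ b) (U.1 *ᵥ y) (U.1 *ᵥ z) ∂haarP (rm 1 x)| ≤ 7 / n ^ 2 := by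
  have hP : IsProj (rm 1 x) := isProj_one.rm x
  have n4 : (4 : ℝ) ≤ n := by exact_mod_cast hn
  have n0 : (0 : ℝ) < n := by linarith
  set ν := haarP (rm 1 x) with hν
  set f : OG n → ℝ := fun U => s4 (clip l (U.1 *ᵥ a)) (clip l (U.1 *ᵥ b)) (clip l (U.1 *ᵥ y))
    (clip l (U.1 *ᵥ z)) - s4 (U.1 *ᵥ a) (U.1 *ᵥ b) (U.1 *ᵥ y) (U.1 *ᵥ z) with hf
  have c1 := cont_mv a
  have c2 := cont_mv b
  have c3 := cont_mv y
  have c4 := cont_mv z
  have cs : Continuous fun U : OG n => s4 (U.1 *ᵥ a) (U.1 *ᵥ b) (U.1 *ᵥ y) (U.1 *ᵥ z) := by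
    unfold s4
    fun_prop
  have cf : Continuous f := by
    refine Continuous.sub ?_ cs
    unfold s4 clip
    fun_prop
  have q : ν.real {U | 0 < |f U - 0|} ≤ 1 / (4 * n ^ 2) := by
    have h1 := Tail.real_or_le ν (p := fun U => 0 < |f U - 0|)
      (q := fun U => clip l (U.1 *ᵥ a) ≠ U.1 *ᵥ a ∨ clip l (U.1 *ᵥ b) ≠ U.1 *ᵥ b)
      (r := fun U => clip l (U.1 *ᵥ y) ≠ U.1 *ᵥ y ∨ clip l (U.1 *ᵥ z) ≠ U.1 *ᵥ z) fun U hU => by
        by_contra h
        simp only [not_or, not_not] at h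
        simp only [hf, h.1.1, h.1.2, h.2.1, h.2.2, sub_self, abs_zero, lt_self_iff_false] at hU
    have h2 := Tail.real_or_le ν
      (p := fun U => clip l (U.1 *ᵥ a) ≠ U.1 *ᵥ a ∨ clip l (U.1 *ᵥ b) ≠ U.1 *ᵥ b) fun _ h => h
    have h3 := Tail.real_or_le ν
      (p := fun U => clip l (U.1 *ᵥ y) ≠ U.1 *ᵥ y ∨ clip l (U.1 *ᵥ z) ≠ U.1 *ᵥ z) fun _ h => h
    have e : 1 / (4 * (n : ℝ) ^ 2) = 4 * (1 / (16 * n ^ 2)) := by field_simp; norm_num
    linarith [clip_tail hx hn hl0 hl ha, clip_tail hx hn hl0 hl hb, clip_tail hx hn hl0 hl hy,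
      clip_tail hx hn hl0 hl hz]
  have b1 : ∀ {a b y z : Vec n}, nv a ≤ 1 → nv b ≤ 1 → nv y ≤ 1 → nv z ≤ 1 → |s4 a b y z| ≤ 1 :=
    fun {a b y z} ha hb hy hz => (abs_s4_le a b zero_le_one (fun i => (abs_le_nv y i).trans hy)
      fun i => (abs_le_nv z i).trans hz).trans (by
        rw [one_pow, one_mul]; exact mul_le_one₀ ha (nv_nonneg b) hb)
  have h1 := abs_sub_integral_le (μ := ν) cf.measurable (B := 2) (fun U => by
    have k1 := abs_le.1 (b1 ((nv_clip_le hl0.le _).trans ((nv_orth U a).trans_le ha))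
      ((nv_clip_le hl0.le _).trans ((nv_orth U b).trans_le hb))
      ((nv_clip_le hl0.le _).trans ((nv_orth U y).trans_le hy))
      ((nv_clip_le hl0.le _).trans ((nv_orth U z).trans_le hz)))
    have k2 := abs_le.1 (b1 ((nv_orth U a).trans_le ha) ((nv_orth U b).trans_le hb)
      ((nv_orth U y).trans_le hy) ((nv_orth U z).trans_le hz))
    exact abs_le.2 ⟨by simp only [hf]; linarith, by simp only [hf]; linarith⟩)
    (by rw [div_lt_one (by positivity)]; nlinarith) q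
  have h2 : ∫ U, dw x l (U.1 *ᵥ a) (U.1 *ᵥ b) (U.1 *ᵥ y) (U.1 *ᵥ z) ∂ν = ∫ U, f U ∂ν -
      2 * wk (rm 1 x *ᵥ a) (rm 1 x *ᵥ b) (rm 1 x *ᵥ y) (rm 1 x *ᵥ z) / (n * (n + 1)) := by
    rw [integral_congr_ae (g := fun U => f U + s4 (U.1 *ᵥ a) (U.1 *ᵥ b) (U.1 *ᵥ y) (U.1 *ᵥ z) +
      (2 * (ip x a * ip x b * ip x y * ip x z) / n ^ 3 - wk a b y z / n)), integral_add,
      integral_add, hν, mean_s4 hx hn]
    · simp only [integral_const, probReal_univ, smul_eq_mul, one_mul]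
      ring
    any_goals exact integrable_of_continuous (by fun_prop) _
    · filter_upwards [(invOn_haarP (rm 1 x)).ae] with U hU
      have e : ∀ v, ip x (U.1 *ᵥ v) = ip x v := fun v => by
        rw [Rip.ip_mulVec_tr, HG_tr_mulVec hU.1 (isProj_one.rm_mulVec_self x), ipN_comm]
      simp only [dw, hf, wk_orth, e]
      ring
  have p1 : ∀ {u : Vec n}, nv u ≤ 1 → nv (rm 1 x *ᵥ u) ≤ 1 := fun hu =>
    (Tail.nv_proj_le hP.symm hP.idem _).trans hu
  have h3 : |2 * wk (rm 1 x *ᵥ a) (rm 1 x *ᵥ b) (rm 1 x *ᵥ y) (rm 1 x *ᵥ z) / (n * (n + 1))| ≤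
      6 / n ^ 2 := by
    have h4 := abs_wk_le (rm 1 x *ᵥ a) (p1 hb) (p1 hy) (p1 hz)
    have h5 := p1 ha
    rw [abs_div, abs_mul, abs_two, abs_of_pos (by positivity : (0 : ℝ) < n * (n + 1))]
    exact div_le_div₀ (by norm_num) (by linarith) (by positivity) (by nlinarith)
  rw [zero_sub, abs_neg] at h1
  have e : (0 : ℝ) + 2 * 2 * (1 / (4 * n ^ 2)) + 6 / n ^ 2 = 7 / n ^ 2 := by ring
  rw [h2, ← e]
  exact (abs_sub _ _).trans (add_le_add h1 h3)

/-- fixed vectors on one fibre -/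
theorem fib_dw {a b y z : Vec n} (ha : nv a ≤ 1) (hb : nv b ≤ 1) (hy : nv y ≤ 1)
    (hz : nv z ≤ 1) {d : ℝ} (hd : 0 ≤ d) :
    (haarP (rm 1 x)).real {U | (d + 7 / n) / n ≤
      |dw x l (U.1ᵀ *ᵥ a) (U.1ᵀ *ᵥ b) (U.1ᵀ *ᵥ y) (U.1ᵀ *ᵥ z)|} ≤
      2 * exp (-(n * d ^ 2 / (8192 * (n * l ^ 2 + 5) ^ 2))) := by
  have hP : IsProj (rm 1 x) := isProj_one.rm x
  have n4 : (4 : ℝ) ≤ n := by exact_mod_cast hn
  have n0 : (0 : ℝ) < n := by linarith
  have ht := trace_rm hx hn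
  rw [Rip.inv_real_tr (invOn_haarP _) fun A => (d + 7 / n) / n ≤
    |dw x l (A *ᵥ a) (A *ᵥ b) (A *ᵥ y) (A *ᵥ z)|]
  have hc := (conc_haarP hP.symm hP.idem (by linarith)).mono (c' := n / 512) (by linarith)
  have h1 := hc _ _ (d / n) (by positivity) (by positivity) (dw_lipO hx hn hl0 ha hb hy hz)
  have h2 := mean_dw hx hn hl0 hl ha hb hy hz
  refine (Tail.real_imp_le _ fun U hU => ?_).trans (h1.trans (le_of_eq ?_))
  · have h3 := abs_sub_abs_le_abs_sub (dw x l (U.1 *ᵥ a) (U.1 *ᵥ b) (U.1 *ᵥ y) (U.1 *ᵥ z))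
      (∫ U, dw x l (U.1 *ᵥ a) (U.1 *ᵥ b) (U.1 *ᵥ y) (U.1 *ᵥ z) ∂haarP (rm 1 x))
    have e : (d + 7 / n) / n = d / n + 7 / (n : ℝ) ^ 2 := by ring
    linarith
  · congr 3
    field_simp
    ring

variable {μ : Measure (OG n)} [IsProbabilityMeasure μ] (h : Explo μ fun _ => rm 1 x)
include h

theorem one_dw {a b y z : Vec n} (ha : nv a ≤ 1) (hb : nv b ≤ 1) (hy : nv y ≤ 1)
    (hz : nv z ≤ 1) {d : ℝ} (hd : 0 ≤ d) :
    μ.real {O | (d + 7 / n) / n ≤ |dw x l (O.1ᵀ *ᵥ a) (O.1ᵀ *ᵥ b) (O.1ᵀ *ᵥ y) (O.1ᵀ *ᵥ z)|} ≤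
      2 * exp (-(n * d ^ 2 / (8192 * (n * l ^ 2 + 5) ^ 2))) := by
  have hc : Continuous fun O : OG n =>
      dw x l (O⁻¹.1 *ᵥ a) (O⁻¹.1 *ᵥ b) (O⁻¹.1 *ᵥ y) (O⁻¹.1 *ᵥ z) :=
    (dw_lipO hx hn hl0 ha hb hy hz).continuous.comp continuous_inv
  simp only [OG.coe_inv] at hc
  refine h.real_le famP (measurableSet_le measurable_const hc.abs.measurable) (by positivity)
    fun O => le_trans (le_of_eq ?_) (fib_dw hx hn hl0 hl ((nv_tr O a).trans_le ha)
      ((nv_tr O b).trans_le hb) ((nv_tr O y).trans_le hy) ((nv_tr O z).trans_le hz) hd)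
  simp only [Set.mem_ofPred_eq, OG.coe_mul, transpose_mul, ← mulVec_mulVec]

/-- **Wick lemma**, uniformly over the unit vectors of a fixed frame subspace -/
theorem wick_sub (W : Submodule ℝ (Vec n)) {e d : ℝ} (he : 0 < e) (hd : 0 ≤ d) :
    μ.real {O | ¬ ∀ a ∈ W, ∀ b ∈ W, ∀ y ∈ W, ∀ z ∈ W, nv a = 1 → nv b = 1 → nv y = 1 → nv z = 1 →
      |dw x l (O.1ᵀ *ᵥ a) (O.1ᵀ *ᵥ b) (O.1ᵀ *ᵥ y) (O.1ᵀ *ᵥ z)| ≤
        (d + 4 * e * (n * l ^ 2 + 5) + 7 / n) / n} ≤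
      2 * exp (4 * finrank ℝ W * log (1 + 2 / e) - n * d ^ 2 / (8192 * (n * l ^ 2 + 5) ^ 2)) := by
  have n0 : (0 : ℝ) < n := by exact_mod_cast (by omega : 0 < n)
  obtain ⟨N, hN, hc⟩ := Rip.exists_snet W he
  have h1 := Rip.real_exists_le μ ((N ×ˢ N) ×ˢ (N ×ˢ N))
    (fun q O => (d + 7 / n) / n ≤
      |dw x l (O.1ᵀ *ᵥ q.1.1) (O.1ᵀ *ᵥ q.1.2) (O.1ᵀ *ᵥ q.2.1) (O.1ᵀ *ᵥ q.2.2)|) fun q hq => by
      simp only [Finset.mem_product] at hq
      exact one_dw hx hn hl0 hl h (hN.eq_one _ hq.1.1).le (hN.eq_one _ hq.1.2).le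
        (hN.eq_one _ hq.2.1).le (hN.eq_one _ hq.2.2).le hd
  refine (Tail.real_imp_le _ fun O hO => ?_).trans (h1.trans ?_)
  · by_contra hne
    simp only [not_exists, not_and, not_le] at hne
    refine hO fun a ha b hb y hy z hz a1 b1 y1 z1 => ?_
    obtain ⟨a', ha', da⟩ := hN.near a ha a1
    obtain ⟨b', hb', db⟩ := hN.near b hb b1
    obtain ⟨y', hy', dy⟩ := hN.near y hy y1
    obtain ⟨z', hz', dz⟩ := hN.near z hz z1
    have h2 := hne ((a', b'), (y', z'))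
      (by simp only [Finset.mem_product]; exact ⟨⟨ha', hb'⟩, hy', hz'⟩)
    have k : ∀ {u v : Vec n}, nv (u - v) ≤ e → nv (O.1ᵀ *ᵥ u - O.1ᵀ *ᵥ v) ≤ e := fun huv => by
      rw [← mulVec_sub, nv_tr]
      exact huv
    have h3 := dw_lip hx hn hl0 ((nv_tr O b).trans_le b1.le) ((nv_tr O y).trans_le y1.le)
      ((nv_tr O z).trans_le z1.le) ((nv_tr O a').trans_le (hN.eq_one _ ha').le)
      ((nv_tr O b').trans_le (hN.eq_one _ hb').le) ((nv_tr O y').trans_le (hN.eq_one _ hy').le)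
      (k da) (k db) (k dy) (k dz)
    have h4 := abs_sub_abs_le_abs_sub (dw x l (O.1ᵀ *ᵥ a) (O.1ᵀ *ᵥ b) (O.1ᵀ *ᵥ y) (O.1ᵀ *ᵥ z))
      (dw x l (O.1ᵀ *ᵥ a') (O.1ᵀ *ᵥ b') (O.1ᵀ *ᵥ y') (O.1ᵀ *ᵥ z'))
    have e1 : (d + 4 * e * (n * l ^ 2 + 5) + 7 / n) / n =
        (d + 7 / n) / n + 4 * (l ^ 2 + 5 / n) * e := by field_simp; ring
    simp only at h2
    linarith
  · have h2 : (((N ×ˢ N) ×ˢ (N ×ˢ N)).card : ℝ) ≤ exp (4 * finrank ℝ W * log (1 + 2 / e)) := by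
      rw [show 4 * (finrank ℝ W : ℝ) * log (1 + 2 / e) =
        (4 : ℕ) * ((finrank ℝ W : ℕ) * log (1 + 2 / e)) by push_cast; ring, exp_nat_mul,
        exp_nat_mul, exp_log (by positivity)]
      simp only [Finset.card_product, Nat.cast_mul]
      refine le_trans (le_of_eq (by ring)) (pow_le_pow_left₀ (Nat.cast_nonneg _) hc 4)
    refine (mul_le_mul_of_nonneg_right h2 (by positivity)).trans (le_of_eq ?_)
    rw [sub_eq_add_neg, exp_add]
    ring

/-- **Wick lemma** in site form -/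
theorem wick_ok (T : Finset (Fin n)) {e d : ℝ} (he : 0 < e) (hd : 0 ≤ d) :
    μ.real {O | ¬ T2B.WickOK (O.1ᵀ * Rip.res T * O.1) x l
      (d + 4 * e * (n * l ^ 2 + 5) + 7 / n)} ≤
      2 * exp (4 * T.card * log (1 + 2 / e) - n * d ^ 2 / (8192 * (n * l ^ 2 + 5) ^ 2)) := by
  have n0 : (0 : ℝ) < n := by exact_mod_cast (by omega : 0 < n)
  have h1 := wick_sub hx hn hl0 hl h (Rip.supp T) he hd
  rw [Rip.finrank_supp] at h1
  refine (Tail.real_imp_le _ fun O hO h2 => hO fun a b y z ha hb hy hz a1 b1 y1 z1 => ?_).trans h1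
  have k : ∀ {u : Vec n}, (O.1ᵀ * Rip.res T * O.1) *ᵥ u = u → O.1 *ᵥ u ∈ Rip.supp T :=
    fun {u} hu i hi => by
      rw [← hu, ← mulVec_mulVec, ← mulVec_mulVec, OG.mulVec_tr_mulVec, Rip.res_mulVec, if_neg hi]
  have h3 := h2 _ (k ha) _ (k hb) _ (k hy) _ (k hz) ((nv_orth O a).trans a1)
    ((nv_orth O b).trans b1) ((nv_orth O y).trans y1) ((nv_orth O z).trans z1)
  simp only [OG.tr_mulVec_mulVec, dw, s4, wk] at h3
  have h4 : |2 * (ip x a * ip x b * ip x y * ip x z) / n ^ 3| ≤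
      3 * (|ip x a| * |ip x b| * |ip x y| * |ip x z|) / n ^ 2 / n := by
    rw [abs_div, abs_mul, abs_mul, abs_mul, abs_mul, abs_two, abs_of_pos (pow_pos n0 3), div_div,
      ← pow_succ]
    gcongr
    norm_num
  have h5 := abs_le.1 h3
  have h6 := abs_le.1 h4
  rw [add_div (d + 4 * e * (n * l ^ 2 + 5) + 7 / n)]
  exact abs_le.2 ⟨by linarith, by linarith⟩

end Sign

theorem wickOK_mono {Ps : Mat n} {x : Vec n} {l e e' : ℝ} (h : T2B.WickOK Ps x l e)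
    (he : e ≤ e') : T2B.WickOK Ps x l e' := fun a b y z ha hb hy hz a1 b1 y1 z1 =>
  (h a b y z ha hb hy hz a1 b1 y1 z1).trans (by gcongr)

end Vale.Agent.N150.T2W
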