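import Vale.Agent.N150.SymPZ
import Vale.Agent.N150.Comp
import Vale.Agent.N150.Tail3

/-! P150, block T2, Wick lemma: exact fourth moments on the fibre of a sign vector. -/

open Matrix MeasureTheory Real

namespace Vale.Agent.N150.T2W

open Vale.Agent.P150 Vale.Agent.P150.F Vale.Agent.N150.Fib

variable {n : ℕ}

/-- the quartic sum -/
def s4 (a b y z : Vec n) : ℝ := ∑ i, a i * b i * y i * z i

/-- the Wick sum -/
def wk (a b y z : Vec n) : ℝ := ip a b * ip y z + ip a y * ip b z + ip a z * ip b y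

/-- polarisation -/
def pl (f : Vec n → ℝ) (a b y z : Vec n) : ℝ :=
  f (a + b + y + z) - f (a + b + y - z) - f (a + b - y + z) + f (a + b - y - z) -
    f (a - b + y + z) + f (a - b + y - z) + f (a - b - y + z) - f (a - b - y - z)

theorem pl_s4 (A : Mat n) (a b y z : Vec n) :
    pl (fun v => ∑ i, (A *ᵥ v) i ^ 4) a b y z = 192 * s4 (A *ᵥ a) (A *ᵥ b) (A *ᵥ y) (A *ᵥ z) := by
  simp only [pl, s4, mulVec_add, mulVec_sub, Pi.add_apply, Pi.sub_apply, Finset.mul_sum,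
    ← Finset.sum_sub_distrib, ← Finset.sum_add_distrib]
  exact Finset.sum_congr rfl fun i _ => by ring

theorem pl_lin (x a b y z : Vec n) :
    pl (fun v => ip x v ^ 4) a b y z = 192 * (ip x a * ip x b * ip x y * ip x z) := by
  simp only [pl, ip_add_right, ip_sub_right]
  ring

theorem pl_quad (A : Mat n) (a b y z : Vec n) :
    pl (fun v => ip (A *ᵥ v) (A *ᵥ v) ^ 2) a b y z =
      64 * wk (A *ᵥ a) (A *ᵥ b) (A *ᵥ y) (A *ᵥ z) := by
  simp only [pl, wk, mulVec_add, mulVec_sub, ip_add_right, ip_sub_right, ip_add_left, ip_sub_left,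
    ipN_comm (A *ᵥ b) (A *ᵥ a), ipN_comm (A *ᵥ y) (A *ᵥ a), ipN_comm (A *ᵥ z) (A *ᵥ a),
    ipN_comm (A *ᵥ y) (A *ᵥ b), ipN_comm (A *ᵥ z) (A *ᵥ b), ipN_comm (A *ᵥ z) (A *ᵥ y)]
  ring

theorem int_pl (ν : Measure (OG n)) [IsProbabilityMeasure ν] {g : OG n → Vec n → ℝ}
    (hg : ∀ v, Continuous fun U => g U v) (a b y z : Vec n) :
    ∫ U, pl (g U) a b y z ∂ν = pl (fun v => ∫ U, g U v ∂ν) a b y z := by
  unfold pl
  rw [integral_sub, integral_add, integral_add, integral_sub, integral_add, integral_sub,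
    integral_sub]
  all_goals exact integrable_of_continuous (by fun_prop) ν

theorem cont_mv (v : Vec n) (i : Fin n) : Continuous fun U : OG n => (U.1 *ᵥ v) i :=
  (continuous_apply i).comp (continuous_val.matrix_mulVec continuous_const)

theorem cont_dot (e w : Vec n) : Continuous fun U : OG n => e ⬝ᵥ (U.1 *ᵥ w) :=
  continuous_const.dotProduct (continuous_val.matrix_mulVec continuous_const)

section Mom

variable {P : Mat n} (hP : IsProj P) {w : Vec n} (hw : P *ᵥ w = w)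
include hP hw

theorem mom_odd (h1 : 1 < P.trace) (e : Vec n) {k : ℕ} (hk : Odd k) :
    ∫ U, (e ⬝ᵥ (U.1 *ᵥ w)) ^ k ∂haarP P = 0 := by
  obtain ⟨R, hR, hRw⟩ := (Rip.trans_SG hP h1).ex w (-w) hw (by rw [mulVec_neg, hw])
    (by simp [F.sq])
  have h := (invOn_haarP P).int_right hR fun U => (e ⬝ᵥ (U.1 *ᵥ w)) ^ k
  simp only [OG.coe_mul, ← mulVec_mulVec, hRw, mulVec_neg, dotProduct_neg, hk.neg_pow,
    integral_neg] at h
  linarith

theorem mom_even {e : Vec n} (he : P *ᵥ e = e) :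
    P.trace * ∫ U, (e ⬝ᵥ (U.1 *ᵥ w)) ^ 2 ∂haarP P = (e ⬝ᵥ e) * (w ⬝ᵥ w) ∧
    P.trace * (P.trace + 2) * ∫ U, (e ⬝ᵥ (U.1 *ᵥ w)) ^ 4 ∂haarP P =
      3 * (e ⬝ᵥ e) ^ 2 * (w ⬝ᵥ w) ^ 2 := by
  by_cases h0 : e = 0
  · simp [h0]
  have hp := Rip.nv_pos h0
  have e2 : e ⬝ᵥ e = nv e ^ 2 := by rw [nv_sq, Rip.sq_dot]
  obtain ⟨m2, m4⟩ := Wd.moments hP.symm hP.idem (a := (nv e)⁻¹ • e) (w := w)
    (by rw [mulVec_smul, he]) (by rw [← Rip.sq_dot, ← nv_sq, Rip.nv_normalize h0, one_pow]) hw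
  simp only [smul_dotProduct, smul_eq_mul, mul_pow, integral_const_mul] at m2 m4
  rw [e2]
  field_simp at m2 m4
  constructor
  · linarith
  · linear_combination P.trace * m4 + 3 * (w ⬝ᵥ w) * nv e ^ 2 * m2

end Mom

/-- tail of one coordinate -/
theorem coord_tail {P : Mat n} (hP : IsProj P) (h1 : 1 < P.trace) {u : Vec n} (hPu : P *ᵥ u = u)
    (hu : F.sq u ≤ 1) (i : Fin n) {t : ℝ} (ht : 0 ≤ t) :
    (haarP P).real {U | t < (U.1 *ᵥ u) i ^ 2} ≤ exp (1 - P.trace * t / 6) := by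
  by_cases h0 : u = 0
  · have : {U : OG n | t < (U.1 *ᵥ u) i ^ 2} = ∅ :=
      Set.eq_empty_of_forall_notMem fun U hU => by simp [h0, ht.not_gt] at hU
    rw [this, measureReal_empty]
    exact (exp_pos _).le
  have h2 := Rip.fib_cone (invOn_haarP P) hP (Rip.trans_SG hP h1)
    (C := {ξ | t * F.sq ξ < ξ i ^ 2})
    (measurableSet_lt (measurable_sq.const_mul _) ((measurable_pi_apply i).pow_const 2))
    (fun c hc v => by
      simp only [Set.mem_ofPred_eq, Pi.smul_apply, smul_eq_mul]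
      rw [Rip.sq_smul, mul_left_comm, mul_pow]
      exact mul_lt_mul_iff_right₀ (pow_pos hc 2)) hPu h0
  set w : Vec n := P *ᵥ Pi.single i 1 with hw
  have h3 := Tail.cone_proj hP.symm hP.idem (isProj_pj w).symm (isProj_pj w).idem
    (hP.mul_pj _) ht
  refine le_trans (Tail.real_imp_le _ fun U hU => ?_) (((congrArg ENNReal.toReal h2).le.trans
    ((Tail.real_imp_le _ fun g hg => ?_).trans h3)).trans
      (exp_le_exp.2 (by linarith [trace_pj_le w])))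
  · simp only [Set.mem_ofPred_eq]
    rw [Rip.sq_orth]
    exact (mul_le_of_le_one_right ht hu).trans_lt hU
  · simp only [Set.mem_ofPred_eq] at hg
    refine hg.trans_le ?_
    have e1 : (P *ᵥ g) i = w ⬝ᵥ g := by rw [hw, hP.dot, single_one_dotProduct]
    have e2 : F.sq w ≤ 1 := (hP.sq_le _).trans (by simp [F.sq, Pi.single_apply])
    have e3 : w ⬝ᵥ g = w ⬝ᵥ (pj w *ᵥ g) := by rw [← (isProj_pj w).dot, pj_mulVec_self]
    have e4 := abs_ip_le w (pj w *ᵥ g)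
    have e5 := pow_le_pow_left₀ (abs_nonneg _) e4 2
    rw [sq_abs, mul_pow, nv_sq, nv_sq] at e5
    rw [e1, e3]
    exact e5.trans (mul_le_of_le_one_left (sqN_nonneg _) e2)

section Sign

variable {x : Vec n} (hx : ∀ i, x i ^ 2 = 1) (hn : 4 ≤ n)
include hx

theorem sq_x : F.sq x = n := by
  unfold F.sq
  simp [hx]

theorem rm_mulVec (v : Vec n) : rm 1 x *ᵥ v = v - (ip x v / n) • x := by
  unfold rm
  rw [sub_mulVec, one_mulVec, one_mulVec, pj_mulVec, sq_x hx]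
  rfl

theorem abs_ip_x {v : Vec n} : |ip x v| ≤ √n * nv v := by
  have h := abs_ip_le x v
  rwa [nv_eq_sqrt x, sq_x hx] at h

theorem decomp {U : OG n} (hU : U ∈ HG (rm 1 x)) (z : Vec n) (i : Fin n) :
    (U.1 *ᵥ z) i = ip x z / n * x i + (U.1 *ᵥ (rm 1 x *ᵥ z)) i := by
  rw [rm_mulVec hx, mulVec_sub, mulVec_smul, HG_mulVec hU (isProj_one.rm_mulVec_self x)]
  simp

include hn

theorem trace_rm : (rm 1 x).trace = n - 1 := by
  have h0 : x ≠ 0 := fun h => by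
    have := hx ⟨0, by omega⟩
    simp [h] at this
  unfold rm
  rw [trace_sub, one_mulVec, trace_pj h0, trace_one, Fintype.card_fin]

theorem mean4_coord (z : Vec n) (i : Fin n) :
    ∫ U, (U.1 *ᵥ z) i ^ 4 ∂haarP (rm 1 x) = (ip x z / n) ^ 4 +
      6 * (ip x z / n) ^ 2 * ip (rm 1 x *ᵥ z) (rm 1 x *ᵥ z) / n +
      3 * ip (rm 1 x *ᵥ z) (rm 1 x *ᵥ z) ^ 2 * (n - 1) / (n ^ 2 * (n + 1)) := by
  have hP : IsProj (rm 1 x) := isProj_one.rm x
  have n4 : (4 : ℝ) ≤ n := by exact_mod_cast hn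
  have ht := trace_rm hx hn
  have h1 : 1 < (rm 1 x).trace := by linarith
  set w := rm 1 x *ᵥ z with hw
  set e : Vec n := rm 1 x *ᵥ Pi.single i 1 with he
  have hw' : rm 1 x *ᵥ w = w := hP.mulVec_mulVec z
  have ee : e ⬝ᵥ e = 1 - 1 / n := by
    rw [he, hP.dot, hP.mulVec_mulVec, single_one_dotProduct, rm_mulVec hx]
    have : ip x (Pi.single i 1) = x i := dotProduct_single_one x i
    simp only [Pi.sub_apply, Pi.smul_apply, smul_eq_mul, Pi.single_eq_same, this]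
    rw [div_mul_eq_mul_div, ← pow_two, hx]
  obtain ⟨m2, m4⟩ := mom_even hP hw' (e := e) (hP.mulVec_mulVec _)
  have m1 := mom_odd hP hw' h1 e (k := 1) odd_one
  have m3 := mom_odd hP hw' h1 e (k := 3) (by decide)
  set p := ip x z / n with hp
  have hc := cont_dot e w
  rw [integral_congr_ae (g := fun U => p ^ 4 + 4 * p ^ 3 * x i * (e ⬝ᵥ (U.1 *ᵥ w)) ^ 1 +
      6 * p ^ 2 * (e ⬝ᵥ (U.1 *ᵥ w)) ^ 2 + 4 * p * x i * (e ⬝ᵥ (U.1 *ᵥ w)) ^ 3 +
      (e ⬝ᵥ (U.1 *ᵥ w)) ^ 4), integral_add, integral_add, integral_add, integral_add,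
    integral_const_mul, integral_const_mul, integral_const_mul, m1, m3]
  · rw [ht, ee] at m2 m4
    have n1 : (n : ℝ) - 1 ≠ 0 := by linarith
    have n0 : (n : ℝ) ≠ 0 := by linarith
    have n2 : (n : ℝ) + 1 ≠ 0 := by linarith
    have k2 : ∫ U, (e ⬝ᵥ (U.1 *ᵥ w)) ^ 2 ∂haarP (rm 1 x) = ip w w / n := by
      refine mul_left_cancel₀ n1 (m2.trans ?_)
      rw [Rip.ip_dot]
      field_simp
    have k4 : ∫ U, (e ⬝ᵥ (U.1 *ᵥ w)) ^ 4 ∂haarP (rm 1 x) =
        3 * ip w w ^ 2 * (n - 1) / (n ^ 2 * (n + 1)) := by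
      refine mul_left_cancel₀ (mul_ne_zero n1 n2) ?_
      rw [show (n : ℝ) - 1 + 2 = n + 1 by ring] at m4
      rw [m4, Rip.ip_dot]
      field_simp
    rw [k2, k4]
    simp only [integral_const, probReal_univ, smul_eq_mul, one_mul]
    ring
  any_goals exact integrable_of_continuous (by fun_prop) _
  · filter_upwards [(invOn_haarP (rm 1 x)).ae] with U hU
    have e1 : (U.1 *ᵥ w) i = e ⬝ᵥ (U.1 *ᵥ w) := by
      rw [he, hP.dot, ← Rip.proj_HG hP hU.1, hw', single_one_dotProduct]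
    rw [decomp hx hU.1, ← hw, ← hp, e1]
    have h2 := hx i
    set ξ := e ⬝ᵥ (U.1 *ᵥ w)
    linear_combination (p ^ 4 * (x i ^ 2 + 1) + 4 * p ^ 3 * x i * ξ + 6 * p ^ 2 * ξ ^ 2) * h2

theorem mean4 (z : Vec n) :
    ∫ U, ∑ i, (U.1 *ᵥ z) i ^ 4 ∂haarP (rm 1 x) =
      3 / n * ip ((1 : Mat n) *ᵥ z) ((1 : Mat n) *ᵥ z) ^ 2 - 2 / n ^ 3 * ip x z ^ 4 -
        6 / (n * (n + 1)) * ip (rm 1 x *ᵥ z) (rm 1 x *ᵥ z) ^ 2 := by
  have n4 : (4 : ℝ) ≤ n := by exact_mod_cast hn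
  have n0 : (n : ℝ) ≠ 0 := by linarith
  have n2 : (n : ℝ) + 1 ≠ 0 := by linarith
  rw [integral_finsetSum (f := fun i (U : OG n) => (U.1 *ᵥ z) i ^ 4) _
    fun i _ => integrable_of_continuous ((cont_mv z i).pow 4) _]
  simp only [mean4_coord hx hn, Finset.sum_const, Finset.card_univ, Fintype.card_fin, nsmul_eq_mul,
    one_mulVec]
  have e : ip z z = ip (rm 1 x *ᵥ z) (rm 1 x *ᵥ z) + ip x z ^ 2 / n := by
    rw [rm_mulVec hx]
    simp only [ip_sub_left, ip_sub_right, ip_smul_left, ip_smul_right, ipN_comm z x]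
    rw [ipN_self x, sq_x hx]
    field_simp
    ring
  rw [e]
  field_simp
  ring

/-- the exact mean of the quartic sum -/
theorem mean_s4 (a b y z : Vec n) :
    ∫ U, s4 (U.1 *ᵥ a) (U.1 *ᵥ b) (U.1 *ᵥ y) (U.1 *ᵥ z) ∂haarP (rm 1 x) =
      wk a b y z / n - 2 * (ip x a * ip x b * ip x y * ip x z) / n ^ 3 -
        2 * wk (rm 1 x *ᵥ a) (rm 1 x *ᵥ b) (rm 1 x *ᵥ y) (rm 1 x *ᵥ z) / (n * (n + 1)) := by
  have h := int_pl (haarP (rm 1 x)) (g := fun U v => ∑ i, (U.1 *ᵥ v) i ^ 4)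
    (fun v => continuous_finsetSum _ fun i _ => (cont_mv v i).pow 4) a b y z
  simp only [pl_s4, integral_const_mul, mean4 hx hn] at h
  have h1 := pl_quad 1 a b y z
  have h2 := pl_lin x a b y z
  have h3 := pl_quad (rm 1 x) a b y z
  simp only [one_mulVec] at h h1
  unfold pl at h h1 h2 h3
  linear_combination h / 192 + 3 / n / 192 * h1 - 2 / n ^ 3 / 192 * h2 -
    6 / (n * (n + 1)) / 192 * h3

end Sign

end Vale.Agent.N150.T2W
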