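import Vale.Agent.N150.T2W

/-! P150, block T2, Wick lemma: the form with powers of the unit `t`. -/

open Matrix MeasureTheory Real

namespace Vale.Agent.N150.T2W

open Vale.Agent.P150 Vale.Agent.P150.F Vale.Agent.N150.Fib Vale.Agent.N150.T1

variable {n : ℕ}

theorem wick_t {L t : ℝ} (hs : Sm L t) {a g b c : ℕ} (hb : a + 2 ≤ b) (hc : 2 * a + 2 * g + 5 ≤ c)
    (hA : a + g + 4 ≤ 10 ^ 30) {x : Vec n} (hx : ∀ i, x i ^ 2 = 1) {μ : Measure (OG n)}
    [IsProbabilityMeasure μ] (h : Explo μ fun _ => rm 1 x) (big : 1 ≤ n * t ^ b)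
    {T : Finset (Fin n)} (hT : (T.card : ℝ) ≤ n * t ^ c) {l : ℝ} (hl0 : 0 < l)
    (hl : 48 * (log n + 1) ≤ n * l ^ 2) (hu : n * l ^ 2 ≤ t⁻¹ ^ g) :
    μ.real {O | ¬ T2B.WickOK (O.1ᵀ * Rip.res T * O.1) x l (t ^ a)} ≤
      2 * exp (-(n * t ^ (2 * a + 2 * g + 4))) := by
  have t0 := hs.pos
  have n0' : (0 : ℝ) ≤ n := Nat.cast_nonneg n
  have k7 : 7 * t ^ b ≤ t ^ (a + 1) := hs.cp (by norm_num) (by omega)
  have n4 : (4 : ℝ) ≤ n := by
    have h1 := mul_le_mul_of_nonneg_left (k7.trans (hs.p1 _)) n0'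
    linarith
  have n0 : (0 : ℝ) < n := by linarith
  have h1 := wick_ok hx (by exact_mod_cast n4) hl0 hl h T (hs.p0 (a + g + 2)) (hs.p0 (a + 1)).le
  have k6 : n * l ^ 2 + 5 ≤ 6 * t⁻¹ ^ g := by linarith [hs.i1 g]
  have ti : ∀ j : ℕ, t ^ j * t⁻¹ ^ j = 1 := fun j => by rw [← mul_pow, mul_inv_cancel₀ t0.ne', one_pow]
  refine (Tail.real_imp_le _ fun O hO h2 => hO (wickOK_mono h2 ?_)).trans
    (h1.trans (mul_le_mul_of_nonneg_left (exp_le_exp.2 ?_) zero_le_two))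
  swap
  · have e1 : 4 * t ^ (a + g + 2) * (n * l ^ 2 + 5) ≤ t ^ (a + 1) := by
      refine (mul_le_mul_of_nonneg_left k6 (by positivity)).trans
        (le_trans (le_of_eq ?_) (hs.cp (C := 24) (a := a + 2) (by norm_num) (by omega)))
      linear_combination 24 * t ^ (a + 2) * ti g
    have e2 : 7 / (n : ℝ) ≤ t ^ (a + 1) := by
      rw [div_le_iff₀ n0]
      have := mul_le_mul_of_nonneg_left k7 n0'
      linarith
    have e3 := hs.cp (C := 3) (a := a + 1) (b := a) (by norm_num) (by omega)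
    linarith
  · have e1 : log (1 + 2 / t ^ (a + g + 2)) ≤ (a + g + 3 : ℕ) * log t⁻¹ := by
      rw [← log_pow]
      refine log_le_log (by positivity) ?_
      have e2 := hs.i1 (a + g + 2)
      have e3 := mul_le_mul_of_nonneg_left (hs.c_inv (C := 3) (by norm_num)) (hs.i0 (a + g + 2)).le
      rw [div_eq_mul_inv, ← inv_pow, pow_succ t⁻¹ (a + g + 2)]
      linarith
    have e2 : 4 * ((a + g + 3 : ℕ) * log t⁻¹) * t ≤ 1 := by
      have e3 : ((a + g + 3 : ℕ) : ℝ) ≤ 10 ^ 30 := by exact_mod_cast (by omega : a + g + 3 ≤ 10 ^ 30)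
      refine le_trans (mul_le_mul_of_nonneg_right ?_ t0.le)
        (hs.clog (C := 4 * 10 ^ 30) (a := 0) (b := 1) (by norm_num) (by norm_num) (by norm_num))
      have := hs.log0
      have := mul_le_mul_of_nonneg_right e3 hs.log0
      rw [pow_zero, pow_one]
      linarith
    have e3 : 4 * T.card * log (1 + 2 / t ^ (a + g + 2)) ≤ n * t ^ (2 * a + 2 * g + 4) := by
      have e4 := hs.ab e2 (a := c) (b := 2 * a + 2 * g + 4) (by omega)
      have e5 : 0 ≤ log (1 + 2 / t ^ (a + g + 2)) :=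
        log_nonneg (le_add_of_nonneg_right (by positivity))
      calc 4 * T.card * log (1 + 2 / t ^ (a + g + 2))
          ≤ 4 * (n * t ^ c) * ((a + g + 3 : ℕ) * log t⁻¹) := by gcongr
        _ = n * (4 * ((a + g + 3 : ℕ) * log t⁻¹) * t ^ c) := by ring
        _ ≤ _ := mul_le_mul_of_nonneg_left e4 n0'
    have e4 : 2 * (n * t ^ (2 * a + 2 * g + 4)) ≤
        n * (t ^ (a + 1)) ^ 2 / (8192 * (n * l ^ 2 + 5) ^ 2) := by
      rw [le_div_iff₀ (by positivity)]
      have e5 := hs.cp (C := 2 * 8192 * 36) (a := 2 * a + 4) (b := 2 * a + 2) (by norm_num)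
        (by omega)
      calc 2 * (n * t ^ (2 * a + 2 * g + 4)) * (8192 * (n * l ^ 2 + 5) ^ 2)
          ≤ 2 * (n * t ^ (2 * a + 2 * g + 4)) * (8192 * (6 * t⁻¹ ^ g) ^ 2) := by gcongr
        _ = n * (2 * 8192 * 36 * t ^ (2 * a + 4)) * (t ^ g * t⁻¹ ^ g) ^ 2 := by ring
        _ ≤ n * t ^ (2 * a + 2) := by
          rw [ti, one_pow, mul_one]
          exact mul_le_mul_of_nonneg_left e5 n0'
        _ = _ := by ring
    linarith

end Vale.Agent.N150.T2W
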