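import Vale.Agent.N150.Ward
import Vale.Agent.N150.Fib2
import Vale.Agent.N150.Rip

/-! Block T2, probabilistic shell: from bounds on typical fibres to a global bound, and nets. -/

open MeasureTheory Matrix Set

namespace Vale.Agent.N150.T2X

open Vale.Agent.P150 Vale.Agent.P150.F Vale.Agent.N150.Fib Vale.Agent.N150.Wd

variable {n : ℕ}

/-- the uniform law on the fibre `O * SG P` -/
noncomputable def fm (P : Mat n) (O : OG n) : Measure (OG n) := (haarP P).map fun U => O * U

instance (P : Mat n) (O : OG n) : IsProbabilityMeasure (fm P O) :=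
  haveI := (invOn_haarP P).prob
  Measure.isProbabilityMeasure_map (measurable_const_mul O).aemeasurable

/-- a fibre through `O` with a good set `G` of mass at least `1 - d` -/
structure Fb (P : Mat n) (O : OG n) (ν : Measure (OG n)) (G : Set (OG n)) (c d : ℝ) : Prop where
  proj : IsProj P
  ri : RI P ν
  conc : Conc ν c
  meas : MeasurableSet G
  small : ν.real Gᶜ ≤ d
  mem : ∀ V ∈ G, ∃ U ∈ SG P, V = O * U

namespace Fb

variable {P : Mat n} {O : OG n} {ν : Measure (OG n)} {G : Set (OG n)} {c d : ℝ}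

/-- two points of the good set differ by a rotation of the unexplored space -/
theorem rel (h : Fb P O ν G c d) {V W : OG n} (hV : V ∈ G) (hW : W ∈ G) :
    ∃ R ∈ SG P, W = V * R := by
  obtain ⟨U, hU, rfl⟩ := h.mem V hV
  obtain ⟨U', hU', rfl⟩ := h.mem W hW
  exact ⟨U⁻¹ * U', (SG P).mul_mem ((SG P).inv_mem hU) hU', by group⟩

theorem inv_mul_mem (h : Fb P O ν G c d) {V W : OG n} (hV : V ∈ G) (hW : W ∈ G) :
    V⁻¹ * W ∈ SG P := by
  obtain ⟨R, hR, rfl⟩ := h.rel hV hW
  rwa [inv_mul_cancel_left]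

/-- adapted data are constant on the good set -/
theorem adapted {α : Sort*} {Pi : OG n → Mat n} {D : OG n → α} (h : Fb (Pi O) O ν G c d)
    (hD : Adapted Pi D) {V : OG n} (hV : V ∈ G) : D V = D O := by
  obtain ⟨U, hU, rfl⟩ := h.mem V hV
  exact hD O U (SG_le_HG hU)

/-- removing a further measurable set of small mass -/
theorem inter [IsFiniteMeasure ν] (h : Fb P O ν G c d) {A : Set (OG n)} (hA : MeasurableSet A)
    {q : ℝ} (hq : ν.real {V | V ∈ G ∧ V ∉ A} ≤ q) : Fb P O ν (G ∩ A) c (d + q) := by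
  refine ⟨h.proj, h.ri, h.conc, h.meas.inter hA, ?_, fun V hV => h.mem V hV.1⟩
  refine le_trans (measureReal_mono (s₂ := Gᶜ ∪ {V | V ∈ G ∧ V ∉ A}) fun V hV => ?_)
    ((measureReal_union_le _ _).trans (add_le_add h.small hq))
  by_cases hG : V ∈ G
  · exact Or.inr ⟨hG, fun hA => hV ⟨hG, hA⟩⟩
  · exact Or.inl hG

/-- removing an arbitrary set of small outer measure -/
theorem remove [IsFiniteMeasure ν] (h : Fb P O ν G c d) (A : Set (OG n)) {q : ℝ}
    (hq : ν.real A ≤ q) :
    ∃ G' ⊆ G, Fb P O ν G' c (d + q) ∧ (∀ V ∈ G', V ∉ A) ∧ ν.real (G \ G') ≤ q := by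
  have e : ν.real (toMeasurable ν A) ≤ q := by
    rwa [measureReal_def, measure_toMeasurable]
  refine ⟨G ∩ (toMeasurable ν A)ᶜ, inter_subset_left,
    h.inter (measurableSet_toMeasurable ν A).compl
      (le_trans (measureReal_mono fun V hV => not_not.1 hV.2) e),
    fun V hV hA => hV.2 (subset_toMeasurable ν A hA),
    le_trans (measureReal_mono fun V hV => ?_) e⟩
  by_contra hc
  exact hV.2 ⟨hV.1, hc⟩

theorem mono (h : Fb P O ν G c d) {c' d' : ℝ} (hc : c' ≤ c) (hd : d ≤ d') : Fb P O ν G c' d' :=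
  ⟨h.proj, h.ri, h.conc.mono hc, h.meas, h.small.trans hd, h.mem⟩

theorem mass [IsProbabilityMeasure ν] (h : Fb P O ν G c d) : 1 - d ≤ ν.real G := by
  have h1 := probReal_add_probReal_compl (μ := ν) h.meas
  linarith [h.small]

theorem nonempty [IsProbabilityMeasure ν] (h : Fb P O ν G c d) (hd : d < 1) : G.Nonempty := by
  rcases G.eq_empty_or_nonempty with rfl | h'
  · have := h.mass
    simp only [measureReal_empty] at this
    linarith
  · exact h'

end Fb

theorem measurableSet_fibre (P : Mat n) (O : OG n) : MeasurableSet {V : OG n | O⁻¹ * V ∈ SG P} :=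
  measurable_const_mul O⁻¹ (isClosed_SG P).measurableSet

theorem fm_real (P : Mat n) (O : OG n) {B : Set (OG n)} (hB : MeasurableSet B) :
    (fm P O).real B = (haarP P).real {U | O * U ∈ B} :=
  map_measureReal_apply (measurable_const_mul O) hB

/-- the fibre through `O` outside a measurable set `H` -/
theorem fb_fm {P : Mat n} (hP : IsProj P) (h2 : 2 < P.trace) (O : OG n) {H : Set (OG n)}
    (hH : MeasurableSet H) {d : ℝ} (hd : (haarP P).real {U | O * U ∈ H} ≤ d) :
    Fb P O (fm P O) (Hᶜ ∩ {V | O⁻¹ * V ∈ SG P}) ((P.trace - 2) / 128) d := by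
  have hm := hH.compl.inter (measurableSet_fibre P O)
  refine ⟨hP, (RI.haarP P).coset O, (conc_haarP hP.symm hP.idem h2).map_mul_left O, hm, ?_,
    fun V hV => ⟨_, hV.2, by rw [mul_inv_cancel_left]⟩⟩
  rw [fm_real P O hm.compl]
  refine le_trans (le_of_eq (measureReal_congr ?_)) hd
  filter_upwards [(invOn_haarP P).ae] with U hU
  have e : O⁻¹ * (O * U) ∈ SG P := by rwa [inv_mul_cancel_left]
  refine propext ⟨fun h => ?_, fun h h' => h'.1 h⟩
  by_contra hc
  exact h ⟨hc, e⟩

/-- **shell**: a bound on every typical fibre gives a global bound; the bad set is arbitrary -/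
theorem shell' {μ : Measure (OG n)} [IsProbabilityMeasure μ] {Pi : OG n → Mat n} (h : Explo μ Pi)
    (Bad : Set (OG n)) {B : Set (OG n)} (hB : MeasurableSet B) {p q c d : ℝ}
    (hp : μ.real Bad ≤ p) (hd : 0 < d) (hq : 0 ≤ q) (hc0 : 0 < c)
    (hc : ∀ O, 128 * c + 2 ≤ (Pi O).trace)
    (hf : ∀ (O : OG n) (G : Set (OG n)), Fb (Pi O) O (fm (Pi O) O) G c d → (∀ V ∈ G, V ∉ Bad) →
      (fm (Pi O) O).real {V | V ∈ G ∧ V ∈ B} ≤ q) :
    μ.real B ≤ p + p / d + q := by
  set H := toMeasurable μ Bad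
  have hH : MeasurableSet H := measurableSet_toMeasurable μ Bad
  have e : μ.real H ≤ p := by rwa [measureReal_def, measure_toMeasurable]
  have h1 := (h.markov_real famP hH hd).trans (div_le_div_of_nonneg_right e hd.le)
  have h2 := h.real_le_add famP (A := {O | d ≤ (haarP (Pi O)).real {U | O * U ∈ H}})
    (hB.diff hH) hq fun O hO => by
      have hF := (fb_fm (h.proj O) (by linarith [hc O]) O hH (not_le.1 hO).le).mono (c' := c)
        (by linarith [hc O]) le_rfl
      have h3 := hf O _ hF fun V hV hb => hV.1 (subset_toMeasurable μ Bad hb)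
      rw [fm_real _ _ (B := {V | V ∈ Hᶜ ∩ {V | O⁻¹ * V ∈ SG (Pi O)} ∧ V ∈ B})
        (hF.meas.inter hB)] at h3
      refine le_trans (le_of_eq (measureReal_congr ?_)) h3
      filter_upwards [(invOn_haarP (Pi O)).ae] with U hU
      have e : O⁻¹ * (O * U) ∈ SG (Pi O) := by rwa [inv_mul_cancel_left]
      exact propext ⟨fun h => ⟨⟨h.2, e⟩, h.1⟩, fun h => ⟨h.2, h.1.1⟩⟩
  have h4 : μ.real B ≤ μ.real H + μ.real (B \ H) :=
    le_trans (measureReal_mono fun V hV => by
      by_cases hv : V ∈ H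
      · exact Or.inl hv
      · exact Or.inr ⟨hV, hv⟩) (measureReal_union_le _ _)
  linarith

/-- the same for an abstract fibre law -/
theorem shell {μ : Measure (OG n)} [IsProbabilityMeasure μ] {Pi : OG n → Mat n} (h : Explo μ Pi)
    (Bad : Set (OG n)) {B : Set (OG n)} (hB : MeasurableSet B) {p q c d : ℝ}
    (hp : μ.real Bad ≤ p) (hd : 0 < d) (hq : 0 ≤ q) (hc0 : 0 < c)
    (hc : ∀ O, 128 * c + 2 ≤ (Pi O).trace)
    (hf : ∀ (O : OG n) (ν : Measure (OG n)) [IsProbabilityMeasure ν] (G : Set (OG n)),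
      Fb (Pi O) O ν G c d → (∀ V ∈ G, V ∉ Bad) → ν.real {V | V ∈ G ∧ V ∈ B} ≤ q) :
    μ.real B ≤ p + p / d + q :=
  shell' h Bad hB hp hd hq hc0 hc fun O G hF hG => hf O _ G hF hG

/-- the projection on a fixed set of frame modes, from bounds for each unit vector -/
theorem net_res {μ : Measure (OG n)} [IsFiniteMeasure μ] (T : Finset (Fin n)) (w : OG n → Vec n)
    {a p : ℝ} (ha : 0 ≤ a) (hp : 0 ≤ p)
    (h : ∀ u ∈ Rip.supp T, nv u = 1 → μ.real {O | a < ip (O.1ᵀ *ᵥ u) (w O)} ≤ p) :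
    μ.real {O | 2 * a < nv ((O.1ᵀ * Rip.res T * O.1) *ᵥ w O)} ≤ Real.exp (2 * T.card) * p := by
  have h1 := Rip.net_linear μ (Rip.supp T) (fun O => O.1 *ᵥ w O) ha hp fun u hu h1 => by
    refine le_trans (le_of_eq ?_) (h u hu h1)
    congr 1
    ext O
    simp only [mem_ofPred_eq]
    rw [Rip.ip_mulVec_tr O.1 u (w O), Rip.ip_dot, dotProduct_comm, ← Rip.ip_dot]
  rw [Rip.finrank_supp] at h1
  refine le_trans (measureReal_mono ?_) h1
  intro O hO hc
  set v := Rip.res T *ᵥ (O.1 *ᵥ w O) with hv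
  have hm : v ∈ Rip.supp T := fun i hi => by rw [hv, Rip.res_mulVec, if_neg hi]
  have e1 : nv ((O.1ᵀ * Rip.res T * O.1) *ᵥ w O) = nv v := by
    refine (sq_eq_sq₀ (nv_nonneg _) (nv_nonneg _)).1 ?_
    rw [Matrix.mul_assoc, ← mulVec_mulVec, ← mulVec_mulVec, nv_sq, nv_sq, sq_mulVec_orth]
    rw [transpose_transpose, OG.mul_transpose]
  have e2 : ip v (O.1 *ᵥ w O) = nv v ^ 2 := by
    rw [nv_sq, ip, F.sq]
    refine Finset.sum_congr rfl fun i _ => ?_
    rw [hv, Rip.res_mulVec]
    split_ifs <;> ring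
  have h2 := hc v hm
  simp only [mem_ofPred_eq] at hO
  rw [e2, abs_of_nonneg (sq_nonneg _)] at h2
  rw [e1] at hO
  nlinarith [nv_nonneg v]

end Vale.Agent.N150.T2X
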