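import Vale.Agent.N150.TG
import Vale.Agent.N150.Sim

/-! P150, block T1: the bundled Gaussian event and the coupling with a fixed bad set. -/

open MeasureTheory ProbabilityTheory Real Matrix Function
open scoped ENNReal
open Vale.Agent.P150 Vale.Agent.P150.F

namespace Vale.Agent.N150.TG

open Vale.Agent.N150.Tail

variable {n p : ℕ}

/-! ### the bundled event -/

/-- G1, G2, G3, G5, G6 at level `K` for the diagonal weights `Z a` and the vectors `c b` -/
structure GEv {α β : Type*} (x : Vec n) (Z : α → Vec n) (c : β → Vec n) (t K : ℝ)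
    (g : Fin p → Vec n) : Prop where
  gram : Gram 1 n (3 * √n * √K + 4 * K) (Fin.cons x g : Fin (p + 1) → Vec n)
  exc : ∀ j, exc t (g j) ≤ 4 * K + 6 * n * exp (-t / 4)
  gz : ∀ a, Gram (diagonal (Z a)) (∑ k, Z a k) (3 * nv (Z a) * √K + 4 * ‖Z a‖ * K) g
  nz : ∀ a j, nv (diagonal (Z a) *ᵥ g j) ≤ nv (Z a) + 2 * ‖Z a‖ * √K
  lin : ∀ b j, |ip (c b) (g j)| ≤ 2 * nv (c b) * √K

theorem gram_diag' {κ : Type*} [Fintype κ] [DecidableEq κ] (z : Vec n) {x : ℝ} (hx : 0 ≤ x) :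
    (gf κ n).real {g | ¬ Gram (diagonal z) (∑ k, z k) (3 * nv z * √x + 4 * ‖z‖ * x) g} ≤
      3 * Fintype.card κ ^ 2 * exp (-x) := by
  by_cases hz : z = 0
  · subst hz
    have : {g : κ → Vec n | ¬ Gram (diagonal (0 : Vec n)) (∑ k, (0 : Vec n) k)
        (3 * nv (0 : Vec n) * √x + 4 * ‖(0 : Vec n)‖ * x) g} = ∅ := by
      ext g
      simp [Gram, ip, nv_zero]
    rw [this, measureReal_empty]
    positivity
  · exact gram_diag (fun k => norm_le_pi_norm z k) (norm_pos_iff.2 hz) hx (Rip.nv_pos hz)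
      (nv_sq z).ge

theorem norm_diag' {κ : Type*} [Fintype κ] (z : Vec n) {x : ℝ} (hx : 0 ≤ x) :
    (gf κ n).real {g | ∃ j, nv z + 2 * ‖z‖ * √x < nv (diagonal z *ᵥ g j)} ≤
      Fintype.card κ * exp (-x) := by
  by_cases hz : z = 0
  · subst hz
    have : {g : κ → Vec n | ∃ j, nv (0 : Vec n) + 2 * ‖(0 : Vec n)‖ * √x <
        nv (diagonal (0 : Vec n) *ᵥ g j)} = ∅ := by
      ext g
      simp [nv_zero]
    rw [this, measureReal_empty]
    positivity
  · refine (real_imp_le _ fun g hg => ?_).trans (norm_diag (fun k => norm_le_pi_norm z k)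
      (norm_pos_iff.2 hz) hx (nv_nonneg z) (nv_sq z).ge)
    obtain ⟨j, hj⟩ := hg
    exact ⟨j, hj.le⟩

theorem gev_tail {α β : Type*} [Fintype α] [Fintype β] (hn : 0 < n) {x : Vec n} (hx : F.sq x = n)
    (Z : α → Vec n) (c : β → Vec n) (t : ℝ) {K : ℝ} (hK : 0 ≤ K) :
    (gf (Fin p) n).real {g | ¬ GEv x Z c t K g} ≤
      4 * (p + 1) ^ 2 * (1 + Fintype.card α + Fintype.card β) * exp (-K) := by
  have h1 := gram_cons (p := p) hn hx hK
  have h2 := exc_cols (n := n) (κ := Fin p) t K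
  have h3 := real_exists_le (gf (Fin p) n) Finset.univ _ _
    fun (a : α) _ => gram_diag' (κ := Fin p) (Z a) hK
  have h4 := real_exists_le (gf (Fin p) n) Finset.univ _ _
    fun (a : α) _ => norm_diag' (κ := Fin p) (Z a) hK
  have h5 := real_exists_le (gf (Fin p) n) Finset.univ _ _
    fun (b : β) _ => lin_cols (κ := Fin p) (fun _ => c b) hK
  simp only [Finset.sum_const, Finset.card_univ, Fintype.card_fin, nsmul_eq_mul] at h2 h3 h4 h5
  have h12 := (real_or_le _ fun g hg => hg).trans (add_le_add h1 h2)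
  have h34 := (real_or_le _ fun g hg => hg).trans (add_le_add h3 h4)
  have h345 := (real_or_le _ fun g hg => hg).trans (add_le_add h34 h5)
  refine (real_or_le _ fun g hg => ?_).trans ((add_le_add h12 h345).trans ?_)
  · by_contra hc
    simp only [not_or, not_not, not_exists, not_and, not_le, not_lt, Finset.mem_univ,
      true_implies] at hc
    obtain ⟨⟨c1, c2⟩, ⟨c3, c4⟩, c5⟩ := hc
    exact hg ⟨c1, fun j => (c2 j).le, c3, c4, c5⟩
  · have he := (exp_pos (-K)).le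
    have hp : (0 : ℝ) ≤ p := Nat.cast_nonneg p
    have ha : (0 : ℝ) ≤ Fintype.card α := Nat.cast_nonneg _
    have hb : (0 : ℝ) ≤ Fintype.card β := Nat.cast_nonneg _
    have e1 : 3 * ((p : ℝ) + 1) ^ 2 + p ≤ 4 * (p + 1) ^ 2 := by nlinarith
    have e2 : 3 * (p : ℝ) ^ 2 + p ≤ 4 * (p + 1) ^ 2 := by nlinarith
    have e3 : (p : ℝ) * 2 ≤ 4 * (p + 1) ^ 2 := by nlinarith
    have f1 := mul_le_mul_of_nonneg_right e1 he
    have f2 := mul_le_mul_of_nonneg_left (mul_le_mul_of_nonneg_right e2 he) ha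
    have f3 := mul_le_mul_of_nonneg_left (mul_le_mul_of_nonneg_right e3 he) hb
    linarith

namespace GEv

variable {α β : Type*} {x : Vec n} {Z : α → Vec n} {c : β → Vec n} {t K : ℝ} {g : Fin p → Vec n}

theorem gz_le (h : GEv x Z c t K g) (hK : 0 ≤ K) (a : α) {M D : ℝ} (hM0 : 0 ≤ M)
    (hM : ∀ k, |Z a k| ≤ M) (hD0 : 0 ≤ D) (hD : F.sq (Z a) ≤ D ^ 2) :
    Gram (diagonal (Z a)) (∑ k, Z a k) (3 * D * √K + 4 * M * K) g := by
  have h1 := nv_le_of_sq_le hD0 hD
  have h2 : ‖Z a‖ ≤ M := (pi_norm_le_iff_of_nonneg hM0).2 hM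
  refine (h.gz a).mono ?_
  gcongr

theorem nz_le (h : GEv x Z c t K g) (a : α) {M D : ℝ} (hM0 : 0 ≤ M)
    (hM : ∀ k, |Z a k| ≤ M) (hD0 : 0 ≤ D) (hD : F.sq (Z a) ≤ D ^ 2) (j : Fin p) :
    nv (diagonal (Z a) *ᵥ g j) ≤ D + 2 * M * √K := by
  have h1 := nv_le_of_sq_le hD0 hD
  have h2 : ‖Z a‖ ≤ M := (pi_norm_le_iff_of_nonneg hM0).2 hM
  refine (h.nz a j).trans ?_
  gcongr

theorem lin_le (h : GEv x Z c t K g) (b : β) {D : ℝ} (hD : nv (c b) ≤ D) (j : Fin p) :
    |ip (c b) (g j)| ≤ 2 * D * √K := by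
  refine (h.lin b j).trans ?_
  gcongr

theorem gram_g (h : GEv x Z c t K g) : Gram 1 n (3 * √n * √K + 4 * K) g := fun i j => by
  simpa using h.gram i.succ j.succ

theorem exc_cons (h : GEv x Z c t K g) (hK : 0 ≤ K) (hx : ∀ k, x k ^ 2 ≤ t) (i : Fin (p + 1)) :
    TG.exc t ((Fin.cons x g : Fin (p + 1) → Vec n) i) ≤ 4 * K + 6 * n * exp (-t / 4) :=
  TG.exc_cons hx (by positivity) h.exc i

end GEv

/-- the coupling with a bad set of Gaussian vectors that does not depend on the rotation; no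
measurability is needed -/
theorem sim_fixed {μ : Measure (OG n)} [IsProbabilityMeasure μ] {P₀ : OG n → Mat n} {b : ℕ → Bool}
    {v : ℕ → OG n → Vec n} (h : Fib.Chain μ P₀ b v p) {r x : ℝ} (hx : 0 ≤ x)
    (hr : ∀ O, n - r ≤ (P₀ O).trace) (E : (Fin p → Vec n) → Prop) {q : ℝ}
    (hq : (gf (Fin p) n).real {g | ¬ E g} ≤ q) :
    μ.real {O | ¬ ∃ g : Fin p → Vec n, E g ∧ ∀ j : Fin p,
      Fib.Close P₀ b v (6 * √(r + p + x) / √n) j O (g j)} ≤ q + 3 * p * exp (-x) := by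
  have h1 := h.sim_close hx hr (B₀ := fun _ g => g ∈ toMeasurable (gf (Fin p) n) {g | ¬ E g})
    (measurable_snd (measurableSet_toMeasurable _ _)) (Fib.Adapted.const _) (A := ∅)
    (measureReal_nonneg.trans hq) (fun O _ => ?_) (B := fun _ _ _ => False)
    (fun _ => by simp) (fun _ => Fib.Adapted.const _) (q := 0) le_rfl (fun _ _ => by simp)
  · rw [measureReal_empty] at h1
    refine (real_imp_le μ fun O hO => ?_).trans (h1.trans (le_of_eq (by ring)))
    rintro ⟨g, hg0, hg⟩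
    refine hO ⟨g, ?_, fun j => (hg j).1⟩
    by_contra hE
    exact hg0 (subset_toMeasurable _ _ hE)
  · refine le_trans (le_of_eq ?_) hq
    exact congrArg ENNReal.toReal (measure_toMeasurable _)

end Vale.Agent.N150.TG
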