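import Vale.Agent.N150.RadCap
import Vale.Agent.N150.Adm3
import Vale.Agent.N150.T1Alg1
import Vale.Agent.N150.T1Kit

set_option linter.all false

/-! P150: the response of the mean field reference on the capped space, and the jump from the
spherical reference. -/

open Matrix

namespace Vale.Agent.N150.TapQ

open Vale.Agent.P150 Vale.Agent.P150.F Vale.Agent.N150.EC
open Vale.Agent.N150.T1 Vale.Agent.N150.Cap Vale.Agent.N150.Sp

variable {n : ℕ}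

theorem zs_eq_zr (hn : 0 < n) {J : Mat n} (hJ : J.IsSymm) (y : Vec n) : zs J y = Rad.zr J y := by
  refine T1A.zs_eq hn (Rad.posDef_zr hn hJ y) ?_
  have h := Rad.res_zr' hn hJ y
  unfold Rad.res Rad.pm at h
  linarith

theorem h0_eq_mr (hn : 0 < n) {J : Mat n} (hJ : J.IsSymm) (y : Vec n) : h0 J y = Rad.mr J y := by
  unfold h0 G00
  rw [zs_eq_zr hn hJ]
  rfl

theorem Gs_eq_Gr (hn : 0 < n) {J : Mat n} (hJ : J.IsSymm) (y : Vec n) :
    T1.Gs J y = Rad.Gr J y := by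
  unfold T1.Gs T20 h0 G00
  rw [zs_eq_zr hn hJ]
  rfl

variable {L t s z0 w : ℝ} {lam yt : Vec n} {O : OG n}

theorem JO_cap {u : Vec n} {c : ℝ} (hu : ∀ a, 2 - lam a ≤ s → u a = c) {v : Vec n}
    (hv : PC lam O s *ᵥ v = v) : JO u O *ᵥ v = c • v := by
  have e : JO u O * PC lam O s = c • PC lam O s := by
    unfold PC
    rw [Cap.JO_mul, ← Rad.JO_smul]
    congr 1
    funext a
    unfold dI
    split_ifs with h1
    · rw [hu a h1]
    · simp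
  conv_lhs => rw [← hv]
  rw [Matrix.mulVec_mulVec, e, Matrix.smul_mulVec, hv]

theorem lamC_cap {a : Fin n} (h : 2 - lam a ≤ s) : lamC lam s a = 2 - s :=
  min_eq_right (by linarith)

theorem PC_y (hy : ∀ a, dI lam s a * yt a = yt a) (O : OG n) :
    PC lam O s *ᵥ (O.1ᵀ *ᵥ yt) = O.1ᵀ *ᵥ yt := by
  unfold PC
  rw [Cap.JO_mulVec, OG.mulVec_tr_mulVec]
  congr 1
  funext a
  exact hy a

/-- a bound in the energy norm, read on the capped space -/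
theorem bil_cap {σ ε : ℝ} (hσ : 0 ≤ σ) (hε : 0 ≤ ε) (hz : 2 - s ≤ z0) {M : Mat n}
    (hM : OpLe ((Adm.dat s z0 (lamC lam s) yt).P σ O * (Adm.dat s z0 (lamC lam s) yt).Nsq O * M *
      (Adm.dat s z0 (lamC lam s) yt).Nsq O * (Adm.dat s z0 (lamC lam s) yt).P σ O) ε)
    {u v : Vec n} (hu : PC lam O s *ᵥ u = u) (hv : PC lam O s *ᵥ v = v) :
    (z0 - (2 - s)) * |ip u (M *ᵥ v)| ≤ ε * (nv u * nv v) := by
  set S := Adm.dat s z0 (lamC lam s) yt with hS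
  have hP : ∀ {v : Vec n}, PC lam O s *ᵥ v = v → S.P σ O *ᵥ v = v := fun {v} hv => by
    rw [S.P_eq, JO_cap (c := 1) (fun a ha => ?_) hv, one_smul]
    unfold Dat.ind
    rw [if_pos]
    rw [S.mem_low]
    change 2 - s - lamC lam s a ≤ σ
    rw [lamC_cap ha, sub_self]
    exact hσ
  have hN : ∀ {v : Vec n}, PC lam O s *ᵥ v = v → S.Nsq O *ᵥ v = √(z0 - (2 - s)) • v :=
    fun {v} hv => JO_cap (fun a ha => by
      change √(z0 - lamC lam s a) = _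
      rw [lamC_cap ha]) hv
  have sP : (S.P σ O).IsSymm := by rw [S.P_eq]; exact Rad.JO_symm _ _
  have sN : (S.Nsq O).IsSymm := Rad.JO_symm _ _
  have e : ip u ((S.P σ O * S.Nsq O * M * S.Nsq O * S.P σ O) *ᵥ v)
      = (z0 - (2 - s)) * ip u (M *ᵥ v) := by
    simp only [← Matrix.mulVec_mulVec]
    rw [hP hv, hN hv, ip_mulVec_comm sP, hP hu, ip_mulVec_comm sN, hN hu, Matrix.mulVec_smul,
      ip_smul_left, ip_smul_right, ← mul_assoc, Real.mul_self_sqrt (by linarith)]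
  have h1 := abs_ip_le u ((S.P σ O * S.Nsq O * M * S.Nsq O * S.P σ O) *ᵥ v)
  rw [e, abs_mul, abs_of_nonneg (by linarith : 0 ≤ z0 - (2 - s))] at h1
  have h2 := mul_le_mul_of_nonneg_left (hM.nv_le hε v) (nv_nonneg u)
  linarith

/-- the response of the mean field reference is close to the spherical one on the capped space -/
theorem gm_near (ht : 0 < t) (hs : 0 ≤ s) (hz : 2 - s / 2 ≤ z0)
    (hO : Out t (Adm.dat s z0 (lamC lam s) yt) O) {h : Vec n}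
    (hb : Ball t (JC lam O s) (O.1ᵀ *ᵥ yt) h) (hn : 0 < n) {u v : Vec n}
    (hu : PC lam O s *ᵥ u = u) (hv : PC lam O s *ᵥ v = v) :
    |s * ip u (Gm (JC lam O s) h (zh (JC lam O s) h) *ᵥ v)
      - s * ip u (Rad.Gr (JC lam O s) (O.1ᵀ *ᵥ yt) *ᵥ v)| ≤ 2 * t ^ 3000 * (nv u * nv v) := by
  have h1 := bil_cap (pow_pos ht 139200).le (pow_pos ht 3000).le (by linarith) (hO.gmP h hb) hu hv
  have e : T1.Gs ((Adm.dat s z0 (lamC lam s) yt).J O) ((Adm.dat s z0 (lamC lam s) yt).y O)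
      = Rad.Gr (JC lam O s) (O.1ᵀ *ᵥ yt) := Gs_eq_Gr hn (Rad.JO_symm _ _) _
  rw [e, Matrix.sub_mulVec, ip_sub_right] at h1
  rw [← mul_sub, abs_mul, abs_of_nonneg hs]
  have h2 := mul_le_mul_of_nonneg_right (by linarith : s ≤ 2 * (z0 - (2 - s)))
    (abs_nonneg (ip u (Gm (JC lam O s) h (zh (JC lam O s) h) *ᵥ v)
      - ip u (Rad.Gr (JC lam O s) (O.1ᵀ *ᵥ yt) *ᵥ v)))
  have h3 : (z0 - (2 - s)) * |ip u (Gm (JC lam O s) h (zh (JC lam O s) h) *ᵥ v)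
      - ip u (Rad.Gr (JC lam O s) (O.1ᵀ *ᵥ yt) *ᵥ v)| ≤ t ^ 3000 * (nv u * nv v) := h1
  linarith

/-- **sharp form** of the response of the mean field reference -/
theorem gm_sharp (H : Adm.Std n w s lam) (ht : 0 < t) (hz : 2 - s / 2 ≤ z0)
    (hO : Out t (Adm.dat s z0 (lamC lam s) yt) O) {h : Vec n}
    (hb : Ball t (JC lam O s) (O.1ᵀ *ᵥ yt) h) (hy : ∀ a, dI lam s a * yt a = yt a) {θ : ℝ}
    (hθ : 0 ≤ θ) (hE : θ + √s + 20 * Edge.kap w ≤ 1 / 20)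
    (hR : |F.sq yt - 2 * Edge.c0 * (s * (n * (s * √s)))| ≤ θ * (s * (n * (s * √s))))
    {u v : Vec n} (hu : PC lam O s *ᵥ u = u) (hv : PC lam O s *ᵥ v = v) :
    |s * ip u (Gm (JC lam O s) h (zh (JC lam O s) h) *ᵥ v) - (ip u v -
      ip (O.1ᵀ *ᵥ yt) u * ip (O.1ᵀ *ᵥ yt) v / (2 * F.sq (O.1ᵀ *ᵥ yt)))|
      ≤ (8 * (θ + √s + 20 * Edge.kap w) + 2 * t ^ 3000) * nv u * nv v := by
  have h1 := gm_near ht H.pos.le hz hO hb H.hn hu hv
  have h2 := Rad.sharp_cap O (O.1ᵀ *ᵥ yt) H.rig H.hn H.hw H.lo hθ hE (PC_y hy O)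
    (by rw [Rad.sq_tr]; exact hR) u hv
  obtain ⟨a1, a2⟩ := abs_le.1 h1
  obtain ⟨b1, b2⟩ := abs_le.1 h2
  rw [abs_le]
  constructor <;> linarith

/-- **crude form**, for every field -/
theorem gm_crude (H : Adm.Std n w s lam) (ht : 0 < t) (hz : 2 - s / 2 ≤ z0)
    (hO : Out t (Adm.dat s z0 (lamC lam s) yt) O) {h : Vec n}
    (hb : Ball t (JC lam O s) (O.1ᵀ *ᵥ yt) h) (hy : ∀ a, dI lam s a * yt a = yt a)
    {u : Vec n} (hu : PC lam O s *ᵥ u = u) :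
    s * ip u (Gm (JC lam O s) h (zh (JC lam O s) h) *ᵥ u) ≤ (2 + 2 * t ^ 3000) * F.sq u := by
  have h1 := (abs_le.1 (gm_near ht H.pos.le hz hO hb H.hn hu hu)).2
  have h2 := (Rad.capOK O (O.1ᵀ *ᵥ yt) H.rig H.hn H.hw H.hk H.lo H.hi (PC_y hy O)).form u hu
  rw [← pow_two (nv u), nv_sq] at h1
  linarith

/-- **jump** between the two references -/
theorem jump_nv (hn : 0 < n) (ht : 0 < t) (ht1 : t ≤ 1) {J : Mat n} (hJ : J.IsSymm) {y h : Vec n}
    (hr : Reg t J y h) : nv (tm h - Rad.mr J y) ≤ 2 * (√n * t ^ 143000) := by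
  have h1 := nv_sub_triangle (tm h) h (h0 J y)
  rw [nv_sub_comm (tm h) h, h0_eq_mr hn hJ] at h1
  have h2 := hr.near
  rw [h0_eq_mr hn hJ] at h2
  have h3 : √n * t ^ 214000 ≤ √n * t ^ 143000 :=
    mul_le_mul_of_nonneg_left (pow_le_pow_of_le_one ht.le ht1 (by norm_num)) (Real.sqrt_nonneg _)
  linarith [hr.cub]

theorem jump_sq (hn : 0 < n) (ht : 0 < t) (ht1 : t ≤ 1 / 2) {J : Mat n} (hJ : J.IsSymm)
    {y h : Vec n} (hr : Reg t J y h) (hs : t ^ 288000 = s) :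
    F.sq (tm h - Rad.mr J y) ≤ n * s ^ (99 / 100 : ℝ) := by
  have h1 := sq_le_of_nv_le (jump_nv hn ht (by linarith) hJ hr)
  have e1 : s ^ (99 / 100 : ℝ) = t ^ 285120 := by
    rw [← hs, ← Real.rpow_natCast, ← Real.rpow_mul ht.le, ← Real.rpow_natCast]
    norm_num
  have e2 : (2 * (√n * t ^ 143000)) ^ 2 = n * (4 * t ^ 2 * t ^ 285998) := by
    rw [mul_pow, mul_pow, Real.sq_sqrt (Nat.cast_nonneg n), ← pow_mul, mul_assoc 4, ← pow_add]
    ring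
  have h2 : 4 * t ^ 2 ≤ 1 := by nlinarith
  have h3 : t ^ 285998 ≤ t ^ 285120 := pow_le_pow_of_le_one ht.le (by linarith) (by norm_num)
  have h4 := mul_le_mul h2 h3 (pow_pos ht _).le zero_le_one
  rw [one_mul] at h4
  rw [e1]
  exact h1.trans (e2.le.trans (mul_le_mul_of_nonneg_left h4 (Nat.cast_nonneg n)))

end Vale.Agent.N150.TapQ
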