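import Vale.Agent.N150.TapQ0
import Vale.Agent.N150.TapQ1
import Vale.Agent.N150.Plant2

set_option linter.all false

/-! P150: the mean field tier at one index, measurability, passage to the fibres. -/

open Matrix MeasureTheory Filter Topology
open scoped ENNReal

namespace Vale.Agent.N150.TapQ

open Vale.Agent.P150 Vale.Agent.P150.F Vale.Agent.P150.F.Ms Vale.Agent.N150.EC
open Vale.Agent.N150.T1 Vale.Agent.N150.Cap Vale.Agent.N150.Sp Vale.Agent.N150.Plant

variable {n : ℕ}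

/-- the facts at one index, for the data `(J, y)`, the next data `(J', y')` and the projection `P` -/
structure One (hs : M0.HS) (K₀ η e K s δ : ℝ) (nx : Prop) (J J' P : Mat n) (y y' : Vec n) :
    Prop where
  st : nx → TapSt K₀ δ J y (hs n J y) (zh J (hs n J y)) J' y' (hs n J' y') (zh J' (hs n J' y'))
  t1 : Asm.T1F s η P (Gm J (hs n J y) (zh J (hs n J y))) y
  ka : s * √s * nv (P *ᵥ EC.ka J (hs n J y) (zh J (hs n J y)) P) ≤ s ^ e * √K
  jump : F.sq (tm (hs n J y) - Rad.mr J y) ≤ n * s ^ (99 / 100 : ℝ)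

theorem TapSt.mono' {K K' δ : ℝ} {J J' : Mat n} {y h y' h' : Vec n} {z z' : ℝ}
    (T : TapSt K δ J y h z J' y' h' z') (hK : K ≤ K') : TapSt K' δ J y h z J' y' h' z' := by
  have h1 : K ^ 4 * √δ ≤ K' ^ 4 * √δ := mul_le_mul_of_nonneg_right
    (pow_le_pow_left₀ (by linarith [T.loc.hK]) hK 4) (Real.sqrt_nonneg _)
  exact ⟨T.loc.mono hK, T.loc'.mono hK, fun i => (T.dh i).trans h1, T.dz.trans h1, T.r1, T.r2,
    T.r1', T.r2'⟩

section Meas

variable {α : Type} [MeasurableSpace α] {J J' P G : α → Mat n} {y y' h h' : α → Vec n}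
  {z z' : α → ℝ}

theorem cont_nv' {X : Type*} [TopologicalSpace X] {u : X → Vec n} (hu : Continuous u) :
    Continuous fun x => nv (u x) := by
  simp only [nv_eq_sqrt]
  exact (cont_sq hu).sqrt

theorem ms_ent {v : α → Vec n} (hv : MVec v) (c : ℝ) : MeasurableSet {a | ∀ i, |v a i| ≤ c} := by
  simp only [Set.setOf_forall]
  exact MeasurableSet.iInter fun i => measurableSet_le (hv i).abs measurable_const

theorem ms_TapSt (K δ : ℝ) (hJ : MMat J) (hy : MVec y) (hh : MVec h) (hz : Measurable z)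
    (hJ' : MMat J') (hy' : MVec y') (hh' : MVec h') (hz' : Measurable z') :
    MeasurableSet {a | TapSt K δ (J a) (y a) (h a) (z a) (J' a) (y' a) (h' a) (z' a)} := by
  have e : {a | TapSt K δ (J a) (y a) (h a) (z a) (J' a) (y' a) (h' a) (z' a)}
      = {a | Loc K (J a) (h a) (z a)} ∩ ({a | Loc K (J' a) (h' a) (z' a)}
      ∩ ({a | ∀ i, |(h' a - h a) i| ≤ K ^ 4 * √δ} ∩ ({a | |z' a - z a| ≤ K ^ 4 * √δ}
      ∩ ({a | ∀ i, |res1 (J a) (y a) (h a) (z a) i| ≤ δ ^ 2} ∩ ({a | |res2 (J a) (h a) (z a)| ≤ δ ^ 2}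
      ∩ ({a | ∀ i, |res1 (J' a) (y' a) (h' a) (z' a) i| ≤ δ ^ 2}
      ∩ {a | |res2 (J' a) (h' a) (z' a)| ≤ δ ^ 2})))))) := by
    ext a
    exact ⟨fun T => ⟨T.loc, T.loc', T.dh, T.dz, T.r1, T.r2, T.r1', T.r2'⟩,
      fun ⟨a, b, c, d, e, f, g, h⟩ => ⟨a, b, c, d, e, f, g, h⟩⟩
  rw [e]
  exact (ms_Loc K hJ hh hz).inter ((ms_Loc K hJ' hh' hz').inter ((ms_ent (hh'.sub hh) _).inter
    ((measurableSet_le (hz'.sub hz).abs measurable_const).inter
    ((ms_ent (mv_res1 hJ hy hh hz) _).inter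
    ((measurableSet_le (ms_res2 hJ hh hz).abs measurable_const).inter
    ((ms_ent (mv_res1 hJ' hy' hh' hz') _).inter
    (measurableSet_le (ms_res2 hJ' hh' hz').abs measurable_const)))))))

theorem ms_T1F (s η : ℝ) (hP : MMat P) (hPP : ∀ a, P a * P a = P a) (hG : MMat G) (hy : MVec y) :
    MeasurableSet {a | Asm.T1F s η (P a) (G a) (y a)} := by
  have e : {a | Asm.T1F s η (P a) (G a) (y a)} = {a | ∀ p : Vec n × Vec n,
      |s * ip (P a *ᵥ p.1) (G a *ᵥ (P a *ᵥ p.2)) - (ip (P a *ᵥ p.1) (P a *ᵥ p.2)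
        - ip (y a) (P a *ᵥ p.1) * ip (y a) (P a *ᵥ p.2) / (2 * F.sq (y a)))|
        ≤ η * nv (P a *ᵥ p.1) * nv (P a *ᵥ p.2)} := by
    ext a
    constructor
    · intro h p
      exact h _ _ (by rw [Matrix.mulVec_mulVec, hPP]) (by rw [Matrix.mulVec_mulVec, hPP])
    · intro h u v hu hv
      have h1 := h (u, v)
      simp only [hu, hv] at h1
      exact h1
  rw [e]
  refine ms_all (fun p => ?_) (fun p => ?_) (fun a => ?_) fun a => ?_
  · have h1 := hP.mulVec (MVec.const p.1)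
    have h2 := hP.mulVec (MVec.const p.2)
    exact (((h1.ip (hG.mulVec h2)).const_mul s).sub ((h1.ip h2).sub
      (((hy.ip h1).mul (hy.ip h2)).div (hy.sq.const_mul 2)))).abs
  · exact ((hP.mulVec (MVec.const p.1)).nv.const_mul η).mul (hP.mulVec (MVec.const p.2)).nv
  · have h1 : Continuous fun p : Vec n × Vec n => P a *ᵥ p.1 := cont_mv _ continuous_fst
    have h2 : Continuous fun p : Vec n × Vec n => P a *ᵥ p.2 := cont_mv _ continuous_snd
    exact ((continuous_const.mul (cont_ip h1 (cont_mv _ h2))).sub ((cont_ip h1 h2).sub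
      (((cont_ip continuous_const h1).mul (cont_ip continuous_const h2)).div_const _))).abs
  · exact (continuous_const.mul (cont_nv' (cont_mv _ continuous_fst))).mul
      (cont_nv' (cont_mv _ continuous_snd))

theorem ms_One {hs : M0.HS} (hm : M0.MeasM hs) (hn : 0 < n) (K₀ η e K s δ : ℝ) (nx : Prop)
    (hJ : MMat J) (hJ' : MMat J') (hP : MMat P) (hPP : ∀ a, P a * P a = P a) (hy : MVec y)
    (hy' : MVec y') :
    MeasurableSet {a | One hs K₀ η e K s δ nx (J a) (J' a) (P a) (y a) (y' a)} := by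
  obtain ⟨h1, z1⟩ := hm n α J y hJ hy
  obtain ⟨h2, z2⟩ := hm n α J' y' hJ' hy'
  have e : {a | One hs K₀ η e K s δ nx (J a) (J' a) (P a) (y a) (y' a)}
      = ({_a | nx}ᶜ ∪ {a | TapSt K₀ δ (J a) (y a) (hs n (J a) (y a)) (zh (J a) (hs n (J a) (y a)))
        (J' a) (y' a) (hs n (J' a) (y' a)) (zh (J' a) (hs n (J' a) (y' a)))})
      ∩ ({a | Asm.T1F s η (P a) (Gm (J a) (hs n (J a) (y a)) (zh (J a) (hs n (J a) (y a)))) (y a)}
      ∩ ({a | s * √s * nv (P a *ᵥ EC.ka (J a) (hs n (J a) (y a)) (zh (J a) (hs n (J a) (y a)))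
        (P a)) ≤ s ^ e * √K}
      ∩ {a | F.sq (tm (hs n (J a) (y a)) - Rad.mr (J a) (y a)) ≤ n * s ^ (99 / 100 : ℝ)})) := by
    ext a
    exact ⟨fun T => ⟨imp_iff_not_or.1 T.st, T.t1, T.ka, T.jump⟩,
      fun ⟨a, b, c, d⟩ => ⟨imp_iff_not_or.2 a, b, c, d⟩⟩
  rw [e]
  exact ((MeasurableSet.const _).compl.union (ms_TapSt _ _ hJ hy h1 z1 hJ' hy' h2 z2)).inter
    ((ms_T1F s η hP hPP (mm_Gm hJ h1 z1) hy).inter
    ((measurableSet_le ((hP.mulVec (mv_ka hJ h1 z1 hP)).nv.const_mul _) measurable_const).inter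
    (measurableSet_le ((mv_tm h1).sub (mvec_of (Rad.meas_mr hn hJ hy.measurable))).sq
      measurable_const)))

end Meas

/-- planted probability from an arbitrary frame event and bounds on the fibres -/
theorem fib_split (hn : 0 < n) (M : Mat n) (A : Vec n × (ℕ → Vec n) → Prop)
    {Bad : Set ((Vec n × (ℕ → Vec n)) × OG n)} (hB : MeasurableSet Bad) {p : ℝ} (hp0 : 0 ≤ p)
    (hp : ∀ (x : Cfg n) (r : Vec n × (ℕ → Vec n)), A r → F.sq r.1 = n →
      (fibM (sv x) r.1).real {O | (r, O) ∈ Bad} ≤ p) :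
    (plN n M 0).real {q | ((xt q.1.1 q.1.2, rotN q.1.1 q.2), q.1.1) ∈ Bad} ≤
      (spN n M 0).real {r | ¬A r} + p := by
  set E := (toMeasurable (spN n M 0) {r | ¬A r})ᶜ with hE
  have hEm : MeasurableSet E := (measurableSet_toMeasurable _ _).compl
  have h1 := fib_le hn M 0 hEm (Bad := fun _ => Bad) (fun _ => hB) (p := ENNReal.ofReal p)
    fun x r hr hsq => (ENNReal.le_ofReal_iff_toReal_le (measure_ne_top _ _) hp0).2
      (hp x r (by
        by_contra hc
        exact hr (subset_toMeasurable _ _ hc)) hsq)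
  have h2 := Plant.plN_frame_le (m := n) M 0 Eᶜ
  rw [hE, compl_compl, measure_toMeasurable] at h2
  have h3 := Cap.plN_rot_le M 0 {q | ((xt q.1.1 q.1.2, q.2), q.1.1) ∈ Bad}
  have h4 : plN n M 0 {q | ((xt q.1.1 q.1.2, q.2), q.1.1) ∈ Bad} ≤
      spN n M 0 {r | ¬A r} + ENNReal.ofReal p := by
    refine le_trans (measure_mono fun q hq => ?_) ((measure_union_le _ _).trans (add_le_add h2 h1))
    by_cases hq' : (xt q.1.1 q.1.2, q.2) ∈ E
    · exact Or.inr ⟨hq', hq⟩
    · exact Or.inl (not_not.1 hq')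
  have h5 := ENNReal.toReal_mono (by finiteness) (h3.trans h4)
  rw [ENNReal.toReal_add (measure_ne_top _ _) ENNReal.ofReal_ne_top, ENNReal.toReal_ofReal hp0] at h5
  exact h5

theorem fibL_fibM (x : Cfg n) {u : Vec n} (hu : F.sq u = n) : FibL (fibM (sv x) u) (sv x) u :=
  ⟨fun i => by unfold sv sp; split_ifs <;> simp, inferInstance, explo_fibM _ _,
    ae_fibM (by rw [hu, Plant.sq_sv])⟩

end Vale.Agent.N150.TapQ
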