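import Vale.Agent.P150.Bdl.B39

set_option linter.all false

/-! P150 at the critical point: module D3b (laws of the AMP fields of near-DLR laws along the
`J`-killing path) for all `β ≤ 1`, under the reduced good event `GoodO`. -/

section

open MeasureTheory ProbabilityTheory Filter Topology
open scoped Matrix

namespace Vale.Agent.P150.F

/-- the good event needed for the macroscopic entropy bound: the `β`-free part, star shape and the
annealed bound at `β` -/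
structure GoodO (β : ℝ) {I : Type} (F : Filter I) (n : I → ℕ) (J : ∀ i, Mat (n i)) : Prop where
  base : Good 0 F n J
  ss : ∀ q₀ > 0, ∃ c > 0, ∀ᶠ i in F, SS β q₀ c (J i)
  logZ : ∀ ε > 0, ∀ᶠ i in F,
    Real.log (∑ x : Cfg (n i), Real.exp (β / 2 * qf (J i) (sv x)))
      ≤ n i * (Real.log 2 + β ^ 2 / 4 + ε)

namespace GoodO

variable {β : ℝ} {I : Type} {F : Filter I} {n : I → ℕ} {J : ∀ i, Mat (n i)}

theorem hn (h : GoodO β F n J) : Tendsto n F atTop := h.base.hn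
theorem symm (h : GoodO β F n J) : ∀ i a b, J i a b = J i b a := h.base.symm
theorem diag (h : GoodO β F n J) : ∀ i a, J i a a = 0 := h.base.diag
theorem op (h : GoodO β F n J) : ∀ ε > 0, ∀ᶠ i in F, OpLe (J i) (2 + ε) := h.base.op
theorem sd (h : GoodO β F n J) : ∀ (l : ℕ) (ε : ℝ), 0 < ε → ∀ᶠ i in F, SD (J i) l ε := h.base.sd
theorem od (h : GoodO β F n J) : ∀ (l : ℕ) (ε : ℝ), 0 < ε → ∀ᶠ i in F, OD (J i) l ε := h.base.od
theorem u2 (h : GoodO β F n J) : U2S F n J := h.base.u2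
theorem u3 (h : GoodO β F n J) : U3S F n J := h.base.u3

end GoodO

end Vale.Agent.P150.F
end

section

open MeasureTheory ProbabilityTheory Filter Topology
open scoped Matrix

namespace Vale.Agent.P150.F.D3

/-- D3b, overlaps: `E |q_{k+1} - q(g_{k+1})|` is small at time `s` -/
def D3bQO (β κ : ℝ) : Prop :=
  ∀ {I : Type} (F : Filter I) (n : I → ℕ) (J : ∀ i, Mat (n i)), GoodO β F n J →
    ∀ (C : ℝ) (k : ℕ) (e : ℝ), 0 < e → ∃ η > 0, ∀ᶠ i in F, ∀ (m : ℕ)
      (R : Matrix (Fin (n i)) (Fin m) ℝ) (s : ℝ) (w : Cfg (n i) → (Fin m → ℝ) → ℝ),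
      s ∈ Set.Icc 0 β → JHyp β κ (J i) R s C η w →
      EJ w (fun x ξ => |qq (ampM ((β - s) • J i) (β - s) (obs R s x ξ) x (k + 1))
        - qRS (gam β κ s k)|) ≤ e

/-- D3b, laws: the law of `a^{k+1}` given `σ` is `N (g σ, g)`, `g = gam β κ s k` -/
def D3bAO (β κ : ℝ) : Prop :=
  ∀ {I : Type} (F : Filter I) (n : I → ℕ) (J : ∀ i, Mat (n i)), GoodO β F n J →
    ∀ (f : ℝ → ℝ → ℝ) (C₁ : ℝ), (∀ ε, Continuous (f ε)) → (∀ ε a, |f ε a| ≤ C₁ * (1 + |a|)) →
    ∀ (C : ℝ) (k : ℕ) (e : ℝ), 0 < e → ∃ η > 0, ∀ᶠ i in F, ∀ (m : ℕ)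
      (R : Matrix (Fin (n i)) (Fin m) ℝ) (s : ℝ) (w : Cfg (n i) → (Fin m → ℝ) → ℝ),
      s ∈ Set.Icc 0 β → JHyp β κ (J i) R s C η w →
      EJ w (fun x ξ => |(∑ j, (f (sv x j)
        (ampA ((β - s) • J i) (β - s) (obs R s x ξ) x k j)
        - NEs f (gam β κ s k) (sv x j))) / n i|) ≤ e

/-- D3b, laws of the zero-field local fields `h = β J σ` given `σ`: `N (β² σ, β²)` -/
def D3bHO (β κ : ℝ) : Prop :=
  ∀ {I : Type} (F : Filter I) (n : I → ℕ) (J : ∀ i, Mat (n i)), GoodO β F n J →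
    ∀ (f : ℝ → ℝ → ℝ) (C₁ : ℝ), (∀ ε, Continuous (f ε)) → (∀ ε a, |f ε a| ≤ C₁ * (1 + |a|)) →
    ∀ (C : ℝ) (e : ℝ), 0 < e → ∃ η > 0, ∀ᶠ i in F, ∀ (m : ℕ)
      (R : Matrix (Fin (n i)) (Fin m) ℝ) (s : ℝ) (w : Cfg (n i) → (Fin m → ℝ) → ℝ),
      s ∈ Set.Icc 0 β → JHyp β κ (J i) R s C η w →
      EJ w (fun x _ => |(∑ j, (f (sv x j) ((β • J i).mulVec (sv x) j)
        - NEs f (β ^ 2) (sv x j))) / n i|) ≤ e

/-- one step (deconvolution form of charStep), uniform form -/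
def StepUO (β : ℝ) : Prop :=
  ∀ {I : Type} (F : Filter I) (n : I → ℕ) (J : ∀ i, Mat (n i)), GoodO β F n J →
    ∀ (k : ℕ) (θ ε C e : ℝ), (ε = 1 ∨ ε = -1) → 0 < e → ∃ η > 0, ∀ᶠ i in F,
      ∀ (r : ℝ) (y : Vec (n i)) (ν φ : Cfg (n i) → ℝ) (α : ℝ), r ∈ Set.Icc 0 1 → IsProb ν →
        Macro C φ → dlr (r • J i) y ν ≤ η * n i →
        |Ex ν (fun x => φ x *
          (Real.exp (θ ^ 2 * cst (r • J i) r y k x / 2) *
              chr ε θ (α - θ * (cst (r • J i) r y k x * ε)) (ampA (r • J i) r y x k) x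
            - chr ε θ α (ampA (r • J i) r y x (k + 1)) x))| ≤ e

/-- the law of the zero-field local fields (D3a'), uniform form, with arbitrary phases -/
def BaseUO (β : ℝ) : Prop :=
  ∀ {I : Type} (F : Filter I) (n : I → ℕ) (J : ∀ i, Mat (n i)), GoodO β F n J →
    ∀ (θ ε C e : ℝ), (ε = 1 ∨ ε = -1) → 0 < e → ∃ η > 0, ∀ᶠ i in F,
      ∀ (ν φ : Cfg (n i) → ℝ) (α : Vec (n i)), IsProb ν → Macro C φ →
        dlr (β • J i) 0 ν ≤ η * n i →
        |Ex ν (fun x => φ x *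
          ((∑ j, ind ε (sv x j) * Real.cos (α j + θ * (β • J i).mulVec (sv x) j)) / n i
            - Real.exp (-(θ ^ 2 * β ^ 2 / 2)) *
              ((∑ j, ind ε (sv x j) * Real.cos (α j + θ * (β ^ 2 * ε))) / n i)))| ≤ e

theorem stepUO (β : ℝ) : StepUO β := fun F n J hG => stepU 0 F n J hG.base

/-- **The hypotheses of D3b for product laws.** -/
theorem jhyp_prodO {β κ : ℝ} (hκ : 4 ≤ κ) {I : Type} {F : Filter I}
    {n : I → ℕ} {J : ∀ i, Mat (n i)} (hG : GoodO β F n J) {η : ℝ} (hη : 0 < η) :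
    ∃ η' > 0, ∀ᶠ i in F, ∀ (m : ℕ) (R : Matrix (Fin (n i)) (Fin m) ℝ) (s : ℝ)
      (ν : Cfg (n i) → ℝ), s ∈ Set.Icc 0 β → R * Rᵀ = J i + κ • (1 : Mat (n i)) → IsProb ν →
      (∀ x, 0 < ν x) → IP' ν (gM (β • J i) 0) ≤ η' * n i →
      JHyp β κ (J i) R s κ η (fun x _ => ν x) := by
  have hκ0 : 0 ≤ κ := by linarith only [hκ]
  refine ⟨η / 4, by positivity, ?_⟩
  have hlim : Tendsto (fun i => 2 * ((1 / η * √(3 + κ) + 1) / √(n i : ℝ))) F (𝓝 0) := by
    have h1 : Tendsto (fun i => √(n i : ℝ)) F atTop :=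
      Real.tendsto_sqrt_atTop.comp (tendsto_natCast_atTop_atTop.comp hG.hn)
    have h2 := (tendsto_const_nhds (x := 1 / η * √(3 + κ) + 1)).div_atTop h1
    simpa using h2.const_mul 2
  filter_upwards [hG.op 1 one_pos, hlim.eventually (ge_mem_nhds hη), hG.hn.eventually_gt_atTop 0]
    with i hop hsmall hn m R s ν hs hR hν hν0 hI
  have hop' : OpLe (R * Rᵀ) (3 + κ) := by
    rw [hR]
    have : (2 : ℝ) + 1 = 3 := by norm_num
    rw [this] at hop
    exact opLe_add_smul_one (by norm_num) hκ0 hop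
  have hdiag : ∀ j, (R * Rᵀ) j j = κ := by
    intro j
    rw [hR]
    simp [hG.diag i j]
  have hJs := hG.symm i
  have hn' : (0 : ℝ) < n i := by exact_mod_cast hn
  have hbd : 4 * IP' ν (gM (β • J i) 0) ≤ η * n i := by
    have : η / 4 * (n i : ℝ) = η * n i / 4 := by ring
    linarith only [hI]
  exact
    { law := JL.pw (m := m) hν
      hR := hR
      J1 := (J1_pw (m := m) hJs β hν hν0).trans hbd
      J2 := (J2_pw R hJs β κ hν hν0 hR hs.1).trans hbd
      J3c := fun θ ε hθ hε =>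
        ((J3_pw hop' (by positivity) hdiag hn hν hε hθ).1).trans hsmall
      J3s := fun θ ε hθ hε =>
        ((J3_pw hop' (by positivity) hdiag hn hν hε hθ).2).trans hsmall
      J4i := fun x => (TP.integrable_sq_R R).const_mul _
      J4 := (J4_pw hdiag hν).le }

theorem D3bQ_of_AO {β κ : ℝ} (hκ : 0 ≤ κ) (hA : D3bAO β κ) : D3bQO β κ := by
  intro I F n J hG C k e he
  obtain ⟨η, hη, h⟩ := hA F n J hG (fun _ a => Real.tanh a ^ 2) 1
    (fun _ => rs_tanh_cont.pow 2) (fun _ a => by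
      have h1 := rs_tanh_sq_abs_le a
      have h2 := abs_nonneg a
      linarith) C k e he
  refine ⟨η, hη, ?_⟩
  filter_upwards [h, hG.hn.eventually_ge_atTop 1] with i hi hn m R s w hs hJ
  have hn' : (0 : ℝ) < n i := by exact_mod_cast hn
  refine le_trans (le_of_eq ?_) (hi m R s w hs hJ)
  unfold EJ
  refine Finset.sum_congr rfl fun x _ => integral_congr_ae (ae_of_all _ fun ξ => ?_)
  show w x ξ * |_| = w x ξ * |_|
  congr 2
  have hg := gam_nonneg hκ hs k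
  have h1 : ∑ j, (Real.tanh (ampA ((β - s) • J i) (β - s) (obs R s x ξ) x k j) ^ 2
      - NEs (fun _ a => Real.tanh a ^ 2) (gam β κ s k) (sv x j))
      = sq (ampM ((β - s) • J i) (β - s) (obs R s x ξ) x (k + 1))
        - n i * qRS (gam β κ s k) := by
    rw [Finset.sum_sub_distrib]
    congr 1
    · unfold sq
      refine Finset.sum_congr rfl fun j _ => ?_
      rw [DB.ampM_succ]
    · have h2 : ∀ j, NEs (fun _ a => Real.tanh a ^ 2) (gam β κ s k) (sv x j)
          = qRS (gam β κ s k) := fun j => mc_NEs_tanh_sq hg (mc_sv_eq_or x j)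
      simp only [h2, Finset.sum_const, Finset.card_univ, Fintype.card_fin, nsmul_eq_mul]
  rw [h1]
  unfold qq
  field_simp

end Vale.Agent.P150.F.D3
end

section

open Filter Topology

namespace Vale.Agent.P150.F.D3

open Vale.Agent.P150.F.D2

section

variable {β : ℝ} {I : Type} {F : Filter I} {n : I → ℕ} {J : ∀ i, Mat (n i)}

theorem hypBO (hβ0 : 0 ≤ β) (hβ1 : β ≤ 1) (hG : GoodO β F n J) (C : ℝ) :
    Hyp (filB β F J C) (datB β J C) where
  n_top := hG.hn.comp (filB_fst C)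
  symm := fun p => by
    show (J p.1).IsSymm
    ext a b
    exact hG.symm p.1 b a
  diag := fun p a => hG.diag p.1 a
  op := fun p => p.2.op
  sd := fun l ε hε => (filB_fst C).eventually (hG.sd l ε hε)
  od := fun l ε hε => (filB_fst C).eventually (hG.od l ε hε)
  r0 := fun _ => hβ0
  r1 := fun _ => hβ1
  asymm := fun p => by
    show (0 : Mat (n p.1)).IsSymm
    exact Matrix.isSymm_zero
  hsA := ⟨0, fun p => by
    show hsq (0 : Mat (n p.1)) ≤ 0
    unfold hsq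
    simp⟩
  prob := fun p => p.2.prob
  dlr := dataF_H F fun i (p : TB (J i) C) => p.H β

theorem u3BO (hβ0 : 0 ≤ β) (hβ1 : β ≤ 1) (hG : GoodO β F n J) (C : ℝ) (k : ℕ) :
    Tendsto (fun p : Σ i, TB (J i) C => Ex p.2.ν fun x =>
      |sq (ampM (β • J p.1) β 0 x k - ampM (β • J p.1) β 0 x (k + 1)) / n p.1
        - (qq (ampM (β • J p.1) β 0 x k) - qq (ampM (β • J p.1) β 0 x (k + 1)))|)
      (filB β F J C) (𝓝 0) := by
  have hH := hypBO hβ0 hβ1 hG C
  have h1 := D2.Out.U3F hH hH.toHypJ.derA (hH.n1 k) (hH.n1 (k + 1))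
  refine h1.congr fun p => ?_
  exact exU3 (datB β J C p) (MB C p) k

theorem qBO (hβ0 : 0 ≤ β) (hβ1 : β ≤ 1) (hG : GoodO β F n J) (C : ℝ) (ε : ℝ) (hε : 0 < ε) :
    ∃ K₀ : ℕ, ∀ K, K₀ ≤ K → ∀ᶠ p in filB β F J C,
      EE (datB β J C) (fun i x => qq ((datB β J C i).m x K)) p ≤ ε := by
  obtain ⟨K₀, hK⟩ := overlap_small (F := filB β F J C) (n := fun p => n p.1)
    (hG.hn.comp (filB_fst C)) (J := fun p => J p.1) (ν := fun p => p.2.ν) hβ0 hβ1
    (Eventually.of_forall fun p => p.2.op) (Eventually.of_forall fun p => p.2.prob)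
    (fun q₀ hq₀ => by
      obtain ⟨c, hc, h1⟩ := hG.ss q₀ hq₀
      exact ⟨c, hc, (filB_fst C).eventually h1⟩) (fun k _ => u3BO hβ0 hβ1 hG C k) hε
  refine ⟨K₀, fun K hKK => ?_⟩
  filter_upwards [hK K hKK] with p hp
  exact le_trans (le_of_eq (exQk (datB β J C p) (MB C p) K)) hp

theorem baseE_tendstoO (hβ0 : 0 ≤ β) (hβ1 : β ≤ 1) (hG : GoodO β F n J) (C θ : ℝ) {e : ℝ}
    (he : e = 1 ∨ e = -1) :
    Tendsto (fun p : Σ i, TB (J i) C => p.2.E β θ e) (filB β F J C) (𝓝 0) := by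
  have hH := hypBO hβ0 hβ1 hG C
  have hJ := hH.toHypJ
  have hc : ∀ k, MW (filB β F J C) (datB β J C) (fun i x => (datB β J C i).c x k) :=
    fun k => MW.c hJ hJ.macT k
  have hφ : MW (filB β F J C) (datB β J C) (fun p => (p.2.φ : Cfg (datB β J C p).n → ℝ)) :=
    MW.of_Macro hJ.n_top fun p => p.2.mac
  have hεb : |e / 2| ≤ 1 / 2 := by rcases he with rfl | rfl <;> norm_num
  have hM1 : (1 / 2 : ℝ) ≤ max 1 |θ| := (by norm_num : (1 / 2 : ℝ) ≤ 1).trans (le_max_left _ _)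
  have main := field_law_fam (F := filB β F J C) (d := datB β J C) hH.prob hJ.n_top
    (opB hβ0 hβ1 C) (fun _ => rfl) hJ.r0 hJ.r1
    (fun k s hk hks hs => n2All _ _ hH k hk s hks hs) hc (qBO hβ0 hβ1 hG C) hφ
    (u := fun _ _ => 1 / 2) (v := fun _ _ => e / 2) (α := fun p => p.2.α)
    (θ := fun _ => θ) (C := max 1 |θ|) ((abs_nonneg θ).trans (le_max_right _ _))
    (fun _ _ => by rw [abs_of_pos (by norm_num : (0 : ℝ) < 1 / 2)]; exact hM1)
    (fun _ _ => hεb.trans hM1) (fun _ => le_max_right _ _)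
  refine main.congr fun p => ?_
  exact baseE_eq (datB β J C p) e θ he rfl p.2.φ p.2.α

end

theorem baseU_auxO {β : ℝ} (hβ0 : 0 ≤ β) (hβ1 : β ≤ 1) {I : Type} {F : Filter I} {n : I → ℕ}
    {J : ∀ i, Mat (n i)} (hG : GoodO β F n J) (C θ : ℝ) {e ε : ℝ} (he : e = 1 ∨ e = -1)
    (hε : 0 < ε) :
    ∃ η > 0, ∀ᶠ i in F, ∀ p : TB (J i) C, |p.H β| ≤ η → |p.E β θ e| ≤ ε :=
  unif_of_filter (D := fun i => TB (J i) C) (H := fun _ p => p.H β) (E := fun _ p => p.E β θ e)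
    (baseE_tendstoO hβ0 hβ1 hG C θ he) ε hε

/-- D3a', uniform form -/
theorem baseUO {β : ℝ} (hβ0 : 0 ≤ β) (hβ1 : β ≤ 1) : BaseUO β := by
  intro I F n J hG θ ε C e hε he
  obtain ⟨η, hη, h1⟩ := baseU_auxO hβ0 hβ1 hG C θ hε he
  refine ⟨η, hη, ?_⟩
  filter_upwards [h1, hG.op 1 one_pos, hG.hn.eventually (eventually_ge_atTop 1)]
    with i h2 hop hn
  have hop3 : OpLe (J i) 3 := by
    norm_num at hop
    exact hop
  intro ν φ α hν hφ hdlr
  exact baseU_fix hn h2 ν φ α hν hφ hop3 hdlr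

end Vale.Agent.P150.F.D3
end

section

open MeasureTheory ProbabilityTheory Filter Topology
open scoped Matrix

namespace Vale.Agent.P150.F.D3

namespace BH

theorem singleO {β : ℝ} (h0 : 0 ≤ β) (h1 : β ≤ 1) (hB : BaseUO β) {I : Type} {F : Filter I}
    {n : I → ℕ} {J : ∀ i, Mat (n i)} (hG : GoodO β F n J) (θ ε α : ℝ) (hε : ε = 1 ∨ ε = -1)
    {e : ℝ} (he : 0 < e) : ∃ η > 0, ∀ᶠ i in F, ∀ (m : ℕ) (w : Cfg (n i) → (Fin m → ℝ) → ℝ),
      JL w → ∫ ξ, dlr (β • J i) 0 (fun x => w x ξ) ∂(gpi (Fin m)) ≤ η * n i →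
      EJ w (fun x _ => |Zd β θ ε α (J i) x|) ≤ e := by
  obtain ⟨η, hη, h⟩ := hB F n J hG θ ε (cZ θ) (e ^ 2 / 2) hε (by positivity)
  refine ⟨η * (e ^ 2 / 8), by positivity, ?_⟩
  filter_upwards [h, hG.op 1 one_pos, hG.hn.eventually_gt_atTop 0] with i hi hop hn m w hw hd
  have hop' : OpLe (J i) 3 := by
    have : (2 : ℝ) + 1 = 3 := by norm_num
    rwa [this] at hop
  have hmac := macro_Zd (α := α) h0 h1 hε (θ := θ) hop'
  have hb2 : ∀ (x : Cfg (n i)) (_ : Fin m → ℝ), |Zd β θ ε α (J i) x ^ 2| ≤ 4 := by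
    intro x _
    rw [abs_pow]
    have := pow_le_pow_left₀ (abs_nonneg _) (abs_Zd_le (α := α) (θ := θ) (β := β) hε (J i) x) 2
    linarith only [this]
  have key := lift hw (β • J i) (y := fun _ => 0) measurable_const hn hη
    (ε := e ^ 2 / 2) (by positivity) (C := 4) (by norm_num)
    (Φ := fun x _ => Zd β θ ε α (J i) x ^ 2) (fun _ => measurable_const) hb2 (fun ξ ν hν hdν => by
      have h2 := hi ν (Zd β θ ε α (J i)) (fun _ => α) hν hmac hdν
      have e1 : (fun x => Zd β θ ε α (J i) x ^ 2) = fun x => Zd β θ ε α (J i) x *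
        ((∑ j, ind ε (sv x j) * Real.cos (α + θ * (β • J i).mulVec (sv x) j)) / n i
            - Real.exp (-(θ ^ 2 * β ^ 2 / 2)) *
              ((∑ j, ind ε (sv x j) * Real.cos (α + θ * (β ^ 2 * ε))) / n i)) := by
        funext x
        rw [pow_two]
        rfl
      rw [e1]
      exact h2) hd
  have e2 : e ^ 2 / 2 + 4 * (η * (e ^ 2 / 8) / η) = e ^ 2 := by
    field_simp
    ring
  rw [e2] at key
  have h3 := EJ_le_sqrt hw (Φ := fun x _ => |Zd β θ ε α (J i) x|)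
    (JI.of_bdd hw (fun _ => measurable_const) (C := 2) fun x _ => by
      rw [abs_abs]; exact abs_Zd_le hε (J i) x)
    (JI.of_bdd hw (fun _ => measurable_const) (C := 4) fun x ξ => by
      rw [sq_abs]; exact hb2 x ξ)
  refine h3.trans ?_
  simp only [sq_abs]
  rw [← Real.sqrt_sq he.le]
  exact Real.sqrt_le_sqrt ((le_abs_self _).trans key)

/-- finitely many statistics at once -/
theorem finiteO {β : ℝ} (h0 : 0 ≤ β) (h1 : β ≤ 1) (hB : BaseUO β) {I : Type} {F : Filter I}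
    {n : I → ℕ} {J : ∀ i, Mat (n i)} (hG : GoodO β F n J) (S : Finset (ℝ × ℝ × ℝ))
    (hS : ∀ p ∈ S, p.2.1 = 1 ∨ p.2.1 = -1)
    {e : ℝ} (he : 0 < e) : ∃ η > 0, ∀ᶠ i in F, ∀ (m : ℕ) (w : Cfg (n i) → (Fin m → ℝ) → ℝ),
      JL w → ∫ ξ, dlr (β • J i) 0 (fun x => w x ξ) ∂(gpi (Fin m)) ≤ η * n i →
      ∀ p ∈ S, EJ w (fun x _ => |Zd β p.1 p.2.1 p.2.2 (J i) x|) ≤ e := by
  classical
  induction S using Finset.induction_on with
  | empty => exact ⟨1, one_pos, Eventually.of_forall fun i m w _ _ p hp => by simp at hp⟩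
  | insert a s ha ih =>
    obtain ⟨η₁, hη₁, h₁⟩ := ih fun p hp => hS p (Finset.mem_insert_of_mem hp)
    obtain ⟨η₂, hη₂, h₂⟩ := singleO h0 h1 hB hG a.1 a.2.1 a.2.2
      (hS a (Finset.mem_insert_self _ _)) he
    refine ⟨min η₁ η₂, lt_min hη₁ hη₂, ?_⟩
    filter_upwards [h₁, h₂] with i q1 q2 m w hw hd p hp
    have hn : (0 : ℝ) ≤ n i := Nat.cast_nonneg _
    rcases Finset.mem_insert.1 hp with rfl | hp'
    · exact q2 m w hw (hd.trans (mul_le_mul_of_nonneg_right (min_le_right _ _) hn))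
    · exact q1 m w hw (hd.trans (mul_le_mul_of_nonneg_right (min_le_left _ _) hn)) p hp'

end BH

open BH in
/-- the laws of the zero-field local fields -/
theorem d3bH_ofO {β κ : ℝ} (h0 : 0 ≤ β) (h1 : β ≤ 1) (hB : BaseUO β) : D3bHO β κ := by
  intro I F n J hG f C₁ hf hC C e he
  obtain ⟨Θ, η, hη, h⟩ := L3A f C₁ hf hC 9 1 e he
  classical
  obtain ⟨η', hη', h'⟩ := finiteO h0 h1 hB hG
    (Θ ×ˢ (({1, -1} : Finset ℝ) ×ˢ ({0, -(Real.pi / 2)} : Finset ℝ))) (fun p hp => by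
      have h2 := (Finset.mem_product.1 (Finset.mem_product.1 hp).2).1
      rcases Finset.mem_insert.1 h2 with h3 | h3
      · exact Or.inl h3
      · exact Or.inr (Finset.mem_singleton.1 h3)) hη
  refine ⟨η', hη', ?_⟩
  filter_upwards [h', hG.op 1 one_pos, hG.hn.eventually_gt_atTop 0] with i hi hop hn m R s w _ hw
  have hop' : OpLe (J i) 3 := by
    have : (2 : ℝ) + 1 = 3 := by norm_num
    rwa [this] at hop
  have hsq : ∀ x : Cfg (n i), sq ((β • J i).mulVec (sv x)) ≤ 9 * n i := by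
    intro x
    have e1 : (β • J i).mulVec (sv x) = β • (J i).mulVec (sv x) := Matrix.smul_mulVec _ _ _
    have e2 : sq (β • (J i).mulVec (sv x)) = β ^ 2 * sq ((J i).mulVec (sv x)) := by
      unfold sq
      rw [Finset.mul_sum]
      exact Finset.sum_congr rfl fun j _ => by rw [Pi.smul_apply, smul_eq_mul, mul_pow]
    have e3 : sq (sv x) = n i := by
      unfold sq sv
      simp [sp_sq, pow_two]
    rw [e1, e2]
    have h2 := hop' (sv x)
    rw [e3] at h2
    have h3 : β ^ 2 ≤ 1 := pow_le_one₀ h0 h1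
    have h4 : 0 ≤ sq ((J i).mulVec (sv x)) := Finset.sum_nonneg fun _ _ => sq_nonneg _
    linarith only [h2, mul_nonneg (sub_nonneg.2 h3) h4]
  have hd := hi m w hw.law hw.J1
  refine h (n i) m hn w hw.law (fun x _ => (β • J i).mulVec (sv x)) (fun _ _ => measurable_const)
    (fun x => (hw.law.int x).mul_const _) ?_ (β ^ 2) (sq_nonneg _) (pow_le_one₀ h0 h1) ?_
  · exact EJ_le_of_le hw.law (by positivity) fun x _ => hsq x
  · intro θ hθ ε hε
    have hεm : ε ∈ ({1, -1} : Finset ℝ) := by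
      rcases hε with rfl | rfl <;> simp
    have hc := hd (θ, ε, 0) (Finset.mem_product.2 ⟨hθ, Finset.mem_product.2 ⟨hεm, by simp⟩⟩)
    have hs := hd (θ, ε, -(Real.pi / 2))
      (Finset.mem_product.2 ⟨hθ, Finset.mem_product.2 ⟨hεm, by simp⟩⟩)
    refine ⟨?_, ?_⟩
    · refine le_trans (le_of_eq ?_) hc
      refine EJ_congr fun x _ => ?_
      congr 1
      unfold Zd
      simp only [zero_add]
      rw [← mul_div_assoc, ← sub_div, Finset.mul_sum, ← Finset.sum_sub_distrib]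
      congr 1
      exact Finset.sum_congr rfl fun j _ => by ring
    · refine le_trans (le_of_eq ?_) hs
      refine EJ_congr fun x _ => ?_
      congr 1
      unfold Zd
      have e1 : ∀ u : ℝ, Real.cos (-(Real.pi / 2) + u) = Real.sin u := by
        intro u
        rw [show -(Real.pi / 2) + u = u - Real.pi / 2 by ring, Real.cos_sub_pi_div_two]
      simp only [e1]
      rw [← mul_div_assoc, ← sub_div, Finset.mul_sum, ← Finset.sum_sub_distrib]
      congr 1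
      exact Finset.sum_congr rfl fun j _ => by ring

section

variable {I : Type} {F : Filter I} {n : I → ℕ} {J : ∀ i, Mat (n i)} {β κ C : ℝ}

/-- the step at the level of joint laws -/
theorem step_liftO (hG : GoodO β F n J) (hβ : β ≤ 1) (hS : StepUO β) (k : ℕ) {θ ε : ℝ}
    (hε : ε = 1 ∨ ε = -1) {φ : ∀ p : Σ i, JD (n i), Cfg (n p.1) → (Fin p.2.m → ℝ) → ℝ} {C' : ℝ}
    (hφm : ∀ᶠ p in jF F n J β κ C, ∀ x, Measurable (φ p x))
    (hφ : ∀ᶠ p in jF F n J β κ C, ∀ ξ, Macro C' (fun x => φ p x (bsh p.2.R p.2.s x ξ)))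
    (α : (Σ i, JD (n i)) → ℝ) :
    Tendsto (fun p : Σ i, JD (n i) => EJ p.2.w (fun x ξ => φ p x ξ *
      (Real.exp (θ ^ 2 * Cj J β k p x ξ / 2) *
        chr ε θ (α p - θ * (Cj J β k p x ξ * ε)) (Aj J β k p x ξ) x
        - chr ε θ (α p) (Aj J β (k + 1) p x ξ) x))) (jF F n J β κ C) (𝓝 0) := by
  rw [Metric.tendsto_nhds]
  intro e he
  set C₀ : ℝ := |C'| * (Real.exp (θ ^ 2) + 1) with hC₀
  have hC₀0 : 0 ≤ C₀ := by (clear * -; positivity)
  obtain ⟨η, hη, h1⟩ := hS F n J hG k θ ε C' (e / 4) hε (by linarith only [he])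
  set η₁ : ℝ := e * η / (4 * (C₀ + 1)) with hη₁
  have hη₁0 : 0 < η₁ := by (clear * - he hη; positivity)
  have hn : ∀ᶠ i in F, 0 < n i := hG.hn.eventually (eventually_gt_atTop 0)
  filter_upwards [jF_fst h1, jF_fst hn, jF_hyp hη₁0, hφm, hφ] with p hp1 hpn hp2 hpm hpφ
  obtain ⟨hs, η', hη'0, hη', hJ⟩ := hp2
  have hs0 : 0 ≤ p.2.s := hs.1
  have hr : β - p.2.s ∈ Set.Icc (0 : ℝ) 1 := ⟨by linarith only [hs.2], by linarith only [hs0, hβ]⟩
  have hn' : (0 : ℝ) < n p.1 := by exact_mod_cast hpn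
  rw [Real.dist_eq, sub_zero]
  rw [EJ_shift p.2.R hs0]
  set Φ : Cfg (n p.1) → (Fin p.2.m → ℝ) → ℝ := fun x ξ => φ p x (bsh p.2.R p.2.s x ξ) *
      (Real.exp (θ ^ 2 * cst (Mj J β p) (β - p.2.s) (√p.2.s • p.2.R.mulVec ξ) k x / 2) *
        chr ε θ (α p - θ * (cst (Mj J β p) (β - p.2.s) (√p.2.s • p.2.R.mulVec ξ) k x * ε))
          (ampA (Mj J β p) (β - p.2.s) (√p.2.s • p.2.R.mulVec ξ) x k) x
        - chr ε θ (α p) (ampA (Mj J β p) (β - p.2.s) (√p.2.s • p.2.R.mulVec ξ) x (k + 1)) x)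
    with hΦ
  have e1 : (fun x ξ => φ p x (bsh p.2.R p.2.s x ξ) *
      (Real.exp (θ ^ 2 * Cj J β k p x (bsh p.2.R p.2.s x ξ) / 2) *
        chr ε θ (α p - θ * (Cj J β k p x (bsh p.2.R p.2.s x ξ) * ε))
          (Aj J β k p x (bsh p.2.R p.2.s x ξ)) x
        - chr ε θ (α p) (Aj J β (k + 1) p x (bsh p.2.R p.2.s x ξ)) x)) = Φ := by
    funext x ξ
    rw [hΦ]
    unfold Cj Aj
    rw [obs_bsh p.2.R hs0]
  rw [e1]
  have hbm : ∀ x, Measurable fun ξ : Fin p.2.m → ℝ => bsh p.2.R p.2.s x ξ := by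
    intro x
    unfold bsh
    exact measurable_id.sub_const _
  have hΦm : ∀ x, Measurable (Φ x) := by
    intro x
    have h2 : Measurable fun ξ => φ p x ξ *
      (Real.exp (θ ^ 2 * Cj J β k p x ξ / 2) *
        chr ε θ (α p - θ * (Cj J β k p x ξ * ε)) (Aj J β k p x ξ) x
        - chr ε θ (α p) (Aj J β (k + 1) p x ξ) x) := (hpm x).mul (measurable_step k ε θ _ p x)
    have h3 := h2.comp (hbm x)
    have e2 := congrFun e1 x
    rw [← e2]
    exact h3
  have hΦb : ∀ x ξ, |Φ x ξ| ≤ C₀ := by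
    intro x ξ
    rw [hΦ]
    simp only
    rw [abs_mul]
    exact mul_le_mul (((hpφ ξ).1 x).trans (le_abs_self _))
      (abs_step_le hε _ _ _ (abs_cst_le _ hr _ _ _) _ _ _) (abs_nonneg _) (abs_nonneg _)
  have hy : Measurable fun ξ : Fin p.2.m → ℝ => √p.2.s • p.2.R.mulVec ξ := by
    refine measurable_pi_iff.2 fun j => ?_
    exact (measurable_mulVec_apply p.2.R j).const_mul _
  have key := lift (hJ.law.shw p.2.R hs0) (Mj J β p) hy hpn hη (by linarith only [he] : 0 ≤ e / 4) hC₀0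
    hΦm hΦb (fun ξ ν hν hd => hp1 (β - p.2.s) _ ν _ (α p) hr hν (hpφ ξ) hd)
    (hJ.J2)
  have h5 : C₀ * (η' / η) ≤ e / 4 := by
    have h6 : η' / η ≤ e / (4 * (C₀ + 1)) := by
      rw [div_le_iff₀ hη]
      calc η' ≤ η₁ := hη'
        _ = e / (4 * (C₀ + 1)) * η := by rw [hη₁]; ring
    calc C₀ * (η' / η) ≤ (C₀ + 1) * (e / (4 * (C₀ + 1))) := by
          refine mul_le_mul (by linarith only []) h6 (by (clear * - hη'0 hη; positivity)) (by linarith only [hC₀0])
      _ = e / 4 := by field_simp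
  linarith only [he, key, h5]

/-- the base at the level of joint laws -/
theorem base_liftO (hG : GoodO β F n J) (hB : BaseUO β) {θ ε : ℝ}
    (hε : ε = 1 ∨ ε = -1) {φ : ∀ p : Σ i, JD (n i), Cfg (n p.1) → (Fin p.2.m → ℝ) → ℝ} {C' : ℝ}
    (hφm : ∀ᶠ p in jF F n J β κ C, ∀ x, Measurable (φ p x))
    (hφ : ∀ᶠ p in jF F n J β κ C, ∀ ξ, Macro C' (fun x => φ p x ξ))
    (α : ∀ p : Σ i, JD (n i), (Fin p.2.m → ℝ) → Vec (n p.1))
    (hα : ∀ p j, Measurable fun ξ => α p ξ j) :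
    Tendsto (fun p : Σ i, JD (n i) => EJ p.2.w (fun x ξ => φ p x ξ *
      ((∑ j, ind ε (sv x j) * Real.cos (α p ξ j + θ * (β • J p.1).mulVec (sv x) j)) / n p.1
            - Real.exp (-(θ ^ 2 * β ^ 2 / 2)) *
              ((∑ j, ind ε (sv x j) * Real.cos (α p ξ j + θ * (β ^ 2 * ε))) / n p.1))))
      (jF F n J β κ C) (𝓝 0) := by
  rw [Metric.tendsto_nhds]
  intro e he
  set C₀ : ℝ := |C'| * 2 with hC₀
  have hC₀0 : 0 ≤ C₀ := by (clear * -; positivity)
  obtain ⟨η, hη, h1⟩ := hB F n J hG θ ε C' (e / 4) hε (by linarith only [he])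
  set η₁ : ℝ := e * η / (4 * (C₀ + 1)) with hη₁
  have hη₁0 : 0 < η₁ := by (clear * - he hη; positivity)
  have hn : ∀ᶠ i in F, 0 < n i := hG.hn.eventually (eventually_gt_atTop 0)
  filter_upwards [jF_fst h1, jF_fst hn, jF_hyp hη₁0, hφm, hφ] with p hp1 hpn hp2 hpm hpφ
  obtain ⟨hs, η', hη'0, hη', hJ⟩ := hp2
  rw [Real.dist_eq, sub_zero]
  have hΦb : ∀ x ξ, |φ p x ξ *
      ((∑ j, ind ε (sv x j) * Real.cos (α p ξ j + θ * (β • J p.1).mulVec (sv x) j)) / n p.1
            - Real.exp (-(θ ^ 2 * β ^ 2 / 2)) *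
              ((∑ j, ind ε (sv x j) * Real.cos (α p ξ j + θ * (β ^ 2 * ε))) / n p.1))|
      ≤ C₀ := by
    intro x ξ
    rw [abs_mul]
    have b1 : ∀ u : Vec (n p.1),
        |(∑ j, ind ε (sv x j) * Real.cos (u j)) / n p.1| ≤ 1 := fun u =>
      abs_avg_le zero_le_one fun j => by
        rw [abs_mul]
        exact mul_le_one₀ (abs_ind_le hε x j) (abs_nonneg _) (Real.abs_cos_le_one _)
    refine mul_le_mul (((hpφ ξ).1 x).trans (le_abs_self _)) ?_ (abs_nonneg _) (abs_nonneg _)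
    refine (abs_sub _ _).trans ?_
    rw [abs_mul, Real.abs_exp]
    have e1 : Real.exp (-(θ ^ 2 * β ^ 2 / 2)) ≤ 1 := Real.exp_le_one_iff.2 (by
      have : 0 ≤ θ ^ 2 * β ^ 2 / 2 := by (clear * -; positivity)
      linarith only [this])
    have b2 := b1 (fun j => α p ξ j + θ * (β • J p.1).mulVec (sv x) j)
    have b3 := b1 (fun j => α p ξ j + θ * (β ^ 2 * ε))
    have b4 := mul_le_one₀ e1 (abs_nonneg _) b3
    linarith only [b4, b2]
  have hΦm : ∀ x, Measurable (fun ξ => φ p x ξ *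
      ((∑ j, ind ε (sv x j) * Real.cos (α p ξ j + θ * (β • J p.1).mulVec (sv x) j)) / n p.1
            - Real.exp (-(θ ^ 2 * β ^ 2 / 2)) *
              ((∑ j, ind ε (sv x j) * Real.cos (α p ξ j + θ * (β ^ 2 * ε))) / n p.1))) := by
    intro x
    refine (hpm x).mul (((Finset.measurable_fun_sum _ fun j _ => ?_).div_const _).sub
      (((Finset.measurable_fun_sum _ fun j _ => ?_).div_const _).const_mul _))
    · exact (Real.measurable_cos.comp ((hα p j).add_const _)).const_mul _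
    · exact (Real.measurable_cos.comp ((hα p j).add_const _)).const_mul _
  have key := lift hJ.law (β • J p.1) (y := fun _ => 0) measurable_const hpn hη
    (by linarith only [he] : 0 ≤ e / 4) hC₀0
    hΦm hΦb (fun ξ ν hν hd => hp1 ν _ (α p ξ) hν (hpφ ξ) hd)
    (hJ.J1)
  have h5 : C₀ * (η' / η) ≤ e / 4 := by
    have h6 : η' / η ≤ e / (4 * (C₀ + 1)) := by
      rw [div_le_iff₀ hη]
      calc η' ≤ η₁ := hη'
        _ = e / (4 * (C₀ + 1)) * η := by rw [hη₁]; ring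
    calc C₀ * (η' / η) ≤ (C₀ + 1) * (e / (4 * (C₀ + 1))) := by
          refine mul_le_mul (by linarith only []) h6 (by (clear * - hη'0 hη; positivity)) (by linarith only [hC₀0])
      _ = e / 4 := by field_simp
  linarith only [he, key, h5]

theorem evO (hG : GoodO β F n J) : ∀ᶠ p in jF F n J β κ C, Ev J β κ C p := by
  have hn : ∀ᶠ i in F, 0 < n i := hG.hn.eventually (eventually_gt_atTop 0)
  filter_upwards [jF_hyp (F := F) (n := n) (J := J) (β := β) (κ := κ) (C := C) one_pos,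
    jF_fst hn, jF_fst (hG.op 1 one_pos)] with p hp h1 h2
  obtain ⟨hs, η', _, _, hJ⟩ := hp
  exact ⟨hJ.law, hs.1, hs.2, hJ.hR, h1, by norm_num at h2; exact h2, hJ.J4i, hJ.J4⟩

namespace Ev

variable {p : Σ i, JD (n i)}

theorem opMO (h : Ev J β κ C p) (hβ : β ≤ 1) : OpLe (Mj J β p) 3 := by
  have h1 := h.op.smul (by norm_num) (β - p.2.s)
  refine h1.monoN (by positivity) ?_
  have h2 : |β - p.2.s| ≤ 1 := by
    rw [abs_of_nonneg (by linarith [h.sβ])]
    linarith only [h.s0, hβ]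
  linarith only [h2]

theorem r1O (h : Ev J β κ C p) (hβ : β ≤ 1) : β - p.2.s ≤ 1 := by linarith [h.s0]

theorem s1O (h : Ev J β κ C p) (hβ : β ≤ 1) : p.2.s ≤ 1 := by linarith [h.sβ]

end Ev

/-- general test functions -/
theorem LawA.testO (hG : GoodO β F n J) (hβ : β ≤ 1) (hκ : 0 ≤ κ) {k : ℕ}
    (hA : LawA F n J β κ C k) {f : ℝ → ℝ → ℝ} {C₁ : ℝ} (hf : ∀ ε, Continuous (f ε))
    (hC : ∀ ε a, |f ε a| ≤ C₁ * (1 + |a|)) :
    Tendsto (fun p : Σ i, JD (n i) => EJ p.2.w (fun x ξ =>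
      |(∑ j, (f (sv x j) (Aj J β k p x ξ j) - NEs f (gm β κ k p) (sv x j))) / n p.1|))
      (jF F n J β κ C) (𝓝 0) := by
  rw [Metric.tendsto_nhds]
  intro e he
  obtain ⟨Θ, η, hη, h3⟩ := L3A f C₁ hf hC (4 * (3 + κ) ^ 2 + 2 * (3 + 1) ^ 2 + 4 * C)
    (β ^ 2 + β * κ) (e / 2) (by linarith only [he])
  have hall : ∀ᶠ p in jF F n J β κ C, ∀ θ ∈ Θ, ∀ ε ∈ ({1, -1} : Finset ℝ),
      ∀ α ∈ ({0, -(Real.pi / 2)} : Finset ℝ),
      EJ p.2.w (fun x ξ => |Dv J β κ ε θ α k p x ξ|) ≤ η := by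
    rw [eventually_all_finset]
    intro θ _
    rw [eventually_all_finset]
    intro ε hε
    rw [eventually_all_finset]
    intro α _
    have hε' : ε = 1 ∨ ε = -1 := by simpa using hε
    have h4 := (hA θ ε α hε').eventually (gt_mem_nhds hη)
    exact h4.mono fun p hp => hp.le
  filter_upwards [hall, evO hG] with p hp hE
  rw [Real.dist_eq, sub_zero]
  have hm := EJ_sq_ampA_le hE.law hE.i4 hE.b4 (by norm_num : (0 : ℝ) ≤ 3) (hE.opMO hβ) hE.r0
    (hE.r1O hβ) hE.s0 (hE.s1O hβ) (by linarith only [hκ] : (0 : ℝ) ≤ 3 + κ) (hE.opR hκ) k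
  have h5 := h3 (n p.1) p.2.m hE.npos p.2.w hE.law (fun x ξ => Aj J β k p x ξ)
    (fun x j => measurable_Aj k p x j) hm.1 hm.2 (gm β κ k p) (hE.gm0 hκ k) (hE.gmle hκ k) ?_
  · rw [abs_of_nonneg (EJ_nonneg hE.law fun x ξ => abs_nonneg _)]
    linarith only [he, h5]
  · intro θ hθ ε hε
    have hε' : ε ∈ ({1, -1} : Finset ℝ) := by simpa using hε
    refine ⟨?_, ?_⟩
    · have := hp θ hθ ε hε' 0 (by simp)
      simpa only [Dv, ← dev_zero_eq] using this
    · have := hp θ hθ ε hε' (-(Real.pi / 2)) (by simp)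
      simpa only [Dv, ← dev_pi_eq] using this

theorem LawA.overlapO (hG : GoodO β F n J) (hβ : β ≤ 1) (hκ : 0 ≤ κ) {k : ℕ}
    (hA : LawA F n J β κ C k) :
    Tendsto (fun p : Σ i, JD (n i) => EJ p.2.w (fun x ξ =>
      |Qj J β (k + 1) p x ξ - Qb β κ (k + 1) p|)) (jF F n J β κ C) (𝓝 0) := by
  have h := hA.testO hG hβ hκ (f := fun _ a => Real.tanh a ^ 2) (C₁ := 1)
    (fun _ => continuous_tanh'.pow 2) (fun _ a => by
      have h1 : |Real.tanh a ^ 2| ≤ 1 := by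
        rw [abs_pow]
        exact pow_le_one₀ (abs_nonneg _) (Real.abs_tanh_lt_one a).le
      have h2 := abs_nonneg a
      linarith [h2, h1])
  refine h.congr' ?_
  filter_upwards [evO hG] with p hE
  refine EJ_congr fun x ξ => ?_
  congr 1
  have hn' : (n p.1 : ℝ) ≠ 0 := by exact_mod_cast hE.npos.ne'
  have h1 : ∀ j, NEs (fun _ a => Real.tanh a ^ 2) (gm β κ k p) (sv x j)
      = qRS (gm β κ k p) := fun j => mc_NEs_tanh_sq (hE.gm0 hκ k) (sv_eq x j)
  simp only [h1]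
  rw [Finset.sum_sub_distrib, sub_div]
  unfold Qj Qb
  rw [qq_ampM_succ]
  congr 1
  simp only [Finset.sum_const, Finset.card_univ, Fintype.card_fin, nsmul_eq_mul]
  field_simp

theorem overlap_zeroO (hG : GoodO β F n J) :
    Tendsto (fun p : Σ i, JD (n i) => EJ p.2.w (fun x ξ =>
      |Qj J β 0 p x ξ - Qb β κ 0 p|)) (jF F n J β κ C) (𝓝 0) := by
  refine tendsto_const_nhds.congr' ?_
  filter_upwards [evO hG] with p hE
  have h1 : EJ p.2.w (fun x ξ => |Qj J β 0 p x ξ - Qb β κ 0 p|)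
      = EJ p.2.w (fun _ _ => (0 : ℝ)) := by
    refine EJ_congr fun x ξ => ?_
    unfold Qj Qb
    rw [qq_ampM_zero hE.npos, sub_self, abs_zero]
  rw [h1, EJ_const hE.law]

lemma Ev.abs_Cb_leO {p : Σ i, JD (n i)} (h : Ev J β κ C p) (hβ : β ≤ 1) (hκ : 0 ≤ κ) (k : ℕ) :
    |Cb β κ k p| ≤ 1 := by
  unfold Cb
  have h1 : (β - p.2.s) ^ 2 ≤ 1 := pow_le_one₀ h.r0 (h.r1O hβ)
  have a := h.Qb_mem hκ k
  have b := h.Qb_mem hκ (k + 1)
  rw [abs_mul, abs_of_nonneg (sq_nonneg _)]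
  refine mul_le_one₀ h1 (abs_nonneg _) ?_
  rw [abs_le]
  constructor <;> linarith [a.1, a.2, b.1, b.2]

/-- convergence of the step variances -/
theorem tendsto_CO (hG : GoodO β F n J) (hβ : β ≤ 1) (hκ : 0 ≤ κ) {k : ℕ}
    (h1 : Tendsto (fun p : Σ i, JD (n i) => EJ p.2.w (fun x ξ =>
      |Qj J β k p x ξ - Qb β κ k p|)) (jF F n J β κ C) (𝓝 0))
    (h2 : Tendsto (fun p : Σ i, JD (n i) => EJ p.2.w (fun x ξ =>
      |Qj J β (k + 1) p x ξ - Qb β κ (k + 1) p|)) (jF F n J β κ C) (𝓝 0)) :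
    Tendsto (fun p : Σ i, JD (n i) => EJ p.2.w (fun x ξ =>
      |Cj J β k p x ξ - Cb β κ k p|)) (jF F n J β κ C) (𝓝 0) := by
  have h3 := h1.add h2
  rw [add_zero] at h3
  refine squeeze_zero' ?_ ?_ h3
  · filter_upwards [evO hG] with p hE
    exact EJ_nonneg hE.law fun x ξ => abs_nonneg _
  · filter_upwards [evO hG] with p hE
    have hb : ∀ k, JI p.2.w (fun x ξ => |Qj J β k p x ξ - Qb β κ k p|) := fun k =>
      (JI.of_bdd hE.law (fun x => (measurable_Qj k p x).sub_const _) (C := 2) (fun x ξ => by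
        have := Ev.abs_Qj_le (J := J) (β := β) k x ξ
        have h4 := hE.Qb_mem hκ k
        refine (abs_sub _ _).trans ?_
        rw [abs_of_nonneg h4.1]
        linarith only [h4.2, this])).abs hE.law
    rw [← EJ_add (hb k) (hb (k + 1))]
    refine EJ_mono_nonneg hE.law ((hb k).add (hb (k + 1))) (fun x ξ => abs_nonneg _)
      fun x ξ => ?_
    unfold Cj cst Cb
    have e1 : (β - p.2.s) ^ 2 * (qq (ampM (Mj J β p) (β - p.2.s) (obs p.2.R p.2.s x ξ) x k)
        - qq (ampM (Mj J β p) (β - p.2.s) (obs p.2.R p.2.s x ξ) x (k + 1)))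
        - (β - p.2.s) ^ 2 * (Qb β κ k p - Qb β κ (k + 1) p)
        = (β - p.2.s) ^ 2 * ((Qj J β k p x ξ - Qb β κ k p)
          - (Qj J β (k + 1) p x ξ - Qb β κ (k + 1) p)) := by
      unfold Qj
      ring
    rw [e1, abs_mul, abs_of_nonneg (sq_nonneg _)]
    have h4 : (β - p.2.s) ^ 2 ≤ 1 := pow_le_one₀ hE.r0 (hE.r1O hβ)
    calc _ ≤ 1 * |(Qj J β k p x ξ - Qb β κ k p) - (Qj J β (k + 1) p x ξ - Qb β κ (k + 1) p)| :=
          mul_le_mul_of_nonneg_right h4 (abs_nonneg _)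
      _ ≤ _ := by rw [one_mul]; exact abs_sub _ _

/-- the deviations are jointly macroscopic -/
theorem jmac_DvO (hG : GoodO β F n J) (hβ : β ≤ 1) (hκ : 0 ≤ κ) (k : ℕ) {ε : ℝ}
    (hε : ε = 1 ∨ ε = -1) (θ α : ℝ) :
    ∃ C' : ℝ, ∀ᶠ p in jF F n J β κ C, JMac p.2.R p.2.s C' (fun x ξ => Dv J β κ ε θ α k p x ξ) := by
  have hε1 : |ε| ≤ 1 := by rcases hε with rfl | rfl <;> simp
  obtain ⟨C1, hC1, h1⟩ := jmac_amp 3 (3 + κ) (1 + |θ| + θ ^ 2) (by norm_num) (by linarith only [hκ])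
    (by positivity) k
  obtain ⟨C2, hC2, h2⟩ := jmac_amp 3 (3 + κ) (1 + |(0 : ℝ)| + 0 ^ 2) (by norm_num) (by linarith only [hκ])
    (by (clear * -; positivity)) k
  refine ⟨C1 + 1 * C2, ?_⟩
  filter_upwards [evO hG] with p hE
  have j1 := h1 (n p.1) p.2.m (Mj J β p) (β - p.2.s) p.2.R p.2.s _ _ (hE.opMO hβ) hE.r0 (hE.r1O hβ)
    (hE.opR hκ) hE.s0 (hE.s1O hβ) (fun e => by fun_prop) (test_cos hε1 θ α)
  have j2 := h2 (n p.1) p.2.m (Mj J β p) (β - p.2.s) p.2.R p.2.s _ _ (hE.opMO hβ) hE.r0 (hE.r1O hβ)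
    (hE.opR hκ) hE.s0 (hE.s1O hβ) (fun e => by fun_prop) (test_cos hε1 0 0)
  set b : ℝ := Real.exp (-(θ ^ 2 * gm β κ k p / 2)) * Real.cos (α + θ * (gm β κ k p * ε)) with hb
  have hb1 : |b| ≤ 1 := by
    rw [hb, abs_mul, Real.abs_exp]
    have e1 : Real.exp (-(θ ^ 2 * gm β κ k p / 2)) ≤ 1 := Real.exp_le_one_iff.2 (by
      have := hE.gm0 hκ k
      have : 0 ≤ θ ^ 2 * gm β κ k p / 2 := by (clear * - this; positivity)
      linarith only [this])
    exact mul_le_one₀ e1 (abs_nonneg _) (Real.abs_cos_le_one _)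
  have j3 := jmac_sub j1 (jmac_mono (jmac_const_mul b j2)
    (mul_le_mul_of_nonneg_right hb1 hC2))
  refine jmac_congr j3 fun x ξ => ?_
  unfold Dv dev chr fr Aj
  rw [← hb]
  simp only [zero_mul, add_zero, Real.cos_zero, mul_one]
  congr 2
  refine Finset.sum_congr rfl fun j _ => ?_
  rw [add_comm (θ * _) α]

/-- from the second moment to the first -/
theorem law_of_sqO (hG : GoodO β F n J) (hκ : 0 ≤ κ) {k : ℕ}
    (h : ∀ θ ε α : ℝ, (ε = 1 ∨ ε = -1) →
      Tendsto (fun p : Σ i, JD (n i) => EJ p.2.w (fun x ξ =>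
        Dv J β κ ε θ α k p x ξ * Dv J β κ ε θ α k p x ξ)) (jF F n J β κ C) (𝓝 0)) :
    LawA F n J β κ C k := by
  intro θ ε α hε
  have h1 := (Real.continuous_sqrt.tendsto 0).comp (h θ ε α hε)
  rw [Real.sqrt_zero] at h1
  refine squeeze_zero' ?_ ?_ h1
  · filter_upwards [evO hG] with p hE
    exact EJ_nonneg hE.law fun x ξ => abs_nonneg _
  · filter_upwards [evO hG] with p hE
    have hm : ∀ x, Measurable fun ξ => |Dv J β κ ε θ α k p x ξ| := fun x =>
      (measurable_Dv ε θ α k p x).abs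
    have hb : JI p.2.w (fun x ξ => |Dv J β κ ε θ α k p x ξ|) :=
      hE.JI_bdd hm (B := 2) fun x ξ => by
        rw [abs_abs]; exact hE.abs_Dv_le hκ hε θ α k x ξ
    have hb2 : JI p.2.w (fun x ξ => |Dv J β κ ε θ α k p x ξ| ^ 2) :=
      hE.JI_bdd (fun x => (hm x).pow_const 2) (B := 4) fun x ξ => by
        have := hE.abs_Dv_le hκ hε θ α k x ξ
        rw [abs_pow, abs_abs]
        linarith only [mul_nonneg (sub_nonneg.2 this) (sub_nonneg.2 (abs_nonneg (Dv J β κ ε θ α k p x ξ))), mul_nonneg (sub_nonneg.2 this) (sub_nonneg.2 this)]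
    refine (EJ_le_sqrt hE.law hb hb2).trans (le_of_eq ?_)
    simp only [Function.comp_apply]
    congr 1
    refine EJ_congr fun x ξ => ?_
    rw [sq_abs, pow_two]

/-- the induction step -/
theorem LawA.succO (hG : GoodO β F n J) (hβ : β ≤ 1) (hκ : 0 ≤ κ) (hS : StepUO β) {k : ℕ}
    (hA : LawA F n J β κ C k)
    (hc : Tendsto (fun p : Σ i, JD (n i) => EJ p.2.w (fun x ξ =>
      |Cj J β k p x ξ - Cb β κ k p|)) (jF F n J β κ C) (𝓝 0)) :
    LawA F n J β κ C (k + 1) := by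
  refine law_of_sqO hG hκ fun θ ε α hε => ?_
  obtain ⟨C', hC'⟩ := jmac_DvO (C := C) hG hβ hκ (k + 1) hε θ α
  have hstep := step_liftO (κ := κ) (C := C) hG hβ hS k (θ := θ) hε
    (φ := fun p x ξ => Dv J β κ ε θ α (k + 1) p x ξ) (C' := C')
    (hC'.mono fun p hp => hp.meas) (hC'.mono fun p hp => hp.mac') (fun _ => α)
  have h0 := hA θ ε 0 hε
  have h1 := hA θ ε (-(Real.pi / 2)) hε
  set L : ℝ := Real.exp (θ ^ 2) * (θ ^ 2 + |θ|) with hL
  have hL0 : 0 ≤ L := by (clear * -; positivity)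
  have hsum := (((tendsto_zero_iff_abs_tendsto_zero _).1 hstep).add (hc.const_mul (2 * L))).add
    (((h0.add h1).const_mul (2 * Real.exp (θ ^ 2))))
  simp only [mul_zero, add_zero] at hsum
  refine squeeze_zero' ?_ ?_ hsum
  · filter_upwards [evO hG] with p hE
    exact EJ_nonneg hE.law fun x ξ => mul_self_nonneg _
  · filter_upwards [evO hG] with p hE
    -- notation
    set D : Cfg (n p.1) → (Fin p.2.m → ℝ) → ℝ := fun x ξ => Dv J β κ ε θ α (k + 1) p x ξ with hD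
    set S : Cfg (n p.1) → (Fin p.2.m → ℝ) → ℝ := fun x ξ =>
      Real.exp (θ ^ 2 * Cj J β k p x ξ / 2) *
        chr ε θ (α - θ * (Cj J β k p x ξ * ε)) (Aj J β k p x ξ) x
        - chr ε θ α (Aj J β (k + 1) p x ξ) x with hS'
    have hDm : ∀ x, Measurable (D x) := fun x => measurable_Dv ε θ α (k + 1) p x
    have hSm : ∀ x, Measurable (S x) := fun x => measurable_step k ε θ α p x
    have hDb : ∀ x ξ, |D x ξ| ≤ 2 := fun x ξ => hE.abs_Dv_le hκ hε θ α (k + 1) x ξ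
    have hcb : ∀ x ξ, |Cj J β k p x ξ| ≤ 1 := fun x ξ =>
      abs_cst_le _ ⟨hE.r0, hE.r1O hβ⟩ _ _ _
    have hSb : ∀ x ξ, |S x ξ| ≤ Real.exp (θ ^ 2) + 1 := fun x ξ =>
      abs_step_le hε _ _ _ (hcb x ξ) _ _ _
    -- pointwise bound
    have hpt : ∀ x ξ, D x ξ * D x ξ ≤ -(D x ξ * S x ξ)
        + (2 * L) * |Cj J β k p x ξ - Cb β κ k p|
        + (2 * Real.exp (θ ^ 2)) * (|Dv J β κ ε θ 0 k p x ξ|
          + |Dv J β κ ε θ (-(Real.pi / 2)) k p x ξ|) := by
      intro x ξ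
      set a := Aj J β k p x ξ with ha
      set c := Cj J β k p x ξ with hc'
      set cb := Cb β κ k p with hcb'
      set g := gm β κ k p with hg
      have hcbb : |cb| ≤ 1 := hE.abs_Cb_leO hβ hκ k
      have e1 := deconv_dev ε θ α cb g a x
      have e2 : g - cb = gm β κ (k + 1) p := gm_sub_Cb k p
      rw [e2] at e1
      have e3 : D x ξ = -(S x ξ) + (Real.exp (θ ^ 2 * c / 2) * chr ε θ (α - θ * (c * ε)) a x
          - Real.exp (θ ^ 2 * cb / 2) * chr ε θ (α - θ * (cb * ε)) a x)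
          + Real.exp (θ ^ 2 * cb / 2) * dev ε θ (α - θ * (cb * ε)) g g a x := by
        have e4 : D x ξ = chr ε θ α (Aj J β (k + 1) p x ξ) x
            - Real.exp (-(θ ^ 2 * gm β κ (k + 1) p / 2)) *
              Real.cos (α + θ * (gm β κ (k + 1) p * ε)) * fr ε x := rfl
        have e5 : S x ξ = Real.exp (θ ^ 2 * c / 2) * chr ε θ (α - θ * (c * ε)) a x
            - chr ε θ α (Aj J β (k + 1) p x ξ) x := rfl
        rw [e4, e5]
        linarith [e1]
      have b1 := chr_lip hε θ α (hcb x ξ) hcbb a x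
      have b2 := abs_dev_le_of_phase ε θ (α - θ * (cb * ε)) g g a x
      have b3 : Real.exp (θ ^ 2 * cb / 2) ≤ Real.exp (θ ^ 2) := by
        refine Real.exp_le_exp.2 ?_
        have := (abs_le.1 hcbb).2
        linarith only [sq_nonneg θ, mul_nonneg (sub_nonneg.2 this) (sq_nonneg θ)]
      have hDx := hDb x ξ
      have f1 : D x ξ * (Real.exp (θ ^ 2 * c / 2) * chr ε θ (α - θ * (c * ε)) a x
          - Real.exp (θ ^ 2 * cb / 2) * chr ε θ (α - θ * (cb * ε)) a x)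
          ≤ (2 * L) * |c - cb| := by
        refine (le_abs_self _).trans ?_
        rw [abs_mul]
        calc _ ≤ 2 * (L * |c - cb|) := mul_le_mul hDx b1 (abs_nonneg _) (by norm_num)
          _ = _ := by ring
      have f2 : D x ξ * (Real.exp (θ ^ 2 * cb / 2) * dev ε θ (α - θ * (cb * ε)) g g a x)
          ≤ (2 * Real.exp (θ ^ 2)) * (|dev ε θ 0 g g a x| + |dev ε θ (-(Real.pi / 2)) g g a x|) := by
        refine (le_abs_self _).trans ?_
        rw [abs_mul, abs_mul, Real.abs_exp]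
        calc _ ≤ 2 * (Real.exp (θ ^ 2) * (|dev ε θ 0 g g a x|
              + |dev ε θ (-(Real.pi / 2)) g g a x|)) :=
              mul_le_mul hDx (mul_le_mul b3 b2 (abs_nonneg _) (Real.exp_pos _).le)
                (by (clear * -; positivity)) (by norm_num)
          _ = _ := by ring
      have e6 : D x ξ * D x ξ = -(D x ξ * S x ξ)
          + D x ξ * (Real.exp (θ ^ 2 * c / 2) * chr ε θ (α - θ * (c * ε)) a x
          - Real.exp (θ ^ 2 * cb / 2) * chr ε θ (α - θ * (cb * ε)) a x)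
          + D x ξ * (Real.exp (θ ^ 2 * cb / 2) * dev ε θ (α - θ * (cb * ε)) g g a x) := by
        nth_rewrite 2 [e3]
        ring
      rw [e6]
      have f3 : |dev ε θ 0 g g a x| + |dev ε θ (-(Real.pi / 2)) g g a x|
          = |Dv J β κ ε θ 0 k p x ξ| + |Dv J β κ ε θ (-(Real.pi / 2)) k p x ξ| := rfl
      rw [← f3]
      linarith only [f1, f2]
    -- integrate
    have i1 : JI p.2.w (fun x ξ => D x ξ * S x ξ) :=
      hE.JI_bdd (fun x => (hDm x).mul (hSm x)) (B := 2 * (Real.exp (θ ^ 2) + 1)) fun x ξ => by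
        rw [abs_mul]
        exact mul_le_mul (hDb x ξ) (hSb x ξ) (abs_nonneg _) (by norm_num)
    have i2 : JI p.2.w (fun x ξ => |Cj J β k p x ξ - Cb β κ k p|) :=
      hE.JI_bdd (fun x => ((measurable_Cj k p x).sub_const _).abs) (B := 2) fun x ξ => by
        rw [abs_abs]
        have := hE.abs_Cb_leO hβ hκ k
        have h3 := hcb x ξ
        exact (abs_sub _ _).trans (by linarith only [h3, this])
    have i3 : ∀ α', JI p.2.w (fun x ξ => |Dv J β κ ε θ α' k p x ξ|) := fun α' =>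
      hE.JI_bdd (fun x => (measurable_Dv ε θ α' k p x).abs) (B := 2) fun x ξ => by
        rw [abs_abs]; exact hE.abs_Dv_le hκ hε θ α' k x ξ
    have i4 := (i2.cmul (2 * L))
    have i5 := ((i3 0).add (i3 (-(Real.pi / 2)))).cmul (2 * Real.exp (θ ^ 2))
    have i6 : JI p.2.w (fun x ξ => -(D x ξ * S x ξ)) := by
      have := i1.cmul (-1)
      simpa using this
    have hle := EJ_mono_nonneg hE.law ((i6.add i4).add i5) (fun x ξ => mul_self_nonneg (D x ξ)) hpt
    refine hle.trans ?_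
    rw [EJ_add (i6.add i4) i5, EJ_add i6 i4, EJ_neg, EJ_cmul, EJ_cmul,
      EJ_add (i3 0) (i3 (-(Real.pi / 2)))]
    have := neg_le_abs (EJ p.2.w (fun x ξ => D x ξ * S x ξ))
    exact add_le_add (add_le_add this le_rfl) le_rfl

/-- the noise at time `s` -/
theorem tendsto_J3O (θ ε : ℝ) (hε : ε = 1 ∨ ε = -1) (hβ : β ≤ 1) (hG : GoodO β F n J) :
    Tendsto (fun p : Σ i, JD (n i) => EJ p.2.w (fun x ξ =>
      |(∑ j, ind ε (sv x j) * (Real.cos ((θ * √p.2.s) * p.2.R.mulVec ξ j)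
        - Real.exp (-((θ * √p.2.s) ^ 2 * κ / 2)))) / n p.1|)) (jF F n J β κ C) (𝓝 0) ∧
    Tendsto (fun p : Σ i, JD (n i) => EJ p.2.w (fun x ξ =>
      |(∑ j, ind ε (sv x j) * Real.sin ((θ * √p.2.s) * p.2.R.mulVec ξ j)) / n p.1|))
      (jF F n J β κ C) (𝓝 0) := by
  have key : ∀ e > 0, ∀ᶠ p in jF F n J β κ C,
      EJ p.2.w (fun x ξ =>
      |(∑ j, ind ε (sv x j) * (Real.cos ((θ * √p.2.s) * p.2.R.mulVec ξ j)
        - Real.exp (-((θ * √p.2.s) ^ 2 * κ / 2)))) / n p.1|) ≤ e ∧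
      EJ p.2.w (fun x ξ =>
      |(∑ j, ind ε (sv x j) * Real.sin ((θ * √p.2.s) * p.2.R.mulVec ξ j)) / n p.1|) ≤ e := by
    intro e he
    have hη : 0 < min e (1 / (|θ| + 1)) := by
      have : 0 < |θ| + 1 := by positivity
      positivity
    filter_upwards [jF_hyp (F := F) (n := n) (J := J) (β := β) (κ := κ) (C := C) hη] with p hp
    obtain ⟨hs, η', h0, h1, hJ⟩ := hp
    have hs1 : √p.2.s ≤ 1 := Real.sqrt_le_one.2 (by linarith only [hs.2, hβ])
    have h2 : |θ * √p.2.s| ≤ 1 / η' := by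
      have h3 : |θ * √p.2.s| ≤ |θ| := by
        rw [abs_mul, abs_of_nonneg (Real.sqrt_nonneg _)]
        exact mul_le_of_le_one_right (abs_nonneg _) hs1
      have h4 : η' ≤ 1 / (|θ| + 1) := h1.trans (min_le_right _ _)
      have h5 : |θ| + 1 ≤ 1 / η' := by
        rw [le_div_iff₀ h0]
        rw [le_div_iff₀ (by positivity)] at h4
        linarith
      linarith
    exact ⟨(hJ.J3c _ ε h2 hε).trans (h1.trans (min_le_left _ _)),
      (hJ.J3s _ ε h2 hε).trans (h1.trans (min_le_left _ _))⟩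
  constructor
  · rw [Metric.tendsto_nhds]
    intro e he
    filter_upwards [key (e / 2) (by linarith only [he]), evO hG] with p hp hE
    rw [Real.dist_eq, sub_zero, abs_of_nonneg (EJ_nonneg hE.law fun x ξ => abs_nonneg _)]
    linarith only [hp.1, he]
  · rw [Metric.tendsto_nhds]
    intro e he
    filter_upwards [key (e / 2) (by linarith), evO hG] with p hp hE
    rw [Real.dist_eq, sub_zero, abs_of_nonneg (EJ_nonneg hE.law fun x ξ => abs_nonneg _)]
    linarith only [hp.2, he]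

/-- the law of the first field -/
theorem LawA.zeroO (hG : GoodO β F n J) (hβ : β ≤ 1) (hκ : 0 ≤ κ) (hB : BaseUO β) :
    LawA F n J β κ C 0 := by
  refine law_of_sqO hG hκ fun θ ε α hε => ?_
  obtain ⟨C', hC'⟩ := jmac_DvO (C := C) hG hβ hκ 0 hε θ α
  have hbase := base_liftO (κ := κ) (C := C) hG hB (θ := θ) hε
    (φ := fun p x ξ => Dv J β κ ε θ α 0 p x ξ) (C' := C')
    (hC'.mono fun p hp => hp.meas) (hC'.mono fun p hp => hp.mac)
    (fun p ξ j => α + θ * (p.2.s * κ * ε + √p.2.s * p.2.R.mulVec ξ j))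
    (fun p j => (((measurable_mulVec_apply p.2.R j).const_mul _).const_add _
      |>.const_mul _).const_add _)
  obtain ⟨h3c, h3s⟩ := tendsto_J3O (κ := κ) (C := C) θ ε hε hβ hG
  have hsum := ((tendsto_zero_iff_abs_tendsto_zero _).1 hbase).add ((h3c.add h3s).const_mul 2)
  simp only [mul_zero, add_zero] at hsum
  refine squeeze_zero' ?_ ?_ hsum
  · filter_upwards [evO hG] with p hE
    exact EJ_nonneg hE.law fun x ξ => mul_self_nonneg _
  · filter_upwards [evO hG] with p hE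
    set D : Cfg (n p.1) → (Fin p.2.m → ℝ) → ℝ := fun x ξ => Dv J β κ ε θ α 0 p x ξ with hD
    set αξ : (Fin p.2.m → ℝ) → Vec (n p.1) := fun ξ j =>
      α + θ * (p.2.s * κ * ε + √p.2.s * p.2.R.mulVec ξ j) with hαξ
    set X : Cfg (n p.1) → (Fin p.2.m → ℝ) → ℝ := fun x ξ =>
      (∑ j, ind ε (sv x j) * Real.cos (αξ ξ j + θ * (β • J p.1).mulVec (sv x) j)) / n p.1
            - Real.exp (-(θ ^ 2 * β ^ 2 / 2)) *
              ((∑ j, ind ε (sv x j) * Real.cos (αξ ξ j + θ * (β ^ 2 * ε))) / n p.1) with hX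
    set Y : Cfg (n p.1) → (Fin p.2.m → ℝ) → ℝ := fun x ξ =>
      (∑ j, ind ε (sv x j) * (Real.cos ((θ * √p.2.s) * p.2.R.mulVec ξ j)
        - Real.exp (-((θ * √p.2.s) ^ 2 * κ / 2)))) / n p.1 with hY
    set Z : Cfg (n p.1) → (Fin p.2.m → ℝ) → ℝ := fun x ξ =>
      (∑ j, ind ε (sv x j) * Real.sin ((θ * √p.2.s) * p.2.R.mulVec ξ j)) / n p.1 with hZ
    have hss : √p.2.s * √p.2.s = p.2.s := Real.mul_self_sqrt hE.s0
    -- decomposition
    have hdec : ∀ x ξ, D x ξ = X x ξ + Real.exp (-(θ ^ 2 * β ^ 2 / 2)) *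
        (Real.cos (α + θ * ((β ^ 2 + p.2.s * κ) * ε)) * Y x ξ
          - Real.sin (α + θ * ((β ^ 2 + p.2.s * κ) * ε)) * Z x ξ) := by
      intro x ξ
      have e1 : chr ε θ α (Aj J β 0 p x ξ) x
          = (∑ j, ind ε (sv x j) * Real.cos (αξ ξ j + θ * (β • J p.1).mulVec (sv x) j))
            / n p.1 := by
        unfold chr
        congr 1
        refine Finset.sum_congr rfl fun j _ => ?_
        rcases ind_eq hε x j with h | h
        · rw [h.1, zero_mul, zero_mul]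
        · congr 2
          rw [hE.Aj_zero x ξ j, h.2]
          simp only [hαξ]
          ring
      have e2 : (∑ j, ind ε (sv x j) * Real.cos (αξ ξ j + θ * (β ^ 2 * ε))) / n p.1
          = Real.cos (α + θ * ((β ^ 2 + p.2.s * κ) * ε)) * Y x ξ
            - Real.sin (α + θ * ((β ^ 2 + p.2.s * κ) * ε)) * Z x ξ
            + Real.cos (α + θ * ((β ^ 2 + p.2.s * κ) * ε)) *
              (Real.exp (-((θ * √p.2.s) ^ 2 * κ / 2)) * fr ε x) := by
        simp only [hY, hZ, fr]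
        rw [← mul_div_assoc, ← mul_div_assoc, ← mul_div_assoc, ← mul_div_assoc, ← sub_div,
          ← add_div]
        congr 1
        rw [Finset.mul_sum, Finset.mul_sum, Finset.mul_sum, Finset.mul_sum,
          ← Finset.sum_sub_distrib, ← Finset.sum_add_distrib]
        refine Finset.sum_congr rfl fun j _ => ?_
        have e3 : αξ ξ j + θ * (β ^ 2 * ε) = (α + θ * ((β ^ 2 + p.2.s * κ) * ε))
            + (θ * √p.2.s) * p.2.R.mulVec ξ j := by
          simp only [hαξ]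
          ring
        rw [e3, Real.cos_add]
        ring
      have e4 : Real.exp (-(θ ^ 2 * gm β κ 0 p / 2))
          = Real.exp (-(θ ^ 2 * β ^ 2 / 2)) * Real.exp (-((θ * √p.2.s) ^ 2 * κ / 2)) := by
        rw [← Real.exp_add]
        congr 1
        have : gm β κ 0 p = β ^ 2 + p.2.s * κ := rfl
        rw [this, mul_pow, Real.sq_sqrt hE.s0]
        ring
      have e5 : gm β κ 0 p = β ^ 2 + p.2.s * κ := rfl
      have e6 : D x ξ = chr ε θ α (Aj J β 0 p x ξ) x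
            - Real.exp (-(θ ^ 2 * gm β κ 0 p / 2)) *
              Real.cos (α + θ * (gm β κ 0 p * ε)) * fr ε x := rfl
      rw [e6, e1, e4, e5]
      simp only [hX]
      rw [e2]
      ring
    have hDm : ∀ x, Measurable (D x) := fun x => measurable_Dv ε θ α 0 p x
    have hDb : ∀ x ξ, |D x ξ| ≤ 2 := fun x ξ => hE.abs_Dv_le hκ hε θ α 0 x ξ
    have hbm : ∀ j, Measurable fun ξ : Fin p.2.m → ℝ => p.2.R.mulVec ξ j := fun j =>
      measurable_mulVec_apply p.2.R j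
    have hYm : ∀ x, Measurable (Y x) := fun x =>
      (Finset.measurable_fun_sum _ fun j _ =>
        ((Real.measurable_cos.comp ((hbm j).const_mul _)).sub_const _).const_mul _).div_const _
    have hZm : ∀ x, Measurable (Z x) := fun x =>
      (Finset.measurable_fun_sum _ fun j _ =>
        (Real.measurable_sin.comp ((hbm j).const_mul _)).const_mul _).div_const _
    have hαm : ∀ j, Measurable fun ξ => αξ ξ j := fun j =>
      ((((hbm j).const_mul _).const_add _).const_mul _).const_add _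
    have hXm : ∀ x, Measurable (X x) := fun x => by
      refine ((Finset.measurable_fun_sum _ fun j _ => ?_).div_const _).sub
        (((Finset.measurable_fun_sum _ fun j _ => ?_).div_const _).const_mul _)
      · exact (Real.measurable_cos.comp ((hαm j).add_const _)).const_mul _
      · exact (Real.measurable_cos.comp ((hαm j).add_const _)).const_mul _
    have hexp1 : ∀ u : ℝ, 0 ≤ u → Real.exp (-u) ≤ 1 := fun u hu =>
      Real.exp_le_one_iff.2 (by linarith only [hu])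
    have hYb : ∀ x ξ, |Y x ξ| ≤ 2 := fun x ξ =>
      abs_avg_le (by norm_num) fun j => by
        rw [abs_mul]
        have h1 := abs_ind_le hε x j
        have h2 : |Real.cos ((θ * √p.2.s) * p.2.R.mulVec ξ j)
            - Real.exp (-((θ * √p.2.s) ^ 2 * κ / 2))| ≤ 2 := by
          refine (abs_sub _ _).trans ?_
          rw [Real.abs_exp]
          have h3 := Real.abs_cos_le_one ((θ * √p.2.s) * p.2.R.mulVec ξ j)
          have h4 := hexp1 ((θ * √p.2.s) ^ 2 * κ / 2) (by (clear * - hκ; positivity))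
          linarith only [h3, h4]
        calc _ ≤ 1 * 2 := mul_le_mul h1 h2 (abs_nonneg _) zero_le_one
          _ = 2 := one_mul _
    have hZb : ∀ x ξ, |Z x ξ| ≤ 1 := fun x ξ =>
      abs_avg_le zero_le_one fun j => by
        rw [abs_mul]
        exact mul_le_one₀ (abs_ind_le hε x j) (abs_nonneg _) (Real.abs_sin_le_one _)
    have hXb : ∀ x ξ, |X x ξ| ≤ 2 := fun x ξ => by
      have b1 : ∀ u : Vec (n p.1),
          |(∑ j, ind ε (sv x j) * Real.cos (u j)) / n p.1| ≤ 1 := fun u =>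
        abs_avg_le zero_le_one fun j => by
          rw [abs_mul]
          exact mul_le_one₀ (abs_ind_le hε x j) (abs_nonneg _) (Real.abs_cos_le_one _)
      refine (abs_sub _ _).trans ?_
      rw [abs_mul, Real.abs_exp]
      have b2 := b1 (fun j => αξ ξ j + θ * (β • J p.1).mulVec (sv x) j)
      have b3 := b1 (fun j => αξ ξ j + θ * (β ^ 2 * ε))
      have b4 := mul_le_one₀ (hexp1 (θ ^ 2 * β ^ 2 / 2) (by (clear * -; positivity))) (abs_nonneg _) b3
      linarith only [b4, b2]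
    have hpt : ∀ x ξ, D x ξ * D x ξ ≤ D x ξ * X x ξ + 2 * (|Y x ξ| + |Z x ξ|) := by
      intro x ξ
      have e7 : D x ξ * D x ξ = D x ξ * X x ξ + D x ξ * (Real.exp (-(θ ^ 2 * β ^ 2 / 2)) *
        (Real.cos (α + θ * ((β ^ 2 + p.2.s * κ) * ε)) * Y x ξ
          - Real.sin (α + θ * ((β ^ 2 + p.2.s * κ) * ε)) * Z x ξ)) := by
        nth_rewrite 2 [hdec x ξ]
        ring
      rw [e7]
      have e8 : |Real.cos (α + θ * ((β ^ 2 + p.2.s * κ) * ε)) * Y x ξ
          - Real.sin (α + θ * ((β ^ 2 + p.2.s * κ) * ε)) * Z x ξ| ≤ |Y x ξ| + |Z x ξ| := by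
        refine (abs_sub _ _).trans ?_
        rw [abs_mul, abs_mul]
        exact add_le_add (mul_le_of_le_one_left (abs_nonneg _) (Real.abs_cos_le_one _))
          (mul_le_of_le_one_left (abs_nonneg _) (Real.abs_sin_le_one _))
      have e9 : D x ξ * (Real.exp (-(θ ^ 2 * β ^ 2 / 2)) *
        (Real.cos (α + θ * ((β ^ 2 + p.2.s * κ) * ε)) * Y x ξ
          - Real.sin (α + θ * ((β ^ 2 + p.2.s * κ) * ε)) * Z x ξ)) ≤ 2 * (|Y x ξ| + |Z x ξ|) := by
        refine (le_abs_self _).trans ?_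
        rw [abs_mul, abs_mul, Real.abs_exp]
        calc _ ≤ 2 * (1 * (|Y x ξ| + |Z x ξ|)) :=
              mul_le_mul (hDb x ξ) (mul_le_mul (hexp1 _ (by (clear * -; positivity))) e8 (abs_nonneg _)
                zero_le_one) (by (clear * -; positivity)) (by norm_num)
          _ = _ := by ring
      linarith only [e9]
    have i1 : JI p.2.w (fun x ξ => D x ξ * X x ξ) :=
      hE.JI_bdd (fun x => (hDm x).mul (hXm x)) (B := 4) fun x ξ => by
        rw [abs_mul]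
        calc |D x ξ| * |X x ξ| ≤ 2 * 2 := mul_le_mul (hDb x ξ) (hXb x ξ) (abs_nonneg _)
              (by norm_num)
          _ = 4 := by norm_num
    have i2 : JI p.2.w (fun x ξ => |Y x ξ|) :=
      hE.JI_bdd (fun x => (hYm x).abs) (B := 2) fun x ξ => by rw [abs_abs]; exact hYb x ξ
    have i3 : JI p.2.w (fun x ξ => |Z x ξ|) :=
      hE.JI_bdd (fun x => (hZm x).abs) (B := 1) fun x ξ => by rw [abs_abs]; exact hZb x ξ
    have i4 := (i2.add i3).cmul 2
    have hle := EJ_mono_nonneg hE.law (i1.add i4) (fun x ξ => mul_self_nonneg (D x ξ)) hpt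
    refine hle.trans ?_
    rw [EJ_add i1 i4, EJ_cmul, EJ_add i2 i3]
    exact add_le_add (le_abs_self _) le_rfl

/-- the laws and the overlaps at all levels -/
theorem law_allO (hG : GoodO β F n J) (hβ : β ≤ 1) (hκ : 0 ≤ κ) (hS : StepUO β) (hB : BaseUO β)
    (k : ℕ) : LawA F n J β κ C k ∧
      Tendsto (fun p : Σ i, JD (n i) => EJ p.2.w (fun x ξ =>
        |Qj J β k p x ξ - Qb β κ k p|)) (jF F n J β κ C) (𝓝 0) := by
  induction k with
  | zero => exact ⟨LawA.zeroO hG hβ hκ hB, overlap_zeroO hG⟩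
  | succ k ih =>
    have h1 := ih.1.overlapO hG hβ hκ
    exact ⟨ih.1.succO hG hβ hκ hS (tendsto_CO hG hβ hκ ih.2 h1), h1⟩

end

/-- D3b, laws of the AMP fields -/
theorem d3bA_ofO {β κ : ℝ} (hβ : β ≤ 1) (hκ : 0 ≤ κ) (hS : StepUO β) (hB : BaseUO β) :
    D3bAO β κ := by
  intro I F n J hG f C₁ hf hC C k e he
  have h := (law_allO (C := C) hG hβ hκ hS hB k).1.testO hG hβ hκ hf hC
  obtain ⟨η, hη, h1⟩ := jF_unif (X := fun i d => EJ d.w (fun x ξ =>
      |(∑ j, (f (sv x j) (Aj J β k ⟨i, d⟩ x ξ j) - NEs f (gm β κ k ⟨i, d⟩) (sv x j))) / n i|))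
    h he
  refine ⟨η, hη, h1.mono fun i hi m R s w hs hw => ?_⟩
  exact (le_abs_self _).trans (hi m R s w hs hw)

/-- D3b for all `β ≤ 1` -/
theorem d3bO {β κ : ℝ} (hβ0 : 0 ≤ β) (hβ : β ≤ 1) (hκ : 0 ≤ κ) :
    D3bQO β κ ∧ D3bAO β κ ∧ D3bHO β κ := by
  have hA : D3bAO β κ := d3bA_ofO hβ hκ (stepUO β) (baseUO hβ0 hβ)
  exact ⟨D3bQ_of_AO hκ hA, hA, d3bH_ofO hβ0 hβ (baseUO hβ0 hβ)⟩

end Vale.Agent.P150.F.D3
end
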