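import Vale.Agent.N150.Top1
import Vale.Agent.N150.G3One

set_option linter.all false

/-! P150 at the critical point: module D3M (near-DLR laws have small relative entropy at the
macroscopic scale) for all `β ≤ 1`, under the reduced good event `GoodO`. -/

section

open MeasureTheory ProbabilityTheory Filter Topology

namespace Vale.Agent.P150.F

section

variable {β κ s : ℝ}

/-- comparison with the fixed point -/
lemma qF_cmpO (hs0 : 0 ≤ s) (hsβ : s ≤ β) (hβ : β ≤ 1) (hκ : 0 ≤ κ) {q : ℝ} (hq : 0 ≤ q) :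
    (q ≤ qF β κ s → q ≤ qS (gS β κ s q)) ∧ (qF β κ s ≤ q → qS (gS β κ s q) ≤ q) := by
  obtain ⟨h0, h1, h2⟩ := qF_spec hs0 hsβ hκ
  have hb : (β - s) ^ 2 ≤ 1 := by nlinarith
  constructor
  · intro h
    have h3 := (gS_contr hs0 hsβ hκ hq h).2
    rw [h2] at h3
    have h4 := mul_le_mul_of_nonneg_right hb (sub_nonneg.2 h)
    linarith only [h4, h3]
  · intro h
    have h3 := (gS_contr hs0 hsβ hκ h0 h).2
    rw [h2] at h3
    have h4 := mul_le_mul_of_nonneg_right hb (sub_nonneg.2 h)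
    linarith only [h4, h3]

/-- uniqueness of the fixed point when `(β - s)² < 1` -/
lemma qF_uniqueO (hs0 : 0 ≤ s) (hsβ : s ≤ β) (hr : (β - s) ^ 2 < 1) (hκ : 0 ≤ κ) {q : ℝ}
    (hq : 0 ≤ q) (h : qS (gS β κ s q) = q) : q = qF β κ s := by
  obtain ⟨h0, h1, h2⟩ := qF_spec hs0 hsβ hκ
  rcases le_total q (qF β κ s) with hle | hle
  · have h3 := (gS_contr hs0 hsβ hκ hq hle).2
    rw [h2, h] at h3
    by_contra hne
    have h4 : 0 < qF β κ s - q := sub_pos.2 (lt_of_le_of_ne hle hne)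
    have h5 := mul_pos (sub_pos.2 hr) h4
    linarith only [h3, h5]
  · have h3 := (gS_contr hs0 hsβ hκ h0 hle).2
    rw [h2, h] at h3
    by_contra hne
    have h4 : 0 < q - qF β κ s := sub_pos.2 (lt_of_le_of_ne hle (Ne.symm hne))
    have h5 := mul_pos (sub_pos.2 hr) h4
    linarith only [h3, h5]

theorem qF_eq_qstO (hr : (β - s) ^ 2 < 1) (hκ : 0 ≤ κ) (hs0 : 0 ≤ s)
    (hsβ : s ≤ β) : qF β κ s = qst β κ s := by
  symm
  refine qF_uniqueO hs0 hsβ hr hκ (qst_nonneg hκ ⟨hs0, hsβ⟩) ?_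
  have h1 := gst_eq hκ (show s ∈ Set.Icc 0 β from ⟨hs0, hsβ⟩)
  have h2 : gS β κ s (qst β κ s) = gst β κ s := by
    unfold gS qst
    exact h1.symm
  rw [h2, qS_eq_qRS (gst_nonneg hκ ⟨hs0, hsβ⟩)]
  rfl

/-- geometric convergence with rate `ρ ≥ (β - s)²` -/
theorem gam_sub_gst_leO (hκ : 0 ≤ κ) (hs : s ∈ Set.Icc 0 β) {ρ : ℝ} (hρ : (β - s) ^ 2 ≤ ρ)
    (k : ℕ) : gam β κ s k - gst β κ s ≤ ρ ^ (k + 1) := by
  have hρ0 : 0 ≤ ρ := (sq_nonneg _).trans hρ
  induction k with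
  | zero =>
    rw [gam_zero, gst_eq hκ hs]
    have h2 := qst_nonneg hκ hs
    have h3 := qst_lt_one β κ s
    have h4 : (β - s) ^ 2 * (1 - qst β κ s) ≤ ρ * 1 :=
      mul_le_mul hρ (by linarith) (by linarith) hρ0
    rw [zero_add, pow_one]
    linarith only [h4]
  | succ k ih =>
    rw [gam_succ]
    have h0 := gst_eq hκ hs
    have h2 := qRS_sub_le (gst_nonneg hκ hs) (gst_le_gam hκ hs k)
    have h3 := qRS_mono (gst_nonneg hκ hs) (gst_le_gam hκ hs k)
    have h5 : β ^ 2 + s * κ - (β - s) ^ 2 * (1 - qRS (gam β κ s k)) - gst β κ s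
        = (β - s) ^ 2 * (qRS (gam β κ s k) - qRS (gst β κ s)) := by
      unfold qst at h0
      linear_combination -h0
    rw [h5, pow_succ ρ (k + 1), mul_comm (ρ ^ (k + 1))]
    exact mul_le_mul hρ (h2.trans ih) (by linarith) hρ0

theorem qRS_gam_sub_qst_leO (hκ : 0 ≤ κ) (hs : s ∈ Set.Icc 0 β) {ρ : ℝ} (hρ : (β - s) ^ 2 ≤ ρ)
    (k : ℕ) : qRS (gam β κ s k) - qst β κ s ≤ ρ ^ (k + 1) :=
  (qRS_sub_le (gst_nonneg hκ hs) (gst_le_gam hκ hs k)).trans (gam_sub_gst_leO hκ hs hρ k)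

theorem qRS_gam_sub_leO (hκ : 0 ≤ κ) (hs : s ∈ Set.Icc 0 β) {ρ : ℝ} (hρ : (β - s) ^ 2 ≤ ρ)
    (k : ℕ) : qRS (gam β κ s k) - qRS (gam β κ s (k + 1)) ≤ ρ ^ (k + 1) := by
  have h1 := qRS_gam_sub_qst_leO hκ hs hρ k
  have h2 := qst_le_qRS_gam hκ hs (k + 1)
  linarith

end

/-- the fixed point minimises the RS functional -/
lemma phiRS_minO {β κ s : ℝ} (hs0 : 0 ≤ s) (hsβ : s ≤ β) (hβ : β ≤ 1) (hκ : 0 ≤ κ) {q : ℝ}
    (hq : 0 ≤ q) : phiRS β κ s (qF β κ s) ≤ phiRS β κ s q := by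
  obtain ⟨h0, h1, h2⟩ := qF_spec hs0 hsβ hκ
  have hr : 0 ≤ (β - s) ^ 2 / 2 := by (clear * -; positivity)
  rcases hsβ.eq_or_lt with rfl | hlt
  · unfold phiRS gS
    simp
  have hc := phiRS_contOn hs0 hsβ hκ
  rcases le_total q (qF β κ s) with h | h
  · have := sc_mono_in (F := fun x => - phiRS β κ s x)
      (F' := fun x => -((β - s) ^ 2 / 2 * (x - qS (gS β κ s x)))) (a := q) (b := qF β κ s)
      (hc.neg.mono fun x hx => hq.trans hx.1)
      (fun x hx _ => (phiRS_deriv hs0 hlt hκ (lt_of_le_of_lt hq hx)).neg)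
      (fun x hx hx' => by
        have h5 := (qF_cmpO hs0 hsβ hβ hκ (hq.trans hx.le)).1 hx'.le
        have := mul_nonneg hr (sub_nonneg.2 h5)
        linarith only [this]) h
    linarith only [this]
  · exact sc_mono_in (F := phiRS β κ s)
      (F' := fun x => (β - s) ^ 2 / 2 * (x - qS (gS β κ s x))) (a := qF β κ s) (b := q)
      (hc.mono fun x hx => h0.trans hx.1)
      (fun x hx _ => phiRS_deriv hs0 hlt hκ (lt_of_le_of_lt h0 hx))
      (fun x hx _ => by
        have h5 := (qF_cmpO hs0 hsβ hβ hκ (h0.trans hx.le)).2 hx.le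
        exact mul_nonneg hr (sub_nonneg.2 h5)) h

/-- the increment of the RS value -/
lemma phiRS_stepO {β κ s s' : ℝ} (hs0 : 0 ≤ s) (hss : s ≤ s') (hsβ : s' ≤ β) (hβ : β ≤ 1)
    (hκ : 0 ≤ κ) :
    phiRS β κ s' (qF β κ s') ≤ phiRS β κ s (qF β κ s) +
      (s' - s) / 2 * (κ * (1 - qF β κ s) + (β - s) * (1 - qF β κ s) ^ 2) := by
  obtain ⟨h0, h1, h2⟩ := qF_spec hs0 (hss.trans hsβ) hκ
  refine (phiRS_minO (hs0.trans hss) hsβ hβ hκ h0).trans ?_
  set q := qF β κ s with hqdef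
  have hd : gS β κ s' q - gS β κ s q =
      (s' - s) * κ + (s' - s) * (2 * (β - s) - (s' - s)) * (1 - q) := by
    unfold gS; ring
  have hle : gS β κ s q ≤ gS β κ s' q := by
    have h3 : 0 ≤ (s' - s) * κ := mul_nonneg (by linarith only [hss]) hκ
    have h4 : 0 ≤ (s' - s) * (2 * (β - s) - (s' - s)) * (1 - q) :=
      mul_nonneg (mul_nonneg (by linarith) (by linarith only [hsβ, hss])) (by linarith only [h1])
    linarith only [h4, h3, hd]
  have h3 := (iS_sub (gS_nonneg hs0 (hss.trans hsβ) hκ h0) hle).2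
  rw [h2, hd] at h3
  unfold phiRS
  have h4 : 0 ≤ (s' - s) ^ 2 * (1 - q) ^ 2 := by (clear * -; positivity)
  linarith only [h3, h4]

lemma phiRS_zeroO {β κ : ℝ} (hβ0 : 0 ≤ β) (hβ : β ≤ 1) (hκ : 0 ≤ κ) :
    phiRS β κ 0 (qF β κ 0) ≤ β ^ 2 / 4 := by
  refine (phiRS_minO le_rfl hβ0 hβ hκ (le_refl (0 : ℝ))).trans (le_of_eq ?_)
  have : gS β κ 0 0 = 0 := by unfold gS; ring
  rw [phiRS, this, iS_zero]
  ring

/-- the discretised RS calculus (no error term), for a general partition -/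
theorem rs_calc_partO {β κ : ℝ} (hβ : β ≤ 1) (hκ : 0 ≤ κ) (N : ℕ)
    (s : ℕ → ℝ) (hs0 : s 0 = 0) (hsN : s N = β) (hs : Monotone s) :
    iS (β ^ 2 + β * κ) - β ^ 2 / 4 ≤ ∑ j ∈ Finset.range N, (s (j + 1) - s j) / 2 *
      (κ * (1 - qF β κ (s j)) + (β - s j) * (1 - qF β κ (s j)) ^ 2) := by
  have hβ0 : 0 ≤ β := by rw [← hs0, ← hsN]; exact hs (Nat.zero_le N)
  have key : ∀ k ≤ N, phiRS β κ (s k) (qF β κ (s k)) - β ^ 2 / 4 ≤
      ∑ j ∈ Finset.range k, (s (j + 1) - s j) / 2 *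
        (κ * (1 - qF β κ (s j)) + (β - s j) * (1 - qF β κ (s j)) ^ 2) := by
    intro k
    induction k with
    | zero =>
      intro _
      rw [hs0, Finset.range_zero, Finset.sum_empty]
      exact sub_nonpos.2 (phiRS_zeroO hβ0 hβ hκ)
    | succ k ih =>
      intro hk
      have h1 := ih (by omega)
      have h2 : 0 ≤ s k := by rw [← hs0]; exact hs (Nat.zero_le k)
      have h3 : s (k + 1) ≤ β := by rw [← hsN]; exact hs hk
      have h4 := phiRS_stepO h2 (hs (Nat.le_succ k)) h3 hβ hκ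
      rw [Finset.sum_range_succ]
      linarith only [h4, h1]
  have h := key N le_rfl
  rw [hsN, phiRS_end] at h
  exact h

/-- the discretised RS calculus, uniform partition -/
theorem rs_calcO {β κ : ℝ} (hβ0 : 0 ≤ β) (hβ : β ≤ 1) (hκ : 0 ≤ κ) {N : ℕ} (hN : 1 ≤ N) :
    iS (β ^ 2 + β * κ) - β ^ 2 / 4 ≤ ∑ j ∈ Finset.range N, β / N / 2 *
      (κ * (1 - qF β κ (j * (β / N))) +
        (β - j * (β / N)) * (1 - qF β κ (j * (β / N))) ^ 2) := by
  have hN' : (N : ℝ) ≠ 0 := by positivity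
  have h := rs_calc_partO (β := β) (κ := κ) hβ hκ N (fun j => j * (β / N)) (by simp)
    (by field_simp) (fun a b hab => by
      have : (a : ℝ) ≤ b := by exact_mod_cast hab
      exact mul_le_mul_of_nonneg_right this (by (clear * - hβ0 hN; positivity)))
  refine h.trans (le_of_eq (Finset.sum_congr rfl fun j _ => ?_))
  push_cast
  ring

end Vale.Agent.P150.F
end

section

open MeasureTheory ProbabilityTheory Filter Topology Real
open scoped Matrix

namespace Vale.Agent.P150.F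

/-- D3M-2,3: lower bound on the MMSE at times `r₀ ≤ s ≤ β - r₀` -/
def D3M23O : Prop := ∀ (β : ℝ), 0 ≤ β → β ≤ 1 → ∀ (κ : ℝ), 4 ≤ κ →
  ∀ {I : Type} (F : Filter I) (n : I → ℕ) (J : ∀ i, Mat (n i)), GoodO β F n J →
    ∀ r₀ > 0, ∀ ε > 0, ∃ η > 0, ∀ᶠ i in F, ∀ s : ℝ, r₀ ≤ s → s ≤ β - r₀ →
      ∀ R : Mat (n i), R * Rᵀ = J i + κ • (1 : Mat (n i)) →
      ∀ ν : Cfg (n i) → ℝ, IsProb ν → (∀ x, 0 < ν x) →
      IP' ν (gM (β • J i) 0) ≤ η * n i →
        n i * (κ * (1 - qF β κ s) + (β - s) * (1 - qF β κ s) ^ 2 - ε)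
          ≤ EC ν R s (fun _ y => trQ (R * Rᵀ) (pst ν (R * Rᵀ) s y))

/-- D3M-4: lower bound on the entropy at the end of the path -/
def D3M4O : Prop := ∀ (β : ℝ), 0 ≤ β → β ≤ 1 → ∀ (κ : ℝ), 4 ≤ κ →
  ∀ {I : Type} (F : Filter I) (n : I → ℕ) (J : ∀ i, Mat (n i)), GoodO β F n J →
    ∀ ε > 0, ∃ η > 0, ∀ᶠ i in F,
      ∀ R : Mat (n i), R * Rᵀ = J i + κ • (1 : Mat (n i)) →
      ∀ ν : Cfg (n i) → ℝ, IsProb ν → (∀ x, 0 < ν x) →
      IP' ν (gM (β • J i) 0) ≤ η * n i →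
        n i * (Real.log 2 - iS (β ^ 2 + β * κ) - ε)
          ≤ EC ν R β (fun _ y => HS (pst ν (R * Rᵀ) β y))

/-- D3M-5: the energy of near-DLR laws in zero field -/
def D3M5O : Prop := ∀ (β : ℝ), 0 ≤ β → β ≤ 1 →
  ∀ {I : Type} (F : Filter I) (n : I → ℕ) (J : ∀ i, Mat (n i)), GoodO β F n J →
    ∀ ε > 0, ∃ η > 0, ∀ᶠ i in F, ∀ ν : Cfg (n i) → ℝ, IsProb ν →
      dlr (β • J i) 0 ν ≤ η * n i →
        |β * Ex ν (fun x => qf (J i) (sv x)) - β ^ 2 * n i| ≤ ε * n i

/-- D3M for `β ≤ 1` -/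
def D3MStatementO : Prop := ∀ (β : ℝ), 0 ≤ β → β ≤ 1 →
  ∀ {I : Type} (F : Filter I) (n : I → ℕ) (J : ∀ i, Mat (n i)), GoodO β F n J →
    ∀ ε > 0, ∃ η > 0, ∀ᶠ i in F, ∀ ν : Cfg (n i) → ℝ, IsProb ν → (∀ x, 0 < ν x) →
      IP' ν (gM (β • J i) 0) ≤ η * n i → KL ν (gM (β • J i) 0) ≤ ε * n i

end Vale.Agent.P150.F
end

section

open MeasureTheory ProbabilityTheory Filter Topology Real
open scoped Matrix

namespace Vale.Agent.P150.F.T23

variable {n m : ℕ}

/-- **coreO of steps (2), (3)** -/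
theorem coreO (hn : 0 < n) {β κ s : ℝ} (hβ1 : β ≤ 1) (hs : 0 ≤ s) (hr : s < β) (hκ : 0 ≤ κ)
    {J : Mat n} {R : Matrix (Fin n) (Fin m) ℝ} (hR : R * Rᵀ = J + κ • (1 : Mat n))
    {ν : Cfg n → ℝ} (hν : IsProb ν) {k : ℕ} {q ε : ℝ} (hq0 : 0 ≤ q) (hq1 : q ≤ 1)
    (hε : 0 ≤ ε) (H : Errs β κ s J R ν k q ε) :
    κ * (1 - q) + (β - s) * (1 - q) ^ 2 - (κ + 2 + 8 / (β - s)) * ε
      ≤ EC ν R s (fun _ z => ∑ i, (R * Rᵀ * covM (pst ν (R * Rᵀ) s z)) i i) / n := by
  have hn' : (0 : ℝ) < n := by exact_mod_cast hn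
  set r : ℝ := β - s with hr_def
  have hr0 : 0 < r := by rw [hr_def]; linarith
  have hβ0 : 0 < β := by linarith only [hr0, hs]
  have hrβ : r ≤ β := by rw [hr_def]; linarith
  have hr1 : r ≤ 1 := by linarith
  have hsβ : s = β - r := by rw [hr_def]; ring
  have gm := fun x => g_mm β s J (k + 1) x
  have gm' := fun x => g_mm β s J k x
  have gm2 := fun x => g_mm β s J (k + 2) x
  have ga := fun x => g_aa β s J (k + 1) x
  have gz : ∀ i, G fun z : Vec n => z i := fun i => G.coord i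
  have gs : ∀ (x : Cfg n) i, G fun _ : Vec n => sv x i := fun x i => G.const _
  -- abbreviations for the expectations
  set XJ : ℝ := EC ν R s (fun x _ => qf J (sv x)) / n with hXJ
  set XM : ℝ := EC ν R s (fun x z => qf J (mm β s J (k + 1) x z)) / n with hXM
  set XQ : ℝ := EC ν R s (fun x z => qq (mm β s J (k + 1) x z)) with hXQ
  -- 1. the trace
  have e1 : EC ν R s (fun _ z => ∑ i, (R * Rᵀ * covM (pst ν (R * Rᵀ) s z)) i i)
      = EC ν R s (fun x _ => qf (R * Rᵀ) (sv x))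
        - EC ν R s (fun _ z => qf (R * Rᵀ) (mean (pst ν (R * Rᵀ) s z))) := by
    have h1 : (fun (_ : Cfg n) z => ∑ i, (R * Rᵀ * covM (pst ν (R * Rᵀ) s z)) i i)
        = fun _ z => Ex (pst ν (R * Rᵀ) s z) (fun x => qf (R * Rᵀ) (sv x))
          - qf (R * Rᵀ) (mean (pst ν (R * Rᵀ) s z)) := by
      funext _ z
      exact t_trQ _ (pst_isProb hν _ s z)
    rw [h1, ec_sub (fun _ => g_Ex hν _ fun x => G.const (qf (R * Rᵀ) (sv x)))
      (fun _ => g_qf _ (g_mean hν _ s))]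
    rw [← ec_bayes hν hs (Φ := fun x _ => qf (R * Rᵀ) (sv x)) fun x => G.const _]
  -- 2. the energy of the posterior mean
  have e2 : EC ν R s (fun _ z => qf (R * Rᵀ) (mean (pst ν (R * Rᵀ) s z)))
      ≤ 2 * EC ν R s (fun x z => |ip ((R * Rᵀ).mulVec (mean (pst ν (R * Rᵀ) s z)))
          (sv x - mm β s J (k + 1) x z)|)
        + EC ν R s (fun x z => qf (R * Rᵀ) (mm β s J (k + 1) x z)) := by
    have g1 : ∀ x, G fun z => |ip ((R * Rᵀ).mulVec (mean (pst ν (R * Rᵀ) s z)))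
          (sv x - mm β s J (k + 1) x z)| := fun x =>
      (g_ip (g_mulVec _ (g_mean hν _ s)) (g_vsub (gs x) (gm x))).abs
    have g2 : ∀ x, G fun z => qf (R * Rᵀ) (mm β s J (k + 1) x z) := fun x => g_qf _ (gm x)
    rw [ec_bayes hν hs g1, ec_bayes hν hs g2, ← EC_const_mul, ← ec_add
      (fun _ => (g_Ex hν _ g1).cmul 2) (fun _ => g_Ex hν _ g2)]
    refine ec_mono hν (fun _ => g_qf _ (g_mean hν _ s))
      (fun _ => ((g_Ex hν _ g1).cmul 2).add (g_Ex hν _ g2)) fun _ z => ?_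
    exact t_step2 (t_RRt_symm R) (t_RRt_psd R) (pst_isProb hν _ s z) _
  -- 3. splitting `Q = J + κ`
  have e3 : EC ν R s (fun x _ => qf (R * Rᵀ) (sv x)) = n * XJ + κ * n := by
    have h1 : (fun (x : Cfg n) (_ : Vec n) => qf (R * Rᵀ) (sv x))
        = fun x _ => qf J (sv x) + κ * n := by
      funext x _
      rw [hR, t_qf_add_smul]
      have : sq (sv x) = n := by
        unfold sq
        have : ∀ i, sv x i ^ 2 = 1 := fun i => by rw [← sq_abs, t_abs_sv, one_pow]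
        simp [this]
      rw [this]
    rw [h1, ec_add (fun x => G.const _) (fun _ => G.const _), EC_const hν.2, hXJ]
    field_simp
  have e4 : EC ν R s (fun x z => qf (R * Rᵀ) (mm β s J (k + 1) x z)) = n * XM + κ * n * XQ := by
    have h1 : (fun (x : Cfg n) (z : Vec n) => qf (R * Rᵀ) (mm β s J (k + 1) x z))
        = fun x z => qf J (mm β s J (k + 1) x z) + κ * n * qq (mm β s J (k + 1) x z) := by
      funext x z
      rw [hR, t_qf_add_smul]
      unfold qq
      field_simp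
    rw [h1, ec_add (fun x => g_qf _ (gm x)) (fun x => (g_qq (gm x)).cmul _), EC_const_mul, hXM,
      hXQ]
    field_simp
  -- 4. the overlap
  have e5 : |XQ - q| ≤ ε := by
    have h1 : XQ - q = EC ν R s (fun x z => qq (mm β s J (k + 1) x z) - q) := by
      rw [ec_sub (fun x => g_qq (gm x)) (fun _ => G.const _), EC_const hν.2]
    rw [h1]
    exact (ec_abs hν fun x => (g_qq (gm x)).sub (G.const _)).trans H.hQ
  -- 5. the AMP identity
  set T : ℝ := EC ν R s (fun x z => (1 - qq (mm β s J (k + 1) x z)) *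
      ip (mm β s J (k + 1) x z) (mm β s J k x z)) / n with hT
  have gT : ∀ x, G fun z => (1 - qq (mm β s J (k + 1) x z)) *
      ip (mm β s J (k + 1) x z) (mm β s J k x z) := fun x =>
    ((G.const 1).sub (g_qq (gm x))).mul (g_ip (gm x) (gm' x))
  have e6 : r * XM = EC ν R s (fun x z => ip (mm β s J (k + 1) x z) (aa β s J (k + 1) x z)) / n
      - EC ν R s (fun x z => ip z (mm β s J (k + 1) x z)) / n + r ^ 2 * T := by
    have h1 : EC ν R s (fun x z => r * qf J (mm β s J (k + 1) x z))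
        = EC ν R s (fun x z => ip (mm β s J (k + 1) x z) (aa β s J (k + 1) x z)
        - ip z (mm β s J (k + 1) x z)
        + r ^ 2 * ((1 - qq (mm β s J (k + 1) x z)) *
          ip (mm β s J (k + 1) x z) (mm β s J k x z))) := by
      congr 1
      funext x z
      exact t_amp_id J r z x k
    rw [EC_const_mul, ec_add (fun x => (g_ip (gm x) (ga x)).sub (g_ip gz (gm x)))
      (fun x => (gT x).cmul _), ec_sub (fun x => g_ip (gm x) (ga x)) (fun x => g_ip gz (gm x)),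
      EC_const_mul] at h1
    rw [hXM, hT, mul_div_assoc', h1]
    ring
  have e7 : |T - (1 - q) * q| ≤ ε + ε / 2 := by
    have h1 : T - (1 - q) * q = EC ν R s (fun x z => (1 - qq (mm β s J (k + 1) x z)) *
      ip (mm β s J (k + 1) x z) (mm β s J k x z) / n - (1 - q) * q) := by
      rw [ec_sub (fun x => (gT x).div_const _) (fun _ => G.const _), EC_const hν.2, hT]
      congr 1
      simp_rw [div_eq_mul_inv _ (n : ℝ), mul_comm _ ((n : ℝ)⁻¹)]
      rw [EC_const_mul]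
    rw [h1]
    have gU : ∀ x, G fun z => |sq (mm β s J k x z - mm β s J (k + 1) x z) / n
        - (qq (mm β s J k x z) - qq (mm β s J (k + 1) x z))| := fun x =>
      (((g_sq (g_vsub (gm' x) (gm x))).div_const _).sub
        ((g_qq (gm' x)).sub (g_qq (gm x)))).abs
    calc _ ≤ EC ν R s (fun x z => |(1 - qq (mm β s J (k + 1) x z)) *
          ip (mm β s J (k + 1) x z) (mm β s J k x z) / n - (1 - q) * q|) :=
          ec_abs hν fun x => ((gT x).div_const _).sub (G.const _)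
      _ ≤ EC ν R s (fun x z => |qq (mm β s J (k + 1) x z) - q|
          + 1 / 2 * |sq (mm β s J k x z - mm β s J (k + 1) x z) / n
        - (qq (mm β s J k x z) - qq (mm β s J (k + 1) x z))|) := by
          refine ec_mono hν (fun x => (((gT x).div_const _).sub (G.const _)).abs)
            (fun x => ((g_qq (gm x)).sub (G.const _)).abs.add ((gU x).cmul _)) fun x z => ?_
          have := t_overlap hn (abs_mm β s J (k + 1) x z) (abs_mm β s J k x z) hq0 hq1
          linarith only [this]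
      _ ≤ _ := by
          rw [ec_add (fun x => ((g_qq (gm x)).sub (G.const _)).abs) (fun x => (gU x).cmul _),
            EC_const_mul]
          have := H.hQ
          have := H.hU
          linarith
  -- 6. the term `⟨m, a⟩`
  have e8 : |EC ν R s (fun x z => ip (mm β s J (k + 1) x z) (aa β s J (k + 1) x z)) / n
      - (β ^ 2 + s * κ - r ^ 2 * (1 - q))| ≤ 2 * ε := by
    have h1 : EC ν R s (fun x z => ip (mm β s J (k + 1) x z) (aa β s J (k + 1) x z))
        = EC ν R s (fun x z => ip (mm β s J (k + 1) x z - mm β s J (k + 2) x z)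
            (aa β s J (k + 1) x z))
          + EC ν R s (fun x z => ip (mm β s J (k + 2) x z) (aa β s J (k + 1) x z)) := by
      rw [← ec_add (fun x => g_ip (g_vsub (gm x) (gm2 x)) (ga x))
        (fun x => g_ip (gm2 x) (ga x))]
      congr 1
      funext x z
      rw [ip_sub_left]
      ring
    have h2 : |EC ν R s (fun x z => ip (mm β s J (k + 1) x z - mm β s J (k + 2) x z)
            (aa β s J (k + 1) x z)) / n| ≤ ε := by
      rw [abs_div, abs_of_pos hn', div_le_iff₀ hn']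
      refine (ec_abs hν fun x => g_ip (g_vsub (gm x) (gm2 x)) (ga x)).trans ?_
      have h3 := H.hD
      rw [div_le_iff₀ hn'] at h3
      refine le_trans (ec_mono hν (fun x => (g_ip (g_vsub (gm x) (gm2 x)) (ga x)).abs)
        (fun x => (g_nv (g_vsub (gm x) (gm2 x))).mul (g_nv (ga x))) fun x z => ?_) h3
      exact abs_ip_le _ _
    have h3 := H.hA1
    rw [← hr_def] at h3
    rw [h1, add_div]
    calc _ = |EC ν R s (fun x z => ip (mm β s J (k + 1) x z - mm β s J (k + 2) x z)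
            (aa β s J (k + 1) x z)) / n
          + (EC ν R s (fun x z => ip (mm β s J (k + 2) x z) (aa β s J (k + 1) x z)) / n
            - (β ^ 2 + s * κ - r ^ 2 * (1 - q)))| := by congr 1; ring
      _ ≤ ε + ε := (abs_add_le _ _).trans (add_le_add h2 h3)
      _ = _ := by ring
  -- 7. the term `⟨y, m⟩`
  have e9 : |EC ν R s (fun x z => ip z (mm β s J (k + 1) x z)) / n
      - (β ^ 2 + s * κ - r * XJ)| ≤ 2 * ε := by
    have h1 : EC ν R s (fun x z => ip z (mm β s J (k + 1) x z))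
        = EC ν R s (fun x z => ip (sv x) (aa β s J 0 x z)) - r * (n * XJ)
          - EC ν R s (fun x z => ip z (sv x - mm β s J (k + 1) x z)) := by
      have h2 : r * (n * XJ) = EC ν R s (fun x _ => r * qf J (sv x)) := by
        rw [EC_const_mul, hXJ]; field_simp
      rw [h2, ← ec_sub (fun x => g_ip (gs x) (g_aa β s J 0 x)) (fun x => G.const _),
        ← ec_sub (fun x => (g_ip (gs x) (g_aa β s J 0 x)).sub (G.const _))
          (fun x => g_ip gz (g_vsub (gs x) (gm x)))]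
      congr 1
      funext x z
      rw [ip_sub_right]
      have h3 : ip (sv x) (aa β s J 0 x z) = r * qf J (sv x) + ip z (sv x) := t_amp0 J r z x
      rw [h3]
      ring
    have h2 : |EC ν R s (fun x z => ip z (sv x - mm β s J (k + 1) x z)) / n| ≤ ε := by
      rw [abs_div, abs_of_pos hn', div_le_iff₀ hn']
      have h3 := H.h3
      rw [div_le_iff₀ hn'] at h3
      exact (ec_abs hν fun x => g_ip gz (g_vsub (gs x) (gm x))).trans h3
    have h3 := H.hA0
    rw [h1]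
    have h4 : (EC ν R s (fun x z => ip (sv x) (aa β s J 0 x z)) - r * (n * XJ)
          - EC ν R s (fun x z => ip z (sv x - mm β s J (k + 1) x z))) / n
        - (β ^ 2 + s * κ - r * XJ)
        = (EC ν R s (fun x z => ip (sv x) (aa β s J 0 x z)) / n - (β ^ 2 + s * κ))
          - EC ν R s (fun x z => ip z (sv x - mm β s J (k + 1) x z)) / n := by
      field_simp
      ring
    rw [h4]
    calc _ ≤ ε + ε := (abs_sub _ _).trans (add_le_add h3 h2)
      _ = _ := by ring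
  -- 8. assembly
  have hJ : |XJ - β| ≤ ε / β := by
    have h1 := H.hH
    rw [← hXJ] at h1
    rw [le_div_iff₀ hβ0, ← abs_of_pos hβ0, ← abs_mul]
    rw [abs_of_pos hβ0]
    have : (XJ - β) * β = β * XJ - β ^ 2 := by ring
    rw [this]
    exact h1
  have hεβ : ε / β ≤ ε / r := by
    exact div_le_div_of_nonneg_left hε hr0 hrβ
  have hrJ : r * |XJ - β| ≤ ε := by
    calc r * |XJ - β| ≤ r * (ε / r) := mul_le_mul_of_nonneg_left (hJ.trans hεβ) hr0.le
      _ = ε := by field_simp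
  have f1 : r * XM ≤ r * β - r ^ 2 * (1 - q) ^ 2 + 7 * ε := by
    rw [e6]
    have a1 := (abs_le.1 e8).2
    have a2 := (abs_le.1 e9).1
    have a3 := (abs_le.1 e7).2
    have a4 : r ^ 2 * T ≤ r ^ 2 * ((1 - q) * q) + 3 / 2 * ε := by
      have h1 : r ^ 2 * (T - (1 - q) * q) ≤ r ^ 2 * (ε + ε / 2) :=
        mul_le_mul_of_nonneg_left a3 (sq_nonneg r)
      have h2 : r ^ 2 * (ε + ε / 2) ≤ 1 * (ε + ε / 2) :=
        mul_le_mul_of_nonneg_right (pow_le_one₀ hr0.le hr1) (by linarith only [hε])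
      linarith only [h2, h1]
    have a5 : r * XJ ≤ r * β + ε := by
      have h1 := le_abs_self (XJ - β)
      have h2 : r * (XJ - β) ≤ r * |XJ - β| := mul_le_mul_of_nonneg_left h1 hr0.le
      linarith only [h2, hrJ]
    have a6 : r ^ 2 * ((1 - q) * q) = r ^ 2 * (1 - q) - r ^ 2 * (1 - q) ^ 2 := by ring
    linarith only [a5, a4, a2, a1, hε]
  have f2 : XM ≤ β - r * (1 - q) ^ 2 + 7 * ε / r := by
    have h1 : XM = r * XM / r := by field_simp
    have h2 : β - r * (1 - q) ^ 2 + 7 * ε / r = (r * β - r ^ 2 * (1 - q) ^ 2 + 7 * ε) / r := by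
      field_simp
    rw [h1, h2]
    exact div_le_div_of_nonneg_right f1 hr0.le
  have f3 : XJ ≥ β - ε / r := by
    have := (abs_le.1 (hJ.trans hεβ)).1
    linarith only [this]
  have f4 : κ * XQ ≤ κ * q + κ * ε := by
    have h1 := (abs_le.1 e5).2
    have := mul_le_mul_of_nonneg_left (by linarith only [h1] : XQ ≤ q + ε) hκ
    linarith only [this]
  have f5 := H.h2
  rw [div_le_iff₀ hn'] at f5
  rw [e1, e3, le_div_iff₀ hn']
  have f6 := e2
  rw [e4] at f6
  have f7 : n * XM ≤ n * (β - r * (1 - q) ^ 2 + 7 * ε / r) := mul_le_mul_of_nonneg_left f2 hn'.le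
  have f8 : n * (β - ε / r) ≤ n * XJ := mul_le_mul_of_nonneg_left f3 hn'.le
  have f9 : κ * n * XQ ≤ n * (κ * q + κ * ε) := by
    have := mul_le_mul_of_nonneg_left f4 hn'.le
    linarith only [this]
  have f10 : 8 / r * ε = ε / r + 7 * ε / r := by ring
  have f11 : (κ * (1 - q) + r * (1 - q) ^ 2 - (κ + 2 + 8 / r) * ε) * n
      = n * (β - ε / r) + κ * n - (2 * (ε * n) + (n * (β - r * (1 - q) ^ 2 + 7 * ε / r)
        + n * (κ * q + κ * ε))) := by
    have : (κ + 2 + 8 / r) * ε = κ * ε + 2 * ε + (ε / r + 7 * ε / r) := by rw [← f10]; ring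
    rw [this]
    ring
  rw [f11]
  linarith only [f9, f8, f7, f6, f5]

theorem nice_of_JO {β κ : ℝ} (hκ : 4 ≤ κ) {I : Type} {F : Filter I} {n : I → ℕ}
    {J : ∀ i, Mat (n i)} (hG : GoodO β F n J) {η : ℝ} (hη : 0 < η)
    {P : ∀ i : I, ℝ → Mat (n i) → (Cfg (n i) → ℝ) → Prop}
    (h : ∀ᶠ i in F, ∀ (R : Mat (n i)) (s : ℝ) (ν : Cfg (n i) → ℝ), s ∈ Set.Icc 0 β →
      IsProb ν → D3.JHyp β κ (J i) R s κ η (fun x _ => ν x) → P i s R ν) :
    Nice β κ F n J P := by
  obtain ⟨η', hη', h'⟩ := D3.jhyp_prodO hκ hG hη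
  refine ⟨η', hη', ?_⟩
  filter_upwards [h, h'] with i hi hi' s hs R hR ν hν hp hI
  exact hi R s ν hs hν (hi' (n i) R s ν hs hR hν hp hI)

section inputs

variable {β κ : ℝ} {I : Type} {F : Filter I} {n : I → ℕ} {J : ∀ i, Mat (n i)}

theorem in_QO (hκ : 4 ≤ κ) (hG : GoodO β F n J) (hb : D3.D3bQO β κ) (k : ℕ) {e : ℝ} (he : 0 < e) :
    Nice β κ F n J (fun i s R ν =>
      EC ν R s (fun x z => |qq (mm β s (J i) (k + 1) x z) - qRS (gam β κ s k)|) ≤ e) := by
  obtain ⟨η, hη, h⟩ := hb F n J hG κ k e he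
  refine nice_of_JO hκ hG hη ?_
  filter_upwards [h] with i hi R s ν hs _ hH
  have := hi (n i) R s _ hs hH
  rw [← ej_prod]
  exact this

theorem in_A0O (hκ : 4 ≤ κ) (hG : GoodO β F n J) (hb : D3.D3bAO β κ) {e : ℝ} (he : 0 < e) :
    Nice β κ F n J (fun i s R ν =>
      |EC ν R s (fun x z => ip (sv x) (aa β s (J i) 0 x z)) / n i - (β ^ 2 + s * κ)| ≤ e) := by
  obtain ⟨η, hη, h⟩ := hb F n J hG f1 1 f1_cont f1_le κ 0 e he
  refine nice_of_JO hκ hG hη ?_
  filter_upwards [h, hG.hn.eventually_gt_atTop 0] with i hi hn R s ν hs hν hH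
  have h1 := hi (n i) R s _ hs hH
  simp_rw [sum_f1, gam_zero] at h1
  refine ec_err hn hν (fun x => g_ip (u := fun _ => sv x) (v := fun z => aa β s (J i) 0 x z)
    (fun j => G.const (sv x j)) (g_aa β s (J i) 0 x)) ?_
  rw [← ej_prod]
  exact h1

theorem in_A1O (hκ : 4 ≤ κ) (hG : GoodO β F n J) (hb : D3.D3bAO β κ) (k : ℕ) {e : ℝ} (he : 0 < e) :
    Nice β κ F n J (fun i s R ν =>
      |EC ν R s (fun x z => ip (mm β s (J i) (k + 2) x z) (aa β s (J i) (k + 1) x z)) / n i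
        - (β ^ 2 + s * κ - (β - s) ^ 2 * (1 - qRS (gam β κ s k)))| ≤ e) := by
  obtain ⟨η, hη, h⟩ := hb F n J hG f2 1 f2_cont f2_le κ (k + 1) e he
  refine nice_of_JO hκ hG hη ?_
  filter_upwards [h, hG.hn.eventually_gt_atTop 0] with i hi hn R s ν hs hν hH
  have h1 := hi (n i) R s _ hs hH
  simp_rw [sum_f2 _ _ (gam_nonneg (by linarith only [hκ] : (0 : ℝ) ≤ κ) hs (k + 1))] at h1
  refine ec_err hn hν (fun x => g_ip (g_mm β s (J i) (k + 2) x) (g_aa β s (J i) (k + 1) x)) ?_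
  rw [← ej_prod]
  exact h1

theorem in_HO (hκ : 4 ≤ κ) (hG : GoodO β F n J) (hb : D3.D3bHO β κ) {e : ℝ} (he : 0 < e) :
    Nice β κ F n J (fun i s R ν =>
      |β * (EC ν R s (fun x _ => qf (J i) (sv x)) / n i) - β ^ 2| ≤ e) := by
  obtain ⟨η, hη, h⟩ := hb F n J hG f1 1 f1_cont f1_le κ e he
  refine nice_of_JO hκ hG hη ?_
  filter_upwards [h, hG.hn.eventually_gt_atTop 0] with i hi hn R s ν hs hν hH
  have h1 := hi (n i) R s _ hs hH
  simp_rw [sum_f1] at h1
  have e1 : ∀ x : Cfg (n i), ip (sv x) ((β • J i).mulVec (sv x)) = β * qf (J i) (sv x) := by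
    intro x
    rw [Matrix.smul_mulVec, ip_smul_right]
    rfl
  simp_rw [e1] at h1
  have h2 : |EC ν R s (fun x _ => β * qf (J i) (sv x)) / n i - β ^ 2| ≤ e := by
    refine ec_err hn hν (fun x => G.const _) ?_
    rw [← ej_prod]
    exact h1
  rw [EC_const_mul, mul_div_assoc] at h2
  exact h2

theorem in_U3O (hβ1 : β ≤ 1) (hG : GoodO β F n J) (hU : U3S F n J) {k : ℕ} (hk : 1 ≤ k) {e : ℝ}
    (he : 0 < e) :
    Nice β κ F n J (fun i s R ν =>
      EC ν R s (fun x z => |sq (mm β s (J i) k x z - mm β s (J i) (k + 1) x z) / n i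
        - (qq (mm β s (J i) k x z) - qq (mm β s (J i) (k + 1) x z))|) ≤ e) := by
  obtain ⟨η, hη, h⟩ := hU 0 k hk (e / 2) (half_pos he)
  refine ⟨e / 2 * η / 24, by positivity, ?_⟩
  filter_upwards [h, hG.hn.eventually_gt_atTop 0] with i hi hn s hs R hR ν hν hp hI
  have hn' : (0 : ℝ) < n i := by exact_mod_cast hn
  have g0 := fun x => g_mm β s (J i) k x
  have g1 := fun x => g_mm β s (J i) (k + 1) x
  have h1 := lift (R := R) (s := s) hn hν hp hs.1 ((β - s) • J i)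
    (Ψ := fun x z => |sq (mm β s (J i) k x z - mm β s (J i) (k + 1) x z) / n i
        - (qq (mm β s (J i) k x z) - qq (mm β s (J i) (k + 1) x z))|)
    (fun x => (((g_sq (g_vsub (g0 x) (g1 x))).div_const _).sub
        ((g_qq (g0 x)).sub (g_qq (g1 x)))).abs) (B := 6) (η := η) (ε := e / 2)
    (fun x z => by
      have a1 := t_qq_mem (abs_mm β s (J i) k x z)
      have a2 := t_qq_mem (abs_mm β s (J i) (k + 1) x z)
      have a3 : 0 ≤ sq (mm β s (J i) k x z - mm β s (J i) (k + 1) x z) / n i :=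
        div_nonneg (sqN_nonneg _) hn'.le
      have a4 : sq (mm β s (J i) k x z - mm β s (J i) (k + 1) x z) / n i ≤ 4 := by
        rw [div_le_iff₀ hn']
        unfold sq
        calc ∑ j, (mm β s (J i) k x z - mm β s (J i) (k + 1) x z) j ^ 2
            ≤ ∑ _j : Fin (n i), (4 : ℝ) := by
              refine Finset.sum_le_sum fun j _ => ?_
              have b1 := abs_le.1 (abs_mm β s (J i) k x z j)
              have b2 := abs_le.1 (abs_mm β s (J i) (k + 1) x z j)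
              rw [Pi.sub_apply]
              linarith only [mul_nonneg (sub_nonneg.2 b1.1) (sub_nonneg.2 b1.2), mul_nonneg (sub_nonneg.2 b1.1) (sub_nonneg.2 b2.1), mul_nonneg (sub_nonneg.2 b1.2) (sub_nonneg.2 b2.2), mul_nonneg (sub_nonneg.2 b2.1) (sub_nonneg.2 b2.2)]
          _ = 4 * n i := by simp; ring
      rw [abs_le]
      constructor <;> linarith [a1.1, a1.2, a2.1, a2.2])
    (by norm_num) hη (by positivity)
    (fun z hz => by
      have h2 := hi (β - s) 0 z (pst ν (R * Rᵀ) s z) (by linarith only [hs.2]) (by linarith only [hs.1, hβ1])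
        (Matrix.isSymm_zero) (by unfold hsq; simp) (pst_isProb hν _ s z) (by rwa [sub_zero])
      rw [sub_zero] at h2
      exact h2)
  refine h1.trans ?_
  have h2 := DM.dlr_path (hG.diag i) hR hs.1 hν hp (β := β)
  have h3 : 6 / (η * n i) * EC ν R s (fun _ z => dlr ((β - s) • J i) z (pst ν (R * Rᵀ) s z))
      ≤ 6 / (η * n i) * (4 * (e / 2 * η / 24 * n i)) := by
    refine mul_le_mul_of_nonneg_left ?_ (by positivity)
    linarith only [hI, h2]
  have h4 : 6 / (η * n i) * (4 * (e / 2 * η / 24 * n i)) = e / 2 := by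
    field_simp
    ring
  linarith only [h4, h3]

theorem in_U2O (hβ1 : β ≤ 1) (hG : GoodO β F n J) (hU : U2S F n J) {k : ℕ} (hk : 1 ≤ k) {e : ℝ}
    (he : 0 < e) :
    Nice β κ F n J (fun i s R ν =>
      ∀ v : Vec (n i) → Vec (n i), (∀ j, G fun z => v z j) → (∀ z, sq (v z) ≤ 1) →
        EC ν R s (fun x z => |ip (v z) (sv x - mm β s (J i) k x z)|) ≤ e * √(n i)) := by
  obtain ⟨η, hη, h⟩ := hU 0 k hk (e / 2) (half_pos he)
  refine ⟨e / 2 * η / 8, by positivity, ?_⟩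
  filter_upwards [h, hG.hn.eventually_gt_atTop 0] with i hi hn s hs R hR ν hν hp hI v hv hv1
  have h1 := lift_U2 (η := η) (ε := e / 2) (η' := e / 2 * η / 8) hn hν hp hs.1 (hG.diag i) hR
    (k := k) hη (by positivity) (by linarith only []) (fun y ν' hν' hd w hw => by
      have h2 := hi (β - s) 0 y ν' (by linarith only [hs.2]) (by linarith only [hs.1, hβ1])
        (Matrix.isSymm_zero) (by unfold hsq; simp) hν' (by rwa [sub_zero]) w hw
      rw [sub_zero] at h2
      exact h2) hI hv hv1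
  linarith only [h1]

end inputs

/-- **D3M23** for `β ≤ 1` -/
theorem d3m23O : D3M23O := by
  intro β hβ0 hβ1 κ hκ I F n J hG r₀ hr₀ ε hε
  have hκ0 : 0 ≤ κ := by linarith
  obtain ⟨hQ, hA, hH⟩ := D3.d3bO hβ0 hβ1 hκ0
  set ρ : ℝ := (1 - min r₀ 1) ^ 2 with hρ_def
  have hm0 : 0 < min r₀ 1 := lt_min hr₀ one_pos
  have hm1 : min r₀ 1 ≤ 1 := min_le_right _ _
  have hρ0 : 0 ≤ ρ := sq_nonneg _
  have hb2 : ρ < 1 := pow_lt_one₀ (by linarith only [hm1]) (by linarith only [hm0]) two_ne_zero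
  -- constants
  set Cz : ℝ := (κ + 3) ^ 2 + κ with hCz
  have hCz0 : 0 ≤ Cz := by positivity
  set ε0 : ℝ := ε / (2 * (κ + 2 + 8 / r₀)) with hε0_def
  have hK : 0 < κ + 2 + 8 / r₀ := by positivity
  have hε0 : 0 < ε0 := by positivity
  set t : ℝ := ε0 / (2 * (16 + Cz)) with ht_def
  have ht : 0 < t := by positivity
  set δ : ℝ := ε0 * t / 2 with hδ_def
  have hδ : 0 < δ := by positivity
  set e1 : ℝ := min ε0 (δ / 6) with he1_def
  have he1 : 0 < e1 := lt_min hε0 (by (clear * - hε hκ hr₀; positivity))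
  set e2 : ℝ := min (ε0 / (κ + 3)) (ε0 * t / 2) with he2_def
  have he2 : 0 < e2 := lt_min (by positivity) (by positivity)
  obtain ⟨k, hk1, hkδ, hkε⟩ : ∃ k : ℕ, 1 ≤ k ∧ ρ ^ (k + 1) ≤ δ / 2 ∧
      (κ + 2) * ρ ^ (k + 1) ≤ ε / 2 := by
    have hlim : Tendsto (fun k : ℕ => ρ ^ (k + 1)) atTop (𝓝 0) :=
      (tendsto_pow_atTop_nhds_zero_of_lt_one hρ0 hb2).comp (tendsto_add_atTop_nat 1)
    have h1 := hlim.eventually (ge_mem_nhds (by positivity : (0 : ℝ) < δ / 2))
    have h2 := hlim.eventually (ge_mem_nhds (by positivity : (0 : ℝ) < ε / (2 * (κ + 2))))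
    obtain ⟨k, ⟨hk1, hk2⟩, hk3⟩ := ((h1.and h2).and (eventually_ge_atTop 1)).exists
    refine ⟨k, hk3, hk1, ?_⟩
    have h3 := mul_le_mul_of_nonneg_left hk2 (by linarith only [hκ] : 0 ≤ κ + 2)
    have h4 : (κ + 2) * (ε / (2 * (κ + 2))) = ε / 2 := by field_simp
    linarith only [h3, h4]
  have N := ((((in_QO hκ hG hQ k he1).and (in_QO hκ hG hQ (k + 1) he1)).and
    ((in_A0O hκ hG hA hε0).and (in_A1O hκ hG hA k hε0))).and
    ((in_HO hκ hG hH hε0).and (in_U2O (κ := κ) hβ1 hG hG.u2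
      (k := k + 1) (by omega) he2))).and
    ((in_U3O (κ := κ) hβ1 hG hG.u3 hk1 he1).and
      (in_U3O (κ := κ) hβ1 hG hG.u3 (k := k + 1) (by omega) he1))
  obtain ⟨η, hη, hN⟩ := N
  refine ⟨η, hη, ?_⟩
  filter_upwards [hN, hG.hn.eventually_gt_atTop 0, hG.op 1 one_pos] with i hi hn hop
  intro s hsr0 hsr R hR ν hν hp hI
  have hs0 : 0 ≤ s := hr₀.le.trans hsr0
  have hρ : (β - s) ^ 2 ≤ ρ :=
    pow_le_pow_left₀ (by linarith only [hsr, hr₀])
      (by linarith only [hsr0, hβ1, min_le_left r₀ 1]) 2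
  have hs : s ∈ Set.Icc (0 : ℝ) β := ⟨hs0, by linarith only [hsr, hr₀]⟩
  obtain ⟨⟨⟨⟨h1, h2⟩, h3, h4⟩, h5, h6⟩, h7, h8⟩ := hi s hs R hR ν hν hp hI
  have hn' : (0 : ℝ) < n i := by exact_mod_cast hn
  have hJ3 : OpLe (J i) 3 := by
    have : (2 : ℝ) + 1 = 3 := by norm_num
    rwa [this] at hop
  have hz := t_sq_z hκ0 hs0 (by linarith only [hsr, hr₀, hβ1]) (hG.diag i) hJ3 hR hν
  rw [← hCz] at hz
  have hr0 : 0 < β - s := by linarith only [hsr, hr₀]
  have hr1 : β - s ≤ 1 := by linarith only [hs0, hβ1]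
  set q := qRS (gam β κ s k) with hq_def
  have hq0 : 0 ≤ q := qRS_nonneg (gam_nonneg hκ0 hs k)
  have hq1 : q ≤ 1 := qRS_le_one _
  have g1 := fun x => g_mm β s (J i) (k + 1) x
  have g2 := fun x => g_mm β s (J i) (k + 2) x
  -- the difference `m^{k+1} - m^{k+2}`
  have hsq : EC ν R s (fun x z => sq (mm β s (J i) (k + 1) x z - mm β s (J i) (k + 2) x z))
      / n i ≤ δ := by
    have a1 : EC ν R s (fun x z => sq (mm β s (J i) (k + 1) x z - mm β s (J i) (k + 2) x z))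
        / n i = EC ν R s (fun x z => (n i : ℝ)⁻¹ *
          sq (mm β s (J i) (k + 1) x z - mm β s (J i) (k + 2) x z)) := by
      rw [EC_const_mul, div_eq_inv_mul]
    rw [a1]
    have gU : ∀ x, G fun z => |sq (mm β s (J i) (k + 1) x z - mm β s (J i) (k + 2) x z) / n i
        - (qq (mm β s (J i) (k + 1) x z) - qq (mm β s (J i) (k + 2) x z))| := fun x =>
      (((g_sq (g_vsub (g1 x) (g2 x))).div_const _).sub ((g_qq (g1 x)).sub (g_qq (g2 x)))).abs
    have gA : ∀ x, G fun z => |qq (mm β s (J i) (k + 1) x z) - q| := fun x =>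
      ((g_qq (g1 x)).sub (G.const _)).abs
    have gB : ∀ x, G fun z => |qq (mm β s (J i) (k + 2) x z) - qRS (gam β κ s (k + 1))| :=
      fun x => ((g_qq (g2 x)).sub (G.const _)).abs
    have a2 : EC ν R s (fun x z => (n i : ℝ)⁻¹ *
          sq (mm β s (J i) (k + 1) x z - mm β s (J i) (k + 2) x z))
        ≤ EC ν R s (fun x z => |sq (mm β s (J i) (k + 1) x z - mm β s (J i) (k + 2) x z) / n i
            - (qq (mm β s (J i) (k + 1) x z) - qq (mm β s (J i) (k + 2) x z))|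
          + (|qq (mm β s (J i) (k + 1) x z) - q|
            + (|qq (mm β s (J i) (k + 2) x z) - qRS (gam β κ s (k + 1))|
              + (q - qRS (gam β κ s (k + 1)))))) := by
      refine ec_mono hν (fun x => (g_sq (g_vsub (g1 x) (g2 x))).cmul _)
        (fun x => (gU x).add ((gA x).add ((gB x).add (G.const _)))) fun x z => ?_
      have b1 := le_abs_self (sq (mm β s (J i) (k + 1) x z - mm β s (J i) (k + 2) x z) / n i
            - (qq (mm β s (J i) (k + 1) x z) - qq (mm β s (J i) (k + 2) x z)))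
      have b2 := le_abs_self (qq (mm β s (J i) (k + 1) x z) - q)
      have b3 := neg_abs_le (qq (mm β s (J i) (k + 2) x z) - qRS (gam β κ s (k + 1)))
      rw [← div_eq_inv_mul]
      linarith only [b1, b2, b3]
    rw [ec_add gU (fun x => (gA x).add ((gB x).add (G.const _))),
      ec_add gA (fun x => (gB x).add (G.const _)), ec_add gB (fun _ => G.const _),
      EC_const hν.2] at a2
    have a3 := qRS_gam_sub_leO hκ0 hs hρ k
    rw [← hq_def] at a3
    have a4 : e1 ≤ δ / 6 := min_le_right _ _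
    have a5 : EC ν R s (fun x z => |qq (mm β s (J i) (k + 2) x z) - qRS (gam β κ s (k + 1))|)
        ≤ e1 := h2
    linarith only [a5, a4, a3, a2, h1, h8, hkδ]
  have hE : Errs β κ s (J i) R ν k q ε0 := by
    refine ⟨h4, h3, h5, h1.trans (min_le_left _ _), h7.trans (min_le_left _ _), ?_, ?_, ?_⟩
    · have a1 := err_hD hn hν hJ3 hr0.le hr1 ht hz hsq
      have a2 : t * (16 + Cz) + δ / t = ε0 := by
        rw [hδ_def]
        have e1 : t * (16 + Cz) = ε0 / 2 := by rw [ht_def]; field_simp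
        have e2 : ε0 * t / 2 / t = ε0 / 2 := by field_simp
        rw [e1, e2]; ring
      linarith only [a2, a1]
    · have a1 := err_h2 hn hν hs0 hκ0 hJ3 hR h6
      have a2 : (κ + 3) * e2 ≤ ε0 := by
        have b1 : e2 ≤ ε0 / (κ + 3) := min_le_left _ _
        have b2 := mul_le_mul_of_nonneg_left b1 (by linarith only [hr0, hs0, hκ, hβ1] : 0 ≤ κ + 3)
        have b3 : (κ + 3) * (ε0 / (κ + 3)) = ε0 := by field_simp
        linarith only [b2, b3]
      linarith only [a2, a1]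
    · have a1 := err_h3 hn hν ht hz h6
      have a2 : t * (1 + Cz) ≤ ε0 / 2 := by
        have b1 : t * (1 + Cz) ≤ t * (16 + Cz) := mul_le_mul_of_nonneg_left (by linarith only [hr0, hs0, hβ1]) ht.le
        have b2 : t * (16 + Cz) = ε0 / 2 := by rw [ht_def]; field_simp
        linarith only [b2, ht]
      have a3 : e2 / t ≤ ε0 / 2 := by
        rw [div_le_iff₀ ht]
        have b1 : e2 ≤ ε0 * t / 2 := min_le_right _ _
        linarith only [b1]
      linarith only [a3, a2, a1]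
  have hC := coreO hn hβ1 hs0 (by linarith only [hr0] : s < β) hκ0 hR hν hq0 hq1 hε0.le hE
  rw [le_div_iff₀ hn'] at hC
  have hqF : qF β κ s = qst β κ s := qF_eq_qstO (hρ.trans_lt hb2) hκ0 hs0 hs.2
  have hqs := qst_le_qRS_gam hκ0 hs k
  have hqs' := qRS_gam_sub_qst_leO hκ0 hs hρ k
  rw [← hq_def, ← hqF] at hqs hqs'
  have hqF0 : 0 ≤ qF β κ s := by rw [hqF]; exact qst_nonneg hκ0 hs
  have f1' : (κ + 2 + 8 / (β - s)) * ε0 ≤ ε / 2 := by
    have b1 : 8 / (β - s) ≤ 8 / r₀ := div_le_div_of_nonneg_left (by norm_num) hr₀ (by linarith only [hsr])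
    have b2 : (κ + 2 + 8 / (β - s)) * ε0 ≤ (κ + 2 + 8 / r₀) * ε0 :=
      mul_le_mul_of_nonneg_right (by linarith only [b1]) hε0.le
    have b3 : (κ + 2 + 8 / r₀) * ε0 = ε / 2 := by rw [hε0_def]; field_simp
    linarith only [b3, b2]
  have f2' : κ * (1 - qF β κ s) + (β - s) * (1 - qF β κ s) ^ 2 - ε / 2
      ≤ κ * (1 - q) + (β - s) * (1 - q) ^ 2 := by
    set p := qF β κ s with hp_def
    have b1 : κ * (1 - p) - κ * (1 - q) = κ * (q - p) := by ring
    have b2 : (β - s) * (1 - p) ^ 2 - (β - s) * (1 - q) ^ 2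
        = (β - s) * ((q - p) * (2 - p - q)) := by ring
    have b3 : (q - p) * (2 - p - q) ≤ (q - p) * 2 :=
      mul_le_mul_of_nonneg_left (by linarith only [hqF0, hqs]) (by linarith only [hqs])
    have b4 : (β - s) * ((q - p) * (2 - p - q)) ≤ 1 * ((q - p) * 2) :=
      mul_le_mul hr1 b3 (mul_nonneg (by linarith only [hqs]) (by linarith only [hqs, hq1])) zero_le_one
    have b5 : (κ + 2) * (q - p) ≤ (κ + 2) * ρ ^ (k + 1) :=
      mul_le_mul_of_nonneg_left hqs' (by linarith only [hr0, hs0, hκ, hβ1])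
    linarith only [b5, b4, hkε]
  refine le_trans ?_ hC
  rw [mul_comm]
  refine mul_le_mul_of_nonneg_right ?_ hn'.le
  linarith only [f1', f2']

end Vale.Agent.P150.F.T23
end

section

open MeasureTheory ProbabilityTheory Filter Topology Real
open scoped Matrix

namespace Vale.Agent.P150.F.DM

/-- **D3M-4**: lower bound on the entropy at the end of the path -/
theorem d3m4O : D3M4O := by
  intro β hβ0 hβ1 κ hκ I F n J hG ε hε
  obtain ⟨C, hC0, hC⟩ := HS_ge_field (show (0 : ℝ) < ε / 3 by positivity)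
  have hA := (D3.d3bO hβ0 hβ1 (by linarith only [hκ] : 0 ≤ κ)).2.1 F n J hG (fun _ a => eb a) 1 (fun _ => continuous_eb)
    (fun _ a => (abs_eb_le a).trans (by linarith only [abs_nonneg a])) κ 0 (ε / 3) (by positivity)
  obtain ⟨η, hη, h1⟩ := hA
  obtain ⟨η', hη', h2⟩ := D3.jhyp_prodO hκ hG hη
  refine ⟨min η' (ε / (12 * (C + 1))), lt_min hη' (by positivity), ?_⟩
  filter_upwards [h1, h2, hG.hn.eventually_gt_atTop 0] with i h3 h4 hn R hR ν hν hp hI
  have hn' : (0 : ℝ) ≤ n i := Nat.cast_nonneg _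
  have hs : β ∈ Set.Icc (0 : ℝ) β := ⟨hβ0, le_refl _⟩
  have h5 := h4 (n i) R β ν hs hR hν hp
    (hI.trans (mul_le_mul_of_nonneg_right (min_le_left _ _) hn'))
  have h6 := h3 (n i) R β (fun x _ => ν x) hs h5
  have h7 := sum_eb_ge hβ0 (by linarith only [hκ]) hν hn h6
  have h8 := end_ge hC0 hC hβ0 (hG.diag i) hR hν hp
  have h9 : IP' ν (gM (β • J i) 0) ≤ ε / (12 * (C + 1)) * n i :=
    hI.trans (mul_le_mul_of_nonneg_right (min_le_right _ _) hn')
  have h10 : C * (4 * IP' ν (gM (β • J i) 0)) ≤ ε / 3 * n i := by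
    have h6 : C * (4 * IP' ν (gM (β • J i) 0)) ≤ C * (4 * (ε / (12 * (C + 1)) * n i)) :=
      mul_le_mul_of_nonneg_left (mul_le_mul_of_nonneg_left h9 (by norm_num)) hC0
    have h7 : C * (4 * (ε / (12 * (C + 1)) * n i)) = C / (C + 1) * (ε / 3 * n i) := by
      field_simp
      ring
    have h8 : C / (C + 1) ≤ 1 := by
      rw [div_le_one (by positivity)]
      linarith only
    have h9 : 0 ≤ ε / 3 * (n i : ℝ) := by positivity
    have h10 := mul_le_mul_of_nonneg_right h8 h9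
    rw [one_mul] at h10
    linarith only [h6, h7, h10]
  rw [iS_eq_iRS]
  linarith only [h7, h8, h10]

end Vale.Agent.P150.F.DM
end

section

open MeasureTheory ProbabilityTheory Filter Topology Real
open scoped Matrix

namespace Vale.Agent.P150.F

namespace M5

/-- the hypotheses of D3b at `s = 0` for a product law -/
theorem jhyp_zeroO {β κ : ℝ} (hκ : 0 ≤ κ) {I : Type} {F : Filter I} {n : I → ℕ}
    {J : ∀ i, Mat (n i)} (hG : GoodO β F n J) {η : ℝ} (hη : 0 < η) :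
    ∀ᶠ i in F, ∀ (m : ℕ) (R : Matrix (Fin (n i)) (Fin m) ℝ) (ν : Cfg (n i) → ℝ),
      R * Rᵀ = J i + κ • (1 : Mat (n i)) → IsProb ν → dlr (β • J i) 0 ν ≤ η * n i →
      D3.JHyp β κ (J i) R 0 κ η (fun x _ => ν x) := by
  have hlim : Tendsto (fun i => 2 * ((1 / η * √(3 + κ) + 1) / √(n i : ℝ))) F (𝓝 0) := by
    have h1 : Tendsto (fun i => √(n i : ℝ)) F atTop :=
      Real.tendsto_sqrt_atTop.comp (tendsto_natCast_atTop_atTop.comp hG.hn)
    have h2 := (tendsto_const_nhds (x := 1 / η * √(3 + κ) + 1)).div_atTop h1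
    simpa using h2.const_mul 2
  filter_upwards [hG.op 1 one_pos, hlim.eventually (ge_mem_nhds hη), hG.hn.eventually_gt_atTop 0]
    with i hop hsmall hn m R ν hR hν hd
  have hop' : OpLe (R * Rᵀ) (3 + κ) := by
    rw [hR]
    have : (2 : ℝ) + 1 = 3 := by norm_num
    rw [this] at hop
    exact D3.opLe_add_smul_one (by norm_num) hκ hop
  have hdiag : ∀ j, (R * Rᵀ) j j = κ := by
    intro j
    rw [hR]
    simp [hG.diag i j]
  have hd2 : ∫ ξ, dlr ((β - 0) • J i) (√0 • R.mulVec ξ) (fun x => D3.shw R 0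
      (fun x (_ : Fin m → ℝ) => ν x) x ξ) ∂(gpi (Fin m)) ≤ η * n i := by
    have h1 : ∀ ξ : Fin m → ℝ, dlr ((β - 0) • J i) (√0 • R.mulVec ξ) (fun x => D3.shw R 0
        (fun x (_ : Fin m → ℝ) => ν x) x ξ) = dlr (β • J i) 0 ν := by
      intro ξ
      have h2 : (fun x => D3.shw R 0 (fun x (_ : Fin m → ℝ) => ν x) x ξ) = ν := by
        funext x
        simp [D3.shw]
      rw [h2, Real.sqrt_zero, zero_smul, sub_zero]
    simp_rw [h1]
    simpa using hd
  exact
    { law := D3.JL.pw (m := m) hν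
      hR := hR
      J1 := by simpa using hd
      J2 := hd2
      J3c := fun θ ε hθ hε =>
        ((D3.J3_pw hop' (by positivity) hdiag hn hν hε hθ).1).trans hsmall
      J3s := fun θ ε hθ hε =>
        ((D3.J3_pw hop' (by positivity) hdiag hn hν hε hθ).2).trans hsmall
      J4i := fun x => (TP.integrable_sq_R R).const_mul _
      J4 := (D3.J4_pw hdiag hν).le }

end M5

/-- D3M5O from D3bHO at `s = 0` -/
theorem d3m5O : D3M5O := by
  intro β hβ0 hβ1 I F n J hG ε hε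
  obtain ⟨η, hη, h⟩ := (D3.d3bO (κ := 4) hβ0 hβ1 (by norm_num)).2.2 F n J hG M5.tf 1 M5.tf_cont M5.tf_bd 4 ε hε
  refine ⟨η, hη, ?_⟩
  filter_upwards [h, M5.jhyp_zeroO (κ := 4) (by norm_num) hG hη, hG.op 1 one_pos,
    hG.hn.eventually_gt_atTop 0] with i hi hj hop hn ν hν hd
  have hn' : (0 : ℝ) < n i := by exact_mod_cast hn
  obtain ⟨R, hR⟩ := exists_sqrt (hG.symm i) (C := 3) (by norm_num) (by
    have : (2 : ℝ) + 1 = 3 := by norm_num
    rwa [this] at hop) (κ := 4) (by norm_num)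
  have h1 := hi (n i) R 0 (fun x _ => ν x) ⟨le_rfl, hβ0⟩ (hj (n i) R ν hR hν hd)
  have h2 : D3.EJ (m := n i) (fun x _ => ν x) (fun x _ => |(∑ j, (M5.tf (sv x j)
      ((β • J i).mulVec (sv x) j) - D3.NEs M5.tf (β ^ 2) (sv x j))) / n i|) =
      ∑ x, ν x * |(β * qf (J i) (sv x) - β ^ 2 * n i) / n i| := by
    unfold D3.EJ
    apply Finset.sum_congr rfl
    intro x _
    rw [integral_const]
    simp only [measureReal_def, measure_univ, ENNReal.toReal_one, one_smul]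
    congr 3
    have h3 : ∀ j, M5.tf (sv x j) ((β • J i).mulVec (sv x) j) - D3.NEs M5.tf (β ^ 2) (sv x j) =
        β * (sv x j * (J i).mulVec (sv x) j) - β ^ 2 := by
      intro j
      have hs : sv x j = 1 ∨ sv x j = -1 := by
        unfold sv sp
        cases x j <;> simp
      rw [M5.NEs_tf hs, M5.tf_eq hs, Matrix.smul_mulVec, Pi.smul_apply, smul_eq_mul]
      ring
    rw [Finset.sum_congr rfl fun j _ => h3 j, Finset.sum_sub_distrib, ← Finset.mul_sum]
    simp only [Finset.sum_const, Finset.card_univ, Fintype.card_fin, nsmul_eq_mul]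
    unfold qf ip
    ring
  rw [h2] at h1
  have h4 : β * Ex ν (fun x => qf (J i) (sv x)) - β ^ 2 * n i =
      n i * ∑ x, ν x * ((β * qf (J i) (sv x) - β ^ 2 * n i) / n i) := by
    unfold Ex
    have h5 : ∀ x, ν x * ((β * qf (J i) (sv x) - β ^ 2 * n i) / n i) =
        (β / n i) * (ν x * qf (J i) (sv x)) - β ^ 2 * ν x := by
      intro x
      field_simp
    rw [Finset.sum_congr rfl fun x _ => h5 x, Finset.sum_sub_distrib, ← Finset.mul_sum,
      ← Finset.mul_sum, hν.2]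
    field_simp
  rw [h4, abs_mul, abs_of_pos hn', mul_comm]
  apply mul_le_mul_of_nonneg_right _ hn'.le
  refine (Finset.abs_sum_le_sum_abs _ _).trans (le_trans (le_of_eq ?_) h1)
  apply Finset.sum_congr rfl
  intro x _
  rw [abs_mul, abs_of_nonneg (hν.1 x)]

/-- the pieces of the path with small `s` have small total weight -/
theorem sum_cut0 {β r₀ : ℝ} (hβ : 0 ≤ β) (hr : 0 ≤ r₀) (N : ℕ) :
    ∑ j ∈ Finset.range N, β / N * (if r₀ ≤ (j : ℝ) * (β / N) then (0 : ℝ) else 1)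
      ≤ r₀ + β / N := by
  have hb : 0 ≤ β / N := by positivity
  set g : ℝ → ℝ := fun s => min (r₀ + β / N) s with hg
  have h1 : ∀ j ∈ Finset.range N, β / N * (if r₀ ≤ (j : ℝ) * (β / N) then (0 : ℝ) else 1)
      ≤ g (((j + 1 : ℕ) : ℝ) * (β / N)) - g ((j : ℝ) * (β / N)) := by
    intro j _
    have e : ((j + 1 : ℕ) : ℝ) * (β / N) = j * (β / N) + β / N := by push_cast; ring
    rw [e]
    split_ifs with h
    · rw [mul_zero, sub_nonneg]
      exact min_le_min le_rfl (by linarith only [hb])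
    · push Not at h
      rw [hg]
      simp only
      rw [min_eq_right (by linarith only [h]), min_eq_right (by linarith only [h, hb])]
      linarith only []
  refine (Finset.sum_le_sum h1).trans ?_
  rw [Finset.sum_range_sub (fun j : ℕ => g ((j : ℝ) * (β / N)))]
  have h2 : g ((N : ℝ) * (β / N)) ≤ r₀ + β / N := min_le_left _ _
  have h3 : g (((0 : ℕ) : ℝ) * (β / N)) = 0 := by
    rw [hg]
    simp only
    rw [Nat.cast_zero, zero_mul]
    exact min_eq_right (by linarith only [hr, hb])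
  rw [h3]
  linarith only [h2]

/-- the contribution of the whole path -/
theorem path_sumO {β r₀ ε₁ nn : ℝ} (hβ0 : 0 ≤ β) (hβ1 : β ≤ 1) (hr₀0 : 0 ≤ r₀) (hε₁0 : 0 ≤ ε₁)
    (hnn : 0 ≤ nn) {N : ℕ} (hN1 : 1 ≤ N) (hNr : β / N ≤ r₀) (e : ℕ → ℝ) (he : ∀ j, 0 ≤ e j)
    (hA : ∀ j : ℕ, r₀ ≤ (j : ℝ) * (β / N) → (j : ℝ) * (β / N) ≤ β - r₀ →
      nn * (4 * (1 - qF β 4 (j * (β / N))) +
        (β - j * (β / N)) * (1 - qF β 4 (j * (β / N))) ^ 2 - ε₁) ≤ e j) :
    nn * (iS (β ^ 2 + β * 4) - β ^ 2 / 4 - β / 2 * ε₁ - 5 / 2 * (3 * r₀)) ≤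
      ∑ j ∈ Finset.range N, β / N / 2 * e j := by
  have hNR : (0 : ℝ) < N := by exact_mod_cast hN1
  have hterm : ∀ j ∈ Finset.range N,
      nn * (β / N / 2 * (4 * (1 - qF β 4 (j * (β / N))) +
        (β - j * (β / N)) * (1 - qF β 4 (j * (β / N))) ^ 2)
        - β / N / 2 * ε₁
        - 5 / 2 * (β / N * (if (j : ℝ) * (β / N) ≤ β - r₀ then (0 : ℝ) else 1))
        - 5 / 2 * (β / N * (if r₀ ≤ (j : ℝ) * (β / N) then (0 : ℝ) else 1)))
      ≤ β / N / 2 * e j := by
    intro j hj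
    have hjN : (j : ℝ) ≤ N := by exact_mod_cast (Finset.mem_range.1 hj).le
    have hs0 : 0 ≤ (j : ℝ) * (β / N) := by positivity
    have hsβ : (j : ℝ) * (β / N) ≤ β := by
      rw [mul_div_assoc', div_le_iff₀ hNR]
      linarith only [mul_nonneg hβ0 (sub_nonneg.2 hjN)]
    have hb : 0 ≤ β / N / 2 := by positivity
    have hb2 : 0 ≤ β / N := by positivity
    by_cases h : (j : ℝ) * (β / N) ≤ β - r₀ ∧ r₀ ≤ (j : ℝ) * (β / N)
    · rw [if_pos h.1, if_pos h.2]
      have h2 := mul_le_mul_of_nonneg_left (hA j h.2 h.1) hb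
      refine le_trans (le_of_eq ?_) h2
      ring
    · have hq := qF_spec hs0 hsβ (by norm_num : (0 : ℝ) ≤ 4)
      have hf : 4 * (1 - qF β 4 (j * (β / N))) +
        (β - j * (β / N)) * (1 - qF β 4 (j * (β / N))) ^ 2 ≤ 5 := by
        have h2 : (1 - qF β 4 (j * (β / N))) ^ 2 ≤ 1 := by
          have := hq.1
          have := hq.2.1
          nlinarith
        have h3 : (β - j * (β / N)) * (1 - qF β 4 (j * (β / N))) ^ 2 ≤ 1 * 1 :=
          mul_le_mul (by linarith only [hβ1, hs0]) h2 (sq_nonneg _) (by norm_num)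
        have := hq.1
        linarith only [this, h3]
      have h6 : 0 ≤ β / N / 2 * e j := mul_nonneg hb (he j)
      refine le_trans ?_ h6
      have h7 : β / N / 2 * (4 * (1 - qF β 4 (j * (β / N))) +
        (β - j * (β / N)) * (1 - qF β 4 (j * (β / N))) ^ 2) ≤ β / N / 2 * 5 :=
        mul_le_mul_of_nonneg_left hf hb
      have h8 : 0 ≤ β / N / 2 * ε₁ := mul_nonneg hb hε₁0
      refine mul_nonpos_of_nonneg_of_nonpos hnn ?_
      split_ifs with h9 h10 h10
      · exact absurd ⟨h9, h10⟩ h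
      · linarith only [h8, h7]
      · linarith only [h8, h7]
      · linarith only [h8, h7, hb2]
  have hsum := Finset.sum_le_sum hterm
  rw [← Finset.mul_sum, Finset.sum_sub_distrib, Finset.sum_sub_distrib,
    Finset.sum_sub_distrib] at hsum
  have hrs := rs_calcO hβ0 hβ1 (by norm_num : (0 : ℝ) ≤ 4) hN1
  have hcut : ∑ j ∈ Finset.range N,
      5 / 2 * (β / N * (if (j : ℝ) * (β / N) ≤ β - r₀ then (0 : ℝ) else 1)) ≤ 5 / 2 * r₀ := by
    rw [← Finset.mul_sum]
    exact mul_le_mul_of_nonneg_left (sum_cut hβ0 hr₀0 N hN1) (by norm_num)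
  have hcut0 : ∑ j ∈ Finset.range N,
      5 / 2 * (β / N * (if r₀ ≤ (j : ℝ) * (β / N) then (0 : ℝ) else 1)) ≤ 5 / 2 * (r₀ + β / N) := by
    rw [← Finset.mul_sum]
    exact mul_le_mul_of_nonneg_left (sum_cut0 hβ0 hr₀0 N) (by norm_num)
  have hconst : ∑ _j ∈ Finset.range N, β / N / 2 * ε₁ = β / 2 * ε₁ := by
    rw [Finset.sum_const, Finset.card_range, nsmul_eq_mul]
    field_simp
  rw [hconst] at hsum
  refine le_trans ?_ hsum
  refine mul_le_mul_of_nonneg_left ?_ hnn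
  linarith only [hcut, hcut0, hrs, hNr]

/-- **D3M** for `β ≤ 1` -/
theorem d3mO : D3MStatementO := by
  have h1 : D3M1 := d3m1
  have h23 : D3M23O := T23.d3m23O
  have h4 : D3M4O := DM.d3m4O
  have h5 : D3M5O := d3m5O
  have hd : CH5d := thCH5d
  intro β hβ0 hβ1 I F n J hG ε hε
  set ε₁ : ℝ := ε / 10 with hε₁
  have hε₁0 : 0 < ε₁ := by positivity
  have hr₀0 : 0 < ε₁ / 15 := by positivity
  obtain ⟨η1, hη1, hA⟩ := h23 β hβ0 hβ1 4 le_rfl F n J hG (ε₁ / 15) hr₀0 ε₁ hε₁0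
  obtain ⟨η2, hη2, hB⟩ := h4 β hβ0 hβ1 4 le_rfl F n J hG ε₁ hε₁0
  obtain ⟨η3, hη3, hC⟩ := h5 β hβ0 hβ1 F n J hG ε₁ hε₁0
  refine ⟨min η1 (min η2 (η3 / 4)), lt_min hη1 (lt_min hη2 (by positivity)), ?_⟩
  have hn1 : ∀ᶠ i in F, 1 ≤ n i := hG.hn.eventually_ge_atTop 1
  filter_upwards [hA, hB, hC, hG.logZ ε₁ hε₁0, hG.op 1 one_pos, hn1] with i hA hB hC hZ hop hn1
  intro ν hν hpos hI
  have hnR : (1 : ℝ) ≤ n i := by exact_mod_cast hn1
  have hnn : (0 : ℝ) ≤ n i := by linarith only [hnR]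
  have hI1 : IP' ν (gM (β • J i) 0) ≤ η1 * n i :=
    hI.trans (mul_le_mul_of_nonneg_right (min_le_left _ _) hnn)
  have hI2 : IP' ν (gM (β • J i) 0) ≤ η2 * n i :=
    hI.trans (mul_le_mul_of_nonneg_right ((min_le_right _ _).trans (min_le_left _ _)) hnn)
  have hI3 : IP' ν (gM (β • J i) 0) ≤ η3 / 4 * n i :=
    hI.trans (mul_le_mul_of_nonneg_right ((min_le_right _ _).trans (min_le_right _ _)) hnn)
  have hsymm : ∀ a b, (β • J i) a b = (β • J i) b a := fun a b => by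
    rw [Matrix.smul_apply, Matrix.smul_apply, hG.symm i a b]
  have hdlr : dlr (β • J i) 0 ν ≤ η3 * n i := by
    have := hd (n i) (β • J i) 0 hsymm ν hν hpos
    linarith only [hI3, this]
  have hen := hC ν hν hdlr
  obtain ⟨R, hR⟩ := exists_sqrt (hG.symm i) (by norm_num : (0 : ℝ) ≤ 2 + 1) hop
    (by norm_num : (2 + 1 : ℝ) ≤ 4)
  obtain ⟨N₀, hN₀⟩ := h1 (n i) (n i) R β hβ0 ν hν ε₁ hε₁0
  obtain ⟨N₁, hN₁⟩ := exists_nat_ge (15 / ε₁)
  set N : ℕ := max N₀ (N₁ + 1) with hNdef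
  have hN1 : 1 ≤ N := (Nat.le_add_left 1 N₁).trans (le_max_right _ _)
  have hNr : β / N ≤ ε₁ / 15 := by
    have h2 : (N₁ : ℝ) + 1 ≤ N := by exact_mod_cast (le_max_right _ _ : N₁ + 1 ≤ max N₀ (N₁ + 1))
    have h3 : (0 : ℝ) < N := by exact_mod_cast hN1
    rw [div_le_iff₀ hε₁0] at hN₁
    rw [div_le_iff₀ h3]
    have h4 := mul_le_mul_of_nonneg_right h2 hε₁0.le
    linarith only [hN₁, h4, hβ1, hε₁0]
  have hpath := hN₀ N (le_max_left _ _) hN1
  have hend := hB R hR ν hν hpos hI2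
  have hsum2 := path_sumO hβ0 hβ1 hr₀0.le hε₁0.le hnn hN1 hNr
    (fun j => EC ν R (j * (β / (N : ℕ)))
      (fun _ y => trQ (R * Rᵀ) (pst ν (R * Rᵀ) (j * (β / (N : ℕ))) y)))
    (fun j => EC_nonneg hν.1 R _ fun x z => trQ_nonneg R (pst_isProb hν _ _ z).1)
    (fun j hj0 hj => hA _ hj0 hj R hR ν hν hpos hI1)
  have hHS : n i * (Real.log 2 - β ^ 2 / 4 - β / 2 * ε₁ - 5 / 2 * (ε₁ / 5) - ε₁) - ε₁ ≤ HS ν := by
    have e : n i * (Real.log 2 - β ^ 2 / 4 - β / 2 * ε₁ - 5 / 2 * (ε₁ / 5) - ε₁) =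
      n i * (iS (β ^ 2 + β * 4) - β ^ 2 / 4 - β / 2 * ε₁ - 5 / 2 * (3 * (ε₁ / 15))) +
      n i * (Real.log 2 - iS (β ^ 2 + β * 4) - ε₁) := by ring
    rw [e]
    linarith only [hsum2, hend, hpath]
  have hqf : ∀ x : Cfg (n i), qf (β • J i) (sv x) = β * qf (J i) (sv x) := by
    intro x
    unfold qf
    rw [Matrix.smul_mulVec]
    unfold ip
    rw [Finset.mul_sum]
    exact Finset.sum_congr rfl fun a _ => by rw [Pi.smul_apply, smul_eq_mul]; ring
  have hZ2 : Real.log (∑ x : Cfg (n i), Real.exp (qf (β • J i) (sv x) / 2)) ≤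
      n i * (Real.log 2 + β ^ 2 / 4 + ε₁) := by
    have : ∀ x : Cfg (n i), qf (β • J i) (sv x) / 2 = β / 2 * qf (J i) (sv x) := by
      intro x; rw [hqf]; ring
    simp_rw [this]
    exact hZ
  have hE2 : Ex ν (fun x => qf (β • J i) (sv x)) = β * Ex ν (fun x => qf (J i) (sv x)) := by
    unfold Ex
    rw [Finset.mul_sum]
    exact Finset.sum_congr rfl fun x _ => by simp only [hqf]; ring
  rw [KL_gM (β • J i) hν hpos, hE2]
  have e11 : ε = 10 * ε₁ := by rw [hε₁]; ring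
  rw [e11]
  exact d3m_arith hnR hβ1 hε₁0 hHS hZ2 (abs_le.1 hen).1

/-- [G4] -/
theorem g4O (β : ℝ) : ∀ ε > 0, ∀ᶠ i in whpF,
    Real.log (∑ x : Cfg i.1, Real.exp (β / 2 * qf (skM i.2) (sv x)))
      ≤ i.1 * (Real.log 2 + β ^ 2 / 4 + ε) := by
  intro ε hε
  refine eventually_whpF_of_real (fun n : ℕ => Real.exp (-(ε * n))) ?_ ?_
  · have := tendsto_exp_lin hε 0
    simpa using this
  · filter_upwards [eventually_gt_atTop 0] with n hn
    obtain ⟨h1, h2⟩ := integral_Z_le hn β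
    have hZ : ∀ g : Pairs n → ℝ, 0 < ∑ x : Cfg n, Real.exp (β / 2 * qf (skM g) (sv x)) :=
      fun g => Finset.sum_pos (fun _ _ => Real.exp_pos _) Finset.univ_nonempty
    have h3 := mul_meas_ge_le_integral_of_nonneg (μ := gpi (Pairs n))
      (Eventually.of_forall fun g => (hZ g).le) h1 (Real.exp (n * (Real.log 2 + β ^ 2 / 4 + ε)))
    have h4 : (disorder n).real {g | ¬ (Real.log (∑ x : Cfg n,
        Real.exp (β / 2 * qf (skM g) (sv x))) ≤ n * (Real.log 2 + β ^ 2 / 4 + ε))}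
        ≤ (gpi (Pairs n)).real {g | Real.exp (n * (Real.log 2 + β ^ 2 / 4 + ε)) ≤
          ∑ x : Cfg n, Real.exp (β / 2 * qf (skM g) (sv x))} := by
      refine measureReal_mono fun g hg => ?_
      have hg' : n * (Real.log 2 + β ^ 2 / 4 + ε) < Real.log (∑ x : Cfg n,
        Real.exp (β / 2 * qf (skM g) (sv x))) := not_le.1 hg
      exact ((Real.lt_log_iff_exp_lt (hZ g)).1 hg').le
    refine h4.trans ?_
    have h5 : Real.exp (n * (Real.log 2 + β ^ 2 / 4 + ε))
        = Real.exp (n * (Real.log 2 + β ^ 2 / 4)) * Real.exp (ε * n) := by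
      rw [← Real.exp_add]; congr 1; ring
    have h6 := h3.trans h2
    rw [h5] at h6 ⊢
    have h7 : 0 < Real.exp (n * (Real.log 2 + β ^ 2 / 4)) := Real.exp_pos _
    rw [mul_assoc] at h6
    have h8 := le_of_mul_le_mul_left (h6.trans (le_of_eq (mul_one _).symm)) h7
    rw [Real.exp_neg, ← one_div, le_div_iff₀ (Real.exp_pos _), mul_comm]
    exact h8

/-- the reduced good event holds with high probability, given the star shape at `β` -/
theorem goodO_whp {β : ℝ} (h3 : ∀ q₀ > (0 : ℝ), ∃ c > (0 : ℝ), ∀ᶠ i in whpF, SS β q₀ c (skM i.2)) :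
    GoodO β whpF (fun i => i.1) (fun i => skM i.2) :=
  ⟨prob 0 le_rfl one_pos, h3, g4O β⟩

/-- **(Top)** given the star shape at `β = 1`: with high probability, laws with `o(n)` Dirichlet
form have `o(n)` relative entropy with respect to the critical SK measure -/
theorem top_of (h3 : ∀ q₀ > (0 : ℝ), ∃ c > (0 : ℝ), ∀ᶠ i in whpF, SS 1 q₀ c (skM i.2)) :
    ∀ ε > (0 : ℝ), ∃ η > (0 : ℝ), ∀ᶠ i in whpF, ∀ ν : Cfg i.1 → ℝ, IsProb ν → (∀ x, 0 < ν x) →
      IP' ν (gM ((1 : ℝ) • skM i.2) 0) ≤ η * i.1 →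
      KL ν (gM ((1 : ℝ) • skM i.2) 0) ≤ ε * i.1 :=
  d3mO 1 zero_le_one le_rfl whpF (fun i => i.1) (fun i => skM i.2) (goodO_whp h3)

/-- the reduced good event at `β = 1` holds with high probability -/
theorem goodO_one : GoodO 1 whpF (fun i => i.1) (fun i => skM i.2) := goodO_whp One.G3_one

/-- **(Top)**: with high probability, laws with `o(n)` Dirichlet form have `o(n)` relative entropy
with respect to the critical SK measure -/
theorem top_one :
    ∀ ε > (0 : ℝ), ∃ η > (0 : ℝ), ∀ᶠ i in whpF, ∀ ν : Cfg i.1 → ℝ, IsProb ν → (∀ x, 0 < ν x) →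
      IP' ν (gM ((1 : ℝ) • skM i.2) 0) ≤ η * i.1 →
      KL ν (gM ((1 : ℝ) • skM i.2) 0) ≤ ε * i.1 :=
  top_of One.G3_one

end Vale.Agent.P150.F
end
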