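import Vale.Agent.N150.Hc

/-! Ward identities on a good set, by finite differences along `O ↦ O * cay (t X / 2)`. -/

namespace Vale.Agent.N150.Wd

open Matrix MeasureTheory Set
open Vale.Agent.N150.Haar (fro cay cayG fro_nonneg fro_add_le fro_sub_le fro_neg fro_smul
  fro_mul_le fro_transpose fro_zero)

variable {n : ℕ}

/-- square real matrices -/
abbrev Mt (n : ℕ) := Matrix (Fin n) (Fin n) ℝ

variable {P X : Mt n}

/-- the rotation `cay (t X / 2) = 1 + t X + O(t ^ 2)` -/
noncomputable def rot (hX : Sk P X) (t : ℝ) : OG n := cayG ((t / 2) • X) (hX.smul (t / 2)).1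

lemma rot_mem (hX : Sk P X) (t : ℝ) : rot hX t ∈ SG P := (hX.smul (t / 2)).cay_mem

lemma fro_rot_one (hX : Sk P X) (h2 : fro X ≤ 2) {t : ℝ} (ht : 0 ≤ t) :
    fro ((rot hX t).1 - 1) ≤ 2 * t := by
  refine (Haar.fro_cay_sub_one (hX.smul (t / 2)).1).trans ?_
  rw [fro_smul, abs_of_nonneg (by linarith)]
  nlinarith

lemma fro_rot_two (hX : Sk P X) (h2 : fro X ≤ 2) {t : ℝ} (ht : 0 ≤ t) :
    fro ((rot hX t).1 - 1 - t • X) ≤ 2 * t ^ 2 := by
  have h := Haar.fro_cay_second (hX.smul (t / 2)).1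
  rw [smul_smul, show 2 * (t / 2) = t by ring, fro_smul, abs_of_nonneg (by linarith)] at h
  refine h.trans ?_
  have h0 := fro_nonneg X
  have h3 : t / 2 * fro X ≤ t := by nlinarith
  have h4 : (t / 2 * fro X) ^ 2 ≤ t ^ 2 := pow_le_pow_left₀ (by positivity) h3 2
  linarith

/-- entrywise measurable matrix function -/
def Ms (M : OG n → Mt n) : Prop := ∀ i j, Measurable fun O => M O i j

lemma Ms.const (A : Mt n) : Ms fun _ => A := fun _ _ => measurable_const

lemma Ms.self : Ms fun O : OG n => O.1 := measurable_entry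

lemma Ms.add {M N : OG n → Mt n} (h : Ms M) (h' : Ms N) : Ms fun O => M O + N O :=
  fun i j => (h i j).add (h' i j)

lemma Ms.sub {M N : OG n → Mt n} (h : Ms M) (h' : Ms N) : Ms fun O => M O - N O :=
  fun i j => (h i j).sub (h' i j)

lemma Ms.neg {M : OG n → Mt n} (h : Ms M) : Ms fun O => -M O := fun i j => (h i j).neg

lemma Ms.smul {M : OG n → Mt n} (h : Ms M) (c : ℝ) : Ms fun O => c • M O :=
  fun i j => (h i j).const_mul c

lemma Ms.mul {M N : OG n → Mt n} (h : Ms M) (h' : Ms N) : Ms fun O => M O * N O :=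
  fun i j => by
    simp only [mul_apply]
    exact Finset.measurable_sum _ fun k _ => (h i k).mul (h' k j)

lemma Ms.transpose {M : OG n → Mt n} (h : Ms M) : Ms fun O => (M O)ᵀ := fun i j => h j i

lemma Ms.pi {M : OG n → Mt n} (h : Ms M) : Measurable fun O => (fun i j => M O i j) :=
  measurable_pi_iff.2 fun i => measurable_pi_iff.2 fun j => h i j

lemma Ms.inv {M : OG n → Mt n} (h : Ms M) : Ms fun O => (M O)⁻¹ := fun i j => by
  have c0 : Continuous fun A : Fin n → Fin n → ℝ => (Matrix.of A : Mt n) := continuous_id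
  have h1 : Measurable fun O => (M O).det := c0.matrix_det.measurable.comp h.pi
  have h2 : Measurable fun O => (M O).adjugate i j :=
    (c0.matrix_adjugate.matrix_elem i j).measurable.comp h.pi
  simp only [Matrix.inv_def, Ring.inverse_eq_inv', Matrix.smul_apply, smul_eq_mul]
  exact h1.inv.mul h2

lemma Ms.trace {M : OG n → Mt n} (h : Ms M) : Measurable fun O => (M O).trace :=
  Finset.measurable_sum _ fun i _ => h i i

/-- `M1 O X` is the derivative of `M` at `O` along `O * cay (t X / 2)`, with bounds on `G` -/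
structure HD (P : Mt n) (G : Set (OG n)) (κ : ℝ) (M : OG n → Mt n) (M1 : OG n → Mt n → Mt n) :
    Prop where
  one : 1 ≤ κ
  ms : Ms M
  ms1 : ∀ X, Ms fun O => M1 O X
  bd : ∀ O ∈ G, fro (M O) ≤ κ
  bd1 : ∀ O ∈ G, ∀ X, Sk P X → fro X ≤ 2 → fro (M1 O X) ≤ κ
  rem : ∀ O ∈ G, ∀ X (hX : Sk P X), fro X ≤ 2 → ∀ t, 0 ≤ t → t ≤ 1 → O * rot hX t ∈ G →
    fro (M (O * rot hX t) - M O - t • M1 O X) ≤ κ * t ^ 2

namespace HD

variable {G : Set (OG n)} {κ κ' : ℝ} {M N : OG n → Mt n} {M1 N1 : OG n → Mt n → Mt n}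

lemma mono (h : HD P G κ M M1) (hκ : κ ≤ κ') : HD P G κ' M M1 :=
  ⟨h.one.trans hκ, h.ms, h.ms1, fun O hO => (h.bd O hO).trans hκ,
    fun O hO X hX h2 => (h.bd1 O hO X hX h2).trans hκ,
    fun O hO X hX h2 t h0 h1 hG => (h.rem O hO X hX h2 t h0 h1 hG).trans (by gcongr)⟩

/-- the derivative may be rewritten on the good set -/
lemma congr (h : HD P G κ M M1) (hm : ∀ X, Ms fun O => N1 O X)
    (e : ∀ O ∈ G, ∀ X, Sk P X → M1 O X = N1 O X) : HD P G κ M N1 :=
  ⟨h.one, h.ms, hm, h.bd, fun O hO X hX h2 => e O hO X hX ▸ h.bd1 O hO X hX h2,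
    fun O hO X hX h2 t h0 h1 hG => e O hO X hX ▸ h.rem O hO X hX h2 t h0 h1 hG⟩

lemma step (h : HD P G κ M M1) {O : OG n} (hO : O ∈ G) (hX : Sk P X) (h2 : fro X ≤ 2) {t : ℝ}
    (h0 : 0 ≤ t) (h1 : t ≤ 1) (hG : O * rot hX t ∈ G) :
    fro (M (O * rot hX t) - M O) ≤ 2 * κ * t := by
  have a1 := h.rem O hO X hX h2 t h0 h1 hG
  have a2 := h.bd1 O hO X hX h2
  have a3 := fro_add_le (M (O * rot hX t) - M O - t • M1 O X) (t • M1 O X)
  rw [sub_add_cancel, fro_smul, abs_of_nonneg h0] at a3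
  have a4 := h.one
  have a5 : κ * t ^ 2 ≤ κ * t := by
    refine mul_le_mul_of_nonneg_left ?_ (by linarith)
    nlinarith
  nlinarith

lemma const (P : Mt n) (G : Set (OG n)) (h1 : 1 ≤ κ) {A : Mt n} (hA : fro A ≤ κ) :
    HD P G κ (fun _ => A) fun _ _ => 0 :=
  ⟨h1, .const _, fun _ => .const _, fun _ _ => hA, fun _ _ _ _ _ => by rw [fro_zero]; linarith,
    fun _ _ _ _ _ t _ _ _ => by
      rw [sub_self, smul_zero, sub_zero, fro_zero]; positivity⟩

/-- the rotation itself -/
lemma self (P : Mt n) (G : Set (OG n)) (h2 : 2 ≤ κ) (hn : (n : ℝ) ≤ κ) :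
    HD P G κ (fun O => O.1) fun O X => O.1 * X := by
  refine ⟨by linarith, .self, fun _ => Ms.self.mul (.const _), fun O _ => ?_,
    fun O _ X _ hX => ?_, fun O _ X hX h t h0 _ _ => ?_⟩
  · rw [Haar.fro_orth, Fintype.card_fin, Real.sqrt_le_left (by linarith)]
    nlinarith
  · rw [Haar.fro_orth_mul]; linarith
  · have e : (O * rot hX t).1 - O.1 - t • (O.1 * X) = O.1 * ((rot hX t).1 - 1 - t • X) := by
      rw [OG.coe_mul, mul_sub, mul_sub, mul_one, Matrix.mul_smul]
    rw [e, Haar.fro_orth_mul]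
    exact (fro_rot_two hX h h0).trans (by gcongr)

/-- a frame matrix seen from the sites -/
lemma frame (P : Mt n) (G : Set (OG n)) (h1 : 1 ≤ κ) {R : Mt n} (hR : 8 * fro R ≤ κ) :
    HD P G κ (fun O => O.1ᵀ * R * O.1) fun O X => O.1ᵀ * R * O.1 * X - X * (O.1ᵀ * R * O.1) := by
  have m : Ms fun O : OG n => O.1ᵀ * R * O.1 := (Ms.self.transpose.mul (.const _)).mul .self
  have b : ∀ O : OG n, fro (O.1ᵀ * R * O.1) = fro R := fun O => by
    rw [Haar.fro_mul_orth, ← OG.coe_inv, Haar.fro_orth_mul]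
  have r0 := fro_nonneg R
  refine ⟨h1, m, fun _ => (m.mul (.const _)).sub ((Ms.const _).mul m), fun O _ => ?_,
    fun O _ X _ hX => ?_, fun O _ X hX h t h0 _ _ => ?_⟩
  · rw [b]; linarith
  · have a1 := fro_mul_le (O.1ᵀ * R * O.1) X
    have a2 := fro_mul_le X (O.1ᵀ * R * O.1)
    have a3 := fro_sub_le (O.1ᵀ * R * O.1 * X) (X * (O.1ᵀ * R * O.1))
    rw [b] at a1 a2
    nlinarith
  · set A := O.1ᵀ * R * O.1 with hA
    set g := (rot hX t).1 with hg
    have e : (O * rot hX t).1ᵀ * R * (O * rot hX t).1 - A - t • (A * X - X * A) =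
        (g - 1 - t • X)ᵀ * A * g - t • (X * A * (g - 1)) + A * (g - 1 - t • X) := by
      have e1 : (O * rot hX t).1ᵀ * R * (O * rot hX t).1 = gᵀ * A * g := by
        rw [OG.coe_mul, transpose_mul, hA, hg]; simp only [mul_assoc]
      rw [e1, transpose_sub, transpose_sub, transpose_smul, hX.1, transpose_one]
      simp only [sub_mul, mul_sub, smul_sub, Matrix.smul_mul, Matrix.mul_smul, smul_neg, neg_mul,
        one_mul, mul_one]
      abel
    have a0 : fro A = fro R := b O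
    have a1 := fro_rot_one hX h h0
    have a2 := fro_rot_two hX h h0
    rw [← hg] at a1 a2
    have a3 : fro ((g - 1 - t • X)ᵀ * A * g) ≤ 2 * t ^ 2 * fro R := by
      rw [hg, Haar.fro_mul_orth, ← hg]
      refine (fro_mul_le _ _).trans ?_
      rw [fro_transpose, a0]; gcongr
    have a4 : fro (t • (X * A * (g - 1))) ≤ t * (2 * fro R * (2 * t)) := by
      rw [fro_smul, abs_of_nonneg h0]
      refine mul_le_mul_of_nonneg_left ((fro_mul_le _ _).trans ?_) h0
      refine mul_le_mul ((fro_mul_le _ _).trans ?_) a1 (fro_nonneg _) (by positivity)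
      rw [a0]; gcongr
    have a5 : fro (A * (g - 1 - t • X)) ≤ fro R * (2 * t ^ 2) := by
      refine (fro_mul_le _ _).trans ?_
      rw [a0]; gcongr
    rw [e]
    refine (fro_add_le _ _).trans ((add_le_add_left (fro_sub_le _ _) _).trans ?_)
    nlinarith [sq_nonneg t]

lemma add (h : HD P G κ M M1) (h' : HD P G κ' N N1) :
    HD P G (κ + κ') (fun O => M O + N O) fun O X => M1 O X + N1 O X := by
  refine ⟨by linarith [h.one, h'.one], h.ms.add h'.ms, fun X => (h.ms1 X).add (h'.ms1 X),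
    fun O hO => (fro_add_le _ _).trans (add_le_add (h.bd O hO) (h'.bd O hO)),
    fun O hO X hX h2 => (fro_add_le _ _).trans
      (add_le_add (h.bd1 O hO X hX h2) (h'.bd1 O hO X hX h2)),
    fun O hO X hX h2 t h0 h1 hG => ?_⟩
  have e : M (O * rot hX t) + N (O * rot hX t) - (M O + N O) - t • (M1 O X + N1 O X) =
      (M (O * rot hX t) - M O - t • M1 O X) + (N (O * rot hX t) - N O - t • N1 O X) := by
    rw [smul_add]; abel
  rw [e, add_mul]
  exact (fro_add_le _ _).trans
    (add_le_add (h.rem O hO X hX h2 t h0 h1 hG) (h'.rem O hO X hX h2 t h0 h1 hG))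

lemma smul (h : HD P G κ M M1) {c : ℝ} (h1 : 1 ≤ κ') (hc : |c| ≤ κ') :
    HD P G (κ' * κ) (fun O => c • M O) fun O X => c • M1 O X := by
  have a := h.one
  refine ⟨by nlinarith, h.ms.smul c, fun X => (h.ms1 X).smul c, fun O hO => ?_,
    fun O hO X hX h2 => ?_, fun O hO X hX h2 t h0 h1 hG => ?_⟩
  · rw [fro_smul]; exact mul_le_mul hc (h.bd O hO) (fro_nonneg _) (by linarith)
  · rw [fro_smul]; exact mul_le_mul hc (h.bd1 O hO X hX h2) (fro_nonneg _) (by linarith)
  · rw [smul_comm t c, ← smul_sub, ← smul_sub, fro_smul, mul_assoc]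
    exact mul_le_mul hc (h.rem O hO X hX h2 t h0 h1 hG) (fro_nonneg _) (by linarith)

lemma neg (h : HD P G κ M M1) : HD P G κ (fun O => -M O) fun O X => -M1 O X := by
  have := h.smul (c := -1) le_rfl (by simp)
  simpa using this

lemma sub (h : HD P G κ M M1) (h' : HD P G κ' N N1) :
    HD P G (κ + κ') (fun O => M O - N O) fun O X => M1 O X - N1 O X := by
  simpa only [sub_eq_add_neg] using h.add h'.neg

lemma transpose (h : HD P G κ M M1) : HD P G κ (fun O => (M O)ᵀ) fun O X => (M1 O X)ᵀ := by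
  refine ⟨h.one, h.ms.transpose, fun X => (h.ms1 X).transpose, fun O hO => ?_,
    fun O hO X hX h2 => ?_, fun O hO X hX h2 t h0 h1 hG => ?_⟩
  · rw [fro_transpose]; exact h.bd O hO
  · rw [fro_transpose]; exact h.bd1 O hO X hX h2
  · rw [← transpose_smul, ← transpose_sub, ← transpose_sub, fro_transpose]
    exact h.rem O hO X hX h2 t h0 h1 hG

lemma mul (h : HD P G κ M M1) (h' : HD P G κ' N N1) :
    HD P G (4 * κ * κ') (fun O => M O * N O) fun O X => M1 O X * N O + M O * N1 O X := by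
  have a := h.one
  have a' := h'.one
  have a0 : 0 ≤ κ := by linarith
  have a1 : 1 ≤ κ * κ' := by nlinarith
  refine ⟨by nlinarith, h.ms.mul h'.ms, fun X => ((h.ms1 X).mul h'.ms).add (h.ms.mul (h'.ms1 X)),
    fun O hO => ?_, fun O hO X hX h2 => ?_, fun O hO X hX h2 t h0 h1 hG => ?_⟩
  · have := (fro_mul_le _ _).trans (mul_le_mul (h.bd O hO) (h'.bd O hO) (fro_nonneg _) a0)
    nlinarith
  · have b1 := (fro_mul_le _ _).trans
      (mul_le_mul (h.bd1 O hO X hX h2) (h'.bd O hO) (fro_nonneg _) a0)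
    have b2 := (fro_mul_le _ _).trans
      (mul_le_mul (h.bd O hO) (h'.bd1 O hO X hX h2) (fro_nonneg _) a0)
    have b3 := fro_add_le (M1 O X * N O) (M O * N1 O X)
    nlinarith
  · have e : M (O * rot hX t) * N (O * rot hX t) - M O * N O - t • (M1 O X * N O + M O * N1 O X) =
        (M (O * rot hX t) - M O - t • M1 O X) * N (O * rot hX t) +
          M O * (N (O * rot hX t) - N O - t • N1 O X) +
          t • (M1 O X * (N (O * rot hX t) - N O)) := by
      simp only [sub_mul, mul_sub, smul_add, smul_sub, Matrix.smul_mul, Matrix.mul_smul]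
      abel
    have b1 := (fro_mul_le _ _).trans
      (mul_le_mul (h.rem O hO X hX h2 t h0 h1 hG) (h'.bd _ hG) (fro_nonneg _) (by positivity))
    have b2 := (fro_mul_le _ _).trans
      (mul_le_mul (h.bd O hO) (h'.rem O hO X hX h2 t h0 h1 hG) (fro_nonneg _) a0)
    have b3 := (fro_mul_le _ _).trans
      (mul_le_mul (h.bd1 O hO X hX h2) (h'.step hO hX h2 h0 h1 hG) (fro_nonneg _) a0)
    have b4 : fro (t • (M1 O X * (N (O * rot hX t) - N O))) ≤ t * (κ * (2 * κ' * t)) := by
      rw [fro_smul, abs_of_nonneg h0]; exact mul_le_mul_of_nonneg_left b3 h0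
    rw [e]
    refine (fro_add_le _ _).trans ((add_le_add_left (fro_add_le _ _) _).trans ?_)
    nlinarith

lemma inv (h : HD P G κ M M1) (h1 : 1 ≤ κ') (hu : ∀ O ∈ G, IsUnit (M O).det)
    (hb : ∀ O ∈ G, fro (M O)⁻¹ ≤ κ') :
    HD P G (3 * κ' ^ 3 * κ ^ 2) (fun O => (M O)⁻¹) fun O X => -((M O)⁻¹ * M1 O X * (M O)⁻¹) := by
  have a := h.one
  have a0 : 0 ≤ κ := by linarith
  have a0' : 0 ≤ κ' := by linarith
  have p1 : κ' ≤ κ' ^ 3 := le_self_pow₀ h1 (by norm_num)
  have p2 : κ ≤ κ ^ 2 := le_self_pow₀ a (by norm_num)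
  have p3 : κ' ^ 2 ≤ κ' ^ 3 := pow_le_pow_right₀ h1 (by norm_num)
  have p4 : κ' ^ 2 * κ ≤ κ' ^ 3 * κ ^ 2 := mul_le_mul p3 p2 a0 (by positivity)
  have p5 : κ' ≤ κ' ^ 3 * κ ^ 2 := by nlinarith
  refine ⟨by nlinarith, h.ms.inv, fun X => ((h.ms.inv.mul (h.ms1 X)).mul h.ms.inv).neg,
    fun O hO => (hb O hO).trans (by nlinarith), fun O hO X hX h2 => ?_,
    fun O hO X hX h2 t h0 ht hG => ?_⟩
  · rw [fro_neg]
    have b1 := (fro_mul_le _ _).trans (mul_le_mul ((fro_mul_le _ _).trans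
      (mul_le_mul (hb O hO) (h.bd1 O hO X hX h2) (fro_nonneg _) a0')) (hb O hO) (fro_nonneg _)
      (by positivity))
    nlinarith
  · set A := M O with hA
    set A' := M (O * rot hX t) with hA'
    have i1 : A * A⁻¹ = 1 := mul_nonsing_inv _ (hu O hO)
    have i2 : A'⁻¹ * A' = 1 := nonsing_inv_mul _ (hu _ hG)
    have e0 : A'⁻¹ - A⁻¹ = -(A'⁻¹ * (A' - A) * A⁻¹) := by
      rw [mul_sub, sub_mul, i2, mul_assoc, i1, one_mul, mul_one, neg_sub]
    have e : A'⁻¹ - A⁻¹ - t • -(A⁻¹ * M1 O X * A⁻¹) =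
        -(A'⁻¹ * (A' - A - t • M1 O X) * A⁻¹) - t • ((A'⁻¹ - A⁻¹) * M1 O X * A⁻¹) := by
      conv_lhs => rw [e0]
      simp only [sub_mul, mul_sub, smul_neg, smul_sub, Matrix.smul_mul, Matrix.mul_smul]
      abel
    have b0 : fro (A'⁻¹ - A⁻¹) ≤ κ' * (2 * κ * t) * κ' := by
      rw [e0, fro_neg]
      exact (fro_mul_le _ _).trans (mul_le_mul ((fro_mul_le _ _).trans
        (mul_le_mul (hb _ hG) (h.step hO hX h2 h0 ht hG) (fro_nonneg _) a0')) (hb O hO)
        (fro_nonneg _) (by positivity))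
    have b1 := (fro_mul_le _ _).trans (mul_le_mul ((fro_mul_le _ _).trans
        (mul_le_mul (hb _ hG) (h.rem O hO X hX h2 t h0 ht hG) (fro_nonneg _) a0')) (hb O hO)
        (fro_nonneg _) (by positivity))
    have b2 := (fro_mul_le _ _).trans (mul_le_mul ((fro_mul_le _ _).trans
        (mul_le_mul b0 (h.bd1 O hO X hX h2) (fro_nonneg _) (by positivity))) (hb O hO)
        (fro_nonneg _) (by positivity))
    have b3 : fro (t • ((A'⁻¹ - A⁻¹) * M1 O X * A⁻¹)) ≤ t * (κ' * (2 * κ * t) * κ' * κ * κ') := by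
      rw [fro_smul, abs_of_nonneg h0]; exact mul_le_mul_of_nonneg_left b2 h0
    rw [e]
    refine (fro_sub_le _ _).trans ?_
    rw [fro_neg]
    have b4 := mul_le_mul_of_nonneg_right p4 (sq_nonneg t)
    nlinarith

end HD

/-- invariance under the rotations of the range of `P`, acting on the right -/
def RI (P : Mt n) (μ : Measure (OG n)) : Prop := ∀ W ∈ SG P, μ.map (fun O => O * W) = μ

lemma RI.haarP (P : Mt n) : RI P (haarP P) := fun _ h => (invOn_haarP P).right h

lemma RI.haarH (P : Mt n) : RI P (haarH P) := fun _ h => (invOn_haarH P).right (SG_le_HG h)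

lemma RI.haar (P : Mt n) : RI P (haar n) := fun _ _ => invOn_haar.right (Subgroup.mem_top _)

/-- fibres `O₀ * SG P` -/
lemma RI.coset {μ : Measure (OG n)} (h : RI P μ) (O₀ : OG n) : RI P (μ.map fun U => O₀ * U) := by
  intro W hW
  conv_rhs => rw [← h W hW]
  rw [Measure.map_map (measurable_mul_const W) (measurable_const_mul O₀),
    Measure.map_map (measurable_const_mul O₀) (measurable_mul_const W)]
  congr 1
  funext U
  simp [mul_assoc]

section Main

variable {μ : Measure (OG n)} [IsProbabilityMeasure μ] {G : Set (OG n)} {κ p : ℝ}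
  {M : OG n → Mt n} {M1 : OG n → Mt n → Mt n}

/-- scalar Ward identity by one finite difference -/
theorem ward_fd {W : OG n} (hW : μ.map (fun O => O * W) = μ) (hG : MeasurableSet G)
    (hp : μ.real Gᶜ ≤ p) {f d : OG n → ℝ} (hf : Measurable f) (hd : Measurable d) {a b c : ℝ}
    (hc : 0 ≤ c) (ha : ∀ O ∈ G, |f O| ≤ a) (hb : ∀ O ∈ G, |d O| ≤ b) (ha0 : 0 ≤ a) (hb0 : 0 ≤ b)
    (h : ∀ O ∈ G, O * W ∈ G → |f (O * W) - f O - d O| ≤ c) :
    |∫ O in G, d O ∂μ| ≤ c + (2 * a + b) * p := by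
  have mW : Measurable fun O : OG n => O * W := measurable_mul_const W
  set G' : Set (OG n) := {O | O * W ∈ G} with hG'
  have mG' : MeasurableSet G' := mW hG
  have hp' : μ.real G'ᶜ ≤ p := by
    have := map_measureReal_apply (μ := μ) mW hG.compl
    rw [hW] at this
    exact this.symm.trans_le hp
  have ib : ∀ {g : OG n → ℝ} {c : ℝ}, Measurable g → (∀ O, |g O| ≤ c) → Integrable g μ :=
    fun hg hc => Integrable.of_bound hg.aestronglyMeasurable _ (ae_of_all _ hc)
  have bi : ∀ {g : OG n → ℝ} {c : ℝ}, 0 ≤ c → (∀ O ∈ G, |g O| ≤ c) → ∀ O, |G.indicator g O| ≤ c := by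
    intro g c h0 hc O
    by_cases hO : O ∈ G
    · rw [indicator_of_mem hO]; exact hc O hO
    · rw [indicator_of_notMem hO, abs_zero]; exact h0
  have mf := hf.indicator hG
  have i1 := ib mf (bi ha0 ha)
  have i2 : Integrable (fun O => G.indicator f (O * W)) μ :=
    ib (mf.comp mW) fun O => bi ha0 ha (O * W)
  have i4 : Integrable (fun O => G.indicator f (O * W) - G.indicator f O) μ := i2.sub i1
  have i3 := ib (hd.indicator hG) (bi hb0 hb)
  have e1 : ∫ O, G.indicator f (O * W) ∂μ = ∫ O, G.indicator f O ∂μ := by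
    conv_rhs => rw [← hW]
    rw [integral_map mW.aemeasurable mf.aestronglyMeasurable]
  have e2 : ∫ O in G, d O ∂μ =
      -∫ O, (G.indicator f (O * W) - G.indicator f O - G.indicator d O) ∂μ := by
    rw [integral_sub i4 i3, integral_sub i2 i1, e1, sub_self, zero_sub, neg_neg,
      integral_indicator hG]
  have j1 : Integrable (Gᶜ.indicator fun _ => a) μ := (integrable_const a).indicator hG.compl
  have j2 : Integrable (G'ᶜ.indicator fun _ => a + b) μ :=
    (integrable_const (a + b)).indicator mG'.compl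
  have j3 : Integrable (fun O => c + Gᶜ.indicator (fun _ => a) O) μ := (integrable_const c).add j1
  have e3 : ∫ O, (c + Gᶜ.indicator (fun _ => a) O + G'ᶜ.indicator (fun _ => a + b) O) ∂μ =
      c + μ.real Gᶜ * a + μ.real G'ᶜ * (a + b) := by
    rw [integral_add j3 j2, integral_add (integrable_const c) j1,
      integral_indicator_const _ hG.compl, integral_indicator_const _ mG'.compl]
    simp
  rw [e2, abs_neg]
  refine (abs_integral_le_integral_abs.trans (integral_mono (i4.sub i3).abs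
    (j3.add j2) fun O => ?_)).trans (e3.trans_le ?_)
  · show |G.indicator f (O * W) - G.indicator f O - G.indicator d O| ≤
      c + Gᶜ.indicator (fun _ => a) O + G'ᶜ.indicator (fun _ => a + b) O
    by_cases h1 : O ∈ G <;> by_cases h2 : O * W ∈ G
    · have h3 : O ∉ G'ᶜ := fun h => h h2
      have h4 : O ∉ Gᶜ := fun h => h h1
      simp only [indicator_of_mem h1, indicator_of_mem h2, indicator_of_notMem h3,
        indicator_of_notMem h4, add_zero]
      exact h O h1 h2
    · have h3 : O ∈ G'ᶜ := h2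
      have h4 : O ∉ Gᶜ := fun h => h h1
      simp only [indicator_of_mem h1, indicator_of_notMem h2, indicator_of_mem h3,
        indicator_of_notMem h4, add_zero]
      have := abs_le.1 (ha O h1)
      have := abs_le.1 (hb O h1)
      rw [abs_le]; constructor <;> linarith
    · have h3 : O ∉ G'ᶜ := fun h => h h2
      have h4 : O ∈ Gᶜ := h1
      simp only [indicator_of_notMem h1, indicator_of_mem h2, indicator_of_notMem h3,
        indicator_of_mem h4, add_zero, sub_zero]
      linarith [ha _ h2]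
    · have h3 : O ∈ G'ᶜ := h2
      have h4 : O ∈ Gᶜ := h1
      simp only [indicator_of_notMem h1, indicator_of_notMem h2, indicator_of_mem h3,
        indicator_of_mem h4, sub_zero, abs_zero]
      linarith
  · nlinarith [mul_le_mul_of_nonneg_right hp ha0, mul_le_mul_of_nonneg_right hp' (add_nonneg ha0 hb0)]

/-- Ward identity for one entry and one direction -/
theorem HD.ward_entry (h : HD P G κ M M1) (hμ : RI P μ) (hG : MeasurableSet G)
    (hp : μ.real Gᶜ ≤ p) (hp0 : 0 < p) (hp1 : p ≤ 1) (hX : Sk P X) (h2 : fro X ≤ 2) (i j : Fin n) :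
    |∫ O in G, M1 O X i j ∂μ| ≤ 4 * κ * √p := by
  have k1 := h.one
  set t := √p with ht
  have t0 : 0 < t := Real.sqrt_pos.2 hp0
  have t1 : t ≤ 1 := Real.sqrt_le_one.2 hp1
  have t2 : t ^ 2 = p := Real.sq_sqrt hp0.le
  have := ward_fd (hμ _ (rot_mem hX t)) hG hp (f := fun O => M O i j)
    (d := fun O => t * M1 O X i j) (h.ms i j) ((h.ms1 X i j).const_mul t) (a := κ) (b := κ)
    (c := κ * t ^ 2) (by positivity) (fun O hO => (Haar.abs_entry_le _ i j).trans (h.bd O hO))
    (fun O hO => by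
      rw [abs_mul, abs_of_pos t0]
      have := (Haar.abs_entry_le _ i j).trans (h.bd1 O hO X hX h2)
      nlinarith [abs_nonneg (M1 O X i j)]) (by linarith) (by linarith)
    fun O hO hO' => (Haar.abs_entry_le (M (O * rot hX t) - M O - t • M1 O X) i j).trans
      (h.rem O hO X hX h2 t t0.le t1 hO')
  rw [integral_const_mul, abs_mul, abs_of_pos t0, ← t2] at this
  refine le_of_mul_le_mul_left (this.trans (le_of_eq ?_)) t0
  ring

end Main

/-- the generators `P (E i j - E j i) P` -/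
def Xe (P : Mt n) (i j : Fin n) : Mt n := P * (single i j 1 - single j i 1) * P

lemma sk_Xe (hP : Pᵀ = P) (hPP : P * P = P) (i j : Fin n) : Sk P (Xe P i j) := by
  refine ⟨?_, ?_⟩
  · rw [Xe, transpose_mul, transpose_mul, hP, transpose_sub, transpose_single, transpose_single,
      ← mul_assoc, ← neg_mul, ← mul_neg, neg_sub]
  · rw [Xe, mul_assoc, mul_sub P 1, mul_one, hPP, sub_self, mul_zero]

lemma fro_single (i j : Fin n) : fro (single i j (1 : ℝ) : Mt n) = 1 := by
  have : ∑ a, ∑ b, (single i j (1 : ℝ) : Mt n) a b ^ 2 = 1 := by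
    simp only [single_apply, ite_and, ite_pow, one_pow, ne_eq, OfNat.ofNat_ne_zero,
      not_false_eq_true, zero_pow]
    rw [Finset.sum_eq_single i (by intro a _ h; simp [h.symm]) (by simp)]
    simp
  rw [fro, this, Real.sqrt_one]

lemma fro_Xe (hP : Pᵀ = P) (hPP : P * P = P) (i j : Fin n) : fro (Xe P i j) ≤ 2 := by
  have h := Haar.fro_proj_conj hP hPP (single i j (1 : ℝ) - single j i 1)
  rw [hP] at h
  refine h.trans ((fro_sub_le _ _).trans ?_)
  rw [fro_single, fro_single]; norm_num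

/-- divergence: contraction of a matrix valued function of the direction -/
def dv (P : Mt n) (Y : Mt n → Mt n) : ℝ := ∑ i, ∑ j, Y (Xe P i j) j i

lemma dv_add (Y Z : Mt n → Mt n) : dv P (fun X => Y X + Z X) = dv P Y + dv P Z := by
  simp only [dv, Matrix.add_apply, Finset.sum_add_distrib]

lemma dv_sub (Y Z : Mt n → Mt n) : dv P (fun X => Y X - Z X) = dv P Y - dv P Z := by
  simp only [dv, Matrix.sub_apply, Finset.sum_sub_distrib]

lemma dv_neg (Y : Mt n → Mt n) : dv P (fun X => -Y X) = -dv P Y := by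
  simp only [dv, Matrix.neg_apply, Finset.sum_neg_distrib]

lemma dv_smul (c : ℝ) (Y : Mt n → Mt n) : dv P (fun X => c • Y X) = c * dv P Y := by
  simp only [dv, Matrix.smul_apply, smul_eq_mul, Finset.mul_sum]

lemma dv_zero : dv P (fun _ => 0) = 0 := by simp [dv]

lemma dv_congr (hP : Pᵀ = P) (hPP : P * P = P) {Y Z : Mt n → Mt n}
    (h : ∀ X, Sk P X → Y X = Z X) : dv P Y = dv P Z := by
  simp only [dv, h _ (sk_Xe hP hPP _ _)]

/-- **contraction formula** -/
theorem dv_sand (hP : Pᵀ = P) (A B : Mt n) :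
    dv P (fun X => A * X * B) = (P * Aᵀ * P * B).trace - (P * A).trace * (P * B).trace := by
  have e : ∀ i j, (A * Xe P i j * B) j i =
      (A * P) j i * (P * B) j i - (A * P) j j * (P * B) i i := by
    intro i j
    have e1 : A * Xe P i j * B =
        (A * P) * single i j 1 * (P * B) - (A * P) * single j i 1 * (P * B) := by
      simp only [Xe, mul_sub, sub_mul, mul_assoc]
    have e2 : ∀ (C D : Mt n) a b c d, (C * single a b (1 : ℝ) * D) c d = C c a * D b d := by
      intro C D a b c d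
      rw [mul_apply, Finset.sum_eq_single b (fun k _ hk => by rw [mul_single_apply_of_ne _ _ _ _ _ hk]; simp)
        (by simp), mul_single_apply_same, mul_one]
    rw [e1, Matrix.sub_apply, e2, e2]
  have e3 : P * Aᵀ * P * B = (A * P)ᵀ * (P * B) := by rw [transpose_mul, hP, mul_assoc]
  simp only [dv, e, Finset.sum_sub_distrib]
  rw [e3, trace_mul_comm P A, ← Haar.ip_eq_trace, Haar.ip, Finset.sum_comm, trace, trace,
    Finset.sum_mul_sum, Finset.sum_comm (f := fun i j => (A * P) j j * (P * B) i i)]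
  rfl

/-- contraction of a commutator -/
theorem dv_comm (hP : Pᵀ = P) (A K B : Mt n) :
    dv P (fun X => A * (K * X - X * K) * B) =
      (P * (A * K)ᵀ * P * B).trace - (P * (A * K)).trace * (P * B).trace -
        ((P * Aᵀ * P * (K * B)).trace - (P * A).trace * (P * (K * B)).trace) := by
  rw [← dv_sand hP, ← dv_sand hP, ← dv_sub]
  simp only [mul_sub, sub_mul, mul_assoc]

/-- **Ward identity on a good set** -/
theorem HD.ward {μ : Measure (OG n)} [IsProbabilityMeasure μ] {G : Set (OG n)} {κ p : ℝ}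
    {M : OG n → Mt n} {M1 : OG n → Mt n → Mt n} (h : HD P G κ M M1) (hP : Pᵀ = P)
    (hPP : P * P = P) (hμ : RI P μ) (hG : MeasurableSet G) (hp : μ.real Gᶜ ≤ p) (hp0 : 0 < p)
    (hp1 : p ≤ 1) : |∫ O in G, dv P (M1 O) ∂μ| ≤ 4 * n ^ 2 * κ * √p := by
  have ib : ∀ i j, Integrable (fun O => M1 O (Xe P i j) j i) (μ.restrict G) := fun i j =>
    Integrable.of_bound (h.ms1 _ j i).aestronglyMeasurable κ
      ((ae_restrict_mem hG).mono fun O hO => (Haar.abs_entry_le _ j i).trans
        (h.bd1 O hO _ (sk_Xe hP hPP i j) (fro_Xe hP hPP i j)))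
  simp only [dv]
  rw [integral_finsetSum _ fun i _ => integrable_finsetSum _ fun j _ => ib i j]
  refine (Finset.abs_sum_le_sum_abs _ _).trans ((Finset.sum_le_sum (g := fun _ => n * (4 * κ * √p))
    fun i _ => ?_).trans (le_of_eq (by simp; ring)))
  rw [integral_finsetSum _ fun j _ => ib i j]
  refine (Finset.abs_sum_le_sum_abs _ _).trans ((Finset.sum_le_sum (g := fun _ => 4 * κ * √p)
    fun j _ => h.ward_entry hμ hG hp hp0 hp1 (sk_Xe hP hPP i j) (fro_Xe hP hPP i j) j i).trans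
    (le_of_eq (by simp)))

/-! ### Words in fixed matrices, rotating matrices and the resolvent -/

/-- a frame matrix in site coordinates -/
def fr (R : Mt n) (O : OG n) : Mt n := O.1ᵀ * R * O.1

/-- `Γ = (1 + B D)⁻¹` with `B = Oᵀ A O + C` -/
noncomputable def Ga (A C D : Mt n) (O : OG n) : Mt n := (1 + (fr A O + C) * D)⁻¹

/-- `G = D Γ` -/
noncomputable def Gm (A C D : Mt n) (O : OG n) : Mt n := D * Ga A C D O

/-- contraction of `X ↦ A [K, X] B` -/
def cm (P A K B : Mt n) : ℝ :=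
  (P * (A * K)ᵀ * P * B).trace - (P * (A * K)).trace * (P * B).trace -
    (P * Aᵀ * P * (K * B)).trace + (P * A).trace * (P * (K * B)).trace

lemma dv_cm (hP : Pᵀ = P) (A K B : Mt n) :
    dv P (fun X => A * (K * X - X * K) * B) = cm P A K B := by
  rw [dv_comm hP, cm]; ring

lemma fr_transpose (R : Mt n) (O : OG n) : (fr R O)ᵀ = fr Rᵀ O := by
  simp only [fr, transpose_mul, transpose_transpose, mul_assoc]

lemma fr_mul (R S : Mt n) (O : OG n) : fr R O * fr S O = fr (R * S) O := by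
  simp only [fr, mul_assoc]
  rw [← mul_assoc O.1 O.1ᵀ, OG.mul_transpose, one_mul]

lemma fr_one (O : OG n) : fr 1 O = 1 := by rw [fr, mul_one, OG.transpose_mul]

lemma trace_fr (R : Mt n) (O : OG n) : (fr R O).trace = R.trace := by
  rw [fr, trace_mul_cycle, OG.mul_transpose, one_mul]

lemma fro_fr (R : Mt n) (O : OG n) : fro (fr R O) = fro R := by
  rw [fr, Haar.fro_mul_orth, ← OG.coe_inv, Haar.fro_orth_mul]

lemma Ms.fr (R : Mt n) : Ms (fr R) := (Ms.self.transpose.mul (.const _)).mul .self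

lemma Ms.ga (A C D : Mt n) : Ms (Ga A C D) :=
  ((Ms.const 1).add (((Ms.fr A).add (.const C)).mul (.const D))).inv

lemma Ms.gm (A C D : Mt n) : Ms (Gm A C D) := (Ms.const D).mul (.ga A C D)

section Alg

variable {A C D : Mt n} {O : OG n} (hA : Aᵀ = A) (hC : Cᵀ = C) (hD : Dᵀ = D)
  (hu : IsUnit (1 + (fr A O + C) * D).det)
include hu

/-- `B G = 1 - Γ` -/
lemma B_mul_Gm : (fr A O + C) * Gm A C D O = 1 - Ga A C D O := by
  have h := mul_nonsing_inv _ hu
  rw [add_mul, one_mul] at h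
  rw [Gm, ← mul_assoc, ← h, Ga, add_sub_cancel_left]

include hA hC hD

lemma Gm_eq : Gm A C D O = (Ga A C D O)ᵀ * D := by
  have h1 : (1 + (fr A O + C) * D) * Ga A C D O = 1 := mul_nonsing_inv _ hu
  have h2 : Ga A C D O * (1 + (fr A O + C) * D) = 1 := nonsing_inv_mul _ hu
  have h3 := congrArg transpose h1
  rw [transpose_mul, transpose_add, transpose_one, transpose_mul, transpose_add, fr_transpose, hA,
    hC, hD] at h3
  calc D * Ga A C D O = (Ga A C D O)ᵀ * (1 + D * (fr A O + C)) * (D * Ga A C D O) := by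
        rw [h3, one_mul]
    _ = (Ga A C D O)ᵀ * D * ((1 + (fr A O + C) * D) * Ga A C D O) := by noncomm_ring
    _ = _ := by rw [h1, mul_one]

lemma Gm_symm : (Gm A C D O)ᵀ = Gm A C D O := by
  conv_rhs => rw [Gm_eq hA hC hD hu]
  rw [Gm, transpose_mul, hD]

/-- `G B = 1 - Γᵀ` -/
lemma Gm_mul_B : Gm A C D O * (fr A O + C) = 1 - (Ga A C D O)ᵀ := by
  have h := congrArg transpose (B_mul_Gm hu)
  rwa [transpose_mul, Gm_symm hA hC hD hu, transpose_add, fr_transpose, hA, hC, transpose_sub,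
    transpose_one] at h

end Alg

/-- polynomial bounds on the good set -/
structure Ok (P : Mt n) (G : Set (OG n)) (K : ℝ) (A C D : Mt n) : Prop where
  hP : Pᵀ = P
  hPP : P * P = P
  hA : Aᵀ = A
  hC : Cᵀ = C
  hD : Dᵀ = D
  hK : 8 ≤ K
  hn : (n : ℝ) ≤ K
  bA : fro A ≤ K
  bC : fro C ≤ K
  bD : fro D ≤ K
  unit : ∀ O ∈ G, IsUnit (1 + (fr A O + C) * D).det
  bG : ∀ O ∈ G, fro (Ga A C D O) ≤ K

lemma fro_one_le {K : ℝ} (h1 : 1 ≤ K) (hn : (n : ℝ) ≤ K) : fro (1 : Mt n) ≤ K := by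
  have h := Haar.fro_orth (1 : OG n)
  rw [OG.coe_one, Fintype.card_fin] at h
  rw [h, Real.sqrt_le_left (by linarith)]
  nlinarith

section Letters

variable {G : Set (OG n)} {K : ℝ} {A C D : Mt n}

lemma hd_fr (P : Mt n) (G : Set (OG n)) (hK : 8 ≤ K) {R : Mt n} (hR : fro R ≤ K) :
    HD P G (K ^ 2) (fr R) fun O X => fr R O * X - X * fr R O :=
  HD.frame P G (by nlinarith) (by nlinarith [fro_nonneg R])

lemma Ok.hd_ga (h : Ok P G K A C D) : HD P G (K ^ 16) (Ga A C D)
    fun O X => -(Ga A C D O * (fr A O * X - X * fr A O) * Gm A C D O) := by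
  have hK := h.hK
  have k1 : 1 ≤ K := by linarith
  have a1 := (HD.const P G k1 (fro_one_le k1 h.hn)).add
    (((hd_fr P G hK h.bA).add (HD.const P G k1 h.bC)).mul (HD.const P G k1 h.bD))
  have a2 : K + 4 * (K ^ 2 + K) * K ≤ K ^ 6 := by
    have b1 : 8 * K ^ 3 ≤ K ^ 4 := by nlinarith [pow_pos (show 0 < K by linarith) 3]
    have b2 : K ^ 4 ≤ K ^ 5 := pow_le_pow_right₀ k1 (by norm_num)
    have b3 : 8 * K ^ 5 ≤ K ^ 6 := by nlinarith [pow_pos (show 0 < K by linarith) 5]
    have b4 : K ≤ K ^ 5 := le_self_pow₀ k1 (by norm_num)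
    have b5 : K ^ 2 ≤ K ^ 3 := pow_le_pow_right₀ k1 (by norm_num)
    nlinarith
  have a3 := ((a1.mono a2).inv k1 h.unit h.bG).mono (κ' := K ^ 16)
    (by nlinarith [pow_pos (show 0 < K by linarith) 15])
  refine a3.congr (fun X => (((Ms.ga A C D).mul (((Ms.fr A).mul (.const X)).sub
    ((Ms.const X).mul (.fr A)))).mul (.gm A C D)).neg) fun O _ X _ => ?_
  simp only [zero_add, add_zero, mul_zero, Gm, Ga, mul_assoc]

lemma Ok.hd_gm (h : Ok P G K A C D) : HD P G (K ^ 18) (Gm A C D)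
    fun O X => -(Gm A C D O * (fr A O * X - X * fr A O) * Gm A C D O) := by
  have hK := h.hK
  have a1 := ((HD.const P G (by linarith) h.bD).mul h.hd_ga).mono (κ' := K ^ 18)
    (by nlinarith [pow_pos (show 0 < K by linarith) 17])
  refine a1.congr (fun X => (((Ms.gm A C D).mul (((Ms.fr A).mul (.const X)).sub
    ((Ms.const X).mul (.fr A)))).mul (.gm A C D)).neg) fun O _ X _ => ?_
  simp only [zero_mul, zero_add, mul_neg, Gm, mul_assoc]

lemma Ok.hd_gaT (h : Ok P G K A C D) : HD P G (K ^ 16) (fun O => (Ga A C D O)ᵀ)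
    fun O X => -(Gm A C D O * (fr A O * X - X * fr A O) * (Ga A C D O)ᵀ) := by
  refine h.hd_ga.transpose.congr (fun X => (((Ms.gm A C D).mul (((Ms.fr A).mul (.const X)).sub
    ((Ms.const X).mul (.fr A)))).mul (Ms.ga A C D).transpose).neg) fun O hO X hX => ?_
  rw [transpose_neg, transpose_mul, transpose_mul, Gm_symm h.hA h.hC h.hD (h.unit O hO),
    transpose_sub, transpose_mul, transpose_mul, fr_transpose, h.hA, hX.1, neg_mul, mul_neg,
    neg_sub_neg, mul_assoc]

end Letters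

/-- letters -/
inductive Lt (n : ℕ) : Type
  | fix (F : Mt n) : Lt n
  | rot (R : Mt n) : Lt n
  | ga : Lt n
  | gaT : Lt n
  | gm : Lt n

/-- value of a letter -/
noncomputable def Lt.val (A C D : Mt n) (O : OG n) : Lt n → Mt n
  | .fix F => F
  | .rot R => fr R O
  | .ga => Ga A C D O
  | .gaT => (Ga A C D O)ᵀ
  | .gm => Gm A C D O

/-- derivative of a letter -/
noncomputable def Lt.der (A C D : Mt n) (O : OG n) (X : Mt n) : Lt n → Mt n
  | .fix _ => 0
  | .rot R => fr R O * X - X * fr R O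
  | .ga => -(Ga A C D O * (fr A O * X - X * fr A O) * Gm A C D O)
  | .gaT => -(Gm A C D O * (fr A O * X - X * fr A O) * (Ga A C D O)ᵀ)
  | .gm => -(Gm A C D O * (fr A O * X - X * fr A O) * Gm A C D O)

/-- contraction of the derivative of a letter between `L` and `S` -/
noncomputable def Lt.con (P A C D : Mt n) (O : OG n) (L S : Mt n) : Lt n → ℝ
  | .fix _ => 0
  | .rot R => cm P L (fr R O) S
  | .ga => -cm P (L * Ga A C D O) (fr A O) (Gm A C D O * S)
  | .gaT => -cm P (L * Gm A C D O) (fr A O) ((Ga A C D O)ᵀ * S)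
  | .gm => -cm P (L * Gm A C D O) (fr A O) (Gm A C D O * S)

/-- size of a letter -/
def Lt.Bd (K : ℝ) : Lt n → Prop
  | .fix F => fro F ≤ K
  | .rot R => fro R ≤ K
  | _ => True

/-- value of a word -/
noncomputable def wval (A C D : Mt n) (O : OG n) : List (Lt n) → Mt n
  | [] => 1
  | x :: l => x.val A C D O * wval A C D O l

/-- derivative of a word -/
noncomputable def wder (A C D : Mt n) (O : OG n) (X : Mt n) : List (Lt n) → Mt n
  | [] => 0
  | x :: l => x.der A C D O X * wval A C D O l + x.val A C D O * wder A C D O X l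

/-- the Ward expression of a word, with left factor `L` -/
noncomputable def wcon (P A C D : Mt n) (O : OG n) : Mt n → List (Lt n) → ℝ
  | _, [] => 0
  | L, x :: l => x.con P A C D O L (wval A C D O l) + wcon P A C D O (L * x.val A C D O) l

lemma dv_der (hP : Pᵀ = P) (A C D : Mt n) (O : OG n) (L S : Mt n) (x : Lt n) :
    dv P (fun X => L * (x.der A C D O X * S)) = x.con P A C D O L S := by
  cases x <;> simp only [Lt.der, Lt.con, ← dv_cm hP, ← dv_neg, zero_mul, mul_zero, dv_zero,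
    neg_mul, mul_neg, mul_assoc]

lemma dv_wder (hP : Pᵀ = P) (A C D : Mt n) (O : OG n) (l : List (Lt n)) :
    ∀ L, dv P (fun X => L * wder A C D O X l) = wcon P A C D O L l := by
  induction l with
  | nil => intro L; simp only [wder, wcon, mul_zero, dv_zero]
  | cons x l ih =>
    intro L
    simp only [wder, wcon, mul_add, dv_add, dv_der hP, ← ih, mul_assoc]

section Words

variable {G : Set (OG n)} {K : ℝ} {A C D : Mt n}

lemma Ok.hd_lt (h : Ok P G K A C D) {x : Lt n} (hx : x.Bd K) :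
    HD P G (K ^ 18) (fun O => x.val A C D O) fun O X => x.der A C D O X := by
  have hK := h.hK
  have k1 : 1 ≤ K := by linarith
  cases x with
  | fix F => exact (HD.const P G k1 hx).mono (le_self_pow₀ k1 (by norm_num))
  | rot R => exact (hd_fr P G hK hx).mono (pow_le_pow_right₀ k1 (by norm_num))
  | ga => exact h.hd_ga.mono (pow_le_pow_right₀ k1 (by norm_num))
  | gaT => exact h.hd_gaT.mono (pow_le_pow_right₀ k1 (by norm_num))
  | gm => exact h.hd_gm

lemma Ok.hd_word (h : Ok P G K A C D) (l : List (Lt n)) (hl : ∀ x ∈ l, x.Bd K) :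
    HD P G (K ^ (19 * l.length + 1)) (fun O => wval A C D O l) fun O X => wder A C D O X l := by
  have hK := h.hK
  have k1 : 1 ≤ K := by linarith
  induction l with
  | nil => simpa [wval, wder] using HD.const P G k1 (fro_one_le k1 h.hn)
  | cons x l ih =>
    refine ((h.hd_lt (hl x (by simp))).mul (ih fun y hy => hl y (by simp [hy]))).mono ?_
    have e : K ^ (19 * (x :: l).length + 1) = K * K ^ 18 * K ^ (19 * l.length + 1) := by
      rw [List.length_cons]; ring
    rw [e]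
    gcongr
    linarith

variable {μ : Measure (OG n)} [IsProbabilityMeasure μ] {p : ℝ}

/-- **Ward identity for every word** -/
theorem Ok.ward (h : Ok P G K A C D) (hμ : RI P μ) (hG : MeasurableSet G) (hp : μ.real Gᶜ ≤ p)
    (hp0 : 0 < p) (hp1 : p ≤ 1) (l : List (Lt n)) (hl : ∀ x ∈ l, x.Bd K) :
    |∫ O in G, wcon P A C D O 1 l ∂μ| ≤ K ^ (19 * l.length + 4) * √p := by
  have h1 := (h.hd_word l hl).ward h.hP h.hPP hμ hG hp hp0 hp1
  have e : ∀ O, dv P (fun X => wder A C D O X l) = wcon P A C D O 1 l := fun O => by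
    simpa only [one_mul] using dv_wder h.hP A C D O l 1
  simp only [e] at h1
  refine h1.trans (mul_le_mul_of_nonneg_right ?_ (Real.sqrt_nonneg _))
  have hK := h.hK
  have hn := h.hn
  have e2 : K ^ (19 * l.length + 4) = K * K ^ 2 * K ^ (19 * l.length + 1) := by ring
  rw [e2]
  gcongr
  linarith

/-- (W1): the word `Γᵀ W`, `W` fixed -/
theorem Ok.W1 (h : Ok P G K A C D) (hμ : RI P μ) (hG : MeasurableSet G) (hp : μ.real Gᶜ ≤ p)
    (hp0 : 0 < p) (hp1 : p ≤ 1) {W : Mt n} (hW : fro W ≤ K) :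
    |∫ O in G, cm P (Gm A C D O) (fr A O) ((Ga A C D O)ᵀ * W) ∂μ| ≤ K ^ 42 * √p := by
  have := h.ward hμ hG hp hp0 hp1 [.gaT, .fix W] (by simp [Lt.Bd, hW])
  simpa [wcon, wval, Lt.con, Lt.val, integral_neg] using this

/-- (W2): the word `G Q Γᵀ W`, `Q` rotating, `W` fixed -/
theorem Ok.W2 (h : Ok P G K A C D) (hμ : RI P μ) (hG : MeasurableSet G) (hp : μ.real Gᶜ ≤ p)
    (hp0 : 0 < p) (hp1 : p ≤ 1) {Q W : Mt n} (hQ : fro Q ≤ K) (hW : fro W ≤ K) :
    |∫ O in G, (cm P (Gm A C D O) (fr Q O) ((Ga A C D O)ᵀ * W) -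
      cm P (Gm A C D O) (fr A O) (Gm A C D O * fr Q O * (Ga A C D O)ᵀ * W) -
      cm P (Gm A C D O * fr Q O * Gm A C D O) (fr A O) ((Ga A C D O)ᵀ * W)) ∂μ| ≤
      K ^ 80 * √p := by
  have := h.ward hμ hG hp hp0 hp1 [.gm, .rot Q, .gaT, .fix W] (by simp [Lt.Bd, hW, hQ])
  refine le_of_eq_of_le (congrArg abs (integral_congr_ae (ae_of_all _ fun O => ?_))) this
  simp only [wcon, wval, Lt.con, Lt.val, one_mul, mul_one, mul_assoc]
  ring

/-- (V1): the word `G R`, `R` rotating -/
theorem Ok.V1 (h : Ok P G K A C D) (hμ : RI P μ) (hG : MeasurableSet G) (hp : μ.real Gᶜ ≤ p)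
    (hp0 : 0 < p) (hp1 : p ≤ 1) {R : Mt n} (hR : fro R ≤ K) :
    |∫ O in G, (cm P (Gm A C D O) (fr R O) 1 -
      cm P (Gm A C D O) (fr A O) (Gm A C D O * fr R O)) ∂μ| ≤ K ^ 42 * √p := by
  have := h.ward hμ hG hp hp0 hp1 [.gm, .rot R] (by simp [Lt.Bd, hR])
  refine le_of_eq_of_le (congrArg abs (integral_congr_ae (ae_of_all _ fun O => ?_))) this
  simp only [wcon, wval, Lt.con, Lt.val, one_mul, mul_one]
  ring

/-- (V2): the word `G Q G R`, `Q` and `R` rotating -/
theorem Ok.V2 (h : Ok P G K A C D) (hμ : RI P μ) (hG : MeasurableSet G) (hp : μ.real Gᶜ ≤ p)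
    (hp0 : 0 < p) (hp1 : p ≤ 1) {Q R : Mt n} (hQ : fro Q ≤ K) (hR : fro R ≤ K) :
    |∫ O in G, (cm P (Gm A C D O) (fr Q O) (Gm A C D O * fr R O) +
      cm P (Gm A C D O * fr Q O * Gm A C D O) (fr R O) 1 -
      cm P (Gm A C D O) (fr A O) (Gm A C D O * fr Q O * Gm A C D O * fr R O) -
      cm P (Gm A C D O * fr Q O * Gm A C D O) (fr A O) (Gm A C D O * fr R O)) ∂μ| ≤
      K ^ 80 * √p := by
  have := h.ward hμ hG hp hp0 hp1 [.gm, .rot Q, .gm, .rot R] (by simp [Lt.Bd, hR, hQ])
  refine le_of_eq_of_le (congrArg abs (integral_congr_ae (ae_of_all _ fun O => ?_))) this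
  simp only [wcon, wval, Lt.con, Lt.val, one_mul, mul_one, mul_assoc]
  ring

end Words

end Vale.Agent.N150.Wd
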