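import Mathlib
import Vale.Agent.N150.X3I
import Vale.Agent.N150.TG3
import Vale.Agent.N150.T1Kit
import Vale.Agent.N150.Pw

/-! The exported structure `BS` of the base program from the Gaussian event, and the reduction of
`X3Stmt` to its deterministic core. -/

open MeasureTheory Matrix Filter Topology

namespace Vale.Agent.N150.X3P

open Vale.Agent.P150 Vale.Agent.P150.F Vale.Agent.N150.Fib Vale.Agent.N150.EC Vale.Agent.N150.T1
open Vale.Agent.N150.Rip

variable {n : ℕ}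

section Gen

variable {x : Vec n} {b : ℕ → Bool} {v : ℕ → OG n → Vec n} {p : ℕ} {O : OG n}
  {g : Fin p → Vec n} {ε : ℝ}

theorem card_le (I : Finset (Fin (p + 1))) : (I.card : ℝ) ≤ p + 1 := by
  have h := I.card_le_univ
  rw [Fintype.card_fin] at h
  exact_mod_cast h

theorem PS_mul_PS (hx : F.sq x = n) :
    X4.PS (IF b p) (ef x b v p O) * X4.PS (JF b p) (ef x b v p O) = 0 := by
  conv_lhs => enter [2]; unfold X4.PS
  rw [Finset.mul_sum]
  refine Finset.sum_eq_zero fun j hj => ?_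
  rw [Matrix.mul_vecMulVec, X4.PS_mulVec, Finset.sum_eq_zero fun i hi => ?_, zero_vecMulVec]
  rw [(on_ef hx Finset.univ).orth i (Finset.mem_univ _) j (Finset.mem_univ _) ?_, zero_smul]
  rintro rfl
  exact Bool.false_ne_true ((mem_IF.1 hi).symm.trans (mem_JF.1 hj))

theorem PS_x (hn : 0 < n) (hx : F.sq x = n) : X4.PS (IF b p) (ef x b v p O) *ᵥ x = x := by
  have h := (on_ef (b := b) (v := v) (O := O) hx (IF b p)).fix zero_mem_IF
  have h0 : (√(n : ℝ))⁻¹ ≠ 0 := (inv_pos.2 (Real.sqrt_pos.2 (by exact_mod_cast hn))).ne'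
  rw [ef_zero, mulVec_smul] at h
  exact smul_right_injective _ h0 h

theorem opLe_F (hn : 0 < n) (hx : F.sq x = n) (hε : 0 ≤ ε)
    (hg : ∀ j : Fin p, Close (PB x) b v ε j O (g j)) {Z : Mat n} {M N : ℝ} (hZ : OpLe Z M)
    (hM : 0 ≤ M) (hN0 : 0 ≤ N) (hN : ∀ j, nv (Z *ᵥ g j) ≤ √n * N) :
    OpLe (cj O Z * X4.PS (JF b p) (ef x b v p O)) ((p + 1) * (N + M * ε)) := by
  have h0 : √(n : ℝ) ≠ 0 := (Real.sqrt_pos.2 (by exact_mod_cast hn)).ne'
  refine ((on_ef hx (JF b p)).opLe_mul (f := N + M * ε) fun i hi => ?_).monoN (by positivity)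
    (mul_le_mul_of_nonneg_right (card_le _) (by positivity))
  have h1 := nv_J hε hg hZ hM hN hi
  rw [mul_div_cancel_left₀ _ h0] at h1
  rwa [← X4.nv_orth O, mul_cj_mulVec]

theorem opLe_FF (hn : 0 < n) (hx : F.sq x = n) (hε : 0 ≤ ε)
    (hg : ∀ j : Fin p, Close (PB x) b v ε j O (g j)) {Z : Mat n} (hs : Zᵀ = Z) {M N T : ℝ}
    (hZ : OpLe Z M) (hM : 0 ≤ M) (hN0 : 0 ≤ N) (hT0 : 0 ≤ T) (hN : ∀ j, nv (Z *ᵥ g j) ≤ √n * N)
    (hT : ∀ i j, |ip (g i) (Z *ᵥ g j)| ≤ n * T) :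
    OpLe (X4.PS (JF b p) (ef x b v p O) * cj O Z * X4.PS (JF b p) (ef x b v p O))
      ((p + 1) ^ 2 * (T + ε * (2 * N + M * ε))) := by
  have hn' : (0 : ℝ) < n := by exact_mod_cast hn
  have h0 : √(n : ℝ) ≠ 0 := (Real.sqrt_pos.2 hn').ne'
  refine X4.opLe_of_bil (by positivity) fun u u' => ?_
  have h3 := (on_ef (v := v) (O := O) hx (JF b p)).bil (V := cj O Z) (i₀ := 0)
    (a := T + ε * (2 * N + M * ε)) (by positivity) le_rfl (fun i hi j hj => by
      have h1 := bil_J hε hg hs hZ hM hN hT hi hj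
      rw [mul_div_cancel_left₀ _ h0, mul_div_cancel_left₀ _ hn'.ne'] at h1
      rw [ite_self, add_zero]
      unfold cj
      rwa [Matrix.mul_assoc, ← mulVec_mulVec, X4.ip_tr, transpose_transpose, ← mulVec_mulVec])
    u u'
  rw [zero_mul, add_zero] at h3
  refine h3.trans (mul_le_mul_of_nonneg_right (mul_le_mul_of_nonneg_right
    (pow_le_pow_left₀ (Nat.cast_nonneg _) (card_le _) 2) (by positivity))
    (mul_nonneg (nv_nonneg _) (nv_nonneg _)))

theorem bil_E (hx : F.sq x = n) {V : Mat n} {a q : ℝ} (ha : 0 ≤ a) (hq : 0 ≤ q)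
    (hV : ∀ i ∈ IF b p, ∀ j ∈ IF b p, |ip (ef x b v p O i) (V *ᵥ ef x b v p O j)| ≤
      a + if i = 0 ∧ j = 0 then q else 0) (u u' : Vec n) :
    |ip (X4.PS (IF b p) (ef x b v p O) *ᵥ u) (V *ᵥ (X4.PS (IF b p) (ef x b v p O) *ᵥ u'))| ≤
      (p + 1) ^ 2 * a * (nv u * nv u') + q * (|ip x u| * |ip x u'| / n) := by
  have h := (on_ef hx (IF b p)).bil ha hq hV u u'
  rw [Matrix.mul_assoc, ← mulVec_mulVec, X4.ip_tr, X4.PS_tr, ← mulVec_mulVec, ef_zero,
    ip_smul_left, ip_smul_left, abs_mul, abs_mul, mul_mul_mul_comm |(√(n : ℝ))⁻¹|, abs_mul_abs_self, ← mul_inv,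
    Real.mul_self_sqrt (Nat.cast_nonneg n), ← div_eq_inv_mul] at h
  refine h.trans (add_le_add (mul_le_mul_of_nonneg_right (mul_le_mul_of_nonneg_right
    (pow_le_pow_left₀ (Nat.cast_nonneg _) (card_le _) 2) ha)
    (mul_nonneg (nv_nonneg _) (nv_nonneg _))) le_rfl)

theorem spread_E (hn : 0 < n) (hx : F.sq x = n) (hε : 0 ≤ ε)
    (hg : ∀ j : Fin p, Close (PB x) b v ε j O (g j)) {T B c K : ℝ} (hT : 0 ≤ T)
    (hxT : ∀ a, x a ^ 2 ≤ T) (hB : 0 ≤ B) (he : ∀ j, TG.exc T (g j) ≤ B)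
    (h1 : 2 * (p + 1) ^ 2 * T ≤ c) (h2 : 2 * (p + 1) ^ 2 * (B + n * ε ^ 2) ≤ c * K) (u : Vec n) :
    Spread (c * F.sq u) K (X4.PS (IF b p) (ef x b v p O) *ᵥ u) := by
  intro l A
  have hn' : (0 : ℝ) < n := by exact_mod_cast hn
  have hc : 0 ≤ c := le_trans (by positivity) h1
  set δ := √(T * A.card + B) / √n + ε with hδ
  have hδ0 : 0 ≤ δ := by positivity
  have h3 := ((on_ef hx (IF b p)).opLe_mul (R := res A) (f := δ) fun i hi =>
    sparse_I hε hg hT hxT hB he hi le_rfl).monoN (by positivity)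
    (mul_le_mul_of_nonneg_right (card_le _) hδ0) u
  rw [← mulVec_mulVec, sq_res] at h3
  have h4 : n * δ ^ 2 ≤ 2 * (T * A.card + B + n * ε ^ 2) := by
    have h5 : n * (√(T * A.card + B) / √n) ^ 2 = T * A.card + B := by
      rw [div_pow, Real.sq_sqrt (by positivity), Real.sq_sqrt hn'.le, mul_div_cancel₀ _ hn'.ne']
    have h6 : δ ^ 2 ≤ 2 * ((√(T * A.card + B) / √n) ^ 2 + ε ^ 2) := by
      rw [hδ]
      nlinarith [sq_nonneg (√(T * A.card + B) / √n - ε)]
    have h7 := mul_le_mul_of_nonneg_left h6 hn'.le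
    linarith
  have h5 : K + A.card ≤ lev n K l A.card := by
    unfold lev
    have h6 : (0 : ℝ) ≤ l * A.card := by positivity
    have h7 : (0 : ℝ) ≤ n * Real.exp (-(l : ℝ)) := by positivity
    have h8 : (0 : ℝ) ≤ l := Nat.cast_nonneg l
    linarith
  have h6 : n * ((p + 1) * δ) ^ 2 ≤ c * lev n K l A.card := by
    have h7 := mul_le_mul_of_nonneg_left h4 (sq_nonneg ((p : ℝ) + 1))
    have h8 := mul_le_mul_of_nonneg_right h1 (Nat.cast_nonneg (α := ℝ) A.card)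
    have h9 := mul_le_mul_of_nonneg_left h5 hc
    nlinarith
  have h7 := mul_le_mul_of_nonneg_left h3 hn'.le
  have h8 := mul_le_mul_of_nonneg_right h6 (sq_nonneg' u)
  nlinarith

end Gen

theorem K0_Ph (t : ℝ) (S : Dat n) (O : OG n) :
    S.K0 O * (1 - S.P (t ^ 139200) O) = cj O (diagonal (TG.kh t S)) := by
  rw [Dat.Ph_eq, Dat.K0, JO_mul]
  unfold Sp.JO cj
  congr 3
  funext a
  unfold TG.kh Dat.ind
  split_ifs <;> simp

theorem opLe_diag {u : Vec n} {c : ℝ} (h : ∀ a, |u a| ≤ c) : OpLe (diagonal u) c := by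
  rw [← JO_id]
  exact opLe_JO h 1

/-- the exported structure from the Gaussian event -/
theorem bs_of {L t : ℝ} (hs : T1.Sm L t) (hp : Pw.Sm L t) {S : Dat n} (hA : Adm L t S)
    {x xt : Vec n} (hx : ∀ i, x i = 1 ∨ x i = -1) {O : OG n} {g : Fin 8 → Vec n}
    (hE : TG.FEv t S x xt g) (hg : ∀ j : Fin 8, Close (PB x) bA (vP S) (t ^ 215998) j O (g j))
    (hn : F.sq (S.hc t O) ≤ n * t ^ 143999)
    (hb : ∀ i ∈ IF bA 8, ∀ j ∈ IF bA 8, |ip (ef x bA (vP S) 8 O i)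
      (VW (S.hc t O) (S.hc t O) *ᵥ ef x bA (vP S) 8 O j)| ≤
        t ^ 359000 + if i = 0 ∧ j = 0 then t ^ 287900 else 0) :
    BS t S O x (EP S x 8 O) (FP S x 8 O) (S.hc t O) := by
  have hsq := sq_of_sgn hx
  have h0 := hA.npos
  have hε := (hs.p0 215998).le
  have c9 : Pw.Lp t (((8 : ℕ) : ℝ) + 1) (-1) := hp.num _ (by norm_num) (by norm_num)
  have c1 : Pw.Lp t 1 0 := Pw.Sm.of_le_one zero_le_one le_rfl
  have hkh : ∀ a, |TG.kh t S a| ≤ t⁻¹ ^ 139201 := fun a => by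
    unfold TG.kh
    split_ifs with ha
    · rw [abs_zero]
      exact (hs.i0 _).le
    · have h1 := hA.g_high hs (hs.p0 139200) ha
      have h2 := hA.g_pos hs a
      have h3 : S.g a / S.w ≤ 2 * S.g a := by
        rw [div_eq_inv_mul]
        exact mul_le_mul_of_nonneg_right (hA.winv_le hs) h2.le
      have h4 := div_pos h2 (hA.w_pos hs)
      have h5 := hs.ci (C := 2) (by norm_num) (a := 139200) (b := 139201) (by norm_num)
      rw [← inv_pow] at h1
      exact abs_le.2 ⟨by linarith, by linarith [hs.i1 139201]⟩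
  have hk1 : ∀ j, nv (diagonal (TG.kh t S) *ᵥ g j) ≤ √n * t⁻¹ ^ 34801 := fun j => by
    rw [TG.diag_mulVec]
    exact hE.k1 j
  refine ⟨(on_ef hsq _).isProj, (on_ef hsq _).isProj, PS_mul_PS hsq, PS_x h0 hsq, ?_,
    abs_clip_le (hs.p0 _).le _, hn, fun v v' => ?_, ?_, ?_, ?_, ?_, ?_, fun v => ?_⟩
  · have h1 := (on_ef (b := bA) (v := vP S) (O := O) hsq (IF bA 8)).trace_le
    have h2 := (on_ef (b := bA) (v := vP S) (O := O) hsq (JF bA 8)).trace_le
    have h3 : ((IF bA 8).card : ℝ) + (JF bA 8).card = 9 := by exact_mod_cast card_IF_add bA 8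
    unfold EP FP
    linarith
  · refine (bil_E hsq (hs.p0 _).le (hs.p0 _).le hb v v').trans (add_le_add
      (mul_le_mul_of_nonneg_right ?_ (mul_nonneg (nv_nonneg _) (nv_nonneg _)))
      (mul_le_mul_of_nonneg_right (hs.pw (by norm_num)) (by positivity)))
    exact hp.le_pow (hp.mul (hp.sq c9) (hp.pow _)) _ (by norm_num)
  · have k := hp.mul c9 (hp.add (hp.pow 148799) (hp.mul c1 (hp.pow 215998)))
    exact (opLe_F h0 hsq hε hg (opLe_res _) zero_le_one (hs.p0 _).le hE.l1).monoN k.1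
      (hp.le_pow k _ (by norm_num))
  · have k := hp.mul c9 (hp.add (hp.pow 104399) (hp.mul c1 (hp.pow 215998)))
    exact (opLe_F h0 hsq hε hg (opLe_res _) zero_le_one (hs.p0 _).le hE.l2).monoN k.1
      (hp.le_pow k _ (by norm_num))
  · have h1 : OpLe (diagonal fun a => (√(S.z0 - S.lam a))⁻¹) (t⁻¹ ^ 144001) := by
      rw [← JO_id]
      exact hA.opLe_Nis hs 1
    have k := hp.mul c9 (hp.add (hp.num 2 (by norm_num) (by norm_num))
      (hp.mul (hp.inv 144001) (hp.pow 215998)))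
    refine (opLe_F h0 hsq hε hg h1 (hs.i0 _).le (N := 2) zero_le_two fun j => ?_).monoN k.1
      (hp.le_inv k _ (by norm_num))
    rw [TG.diag_mulVec, mul_comm √(n : ℝ)]
    exact hE.g2' j
  · rw [K0_Ph]
    have k := hp.mul c9 (hp.add (hp.inv 34801) (hp.mul (hp.inv 139201) (hp.pow 215998)))
    exact (opLe_F h0 hsq hε hg (opLe_diag hkh) (hs.i0 _).le (hs.i0 _).le hk1).monoN k.1
      (hp.le_inv k _ (by norm_num))
  · rw [Matrix.mul_assoc (FP S x 8 O), K0_Ph]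
    have k := hp.mul (hp.sq c9) (hp.add (hp.pow 69599) (hp.mul (hp.pow 215998)
      (hp.add (hp.cmul 2 (by norm_num) (by norm_num) (hp.inv 34801))
        (hp.mul (hp.inv 139201) (hp.pow 215998)))))
    refine (opLe_FF h0 hsq hε hg (diagonal_transpose _) (opLe_diag hkh) (hs.i0 _).le (hs.i0 _).le
      (hs.p0 69599).le hk1 fun i j => ?_).monoN k.1 (hp.le_pow k _ (by norm_num))
    rw [TG.diag_mulVec]
    exact hE.k2 i j
  · have hi := hs.inv0
    have hn0 : (0 : ℝ) ≤ n := Nat.cast_nonneg n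
    refine spread_E h0 hsq hε hg (T := t⁻¹ / (((8 : ℕ) : ℝ) + 1)) (B := 5 * n * t ^ 431998)
      (div_nonneg hi.le c9.1) (fun a => ?_)
      (mul_nonneg (mul_nonneg (by norm_num) hn0) (hs.p0 _).le)
      (fun j => hE.exc j.succ) ?_ ?_ v
    · have h1 : x a ^ 2 = 1 := by rcases hx a with h | h <;> simp [h]
      rw [h1, le_div_iff₀ (by norm_num), one_mul]
      exact hs.c_inv (by norm_num)
    · have h1 := hs.ci (C := 18) (by norm_num) (a := 1) (b := 10) (by norm_num)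
      rw [pow_one] at h1
      refine le_trans (le_of_eq ?_) h1
      push_cast
      ring
    · have h1 := hp.le_pow (hp.cmul 162 (by norm_num) (by norm_num) (hp.add
        (hp.cmul 5 (by norm_num) (by norm_num) (hp.pow 431998)) (hp.sq (hp.pow 215998)))) 431000
        (by norm_num)
      have h2 := mul_le_mul_of_nonneg_left h1 hn0
      have h3 := mul_le_mul_of_nonneg_right (hs.i1 10) (mul_nonneg hn0 (hs.p0 431000).le)
      refine le_trans (le_of_eq ?_) (h2.trans (le_trans (le_of_eq (one_mul _).symm) h3))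
      push_cast
      ring

/-- the deterministic core of the base induction -/
def CoreStmt : Prop := Ev fun L t => ∀ (n : ℕ) (S : Dat n) (x xt : Vec n) (O : OG n)
  (g : Fin 8 → Vec n), Adm L t S → AdmX L t S xt → (∀ i, x i = 1 ∨ x i = -1) → O.1 *ᵥ x = xt →
  TG.FEv t S x xt g → (∀ j : Fin 8, Close (PB x) bA (vP S) (t ^ 215998) j O (g j)) →
  Base t S O ∧ F.sq (S.hc t O) ≤ n * t ^ 143999 ∧ ∀ i ∈ IF bA 8, ∀ j ∈ IF bA 8,
    |ip (ef x bA (vP S) 8 O i) (VW (S.hc t O) (S.hc t O) *ᵥ ef x bA (vP S) 8 O j)| ≤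
      t ^ 359000 + if i = 0 ∧ j = 0 then t ^ 287900 else 0

theorem x3_of (h : CoreStmt) : X3Stmt := by
  refine ⟨3 * 8 + 5, fun L hL => ?_⟩
  filter_upwards [h L hL, TG.sim_fev 8 L hL, T1.ev_sm L hL, Pw.ev_sm hL] with t h1 h2 hs hp
    n S x xt μ hA hX hμ
  refine ⟨_, _, _, bexp t S hμ (p := 8) (by norm_num), ?_⟩
  have := hμ.prob
  refine le_trans (ENNReal.toReal_mono (measure_ne_top _ _) (measure_mono_ae ?_))
    (h2 n S x xt μ _ _ _ hA hX hμ.sgn hμ.prob (chain_prog S hμ 8) fun _ => trace_base x)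
  filter_upwards [hμ.ae] with O hO hb
  rintro ⟨g, hE, hg⟩
  obtain ⟨a1, a2, a3⟩ := h1 n S x xt O g hA hX hμ.sgn hO hE hg
  exact hb ⟨a1, bs_of hs hp hA hμ.sgn hE hg a2 a3⟩

end Vale.Agent.N150.X3P
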