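import Vale.Agent.N150.ECDef

set_option linter.all false

/-! Base induction of block T1, part a: orders `K ^ p * t ^ j` with explicit exponents,
normalised norms, elementary facts on `tanh`, the mean value identity for `chi`. -/

open Matrix Finset

namespace Vale.Agent.N150.X3

open Vale.Agent.P150 Vale.Agent.P150.F Vale.Agent.N150.EC

variable {n : ℕ}

/-- a big parameter `K` and a small parameter `t` -/
structure Sc where
  K : ℝ
  t : ℝ
  hK : 2 ≤ K
  t0 : 0 < t
  t1 : t ≤ 1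

/-- normalised norm -/
noncomputable def nn (v : Vec n) : ℝ := nv v / √n
/-- normalised inner product -/
noncomputable def ipn (u v : Vec n) : ℝ := ip u v / n

theorem nn_nonneg (v : Vec n) : 0 ≤ nn v := div_nonneg (nv_nonneg v) (Real.sqrt_nonneg _)

theorem nn_add_le (u v : Vec n) : nn (u + v) ≤ nn u + nn v := by
  unfold nn
  rw [← add_div]
  exact div_le_div_of_nonneg_right (nv_add_le u v) (Real.sqrt_nonneg _)

theorem nn_smul (c : ℝ) (u : Vec n) : nn (c • u) = |c| * nn u := by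
  unfold nn
  rw [nv_smul, mul_div_assoc]

theorem nn_neg (u : Vec n) : nn (-u) = nn u := by
  unfold nn
  rw [nv_neg]

theorem nn_sub_le (u v : Vec n) : nn (u - v) ≤ nn u + nn v := by
  rw [sub_eq_add_neg, ← nn_neg v]
  exact nn_add_le _ _

theorem nn_zero : nn (0 : Vec n) = 0 := by
  unfold nn
  rw [nv_zero, zero_div]

theorem nn_sum_le {ι : Type*} (s : Finset ι) (f : ι → Vec n) :
    nn (∑ k ∈ s, f k) ≤ ∑ k ∈ s, nn (f k) := by
  unfold nn
  rw [← Finset.sum_div]
  exact div_le_div_of_nonneg_right (nv_sum_le s f) (Real.sqrt_nonneg _)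

theorem nn_sq (v : Vec n) : nn v ^ 2 = F.sq v / n := by
  unfold nn
  rw [div_pow, nv_sq, Real.sq_sqrt (Nat.cast_nonneg n)]

theorem nn_le_mul {u v : Vec n} {C : ℝ} (hC : 0 ≤ C) (h : ∀ i, |u i| ≤ C * |v i|) :
    nn u ≤ C * nn v := by
  unfold nn
  rw [← mul_div_assoc]
  exact div_le_div_of_nonneg_right (nv_le_mul hC h) (Real.sqrt_nonneg _)

theorem nn_mono {u v : Vec n} (h : ∀ i, |u i| ≤ |v i|) : nn u ≤ nn v := by
  simpa using nn_le_mul (C := 1) zero_le_one (u := u) (v := v) (by simpa using h)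

theorem nn_le_of_sq {v : Vec n} {C : ℝ} (hC : 0 ≤ C) (h : F.sq v / n ≤ C ^ 2) : nn v ≤ C := by
  rw [← nn_sq] at h
  exact (sq_le_sq₀ (nn_nonneg v) hC).1 h

theorem abs_ipn_le (u v : Vec n) : |ipn u v| ≤ nn u * nn v := by
  unfold ipn nn
  rw [div_mul_div_comm, Real.mul_self_sqrt (Nat.cast_nonneg n), abs_div,
    abs_of_nonneg (Nat.cast_nonneg (α := ℝ) n)]
  exact div_le_div_of_nonneg_right (abs_ip_le u v) (Nat.cast_nonneg n)

theorem ipn_comm (u v : Vec n) : ipn u v = ipn v u := by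
  unfold ipn
  rw [ipN_comm]

theorem ipn_self (v : Vec n) : ipn v v = nn v ^ 2 := by
  rw [nn_sq, ipn, ipN_self]

theorem ipn_add_left (u v w : Vec n) : ipn (u + v) w = ipn u w + ipn v w := by
  unfold ipn
  rw [ip_add_left, add_div]

theorem ipn_add_right (u v w : Vec n) : ipn u (v + w) = ipn u v + ipn u w := by
  unfold ipn
  rw [ip_add_right, add_div]

theorem ipn_sub_left (u v w : Vec n) : ipn (u - v) w = ipn u w - ipn v w := by
  unfold ipn
  rw [ip_sub_left, sub_div]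

theorem ipn_sub_right (u v w : Vec n) : ipn u (v - w) = ipn u v - ipn u w := by
  unfold ipn
  rw [ip_sub_right, sub_div]

theorem ipn_smul_left (c : ℝ) (u v : Vec n) : ipn (c • u) v = c * ipn u v := by
  unfold ipn
  rw [ip_smul_left, mul_div_assoc]

theorem ipn_smul_right (c : ℝ) (u v : Vec n) : ipn u (c • v) = c * ipn u v := by
  unfold ipn
  rw [ip_smul_right, mul_div_assoc]

theorem ipn_zero_left (v : Vec n) : ipn 0 v = 0 := by simp [ipn, ip]

theorem ipn_zero_right (v : Vec n) : ipn v 0 = 0 := by simp [ipn, ip]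

theorem ipn_sum_right {ι : Type*} (s : Finset ι) (u : Vec n) (f : ι → Vec n) :
    ipn u (∑ k ∈ s, f k) = ∑ k ∈ s, ipn u (f k) := by
  unfold ipn
  rw [ip_sum_right, Finset.sum_div]

theorem ipn_mul (c u v : Vec n) : ipn u (c * v) = ipn (c * u) v := by
  unfold ipn ip
  congr 1
  exact Finset.sum_congr rfl fun i _ => by simp only [Pi.mul_apply]; ring

namespace Sc

variable (S : Sc)

/-- the bound `K ^ p * t ^ j` -/
noncomputable def B (p : ℕ) (j : ℤ) : ℝ := S.K ^ p * S.t ^ j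
/-- scalars of order `(p, j)` -/
def O (p : ℕ) (j : ℤ) (x : ℝ) : Prop := |x| ≤ S.B p j
/-- vectors of order `(p, j)` in the normalised norm -/
def V (p : ℕ) (j : ℤ) (v : Vec n) : Prop := nn v ≤ S.B p j
/-- smallness -/
def Sm (c : ℕ) : Prop := S.K ^ c * S.t ≤ 1

variable {S}

theorem K0 : 0 < S.K := by linarith [S.hK]
theorem K1 : 1 ≤ S.K := by linarith [S.hK]

theorem B_pos (p : ℕ) (j : ℤ) : 0 < S.B p j := mul_pos (pow_pos K0 p) (zpow_pos S.t0 j)

theorem B_mono {p q : ℕ} {j k : ℤ} (hp : p ≤ q) (hj : k ≤ j) : S.B p j ≤ S.B q k :=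
  mul_le_mul (pow_le_pow_right₀ K1 hp) (zpow_le_zpow_right_of_le_one₀ S.t0 S.t1 hj)
    (zpow_pos S.t0 j).le (pow_pos K0 q).le

theorem B_mul (p q : ℕ) (j k : ℤ) : S.B p j * S.B q k = S.B (p + q) (j + k) := by
  unfold B
  rw [pow_add, zpow_add₀ S.t0.ne']
  ring

theorem B_sq (p : ℕ) (j : ℤ) : S.B p j ^ 2 = S.B (2 * p) (2 * j) := by
  rw [pow_two, B_mul, two_mul, two_mul]

theorem two_B (p : ℕ) (j : ℤ) : 2 * S.B p j ≤ S.B (p + 1) j := by
  have h := B_pos (S := S) p j
  have : S.B (p + 1) j = S.K * S.B p j := by unfold B; ring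
  rw [this]
  exact mul_le_mul_of_nonneg_right S.hK h.le

theorem B_add (p q : ℕ) (j k : ℤ) : S.B p j + S.B q k ≤ S.B (max p q + 1) (min j k) := by
  have h1 : S.B p j ≤ S.B (max p q) (min j k) := B_mono (le_max_left _ _) (min_le_left _ _)
  have h2 : S.B q k ≤ S.B (max p q) (min j k) := B_mono (le_max_right _ _) (min_le_right _ _)
  linarith [two_B (S := S) (max p q) (min j k)]

theorem B_zero : S.B 0 0 = 1 := by simp [B]

theorem B_one : S.B 1 0 = S.K := by simp [B]

theorem K_mul_B (p : ℕ) (j : ℤ) : S.K * S.B p j = S.B (p + 1) j := by unfold B; ring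

theorem B_sm {c : ℕ} (hs : S.Sm c) (m : ℕ) {p q : ℕ} {j k : ℤ} (hp : p ≤ q + c * m)
    (hj : k + m ≤ j) : S.B p j ≤ S.B q k := by
  have h1 : S.B p j ≤ S.B (q + c * m) (k + m) := B_mono hp hj
  have h2 : S.B (q + c * m) (k + m) = S.B q k * (S.K ^ c * S.t) ^ m := by
    unfold B
    rw [pow_add, zpow_add₀ S.t0.ne', zpow_natCast, mul_pow, ← pow_mul]
    ring
  have h3 : (S.K ^ c * S.t) ^ m ≤ 1 :=
    pow_le_one₀ (mul_nonneg (pow_pos K0 c).le S.t0.le) hs
  have h4 := B_pos (S := S) q k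
  rw [h2] at h1
  nlinarith

/-- a bound that is at most one half -/
theorem B_half {c : ℕ} (hs : S.Sm c) {p : ℕ} {j : ℤ} (hp : p + 1 ≤ c) (hj : 1 ≤ j) :
    S.B p j ≤ 1 / 2 := by
  have h1 : S.B (p + 1) j ≤ S.B 0 0 := B_sm hs 1 (by omega) (by omega)
  rw [B_zero] at h1
  linarith [two_B (S := S) p j]

theorem Sm.mono {c c' : ℕ} (hs : S.Sm c) (h : c' ≤ c) : S.Sm c' :=
  (mul_le_mul_of_nonneg_right (pow_le_pow_right₀ K1 h) S.t0.le).trans hs

namespace O

variable {p q : ℕ} {j k : ℤ} {x y : ℝ}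

theorem mono (h : S.O p j x) (hp : p ≤ q) (hj : k ≤ j) : S.O q k x := h.trans (B_mono hp hj)

theorem sm {c : ℕ} (h : S.O p j x) (hs : S.Sm c) (m : ℕ) (hp : p ≤ q + c * m) (hj : k + m ≤ j) :
    S.O q k x := h.trans (B_sm hs m hp hj)

theorem of_le (h : S.O p j x) (e : |y| ≤ |x|) : S.O p j y := e.trans h

theorem congr (h : S.O p j x) (e : y = x) : S.O p j y := e ▸ h

theorem add (hx : S.O p j x) (hy : S.O q k y) : S.O (max p q + 1) (min j k) (x + y) :=
  (abs_add_le x y).trans ((add_le_add hx hy).trans (B_add p q j k))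

theorem neg (hx : S.O p j x) : S.O p j (-x) := hx.of_le (by rw [abs_neg])

theorem sub (hx : S.O p j x) (hy : S.O q k y) : S.O (max p q + 1) (min j k) (x - y) :=
  (hx.add hy.neg).congr (sub_eq_add_neg x y)

theorem mul (hx : S.O p j x) (hy : S.O q k y) : S.O (p + q) (j + k) (x * y) := by
  unfold O
  rw [abs_mul, ← B_mul]
  exact mul_le_mul hx hy (abs_nonneg _) (B_pos p j).le

theorem of_nonneg (h0 : 0 ≤ x) (h : x ≤ S.B p j) : S.O p j x := by
  unfold O
  rwa [abs_of_nonneg h0]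

theorem le (h : S.O p j x) : x ≤ S.B p j := (le_abs_self x).trans h

theorem zero : S.O p j 0 := by
  unfold O
  rw [abs_zero]
  exact (B_pos p j).le

theorem one_le (h : |x| ≤ 1) : S.O 0 0 x := by
  unfold O
  rwa [B_zero]

theorem of_K (h : |x| ≤ S.K) : S.O 1 0 x := by
  unfold O
  rwa [B_one]

theorem two : S.O 1 0 2 := of_K (by rw [abs_two]; exact S.hK)

theorem abs (h : S.O p j x) : S.O p j |x| := by
  unfold O
  rwa [abs_abs]

theorem sum {ι : Type*} [Fintype ι] {f : ι → ℝ} (hc : (Fintype.card ι : ℝ) ≤ S.K)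
    (h : ∀ i, S.O p j (f i)) : S.O (p + 1) j (∑ i, f i) := by
  unfold O
  calc |∑ i, f i| ≤ ∑ i, |f i| := Finset.abs_sum_le_sum_abs _ _
    _ ≤ ∑ _i : ι, S.B p j := Finset.sum_le_sum fun i _ => h i
    _ = Fintype.card ι * S.B p j := by simp
    _ ≤ S.K * S.B p j := mul_le_mul_of_nonneg_right hc (B_pos p j).le
    _ = _ := K_mul_B p j

theorem of_sq (h : S.O (2 * p) (2 * j) (x ^ 2)) : S.O p j x := by
  unfold O at h ⊢
  rw [← B_sq, abs_of_nonneg (sq_nonneg x), ← sq_abs] at h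
  exact (sq_le_sq₀ (abs_nonneg x) (B_pos p j).le).1 h

end O

namespace V

variable {p q : ℕ} {j k : ℤ} {u v : Vec n} {c : ℝ}

theorem o (h : S.V p j v) : S.O p j (nn v) := O.of_nonneg (nn_nonneg v) h

theorem of_o (h : S.O p j (nn v)) : S.V p j v := h.le

theorem mono (h : S.V p j v) (hp : p ≤ q) (hj : k ≤ j) : S.V q k v := h.trans (B_mono hp hj)

theorem sm {c : ℕ} (h : S.V p j v) (hs : S.Sm c) (m : ℕ) (hp : p ≤ q + c * m) (hj : k + m ≤ j) :
    S.V q k v := h.trans (B_sm hs m hp hj)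

theorem of_le (h : S.V p j v) (e : nn u ≤ nn v) : S.V p j u := e.trans h

theorem congr (h : S.V p j v) (e : u = v) : S.V p j u := e ▸ h

theorem add (hu : S.V p j u) (hv : S.V q k v) : S.V (max p q + 1) (min j k) (u + v) :=
  (nn_add_le u v).trans ((add_le_add hu hv).trans (B_add p q j k))

theorem sub (hu : S.V p j u) (hv : S.V q k v) : S.V (max p q + 1) (min j k) (u - v) :=
  (nn_sub_le u v).trans ((add_le_add hu hv).trans (B_add p q j k))

theorem neg (hu : S.V p j u) : S.V p j (-u) := hu.of_le (nn_neg u).le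

theorem smul (hc : S.O p j c) (hv : S.V q k v) : S.V (p + q) (j + k) (c • v) := by
  unfold V
  rw [nn_smul, ← B_mul]
  exact mul_le_mul hc hv (nn_nonneg _) (B_pos p j).le

theorem ip (hu : S.V p j u) (hv : S.V q k v) : S.O (p + q) (j + k) (ipn u v) := by
  unfold O
  rw [← B_mul]
  exact (abs_ipn_le u v).trans (mul_le_mul hu hv (nn_nonneg _) (B_pos p j).le)

theorem zero : S.V p j (0 : Vec n) := by
  unfold V
  rw [nn_zero]
  exact (B_pos p j).le

/-- multiplication by a bounded multiplier -/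
theorem mul {c : Vec n} (hc : ∀ i, S.O p j (c i)) (hv : S.V q k v) :
    S.V (p + q) (j + k) (c * v) := by
  unfold V
  rw [← B_mul]
  refine (nn_le_mul (C := S.B p j) (v := v) (B_pos p j).le fun i => ?_).trans
    (mul_le_mul_of_nonneg_left hv (B_pos p j).le)
  rw [Pi.mul_apply, abs_mul]
  exact mul_le_mul_of_nonneg_right (hc i) (abs_nonneg _)

theorem of_abs_le (hv : S.V p j v) (h : ∀ i, |u i| ≤ |v i|) : S.V p j u := hv.of_le (nn_mono h)

theorem sum {ι : Type*} [Fintype ι] {f : ι → Vec n} (hc : (Fintype.card ι : ℝ) ≤ S.K)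
    (h : ∀ i, S.V p j (f i)) : S.V (p + 1) j (∑ i, f i) :=
  (nn_sum_le _ f).trans (O.sum hc fun i => (h i).o).le

theorem of_sq (h : S.O (2 * p) (2 * j) (F.sq v / n)) : S.V p j v := by
  rw [← nn_sq] at h
  exact (O.of_sq h).le

theorem sq (h : S.V p j v) : S.O (2 * p) (2 * j) (nn v ^ 2) := by
  have := h.o.mul h.o
  rw [pow_two, two_mul, two_mul]
  exact this

end V

end Sc

/-! ### tanh -/

theorem hasDerivAt_tanh (x : ℝ) : HasDerivAt Real.tanh (1 - Real.tanh x ^ 2) x := by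
  have hc : Real.cosh x ≠ 0 := (Real.cosh_pos x).ne'
  have h := (Real.hasDerivAt_sinh x).div (Real.hasDerivAt_cosh x) hc
  have e : Real.tanh = Real.sinh / Real.cosh := by
    funext y
    rw [Real.tanh_eq_sinh_div_cosh]
    rfl
  rw [e]
  refine h.congr_deriv ?_
  simp only [Pi.div_apply]
  field_simp

theorem abs_tanh_lt (x : ℝ) : |Real.tanh x| < 1 :=
  abs_lt.2 ⟨Real.neg_one_lt_tanh x, Real.tanh_lt_one x⟩

theorem tanh_sq_lt (x : ℝ) : Real.tanh x ^ 2 < 1 := by
  have := abs_tanh_lt x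
  rw [← sq_abs]
  nlinarith [abs_nonneg (Real.tanh x)]

theorem tanh_lip (x y : ℝ) : |Real.tanh x - Real.tanh y| ≤ |x - y| := by
  have h := (convex_univ (𝕜 := ℝ) (E := ℝ)).norm_image_sub_le_of_norm_hasDerivWithin_le
    (f := Real.tanh) (f' := fun x => 1 - Real.tanh x ^ 2) (C := 1)
    (fun x _ => (hasDerivAt_tanh x).hasDerivWithinAt)
    (fun x _ => by
      rw [Real.norm_eq_abs, abs_le]
      constructor <;> nlinarith [tanh_sq_lt x, sq_nonneg (Real.tanh x)])
    (Set.mem_univ y) (Set.mem_univ x)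
  simpa [Real.norm_eq_abs] using h

theorem abs_tanh_le (x : ℝ) : |Real.tanh x| ≤ |x| := by
  simpa using tanh_lip x 0

theorem dv_pos' (h : Vec n) (i : Fin n) : 0 < dv h i := by
  unfold dv
  linarith [tanh_sq_lt (h i)]

theorem dv_le' (h : Vec n) (i : Fin n) : dv h i ≤ 1 := by
  unfold dv
  linarith [sq_nonneg (Real.tanh (h i))]

theorem wb_eq (hn : 0 < n) (h : Vec n) : wb h = 1 - nn (tm h) ^ 2 := by
  have hn' : (n : ℝ) ≠ 0 := by positivity
  rw [nn_sq]
  unfold wb dv F.sq tm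
  rw [Finset.sum_sub_distrib]
  simp only [Finset.sum_const, Finset.card_univ, Fintype.card_fin, nsmul_eq_mul, mul_one]
  field_simp

theorem wb_pos (hn : 0 < n) (h : Vec n) : 0 < wb h := by
  have : Nonempty (Fin n) := ⟨⟨0, hn⟩⟩
  exact div_pos (Finset.sum_pos (fun i _ => dv_pos' h i) Finset.univ_nonempty) (by positivity)

theorem wb_le (hn : 0 < n) (h : Vec n) : wb h ≤ 1 := by
  rw [wb_eq hn]
  linarith [sq_nonneg (nn (tm h))]

theorem nn_tm_le (h : Vec n) : nn (tm h) ≤ nn h := nn_mono fun i => abs_tanh_le _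

theorem nn_tm_sub_le (h h' : Vec n) : nn (tm h - tm h') ≤ nn (h - h') :=
  nn_mono fun i => tanh_lip _ _

/-- `chi h = m / w - h` -/
noncomputable def chi (h : Vec n) : Vec n := (wb h)⁻¹ • tm h - h

/-- the action of `VW(h,h) = (D - w) + (2 / (n w)) m (m d)ᵀ` -/
noncomputable def va (h v : Vec n) : Vec n :=
  (fun i => dv h i - wb h) * v + (2 / wb h * ipn (tm h * dv h) v) • tm h

theorem tm_eq_chi (hn : 0 < n) (h : Vec n) : tm h = wb h • (h + chi h) := by
  unfold chi
  rw [add_sub_cancel, smul_smul, mul_inv_cancel₀ (wb_pos hn h).ne', one_smul]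

theorem chi_zero : chi (0 : Vec n) = 0 := by
  funext i
  simp [chi, tm]

theorem va_add (h u v : Vec n) : va h (u + v) = va h u + va h v := by
  unfold va
  rw [mul_add, ipn_add_right, mul_add, add_smul]
  abel

theorem va_smul (h v : Vec n) (c : ℝ) : va h (c • v) = c • va h v := by
  unfold va
  rw [ipn_smul_right, smul_add, smul_smul, mul_smul_comm]
  congr 2
  ring

theorem va_sum {ι : Type*} (s : Finset ι) (h : Vec n) (f : ι → Vec n) :
    va h (∑ k ∈ s, f k) = ∑ k ∈ s, va h (f k) := by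
  classical
  induction s using Finset.induction_on with
  | empty =>
    have := va_smul h 0 0
    simpa using this
  | insert a s ha ih => rw [Finset.sum_insert ha, Finset.sum_insert ha, va_add, ih]

/-- mean value identity along a segment -/
theorem chi_mvt (hn : 0 < n) (h D e : Vec n) : ∃ τ : ℝ, 0 ≤ τ ∧ τ ≤ 1 ∧
    ipn e (chi (h + D) - chi h) = (wb (h + τ • D))⁻¹ * ipn e (va (h + τ • D) D) := by
  have hn' : (n : ℝ) ≠ 0 := by positivity
  have h1 : ∀ τ : ℝ, ∀ i, HasDerivAt (fun τ : ℝ => h i + τ * D i) (D i) τ := fun τ i => by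
    simpa using ((hasDerivAt_id τ).mul_const (D i)).const_add (h i)
  have h2 : ∀ τ : ℝ, ∀ i, HasDerivAt (fun τ : ℝ => Real.tanh (h i + τ * D i))
      ((1 - Real.tanh (h i + τ * D i) ^ 2) * D i) τ := fun τ i =>
    (hasDerivAt_tanh _).comp τ (h1 τ i)
  have h3 : ∀ τ : ℝ, HasDerivAt (fun τ : ℝ => wb (h + τ • D))
      (-2 * ipn (tm (h + τ • D) * dv (h + τ • D)) D) τ := fun τ => by
    have := (HasDerivAt.fun_sum (u := Finset.univ) fun i _ =>
      ((h2 τ i).fun_pow 2).const_sub 1).div_const (n : ℝ)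
    refine HasDerivAt.congr_deriv this ?_
    unfold ipn ip tm dv
    rw [← mul_div_assoc, Finset.mul_sum]
    congr 1
    refine Finset.sum_congr rfl fun i _ => ?_
    simp only [Pi.mul_apply, Pi.add_apply, Pi.smul_apply, smul_eq_mul]
    norm_num
    ring
  have h4 : ∀ τ : ℝ, HasDerivAt (fun τ : ℝ => ipn e (chi (h + τ • D)))
      ((wb (h + τ • D))⁻¹ * ipn e (va (h + τ • D) D)) τ := fun τ => by
    have hw := (wb_pos hn (h + τ • D)).ne'
    have := (HasDerivAt.fun_sum (u := Finset.univ) fun i _ =>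
      ((((h3 τ).fun_inv hw).fun_mul (h2 τ i)).fun_sub (h1 τ i)).const_mul (e i)).div_const (n : ℝ)
    refine HasDerivAt.congr_deriv this ?_
    generalize hI : ipn (tm (h + τ • D) * dv (h + τ • D)) D = I
    unfold va
    rw [hI]
    unfold ipn ip
    rw [← mul_div_assoc, Finset.mul_sum]
    congr 1
    refine Finset.sum_congr rfl fun i _ => ?_
    simp only [Pi.mul_apply, Pi.add_apply, Pi.smul_apply, smul_eq_mul, tm, dv]
    field_simp
    ring
  obtain ⟨τ, hτ, e1⟩ := exists_hasDerivAt_eq_slope (fun τ : ℝ => ipn e (chi (h + τ • D)))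
    (fun τ => (wb (h + τ • D))⁻¹ * ipn e (va (h + τ • D) D)) zero_lt_one
    (fun τ _ => (h4 τ).continuousAt.continuousWithinAt) (fun τ _ => h4 τ)
  refine ⟨τ, hτ.1.le, hτ.2.le, ?_⟩
  rw [e1, ipn_sub_right]
  simp

end Vale.Agent.N150.X3
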