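import Vale.Agent.N150.X3c

set_option linter.all false

/-! Base induction of block T1, part d: the induction. -/

open Matrix Finset

namespace Vale.Agent.N150.X3

open Vale.Agent.P150 Vale.Agent.P150.F Vale.Agent.N150.EC Vale.Agent.N150.TG Sc

variable {n : ℕ} {ι κ : Type} [Fintype ι] [DecidableEq ι] [Fintype κ]

/-- the preconditioned residual in the frame, `yt = (z0 - lam) h0` -/
noncomputable def psi (lam : Vec n) (z0 : ℝ) (h0 ht ct : Vec n) (w z : ℝ) : Vec n :=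
  w • ht + kz lam w z * ct - gz lam z * ((fun a => z0 - lam a) * h0)

theorem ipn_orth {M : Mat n} (hM : Mᵀ * M = 1) (u v : Vec n) :
    ipn (M *ᵥ u) (M *ᵥ v) = ipn u v := by
  have h1 : ip (M *ᵥ u) (M *ᵥ v) = (M *ᵥ u) ⬝ᵥ (M *ᵥ v) := rfl
  have h2 : ip u v = u ⬝ᵥ v := rfl
  unfold ipn
  rw [h1, h2, dotProduct_mulVec, ← mulVec_transpose, mulVec_mulVec, hM, one_mulVec]

theorem nn_orth {M : Mat n} (hM : Mᵀ * M = 1) (u : Vec n) : nn (M *ᵥ u) = nn u := by
  have h := ipn_orth hM u u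
  rw [ipn_self, ipn_self] at h
  exact (sq_eq_sq₀ (nn_nonneg _) (nn_nonneg _)).1 h

/-- everything the induction uses -/
structure Env (S : Sc) (M : Mat n) (G : ι → Vec n) (o : ι) (th T a0 sg : ℝ) (lam : Vec n)
    (z0 w0 : ℝ) (xt h0 : Vec n) (g Fm : κ → Vec n) (Ex : Vec n → Prop) (zf : Vec n → ℝ)
    (hh : ℕ → Vec n) : Prop where
  sd : SD S G o th T a0 sg
  fd : FD S lam z0 w0 xt h0 g Fm
  sm : S.Sm 1000
  orth : Mᵀ * M = 1
  ex_sub : ∀ a b, Ex a → Ex b → Ex (a - b)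
  ex_h : ∀ k ≤ 3, Ex (hh k)
  ex_c : ∀ k ≤ 3, Ex (chi (hh k))
  X1 : ∀ a p j, Ex a → Prof S lam z0 xt Fm p j (M *ᵥ a) → SR S G o (p + 3) j a
  X2 : ∀ a p j, Ex a → S.V p j a →
    (∀ E i, S.V 1 6 (E - G i) → S.O p (j + 6) (ipn E a)) → Gl S g (p + 3) j (M *ᵥ a)
  h0e : M *ᵥ hh 0 = h0
  sharp : ∃ al : ι → ℝ, |al o| ≤ a0 / 2 ∧ ∑ i, al i ^ 2 ≤ sg ^ 2 / 2 ∧ S.V 5 8 (hh 0 - lc G al)
  a0u : a0 ≤ S.B 1 4
  a0l : S.B 0 4 ≤ S.K * a0
  sgl : S.B 0 2 ≤ S.K * sg
  w0e : w0 = 1 - nn h0 ^ 2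
  hz : ∀ h p, p ≤ 900 → S.O p 6 (wb h - w0) →
    S.O (p + 2) 10 (zf h - z0) ∧ ∑ a, gz lam (zf h) a = n * wb h
  step : ∀ k ≤ 3, (∀ a, 0 < zf (hh k) - lam a) →
    w0 • (M *ᵥ (hh (k + 1) - hh k)) +
      (2 / nn (gz lam z0) ^ 2 * ipn h0 (M *ᵥ (hh (k + 1) - hh k))) • (gz lam z0 * h0) =
      -psi lam z0 h0 (M *ᵥ hh k) (M *ᵥ chi (hh k)) (wb (hh k)) (zf (hh k))

/-- the cumulative invariants of an iterate -/
structure St (S : Sc) (M : Mat n) (G : ι → Vec n) (o : ι) (lam : Vec n) (z0 : ℝ) (xt : Vec n)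
    (g Fm : κ → Vec n) (h00 : Vec n) (q : ℕ) (h : Vec n) : Prop where
  pr : Prof S lam z0 xt Fm q 4 (M *ᵥ (h - h00))
  sr : SR S G o q 4 (h - h00)
  gl : Gl S g q 6 (M *ᵥ chi h)
  cv : S.V q 6 (chi h)

variable {S : Sc} {M : Mat n} {G : ι → Vec n} {o : ι} {th T a0 sg : ℝ} {lam : Vec n}
  {z0 w0 : ℝ} {xt h0 : Vec n} {g Fm : κ → Vec n} {Ex : Vec n → Prop} {zf : Vec n → ℝ}
  {hh : ℕ → Vec n}

theorem St.mono {h00 h : Vec n} {q q' : ℕ} (s : St S M G o lam z0 xt g Fm h00 q h) (hq : q ≤ q') :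
    St S M G o lam z0 xt g Fm h00 q' h :=
  ⟨s.pr.mono hq le_rfl, s.sr.mono hq le_rfl, s.gl.mono hq le_rfl, s.cv.mono hq le_rfl⟩

namespace Env

variable (H : Env S M G o th T a0 sg lam z0 w0 xt h0 g Fm Ex zf hh)
include H

theorem sm10 : S.Sm 10 := H.sm.mono (by omega)

theorem V_orth {p : ℕ} {j : ℤ} {v : Vec n} (h : S.V p j v) : S.V p j (M *ᵥ v) :=
  h.of_le (nn_orth H.orth v).le

theorem V_of_orth {p : ℕ} {j : ℤ} {v : Vec n} (h : S.V p j (M *ᵥ v)) : S.V p j v :=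
  h.of_le (nn_orth H.orth v).ge

theorem h0_V : S.V 1 2 (hh 0) := H.V_of_orth (H.fd.h1.congr H.h0e)

/-- points `τ h0 + u` with a small represented `u` are near -/
theorem near {τ : ℝ} (t0 : 0 ≤ τ) (t1 : τ ≤ 1) {q : ℕ} (hq : q ≤ 900) {u : Vec n}
    (hu : SR S G o q 4 u) : Near S G o th a0 sg (τ • hh 0 + u) := by
  obtain ⟨al, h1, h2, h3⟩ := H.sharp
  obtain ⟨be, g1, g2, g3⟩ := hu
  have K0 := K0 (S := S)
  have hτ : S.O 0 0 τ := O.one_le (by rw [abs_of_nonneg t0]; exact t1)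
  refine H.sd.near_of (al := τ • al + be) ?_ ?_ ?_
  · have b1 : 2 * S.K * |be o| ≤ S.B 0 4 :=
      (((O.two.mul (O.of_K (x := S.K) (by rw [abs_of_pos K0]))).mul g2.abs).sm H.sm 1 (by omega)
        (by omega)).le
    have b2 : |be o| ≤ a0 / 2 := by
      have := H.a0l
      nlinarith
    have b3 : |τ * al o| ≤ a0 / 2 := by
      rw [abs_mul, abs_of_nonneg t0]
      nlinarith [abs_nonneg (al o)]
    simp only [Pi.add_apply, Pi.smul_apply, smul_eq_mul]
    exact (abs_add_le _ _).trans (by linarith)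
  · have b1 : S.O (2 * q + 1) 8 (∑ i, be i ^ 2) :=
      O.sum H.sd.card fun i => (((g1 i).mul (g1 i)).mono (by omega) (by omega)).congr (pow_two _)
    have hK : S.O 1 0 S.K := O.of_K (by rw [abs_of_pos K0])
    have b2 : 2 * 2 * (2 * 2) * (S.K * S.K) * ∑ i, be i ^ 2 ≤ S.B 0 4 :=
      (((((O.two.mul O.two).mul (O.two.mul O.two)).mul (hK.mul hK)).mul b1).sm H.sm 4 (by omega)
        (by omega)).le
    have b3 : S.B 0 4 ≤ (S.K * sg) ^ 2 := by
      have := pow_le_pow_left₀ (B_pos (S := S) 0 2).le H.sgl 2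
      rwa [B_sq] at this
    have b4 : 16 * ∑ i, be i ^ 2 ≤ sg ^ 2 := by
      have := mul_pos K0 K0
      nlinarith
    have b5 : ∑ i, (τ • al + be) i ^ 2 ≤ ∑ i, (3 / 2 * al i ^ 2 + 3 * be i ^ 2) :=
      Finset.sum_le_sum fun i _ => by
        simp only [Pi.add_apply, Pi.smul_apply, smul_eq_mul]
        have c1 : (τ * al i) ^ 2 ≤ al i ^ 2 := by
          rw [mul_pow]
          exact mul_le_of_le_one_left (sq_nonneg _) (pow_le_one₀ t0 t1)
        nlinarith [sq_nonneg (τ * al i - 2 * be i)]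
    rw [Finset.sum_add_distrib, ← Finset.mul_sum, ← Finset.mul_sum] at b5
    nlinarith [sq_nonneg sg]
  · refine (((V.smul hτ h3).add (g3.sm (q := 5) (k := 8) H.sm 2 (by omega) (by omega))).mono
      (by omega) (by omega)).congr ?_
    rw [lc_add, lc_smul, smul_sub]
    abel

theorem sr0 : SR S G o 5 2 (hh 0) := by
  obtain ⟨al, h1, h2, h3⟩ := H.sharp
  have h4 : ∑ i, al i ^ 2 ≤ sg ^ 2 := h2.trans (by nlinarith [sq_nonneg sg])
  refine ⟨al, fun i => (H.sd.al_O h4 i).mono (by omega) le_rfl, ?_, h3⟩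
  have : S.O 1 4 (al o) := by
    have := H.a0u
    have := B_pos (S := S) 1 4
    unfold O
    linarith [abs_nonneg (al o)]
  exact this.mono (by omega) (by omega)

section St

variable {q : ℕ} {h : Vec n} (s : St S M G o lam z0 xt g Fm (hh 0) q h) (hq : q ≤ 800)
include s hq

theorem st_near : Near S G o th a0 sg h := by
  have := H.near zero_le_one le_rfl (by omega) s.sr
  rwa [one_smul, add_sub_cancel] at this

theorem st_V : S.V 4 2 h := H.sd.near_V H.sm10 (H.st_near s hq)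

theorem st_d : S.V q 4 (h - hh 0) := H.V_of_orth s.pr.l2

theorem st_cub : S.V (q + 13) 6 (tm h - h) := by
  have a1 := V.smul (one_sub_wb H.sd.hn (H.st_V s hq)).neg (H.st_V s hq)
  have a2 := V.smul (O.one_le (S := S) (x := wb h) (by
    rw [abs_of_pos (wb_pos H.sd.hn h)]; exact wb_le H.sd.hn h)) s.cv
  refine ((a1.add a2).mono (by omega) (by omega)).congr ?_
  rw [tm_eq_chi H.sd.hn h, smul_add, neg_sub, sub_smul, one_smul]
  abel

theorem st_m : S.V (q + 14) 4 (tm h - hh 0) :=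
  (((H.st_cub s hq).add (H.st_d s hq)).mono (by omega) (by omega)).congr (by abel)

theorem st_w : S.O (q + 19) 6 (wb h - w0) := by
  refine (((H.st_m s hq).ip ((tm_V (H.st_V s hq)).add H.h0_V)).neg.mono (by omega)
    (by omega)).congr ?_
  rw [H.w0e, ← H.h0e, nn_orth H.orth, wb_eq H.sd.hn, ipn_sub_left, ipn_add_right, ipn_add_right,
    ipn_self, ipn_self, ipn_comm (hh 0) (tm h)]
  ring

theorem st_z : S.O (q + 21) 10 (zf h - z0) := (H.hz h _ (by omega) (H.st_w s hq)).1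

theorem st_tr : ∑ a, gz lam (zf h) a = n * wb h := (H.hz h _ (by omega) (H.st_w s hq)).2

theorem st_pos (a : Fin n) : 0 < zf h - lam a := H.fd.z_pos H.sm (by omega) (H.st_z s hq) a

theorem st_dom : Dom lam z0 (gz lam (zf h)) := H.fd.dom_z H.sm (by omega) (H.st_z s hq)

theorem st_hc : S.V 5 2 (h + chi h) :=
  ((H.st_V s hq).add (s.cv.sm (q := 4) (k := 2) H.sm 1 (by omega) (by omega))).mono (by omega)
    (by omega)

theorem st_prof : Prof S lam z0 xt Fm (q + 6) 0 (M *ᵥ h + M *ᵥ chi h) := by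
  refine H.fd.small (p := q + 5) (j := 0) (((H.V_orth (H.st_hc s hq)).mono (by omega)
    (by omega)).congr (mulVec_add _ _ _).symm) fun l => ?_
  refine (((s.pr.f l).add ((H.fd.F_V l).ip (H.V_orth s.cv))).mono (by omega) (by omega)).congr ?_
  rw [ipn_add_right, mulVec_sub, ipn_sub_right, H.h0e, H.fd.h2, sub_zero]

end St

theorem st0 : St S M G o lam z0 xt g Fm (hh 0) 33 (hh 0) := by
  obtain ⟨a1, a2⟩ := H.sd.chi_step H.sm10 (h := 0) (D := hh 0) (fun τ t0 t1 => by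
    have := H.near t0 t1 (q := 0) (by omega) (SR.zero 0 4)
    rwa [add_comm] at this) H.sr0
  simp only [zero_add, chi_zero, sub_zero] at a1 a2
  refine ⟨Prof.zero.congr (by rw [sub_self, mulVec_zero]), by rw [sub_self]; exact SR.zero _ _,
    (H.X2 _ 30 6 (H.ex_c 0 (by omega)) (a1.mono (by omega) (by omega)) fun E i hE =>
      (a2 E i hE).mono (by omega) (by omega)), a1.mono (by omega) (by omega)⟩

/-- the first residual -/
theorem psi0 : Prof S lam z0 xt Fm 61 4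
    (psi lam z0 h0 (M *ᵥ hh 0) (M *ᵥ chi (hh 0)) (wb (hh 0)) (zf (hh 0))) := by
  have s := H.st0
  have a1 := Prof.smul (one_sub_wb H.sd.hn (H.st_V s (by omega))).neg H.fd.h0_prof
  have a2 := H.fd.gl_prof H.sm (q := 54) (by omega) ((H.st_w s (by omega)).mono (by omega) le_rfl)
    (H.st_z s (by omega)) s.gl
  have a3 := Prof.smul (H.st_z s (by omega)) (H.fd.res (H.st_dom s (by omega)) H.fd.h1)
  refine (((a1.add a2).add a3).mono (by omega) (by omega)).congr ?_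
  have hp := H.st_pos s (by omega)
  rw [H.h0e]
  funext a
  have := (hp a).ne'
  simp only [psi, kz, gz, Pi.mul_apply, Pi.add_apply, Pi.sub_apply, Pi.smul_apply, smul_eq_mul]
  field_simp
  ring

/-- from the residual to the increment -/
theorem incr {k q p : ℕ} {j : ℤ} (hk : k ≤ 3) (s : St S M G o lam z0 xt g Fm (hh 0) q (hh k))
    (hq : q ≤ 800) (hp : Prof S lam z0 xt Fm p j
      (psi lam z0 h0 (M *ᵥ hh k) (M *ᵥ chi (hh k)) (wb (hh k)) (zf (hh k)))) :
    Prof S lam z0 xt Fm (p + 11) j (M *ᵥ (hh (k + 1) - hh k)) :=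
  H.fd.solve hp (H.step k hk (H.st_pos s hq))

/-- the increment of `chi` -/
theorem inc_chi {k q p : ℕ} {j : ℤ} (hk : k + 1 ≤ 3) (s : St S M G o lam z0 xt g Fm (hh 0) q (hh k))
    (hq : q ≤ 800) (hp : p ≤ 800) (hj : 4 ≤ j)
    (hD : Prof S lam z0 xt Fm p j (M *ᵥ (hh (k + 1) - hh k))) :
    SR S G o (p + 3) j (hh (k + 1) - hh k) ∧
      S.V (p + 18) (j + 4) (chi (hh (k + 1)) - chi (hh k)) ∧
      Gl S g (p + 31) (j + 4) (M *ᵥ (chi (hh (k + 1)) - chi (hh k))) := by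
  have a1 := H.X1 _ p j (H.ex_sub _ _ (H.ex_h _ hk) (H.ex_h k (by omega))) hD
  obtain ⟨a2, a3⟩ := H.sd.chi_step H.sm10 (h := hh k) (D := hh (k + 1) - hh k) (fun τ t0 t1 => by
    have := H.near zero_le_one le_rfl (by omega) ((s.sr.add (a1.smul (c := τ)
      (by rw [abs_of_nonneg t0]; exact t1))).mono (q := 900) (k := 4) (by omega) (by omega))
    rwa [one_smul, ← add_assoc, add_sub_cancel] at this) a1
  simp only [add_sub_cancel] at a2 a3
  exact ⟨a1, a2.mono (by omega) le_rfl,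
    H.X2 _ (p + 28) (j + 4) (H.ex_sub _ _ (H.ex_c _ hk) (H.ex_c k (by omega)))
      (a2.mono (by omega) le_rfl) fun E i hE => (a3 E i hE).mono (by omega) (by omega)⟩

/-- the next state -/
theorem st_succ {k q p p' : ℕ} {j : ℤ} (m : ℕ) (hk : k + 1 ≤ 3)
    (s : St S M G o lam z0 xt g Fm (hh 0) q (hh k)) (hq : q ≤ 800) (hp : p ≤ 800) (hj : 4 + m ≤ j)
    (hp' : p + 3 ≤ p' + 1000 * m) (hD : Prof S lam z0 xt Fm p j (M *ᵥ (hh (k + 1) - hh k))) :
    St S M G o lam z0 xt g Fm (hh 0) (max q p' + 1) (hh (k + 1)) := by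
  obtain ⟨a1, a2, a3⟩ := H.inc_chi hk s hq hp (by omega) hD
  refine ⟨((s.pr.add (hD.sm (q := p') (k := 4) H.sm m (by omega) hj)).mono le_rfl
      (by omega)).congr ?_, ?_, ?_, ?_⟩
  · rw [← mulVec_add]
    congr 1
    abel
  · have := (s.sr.add (a1.sm (q := p') (k := 4) H.sm m hp' hj)).mono le_rfl (k := 4) (by omega)
    rwa [show hh k - hh 0 + (hh (k + 1) - hh k) = hh (k + 1) - hh 0 by abel] at this
  · have := (s.gl.add (a3.sm (q := 0) (k := 6) H.sm 1 (by omega) (by omega))).mono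
      (q := max q p' + 1) (k := 6) (by omega) (by omega)
    rwa [← mulVec_add, add_sub_cancel] at this
  · have := (s.cv.add (a2.sm (q := 0) (k := 6) H.sm 1 (by omega) (by omega))).mono
      (q := max q p' + 1) (k := 6) (by omega) (by omega)
    rwa [add_sub_cancel] at this

/-- the next residual -/
theorem psi_succ {k q p : ℕ} {j : ℤ} (hk : k + 1 ≤ 3)
    (s' : St S M G o lam z0 xt g Fm (hh 0) q (hh k))
    (s : St S M G o lam z0 xt g Fm (hh 0) q (hh (k + 1))) (hq : q ≤ 800) (hp : p ≤ 800)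
    (hj : 4 ≤ j) (hD : Prof S lam z0 xt Fm p j (M *ᵥ (hh (k + 1) - hh k))) :
    Prof S lam z0 xt Fm (p + q + 55) (j + 2) (psi lam z0 h0 (M *ᵥ hh (k + 1))
      (M *ᵥ chi (hh (k + 1))) (wb (hh (k + 1))) (zf (hh (k + 1)))) := by
  obtain ⟨-, a2, a3⟩ := H.inc_chi hk s' hq hp hj hD
  have est := H.step k (by omega) (H.st_pos s' hq)
  have hn := H.sd.hn
  have hDV := H.V_of_orth hD.l2
  set h := hh (k + 1) with hh1
  set h' := hh k with hh2
  have z1 := H.st_z s hq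
  have z2 := H.st_z s' hq
  have dm : S.V p j (tm h - tm h') := hDV.of_le (nn_tm_sub_le _ _)
  have sm : S.V 5 2 (tm h + tm h') := (tm_V (H.st_V s hq)).add (tm_V (H.st_V s' hq))
  have hA : S.O (p + 5) (j + 2) (ipn (tm h - tm h') (tm h + tm h')) := dm.ip sm
  have edw := wb_sub hn h h'
  have dw : S.O (p + 5) (j + 2) (wb h - wb h') := hA.neg.congr edw
  obtain ⟨T1, T2, T3⟩ := H.fd.T2b H.sm (q := q + 21) (by omega) z1 z2
  have edz := H.fd.dz_eq H.sm (q := q + 21) (by omega) z1 z2 (H.st_tr s hq) (H.st_tr s' hq)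
  have dz : S.O (p + 8) (j + 6) (zf h - zf h') :=
    ((dw.neg.mul T2).mono (by omega) (by omega)).congr edz
  have t1 := Prof.smul (H.st_w s hq) hD
  have t2 := Prof.smul dw (H.st_prof s' hq)
  have t3 := H.fd.gl_prof H.sm (q := q + 21) (by omega) ((H.st_w s hq).mono (by omega) le_rfl) z1 a3
  have t4 := Prof.smul dz (H.fd.res (H.st_dom s hq) (H.fd.dom_V (H.st_dom s' hq)
    (H.fd.gl_res s'.gl)))
  have t5 := Prof.smul dz (Prof.smul z1 (H.fd.res (H.st_dom s hq) (V.mul H.fd.gz0_O H.fd.h1)))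
  have t6 := Prof.smul dz (Prof.smul z2 (H.fd.res (H.st_dom s hq)
    (V.mul (H.fd.dom_O (H.st_dom s' hq)) H.fd.h1)))
  have wO : S.O 0 0 (wb h) := O.one_le (by rw [abs_of_pos (wb_pos hn h)]; exact wb_le hn h)
  have u1 : S.V (p + 20) (j + 4) (tm h - tm h' - (h - h')) := by
    refine ((((V.smul (one_sub_wb hn (H.st_V s hq)).neg hDV).add (V.smul wO a2)).add
      (V.smul dw (H.st_hc s' hq))).mono (by omega) (by omega)).congr ?_
    rw [tm_eq_chi hn h, tm_eq_chi hn h']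
    funext a
    simp only [Pi.add_apply, Pi.sub_apply, Pi.smul_apply, smul_eq_mul]
    ring
  have u2 : S.O (p + q + 23) (j + 4)
      (ipn (tm h - tm h') (tm h + tm h') - 2 * ipn (hh 0) (h - h')) := by
    refine (((dm.ip ((H.st_m s hq).add (H.st_m s' hq))).add (O.two.mul (u1.ip H.h0_V))).mono
      (by omega) (by omega)).congr ?_
    simp only [ipn_add_right, ipn_sub_right, ipn_sub_left, ipn_comm (hh 0) h, ipn_comm (hh 0) h']
    ring
  have u3 : S.O (p + q + 34) (j + 8)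
      (zf h - zf h' - 2 / nn (gz lam z0) ^ 2 * ipn h0 (M *ᵥ (h - h'))) := by
    refine (((hA.mul T3).add (u2.mul H.fd.T_O)).mono (by omega) (by omega)).congr ?_
    rw [edz, edw, ← H.h0e, ipn_orth H.orth]
    ring
  have t7 := Prof.smul u3 (H.fd.res H.fd.dom0 H.fd.h1)
  refine (((((((t1.add t2).add t3).add t4).sub t5).sub t6).add t7).mono (by omega)
    (by omega)).congr ?_
  have e1 : M *ᵥ h = M *ᵥ h' + M *ᵥ (h - h') := by rw [← mulVec_add, add_sub_cancel]
  have e2 : M *ᵥ chi h = M *ᵥ chi h' + M *ᵥ (chi h - chi h') := by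
    rw [← mulVec_add, add_sub_cancel]
  rw [e1, e2]
  generalize 2 / nn (gz lam z0) ^ 2 * ipn h0 (M *ᵥ (h - h')) = c at est ⊢
  funext a
  have ea := congrFun est a
  have p1 := (H.st_pos s hq a).ne'
  have p2 := (H.st_pos s' hq a).ne'
  have p3 := (H.fd.pos a).ne'
  simp only [psi, kz, gz, Pi.mul_apply, Pi.add_apply, Pi.sub_apply, Pi.smul_apply, smul_eq_mul,
    Pi.neg_apply] at ea ⊢
  have r1 : (zf h' - lam a)⁻¹ - (zf h - lam a)⁻¹ =
      (zf h - zf h') * ((zf h - lam a)⁻¹ * (zf h' - lam a)⁻¹) := by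
    field_simp
    ring
  have r2 : (z0 - lam a)⁻¹ - (zf h - lam a)⁻¹ =
      (zf h - z0) * ((zf h - lam a)⁻¹ * (z0 - lam a)⁻¹) := by
    field_simp
    ring
  have r3 : (zf h' - lam a)⁻¹ * (z0 - lam a) = 1 - (zf h' - z0) * (zf h' - lam a)⁻¹ := by
    field_simp
    ring
  linear_combination ea + ((M *ᵥ chi h') a + (z0 - lam a) * h0 a) * r1 +
    (zf h - zf h') * (zf h - lam a)⁻¹ * h0 a * r3 - (zf h - zf h') * h0 a * r2

/-- the output of the induction -/
theorem main : (∀ k ≤ 3, St S M G o lam z0 xt g Fm (hh 0) 80 (hh k)) ∧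
    Prof S lam z0 xt Fm 510 10 (M *ᵥ (hh 4 - hh 3)) := by
  have s0 := H.st0
  have d0 := H.incr (k := 0) (by omega) s0 (by omega) H.psi0
  have s0' := s0.mono (q' := 80) (by omega)
  have s1 := H.st_succ (p' := 75) 0 (by omega) s0 (by omega) (by omega) (by omega) (by omega) d0
  have s1' := s1.mono (q' := 80) (by omega)
  have d1 := H.incr (k := 1) (by omega) s1' (by omega)
    (H.psi_succ (by omega) s0' s1' (by omega) (by omega) (by omega) d0)
  have s2 := H.st_succ (p' := 0) 1 (by omega) s1 (by omega) (by omega) (by omega) (by omega) d1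
  have s2' := s2.mono (q' := 80) (by omega)
  have d2 := H.incr (k := 2) (by omega) s2' (by omega)
    (H.psi_succ (by omega) s1' s2' (by omega) (by omega) (by omega) d1)
  have s3 := H.st_succ (p' := 0) 1 (by omega) s2 (by omega) (by omega) (by omega) (by omega) d2
  have s3' := s3.mono (q' := 80) (by omega)
  have d3 := H.incr (k := 3) (by omega) s3' (by omega)
    (H.psi_succ (by omega) s2' s3' (by omega) (by omega) (by omega) d2)
  refine ⟨fun k hk => ?_, d3.mono (by omega) (by omega)⟩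
  interval_cases k
  exacts [s0', s1', s2', s3']

end Env

end Vale.Agent.N150.X3
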