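import Vale.Agent.N150.X3d
import Vale.Agent.N150.X3BS
import Vale.Agent.N150.T1Kit
import Vale.Agent.N150.T1Alg1

set_option linter.all false

/-! Base induction of block T1, part e: the instance on the definitions of block T1. -/

open Matrix Finset

namespace Vale.Agent.N150.X3

open Vale.Agent.P150 Vale.Agent.P150.F Vale.Agent.N150.EC Vale.Agent.N150.TG Vale.Agent.N150.Fib
  Vale.Agent.N150.X3P Vale.Agent.N150.Sp Sc

variable {n : ℕ}

/-! ### the explored directions in normalised form -/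

theorem nn_le_iff (hn : 0 < n) {v : Vec n} {c : ℝ} : nn v ≤ c ↔ nv v ≤ √n * c := by
  have h : (0 : ℝ) < √n := Real.sqrt_pos.2 (by exact_mod_cast hn)
  unfold nn
  rw [div_le_iff₀ h, mul_comm]

theorem nn_scale (hn : 0 < n) (a g : Vec n) :
    nn (√(n : ℝ) • a - g) = nv (a - (√(n : ℝ))⁻¹ • g) := by
  have h : (0 : ℝ) < √n := Real.sqrt_pos.2 (by exact_mod_cast hn)
  have e : √(n : ℝ) • a - g = √(n : ℝ) • (a - (√(n : ℝ))⁻¹ • g) := by
    rw [smul_sub, smul_smul, mul_inv_cancel₀ h.ne', one_smul]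
  unfold nn
  rw [e, nv_smul, abs_of_pos h, mul_div_cancel_left₀ _ h.ne']

theorem ip_scale (hn : 0 < n) (a v : Vec n) : ip a v = √n * ipn (√(n : ℝ) • a) v := by
  have h : (0 : ℝ) < n := by exact_mod_cast hn
  rw [ipn_smul_left, ← mul_assoc, Real.mul_self_sqrt h.le, ipn, mul_div_cancel₀ _ h.ne']

theorem ipn_act (O : OG n) (u v : Vec n) : ipn (O.1 *ᵥ u) (O.1 *ᵥ v) = ipn u v :=
  ipn_orth (OG.transpose_mul O) u v

theorem nn_act (O : OG n) (u : Vec n) : nn (O.1 *ᵥ u) = nn u := nn_orth (OG.transpose_mul O) u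

theorem va_eq (hn : 0 < n) (h v : Vec n) : T1.VW h h *ᵥ v = va h v := by
  have hn' : (n : ℝ) ≠ 0 := Nat.cast_ne_zero.2 hn.ne'
  rw [T1A.VW_eq, T1A.VW_mulVec, T1A.db_self, T1A.mu_self]
  unfold va ipn
  congr 1
  · funext i
    simp only [Pi.sub_apply, Pi.mul_apply, Pi.smul_apply, smul_eq_mul, mulVec_diagonal]
    ring
  · congr 1
    have e : (fun i => tm h i * dv h i) = tm h * dv h := rfl
    rw [e, div_mul_div_comm, mul_comm (wb h), div_mul_eq_mul_div]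

/-- the directions of the site queries on the frame side -/
noncomputable def Fm (x : Vec n) (b : ℕ → Bool) (v : ℕ → OG n → Vec n) (p : ℕ) (O : OG n)
    (j : Fin p) : Vec n := if b j then √(n : ℝ) • (O.1 *ᵥ eh (PB x) b v j O) else 0

section Gen

variable {S : Sc} {x xt lam : Vec n} {z0 ε : ℝ} {b : ℕ → Bool} {v : ℕ → OG n → Vec n}
  {O : OG n} {g : Fin 8 → Vec n}

theorem sqrt8 : √((8 : ℕ) : ℝ) ≤ 3 := Real.sqrt_le_iff.2 ⟨by norm_num, by norm_num⟩

theorem Fm_near (hn : 0 < n) (hε : ε ≤ S.B 1 6)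
    (hg : ∀ j : Fin 8, Close (PB x) b v ε j O (g j)) (l : Fin 8) :
    Fm x b v 8 O l = 0 ∨ S.V 1 6 (Fm x b v 8 O l - g l) := by
  unfold Fm
  by_cases hl : b l = true
  · rw [if_pos hl]
    rcases close_J hg hl with h | h
    · left
      rw [← ef_succ, h, mulVec_zero, smul_zero]
    · right
      exact ((nn_scale hn _ _).le.trans h).trans hε
  · exact Or.inl (if_neg hl)

theorem rem_le (hK : 8 ≤ S.K) (h0ε : 0 ≤ ε) (hε : ε ≤ S.B 1 6) {p : ℕ} {j : ℤ} {a : Vec n} (hn : 0 < n)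
    (ha : S.V p j a) : √(n : ℝ) * S.B p (j + 6) +
      √((8 : ℕ) : ℝ) * (√n * S.B p (j + 6) + ε * nv a) ≤ √n * S.B (p + 3) (j + 6) := by
  have h0 : (0 : ℝ) ≤ √n := Real.sqrt_nonneg _
  have h1 : nv a ≤ √n * S.B p j := (nn_le_iff hn).1 ha
  have h2 : ε * nv a ≤ S.B 1 6 * (√n * S.B p j) :=
    mul_le_mul hε h1 (nv_nonneg _) (B_pos _ _).le
  have h3 : S.B 1 6 * S.B p j = S.B (p + 1) (j + 6) := by rw [B_mul, add_comm 1, add_comm 6]
  have h4 : S.B p (j + 6) ≤ S.B (p + 1) (j + 6) := B_mono (by omega) le_rfl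
  have h5 : S.K * S.B (p + 1) (j + 6) ≤ S.B (p + 3) (j + 6) := by
    rw [K_mul_B]
    exact B_mono (by omega) le_rfl
  have h6 := B_pos (S := S) (p + 1) (j + 6)
  have h7 := B_pos (S := S) p (j + 6)
  have h8 : √n * S.B p (j + 6) + ε * nv a ≤ √n * (2 * S.B (p + 1) (j + 6)) := by nlinarith
  have h9 := mul_le_mul sqrt8 h8 ?_ (by norm_num)
  · have h10 : 7 * S.B (p + 1) (j + 6) ≤ S.B (p + 3) (j + 6) := by nlinarith
    nlinarith [mul_le_mul_of_nonneg_left h10 h0, mul_le_mul_of_nonneg_left h4 h0]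
  · exact add_nonneg (mul_nonneg h0 h7.le) (mul_nonneg h0ε (nv_nonneg _))

theorem coef_O (hn : 0 < n) {ι : Type} [Fintype ι] {al : ι → ℝ} {a : Vec n} {p : ℕ} {j : ℤ}
    (ha : S.V p j a) (h : n * ∑ i, al i ^ 2 ≤ F.sq a) (i : ι) : S.O p j (al i) := by
  have hn' : (0 : ℝ) < n := by exact_mod_cast hn
  have h1 : al i ^ 2 ≤ nn a ^ 2 := by
    rw [nn_sq, le_div_iff₀ hn', mul_comm]
    exact (mul_le_mul_of_nonneg_left (Finset.single_le_sum (f := fun i => al i ^ 2)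
      (fun i _ => sq_nonneg _) (Finset.mem_univ i)) hn'.le).trans h
  exact (abs_le.2 (abs_le_of_sq_le_sq' h1 (nn_nonneg a))).trans ha

theorem gen_X1 (hn : 0 < n) (hK : 8 ≤ S.K) (hx : F.sq x = n) (hO : O.1 *ᵥ x = xt) (h0ε : 0 ≤ ε)
    (hε : ε ≤ S.B 1 6) (hg : ∀ j : Fin 8, Close (PB x) b v ε j O (g j)) {a : Vec n} {p : ℕ}
    {j : ℤ} (ha : pr (PB x) b v 8 O *ᵥ a = 0)
    (hp : Prof S lam z0 xt (Fm x b v 8 O) p j (O.1 *ᵥ a)) :
    SR S (Fin.cons x g : Fin 9 → Vec n) 0 (p + 3) j a := by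
  have h0 : (0 : ℝ) ≤ √n := Real.sqrt_nonneg _
  have hV : S.V p j a := hp.l2.of_le (nn_act O a).ge
  obtain ⟨al, h1, h2, -, h3⟩ := X1_lc hx h0ε hg (r := √n * S.B p (j + 6))
    (mul_nonneg h0 (B_pos _ _).le) ha fun l hl => by
      have e := hp.f l
      unfold Fm at e
      rw [if_pos hl] at e
      rw [← ip_act O, ip_scale hn, abs_mul, abs_of_nonneg h0]
      exact mul_le_mul_of_nonneg_left e h0
  refine ⟨al, fun i => (coef_O hn hV h2 i).mono (by omega) le_rfl, ?_, (nn_le_iff hn).2 ?_⟩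
  · refine (hp.x.mono (by omega) le_rfl).congr ?_
    rw [h1, ← hO, ipn_act]
    rfl
  · have := rem_le hK h0ε hε hn hV
    have := mul_nonneg h0 (B_pos (S := S) p (j + 6)).le
    exact h3.trans (by linarith)

theorem gen_X2 (hn : 0 < n) (hK : 8 ≤ S.K) (hx : F.sq x = n) (h0ε : 0 ≤ ε)
    (hε : ε ≤ S.B 1 6) (hg : ∀ j : Fin 8, Close (PB x) b v ε j O (g j)) {a : Vec n} {p : ℕ}
    {j : ℤ} (ha : pr (PB x) b v 8 O *ᵥ a = 0) (hV : S.V p j a)
    (hE : ∀ E i, S.V 1 6 (E - (Fin.cons x g : Fin 9 → Vec n) i) → S.O p (j + 6) (ipn E a)) :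
    Gl S g (p + 3) j (O.1 *ᵥ a) := by
  have hn' : (0 : ℝ) < n := by exact_mod_cast hn
  have h0 : (0 : ℝ) < √n := Real.sqrt_pos.2 hn'
  obtain ⟨be, h1, -, h3⟩ := X2_lc hx h0ε hg (r := √n * S.B p (j + 6))
    (mul_nonneg h0.le (B_pos _ _).le) ha fun l hl => by
      rcases close_I h0ε hg (succ_mem_IF.2 hl) with h | h
      · rw [← ef_succ, h, ip_eq_dot, zero_dotProduct, abs_zero]
        exact mul_nonneg h0.le (B_pos _ _).le
      · rw [ip_scale hn, abs_mul, abs_of_nonneg h0.le]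
        exact mul_le_mul_of_nonneg_left (hE _ l.succ (((nn_scale hn _ _).le.trans h).trans hε))
          h0.le
  refine ⟨(√(n : ℝ))⁻¹ • be, fun i => (coef_O hn hV ?_ i).mono (by omega) le_rfl,
    (nn_le_iff hn).2 ?_⟩
  · refine le_trans (le_of_eq ?_) h1
    simp only [Pi.smul_apply, smul_eq_mul, mul_pow, inv_pow, Real.sq_sqrt hn'.le]
    rw [← Finset.mul_sum, mul_inv_cancel_left₀ hn'.ne']
  · have e := hE x 0 (by rw [Fin.cons_zero, sub_self]; exact V.zero)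
    have e2 : |ip x a| / √n ≤ √n * S.B p (j + 6) := by
      unfold Sc.O ipn at e
      rw [abs_div, abs_of_pos hn', div_le_iff₀ hn'] at e
      rw [div_le_iff₀ h0, mul_right_comm, Real.mul_self_sqrt hn'.le, mul_comm]
      exact e
    rw [lc_smul]
    exact h3.trans ((add_le_add e2 le_rfl).trans (rem_le hK h0ε hε hn hV))

/-- `VW(h, h)` is small at a flat point -/
theorem va_flat (hn : 0 < n) (hs : S.Sm 10) {th : ℝ} (hth : th ^ 2 ≤ S.B 1 4) {h : Vec n}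
    (hf : ∀ i, |h i| ≤ th) (hV : S.V 4 2 h) {p : ℕ} {j : ℤ} {D : Vec n} (hD : S.V p j D) :
    S.V (p + 11) (j + 4) (va h D) := by
  have a1 : ∀ i, S.O 9 4 (dv h i - wb h) := fun i => by
    have b1 : S.O 1 4 (Real.tanh (h i) ^ 2) := by
      refine O.of_nonneg (sq_nonneg _) (le_trans ?_ hth)
      rw [← sq_abs]
      exact pow_le_pow_left₀ (abs_nonneg _) ((abs_tanh_le _).trans (hf i)) 2
    refine (((one_sub_wb hn hV).sub b1).mono (by omega) (by omega)).congr ?_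
    unfold dv
    ring
  exact ((V.mul a1 hD).add (V.smul ((two_div_O (half_le_wb hn hs hV)).mul ((md_V hV).ip hD))
    (tm_V hV))).mono (by omega) (by omega)

theorem gen_b1 {th T a0 sg : ℝ} (H : SD S (Fin.cons x g : Fin 9 → Vec n) 0 th T a0 sg)
    (hs : S.Sm 10) (h0ε : 0 ≤ ε) (hε : ε ≤ S.B 1 6)
    (hg : ∀ j : Fin 8, Close (PB x) b v ε j O (g j)) {h : Vec n}
    (hh : Near S (Fin.cons x g : Fin 9 → Vec n) 0 th a0 sg h) {i j : Fin 9} (hi : i ∈ IF b 8)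
    (hj : j ∈ IF b 8) :
    |ip (ef x b v 8 O i) (T1.VW (cl th h) (cl th h) *ᵥ ef x b v 8 O j)| ≤
      S.B 21 10 + if i = 0 ∧ j = 0 then S.B 2 8 else 0 := by
  have hn := H.hn
  have hn' := H.npos
  have hpos : 0 ≤ S.B 21 10 + if i = 0 ∧ j = 0 then S.B 2 8 else 0 := by
    have := B_pos (S := S) 21 10
    have := B_pos (S := S) 2 8
    split_ifs <;> linarith
  rcases close_I h0ε hg hi with e | e
  · rwa [e, ip_eq_dot, zero_dotProduct, abs_zero]
  rcases close_I h0ε hg hj with e' | e'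
  · rwa [e', mulVec_zero, ip_eq_dot, dotProduct_zero, abs_zero]
  have hc := H.near_cl hh
  have f1 := fun {p : ℕ} {j : ℤ} {D : Vec n} (hD : S.V p j D) =>
    va_flat hn hs H.hth (abs_cl_le H.th0 h) (H.near_V hs hc) hD
  have d1 : S.V 1 6 _ := ((nn_scale hn _ _).le.trans e).trans hε
  have d2 : S.V 1 6 _ := ((nn_scale hn _ _).le.trans e').trans hε
  have d3 := (d1.ip (f1 ((H.hG j).add d2))).add ((H.hG i).ip (f1 d2))
  have d4 := H.va_col hs hc i j
  have d5 := B_add (S := S) 20 15 10 10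
  have d6 : S.O 15 10 _ := d3.mono (by omega) (by omega)
  generalize (Fin.cons x g : Fin 9 → Vec n) i = Gi at *
  generalize (Fin.cons x g : Fin 9 → Vec n) j = Gj at *
  have e1 : ip (ef x b v 8 O i) (T1.VW (cl th h) (cl th h) *ᵥ ef x b v 8 O j) =
      ipn Gi (va (cl th h) Gj) + (ipn (√(n : ℝ) • ef x b v 8 O i - Gi)
        (va (cl th h) (Gj + (√(n : ℝ) • ef x b v 8 O j - Gj))) +
        ipn Gi (va (cl th h) (√(n : ℝ) • ef x b v 8 O j - Gj))) := by
    rw [add_left_comm, ← ipn_add_right, ← va_add, ← ipn_add_left, sub_add_cancel, add_sub_cancel,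
      va_smul, ipn_smul_left, ipn_smul_right, ← mul_assoc, Real.mul_self_sqrt hn'.le, va_eq hn,
      ipn, mul_div_cancel₀ _ hn'.ne']
  rw [e1]
  refine (abs_add_le _ _).trans ?_
  unfold Sc.O at d6
  norm_num at d5
  linarith

end Gen

/-! ### the scale -/

variable {L t : ℝ}

/-- `K = t⁻¹ ^ 3`, small parameter `t ^ 36000` -/
noncomputable def sc (hs : T1.Sm L t) : Sc :=
  ⟨t⁻¹ ^ 3, t ^ 36000,
    (hs.c_inv (by norm_num)).trans (by simpa using hs.iw (a := 1) (b := 3) (by norm_num)),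
    hs.p0 _, hs.p1 _⟩

section Scale

variable (hs : T1.Sm L t)

theorem sc_K : (sc hs).K = t⁻¹ ^ 3 := rfl

theorem B_eq (p : ℕ) (j : ℤ) : (sc hs).B p j = t ^ (36000 * j - 3 * p : ℤ) := by
  show (t⁻¹ ^ 3) ^ p * (t ^ 36000) ^ j = _
  rw [← pow_mul, inv_pow, ← zpow_natCast, ← _root_.zpow_neg, ← zpow_natCast t 36000, ← _root_.zpow_mul,
    ← zpow_add₀ hs.pos.ne']
  congr 1
  push_cast
  ring

theorem B_le_pow {p c : ℕ} {j : ℤ} (h : (c : ℤ) ≤ 36000 * j - 3 * p) : (sc hs).B p j ≤ t ^ c := by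
  rw [B_eq, ← zpow_natCast]
  exact zpow_le_zpow_right_of_le_one₀ hs.pos hs.one h

theorem pow_le_B {p c : ℕ} {j : ℤ} (h : 36000 * j - 3 * p ≤ (c : ℤ)) : t ^ c ≤ (sc hs).B p j := by
  rw [B_eq, ← zpow_natCast]
  exact zpow_le_zpow_right_of_le_one₀ hs.pos hs.one h

theorem ipow_le_B {p c : ℕ} {j : ℤ} (h : 36000 * j - 3 * p ≤ -(c : ℤ)) :
    t⁻¹ ^ c ≤ (sc hs).B p j := by
  rw [B_eq, inv_pow, ← zpow_natCast, ← _root_.zpow_neg]
  exact zpow_le_zpow_right_of_le_one₀ hs.pos hs.one h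

theorem B_le_ipow {p c : ℕ} {j : ℤ} (h : -(c : ℤ) ≤ 36000 * j - 3 * p) :
    (sc hs).B p j ≤ t⁻¹ ^ c := by
  rw [B_eq, inv_pow, ← zpow_natCast, ← _root_.zpow_neg]
  exact zpow_le_zpow_right_of_le_one₀ hs.pos hs.one h

theorem c_le_K {C : ℝ} (hC : C ≤ 10 ^ 40) : C ≤ (sc hs).K :=
  (hs.c_inv hC).trans (by simpa [sc_K] using hs.iw (a := 1) (b := 3) (by norm_num))

theorem sc_sm : (sc hs).Sm 1000 := by
  have h := B_le_pow hs (p := 1000) (c := 0) (j := 1) (by norm_num)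
  unfold Sc.B at h
  rwa [zpow_one, pow_zero] at h

theorem nv_of_V (hn : 0 < n) {p c : ℕ} {j : ℤ} {v : Vec n} (hv : (sc hs).V p j v)
    (h : (c : ℤ) ≤ 36000 * j - 3 * p) : nv v ≤ √n * t ^ c :=
  (nn_le_iff hn).1 (hv.trans (B_le_pow hs h))

end Scale

/-- the Gaussian event of the base program -/
structure GE (hs : T1.Sm L t) (S : T1.Dat n) (x xt : Vec n) (g : Fin 8 → Vec n) : Prop where
  sd : SD (sc hs) (Fin.cons x g : Fin 9 → Vec n) 0 (t ^ 71999) t⁻¹ (2 * L * t ^ 144000)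
    (√(2 * L) * t ^ 72000)
  g0 : ∀ l, (sc hs).V 1 0 (g l)
  g1 : ∀ l, (sc hs).V 1 (-2) (gz S.lam S.z0 * g l)
  g2 : ∀ l, (sc hs).V 1 0 ((fun a => (√(S.z0 - S.lam a))⁻¹) * g l)
  g3 : ∀ i l, (sc hs).O 2 4 (ipn (g i) (kz S.lam S.w S.z0 * g l))
  g4 : ∀ l, (sc hs).O 2 0 (ipn xt (kz S.lam S.w S.z0 * g l))

theorem unit_AA {S : T1.Dat n} (hs : T1.Sm L t) (hA : T1.Adm L t S) (O : OG n) (D : Vec n) :
    O.1 *ᵥ (T1.AA (S.J O) (S.y O) *ᵥ D) = S.w • (O.1 *ᵥ D) +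
      (2 / nn (gz S.lam S.z0) ^ 2 * ipn (S.g * S.yt) (O.1 *ᵥ D)) • (gz S.lam S.z0 * (S.g * S.yt)) := by
  have e1 : O.1 *ᵥ T1.h0 (S.J O) (S.y O) = S.g * S.yt := hA.act_h0 hs O
  have e2 : nn (gz S.lam S.z0) ^ 2 = (∑ a, S.g a ^ 2) / n := nn_sq _
  have hn := hA.npos'
  have hT := hA.T20_pos hs
  unfold T1.AA
  rw [add_mulVec, smul_mulVec, one_mulVec, smul_mulVec, F.vecMulVec_mulVec, mulVec_add,
    mulVec_smul, mulVec_smul, mulVec_smul, hA.w0_eq hs, hA.T20_eq hs, hA.G00_eq hs, T1.act_JO, e2,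
    smul_smul, ← ip_act O, e1]
  congr 2
  unfold ipn
  field_simp

theorem det_AA {S : T1.Dat n} (hs : T1.Sm L t) (hA : T1.Adm L t S) (O : OG n) :
    IsUnit (T1.AA (S.J O) (S.y O)).det := by
  rw [isUnit_iff_ne_zero]
  intro h0
  obtain ⟨D, hD, e⟩ := Matrix.exists_mulVec_eq_zero_iff.2 h0
  have e1 := unit_AA hs hA O D
  rw [e, mulVec_zero] at e1
  have e2 := congrArg (ipn (S.g * S.yt)) e1
  rw [ipn_zero_right, ipn_add_right, ipn_smul_right, ipn_smul_right] at e2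
  have p1 : 0 ≤ ipn (S.g * S.yt) (gz S.lam S.z0 * (S.g * S.yt)) :=
    div_nonneg (Finset.sum_nonneg fun a _ => by
      have := mul_nonneg (hA.g_pos hs a).le (sq_nonneg ((S.g * S.yt) a))
      have e : gz S.lam S.z0 a = S.g a := rfl
      rw [Pi.mul_apply (gz S.lam S.z0), e]
      nlinarith) hA.npos'.le
  have p2 : 0 ≤ 2 / nn (gz S.lam S.z0) ^ 2 := by positivity
  have p3 := hA.w_pos hs
  have e3 : ipn (S.g * S.yt) (O.1 *ᵥ D) = 0 := by
    have : ipn (S.g * S.yt) (O.1 *ᵥ D) * (S.w + 2 / nn (gz S.lam S.z0) ^ 2 *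
        ipn (S.g * S.yt) (gz S.lam S.z0 * (S.g * S.yt))) = 0 := by linarith
    exact (mul_eq_zero.1 this).resolve_right (add_pos_of_pos_of_nonneg p3 (mul_nonneg p2 p1)).ne'
  rw [e3, mul_zero, zero_smul, add_zero] at e1
  have e4 : O.1 *ᵥ D = 0 := (smul_eq_zero.1 e1.symm).resolve_left p3.ne'
  exact hD (by rw [← OG.tr_mulVec_mulVec O D, e4, mulVec_zero])

theorem act_Psi {S : T1.Dat n} (hs : T1.Sm L t) (hA : T1.Adm L t S) (O : OG n) (h : Vec n) :
    O.1 *ᵥ T1.Psi (S.J O) (S.y O) h = psi S.lam S.z0 (S.g * S.yt) (O.1 *ᵥ h) (O.1 *ᵥ chi h)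
      (wb h) (T1.zh (S.J O) h) := by
  have hp := (T1A.zh_spec hA.npos (T1A.J_symm S O) h).1
  have e : G0 (S.J O) (T1.zh (S.J O) h) = _ := T1.G0_JO (T1A.zh_lt hA O h) O
  rw [T1A.Psi_eq', T1A.Psi_eq (T1A.unit_of_pd hp), e, mulVec_sub, T1.act_JO, mulVec_add, S.act_y,
    tm_eq_chi hA.npos h, mulVec_smul, mulVec_add]
  funext a
  have e1 := hA.g_mul hs a
  have e2 : T1A.chi h = chi h := rfl
  simp only [psi, kz, gz, e2, Pi.mul_apply, Pi.add_apply, Pi.sub_apply, Pi.smul_apply, smul_eq_mul]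
  rw [← mul_assoc (S.z0 - S.lam a), mul_comm (S.z0 - S.lam a), e1]
  ring

section Main

variable {S : T1.Dat n} {x xt : Vec n} {O : OG n} {π : Alt n} {g : Fin 8 → Vec n} {ε : ℝ}
  (hs : T1.Sm L t) (hA : T1.Adm L t S) (hX : T1.AdmX L t S xt) (hx : F.sq x = n)
  (hO : O.1 *ᵥ x = xt) (hc : π.chi = T1.chi) (hh : ∀ k, π.hs k O = S.h O k) (h0ε : 0 ≤ ε)
  (hε : ε ≤ t ^ 215997) (hg : ∀ j : Fin 8, Close (PB x) bA π.vq ε j O (g j)) (hE : GE hs S x xt g)

include hA in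
theorem h0_sq : nn (S.g * S.yt) ^ 2 ≤ L * t ^ 144000 := by
  rw [nn_sq, div_le_iff₀ hA.npos', mul_right_comm]
  exact hA.y2

include hs hA in
theorem act_hs0 : O.1 *ᵥ S.h O 0 = S.g * S.yt := hA.act_h0 hs O

include hA hX hh hε hg hE in
theorem fd : FD (sc hs) S.lam S.z0 S.w xt (S.g * S.yt) g (Fm x bA π.vq 8 O) := by
  have hn := hA.npos
  have hn' := hA.npos'
  have e2 : nn (gz S.lam S.z0) ^ 2 = (∑ a, S.g a ^ 2) / n := nn_sq _
  refine ⟨hn, c_le_K hs (by norm_num), hA.gap_pos hs, fun a => (hA.gap_le hs a).trans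
    (c_le_K hs (by norm_num)), fun a => (hA.g_le hs a).trans (ipow_le_B hs (by norm_num)),
    hA.w_half hs, hA.w_le, ?_, ?_, Fm_near hn (hε.trans (pow_le_B hs (by norm_num))) hg, hE.g0,
    hE.g1, hE.g2, hE.g3, hE.g4, ?_, ?_, ?_, fun l => ?_⟩
  · rw [e2]
    exact div_pos (hA.T20_pos hs) hn'
  · rw [e2, inv_div, div_le_iff₀ (hA.T20_pos hs)]
    exact hA.t2lo.trans (mul_le_mul_of_nonneg_right ((hs.Lp (b := 143999) (by norm_num)).trans
      (pow_le_B hs (by norm_num))) (hA.T20_pos hs).le)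
  · refine nn_le_of_sq (B_pos _ _).le ?_
    rw [hX.nrm, div_self hn'.ne', B_zero, one_pow]
  · refine nn_le_of_sq (B_pos _ _).le ?_
    rw [B_sq, div_le_iff₀ hn']
    have e3 : F.sq (gz S.lam S.z0 * xt) = ∑ a, (S.g a * xt a) ^ 2 := rfl
    have e4 := mul_le_mul_of_nonneg_left hX.x2 (hs.i0 432000).le
    have e5 := hs.ip_eq 432000 0
    rw [add_zero, pow_zero] at e5
    rw [← mul_assoc, e5, one_mul, ← mul_assoc, mul_comm _ L] at e4
    have e6 : L * t⁻¹ ^ 432000 ≤ t⁻¹ ^ 432001 :=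
      hs.abi (by simpa using hs.cL (C := 1) (a := 1) (by norm_num) (by norm_num)) (by norm_num)
    exact e3 ▸ e4.trans (mul_le_mul_of_nonneg_right (e6.trans (ipow_le_B hs (by norm_num))) hn'.le)
  · refine nn_le_of_sq (B_pos _ _).le ?_
    rw [B_sq, ← nn_sq]
    exact (h0_sq hA).trans ((hs.Lp (b := 143999) (by norm_num)).trans (pow_le_B hs (by norm_num)))
  · unfold Fm
    by_cases hl : bA l = true
    · have l0 : 2 * 0 < (l : ℕ) := by
        rcases Nat.eq_zero_or_pos l with h | h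
        · rw [h] at hl
          exact absurd hl (by decide)
        · exact h
      rw [if_pos hl, ← act_hs0 (O := O) hs hA, ipn_smul_left, ipn_act, ← hh, ipn,
        π.ip_eh_hs (isProj_base x) l0, zero_div, mul_zero]
    · rw [if_neg hl, ipn_zero_left]

include hA hX hx hO hc hh h0ε hε hg hE in
theorem env : Env (sc hs) O.1 (Fin.cons x g : Fin 9 → Vec n) 0 (t ^ 71999) t⁻¹
    (2 * L * t ^ 144000) (√(2 * L) * t ^ 72000) S.lam S.z0 S.w xt (S.g * S.yt) g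
    (Fm x bA π.vq 8 O) (fun a => pr (PB x) bA π.vq 8 O *ᵥ a = 0) (T1.zh (S.J O)) (S.h O) := by
  have hn := hA.npos
  have hn' := hA.npos'
  have hε' : ε ≤ (sc hs).B 1 6 := hε.trans (pow_le_B hs (by norm_num))
  have hK : 8 ≤ (sc hs).K := c_le_K hs (by norm_num)
  have hF := fd hs hA hX hh hε hg hE
  have e0 := act_hs0 (O := O) hs hA
  have ex : ∀ k ≤ 3, pr (PB x) bA π.vq 8 O *ᵥ S.h O k = 0 := fun k hk => by
    rw [← hh]
    exact π.pr_hs (isProj_base x) (by omega)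
  have L2 := hs.hL
  have p1 := hs.p0 144000
  have p2 := hs.p0 72000
  have K1 := K1 (S := sc hs)
  refine ⟨hE.sd, hF, sc_sm hs, OG.transpose_mul O, fun a b ha hb => ?_, ex, fun k hk => ?_,
    fun a p j ha hp => gen_X1 hn hK hx hO h0ε hε' hg ha hp,
    fun a p j ha hV h => gen_X2 hn hK hx h0ε hε' hg ha hV h, e0, ?_, ?_, ?_, ?_, ?_,
    fun h p hp hw => ?_, fun k _ _ => ?_⟩
  · rw [mulVec_sub, ha, hb, sub_self]
  · have := π.pr_chi (O := O) (P₀ := PB x) (isProj_base x) (k := k) (p := 8) (by omega)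
    rwa [hh, hc] at this
  · obtain ⟨al, h1, h2, -, h3⟩ := X1_lc hx h0ε hg (r := 0) le_rfl (ex 0 (by omega)) fun l hl => by
      have l0 : 2 * 0 < (l : ℕ) := by
        rcases Nat.eq_zero_or_pos l with h | h
        · rw [h] at hl
          exact absurd hl (by decide)
        · exact h
      rw [← hh, π.ip_eh_hs (isProj_base x) l0, abs_zero]
    have hV : (sc hs).V 1 2 (S.h O 0) := (hF.h1.congr e0).of_le (nn_act O _).ge
    refine ⟨al, ?_, ?_, (nn_le_iff hn).2 (h3.trans ?_)⟩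
    · rw [h1, ← ip_act O, hO, e0, abs_div, abs_of_pos hn', div_le_iff₀ hn']
      exact hX.xy.trans (le_of_eq (by ring))
    · have e1 : F.sq (S.h O 0) ≤ L * n * t ^ 144000 := hA.sq_h0 hs O
      have e2 : (√(2 * L) * t ^ 72000) ^ 2 / 2 = L * t ^ 144000 := by
        rw [mul_pow, Real.sq_sqrt (by linarith), ← pow_mul]
        ring
      rw [e2]
      exact le_of_mul_le_mul_left ((h2.trans e1).trans (le_of_eq (by ring))) hn'
    · have b1 := mul_le_mul hε' ((nn_le_iff hn).1 hV) (nv_nonneg _) (B_pos _ _).le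
      have b2 := mul_le_mul (sqrt8.trans (c_le_K hs (by norm_num))) b1
        (mul_nonneg h0ε (nv_nonneg _)) (by linarith)
      rw [mul_left_comm ((sc hs).B 1 6), B_mul, mul_left_comm (sc hs).K, K_mul_B] at b2
      rw [zero_add]
      exact b2.trans (mul_le_mul_of_nonneg_left (B_mono (by omega) (by omega)) (Real.sqrt_nonneg _))
  · refine le_trans ?_ (pow_le_B hs (c := 143999) (by norm_num))
    simpa using hs.cLp (C := 2) (k := 1) (a := 144000) (by norm_num) (by norm_num) (by norm_num)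
  · refine (B_le_pow hs (c := 144000) (by norm_num)).trans ?_
    have : 1 ≤ (sc hs).K * (2 * L) := one_le_mul_of_one_le_of_one_le K1 (by linarith)
    rw [← mul_assoc]
    exact le_mul_of_one_le_left p1.le this
  · refine (B_le_pow hs (c := 72000) (by norm_num)).trans ?_
    have : 1 ≤ (sc hs).K * √(2 * L) :=
      one_le_mul_of_one_le_of_one_le K1 (Real.one_le_sqrt.2 (by linarith))
    rw [← mul_assoc]
    exact le_mul_of_one_le_left p2.le this
  · rw [hA.w_eq, nn_sq]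
    rfl
  · obtain ⟨z, z1, z2⟩ := hF.exists_z (sc_sm hs) (q := p) (by omega)
      (by unfold T1.Dat.w; rw [mul_div_cancel₀ _ hn'.ne']; rfl) hw
    have z3 : T1.zh (S.J O) h = z :=
      T1.zr_eq hn (fun a => sub_pos.1 (hF.z_pos (sc_sm hs) (by omega) z1 a))
        (by rw [T1A.sum_dv hn]; exact z2) O
    rw [z3]
    exact ⟨z1, z2⟩
  · rw [← unit_AA hs hA, ← act_Psi hs hA, S.h_succ, T1.Pic, sub_sub_cancel_left, mulVec_neg,
      mulVec_mulVec, mul_nonsing_inv _ (det_AA hs hA O), one_mulVec, mulVec_neg]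

include hA hX hx hO hc hh h0ε hε hg hE in
/-- the deterministic part of the base program -/
theorem det_main : T1.Base t S O ∧ F.sq (S.hc t O) ≤ n * t ^ 143999 ∧
    ∀ i ∈ IF bA 8, ∀ j ∈ IF bA 8,
      |ip (ef x bA π.vq 8 O i) (T1.VW (S.hc t O) (S.hc t O) *ᵥ ef x bA π.vq 8 O j)| ≤
        t ^ 359000 + if i = 0 ∧ j = 0 then t ^ 287900 else 0 := by
  have hn := hA.npos
  have H := env hs hA hX hx hO hc hh h0ε hε hg hE
  obtain ⟨s, d⟩ := H.main
  have s3 := s 3 le_rfl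
  have n3 := H.st_near s3 (by omega)
  have a3 : nv (S.h O 3 - S.h O 0) ≤ √n * t ^ 143001 :=
    nv_of_V hs hn (H.st_d s3 (by omega)) (by norm_num)
  refine ⟨⟨fun j hj => ⟨nv_of_V hs hn (H.st_d (s j (by omega)) (by omega)) (by norm_num), ?_⟩, a3,
    nv_of_V hs hn (H.sd.near_sub_cl n3) (by norm_num), ?_⟩, ?_, fun i hi j hj => ?_⟩
  · rw [← nv_neg, neg_sub]
    exact nv_of_V hs hn (H.st_cub (s j (by omega)) (by omega)) (by norm_num)
  · rw [← T1.nv_act O, T1.Dat.Nsq, T1.act_JO]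
    exact nv_of_V hs hn d.nN (by norm_num)
  · have b1 : nv (S.hc t O) ≤ nv (S.h O 3) := T1.nv_clip_le (hs.p0 _).le _
    have b2 := nv_add_le (S.h O 0) (S.h O 3 - S.h O 0)
    rw [add_sub_cancel] at b2
    have b3 : F.sq (S.h O 0) ≤ L * n * t ^ 144000 := hA.sq_h0 hs O
    have b4 := T1.sq_le_of_nv a3
    have b5 : 4 * L ^ 1 * t ^ 144000 ≤ t ^ 143999 := hs.cLp (by norm_num) (by norm_num) (by norm_num)
    have b6 : 4 * t ^ 286002 ≤ t ^ 143999 := hs.cp (by norm_num) (by norm_num)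
    rw [← pow_mul] at b4
    rw [← nv_sq] at b3 b4 ⊢
    have b7 := pow_le_pow_left₀ (nv_nonneg _) (b1.trans b2) 2
    have b8 := mul_le_mul_of_nonneg_left b5 hA.npos'.le
    have b9 := mul_le_mul_of_nonneg_left b6 hA.npos'.le
    generalize t ^ 144000 = u at *
    generalize t ^ 143999 = u' at *
    norm_num at b4
    generalize t ^ 286002 = u'' at *
    nlinarith [sq_nonneg (nv (S.h O 0) - nv (S.h O 3 - S.h O 0))]
  · refine (gen_b1 H.sd H.sm10 h0ε (hε.trans (pow_le_B hs (by norm_num))) hg n3 hi hj).trans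
      (add_le_add (B_le_pow hs (by norm_num)) ?_)
    split_ifs
    · exact B_le_pow hs (by norm_num)
    · exact le_rfl

end Main

end Vale.Agent.N150.X3
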