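import Vale.Agent.N150.X4B

/-! The net step of T1: base state and fibre compressions give the block structure. -/

open MeasureTheory Matrix Module

namespace Vale.Agent.N150.X4

open Vale.Agent.P150 Vale.Agent.P150.F Vale.Agent.N150.Rip Vale.Agent.N150.Fib

variable {n : ℕ}

theorem opLe_diag {u : Vec n} {c : ℝ} (hc : 0 ≤ c) (h : ∀ a, |u a| ≤ c) :
    OpLe (diagonal u) c := opLe_of_nv fun v => nv_le_mul hc fun a => by
  rw [mulVec_diagonal, abs_mul]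
  exact mul_le_mul_of_nonneg_right (h a) (abs_nonneg _)

theorem hsq_diag (u : Vec n) : hsq (diagonal u) = ∑ a, u a ^ 2 := by
  unfold hsq
  refine Finset.sum_congr rfl fun a _ => ?_
  rw [Finset.sum_eq_single a (fun b _ hb => by rw [diagonal_apply_ne _ hb.symm]; simp) (by simp),
    diagonal_apply_eq]

theorem sum_compl_ind (T : Finset (Fin n)) (f : Fin n → ℝ) :
    ∑ a, (1 - ind T a) * f a = ∑ a ∈ Tᶜ, f a := by
  rw [← Finset.sum_add_sum_compl T, Finset.sum_eq_zero fun a ha => by simp [ind, ha], zero_add]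
  exact Finset.sum_congr rfl fun a ha => by simp [ind, Finset.mem_compl.1 ha]

theorem ind_sq (T : Finset (Fin n)) (a : Fin n) : (1 - ind T a) * (1 - ind T a) = 1 - ind T a := by
  unfold ind
  split_ifs <;> simp

theorem res_fix {T : Finset (Fin n)} {a : Vec n} (ha : a ∈ supp T) : res T *ᵥ a = a := by
  funext i
  rw [res_mulVec]
  split_ifs with h
  · rfl
  · exact (ha i h).symm

theorem VH.opLe {V : Mat n} {v : ℝ} (h : VH V v) : OpLe V (2 * v) := by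
  obtain ⟨hv, S, r, r', rfl, hS, -, hq, hr⟩ := h
  have h1 : OpLe S v := opLe_of_bil hv.le fun u u' =>
    abs_ip_le_of_qf (W := ⊤) hS (fun w _ => hq w) u trivial u' trivial
  have h2 := (opLe_vecMulVec r r').monoN (mul_nonneg (nv_nonneg _) (nv_nonneg _)) hr
  rw [two_mul]
  exact h1.add h2 hv.le hv.le

theorem ip_cj (O : OG n) (V : Mat n) (a b : Vec n) :
    ip a (cj O V *ᵥ b) = ip (O.1ᵀ *ᵥ a) (V *ᵥ (O.1ᵀ *ᵥ b)) := by
  unfold cj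
  rw [← mulVec_mulVec, ← mulVec_mulVec, ip_tr]

section Main

variable {T₁ T₂ : Finset (Fin n)} {hh yv : Vec n} {h₁ h₂ : ℝ} {c : Cst} {q : Par} {O₀ O : OG n}
  {P V E F : Mat n} {e₀ : Vec n}

theorem BS0.kh (f : Frm T₁ T₂ hh yv h₁ h₂ c) (b : BS0 T₁ T₂ hh yv c q O₀ P V E F e₀) :
    KH (O₀.1 * F) (GhM T₂ hh) (KM T₂ hh yv) c := by
  refine ⟨diagonal_transpose _, f.Γpos, f.y0, f.gF0, f.kF0, f.κF0, f.D0, f.kKpos, f.τ0, ?_,
    fun a b => ?_, fun w => ?_, fun w => ?_, fun a a' => ?_, ?_, ?_, ?_⟩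
  · refine opLe_diag f.Γpos.le fun a => ?_
    by_cases ha : a ∈ T₂
    · simp [ind, ha, f.Γpos.le]
    · simpa [ind, ha] using f.b3 a ha
  · have e : ip a (KM T₂ hh yv *ᵥ b) = ip (GhM T₂ hh *ᵥ a) (diagonal yv *ᵥ (GhM T₂ hh *ᵥ b)) := by
      unfold ip KM GhM
      refine Finset.sum_congr rfl fun i _ => ?_
      simp only [mulVec_diagonal]
      have := ind_sq T₂ i
      linear_combination (-(a i * hh i ^ 2 * yv i * b i)) * this
    rw [e]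
    refine (abs_ip_le _ _).trans ?_
    have := mul_le_mul_of_nonneg_left ((opLe_diag f.y0 f.bY).nv_le f.y0 (GhM T₂ hh *ᵥ b))
      (nv_nonneg (GhM T₂ hh *ᵥ a))
    linarith
  · rw [mulVec_mulVec]
    exact b.gF.nv_le f.gF0 w
  · rw [mulVec_mulVec]
    exact b.kF.nv_le f.kF0 w
  · have e : ip ((O₀.1 * F) *ᵥ a) (KM T₂ hh yv *ᵥ (O₀.1 * F) *ᵥ a') =
        ip a (((O₀.1 * F)ᵀ * KM T₂ hh yv * (O₀.1 * F)) *ᵥ a') := by
      rw [Matrix.mul_assoc, ← mulVec_mulVec a' (O₀.1 * F)ᵀ, ip_tr (O₀.1 * F)ᵀ, transpose_transpose,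
        ← mulVec_mulVec a' (KM T₂ hh yv)]
    rw [e]
    refine (abs_ip_le _ _).trans ?_
    have := mul_le_mul_of_nonneg_left (b.κF.nv_le f.κF0 a') (nv_nonneg a)
    linarith
  · unfold GhM
    rw [hsq_diag]
    refine le_trans (le_of_eq ?_) f.hsG
    rw [← sum_compl_ind]
    refine Finset.sum_congr rfl fun a _ => ?_
    have := ind_sq T₂ a
    linear_combination (hh a ^ 2) * this
  · unfold KM
    rw [hsq_diag]
    refine le_trans (le_of_eq ?_) f.hsK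
    rw [← sum_compl_ind]
    refine Finset.sum_congr rfl fun a _ => ?_
    have := ind_sq T₂ a
    linear_combination ((hh a ^ 2 * yv a) ^ 2) * this
  · unfold KM
    rw [trace_diagonal]
    refine le_trans (le_of_eq ?_) f.trK
    rw [← sum_compl_ind]
    congr 1
    exact Finset.sum_congr rfl fun a _ => by ring

theorem nv_F_le {T : Finset (Fin n)} {φ : ℝ} (h0 : 0 ≤ φ) (h : OpLe (res T * (O₀.1 * F)) φ)
    {a : Vec n} (ha : a ∈ supp T) : nv ((O₀.1 * F)ᵀ *ᵥ a) ≤ φ * nv a := by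
  have h1 := (opLe_tr h0 h).nv_le h0 a
  rwa [transpose_mul, res_tr, ← mulVec_mulVec, res_fix ha] at h1

theorem BS0.c1 (b : BS0 T₁ T₂ hh yv c q O₀ P V E F e₀) (hP : IsProj P) (hq : 0 ≤ q.q2)
    {T : Finset (Fin n)} {φ φ₀ x : ℝ} (h0 : 0 ≤ φ) (hφ : OpLe (res T * (O₀.1 * F)) φ)
    (hφ₀ : ∀ a ∈ supp T, |ip e₀ (O₀.1ᵀ *ᵥ a)| ≤ φ₀ * nv a)
    (h : C1 O₀ P V q.v x (supp T) (supp T) O) :
    ∀ u ∈ low T O, ∀ u' ∈ low T O, |ip u (V *ᵥ u')| ≤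
      (2400 * q.v * ep n x + q.e1 + q.q2 * φ₀ ^ 2 + 4 * q.v * φ) * (nv u * nv u') := by
  rintro _ ⟨a, ha, rfl⟩ _ ⟨a', ha', rfl⟩
  have hv := b.vh.1
  have hV := b.vh.opLe
  have h1 := h a ha a' ha'
  rw [Matrix.sub_mulVec, ip_sub_right, ip_cj, ip_cj] at h1
  rw [nv_orth_tr, nv_orth_tr]
  set u := O₀.1ᵀ *ᵥ a with hu
  set u' := O₀.1ᵀ *ᵥ a' with hu'
  have nu : nv u = nv a := nv_orth_tr _ _
  have nu' : nv u' = nv a' := nv_orth_tr _ _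
  have e : ip u (((1 - P) * V * (1 - P)) *ᵥ u') = ip u ((E * V * E) *ᵥ u') +
      ip (F *ᵥ u) (V *ᵥ ((1 - P) *ᵥ u')) + ip (E *ᵥ u) (V *ᵥ (F *ᵥ u')) := by
    have e1 : (1 - P) * V * (1 - P) = E * V * E + F * (V * (1 - P)) + E * (V * F) := by
      rw [← b.sum]
      simp only [Matrix.add_mul, Matrix.mul_add, Matrix.mul_assoc]
      abel
    rw [e1, Matrix.add_mulVec, Matrix.add_mulVec, ip_add_right, ip_add_right,
      ← mulVec_mulVec u' F, ← mulVec_mulVec u' E (V * F), ip_tr F, ip_tr E, b.hF.symm, b.hE.symm,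
      ← mulVec_mulVec u' V, ← mulVec_mulVec u' V]
  have fu : nv (F *ᵥ u) ≤ φ * nv a := by
    have := nv_F_le h0 hφ ha
    rwa [transpose_mul, b.hF.symm, ← mulVec_mulVec] at this
  have fu' : nv (F *ᵥ u') ≤ φ * nv a' := by
    have := nv_F_le h0 hφ ha'
    rwa [transpose_mul, b.hF.symm, ← mulVec_mulVec] at this
  have na := nv_nonneg a
  have na' := nv_nonneg a'
  have pr : ∀ {R : Mat n}, IsProj R → ∀ w, nv (R *ᵥ w) ≤ nv w := fun hR w =>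
    nv_le_of_sq_le (nv_nonneg _) (by rw [nv_sq]; exact hR.sq_le w)
  have k1 := b.b1 u u'
  rw [nu, nu'] at k1
  have k1' : |ip e₀ u| * |ip e₀ u'| ≤ φ₀ * nv a * (φ₀ * nv a') :=
    mul_le_mul (hφ₀ a ha) (hφ₀ a' ha') (abs_nonneg _) ((abs_nonneg _).trans (hφ₀ a ha))
  have k1'' := mul_le_mul_of_nonneg_left k1' hq
  have k2 : |ip (F *ᵥ u) (V *ᵥ ((1 - P) *ᵥ u'))| ≤ φ * nv a * (2 * q.v * nv a') := by
    refine (abs_ip_le _ _).trans (mul_le_mul fu ?_ (nv_nonneg _) (by positivity))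
    refine (hV.nv_le (by positivity) _).trans (mul_le_mul_of_nonneg_left ?_ (by positivity))
    exact (pr hP.compl u').trans nu'.le
  have k3 : |ip (E *ᵥ u) (V *ᵥ (F *ᵥ u'))| ≤ nv a * (2 * q.v * (φ * nv a')) := by
    refine (abs_ip_le _ _).trans (mul_le_mul ((pr b.hE u).trans nu.le) ?_ (nv_nonneg _) na)
    exact (hV.nv_le (by positivity) _).trans (mul_le_mul_of_nonneg_left fu' (by positivity))
  rw [e] at h1
  have t1 := abs_le.1 h1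
  have t2 := abs_le.1 k1
  have t3 := abs_le.1 k2
  have t4 := abs_le.1 k3
  rw [abs_le]
  constructor <;> nlinarith

theorem GG_eq (T : Finset (Fin n)) (hh : Vec n) (O : OG n) (w : Vec n) :
    qf (dg hh O * (1 - dg (ind T) O) * dg hh O) w = P150.F.sq ((GhM T hh * O.1) *ᵥ w) := by
  rw [← sq_compl (isProj_dg T O) (dg_tr hh O), one_sub_dg, dg_mul, dg_mulVec, sq_orth_tr,
    ← mulVec_mulVec]
  congr 1
  funext a
  unfold GhM
  rw [mulVec_diagonal]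

theorem ZZ_eq (T : Finset (Fin n)) (hh yv : Vec n) (O : OG n) :
    dg hh O * ((1 - dg (ind T) O) * dg yv O) * dg hh O = O.1ᵀ * KM T hh yv * O.1 := by
  rw [one_sub_dg, dg_mul, dg_mul, dg_mul]
  rfl

theorem cj_mulVec (O : OG n) (V : Mat n) (a : Vec n) :
    cj O V *ᵥ a = O.1 *ᵥ (V *ᵥ (O.1ᵀ *ᵥ a)) := by
  unfold cj
  rw [← mulVec_mulVec, ← mulVec_mulVec]

theorem sq_le_of {a b : Vec n} {t : ℝ} (h : nv a ≤ t * nv b) : P150.F.sq a ≤ t ^ 2 * P150.F.sq b := by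
  have := sq_le_of_nv_le h
  rwa [mul_pow, nv_sq] at this

/-- numerical conditions of the net step -/
structure Num (n : ℕ) (h₁ h₂ : ℝ) (c : Cst) (q : Par) (x₁ x₂ δ η B : ℝ) : Prop where
  x11 : 1 ≤ x₁
  px1 : q.p ≤ x₁
  x1n : x₁ ≤ n
  x21 : 1 ≤ x₂
  px2 : q.p ≤ x₂
  x2n : x₂ ≤ n
  pn : 2 * (q.p + 2) ≤ n
  e1 : 0 ≤ q.e1
  q2 : 0 ≤ q.q2
  f1 : 0 ≤ q.f1
  f2 : 0 ≤ q.f2
  δ0 : 0 ≤ q.δ0
  k1 : 1 ≤ q.k
  kn : q.k ≤ n
  d1 : (q.e1 + q.q2) / q.v + q.f2 + 700 * ep n x₂ ≤ δ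
  d2 : q.δ0 + 700 * ep n x₂ ≤ δ
  E1 : (2400 * q.v * ep n x₁ + q.e1 + q.q2 * q.f0 ^ 2 + 4 * q.v * q.f1) * h₁ ^ 2 +
    (2400 * q.v * ep n x₂ + q.e1 + q.q2 + 4 * q.v * q.f2) * (2 * h₁ * h₂ + h₂ ^ 2) ≤ η
  E3 : 4 * q.v * c.B (ep n x₂) δ * h₁ ≤ B
  E4 : 16 * q.v ^ 2 * c.η (ep n x₂) δ * h₁ ^ 2 ≤ η
  E5 : 2 * c.B (ep n x₂) δ ≤ B
  E6 : 4 * c.η (ep n x₂) δ ≤ η
  E7 : 8 * q.v * c.η (ep n x₂) δ * h₁ ≤ η

variable {x₁ x₂ δ η B : ℝ}

theorem ep_nonneg (n : ℕ) (x : ℝ) : 0 ≤ ep n x := Real.sqrt_nonneg _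

theorem Num.δ_nonneg (m : Num n h₁ h₂ c q x₁ x₂ δ η B) : 0 ≤ δ := by
  linarith [m.d2, m.δ0, ep_nonneg n x₂]

theorem Frm.B_nonneg (f : Frm T₁ T₂ hh yv h₁ h₂ c) {e d : ℝ} (he : 0 ≤ e) (hd : 0 ≤ d) :
    0 ≤ c.B e d := by
  have := f.Γpos
  have := f.gF0
  have := f.D0
  unfold Cst.B
  positivity

theorem Frm.η_nonneg (f : Frm T₁ T₂ hh yv h₁ h₂ c) {e d : ℝ} (he : 0 ≤ e) (hd : 0 ≤ d) :
    0 ≤ c.η e d := by
  have := f.B_nonneg he hd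
  have := f.Γpos
  have := f.y0
  have := f.kF0
  have := f.κF0
  have := f.kKpos
  have := f.τ0
  unfold Cst.η
  positivity

/-- the deterministic part -/
theorem BS0.strX (b : BS0 T₁ T₂ hh yv c q O₀ P V E F e₀) (hP : IsProj P)
    (f : Frm T₁ T₂ hh yv h₁ h₂ c) (m : Num n h₁ h₂ c q x₁ x₂ δ η B)
    (k1 : C1 O₀ P V q.v x₁ (supp T₁) (supp T₁) O) (k2 : C1 O₀ P V q.v x₂ (supp T₂) (supp T₂) O)
    (k3 : C2 V (GhM T₂ hh) (KM T₂ hh yv) q.v (c.B (ep n x₂) δ) (c.η (ep n x₂) δ) (supp T₂) O)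
    (k4 : ∀ A : Finset (Fin n), A.card ≤ q.k → C3 V (GhM T₂ hh) (KM T₂ hh yv) q.v
      (c.B (ep n x₂) δ) (c.η (ep n x₂) δ) (supp T₂) (supp A) O) :
    StrX (dg (ind T₂) O) (dg hh O) (dg yv O) V q.k η B η B η η := by
  have l := low_dg f.sub f.h1 f.h2 f.b1 f.b2 O
  have hv := b.vh.1
  have hB := f.B_nonneg (ep_nonneg n x₂) m.δ_nonneg
  have hη := f.η_nonneg (ep_nonneg n x₂) m.δ_nonneg
  have h1 := f.h1
  have h2 := f.h2
  have he1 := m.e1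
  have hq2 := m.q2
  have hf1 := m.f1
  have hf2 := m.f2
  have hp1 := ep_nonneg n x₁
  have hp2 := ep_nonneg n x₂
  set Bc := c.B (ep n x₂) δ
  set ηc := c.η (ep n x₂) δ
  have c1 := b.c1 hP hq2 hf1 b.f1 (φ₀ := q.f0) (fun a ha => by
    rw [ip_tr, transpose_transpose, ← res_fix ha, ip_tr, res_tr, res_fix ha]
    exact (abs_ip_le _ _).trans (mul_le_mul_of_nonneg_right b.f0 (nv_nonneg a))) k1
  have c2 := b.c1 hP hq2 hf2 b.f2 (φ₀ := 1) (fun a _ => by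
    refine (abs_ip_le _ _).trans ?_
    rw [nv_orth_tr]
    exact mul_le_mul_of_nonneg_right b.e0 (nv_nonneg a)) k2
  rw [one_pow, mul_one] at c2
  have g1 : ∀ u ∈ low T₂ O, qf (dg hh O * (1 - dg (ind T₂) O) * dg hh O) (Vᵀ *ᵥ u) ≤
      (4 * q.v * Bc) ^ 2 * P150.F.sq u := by
    rintro _ ⟨a, ha, rfl⟩
    have := sq_le_of (k3.2.1 a ha)
    rwa [← mulVec_mulVec, cj_mulVec, mulVec_mulVec, ← GG_eq, ← sq_orth_tr O a] at this
  have g2 : ∀ u ∈ low T₂ O, qf (dg hh O * (1 - dg (ind T₂) O) * dg hh O) (V *ᵥ u) ≤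
      (4 * q.v * Bc) ^ 2 * P150.F.sq u := by
    rintro _ ⟨a, ha, rfl⟩
    have := sq_le_of (k3.1 a ha)
    rwa [← mulVec_mulVec, cj_mulVec, mulVec_mulVec, ← GG_eq, ← sq_orth_tr O a] at this
  have zl : ∀ a w : Vec n, ip (Vᵀ *ᵥ (O.1ᵀ *ᵥ a)) ((O.1ᵀ * KM T₂ hh yv * O.1) *ᵥ w) =
      ip a ((cj O V * KM T₂ hh yv * O.1) *ᵥ w) := fun a w => by
    rw [← ip_tr V, ← ip_tr O.1, mulVec_mulVec, mulVec_mulVec]
    unfold cj
    simp only [Matrix.mul_assoc]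
  have zr : ∀ (M : Mat n) (a : Vec n), (M * O.1) *ᵥ (V *ᵥ (O.1ᵀ *ᵥ a)) = (M * cj O V) *ᵥ a :=
    fun M a => by rw [← mulVec_mulVec a M, cj_mulVec, mulVec_mulVec (V *ᵥ (O.1ᵀ *ᵥ a)) M]
  refine ⟨(E1 l (by positivity) (by positivity) c1 c2).monoN (by positivity) m.E1,
    (E3 l (by positivity) g1).monoN (by positivity) m.E3,
    (E3' l g2).monoN (by positivity) m.E3,
    (E4 (c := 16 * q.v ^ 2 * ηc) l (by positivity) ?_).monoN (by positivity) m.E4,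
    fun A hA => (E5h (b' := 2 * Bc) l fun w hw => ?_).monoN (by positivity) m.E5,
    fun A hA => (E6 (c' := 4 * ηc) (by positivity) fun w hw w' hw' => ?_).monoN (by positivity) m.E6,
    fun A hA => (E7 (c'' := 8 * q.v * ηc) l (by positivity) ?_).monoN (by positivity) m.E7,
    fun A hA => (E7' (c'' := 8 * q.v * ηc) l (by positivity) ?_).monoN (by positivity) m.E7⟩
  · rintro _ ⟨a, ha, rfl⟩ _ ⟨a', ha', rfl⟩
    rw [ZZ_eq, zl, zr, nv_orth_tr, nv_orth_tr]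
    exact k3.2.2 a ha a' ha'
  · rw [GG_eq]
    exact sq_le_of ((k4 A hA).1 w hw)
  · rw [ZZ_eq]
    exact (k4 A hA).2.1 w hw w' hw'
  · rintro _ ⟨a, ha, rfl⟩ w hw
    rw [ZZ_eq, zl, nv_orth_tr]
    exact (k4 A hA).2.2.1 a ha w hw
  · rintro _ ⟨a, ha, rfl⟩ w hw
    rw [ZZ_eq, zr, nv_orth_tr, mul_comm (nv a)]
    exact (k4 A hA).2.2.2 w hw a ha

/-- total failure probability of the net step -/
noncomputable def fail (n d₁ d₂ k : ℕ) (x₁ x₂ : ℝ) : ℝ :=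
  20 * Real.exp (4 * d₁ - x₁) + 320 * Real.exp (4 * d₂ - x₂) +
    400 * Real.exp (2 * d₂ + k * (5 + Real.log (n / k)) - x₂)

theorem fail_nonneg (n d₁ d₂ k : ℕ) (x₁ x₂ : ℝ) : 0 ≤ fail n d₁ d₂ k x₁ x₂ := by
  unfold fail
  positivity

theorem fibre (s1 : C1Stmt) (s2 : C2Stmt) (s3 : C3AllStmt) (hP : IsProj P)
    (f : Frm T₁ T₂ hh yv h₁ h₂ c) (m : Num n h₁ h₂ c q x₁ x₂ δ η B)
    (hb : BS T₁ T₂ hh yv c q O₀ P V) :
    (haarH P).real {U | ¬ StrX (dg (ind T₂) (O₀ * U)) (dg hh (O₀ * U)) (dg yv (O₀ * U)) V q.k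
      η B η B η η} ≤ fail n T₁.card T₂.card q.k x₁ x₂ := by
  obtain ⟨E, F, e₀, b⟩ := hb
  have := (invOn_haarH P).prob
  have hv := b.vh.1
  have l1 : Lev P E F q.p x₁ := ⟨hP, b.hE, b.hF, b.sum, b.tr, m.x11, m.px1, m.pn, m.x1n⟩
  have l2 : Lev P E F q.p x₂ := ⟨hP, b.hE, b.hF, b.sum, b.tr, m.x21, m.px2, m.pn, m.x2n⟩
  have he1 := m.e1
  have hq2 := m.q2
  have hβ : 0 ≤ (q.e1 + q.q2) / q.v := by positivity
  have hE : OpLe (E * V * E) ((q.e1 + q.q2) / q.v * q.v) := by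
    rw [div_mul_cancel₀ _ hv.ne']
    refine opLe_of_bil (by positivity) fun u u' => (b.b1 u u').trans ?_
    have h1 : ∀ w, |ip e₀ w| ≤ nv w := fun w =>
      (abs_ip_le _ _).trans (mul_le_of_le_one_left (nv_nonneg w) b.e0)
    have h2 := mul_le_mul4 hq2 (h1 u) (h1 u') (abs_nonneg _) (nv_nonneg u)
    linarith
  have hF : ∀ u ∈ supp T₂, nv ((O₀.1 * F)ᵀ *ᵥ u) ≤ q.f2 * nv u := fun u hu => nv_F_le m.f2 b.f2 hu
  have p1 := s1 n O₀ P E F V q.p x₁ q.v (supp T₁) (supp T₁) l1 b.vh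
  have p2 := s1 n O₀ P E F V q.p x₂ q.v (supp T₂) (supp T₂) l2 b.vh
  have p3 := s2 n O₀ P E F V _ _ q.p x₂ q.v _ q.f2 δ c (supp T₂) l2 b.vh (b.kh f) hβ m.f2 hE hF m.d1
  have p4 := s3 n O₀ P E F V _ _ q.p x₂ q.v _ q.f2 q.δ0 δ c (supp T₂) q.k l2 b.vh (b.kh f) hβ m.f2
    m.δ0 hE hF m.k1 m.kn (fun A hA a ha => by
      have := (b.sp A hA).nv_le m.δ0 a
      rwa [← mulVec_mulVec, res_fix ha] at this) m.d1 m.d2
  rw [finrank_supp] at p1 p2 p3 p4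
  refine (Tail.real_or_le _ (q := fun U => ¬ C1 O₀ P V q.v x₁ (supp T₁) (supp T₁) (O₀ * U))
    (r := fun U => ¬ C1 O₀ P V q.v x₂ (supp T₂) (supp T₂) (O₀ * U) ∨
      (¬ C2 V (GhM T₂ hh) (KM T₂ hh yv) q.v (c.B (ep n x₂) δ) (c.η (ep n x₂) δ) (supp T₂) (O₀ * U) ∨
      ¬ ∀ A : Finset (Fin n), A.card ≤ q.k → C3 V (GhM T₂ hh) (KM T₂ hh yv) q.v
        (c.B (ep n x₂) δ) (c.η (ep n x₂) δ) (supp T₂) (supp A) (O₀ * U))) fun U hU => ?_).trans ?_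
  · by_contra hc
    simp only [not_or, not_not] at hc
    exact hU (b.strX hP f m hc.1 hc.2.1 hc.2.2.1 hc.2.2.2)
  · have u1 := Tail.real_or_le (haarH P) (fun U (h : ¬ C1 O₀ P V q.v x₂ (supp T₂) (supp T₂) (O₀ * U) ∨
      (¬ C2 V (GhM T₂ hh) (KM T₂ hh yv) q.v (c.B (ep n x₂) δ) (c.η (ep n x₂) δ) (supp T₂) (O₀ * U) ∨
      ¬ ∀ A : Finset (Fin n), A.card ≤ q.k → C3 V (GhM T₂ hh) (KM T₂ hh yv) q.v
        (c.B (ep n x₂) δ) (c.η (ep n x₂) δ) (supp T₂) (supp A) (O₀ * U))) => h)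
    have u2 := Tail.real_or_le (haarH P) (fun U (h :
      ¬ C2 V (GhM T₂ hh) (KM T₂ hh yv) q.v (c.B (ep n x₂) δ) (c.η (ep n x₂) δ) (supp T₂) (O₀ * U) ∨
      ¬ ∀ A : Finset (Fin n), A.card ≤ q.k → C3 V (GhM T₂ hh) (KM T₂ hh yv) q.v
        (c.B (ep n x₂) δ) (c.η (ep n x₂) δ) (supp T₂) (supp A) (O₀ * U)) => h)
    rw [show 2 * ((T₁.card : ℝ) + T₁.card) = 4 * T₁.card by ring] at p1
    rw [show 2 * ((T₂.card : ℝ) + T₂.card) = 4 * T₂.card by ring] at p2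
    unfold fail
    linarith

theorem ms_strX {X : Type*} [MeasurableSpace X] {P H Y V : X → Mat n} (hP : MM P) (hH : MM H)
    (hY : MM Y) (hV : MM V) (k : ℕ) (η₁ B η₄ B' η₆ η₇ : ℝ) :
    MeasurableSet {x | StrX (P x) (H x) (Y x) (V x) k η₁ B η₄ B' η₆ η₇} := by
  have hX := (hH.mul hV).mul hH
  have hQ := (MM.const (X := X) (1 : Mat n)).sub hP
  have hR : ∀ A : Finset (Fin n), MM fun _ : X => res A := fun A => MM.const _
  have imp : ∀ {M : Finset (Fin n) → X → Mat n} (a : ℝ), (∀ A, MM (M A)) →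
      MeasurableSet {x | ∀ A : Finset (Fin n), A.card ≤ k → OpLe (M A x) a} := by
    intro M a hM
    rw [Set.ofPred_forall]
    refine MeasurableSet.iInter fun A => ?_
    by_cases hA : A.card ≤ k
    · simpa only [hA, forall_const] using ms_opLe (hM A) a
    · simp [hA]
  have e : {x | StrX (P x) (H x) (Y x) (V x) k η₁ B η₄ B' η₆ η₇} =
      {x | OpLe (P x * (H x * V x * H x) * P x) η₁} ∩
      {x | OpLe (P x * (H x * V x * H x) * (1 - P x)) B} ∩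
      {x | OpLe ((1 - P x) * (H x * V x * H x) * P x) B} ∩
      {x | OpLe (P x * (H x * V x * H x) * ((1 - P x) * Y x) * (H x * V x * H x) * P x) η₄} ∩
      {x | ∀ A : Finset (Fin n), A.card ≤ k → OpLe ((1 - P x) * (H x * res A)) B'} ∩
      {x | ∀ A : Finset (Fin n), A.card ≤ k →
        OpLe (res A * H x * ((1 - P x) * Y x) * (H x * res A)) η₆} ∩
      {x | ∀ A : Finset (Fin n), A.card ≤ k →
        OpLe (P x * (H x * V x * H x) * ((1 - P x) * Y x) * (H x * res A)) η₇} ∩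
      {x | ∀ A : Finset (Fin n), A.card ≤ k →
        OpLe (res A * H x * ((1 - P x) * Y x) * (H x * V x * H x) * P x) η₇} := by
    ext x
    simp only [Set.mem_ofPred_eq, Set.mem_inter_iff]
    exact ⟨fun h => ⟨⟨⟨⟨⟨⟨⟨h.E1, h.E3⟩, h.E3'⟩, h.E4⟩, h.E5h⟩, h.E6⟩, h.E7⟩, h.E7'⟩,
      fun h => ⟨h.1.1.1.1.1.1.1, h.1.1.1.1.1.1.2, h.1.1.1.1.1.2, h.1.1.1.1.2, h.1.1.1.2, h.1.1.2,
        h.1.2, h.2⟩⟩
  rw [e]
  exact (((((((ms_opLe ((hP.mul hX).mul hP) _).inter (ms_opLe ((hP.mul hX).mul hQ) _)).inter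
    (ms_opLe ((hQ.mul hX).mul hP) _)).inter
    (ms_opLe ((((hP.mul hX).mul (hQ.mul hY)).mul hX).mul hP) _)).inter
    (imp _ fun A => hQ.mul (hH.mul (hR A)))).inter
    (imp _ fun A => (((hR A).mul hH).mul (hQ.mul hY)).mul (hH.mul (hR A)))).inter
    (imp _ fun A => ((hP.mul hX).mul (hQ.mul hY)).mul (hH.mul (hR A)))).inter
    (imp _ fun A => ((((hR A).mul hH).mul (hQ.mul hY)).mul hX).mul hP)

/-- the net step over any exploration -/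
theorem explo (s1 : C1Stmt) (s2 : C2Stmt) (s3 : C3AllStmt) {μ : Measure (OG n)}
    [IsProbabilityMeasure μ] {P V : OG n → Mat n} (h : Explo μ P) (hV : MM V) (ha : Adapted P V)
    (f : Frm T₁ T₂ hh yv h₁ h₂ c) (m : Num n h₁ h₂ c q x₁ x₂ δ η B) :
    μ.real {O | ¬ StrX (dg (ind T₂) O) (dg hh O) (dg yv O) (V O) q.k η B η B η η} ≤
      μ.real {O | ¬ BS T₁ T₂ hh yv c q O (P O) (V O)} + fail n T₁.card T₂.card q.k x₁ x₂ := by
  refine h.real_le_add famH (ms_strX (mm_dg _) (mm_dg _) (mm_dg _) hV _ _ _ _ _ _ _).compl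
    (fail_nonneg _ _ _ _ _ _) fun O hO => le_trans (le_of_eq ?_)
      (fibre s1 s2 s3 (h.proj O) f m (not_not.1 hO))
  refine measureReal_congr ?_
  filter_upwards [famH.ae_HG (P O)] with U hU
  change (¬ StrX _ _ _ (V (O * U)) _ _ _ _ _ _ _) = (¬ StrX _ _ _ (V O) _ _ _ _ _ _ _)
  rw [ha O U hU]

end Main

end Vale.Agent.N150.X4
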