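import Vale.Agent.N150.X4Def
import Vale.Agent.N150.Comp

/-! Compressions on one fibre: tails for one or two fixed vectors. -/

open MeasureTheory Matrix Module

namespace Vale.Agent.N150.X4.Co

open Vale.Agent.P150 Vale.Agent.P150.F Vale.Agent.N150.Fib

variable {n : ℕ}

/-- a fibre of dimension at least `n / 2` and of codimension at most `3 x` -/
structure Big (T : Mat n) (x : ℝ) : Prop where
  hT : IsProj T
  half : (n : ℝ) ≤ 2 * T.trace
  cod : (n : ℝ) - T.trace ≤ 3 * x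
  x1 : 1 ≤ x
  xn : x ≤ n

section Par

variable {T : Mat n} {x : ℝ}

theorem Big.npos (h : Big T x) : (0 : ℝ) < n := by linarith [h.x1, h.xn]

theorem Big.x0 (h : Big T x) : 0 ≤ x := by linarith [h.x1]

theorem ep_nonneg (n : ℕ) (x : ℝ) : 0 ≤ ep n x := Real.sqrt_nonneg _

theorem Big.ep_sq (h : Big T x) : n * ep n x ^ 2 = x := by
  unfold ep
  rw [Real.sq_sqrt (div_nonneg h.x0 h.npos.le), mul_div_cancel₀ _ h.npos.ne']

theorem Big.ep_le (h : Big T x) : ep n x ≤ 1 :=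
  Real.sqrt_le_one.2 ((div_le_one h.npos).2 h.xn)

theorem Big.sqrt_x (h : Big T x) : √x = √n * ep n x := by
  unfold ep
  rw [← Real.sqrt_mul h.npos.le, mul_div_cancel₀ _ h.npos.ne']

end Par

theorem imp_ae (T : Mat n) {p q : OG n → Prop} (h : ∀ U ∈ HG T, p U → q U) :
    (haarH T).real {U | p U} ≤ (haarH T).real {U | q U} := by
  refine ENNReal.toReal_mono (measure_ne_top _ _) (measure_mono_ae ?_)
  filter_upwards [(invOn_haarH T).ae] with U hU using h U hU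

theorem or_ae (T : Mat n) {p q r : OG n → Prop} (h : ∀ U ∈ HG T, p U → q U ∨ r U) {a b : ℝ}
    (ha : (haarH T).real {U | q U} ≤ a) (hb : (haarH T).real {U | r U} ≤ b) :
    (haarH T).real {U | p U} ≤ a + b :=
  (imp_ae T h).trans ((Tail.real_or_le _ fun _ hU => hU).trans (add_le_add ha hb))

theorem or_le {T : Mat n} {q r : OG n → Prop} {a b : ℝ}
    (ha : (haarH T).real {U | q U} ≤ a) (hb : (haarH T).real {U | r U} ≤ b) :
    (haarH T).real {U | q U ∨ r U} ≤ a + b := or_ae T (fun _ _ h => h) ha hb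

theorem meas_ip {X : Type*} [MeasurableSpace X] {u v : X → Vec n} (hu : Measurable u)
    (hv : Measurable v) : Measurable fun a => ip (u a) (v a) :=
  Finset.measurable_sum _ fun i _ =>
    ((measurable_pi_apply i).comp hu).mul ((measurable_pi_apply i).comp hv)

theorem meas_nv {X : Type*} [MeasurableSpace X] {u : X → Vec n} (hu : Measurable u) :
    Measurable fun a => nv (u a) := by
  simp only [nv_eq_sqrt]
  exact (measurable_sq.comp hu).sqrt

theorem nv_orth (O : OG n) (v : Vec n) : nv (O.1 *ᵥ v) = nv v := by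
  rw [nv_eq_sqrt, nv_eq_sqrt, Rip.sq_orth]

theorem nv_orth_tr (O : OG n) (v : Vec n) : nv (O.1ᵀ *ᵥ v) = nv v := by
  rw [← OG.coe_inv, nv_orth]

theorem nv_proj {T : Mat n} (hT : IsProj T) (v : Vec n) : nv (T *ᵥ v) ≤ nv v :=
  Tail.nv_proj_le hT.symm hT.idem v

theorem ip_tr (A : Mat n) (u v : Vec n) : ip u (A *ᵥ v) = ip (Aᵀ *ᵥ u) v := by
  rw [Rip.ip_mulVec_tr, ipN_comm]

theorem sq_le_one {v : Vec n} (h : nv v ≤ 1) : F.sq v ≤ 1 := by
  simpa using sq_le_of_nv_le h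

/-- an element of the stabiliser moves only the part in the range of `T` -/
theorem split_vec {T : Mat n} {U : OG n} (hU : U ∈ HG T) (a : Vec n) :
    U.1 *ᵥ a = (1 - T) *ᵥ a + U.1 *ᵥ (T *ᵥ a) := by
  rw [← HG_compl hU, ← mulVec_add, ← add_mulVec, sub_add_cancel, one_mulVec]

section One

variable {T : Mat n} {x : ℝ}

/-- linear forms -/
theorem lin (h : Big T x) {a b : Vec n} {s : ℝ} (ha : nv a ≤ 1) (hb : nv b ≤ s) :
    (haarH T).real {U | 5 * ep n x * s < |ip b (U.1 *ᵥ (T *ᵥ a))|} ≤ Real.exp (-x) := by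
  have hT := h.hT
  have hB : MeasurableSet {ξ : Vec n | 5 * ep n x * s < |ip b ξ|} :=
    measurableSet_lt measurable_const (meas_ip measurable_const measurable_id).abs
  have h1 := congrArg (fun m : Measure (Vec n) => m.real {ξ | 5 * ep n x * s < |ip b ξ|})
    (map_vec (invOn_haarH T) le_rfl hT (trans_HG hT) (T *ᵥ a))
  simp only [map_measureReal_apply (mm_val.mulVec measurable_const) hB,
    map_measureReal_apply (measurable_rs' _ _ _) hB] at h1
  refine le_trans (le_of_eq h1) ?_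
  have he := ep_nonneg n x
  have hs : 0 ≤ s := (nv_nonneg b).trans hb
  have h2 := Tail.ip_rp_tail hT.symm hT.idem b (t := 25 * ep n x ^ 2) (ρ := F.sq (T *ᵥ a))
    (by positivity) (sqN_nonneg _)
  refine le_trans (Tail.real_imp_le _ fun g hg => ?_) (h2.trans (Real.exp_le_exp.2 ?_))
  · simp only [Set.mem_ofPred_eq, rs] at hg
    rw [Matrix.mulVec_mulVec a, hT.compl_mul, zero_mulVec, zero_add, hT.mulVec_mulVec] at hg
    have h3 : F.sq (T *ᵥ a) ≤ 1 := sq_le_one ((nv_proj hT a).trans ha)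
    have h4 : F.sq (T *ᵥ b) ≤ s ^ 2 := sq_le_of_nv_le ((nv_proj hT b).trans hb)
    have h5 := pow_lt_pow_left₀ hg (by positivity) two_ne_zero
    rw [sq_abs] at h5
    refine lt_of_le_of_lt ?_ h5
    have h6 := mul_le_mul h3 h4 (sqN_nonneg _) zero_le_one
    have h7 := mul_le_mul_of_nonneg_left h6 (show 0 ≤ 25 * ep n x ^ 2 by positivity)
    nlinarith
  · have h3 := mul_le_mul_of_nonneg_right h.half (sq_nonneg (ep n x))
    have h4 := h.ep_sq
    have h5 := h.x1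
    nlinarith

/-- norms -/
theorem nrm (h : Big T x) {M : Mat n} {d L : ℝ} (hd : 0 ≤ d) (hL : 0 ≤ L)
    (h1 : hsq M ≤ n * d ^ 2) (h2 : OpLe M L) {a : Vec n} (ha : nv a ≤ 1) :
    (haarH T).real {U | 3 / 2 * d + 9 * L * ep n x < nv (M *ᵥ (U.1 *ᵥ (T *ᵥ a)))} ≤
      Real.exp (-x) := by
  have hT := h.hT
  have hn := h.npos
  have he := ep_nonneg n x
  have h3 := Rip.fib_norm_tail (invOn_haarH T) hT (Rip.trans_HG hT) (R := M) (D := √n * d)
    (L := L) (x := x) (m := n / 2) (by positivity) hL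
    (by
      rw [mul_pow, Real.sq_sqrt hn.le]
      exact (Tail.hsq_mul_proj hT.symm hT.idem M).trans h1)
    (by simpa using h2.mulN (Rip.opLe_proj hT) hL zero_le_one) h.x0 (by positivity)
    (by linarith [h.half]) (hT.mulVec_mulVec a)
  refine le_trans (Tail.real_imp_le _ fun U hU => ?_) h3
  have h4 := pow_lt_pow_left₀ hU (by positivity) two_ne_zero
  rw [nv_sq] at h4
  have h5 : F.sq (T *ᵥ a) ≤ 1 := sq_le_one ((nv_proj hT a).trans ha)
  have e : (√n * d + 6 * L * √x) ^ 2 = n * (d + 6 * L * ep n x) ^ 2 := by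
    rw [h.sqrt_x, show √n * d + 6 * L * (√n * ep n x) = √n * (d + 6 * L * ep n x) by ring,
      mul_pow, Real.sq_sqrt hn.le]
  rw [e]
  have h6 : 0 ≤ n * (d + 6 * L * ep n x) ^ 2 := by positivity
  have h7 := mul_le_mul_of_nonneg_left h5 h6
  have h8 := mul_lt_mul_of_pos_left h4 (show (0 : ℝ) < n / 2 by positivity)
  have h9 : (3 / 2 * d + 9 * L * ep n x) ^ 2 = 9 / 4 * (d + 6 * L * ep n x) ^ 2 := by ring
  rw [h9] at h8
  linarith

theorem avg_le (h : Big T x) {S : Mat n} {M τ : ℝ} (hM : 0 ≤ M)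
    (hb : ∀ v, |qf S v| ≤ M * F.sq v) (ht : |S.trace| ≤ n * τ) :
    |Rip.avg T S| ≤ 2 * τ + 6 * M * ep n x ^ 2 := by
  have hT := h.hT
  have hn := h.npos
  have h0 : 0 < T.trace := by linarith [h.half]
  have h1 := Tail.trace_sandwich_le hT.compl.symm hT.compl.idem hb
  rw [Tail.trace_compl] at h1
  have e : (T * S * T).trace = S.trace - ((1 - T) * S * (1 - T)).trace := by
    rw [trace_mul_cycle T, trace_mul_cycle (1 - T), hT.idem, hT.compl.idem, Matrix.sub_mul,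
      Matrix.one_mul, trace_sub, sub_sub_cancel]
  have h2 : |(T * S * T).trace| ≤ n * τ + M * (3 * x) := by
    rw [e]
    exact (abs_sub _ _).trans (add_le_add ht (h1.trans (mul_le_mul_of_nonneg_left h.cod hM)))
  have hτ : 0 ≤ τ := by
    by_contra hc
    have := mul_neg_of_pos_of_neg hn (not_le.1 hc)
    linarith [abs_nonneg S.trace]
  unfold Rip.avg
  rw [abs_div, abs_of_pos h0, div_le_iff₀ h0]
  refine h2.trans ?_
  have h3 := mul_le_mul_of_nonneg_left h.half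
    (show 0 ≤ τ + 3 * M * ep n x ^ 2 by positivity)
  have h4 : M * (3 * x) = 3 * M * (n * ep n x ^ 2) := by rw [h.ep_sq]; ring
  rw [h4]
  linarith

theorem quad1 (h : Big T x) {S : Mat n} (hS : Sᵀ = S) {M k : ℝ} (hM : 0 ≤ M) (hk : 0 ≤ k)
    (hb : ∀ v, |qf S v| ≤ M * F.sq v) (h1 : hsq S ≤ n * k ^ 2) {u : Vec n} (hu : T *ᵥ u = u) :
    (haarH T).real {U | (12 * k * ep n x + 128 * M * ep n x ^ 2) * F.sq u <
      |qf S (U.1 *ᵥ u) - Rip.avg T S * F.sq u|} ≤ 2 * Real.exp (-x) := by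
  have hT := h.hT
  have hn := h.npos
  have h3 := Rip.fib_qf_avg (invOn_haarH T) hT (Rip.trans_HG hT) hS (V := √n * k) (M := M)
    (x := x) (m := n / 2) (by positivity) hM
    (by
      rw [mul_pow, Real.sq_sqrt hn.le]
      exact (Rip.hsq_conj_le hT S).trans h1)
    (fun v => hb _) h.x0 (by positivity) (by linarith [h.half]) hu
  refine le_trans (Tail.real_imp_le _ fun U hU => ?_) h3
  have h4 := mul_lt_mul_of_pos_left hU (show (0 : ℝ) < n / 2 by positivity)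
  refine lt_of_le_of_lt (le_of_eq ?_) h4
  have e1 : √n * √n = (n : ℝ) := Real.mul_self_sqrt hn.le
  have e2 : 6 * (√n * k) * √x = 6 * k * ep n x * (√n * √n) := by rw [h.sqrt_x]; ring
  rw [e2, e1]
  nth_rewrite 2 [← h.ep_sq]
  ring

/-- bilinear forms -/
theorem bil (h : Big T x) {S : Mat n} (hS : Sᵀ = S) {M k τ : ℝ} (hM : 0 ≤ M) (hk : 0 ≤ k)
    (hb : ∀ v, |qf S v| ≤ M * F.sq v) (h1 : hsq S ≤ n * k ^ 2) (ht : |S.trace| ≤ n * τ)
    {a b : Vec n} (ha : nv a ≤ 1) (hb1 : nv b ≤ 1) :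
    (haarH T).real {U | 2 * τ + 12 * k * ep n x + 134 * M * ep n x ^ 2 <
      |ip (U.1 *ᵥ (T *ᵥ a)) (S *ᵥ (U.1 *ᵥ (T *ᵥ b)))|} ≤ 4 * Real.exp (-x) := by
  have hT := h.hT
  have he := ep_nonneg n x
  have q1 := quad1 h hS hM hk hb h1 (u := T *ᵥ a + T *ᵥ b)
    (by rw [mulVec_add, hT.mulVec_mulVec, hT.mulVec_mulVec])
  have q2 := quad1 h hS hM hk hb h1 (u := T *ᵥ a - T *ᵥ b)
    (by rw [mulVec_sub, hT.mulVec_mulVec, hT.mulVec_mulVec])
  refine (Tail.real_or_le _ fun U hU => ?_).trans ((add_le_add q1 q2).trans (le_of_eq (by ring)))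
  by_contra hc
  push Not at hc
  obtain ⟨c1, c2⟩ := hc
  rw [mulVec_add, Rip.qf_add hS] at c1
  rw [mulVec_sub, Rip.qf_sub hS] at c2
  have hav := avg_le h hM hb ht
  have s1 : F.sq (T *ᵥ a) ≤ 1 := sq_le_one ((nv_proj hT a).trans ha)
  have s2 : F.sq (T *ᵥ b) ≤ 1 := sq_le_one ((nv_proj hT b).trans hb1)
  have s3 := Rip.sq_add_add_sq_sub (T *ᵥ a) (T *ᵥ b)
  have s4 := sqN_nonneg (T *ᵥ a + T *ᵥ b)
  have s5 := sqN_nonneg (T *ᵥ a - T *ᵥ b)
  set c := 12 * k * ep n x + 128 * M * ep n x ^ 2 with hc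
  have hc0 : 0 ≤ c := by positivity
  set w := Rip.avg T S
  have s6 : |w * F.sq (T *ᵥ a + T *ᵥ b) - w * F.sq (T *ᵥ a - T *ᵥ b)| ≤ |w| * 4 := by
    rw [← mul_sub, abs_mul]
    exact mul_le_mul_of_nonneg_left (abs_le.2 ⟨by linarith, by linarith⟩) (abs_nonneg w)
  have s7 : c * F.sq (T *ᵥ a + T *ᵥ b) + c * F.sq (T *ᵥ a - T *ᵥ b) ≤ c * 4 := by
    rw [← mul_add]
    exact mul_le_mul_of_nonneg_left (by linarith) hc0
  have d1 := abs_le.1 c1
  have d2 := abs_le.1 c2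
  have d3 := abs_le.1 s6
  refine absurd hU (not_lt.2 (abs_le.2 ⟨?_, ?_⟩)) <;> linarith [d1.1, d1.2, d2.1, d2.2, d3.1, d3.2]

end One

end Vale.Agent.N150.X4.Co
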