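import Vale.Agent.N150.X4Co1

/-! Compressions on one fibre: bounds at one point of the nets. -/

open MeasureTheory Matrix Module

namespace Vale.Agent.N150.X4.Co

open Vale.Agent.P150 Vale.Agent.P150.F Vale.Agent.N150.Fib

variable {n : ℕ}

theorem opLe_of_qf {S : Mat n} (hS : Sᵀ = S) {M : ℝ} (hM : 0 ≤ M)
    (hb : ∀ v, |qf S v| ≤ M * F.sq v) : OpLe S M := by
  refine opLe_of_nv fun w => ?_
  have h1 := Rip.abs_ip_le_of_qf (W := ⊤) hS (fun u _ => hb u) (S *ᵥ w) trivial w trivial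
  rw [ipN_self, abs_of_nonneg (sqN_nonneg _), ← nv_sq] at h1
  rcases (nv_nonneg (S *ᵥ w)).eq_or_lt with h | h
  · rw [← h]
    exact mul_nonneg hM (nv_nonneg w)
  · refine le_of_mul_le_mul_right ?_ h
    linarith

theorem hsq_le_of_op {S : Mat n} {M : ℝ} (h : OpLe S M) : hsq S ≤ n * M ^ 2 := by
  have h1 := Tail.hsq_mul_le (C := 1) h
  rw [Matrix.mul_one, Tail.hsq_proj transpose_one (Matrix.mul_one _), trace_one,
    Fintype.card_fin] at h1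
  linarith

theorem vh_op {V : Mat n} {v : ℝ} (h : VH V v) : OpLe V (2 * v) := by
  obtain ⟨hv, S, r, r', rfl, hS, -, hb, hr⟩ := h
  rw [two_mul]
  exact (opLe_of_qf hS hv.le hb).add
    ((opLe_vecMulVec r r').monoN (mul_nonneg (nv_nonneg _) (nv_nonneg _)) hr) hv.le hv.le

theorem vh_tr {V : Mat n} {v : ℝ} (h : VH V v) : VH Vᵀ v := by
  obtain ⟨hv, S, r, r', rfl, hS, ht, hb, hr⟩ := h
  exact ⟨hv, S, r', r, by rw [transpose_add, hS, transpose_vecMulVec], hS, ht, hb,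
    by rwa [mul_comm]⟩

theorem vh_nv {V : Mat n} {v : ℝ} (h : VH V v) {a : Vec n} (ha : nv a ≤ 1) :
    nv (V *ᵥ a) ≤ 2 * v := by
  have hv := h.1
  have h1 := (vh_op h).nv_le (by positivity) a
  have h2 := mul_le_mul_of_nonneg_left ha (show 0 ≤ 2 * v by positivity)
  linarith

/-- the compression of `V` between two fixed vectors -/
theorem fl {T V : Mat n} {x v : ℝ} (h : Big T x) (hV : VH V v) {a b : Vec n} (ha : nv a ≤ 1)
    (hb : nv b ≤ 1) :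
    (haarH T).real {U | 171 * v * ep n x < |ip (U.1 *ᵥ a) (V *ᵥ (U.1 *ᵥ b)) -
      ip ((1 - T) *ᵥ a) (V *ᵥ ((1 - T) *ᵥ b))|} ≤ 7 * Real.exp (-x) := by
  have hT := h.hT
  have e1 := lin h hb (vh_nv (vh_tr hV) ((nv_proj hT.compl a).trans ha))
  have e2 := lin h ha (vh_nv hV ((nv_proj hT.compl b).trans hb))
  obtain ⟨hv, S, r, r', hVe, hS, ht, hq, hr⟩ := hV
  have e3 := bil h hS hv.le hv.le hq (hsq_le_of_op (opLe_of_qf hS hv.le hq)) (τ := 0)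
    (by rw [ht]; simp) ha hb
  have e4 := lin h ha (le_refl (nv r))
  refine (or_ae T (fun U hU hc => ?_) (or_le e1 e2) (or_le e3 e4)).trans (le_of_eq (by ring))
  by_contra hn
  push Not at hn
  obtain ⟨⟨c1, c2⟩, c3, c4⟩ := hn
  rw [split_vec hU a, split_vec hU b] at hc
  set a0 := (1 - T) *ᵥ a
  set b0 := (1 - T) *ᵥ b
  set a1 := U.1 *ᵥ (T *ᵥ a)
  set b1 := U.1 *ᵥ (T *ᵥ b) with hb1
  have e : ip (a0 + a1) (V *ᵥ (b0 + b1)) - ip a0 (V *ᵥ b0) =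
      ip (Vᵀ *ᵥ a0) b1 + ip (V *ᵥ b0) a1 + ip a1 (S *ᵥ b1) + ip r' b1 * ip r a1 := by
    rw [mulVec_add, ip_add_left, ip_add_right, ip_add_right, ← ip_tr, ipN_comm (V *ᵥ b0) a1]
    have : ip a1 (V *ᵥ b1) = ip a1 (S *ᵥ b1) + ip r' b1 * ip r a1 := by
      rw [hVe, add_mulVec, ip_add_right, F.vecMulVec_mulVec, ip_smul_right, ipN_comm a1 r]
    rw [this]
    ring
  rw [e] at hc
  have he := ep_nonneg n x
  have h1 : |ip r' b1| ≤ nv r' := by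
    have h2 : nv b1 ≤ 1 := by
      rw [hb1, nv_orth]
      exact (nv_proj hT b).trans hb
    have h3 := mul_le_mul_of_nonneg_left h2 (nv_nonneg r')
    linarith [abs_ip_le r' b1]
  have h2 : |ip r' b1 * ip r a1| ≤ 5 * ep n x * v := by
    rw [abs_mul]
    have h3 := mul_le_mul h1 c4 (abs_nonneg _) (nv_nonneg _)
    have h4 := mul_le_mul_of_nonneg_left hr (show 0 ≤ 5 * ep n x by positivity)
    linarith
  have h3 : v * ep n x ^ 2 ≤ v * ep n x := by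
    rw [pow_two]
    exact mul_le_mul_of_nonneg_left (mul_le_of_le_one_left he h.ep_le) hv.le
  have d1 := abs_le.1 c1
  have d2 := abs_le.1 c2
  have d3 := abs_le.1 c3
  have d4 := abs_le.1 h2
  refine absurd hc (not_lt.2 (abs_le.2 ⟨?_, ?_⟩)) <;>
    linarith [d1.1, d1.2, d2.1, d2.2, d3.1, d3.2, d4.1, d4.2]

theorem fl_tr {T V : Mat n} {x v : ℝ} (h : Big T x) (hV : VH V v) {a b : Vec n} (ha : nv a ≤ 1)
    (hb : nv b ≤ 1) :
    (haarH T).real {U | 171 * v * ep n x < |ip (U.1ᵀ *ᵥ a) (V *ᵥ (U.1ᵀ *ᵥ b)) -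
      ip ((1 - T) *ᵥ a) (V *ᵥ ((1 - T) *ᵥ b))|} ≤ 7 * Real.exp (-x) :=
  (Rip.inv_real_tr (invOn_haarH T) fun M => 171 * v * ep n x <
    |ip (M *ᵥ a) (V *ᵥ (M *ᵥ b)) - ip ((1 - T) *ᵥ a) (V *ᵥ ((1 - T) *ᵥ b))|).trans_le
    (fl h hV ha hb)

/-! ### removing two directions -/

/-- `T` is `P` with two directions removed -/
structure Two (P T : Mat n) : Prop where
  hT : IsProj T
  le : T * P = T
  tr : P.trace - 2 ≤ T.trace
  dir : ∃ w w' : Vec n, nv w ≤ 1 ∧ nv w' ≤ 1 ∧ P *ᵥ w = w ∧ P *ᵥ w' = w' ∧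
    ∀ a, nv ((P - T) *ᵥ a) ≤ |ip w a| + |ip w' a|

theorem exists_dir {P : Mat n} {w : Vec n} (hw : P *ᵥ w = w) :
    ∃ z : Vec n, nv z ≤ 1 ∧ P *ᵥ z = z ∧ ∀ a, nv (pj w *ᵥ a) ≤ |ip z a| := by
  by_cases h0 : w = 0
  · refine ⟨0, by rw [nv_zero]; exact zero_le_one, mulVec_zero _, fun a => ?_⟩
    rw [h0, pj_zero, zero_mulVec, nv_zero]
    exact abs_nonneg _
  · refine ⟨(nv w)⁻¹ • w, (Rip.nv_normalize h0).le, by rw [mulVec_smul, hw], fun a => ?_⟩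
    have h1 := Rip.nv_pos h0
    rw [pj_mulVec, nv_smul, ip_smul_left, abs_mul, abs_div, ← nv_sq, abs_of_pos (inv_pos.2 h1),
      abs_of_pos (pow_pos h1 2), Rip.ip_dot]
    refine le_of_eq ?_
    field_simp

theorem two_rm {P : Mat n} (hP : IsProj P) (u u' : Vec n) : Two P (rm (rm P u) u') := by
  have h1 := hP.rm u
  refine ⟨h1.rm u', ?_, ?_, ?_⟩
  · rw [← h1.rm_mul u', Matrix.mul_assoc, hP.rm_mul]
  · linarith [trace_rm_ge P u, trace_rm_ge (rm P u) u']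
  · obtain ⟨w, a1, a2, a3⟩ := exists_dir (hP.mulVec_mulVec u)
    obtain ⟨w', b1, b2, b3⟩ := exists_dir (P := P) (w := rm P u *ᵥ u')
      (by rw [Matrix.mulVec_mulVec, hP.mul_rm])
    refine ⟨w, w', a1, b1, a2, b2, fun a => ?_⟩
    have e : P - rm (rm P u) u' = pj (P *ᵥ u) + pj (rm P u *ᵥ u') := by
      rw [show rm (rm P u) u' = rm P u - pj (rm P u *ᵥ u') from rfl]
      nth_rewrite 2 [show rm P u = P - pj (P *ᵥ u) from rfl]
      rw [show rm P u = P - pj (P *ᵥ u) from rfl]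
      abel
    rw [e, add_mulVec]
    exact (nv_add_le _ _).trans (add_le_add (a3 a) (b3 a))

theorem rm_rm_left {P : Mat n} (hP : IsProj P) (u u' : Vec n) : rm (rm P u) u' *ᵥ u = 0 :=
  (hP.rm u).rm_mulVec_of u' (hP.rm_mulVec_self u)

theorem rm_rm_right {P : Mat n} (hP : IsProj P) (u u' : Vec n) : rm (rm P u) u' *ᵥ u' = 0 :=
  (hP.rm u).rm_mulVec_self u'

section Level

variable {P E F T : Mat n} {p x : ℝ}

theorem lev_big (h : Lev P E F p x) : Big P x := by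
  have h1 := Tail.trace_proj_le h.hP.symm h.hP.idem
  exact ⟨h.hP, by linarith [h.tr, h.pn], by linarith [h.tr, h.px, h.x1], h.x1, h.xn⟩

theorem lev_two (h : Lev P E F p x) (h2 : Two P T) : Big T x :=
  ⟨h2.hT, by linarith [h.tr, h.pn, h2.tr], by linarith [h.tr, h.px, h.x1, h2.tr], h.x1, h.xn⟩

theorem lev_EP (h : Lev P E F p x) (a : Vec n) : E *ᵥ (P *ᵥ a) = 0 := by
  have h1 : (E + F) *ᵥ (P *ᵥ a) = 0 := by
    rw [h.sum, Matrix.mulVec_mulVec, h.hP.compl_mul, zero_mulVec]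
  have h2 : P150.F.sq (E *ᵥ (P *ᵥ a)) + P150.F.sq (F *ᵥ (P *ᵥ a)) = 0 := by
    rw [h.hE.sq_eq, h.hF.sq_eq, ← add_dotProduct, ← add_mulVec, h1, zero_dotProduct]
  have h3 := sqN_nonneg (E *ᵥ (P *ᵥ a))
  have h4 := sqN_nonneg (F *ᵥ (P *ᵥ a))
  refine Rip.nv_eq_zero ?_
  rw [nv_eq_sqrt, show P150.F.sq (E *ᵥ (P *ᵥ a)) = 0 by linarith, Real.sqrt_zero]

theorem lev_EU (h : Lev P E F p x) {U : OG n} (hU : U ∈ HG P) (a : Vec n) :
    E *ᵥ (U.1 *ᵥ a) = E *ᵥ a := by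
  have e : ∀ b : Vec n, E *ᵥ b = E *ᵥ ((1 - P) *ᵥ b) := fun b => by
    rw [sub_mulVec, one_mulVec, mulVec_sub, lev_EP h, sub_zero]
  rw [e, Matrix.mulVec_mulVec a, HG_left h.hP.symm hU, ← e]

theorem lev_trE (h : Lev P E F p x) : E.trace ≤ x := by
  have h1 := congrArg trace h.sum
  rw [trace_add, Tail.trace_compl] at h1
  linarith [h.hF.trace_nonneg, h.tr, h.px]

/-- a covariant random vector whose explored part is `F α` up to `δ` -/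
structure Cov (P E T : Mat n) (α : OG n → Vec n) (δ q : ℝ) : Prop where
  meas : Measurable α
  cov : ∀ R ∈ HG T, ∀ U, α (R * U) = R.1 *ᵥ α U
  le1 : ∀ U, nv (α U) ≤ 1
  small : (haarH P).real {U | δ < nv ((E + (P - T)) *ᵥ α U)} ≤ q

/-- the image of a site vector -/
theorem cov_site (h : Lev P E F p x) (h2 : Two P T) {c : Vec n} (hc : nv c ≤ 1) {δ₀ δ : ℝ}
    (h0 : nv (E *ᵥ c) ≤ δ₀) (hδ : δ₀ + 700 * ep n x ≤ δ) :
    Cov P E T (fun U => U.1 *ᵥ c) δ (2 * Real.exp (-x)) := by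
  refine ⟨mm_val.mulVec measurable_const, fun R _ U => ?_, fun U => ?_, ?_⟩
  · rw [OG.coe_mul, Matrix.mulVec_mulVec]
  · rwa [nv_orth]
  obtain ⟨w, w', a1, b1, a2, b2, hd⟩ := h2.dir
  have e1 := lin (lev_big h) hc a1
  have e2 := lin (lev_big h) hc b1
  refine (or_ae P (fun U hU hb => ?_) e1 e2).trans (le_of_eq (by ring))
  by_contra hn
  push Not at hn
  have key : ∀ z, P *ᵥ z = z → ip z (U.1 *ᵥ c) = ip z (U.1 *ᵥ (P *ᵥ c)) := fun z hz => by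
    rw [split_vec hU c, ip_add_right, ip_tr, h.hP.compl.symm, sub_mulVec, one_mulVec, hz,
      sub_self]
    simp [ip]
  have h3 := hd (U.1 *ᵥ c)
  rw [key w a2, key w' b2] at h3
  have h4 := nv_add_le (E *ᵥ (U.1 *ᵥ c)) ((P - T) *ᵥ (U.1 *ᵥ c))
  rw [← add_mulVec, lev_EU h hU] at h4
  linarith [hn.1, hn.2, ep_nonneg n x]

/-- the normalised image of a frame vector under `U V Uᵀ` -/
noncomputable def aV (V : Mat n) (v : ℝ) (z : Vec n) (U : OG n) : Vec n :=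
  (2 * v)⁻¹ • (U.1 *ᵥ (V *ᵥ (U.1ᵀ *ᵥ z)))

theorem cov_frame (h : Lev P E F p x) (h2 : Two P T) {V : Mat n} {v : ℝ} (hV : VH V v)
    {z : Vec n} (hz : nv z ≤ 1) (hT : T *ᵥ z = 0) {β φ δ : ℝ} (hβ : 0 ≤ β)
    (hE : OpLe (E * V * E) (β * v)) (hφ : nv (F *ᵥ z) ≤ φ) (hδ : β + φ + 700 * ep n x ≤ δ) :
    Cov P E T (aV V v z) δ (15 * Real.exp (-x)) := by
  have hv := hV.1
  have hv2 : 0 < 2 * v := by positivity
  have hsc : ∀ y : Vec n, ∀ t, nv y ≤ 2 * v * t → nv ((2 * v)⁻¹ • y) ≤ t := fun y t hy => by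
    rw [nv_smul, abs_of_pos (inv_pos.2 hv2), inv_mul_le_iff₀ hv2]
    exact hy
  refine ⟨?_, fun R hR U => ?_, fun U => ?_, ?_⟩
  · exact (mm_val.mulVec ((MM.const V).mulVec
      (mm_val.transpose.mulVec measurable_const))).const_smul (2 * v)⁻¹
  · unfold aV
    rw [OG.coe_mul, transpose_mul, ← Matrix.mulVec_mulVec, ← Matrix.mulVec_mulVec,
      HG_tr_mulVec hR hT, mulVec_smul]
  · refine hsc _ _ ?_
    rw [nv_orth, mul_one]
    exact vh_nv hV (by rwa [nv_orth_tr])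
  obtain ⟨w, w', a1, b1, a2, b2, hd⟩ := h2.dir
  have hB := lev_big h
  have he := ep_nonneg n x
  have e1 := fl_tr hB hV a1 hz
  have e2 := fl_tr hB hV b1 hz
  have hop : OpLe (E * V) (2 * v) := by
    simpa using (Rip.opLe_proj h.hE).mulN (vh_op hV) zero_le_one hv2.le
  have e3 := (Rip.inv_real_tr (invOn_haarH P) fun M => 3 / 2 * (2 * v * ep n x) +
      9 * (2 * v) * ep n x < nv ((E * V) *ᵥ (M *ᵥ (P *ᵥ z)))).trans_le
    (nrm hB (M := E * V) (d := 2 * v * ep n x) (L := 2 * v) (by positivity) hv2.le (by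
      have h3 := Rip.hsq_mul_le' E (vh_op hV) hv2.le
      rw [Tail.hsq_proj h.hE.symm h.hE.idem] at h3
      have h4 := mul_le_mul_of_nonneg_left (lev_trE h) (sq_nonneg (2 * v))
      have h5 : n * (2 * v * ep n x) ^ 2 = (2 * v) ^ 2 * (n * ep n x ^ 2) := by ring
      rw [h5, hB.ep_sq]
      linarith) hop hz)
  refine (or_ae P (fun U hU hb => ?_) (or_le e1 e2) e3).trans (le_of_eq (by ring))
  by_contra hn
  push Not at hn
  obtain ⟨⟨c1, c2⟩, c3⟩ := hn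
  have hU' : U⁻¹ ∈ HG P := (HG P).inv_mem hU
  have key : ∀ y, P *ᵥ y = y → ip (U.1ᵀ *ᵥ y) (V *ᵥ (U.1ᵀ *ᵥ z)) -
      ip ((1 - P) *ᵥ y) (V *ᵥ ((1 - P) *ᵥ z)) = ip y (U.1 *ᵥ (V *ᵥ (U.1ᵀ *ᵥ z))) := fun y hy => by
    rw [← ip_tr, sub_mulVec 1 P y, one_mulVec, hy, sub_self]
    simp [ip]
  rw [key w a2] at c1
  rw [key w' b2] at c2
  have h3 := hd (U.1 *ᵥ (V *ᵥ (U.1ᵀ *ᵥ z)))
  have h4 := nv_add_le (E *ᵥ (U.1 *ᵥ (V *ᵥ (U.1ᵀ *ᵥ z))))
    ((P - T) *ᵥ (U.1 *ᵥ (V *ᵥ (U.1ᵀ *ᵥ z))))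
  rw [← add_mulVec, lev_EU h hU] at h4
  have h5 : E *ᵥ (V *ᵥ (U.1ᵀ *ᵥ z)) = (E * V * E) *ᵥ z + (E * V) *ᵥ (F *ᵥ z) +
      (E * V) *ᵥ (U.1ᵀ *ᵥ (P *ᵥ z)) := by
    have h6 := split_vec hU' z
    rw [OG.coe_inv, ← h.sum, add_mulVec] at h6
    rw [h6, Matrix.mulVec_mulVec, mulVec_add, mulVec_add, Matrix.mulVec_mulVec z (E * V) E]
  have h6 := hE.nv_le (mul_nonneg hβ hv.le) z
  have h7 := hop.nv_le hv2.le (F *ᵥ z)
  have h8 := mul_le_mul_of_nonneg_left hz (mul_nonneg hβ hv.le)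
  have h9 := mul_le_mul_of_nonneg_left hφ hv2.le
  have h10 := nv_add_le ((E * V * E) *ᵥ z + (E * V) *ᵥ (F *ᵥ z)) ((E * V) *ᵥ (U.1ᵀ *ᵥ (P *ᵥ z)))
  have h11 := nv_add_le ((E * V * E) *ᵥ z) ((E * V) *ᵥ (F *ᵥ z))
  rw [← h5] at h10
  have h12 := mul_le_mul_of_nonneg_left hδ hv2.le
  have h13 := mul_nonneg hβ hv.le
  have h14 := mul_nonneg hv.le he
  refine absurd hb (not_lt.2 ?_)
  unfold aV
  rw [mulVec_smul]
  refine hsc _ _ ?_
  linarith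

end Level

/-! ### two covariant vectors -/

theorem pair {T F G K : Mat n} {x δ : ℝ} {c : Cst} (h : Big T x) (hK : KH F G K c)
    {a b as bs : Vec n} (ea : (1 - T) *ᵥ a = as + F *ᵥ a) (eb : (1 - T) *ᵥ b = bs + F *ᵥ b)
    (ha : nv a ≤ 1) (hb : nv b ≤ 1) (sa : nv as ≤ δ) (sb : nv bs ≤ δ) :
    (haarH T).real {R | c.B (ep n x) δ < nv (G *ᵥ (R.1 *ᵥ a)) ∨
      c.η (ep n x) δ < |ip (R.1 *ᵥ a) (K *ᵥ (R.1 *ᵥ b))|} ≤ 8 * Real.exp (-x) := by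
  have hΓ := hK.Γpos
  have hy := hK.y0
  have hF : ∀ w, nv w ≤ 1 → nv (K *ᵥ F *ᵥ w) ≤ c.kF := fun w hw =>
    (hK.kF w).trans (mul_le_of_le_one_right hK.kF0 hw)
  have hG : ∀ w, nv w ≤ 1 → nv (G *ᵥ F *ᵥ w) ≤ c.gF := fun w hw =>
    (hK.gF w).trans (mul_le_of_le_one_right hK.gF0 hw)
  have n1 := nrm h hK.D0 hΓ.le hK.hsG hK.opG ha
  have n2 := nrm h hK.D0 hΓ.le hK.hsG hK.opG hb
  have l1 := lin h hb (hF a ha)
  have l2 := lin h ha (hF b hb)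
  have q := bil h hK.sym (M := c.y * c.Γ ^ 2) (by positivity) hK.kKpos.le (fun w => by
    refine (hK.fac w w).trans ?_
    rw [← pow_two, nv_sq, mul_assoc]
    exact mul_le_mul_of_nonneg_left (hK.opG w) hy) hK.hsK hK.trK ha hb
  refine (or_ae T (fun R hR hc => ?_) (or_le (or_le n1 n2) (or_le l1 l2)) q).trans
    (le_of_eq (by ring))
  by_contra hn
  push Not at hn
  obtain ⟨⟨⟨c1, c2⟩, c3, c4⟩, c5⟩ := hn
  rw [split_vec hR a, split_vec hR b, ea, eb, add_assoc as, add_assoc bs] at hc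
  set a1 := R.1 *ᵥ (T *ᵥ a)
  set b1 := R.1 *ᵥ (T *ᵥ b)
  set e := ep n x with he
  have he0 : 0 ≤ e := ep_nonneg n x
  have hδ : 0 ≤ δ := (nv_nonneg _).trans sa
  have hD := hK.D0
  have g1 : ∀ s : Vec n, nv s ≤ δ → nv (G *ᵥ s) ≤ c.Γ * δ := fun s hs =>
    (hK.opG.nv_le hΓ.le s).trans (mul_le_mul_of_nonneg_left hs hΓ.le)
  have g2 : ∀ w w1 : Vec n, nv w ≤ 1 → nv (G *ᵥ w1) ≤ 3 / 2 * c.D + 9 * c.Γ * e →
      nv (G *ᵥ (F *ᵥ w + w1)) ≤ c.gF + 3 * c.D + 9 * c.Γ * e := fun w w1 hw h1 => by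
    rw [mulVec_add]
    linarith [nv_add_le (G *ᵥ F *ᵥ w) (G *ᵥ w1), hG w hw]
  have g3 : ∀ s w : Vec n, nv s ≤ δ → nv (G *ᵥ w) ≤ c.gF + 3 * c.D + 9 * c.Γ * e →
      nv (G *ᵥ (s + w)) ≤ c.B e δ := fun s w hs h1 => by
    rw [mulVec_add]
    unfold Cst.B
    linarith [nv_add_le (G *ᵥ s) (G *ᵥ w), g1 s hs]
  have a2 := g2 a a1 ha c1
  have b2 := g2 b b1 hb c2
  have a3 := g3 as _ sa a2
  have b3 := g3 bs _ sb b2
  rcases hc with hc | hc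
  · exact absurd hc (not_lt.2 a3)
  have hΓδ : 0 ≤ c.Γ * δ := by positivity
  have a4 : nv (G *ᵥ (F *ᵥ a + a1)) ≤ c.B e δ := by
    unfold Cst.B
    linarith
  have t1 : |ip as (K *ᵥ (bs + (F *ᵥ b + b1)))| ≤ c.y * (c.Γ * δ * c.B e δ) :=
    (hK.fac _ _).trans (mul_le_mul_of_nonneg_left
      (mul_le_mul (g1 as sa) b3 (nv_nonneg _) hΓδ) hy)
  have t2 : |ip (F *ᵥ a + a1) (K *ᵥ bs)| ≤ c.y * (c.B e δ * (c.Γ * δ)) :=
    (hK.fac _ _).trans (mul_le_mul_of_nonneg_left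
      (mul_le_mul a4 (g1 bs sb) (nv_nonneg _) ((nv_nonneg _).trans a4)) hy)
  have t3 : |ip (F *ᵥ a) (K *ᵥ F *ᵥ b)| ≤ c.κF :=
    (hK.κF a b).trans (mul_le_of_le_one_right hK.κF0 (mul_le_one₀ ha (nv_nonneg _) hb))
  have e1 : ip (as + (F *ᵥ a + a1)) (K *ᵥ (bs + (F *ᵥ b + b1))) =
      ip as (K *ᵥ (bs + (F *ᵥ b + b1))) + ip (F *ᵥ a + a1) (K *ᵥ bs) +
        ip (F *ᵥ a) (K *ᵥ F *ᵥ b) + ip (K *ᵥ F *ᵥ a) b1 + ip (K *ᵥ F *ᵥ b) a1 +
        ip a1 (K *ᵥ b1) := by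
    have e2 : ip (K *ᵥ F *ᵥ a) b1 = ip (F *ᵥ a) (K *ᵥ b1) := by rw [ip_tr K, hK.sym]
    rw [e2, ipN_comm (K *ᵥ F *ᵥ b) a1]
    simp only [mulVec_add, ip_add_left, ip_add_right]
    ring
  rw [e1] at hc
  unfold Cst.η at hc
  have u1 : 0 ≤ c.kK * e := mul_nonneg hK.kKpos.le he0
  have u2 : 0 ≤ c.y * c.Γ ^ 2 * e ^ 2 := by positivity
  have d1 := abs_le.1 t1
  have d2 := abs_le.1 t2
  have d3 := abs_le.1 t3
  have d4 := abs_le.1 c3
  have d5 := abs_le.1 c4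
  have d6 := abs_le.1 c5
  refine absurd hc (not_lt.2 (abs_le.2 ⟨?_, ?_⟩)) <;>
    linarith [d1.1, d1.2, d2.1, d2.2, d3.1, d3.2, d4.1, d4.2, d5.1, d5.2, d6.1, d6.2]

theorem fib_left {P T : Mat n} (hT : T * P = T) {B A : Set (OG n)} (hB : MeasurableSet B) {q : ℝ}
    (h0 : 0 ≤ q) (hq : ∀ O, O ∉ A → (haarH T).real {R | R * O ∈ B} ≤ q) :
    (haarH P).real B ≤ (haarH P).real A + q := by
  refine Explo.lint_le_real (f := fun O => haarH T {R | R * O ∈ B}) ?_ (fun _ => prob_le_one) h0 hq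
  rw [← lintegral_indicator_one hB, ← (invOn_haarH P).lint_fibre_left (invOn_haarH T)
    (HG_mono hT) (measurable_one.indicator hB)]
  refine lintegral_congr fun O => ?_
  exact lintegral_indicator_one ((measurable_mul_const O) hB)

theorem comb {P E F T G K : Mat n} {p x δ q₁ q₂ : ℝ} {c : Cst} (h : Lev P E F p x)
    (h2 : Two P T) (hK : KH F G K c) {α β : OG n → Vec n} (ha : Cov P E T α δ q₁)
    (hb : Cov P E T β δ q₂) :
    (haarH P).real {U | c.B (ep n x) δ < nv (G *ᵥ α U) ∨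
      c.η (ep n x) δ < |ip (α U) (K *ᵥ β U)|} ≤ q₁ + q₂ + 8 * Real.exp (-x) := by
  refine (fib_left (A := {U | δ < nv ((E + (P - T)) *ᵥ α U) ∨ δ < nv ((E + (P - T)) *ᵥ β U)})
    h2.le ?_ (by positivity) fun O hO => ?_).trans
    (add_le_add (or_le ha.small hb.small) le_rfl)
  · exact (measurableSet_lt measurable_const (meas_nv ((MM.const G).mulVec ha.meas))).union
      (measurableSet_lt measurable_const (meas_ip ha.meas ((MM.const K).mulVec hb.meas)).abs)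
  · simp only [Set.mem_ofPred_eq, not_or, not_lt] at hO
    have e : ∀ a : Vec n, (1 - T) *ᵥ a = (E + (P - T)) *ᵥ a + F *ᵥ a := fun a => by
      rw [← add_mulVec, add_right_comm, h.sum, sub_add_sub_cancel]
    refine (imp_ae T fun R hR hc => ?_).trans
      (pair (lev_two h h2) hK (e _) (e _) (ha.le1 O) (hb.le1 O) hO.1 hO.2)
    rw [← ha.cov R hR, ← hb.cov R hR]
    exact hc

end Vale.Agent.N150.X4.Co
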